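import Crest.Agent.R4.AnnLeaf368

/-!
R4 (S0004), helper368: logarithmic cells of the offset `x - c~`, and the leaf theorem in the form
`Q (Dr r) f f ≤ C mass`.
-/

set_option autoImplicit false
open Finset MeasureTheory

namespace Crest.Agent.R4.AnnLeaf368

open Crest.Agent.R4.Ovl560 Crest.Agent.R4.Piece464
open Crest.Agent.R4.Tour104 (PB I)

/-- logarithmic cell (relative size `ρ`) of an offset, with its sign -/
noncomputable def lc (ρ l : ℝ) : ℤ × SignType :=
  (⌊Real.log |l| / Real.log (1 + ρ)⌋, SignType.sign l)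

lemma lc_close {ρ l l' : ℝ} (hρ : 0 < ρ) (h : lc ρ l = lc ρ l') :
    |l - l'| ≤ ρ * min |l| |l'| := by
  have h1 : ⌊Real.log |l| / Real.log (1 + ρ)⌋ = ⌊Real.log |l'| / Real.log (1 + ρ)⌋ :=
    congrArg Prod.fst h
  have h2 : SignType.sign l = SignType.sign l' := congrArg Prod.snd h
  have hL : 0 < Real.log (1 + ρ) := Real.log_pos (by linarith)
  rcases eq_or_ne l 0 with h0 | h0
  · have h3 : l' = 0 := by
      rw [h0, sign_zero] at h2
      exact sign_eq_zero_iff.1 h2.symm
    rw [h0, h3]; simp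
  · have h0' : l' ≠ 0 := by
      intro h3
      rw [h3, sign_zero] at h2
      exact h0 (sign_eq_zero_iff.1 h2)
    have p1 : 0 < |l| := abs_pos.2 h0
    have p2 : 0 < |l'| := abs_pos.2 h0'
    have habs : |l - l'| = |(|l| - |l'|)| := by
      rcases lt_or_gt_of_ne h0 with h4 | h4
      · have h5 : l' < 0 := by
          rw [sign_neg h4] at h2
          exact sign_eq_neg_one_iff.1 h2.symm
        rw [abs_of_neg h4, abs_of_neg h5]
        have : -l - -l' = -(l - l') := by ring
        rw [this, abs_neg]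
      · have h5 : 0 < l' := by
          rw [sign_pos h4] at h2
          exact sign_eq_one_iff.1 h2.symm
        rw [abs_of_pos h4, abs_of_pos h5]
    -- ratio bound
    have key : ∀ a b : ℝ, 0 < a → 0 < b → ⌊Real.log a / Real.log (1 + ρ)⌋ =
        ⌊Real.log b / Real.log (1 + ρ)⌋ → b ≤ (1 + ρ) * a := by
      intro a b ha hb hab
      have e1 := Int.floor_le (Real.log a / Real.log (1 + ρ))
      have e2 := Int.lt_floor_add_one (Real.log b / Real.log (1 + ρ))
      rw [← hab] at e2
      have e3 : Real.log b / Real.log (1 + ρ) < Real.log a / Real.log (1 + ρ) + 1 := by linarith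
      have e4 : Real.log b < Real.log a + Real.log (1 + ρ) := by
        rw [div_lt_iff₀ hL] at e3
        have : (Real.log a / Real.log (1 + ρ) + 1) * Real.log (1 + ρ) =
          Real.log a + Real.log (1 + ρ) := by field_simp
        rw [this] at e3
        exact e3
      rw [← Real.log_mul ha.ne' (by linarith)] at e4
      have := (Real.log_lt_log_iff hb (by positivity)).1 e4
      linarith
    have k1 := key _ _ p1 p2 h1
    have k2 := key _ _ p2 p1 h1.symm
    rw [habs]
    rcases le_total |l| |l'| with h6 | h6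
    · rw [min_eq_left h6, abs_sub_comm, abs_of_nonneg (by linarith)]
      linarith
    · rw [min_eq_right h6, abs_of_nonneg (by linarith)]
      linarith

/-- two overlapping pieces whose midpoints have the same logarithmic cell (relative to the snapped
centres) have close snapped centres -/
theorem world_close {θ θ' σ σ' ψ ψ' η ρ X : ℝ} {q r : ℕ} (hq : 0 < q) (hr : 0 < r)
    (hψ : 0 < ψ) (hψ' : 0 < ψ') (hρ : 0 < ρ)
    {α β α' β' t : ℝ} {m n : ℤ}
    (h1 : α ≤ (q : ℝ) * t - θ - m ∧ (q : ℝ) * t - θ - m < β)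
    (h2 : α' ≤ (r : ℝ) * t - θ' - n ∧ (r : ℝ) * t - θ' - n < β')
    (hc : lc ρ (((α + β) / 2 + θ - σ) / q) = lc ρ (((α' + β') / 2 + θ' - σ') / r))
    (hα : -ψ ≤ α ∧ β ≤ ψ) (hα' : -ψ' ≤ α' ∧ β' ≤ ψ') (hX : |θ - σ| ≤ X * ψ)
    (hX' : |θ' - σ'| ≤ X * ψ') (hρη : ρ * (1 + X) ≤ η / 2)
    (hfine : (β - α) / (2 * q) + (β' - α') / (2 * r) ≤ η / 2 * min (ψ / q) (ψ' / r)) :
    |(σ + m) / q - (σ' + n) / r| ≤ η * min (ψ / q) (ψ' / r) := by
  have hqr : (0 : ℝ) < q := by exact_mod_cast hq
  have hrr : (0 : ℝ) < r := by exact_mod_cast hr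
  set l := ((α + β) / 2 + θ - σ) / q with hl
  set l' := ((α' + β') / 2 + θ' - σ') / r with hl'
  have hcl := lc_close hρ hc
  -- sizes of the offsets
  have s1 : |l| ≤ (1 + X) * (ψ / q) := by
    rw [hl, abs_div, abs_of_pos hqr, div_le_iff₀ hqr]
    have : (1 + X) * (ψ / q) * q = (1 + X) * ψ := by field_simp
    rw [this]
    have h3 : |(α + β) / 2| ≤ ψ := by
      rw [abs_le]; constructor <;> linarith [h1.1, h1.2, hα.1, hα.2]
    calc |(α + β) / 2 + θ - σ| = |(α + β) / 2 + (θ - σ)| := by ring_nf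
      _ ≤ |(α + β) / 2| + |θ - σ| := abs_add_le _ _
      _ ≤ ψ + X * ψ := add_le_add h3 hX
      _ = (1 + X) * ψ := by ring
  have s2 : |l'| ≤ (1 + X) * (ψ' / r) := by
    rw [hl', abs_div, abs_of_pos hrr, div_le_iff₀ hrr]
    have : (1 + X) * (ψ' / r) * r = (1 + X) * ψ' := by field_simp
    rw [this]
    have h3 : |(α' + β') / 2| ≤ ψ' := by
      rw [abs_le]; constructor <;> linarith [h2.1, h2.2, hα'.1, hα'.2]
    calc |(α' + β') / 2 + θ' - σ'| = |(α' + β') / 2 + (θ' - σ')| := by ring_nf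
      _ ≤ |(α' + β') / 2| + |θ' - σ'| := abs_add_le _ _
      _ ≤ ψ' + X * ψ' := add_le_add h3 hX'
      _ = (1 + X) * ψ' := by ring
  -- the point against the midpoints
  have d1 : |(t - (σ + m) / q) - l| ≤ (β - α) / (2 * q) := by
    have e : (t - (σ + m) / q) - l = ((q : ℝ) * t - θ - m - (α + β) / 2) / q := by
      rw [hl]; field_simp; ring
    rw [e, abs_div, abs_of_pos hqr, div_le_div_iff₀ hqr (by positivity)]
    have h3 : |(q : ℝ) * t - θ - m - (α + β) / 2| ≤ (β - α) / 2 := by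
      rw [abs_le]; constructor <;> linarith [h1.1, h1.2]
    nlinarith
  have d2 : |(t - (σ' + n) / r) - l'| ≤ (β' - α') / (2 * r) := by
    have e : (t - (σ' + n) / r) - l' = ((r : ℝ) * t - θ' - n - (α' + β') / 2) / r := by
      rw [hl']; field_simp; ring
    rw [e, abs_div, abs_of_pos hrr, div_le_div_iff₀ hrr (by positivity)]
    have h3 : |(r : ℝ) * t - θ' - n - (α' + β') / 2| ≤ (β' - α') / 2 := by
      rw [abs_le]; constructor <;> linarith [h2.1, h2.2]
    nlinarith
  have e : (σ + m) / q - (σ' + n) / r =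
      ((t - (σ' + n) / r) - l') - ((t - (σ + m) / q) - l) - (l - l') := by ring
  have hmin : min |l| |l'| ≤ (1 + X) * min (ψ / q) (ψ' / r) := by
    have hX0 : 0 ≤ 1 + X := by
      have : 0 ≤ X * ψ := (abs_nonneg _).trans hX
      have := nonneg_of_mul_nonneg_left this hψ
      linarith
    rw [mul_min_of_nonneg _ _ hX0]
    exact min_le_min s1 s2
  have hmm : 0 ≤ min (ψ / q) (ψ' / r) := by positivity
  calc |(σ + m) / q - (σ' + n) / r|
      = |((t - (σ' + n) / r) - l') - ((t - (σ + m) / q) - l) - (l - l')| := by rw [e]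
    _ ≤ |(t - (σ' + n) / r) - l'| + |(t - (σ + m) / q) - l| + |l - l'| :=
        (abs_sub _ _).trans (add_le_add_left (abs_sub _ _) _)
    _ ≤ (β' - α') / (2 * r) + (β - α) / (2 * q) + ρ * ((1 + X) * min (ψ / q) (ψ' / r)) :=
        add_le_add (add_le_add d2 d1) (hcl.trans (mul_le_mul_of_nonneg_left hmin hρ.le))
    _ ≤ η * min (ψ / q) (ψ' / r) := by
        have := mul_le_mul_of_nonneg_right hρη hmm
        nlinarith

/-- homothetic zoom (363): the centres of the targets `λ + ζ (θ - λ)` of two overlapping arcs whose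
snapped centres are close -/
theorem zoom_close {θ θ' l l' R R' η ζ : ℝ} {q r : ℕ} (hq : 0 < q) (hr : 0 < r) (hR : 0 < R)
    (hR' : 0 < R') (hζ : 0 < ζ) (hζ1 : ζ ≤ 1) (hη : η ≤ ζ) {t : ℝ} {m n : ℤ}
    (h1 : |(q : ℝ) * t - θ - m| ≤ R) (h2 : |(r : ℝ) * t - θ' - n| ≤ R')
    (hc : |(l + m) / q - (l' + n) / r| ≤ η * min (R / q) (R' / r)) :
    |((l + ζ * (θ - l)) + m) / q - ((l' + ζ * (θ' - l')) + n) / r| <
      (3 * ζ * R) / q + (3 * ζ * R') / r := by
  have hqr : (0 : ℝ) < q := by exact_mod_cast hq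
  have hrr : (0 : ℝ) < r := by exact_mod_cast hr
  have e : ((l + ζ * (θ - l)) + m) / q - ((l' + ζ * (θ' - l')) + n) / r =
      (1 - ζ) * ((l + m) / q - (l' + n) / r) +
        ζ * (((r : ℝ) * t - θ' - n) / r - ((q : ℝ) * t - θ - m) / q) := by
    field_simp; ring
  have g1 : |((q : ℝ) * t - θ - m) / q| ≤ R / q := by
    rw [abs_div, abs_of_pos hqr]; exact div_le_div_of_nonneg_right h1 hqr.le
  have g2 : |((r : ℝ) * t - θ' - n) / r| ≤ R' / r := by
    rw [abs_div, abs_of_pos hrr]; exact div_le_div_of_nonneg_right h2 hrr.le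
  have p1 : 0 < R / q := by positivity
  have p2 : 0 < R' / r := by positivity
  have hm1 : min (R / q) (R' / r) ≤ R / q := min_le_left _ _
  have hm0 : 0 < min (R / q) (R' / r) := lt_min p1 p2
  rw [e]
  calc |(1 - ζ) * ((l + m) / q - (l' + n) / r) +
        ζ * (((r : ℝ) * t - θ' - n) / r - ((q : ℝ) * t - θ - m) / q)|
      ≤ |(1 - ζ) * ((l + m) / q - (l' + n) / r)| +
        |ζ * (((r : ℝ) * t - θ' - n) / r - ((q : ℝ) * t - θ - m) / q)| := abs_add_le _ _
    _ ≤ 1 * (η * min (R / q) (R' / r)) + ζ * (R' / r + R / q) := by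
        refine add_le_add ?_ ?_
        · rw [abs_mul, abs_of_nonneg (by linarith : 0 ≤ 1 - ζ)]
          refine mul_le_mul (by linarith) hc (abs_nonneg _) zero_le_one
        · rw [abs_mul, abs_of_pos hζ]
          refine mul_le_mul_of_nonneg_left ((abs_sub _ _).trans (add_le_add g2 g1)) hζ.le
    _ ≤ ζ * (R / q) + ζ * (R' / r + R / q) := by
        have k1 : η * min (R / q) (R' / r) ≤ ζ * min (R / q) (R' / r) :=
          mul_le_mul_of_nonneg_right hη hm0.le
        have k2 : ζ * min (R / q) (R' / r) ≤ ζ * (R / q) := mul_le_mul_of_nonneg_left hm1 hζ.le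
        linarith
    _ < (3 * ζ * R) / q + (3 * ζ * R') / r := by
        have k1 : (3 * ζ * R) / q = 3 * ζ * (R / q) := by ring
        have k2 : (3 * ζ * R') / r = 3 * ζ * (R' / r) := by ring
        rw [k1, k2]
        have k3 : 0 < ζ * (R / q) := by positivity
        have k4 : 0 < ζ * (R' / r) := by positivity
        nlinarith

end Crest.Agent.R4.AnnLeaf368
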