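import Mathlib

/-! Numerical (one prime) part of the Koukoulopoulos–Maynard / Hauke–Vazquez Saez–Walker bilinear
inequality, by induction over the primes. -/

set_option autoImplicit false
open Finset

namespace Crest.Agent.R4.HVW560

theorem sum_rpow_le {ι : Type*} (I : Finset ι) (f : ι → ℝ) (hf : ∀ i ∈ I, 0 ≤ f i) {t : ℝ}
    (ht : 1 ≤ t) : ∑ i ∈ I, f i ^ t ≤ (∑ i ∈ I, f i) ^ t := by
  rcases (Finset.sum_nonneg hf).eq_or_lt with h | h
  · have h0 : ∀ i ∈ I, f i = 0 := (Finset.sum_eq_zero_iff_of_nonneg hf).1 h.symm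
    rw [← h, Real.zero_rpow (by linarith)]
    apply le_of_eq
    apply Finset.sum_eq_zero
    intro i hi
    rw [h0 i hi, Real.zero_rpow (by linarith)]
  · calc ∑ i ∈ I, f i ^ t ≤ ∑ i ∈ I, f i * (∑ i ∈ I, f i) ^ (t - 1) := by
          apply Finset.sum_le_sum
          intro i hi
          have h1 : f i ^ t = f i * f i ^ (t-1) := by
            rcases (hf i hi).eq_or_lt with h0 | h0
            · rw [← h0, Real.zero_rpow (by linarith), zero_mul]
            · nth_rewrite 2 [← Real.rpow_one (f i)]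
              rw [← Real.rpow_add h0]; ring_nf
          rw [h1]
          apply mul_le_mul_of_nonneg_left _ (hf i hi)
          apply Real.rpow_le_rpow (hf i hi) (Finset.single_le_sum hf hi) (by linarith)
      _ = (∑ i ∈ I, f i) ^ t := by
          rw [← Finset.sum_mul]
          nth_rewrite 1 [← Real.rpow_one (∑ i ∈ I, f i)]
          rw [← Real.rpow_add h]; ring_nf

theorem schur_rpow {ι κ : Type*} (I : Finset ι) (J : Finset κ) (c : ι → κ → ℝ) (a : ι → ℝ)
    (b : κ → ℝ) {s D : ℝ} (hs : 1/2 ≤ s) (hc : ∀ i ∈ I, ∀ j ∈ J, 0 ≤ c i j)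
    (hD1 : ∀ i ∈ I, ∑ j ∈ J, c i j ≤ D) (hD2 : ∀ j ∈ J, ∑ i ∈ I, c i j ≤ D) (hD : 0 ≤ D)
    (ha : ∀ i ∈ I, 0 ≤ a i) (hb : ∀ j ∈ J, 0 ≤ b j) :
    ∑ i ∈ I, ∑ j ∈ J, c i j * (a i * b j)^s ≤ D * ((∑ i ∈ I, a i) * (∑ j ∈ J, b j))^s := by
  have hSa : 0 ≤ ∑ i ∈ I, a i := Finset.sum_nonneg ha
  have hSb : 0 ≤ ∑ j ∈ J, b j := Finset.sum_nonneg hb
  have h2s : 1 ≤ 2 * s := by linarith
  apply abs_le_of_sq_le_sq' _ (by positivity) |>.2
  rw [← Finset.sum_product']
  have hCS := Finset.sum_mul_sq_le_sq_mul_sq (I ×ˢ J)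
    (fun x => Real.sqrt (c x.1 x.2) * (a x.1)^s) (fun x => Real.sqrt (c x.1 x.2) * (b x.2)^s)
  have h1 : ∑ x ∈ I ×ˢ J, c x.1 x.2 * (a x.1 * b x.2)^s
      = ∑ x ∈ I ×ˢ J, Real.sqrt (c x.1 x.2) * (a x.1)^s * (Real.sqrt (c x.1 x.2) * (b x.2)^s) := by
    apply Finset.sum_congr rfl
    intro x hx
    rw [Finset.mem_product] at hx
    rw [Real.mul_rpow (ha _ hx.1) (hb _ hx.2)]
    have := Real.mul_self_sqrt (hc _ hx.1 _ hx.2)
    calc c x.1 x.2 * (a x.1 ^ s * b x.2 ^ s)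
        = (Real.sqrt (c x.1 x.2) * Real.sqrt (c x.1 x.2)) * (a x.1 ^ s * b x.2 ^ s) := by rw [this]
      _ = _ := by ring
  rw [h1]
  refine hCS.trans ?_
  have hA : ∑ x ∈ I ×ˢ J, (Real.sqrt (c x.1 x.2) * (a x.1)^s)^2 ≤ D * (∑ i ∈ I, a i)^(2*s) := by
    rw [Finset.sum_product]
    calc ∑ i ∈ I, ∑ j ∈ J, (Real.sqrt (c i j) * (a i)^s)^2
        = ∑ i ∈ I, (∑ j ∈ J, c i j) * (a i)^(2*s) := by
          apply Finset.sum_congr rfl
          intro i hi
          rw [Finset.sum_mul]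
          apply Finset.sum_congr rfl
          intro j hj
          rw [mul_pow, Real.sq_sqrt (hc i hi j hj), ← Real.rpow_natCast, ← Real.rpow_mul (ha i hi)]
          congr 2
          push_cast; ring
      _ ≤ ∑ i ∈ I, D * (a i)^(2*s) := by
          apply Finset.sum_le_sum
          intro i hi
          apply mul_le_mul_of_nonneg_right (hD1 i hi)
          exact Real.rpow_nonneg (ha i hi) _
      _ = D * ∑ i ∈ I, (a i)^(2*s) := by rw [Finset.mul_sum]
      _ ≤ D * (∑ i ∈ I, a i)^(2*s) := mul_le_mul_of_nonneg_left (sum_rpow_le I a ha h2s) hD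
  have hB : ∑ x ∈ I ×ˢ J, (Real.sqrt (c x.1 x.2) * (b x.2)^s)^2 ≤ D * (∑ j ∈ J, b j)^(2*s) := by
    rw [Finset.sum_product_right]
    calc ∑ j ∈ J, ∑ i ∈ I, (Real.sqrt (c i j) * (b j)^s)^2
        = ∑ j ∈ J, (∑ i ∈ I, c i j) * (b j)^(2*s) := by
          apply Finset.sum_congr rfl
          intro j hj
          rw [Finset.sum_mul]
          apply Finset.sum_congr rfl
          intro i hi
          rw [mul_pow, Real.sq_sqrt (hc i hi j hj), ← Real.rpow_natCast, ← Real.rpow_mul (hb j hj)]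
          congr 2
          push_cast; ring
      _ ≤ ∑ j ∈ J, D * (b j)^(2*s) := by
          apply Finset.sum_le_sum
          intro j hj
          apply mul_le_mul_of_nonneg_right (hD2 j hj)
          exact Real.rpow_nonneg (hb j hj) _
      _ = D * ∑ j ∈ J, (b j)^(2*s) := by rw [Finset.mul_sum]
      _ ≤ D * (∑ j ∈ J, b j)^(2*s) := mul_le_mul_of_nonneg_left (sum_rpow_le J b hb h2s) hD
  calc (∑ x ∈ I ×ˢ J, (Real.sqrt (c x.1 x.2) * (a x.1)^s)^2) *
        ∑ x ∈ I ×ˢ J, (Real.sqrt (c x.1 x.2) * (b x.2)^s)^2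
      ≤ (D * (∑ i ∈ I, a i)^(2*s)) * (D * (∑ j ∈ J, b j)^(2*s)) :=
        mul_le_mul hA hB (Finset.sum_nonneg fun _ _ => sq_nonneg _) (by positivity)
    _ = (D * ((∑ i ∈ I, a i) * ∑ j ∈ J, b j) ^ s) ^ 2 := by
        rw [mul_pow, Real.mul_rpow hSa hSb, mul_pow, ← Real.rpow_natCast, ← Real.rpow_natCast ((∑ i ∈ I, a i)^s),
          ← Real.rpow_natCast ((∑ j ∈ J, b j)^s), ← Real.rpow_mul hSa, ← Real.rpow_mul hSb]
        push_cast
        rw [show s * 2 = 2 * s by ring, Real.rpow_two]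
        ring

/-- the distance of two exponents -/
def dst (k l : ℕ) : ℕ := (k - l) + (l - k)

theorem dst_comm (k l : ℕ) : dst k l = dst l k := by unfold dst; omega
theorem dst_self (k : ℕ) : dst k k = 0 := by unfold dst; omega
theorem dst_pos {k l : ℕ} (h : k ≠ l) : 0 < dst k l := by unfold dst; omega

theorem geom9 {q : ℝ} (h0 : 0 ≤ q) (h1 : q ≤ 8/9) (n : ℕ) : ∑ j ∈ range n, q^(j+1) ≤ 9 * q := by
  have h2 : ∑ j ∈ range n, q^j ≤ 9 := by
    have hq : q ≠ 1 := by linarith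
    rw [geom_sum_eq hq]
    have h3 : 0 < 1 - q := by linarith
    have h4 : (q^n - 1)/(q-1) = (1 - q^n)/(1-q) := by
      rw [← neg_sub 1 (q^n), ← neg_sub 1 q, neg_div_neg_eq]
    rw [h4, div_le_iff₀ h3]
    have : 0 ≤ q^n := by positivity
    nlinarith
  calc ∑ j ∈ range n, q^(j+1) = (∑ j ∈ range n, q^j) * q := by
        rw [Finset.sum_mul]; apply Finset.sum_congr rfl; intros; ring
    _ ≤ 9 * q := mul_le_mul_of_nonneg_right h2 h0

theorem offrow {q : ℝ} (h0 : 0 ≤ q) (h1 : q ≤ 8/9) (n k : ℕ) :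
    ∑ l ∈ (range n).erase k, q^(dst k l) ≤ 18 * q := by
  have hsub : (range n).erase k ⊆ range k ∪ Ico (k+1) n := by
    intro l hl
    simp only [mem_erase, mem_range, mem_union, mem_Ico] at hl ⊢
    omega
  have hdis : Disjoint (range k) (Ico (k+1) n) := by
    rw [Finset.disjoint_left]; intro l hl hl2
    simp only [mem_range, mem_Ico] at hl hl2; omega
  calc ∑ l ∈ (range n).erase k, q^(dst k l) ≤ ∑ l ∈ range k ∪ Ico (k+1) n, q^(dst k l) :=
        Finset.sum_le_sum_of_subset_of_nonneg hsub (fun _ _ _ => by positivity)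
    _ = ∑ l ∈ range k, q^(dst k l) + ∑ l ∈ Ico (k+1) n, q^(dst k l) := Finset.sum_union hdis
    _ ≤ 9 * q + 9 * q := by
        apply add_le_add
        · rw [← Finset.sum_range_reflect]
          calc ∑ j ∈ range k, q^(dst k (k - 1 - j)) = ∑ j ∈ range k, q^(j+1) := by
                apply Finset.sum_congr rfl
                intro j hj
                rw [mem_range] at hj
                congr 1
                unfold dst; omega
            _ ≤ 9 * q := geom9 h0 h1 k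
        · rw [Finset.sum_Ico_eq_sum_range]
          calc ∑ j ∈ range (n - (k+1)), q^(dst k (k+1+j)) = ∑ j ∈ range (n - (k+1)), q^(j+1) := by
                apply Finset.sum_congr rfl
                intro j hj
                congr 1
                unfold dst; omega
            _ ≤ 9 * q := geom9 h0 h1 _
    _ = 18 * q := by ring

theorem offrow' {q : ℝ} (h0 : 0 ≤ q) (h1 : q ≤ 8/9) (n k : ℕ) :
    ∑ l ∈ (range n).erase k, q^(dst l k) ≤ 18 * q := by
  simp_rw [dst_comm _ k]; exact offrow h0 h1 n k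

theorem fullrow {q : ℝ} (h0 : 0 ≤ q) (h1 : q ≤ 8/9) (n k : ℕ) (S : Finset ℕ) (hS : S ⊆ range n) :
    ∑ l ∈ S, q^(dst k l) ≤ 1 + 18 * q := by
  calc ∑ l ∈ S, q^(dst k l) ≤ ∑ l ∈ insert k ((range n).erase k), q^(dst k l) := by
        apply Finset.sum_le_sum_of_subset_of_nonneg _ (fun _ _ _ => by positivity)
        intro l hl
        have := hS hl
        simp only [mem_insert, mem_erase]
        tauto
    _ = 1 + ∑ l ∈ (range n).erase k, q^(dst k l) := by
        rw [Finset.sum_insert (by simp), dst_self, pow_zero]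
    _ ≤ _ := by linarith [offrow h0 h1 n k]

theorem fullrow' {q : ℝ} (h0 : 0 ≤ q) (h1 : q ≤ 8/9) (n k : ℕ) (S : Finset ℕ) (hS : S ⊆ range n) :
    ∑ l ∈ S, q^(dst l k) ≤ 1 + 18 * q := by
  simp_rw [dst_comm _ k]; exact fullrow h0 h1 n k S hS

/-- all pairs -/
theorem all_pairs {q s : ℝ} (h0 : 0 ≤ q) (h1 : q ≤ 8/9) (hs : 1/2 ≤ s) (n : ℕ) (S T : Finset ℕ)
    (hS : S ⊆ range n) (hT : T ⊆ range n) (a b : ℕ → ℝ) (ha : ∀ k, 0 ≤ a k) (hb : ∀ k, 0 ≤ b k) :
    ∑ k ∈ S, ∑ l ∈ T, q^(dst k l) * (a k * b l)^s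
      ≤ (1 + 18*q) * ((∑ k ∈ S, a k) * (∑ l ∈ T, b l))^s :=
  schur_rpow S T (fun k l => q^(dst k l)) a b hs (fun _ _ _ _ => by positivity)
    (fun k _ => fullrow h0 h1 n k T hT) (fun k _ => fullrow' h0 h1 n k S hS) (by positivity)
    (fun k _ => ha k) (fun k _ => hb k)

end Crest.Agent.R4.HVW560
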