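import Mathlib
import Crest.Agent.R4.HVWNum560

/-! One-prime inequality for the HVW induction. -/

set_option autoImplicit false
open Finset

namespace Crest.Agent.R4.HVW560

/-- exact splitting -/
noncomputable def FA (q s : ℝ) (n : ℕ) (a b : ℕ → ℝ) : ℝ :=
  ∑ k ∈ range n, ∑ l ∈ range n, q^(dst k l) * (a k * b l)^s

/-- splitting with the part `min = K` kept in one piece -/
noncomputable def FK (q s c : ℝ) (n K : ℕ) (a b : ℕ → ℝ) : ℝ :=
  c * ((∑ k ∈ (range n).filter (fun k => K ≤ k), a k) *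
    (∑ l ∈ (range n).filter (fun l => K ≤ l), b l))^s +
  ∑ x ∈ (range n ×ˢ range n).filter (fun x => min x.1 x.2 ≠ K), q^(dst x.1 x.2) * (a x.1 * b x.2)^s

theorem FA_le {q s : ℝ} (h0 : 0 ≤ q) (h1 : q ≤ 8/9) (hs : 1/2 ≤ s) (n : ℕ) (a b : ℕ → ℝ)
    (ha : ∀ k, 0 ≤ a k) (hb : ∀ k, 0 ≤ b k) (hSa : ∑ k ∈ range n, a k = 1)
    (hSb : ∑ k ∈ range n, b k = 1) : FA q s n a b ≤ 1 + 18 * q := by
  have := all_pairs h0 h1 hs n (range n) (range n) (le_refl _) (le_refl _) a b ha hb
  rw [hSa, hSb, one_mul, Real.one_rpow, mul_one] at this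
  exact this

theorem quarter_pow {ε : ℝ} (h0 : 0 ≤ ε) (h1 : ε ≤ 1) : (1/4 : ℝ)^ε ≤ 1 - 3*ε/4 := by
  have := Real.geom_mean_le_arith_mean2_weighted (w₁ := ε) (w₂ := 1 - ε) (p₁ := 1/4) (p₂ := 1)
    h0 (by linarith) (by norm_num) (by norm_num) (by ring)
  rw [Real.one_rpow, mul_one] at this
  linarith

/-- case `a_K + b_K < 1` -/
theorem FA_case1 {q ε : ℝ} (h0 : 0 ≤ q) (h1 : q ≤ 8/9) (hε : 0 < ε) (hε1 : ε ≤ 1) (n : ℕ) (a b : ℕ → ℝ)
    (ha : ∀ k, 0 ≤ a k) (hb : ∀ k, 0 ≤ b k) (hSa : ∑ k ∈ range n, a k = 1)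
    (hSb : ∑ k ∈ range n, b k = 1) (h4 : ∀ k ∈ range n, a k * b k ≤ 1/4) :
    FA q (1/2+ε) n a b ≤ 1 - 3*ε/4 + 18 * q := by
  have hsplit : FA q (1/2+ε) n a b = ∑ k ∈ range n, (a k * b k)^(1/2+ε) +
      ∑ k ∈ range n, ∑ l ∈ range n, (if k = l then 0 else q^(dst k l)) * (a k * b l)^(1/2+ε) := by
    unfold FA
    rw [← Finset.sum_add_distrib]
    apply Finset.sum_congr rfl
    intro k hk
    have : (a k * b k)^(1/2+ε) = ∑ l ∈ range n, if k = l then (a k * b l)^(1/2+ε) else 0 := by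
      rw [Finset.sum_ite_eq, if_pos hk]
    rw [this, ← Finset.sum_add_distrib]
    apply Finset.sum_congr rfl
    intro l hl
    by_cases h : k = l
    · rw [if_pos h, if_pos h, h, dst_self]; simp
    · rw [if_neg h, if_neg h]; simp
  rw [hsplit]
  have hd : ∑ k ∈ range n, (a k * b k)^(1/2+ε) ≤ 1 - 3*ε/4 := by
    have hq := quarter_pow hε.le hε1
    have h4n : 0 ≤ (1/4:ℝ)^ε := by positivity
    calc ∑ k ∈ range n, (a k * b k)^(1/2+ε) ≤ ∑ k ∈ range n, (1/4:ℝ)^ε * ((a k + b k)/2) := by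
          apply Finset.sum_le_sum
          intro k hk
          have hab : 0 ≤ a k * b k := mul_nonneg (ha k) (hb k)
          rcases hab.eq_or_lt with h | h
          · rw [← h, Real.zero_rpow (by linarith)]
            have := ha k; have := hb k
            positivity
          · rw [Real.rpow_add h, mul_comm]
            apply mul_le_mul
            · exact Real.rpow_le_rpow hab (h4 k hk) hε.le
            · rw [← Real.sqrt_eq_rpow]
              rw [Real.sqrt_le_left (by have := ha k; have := hb k; positivity)]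
              nlinarith [sq_nonneg (a k - b k)]
            · positivity
            · exact h4n
      _ = (1/4:ℝ)^ε := by
          rw [← Finset.mul_sum, ← Finset.sum_div, Finset.sum_add_distrib, hSa, hSb]; norm_num
      _ ≤ _ := hq
  have ho : ∑ k ∈ range n, ∑ l ∈ range n, (if k = l then 0 else q^(dst k l)) * (a k * b l)^(1/2+ε)
      ≤ 18 * q * ((∑ k ∈ range n, a k) * (∑ l ∈ range n, b l))^(1/2+ε) := by
    apply schur_rpow (range n) (range n) (fun k l => if k = l then 0 else q^(dst k l)) a b (by linarith)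
    · intro i _ j _; split_ifs <;> positivity
    · intro k hk
      refine le_trans (le_of_eq ?_) (offrow h0 h1 n k)
      rw [← Finset.sum_erase_add _ _ hk, if_pos rfl, add_zero]
      apply Finset.sum_congr rfl
      intro l hl
      rw [if_neg (fun h => (Finset.mem_erase.1 hl).1 h.symm)]
    · intro k hk
      refine le_trans (le_of_eq ?_) (offrow' h0 h1 n k)
      rw [← Finset.sum_erase_add _ _ hk, if_pos rfl, add_zero]
      apply Finset.sum_congr rfl
      intro l hl
      rw [if_neg (fun h => (Finset.mem_erase.1 hl).1 h)]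
    · positivity
    · exact fun k _ => ha k
    · exact fun k _ => hb k
  rw [hSa, hSb, one_mul, Real.one_rpow, mul_one] at ho
  linarith

/-- single deviations, Hölder -/
theorem single_dev {q ε : ℝ} (h0 : 0 < q) (h1 : q ≤ 8/9) (hε : 0 < ε) (hε4 : ε ≤ 1/4) (n K : ℕ)
    (b : ℕ → ℝ) (hb : ∀ k, 0 ≤ b k) :
    ∑ l ∈ (range n).erase K, q^(dst K l) * (b l)^(1/2+ε)
      ≤ 5 * q * (∑ l ∈ (range n).erase K, b l)^(1/2+ε) := by
  set u : ℝ := 1/2 - ε with hu
  set s : ℝ := 1/2 + ε with hs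
  have hu0 : 0 < u := by rw [hu]; linarith
  have hs0 : 0 < s := by rw [hs]; linarith
  have hconj : (1/u).HolderConjugate (1/s) := by
    rw [Real.holderConjugate_iff]
    constructor
    · rw [one_lt_div hu0]; linarith
    · rw [inv_div, inv_div, div_one, div_one]; linarith
  have hH := Real.inner_le_Lp_mul_Lq_of_nonneg ((range n).erase K) hconj
    (f := fun l => q^(dst K l)) (g := fun l => (b l)^s)
    (fun l _ => by positivity) (fun l _ => Real.rpow_nonneg (hb l) _)
  refine hH.trans ?_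
  rw [one_div_one_div, one_div_one_div]
  have e1 : ∑ l ∈ (range n).erase K, ((b l)^s)^(1/s) = ∑ l ∈ (range n).erase K, b l := by
    apply Finset.sum_congr rfl
    intro l _
    rw [← Real.rpow_mul (hb l), mul_one_div_cancel hs0.ne', Real.rpow_one]
  rw [e1]
  have hQ : q^(1/u) ≤ 8/9 := by
    calc q^(1/u) ≤ q^(1:ℝ) := Real.rpow_le_rpow_of_exponent_ge h0 (by linarith) (by
            rw [le_div_iff₀ hu0]; linarith)
      _ = q := Real.rpow_one q
      _ ≤ 8/9 := h1
  have hQ0 : 0 ≤ q^(1/u) := by positivity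
  have e2 : ∑ l ∈ (range n).erase K, (q^(dst K l))^(1/u) ≤ 18 * q^(1/u) := by
    refine le_trans (le_of_eq ?_) (offrow hQ0 hQ n K)
    apply Finset.sum_congr rfl
    intro l _
    rw [← Real.rpow_natCast, ← Real.rpow_natCast, ← Real.rpow_mul h0.le, ← Real.rpow_mul h0.le, mul_comm]
  have e3 : (∑ l ∈ (range n).erase K, (q^(dst K l))^(1/u))^u ≤ 5 * q := by
    calc (∑ l ∈ (range n).erase K, (q^(dst K l))^(1/u))^u ≤ (18 * q^(1/u))^u := by
          apply Real.rpow_le_rpow _ e2 hu0.le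
          apply Finset.sum_nonneg; intros; positivity
      _ = 18^u * q := by
          rw [Real.mul_rpow (by norm_num) hQ0, ← Real.rpow_mul h0.le, one_div_mul_cancel hu0.ne', Real.rpow_one]
      _ ≤ 5 * q := by
          apply mul_le_mul_of_nonneg_right _ h0.le
          calc (18:ℝ)^u ≤ 18^(1/2:ℝ) := Real.rpow_le_rpow_of_exponent_le (by norm_num) (by linarith)
            _ ≤ 5 := by
              rw [← Real.sqrt_eq_rpow, Real.sqrt_le_left (by norm_num)]; norm_num
  apply mul_le_mul_of_nonneg_right e3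
  apply Real.rpow_nonneg
  exact Finset.sum_nonneg fun l _ => hb l

theorem rpow_le_one_sub {x s : ℝ} (hx : x ≤ 1) (hs0 : 0 ≤ s) (hs1 : s ≤ 1) :
    (1 - x)^s ≤ 1 - s * x := by
  have := _root_.rpow_one_add_le_one_add_mul_self (s := -x) (by linarith) hs0 hs1
  calc (1-x)^s = (1 + -x)^s := by ring_nf
    _ ≤ 1 + s * (-x) := this
    _ = _ := by ring

/-- case `z ≤ 1/2` -/
theorem FA_case2 {q ε : ℝ} (h0 : 0 < q) (h1 : q ≤ 8/9) (hε : 0 < ε) (hε4 : ε ≤ 1/4) (n K : ℕ)
    (hK : K ∈ range n) (a b : ℕ → ℝ)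
    (ha : ∀ k, 0 ≤ a k) (hb : ∀ k, 0 ≤ b k) (hSa : ∑ k ∈ range n, a k = 1)
    (hSb : ∑ k ∈ range n, b k = 1) {z : ℝ} (hz : a K + b K = 2 - 2*z) (hz2 : z ≤ 1/2) :
    FA q (1/2+ε) n a b ≤ 1 - ε/2 * z + 28 * q * z^(1/2+ε) := by
  set s : ℝ := 1/2 + ε with hs
  have hs0 : 0 < s := by rw [hs]; linarith
  have hs1 : s ≤ 1 := by linarith
  set x := ∑ k ∈ (range n).erase K, a k with hx
  set y := ∑ l ∈ (range n).erase K, b l with hy
  have hx0 : 0 ≤ x := Finset.sum_nonneg fun k _ => ha k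
  have hy0 : 0 ≤ y := Finset.sum_nonneg fun k _ => hb k
  have hax : a K = 1 - x := by
    have := Finset.sum_erase_add (range n) a hK
    rw [hSa] at this; linarith
  have hby : b K = 1 - y := by
    have := Finset.sum_erase_add (range n) b hK
    rw [hSb] at this; linarith
  have hzxy : z = (x+y)/2 := by linarith
  have hz0 : 0 ≤ z := by rw [hzxy]; positivity
  have ha1 : a K ≤ 1 := by linarith
  have hb1 : b K ≤ 1 := by linarith
  have hsplit : FA q s n a b = (∑ k ∈ (range n).erase K, ∑ l ∈ (range n).erase K, q^(dst k l) * (a k * b l)^s)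
      + (∑ k ∈ (range n).erase K, q^(dst k K) * (a k * b K)^s)
      + (∑ l ∈ (range n).erase K, q^(dst K l) * (a K * b l)^s) + (a K * b K)^s := by
    unfold FA
    rw [← Finset.sum_erase_add _ _ hK]
    have : ∀ k, ∑ l ∈ range n, q^(dst k l) * (a k * b l)^s
        = ∑ l ∈ (range n).erase K, q^(dst k l) * (a k * b l)^s + q^(dst k K) * (a k * b K)^s := by
      intro k; rw [Finset.sum_erase_add _ _ hK]
    simp_rw [this]
    rw [Finset.sum_add_distrib, dst_self, pow_zero, one_mul]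
    ring
  rw [hsplit]
  have r1 : ∑ k ∈ (range n).erase K, ∑ l ∈ (range n).erase K, q^(dst k l) * (a k * b l)^s
      ≤ (1+18*q) * (x*y)^s :=
    all_pairs h0.le h1 (by linarith) n _ _ (Finset.erase_subset _ _) (Finset.erase_subset _ _) a b ha hb
  have r2 : ∑ k ∈ (range n).erase K, q^(dst k K) * (a k * b K)^s ≤ 5 * q * x^s := by
    refine le_trans ?_ (single_dev h0 h1 hε hε4 n K a ha)
    apply Finset.sum_le_sum
    intro k _
    rw [dst_comm]
    apply mul_le_mul_of_nonneg_left _ (by positivity)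
    apply Real.rpow_le_rpow (mul_nonneg (ha k) (hb K)) _ hs0.le
    calc a k * b K ≤ a k * 1 := mul_le_mul_of_nonneg_left hb1 (ha k)
      _ = a k := mul_one _
  have r3 : ∑ l ∈ (range n).erase K, q^(dst K l) * (a K * b l)^s ≤ 5 * q * y^s := by
    refine le_trans ?_ (single_dev h0 h1 hε hε4 n K b hb)
    apply Finset.sum_le_sum
    intro k _
    apply mul_le_mul_of_nonneg_left _ (by positivity)
    apply Real.rpow_le_rpow (mul_nonneg (ha K) (hb k)) _ hs0.le
    calc a K * b k ≤ 1 * b k := mul_le_mul_of_nonneg_right ha1 (hb k)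
      _ = b k := one_mul _
  -- (xy)^s ≤ z^(2s)
  have hxy : x * y ≤ z^(2:ℝ) := by
    rw [hzxy, Real.rpow_two]; nlinarith [sq_nonneg (x-y)]
  have r4 : (x*y)^s ≤ z^(2*s) := by
    rw [Real.rpow_mul hz0]
    exact Real.rpow_le_rpow (by positivity) hxy hs0.le
  have r5 : z^(2*s) ≤ z * (1 - ε/2) := by
    rcases hz0.eq_or_lt with h | h
    · rw [← h, Real.zero_rpow (by positivity)]; simp
    · have e : z^(2*s) = z * (z^2)^ε := by
        rw [show 2*s = 1 + 2*ε by rw [hs]; ring, Real.rpow_add h, Real.rpow_one, Real.rpow_mul h.le, Real.rpow_two]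
      rw [e]
      apply mul_le_mul_of_nonneg_left _ h.le
      calc (z^2)^ε ≤ (1/4:ℝ)^ε := by
            apply Real.rpow_le_rpow (by positivity) _ hε.le
            nlinarith
        _ ≤ 1 - 3*ε/4 := quarter_pow hε.le (by linarith)
        _ ≤ 1 - ε/2 := by linarith
  have r5' : z^(2*s) ≤ z^s := by
    rcases hz0.eq_or_lt with h | h
    · rw [← h, Real.zero_rpow (by positivity), Real.zero_rpow (by positivity)]
    · exact Real.rpow_le_rpow_of_exponent_ge h (by linarith) (by linarith)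
  have r6 : (a K * b K)^s ≤ 1 - z := by
    have hm : a K * b K ≤ (1-z)^(2:ℝ) := by
      rw [Real.rpow_two, hax, hby, hzxy]; nlinarith [sq_nonneg (x-y)]
    calc (a K * b K)^s ≤ ((1-z)^(2:ℝ))^s := Real.rpow_le_rpow (mul_nonneg (ha K) (hb K)) hm hs0.le
      _ = (1-z)^(2*s) := by rw [← Real.rpow_mul (by linarith)]
      _ ≤ (1-z)^(1:ℝ) := Real.rpow_le_rpow_of_exponent_ge (by linarith) (by linarith) (by linarith)
      _ = 1 - z := Real.rpow_one _
  -- x^s + y^s ≤ 2 z^s
  have r7 : x^s + y^s ≤ 2 * z^s := by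
    have hc := (Real.concaveOn_rpow hs0.le hs1).2 (Set.mem_Ici.2 hx0) (Set.mem_Ici.2 hy0)
      (show (0:ℝ) ≤ 1/2 by norm_num) (show (0:ℝ) ≤ 1/2 by norm_num) (by norm_num)
    simp only [smul_eq_mul] at hc
    have : 1/2 * x + 1/2 * y = z := by rw [hzxy]; ring
    rw [this] at hc
    linarith
  have hqz : 0 ≤ q * z^s := by positivity
  calc _ ≤ (1+18*q) * (x*y)^s + 5*q*x^s + 5*q*y^s + (a K * b K)^s := by linarith
    _ = (x*y)^s + (a K * b K)^s + 18*q*(x*y)^s + 5*q*(x^s+y^s) := by ring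
    _ ≤ z*(1-ε/2) + (1-z) + 18*q*z^s + 5*q*(2*z^s) := by
        have t1 : (x*y)^s ≤ z*(1-ε/2) := r4.trans r5
        have t2 : 18*q*(x*y)^s ≤ 18*q*z^s := mul_le_mul_of_nonneg_left (r4.trans r5') (by positivity)
        have t3 : 5*q*(x^s+y^s) ≤ 5*q*(2*z^s) := mul_le_mul_of_nonneg_left r7 (by positivity)
        linarith
    _ = 1 - ε/2*z + 28*q*z^s := by ring

/-- concentrated case -/
theorem FK_conc {q ε P R' : ℝ} (h0 : 0 < q) (hq : q ≤ ε/24) (hε : 0 < ε) (hε4 : ε ≤ 1/4)
    (hR' : ∀ m, ∑ j ∈ range m, (q^(1/(1/2-ε)))^(j+1) ≤ R') (hP : 0 < P) (hP1 : P ≤ 1) (hPR : P ≤ R')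
    (n K : ℕ) (hK : K ∈ range n) (a b : ℕ → ℝ)
    (ha : ∀ k, 0 ≤ a k) (hb : ∀ k, 0 ≤ b k) (hSa : ∑ k ∈ range n, a k = 1)
    (hSb : ∑ k ∈ range n, b k = 1) {z : ℝ} (hz : a K + b K = 2 - 2*z) (hz2 : z ≤ 1/2) :
    FK q (1/2+ε) (if K = 0 then 1 else (1-P)^(2*(1/2-ε))) n K a b
      ≤ 1 + ((R' - P) + P^2 + 4 * z^(2*(1/2+ε))) := by
  have h1 : q ≤ 8/9 := by linarith
  set s : ℝ := 1/2 + ε with hs
  set u : ℝ := 1/2 - ε with hu
  have hs0 : 0 < s := by rw [hs]; linarith
  have hs1 : s ≤ 1 := by linarith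
  have hu0 : 0 < u := by rw [hu]; linarith
  set x := ∑ k ∈ (range n).erase K, a k with hx
  set y := ∑ l ∈ (range n).erase K, b l with hy
  have hx0 : 0 ≤ x := Finset.sum_nonneg fun k _ => ha k
  have hy0 : 0 ≤ y := Finset.sum_nonneg fun k _ => hb k
  have hax : a K = 1 - x := by
    have := Finset.sum_erase_add (range n) a hK
    rw [hSa] at this; linarith
  have hby : b K = 1 - y := by
    have := Finset.sum_erase_add (range n) b hK
    rw [hSb] at this; linarith
  have hzxy : z = (x+y)/2 := by linarith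
  have hz0 : 0 ≤ z := by rw [hzxy]; positivity
  have ha1 : a K ≤ 1 := by linarith
  have hb1 : b K ≤ 1 := by linarith
  have hxy : x * y ≤ z^(2:ℝ) := by
    rw [hzxy, Real.rpow_two]; nlinarith [sq_nonneg (x-y)]
  have r4 : (x*y)^s ≤ z^(2*s) := by
    rw [Real.rpow_mul hz0]
    exact Real.rpow_le_rpow (by positivity) hxy hs0.le
  have hz2s : z^2 ≤ z^(2*s) := by
    rcases hz0.eq_or_lt with h | h
    · rw [← h, Real.zero_rpow (by positivity)]; simp
    · rw [← Real.rpow_two]
      exact Real.rpow_le_rpow_of_exponent_ge h (by linarith) (by linarith)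
  have hzs0 : 0 ≤ z^(2*s) := by positivity
  -- masses below K
  set xm := ∑ k ∈ range K, a k with hxm
  set ym := ∑ k ∈ range K, b k with hym
  have hKn : K < n := mem_range.1 hK
  have hxm0 : 0 ≤ xm := Finset.sum_nonneg fun k _ => ha k
  have hym0 : 0 ≤ ym := Finset.sum_nonneg fun k _ => hb k
  have hsub : range K ⊆ (range n).erase K := by
    intro k hk
    simp only [mem_range, mem_erase] at hk ⊢; omega
  have hxmx : xm ≤ x := Finset.sum_le_sum_of_subset_of_nonneg hsub (fun k _ _ => ha k)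
  have hymy : ym ≤ y := Finset.sum_le_sum_of_subset_of_nonneg hsub (fun k _ _ => hb k)
  have hge : ∀ c : ℕ → ℝ, ∑ k ∈ range n, c k = 1 →
      ∑ k ∈ (range n).filter (fun k => K ≤ k), c k = 1 - ∑ k ∈ range K, c k := by
    intro c hc
    have h := Finset.sum_filter_add_sum_filter_not (range n) (fun k => K ≤ k) c
    have h2 : (range n).filter (fun k => ¬ K ≤ k) = range K := by
      ext k; simp only [mem_filter, mem_range]; omega
    rw [h2, hc] at h
    linarith
  have hgea := hge a hSa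
  have hgeb := hge b hSb
  -- the exact part
  have hexact : ∑ x ∈ (range n ×ˢ range n).filter (fun x => min x.1 x.2 ≠ K),
      q^(dst x.1 x.2) * (a x.1 * b x.2)^s
      ≤ (1+18*q) * (x*y)^s + ∑ k ∈ range K, q^(dst k K) * (a k)^s + ∑ l ∈ range K, q^(dst K l) * (b l)^s := by
    set f : ℕ × ℕ → ℝ := fun x => q^(dst x.1 x.2) * (a x.1 * b x.2)^s with hf
    have hfn : ∀ x, 0 ≤ f x := fun x => mul_nonneg (by positivity)
      (Real.rpow_nonneg (mul_nonneg (ha _) (hb _)) _)
    have hss : (range n ×ˢ range n).filter (fun x => min x.1 x.2 ≠ K) ⊆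
        (((range n).erase K) ×ˢ ((range n).erase K)) ∪ ((range K ×ˢ {K}) ∪ ({K} ×ˢ range K)) := by
      intro x hx
      simp only [mem_filter, mem_product, mem_range, mem_union, mem_erase, mem_singleton] at hx ⊢
      omega
    have hd1 : Disjoint (((range n).erase K) ×ˢ ((range n).erase K))
        ((range K ×ˢ {K}) ∪ ({K} ×ˢ range K)) := by
      rw [Finset.disjoint_left]
      intro x hx
      simp only [mem_product, mem_range, mem_union, mem_erase, mem_singleton] at hx ⊢
      omega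
    have hd2 : Disjoint (range K ×ˢ ({K} : Finset ℕ)) (({K} : Finset ℕ) ×ˢ range K) := by
      rw [Finset.disjoint_left]
      intro x hx
      simp only [mem_product, mem_range, mem_singleton] at hx ⊢
      omega
    calc _ ≤ ∑ x ∈ (((range n).erase K) ×ˢ ((range n).erase K)) ∪ ((range K ×ˢ {K}) ∪ ({K} ×ˢ range K)), f x :=
          Finset.sum_le_sum_of_subset_of_nonneg hss (fun x _ _ => hfn x)
      _ = ∑ x ∈ ((range n).erase K) ×ˢ ((range n).erase K), f x +
          (∑ x ∈ range K ×ˢ {K}, f x + ∑ x ∈ {K} ×ˢ range K, f x) := by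
          rw [Finset.sum_union hd1, Finset.sum_union hd2]
      _ ≤ (1+18*q) * (x*y)^s + (∑ k ∈ range K, q^(dst k K) * (a k)^s + ∑ l ∈ range K, q^(dst K l) * (b l)^s) := by
          apply add_le_add
          · rw [Finset.sum_product]
            exact all_pairs h0.le h1 (by linarith) n _ _ (Finset.erase_subset _ _) (Finset.erase_subset _ _) a b ha hb
          · apply add_le_add
            · rw [Finset.sum_product]
              simp only [Finset.sum_singleton]
              apply Finset.sum_le_sum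
              intro k _
              apply mul_le_mul_of_nonneg_left _ (by positivity)
              apply Real.rpow_le_rpow (mul_nonneg (ha k) (hb K)) _ hs0.le
              calc a k * b K ≤ a k * 1 := mul_le_mul_of_nonneg_left hb1 (ha k)
                _ = a k := mul_one _
            · rw [Finset.sum_product]
              simp only [Finset.sum_singleton]
              apply Finset.sum_le_sum
              intro k _
              apply mul_le_mul_of_nonneg_left _ (by positivity)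
              apply Real.rpow_le_rpow (mul_nonneg (ha K) (hb k)) _ hs0.le
              calc a K * b k ≤ 1 * b k := mul_le_mul_of_nonneg_right ha1 (hb k)
                _ = b k := one_mul _
      _ = _ := by ring
  -- Young
  have hyoung : ∀ c : ℕ → ℝ, (∀ k, 0 ≤ c k) →
      ∑ k ∈ range K, q^(dst k K) * (c k)^s ≤ u * R' + s * ∑ k ∈ range K, c k := by
    intro c hc
    have hsum : ∑ k ∈ range K, (q^(1/u))^(dst k K) ≤ R' := by
      rw [← Finset.sum_range_reflect]
      refine le_trans (le_of_eq ?_) (hR' K)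
      apply Finset.sum_congr rfl
      intro j hj
      rw [mem_range] at hj
      congr 1
      unfold dst; omega
    calc ∑ k ∈ range K, q^(dst k K) * (c k)^s
        ≤ ∑ k ∈ range K, (u * (q^(1/u))^(dst k K) + s * c k) := by
          apply Finset.sum_le_sum
          intro k _
          have := Real.geom_mean_le_arith_mean2_weighted (w₁ := u) (w₂ := s)
            (p₁ := (q^(1/u))^(dst k K)) (p₂ := c k) hu0.le hs0.le (by positivity) (hc k) (by rw [hu, hs]; ring)
          refine le_trans (le_of_eq ?_) this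
          congr 1
          rw [← Real.rpow_natCast, ← Real.rpow_natCast, ← Real.rpow_mul h0.le, ← Real.rpow_mul h0.le]
          congr 1
          field_simp
      _ = u * ∑ k ∈ range K, (q^(1/u))^(dst k K) + s * ∑ k ∈ range K, c k := by
          rw [Finset.sum_add_distrib, Finset.mul_sum, Finset.mul_sum]
      _ ≤ _ := by
          have := mul_le_mul_of_nonneg_left hsum hu0.le
          linarith
  have hya := hyoung a ha
  have hyb := hyoung b hb
  have hyb' : ∑ l ∈ range K, q^(dst K l) * (b l)^s ≤ u * R' + s * ym := by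
    simp_rw [dst_comm K]; exact hyb
  have hq2 : 1 + 18 * q ≤ 2 := by linarith
  have hxys0 : 0 ≤ (x*y)^s := Real.rpow_nonneg (mul_nonneg hx0 hy0) _
  have hrest : (1+18*q) * (x*y)^s ≤ 2 * z^(2*s) :=
    mul_le_mul hq2 r4 hxys0 (by norm_num)
  unfold FK
  rw [hgea, hgeb]
  by_cases hK0 : K = 0
  · -- K = 0
    have e1 : xm = 0 := by rw [hxm, hK0]; simp
    have e2 : ym = 0 := by rw [hym, hK0]; simp
    have e3 : ∑ k ∈ range K, q^(dst k K) * (a k)^s = 0 := by rw [hK0]; simp
    have e4 : ∑ l ∈ range K, q^(dst K l) * (b l)^s = 0 := by rw [hK0]; simp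
    rw [← hxm, ← hym, e1, e2, if_pos hK0]
    rw [e3, e4] at hexact
    have : (1 - 0 : ℝ) * (1-0) = 1 := by norm_num
    rw [this, Real.one_rpow]
    linarith [sq_nonneg P]
  · rw [if_neg hK0]
    have b1 : (1 - P)^(2*u) ≤ 1 - 2*u*P := rpow_le_one_sub hP1 (by linarith) (by rw [hu]; linarith)
    have b2 : (1 - xm)^s ≤ 1 - s*xm := rpow_le_one_sub (by linarith) hs0.le hs1
    have b3 : (1 - ym)^s ≤ 1 - s*ym := rpow_le_one_sub (by linarith) hs0.le hs1
    have c1 : 0 ≤ (1 - P)^(2*u) := Real.rpow_nonneg (by linarith) _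
    have c2 : 0 ≤ (1 - xm)^s := Real.rpow_nonneg (by linarith) _
    have c3 : 0 ≤ (1 - ym)^s := Real.rpow_nonneg (by linarith) _
    have d1 : (1 - P)^(2*u) * ((1-xm)*(1-ym))^s ≤ (1-2*u*P) * ((1-s*xm)*(1-s*ym)) := by
      rw [Real.mul_rpow (by linarith) (by linarith)]
      apply mul_le_mul b1 _ (by positivity) (by linarith)
      exact mul_le_mul b2 b3 c3 (by linarith)
    rw [← hxm, ← hym]
    have hus : u * s ≤ 1/4 := by rw [hu, hs]; nlinarith
    have hxym : xm * ym ≤ z^2 := by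
      calc xm * ym ≤ x * y := mul_le_mul hxmx hymy hym0 hx0
        _ ≤ z^2 := by rw [← Real.rpow_two]; exact hxy
    have hssum : xm + ym ≤ 2*z := by rw [hzxy]; linarith
    have hexp : (1-2*u*P) * ((1-s*xm)*(1-s*ym)) ≤ 1 - 2*u*P - s*(xm+ym) + P*z + z^2 := by
      have e : (1-2*u*P) * ((1-s*xm)*(1-s*ym)) =
        1 - 2*u*P - s*(xm+ym) + 2*(u*s)*P*(xm+ym) + s^2*(xm*ym) - 2*u*P*(s^2*(xm*ym)) := by ring
      rw [e]
      have f1 : 2*(u*s)*P*(xm+ym) ≤ P*z := by
        have : (u*s)*(xm+ym) ≤ 1/4*(2*z) := mul_le_mul hus hssum (by positivity) (by norm_num)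
        nlinarith
      have f2 : s^2*(xm*ym) ≤ z^2 := by
        have : s^2 ≤ 1 := by nlinarith
        have h3 : 0 ≤ xm*ym := mul_nonneg hxm0 hym0
        nlinarith
      have f3 : 0 ≤ 2*u*P*(s^2*(xm*ym)) := by positivity
      linarith
    have hPz : P*z ≤ (P^2+z^2)/2 := by nlinarith [sq_nonneg (P-z)]
    have h2u : 2*u*(R'-P) ≤ R'-P := by
      have : 0 ≤ R' - P := by linarith
      have h3 : 2*u ≤ 1 := by rw [hu]; linarith
      nlinarith
    linarith [sq_nonneg P]

/-- **One-prime inequality.** -/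
theorem one_prime {q ε P R' : ℝ} (h0 : 0 < q) (hq : q ≤ ε/24) (hε : 0 < ε) (hε4 : ε ≤ 1/4)
    (hR' : ∀ m, ∑ j ∈ range m, (q^(1/(1/2-ε)))^(j+1) ≤ R') (hP : 0 < P) (hP1 : P ≤ 1) (hPR : P ≤ R')
    (n : ℕ) (a b : ℕ → ℝ)
    (ha : ∀ k, 0 ≤ a k) (hb : ∀ k, 0 ≤ b k) (hSa : ∑ k ∈ range n, a k = 1)
    (hSb : ∑ k ∈ range n, b k = 1) :
    FA q (1/2+ε) n a b ≤ 1 ∨ ∃ K, K < n ∧
      FK q (1/2+ε) (if K = 0 then 1 else (1-P)^(2*(1/2-ε))) n K a b
        ≤ 1 + ((R' - P) + P^2 + 4 * (56*q/ε)^(2*(1/2+ε)/(1/2-ε))) := by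
  have h1 : q ≤ 8/9 := by linarith
  have hn : (range n).Nonempty := by
    by_contra h
    rw [Finset.not_nonempty_iff_eq_empty] at h
    rw [h] at hSa
    simp at hSa
  obtain ⟨K, hK, hmax⟩ := Finset.exists_max_image (range n) (fun k => a k * b k) hn
  have haK : a K ≤ 1 := by rw [← hSa]; exact Finset.single_le_sum (fun k _ => ha k) hK
  have hbK : b K ≤ 1 := by rw [← hSb]; exact Finset.single_le_sum (fun k _ => hb k) hK
  set z : ℝ := 1 - (a K + b K)/2 with hz
  have hz' : a K + b K = 2 - 2*z := by rw [hz]; ring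
  have hz0 : 0 ≤ z := by rw [hz]; linarith
  by_cases hz2 : z ≤ 1/2
  · by_cases hzu : 56*q/ε ≤ z^(1/2-ε)
    · left
      refine (FA_case2 h0 h1 hε hε4 n K hK a b ha hb hSa hSb hz' hz2).trans ?_
      have hzpos : 0 < z := by
        rcases hz0.eq_or_lt with h | h
        · rw [← h, Real.zero_rpow (by linarith)] at hzu
          have : 0 < 56*q/ε := by positivity
          linarith
        · exact h
      have e : z = z^(1/2+ε) * z^(1/2-ε) := by
        rw [← Real.rpow_add hzpos]; norm_num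
      have h3 : 28*q*z^(1/2+ε) ≤ ε/2*z := by
        rw [div_le_iff₀ hε] at hzu
        have hzs : 0 ≤ z^(1/2+ε) := by positivity
        calc 28*q*z^(1/2+ε) = (56*q)*z^(1/2+ε)/2 := by ring
          _ ≤ (z^(1/2-ε)*ε)*z^(1/2+ε)/2 := by
              apply div_le_div_of_nonneg_right _ (by norm_num)
              exact mul_le_mul_of_nonneg_right hzu hzs
          _ = ε/2*(z^(1/2+ε) * z^(1/2-ε)) := by ring
          _ = ε/2*z := by rw [← e]
      linarith
    · right
      refine ⟨K, mem_range.1 hK, ?_⟩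
      refine (FK_conc h0 hq hε hε4 hR' hP hP1 hPR n K hK a b ha hb hSa hSb hz' hz2).trans ?_
      push Not at hzu
      have hu0 : 0 < 1/2 - ε := by linarith
      have : z^(2*(1/2+ε)) ≤ (56*q/ε)^(2*(1/2+ε)/(1/2-ε)) := by
        have e : z^(2*(1/2+ε)) = (z^(1/2-ε))^(2*(1/2+ε)/(1/2-ε)) := by
          rw [← Real.rpow_mul hz0]
          congr 1
          rw [mul_comm (1/2-ε), div_mul_cancel₀ _ hu0.ne']
        rw [e]
        apply Real.rpow_le_rpow (by positivity) hzu.le
        positivity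
      linarith
  · left
    push Not at hz2
    have h4 : ∀ k ∈ range n, a k * b k ≤ 1/4 := by
      intro k hk
      refine (hmax k hk).trans ?_
      have := ha K; have := hb K
      nlinarith [sq_nonneg (a K - b K)]
    have := FA_case1 h0.le h1 hε (by linarith) n a b ha hb hSa hSb h4
    linarith

end Crest.Agent.R4.HVW560
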