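import Mathlib
import Crest.Agent.R4.HVWOne560

/-! The induction step over primes for the HVW inequality. -/

set_option autoImplicit false
open Finset

namespace Crest.Agent.R4.HVW560

/-- the cofactor `v / gcd(v,w)` -/
def cof (v w : ℕ) : ℕ := v / Nat.gcd v w

/-- `∏_{p ∈ Q, p ∣ n} (1 - 1/p)` -/
noncomputable def fac (Q : Finset ℕ) (n : ℕ) : ℝ := ∏ p ∈ Q.filter (fun p => p ∣ n), (1 - 1/(p:ℝ))

/-- the bilinear bound with constant `B`, for pairs whose gcd has all its primes in `Q` -/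
def Bd (A : ℕ →* ℝ) (ε : ℝ) (Q : Finset ℕ) (B : ℝ) : Prop :=
  ∀ (I J : Finset ℕ) (E : Finset (ℕ × ℕ)) (v w : ℕ → ℕ) (ψ θ : ℕ → ℝ) (δ : ℝ),
    0 < δ → (∀ i ∈ I, 0 < v i) → (∀ j ∈ J, 0 < w j) → Set.InjOn v I → Set.InjOn w J →
    (∀ i ∈ I, 0 ≤ ψ i) → (∀ j ∈ J, 0 ≤ θ j) → E ⊆ I ×ˢ J →
    (∀ e ∈ E, (cof (v e.1) (w e.2) : ℝ) * θ e.2 ≤ δ) →
    (∀ e ∈ E, (cof (w e.2) (v e.1) : ℝ) * ψ e.1 ≤ δ) →
    (∀ e ∈ E, ∀ p, p.Prime → p ∣ v e.1 → p ∣ w e.2 → p ∈ Q) →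
    ∑ e ∈ E, (ψ e.1 * fac Q (v e.1)) * (θ e.2 * fac Q (w e.2)) *
        (A (cof (v e.1) (w e.2)) * A (cof (w e.2) (v e.1)))
      ≤ B * (δ^(1-2*ε) *
        ((∑ i ∈ I, ψ i * fac Q (v i)) * (∑ j ∈ J, θ j * fac Q (w j)))^(1/2+ε))

theorem fac_nonneg {Q : Finset ℕ} (hQ : ∀ p ∈ Q, p.Prime) (n : ℕ) : 0 ≤ fac Q n := by
  apply Finset.prod_nonneg
  intro p hp
  have := (hQ p (Finset.mem_filter.1 hp).1).one_le
  have h1 : (1:ℝ) ≤ p := by exact_mod_cast this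
  have : 1/(p:ℝ) ≤ 1 := by rw [div_le_one (by linarith)]; exact h1
  linarith

theorem fac_congr {Q : Finset ℕ} {m n : ℕ} (h : ∀ p ∈ Q, (p ∣ m ↔ p ∣ n)) : fac Q m = fac Q n := by
  unfold fac
  congr 1
  apply Finset.filter_congr
  intro p hp
  exact h p hp

theorem fac_insert {Q : Finset ℕ} {p : ℕ} (hp : p ∉ Q) (n : ℕ) :
    fac (insert p Q) n = (if p ∣ n then 1 - 1/(p:ℝ) else 1) * fac Q n := by
  unfold fac
  rw [Finset.filter_insert]
  split_ifs with h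
  · rw [Finset.prod_insert (by simp [hp])]
  · rw [one_mul]

theorem fac_div {Q : Finset ℕ} (hQ : ∀ p ∈ Q, p.Prime) {p : ℕ} (hp : p.Prime) (hpQ : p ∉ Q)
    (k m : ℕ) : fac Q (p^k * m) = fac Q m := by
  apply fac_congr
  intro q hq
  have hqp : q.Coprime p := (Nat.coprime_primes (hQ q hq) hp).2 (fun h => hpQ (h ▸ hq))
  constructor
  · intro h
    exact (Nat.Coprime.pow_right k hqp).dvd_of_dvd_mul_left h
  · intro h
    exact Dvd.dvd.mul_left h _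

theorem cof_mul_gcd (v w : ℕ) : cof v w * Nat.gcd v w = v := Nat.div_mul_cancel (Nat.gcd_dvd_left v w)

theorem gcd_pow_mul {p : ℕ} (hp : p.Prime) {v1 w1 : ℕ} (hv : ¬ p ∣ v1) (hw : ¬ p ∣ w1) (k l : ℕ) :
    Nat.gcd (p^k * v1) (p^l * w1) = p^(min k l) * Nat.gcd v1 w1 := by
  have cv : Nat.Coprime p v1 := (Nat.Prime.coprime_iff_not_dvd hp).2 hv
  have cw : Nat.Coprime p w1 := (Nat.Prime.coprime_iff_not_dvd hp).2 hw
  rcases le_total k l with h | h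
  · rw [min_eq_left h]
    obtain ⟨m, rfl⟩ := Nat.exists_eq_add_of_le h
    rw [pow_add, mul_assoc, Nat.gcd_mul_left]
    congr 1
    exact Nat.Coprime.gcd_mul_left_cancel_right _ (Nat.Coprime.pow_left m cv)
  · rw [min_eq_right h]
    obtain ⟨m, rfl⟩ := Nat.exists_eq_add_of_le h
    rw [pow_add, mul_assoc, Nat.gcd_mul_left]
    congr 1
    exact Nat.Coprime.gcd_mul_left_cancel _ (Nat.Coprime.pow_left m cw)

theorem cof_pow_mul {p : ℕ} (hp : p.Prime) {v1 w1 : ℕ} (hv : ¬ p ∣ v1) (hw : ¬ p ∣ w1) (k l : ℕ) :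
    cof (p^k * v1) (p^l * w1) = p^(k - l) * cof v1 w1 := by
  have hv0 : 0 < v1 := Nat.pos_of_ne_zero (fun h => hv (h ▸ dvd_zero p))
  have hg : 0 < Nat.gcd v1 w1 := Nat.gcd_pos_of_pos_left _ hv0
  unfold cof
  rw [gcd_pow_mul hp hv hw]
  apply Nat.div_eq_of_eq_mul_left
  · exact Nat.mul_pos (pow_pos hp.pos _) hg
  · have e : k = (k - l) + min k l := by omega
    calc p^k * v1 = p^((k-l) + min k l) * v1 := by rw [← e]
      _ = p^(k-l) * (v1 / Nat.gcd v1 w1) * (p^(min k l) * Nat.gcd v1 w1) := by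
          rw [pow_add]
          have := Nat.div_mul_cancel (Nat.gcd_dvd_left v1 w1)
          calc p^(k-l) * p^(min k l) * v1 = p^(k-l) * p^(min k l) * (v1 / Nat.gcd v1 w1 * Nat.gcd v1 w1) := by rw [this]
            _ = _ := by ring

theorem cof_mul_left {c : ℕ} (hc : 0 < c) (v w : ℕ) : cof (c * v) (c * w) = cof v w := by
  unfold cof
  rw [Nat.gcd_mul_left, Nat.mul_div_mul_left _ _ hc]

theorem not_dvd_ordCompl' {p n : ℕ} (hp : p.Prime) (hn : 0 < n) : ¬ p ∣ n / p^(n.factorization p) :=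
  Nat.not_dvd_ordCompl hp hn.ne'

theorem eq_ord {p n : ℕ} : n = p^(n.factorization p) * (n / p^(n.factorization p)) :=
  (Nat.ordProj_mul_ordCompl_eq_self n p).symm

theorem dvd_iff_fact {p n : ℕ} (hp : p.Prime) (hn : 0 < n) : p ∣ n ↔ n.factorization p ≠ 0 := by
  constructor
  · intro h
    exact (hp.factorization_pos_of_dvd hn.ne' h).ne'
  · intro h
    exact Nat.dvd_of_factorization_pos h

/-- the exact `(k,l)` piece -/
theorem exact_part {A : ℕ →* ℝ} {ε : ℝ} {Q : Finset ℕ} {B : ℝ} (hB : Bd A ε Q B)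
    (hQ : ∀ q ∈ Q, q.Prime) {p : ℕ} (hp : p.Prime) (hpQ : p ∉ Q) (hAp : 0 ≤ A p) (k l : ℕ)
    (I J : Finset ℕ) (E : Finset (ℕ × ℕ)) (v w : ℕ → ℕ) (ψ θ : ℕ → ℝ) (δ : ℝ)
    (hδ : 0 < δ) (hv : ∀ i ∈ I, 0 < v i) (hw : ∀ j ∈ J, 0 < w j) (hvi : Set.InjOn v I)
    (hwi : Set.InjOn w J) (hψ : ∀ i ∈ I, 0 ≤ ψ i) (hθ : ∀ j ∈ J, 0 ≤ θ j) (hE : E ⊆ I ×ˢ J)
    (h1 : ∀ e ∈ E, (cof (v e.1) (w e.2) : ℝ) * θ e.2 ≤ δ)
    (h2 : ∀ e ∈ E, (cof (w e.2) (v e.1) : ℝ) * ψ e.1 ≤ δ)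
    (h3 : ∀ e ∈ E, ∀ q, q.Prime → q ∣ v e.1 → q ∣ w e.2 → q ∈ insert p Q)
    (hvk : ∀ i ∈ I, (v i).factorization p = k) (hwl : ∀ j ∈ J, (w j).factorization p = l) :
    ∑ e ∈ E, (ψ e.1 * fac (insert p Q) (v e.1)) * (θ e.2 * fac (insert p Q) (w e.2)) *
        (A (cof (v e.1) (w e.2)) * A (cof (w e.2) (v e.1)))
      ≤ B * (δ^(1-2*ε) * (((p:ℝ)^(-(1/2-ε)) * A p)^(dst k l) *
        ((∑ i ∈ I, ψ i * fac (insert p Q) (v i)) * (∑ j ∈ J, θ j * fac (insert p Q) (w j)))^(1/2+ε))) := by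
  classical
  have hp0 : (0:ℝ) < p := by exact_mod_cast hp.pos
  have hp1 : (1:ℝ) ≤ p := by exact_mod_cast hp.one_le
  set c : ℕ → ℝ := fun m => if m = 0 then 1 else 1 - 1/(p:ℝ) with hc
  have hpinv : 1/(p:ℝ) ≤ 1 := by rw [div_le_one hp0]; exact hp1
  have hpinv0 : 0 ≤ 1/(p:ℝ) := by positivity
  have hc0 : ∀ m, 0 ≤ c m := by intro m; simp only [hc]; split_ifs <;> linarith
  have hc1 : ∀ m, c m ≤ 1 := by intro m; simp only [hc]; split_ifs <;> linarith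
  set v1 : ℕ → ℕ := fun i => v i / p^k with hv1
  set w1 : ℕ → ℕ := fun j => w j / p^l with hw1
  have ev : ∀ i ∈ I, v i = p^k * v1 i := by
    intro i hi
    have := @eq_ord p (v i)
    rw [hvk i hi] at this; exact this
  have ew : ∀ j ∈ J, w j = p^l * w1 j := by
    intro j hj
    have := @eq_ord p (w j)
    rw [hwl j hj] at this; exact this
  have nv : ∀ i ∈ I, ¬ p ∣ v1 i := by
    intro i hi
    have := not_dvd_ordCompl' hp (hv i hi)
    rw [hvk i hi] at this; exact this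
  have nw : ∀ j ∈ J, ¬ p ∣ w1 j := by
    intro j hj
    have := not_dvd_ordCompl' hp (hw j hj)
    rw [hwl j hj] at this; exact this
  have fv : ∀ i ∈ I, fac (insert p Q) (v i) = c k * fac Q (v1 i) := by
    intro i hi
    rw [fac_insert hpQ]
    have e1 : fac Q (v i) = fac Q (v1 i) := by
      conv_lhs => rw [ev i hi]
      exact fac_div hQ hp hpQ k _
    rw [e1]
    congr 1
    simp only [hc]
    have := dvd_iff_fact hp (hv i hi)
    rw [hvk i hi] at this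
    by_cases hk : k = 0
    · rw [if_pos hk, if_neg (fun h => this.1 h hk)]
    · rw [if_neg hk, if_pos (this.2 hk)]
  have fw : ∀ j ∈ J, fac (insert p Q) (w j) = c l * fac Q (w1 j) := by
    intro j hj
    rw [fac_insert hpQ]
    have e1 : fac Q (w j) = fac Q (w1 j) := by
      conv_lhs => rw [ew j hj]
      exact fac_div hQ hp hpQ l _
    rw [e1]
    congr 1
    simp only [hc]
    have := dvd_iff_fact hp (hw j hj)
    rw [hwl j hj] at this
    by_cases hk : l = 0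
    · rw [if_pos hk, if_neg (fun h => this.1 h hk)]
    · rw [if_neg hk, if_pos (this.2 hk)]
  have ec1 : ∀ e ∈ E, cof (v e.1) (w e.2) = p^(k-l) * cof (v1 e.1) (w1 e.2) := by
    intro e he
    have hm := Finset.mem_product.1 (hE he)
    conv_lhs => rw [ev _ hm.1, ew _ hm.2]
    exact cof_pow_mul hp (nv _ hm.1) (nw _ hm.2) k l
  have ec2 : ∀ e ∈ E, cof (w e.2) (v e.1) = p^(l-k) * cof (w1 e.2) (v1 e.1) := by
    intro e he
    have hm := Finset.mem_product.1 (hE he)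
    conv_lhs => rw [ev _ hm.1, ew _ hm.2]
    exact cof_pow_mul hp (nw _ hm.2) (nv _ hm.1) l k
  have key := hB I J E v1 w1 (fun i => (p:ℝ)^(l-k) * (c k * ψ i)) (fun j => (p:ℝ)^(k-l) * (c l * θ j)) δ hδ
    (fun i hi => Nat.pos_of_ne_zero (fun h => nv i hi (h ▸ dvd_zero p)))
    (fun j hj => Nat.pos_of_ne_zero (fun h => nw j hj (h ▸ dvd_zero p)))
    (by
      intro i hi i' hi' h
      apply hvi hi hi'
      rw [ev i hi, ev i' hi', h])
    (by
      intro i hi i' hi' h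
      apply hwi hi hi'
      rw [ew i hi, ew i' hi', h])
    (fun i hi => by have := hψ i hi; have := hc0 k; positivity)
    (fun j hj => by have := hθ j hj; have := hc0 l; positivity)
    hE
    (by
      intro e he
      have hm := Finset.mem_product.1 (hE he)
      have hh := h1 e he
      rw [ec1 e he] at hh
      push_cast at hh
      have ht := hθ _ hm.2
      have h5 : 0 ≤ ((p:ℝ)^(k-l) * (cof (v1 e.1) (w1 e.2) : ℝ)) * θ e.2 := by positivity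
      calc (cof (v1 e.1) (w1 e.2) : ℝ) * ((p:ℝ)^(k-l) * (c l * θ e.2))
          = c l * (((p:ℝ)^(k-l) * (cof (v1 e.1) (w1 e.2) : ℝ)) * θ e.2) := by ring
        _ ≤ 1 * (((p:ℝ)^(k-l) * (cof (v1 e.1) (w1 e.2) : ℝ)) * θ e.2) :=
            mul_le_mul_of_nonneg_right (hc1 l) h5
        _ ≤ δ := by rw [one_mul]; exact hh)
    (by
      intro e he
      have hm := Finset.mem_product.1 (hE he)
      have hh := h2 e he
      rw [ec2 e he] at hh
      push_cast at hh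
      have ht := hψ _ hm.1
      have h5 : 0 ≤ ((p:ℝ)^(l-k) * (cof (w1 e.2) (v1 e.1) : ℝ)) * ψ e.1 := by positivity
      calc (cof (w1 e.2) (v1 e.1) : ℝ) * ((p:ℝ)^(l-k) * (c k * ψ e.1))
          = c k * (((p:ℝ)^(l-k) * (cof (w1 e.2) (v1 e.1) : ℝ)) * ψ e.1) := by ring
        _ ≤ 1 * (((p:ℝ)^(l-k) * (cof (w1 e.2) (v1 e.1) : ℝ)) * ψ e.1) :=
            mul_le_mul_of_nonneg_right (hc1 k) h5
        _ ≤ δ := by rw [one_mul]; exact hh)
    (by
      intro e he q hq hqv hqw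
      have hm := Finset.mem_product.1 (hE he)
      have h4 := h3 e he q hq (by rw [ev _ hm.1]; exact Dvd.dvd.mul_left hqv _)
        (by rw [ew _ hm.2]; exact Dvd.dvd.mul_left hqw _)
      rcases Finset.mem_insert.1 h4 with h5 | h5
      · exact absurd (h5 ▸ hqv) (nv _ hm.1)
      · exact h5)
  set a : ℝ := ∑ i ∈ I, ψ i * fac (insert p Q) (v i) with ha
  set b : ℝ := ∑ j ∈ J, θ j * fac (insert p Q) (w j) with hb
  have ha' : ∑ i ∈ I, (p:ℝ)^(l-k) * (c k * ψ i) * fac Q (v1 i) = (p:ℝ)^(l-k) * a := by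
    rw [ha, Finset.mul_sum]
    apply Finset.sum_congr rfl
    intro i hi
    rw [fv i hi]; ring
  have hb' : ∑ j ∈ J, (p:ℝ)^(k-l) * (c l * θ j) * fac Q (w1 j) = (p:ℝ)^(k-l) * b := by
    rw [hb, Finset.mul_sum]
    apply Finset.sum_congr rfl
    intro i hi
    rw [fw i hi]; ring
  have hI' : ∀ q ∈ insert p Q, q.Prime := by
    intro q hq
    rcases Finset.mem_insert.1 hq with h | h
    · exact h ▸ hp
    · exact hQ q h
  have ha0 : 0 ≤ a := Finset.sum_nonneg fun i hi => mul_nonneg (hψ i hi) (fac_nonneg hI' _)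
  have hb0 : 0 ≤ b := Finset.sum_nonneg fun i hi => mul_nonneg (hθ i hi) (fac_nonneg hI' _)
  rw [ha', hb'] at key
  -- relate LHS
  have hL : ∑ e ∈ E, ((p:ℝ)^(l-k) * (c k * ψ e.1) * fac Q (v1 e.1)) * ((p:ℝ)^(k-l) * (c l * θ e.2) * fac Q (w1 e.2)) *
        (A (cof (v1 e.1) (w1 e.2)) * A (cof (w1 e.2) (v1 e.1))) * (A p)^(dst k l)
      = (p:ℝ)^(dst k l) * ∑ e ∈ E, (ψ e.1 * fac (insert p Q) (v e.1)) * (θ e.2 * fac (insert p Q) (w e.2)) *
        (A (cof (v e.1) (w e.2)) * A (cof (w e.2) (v e.1))) := by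
    rw [Finset.mul_sum]
    apply Finset.sum_congr rfl
    intro e he
    have hm := Finset.mem_product.1 (hE he)
    rw [fv _ hm.1, fw _ hm.2, ec1 e he, ec2 e he, map_mul, map_mul, map_pow, map_pow]
    unfold dst
    rw [pow_add, pow_add]
    ring
  rw [← Finset.sum_mul] at hL
  have hD0 : (0:ℝ) < (p:ℝ)^(dst k l) := by positivity
  have hAd : 0 ≤ (A p)^(dst k l) := pow_nonneg hAp _
  have key2 := mul_le_mul_of_nonneg_right key hAd
  rw [hL] at key2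
  rw [← mul_le_mul_iff_right₀ hD0]
  refine key2.trans (le_of_eq ?_)
  have e1 : (p:ℝ)^(l-k) * a * ((p:ℝ)^(k-l) * b) = (p:ℝ)^(dst k l) * (a * b) := by
    unfold dst; rw [pow_add]; ring
  rw [e1, Real.mul_rpow hD0.le (mul_nonneg ha0 hb0), mul_pow]
  have e2 : ((p:ℝ)^(dst k l))^(1/2+ε) = (p:ℝ)^(dst k l) * ((p:ℝ)^(-(1/2-ε)))^(dst k l) := by
    rw [← Real.rpow_natCast, ← Real.rpow_natCast, ← Real.rpow_mul hp0.le, ← Real.rpow_mul hp0.le,
      ← Real.rpow_add hp0]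
    congr 1; ring
  rw [e2]
  ring

/-- the piece with `p ∤ gcd` -/
theorem unsplit0 {A : ℕ →* ℝ} {ε : ℝ} {Q : Finset ℕ} {B : ℝ} (hB : Bd A ε Q B)
    {p : ℕ} (hp : p.Prime) (hpQ : p ∉ Q)
    (I J : Finset ℕ) (E : Finset (ℕ × ℕ)) (v w : ℕ → ℕ) (ψ θ : ℕ → ℝ) (δ : ℝ)
    (hδ : 0 < δ) (hv : ∀ i ∈ I, 0 < v i) (hw : ∀ j ∈ J, 0 < w j) (hvi : Set.InjOn v I)
    (hwi : Set.InjOn w J) (hψ : ∀ i ∈ I, 0 ≤ ψ i) (hθ : ∀ j ∈ J, 0 ≤ θ j) (hE : E ⊆ I ×ˢ J)
    (h1 : ∀ e ∈ E, (cof (v e.1) (w e.2) : ℝ) * θ e.2 ≤ δ)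
    (h2 : ∀ e ∈ E, (cof (w e.2) (v e.1) : ℝ) * ψ e.1 ≤ δ)
    (h3 : ∀ e ∈ E, ∀ q, q.Prime → q ∣ v e.1 → q ∣ w e.2 → q ∈ insert p Q)
    (hnot : ∀ e ∈ E, ¬ (p ∣ v e.1 ∧ p ∣ w e.2)) :
    ∑ e ∈ E, (ψ e.1 * fac (insert p Q) (v e.1)) * (θ e.2 * fac (insert p Q) (w e.2)) *
        (A (cof (v e.1) (w e.2)) * A (cof (w e.2) (v e.1)))
      ≤ B * (δ^(1-2*ε) *
        ((∑ i ∈ I, ψ i * fac (insert p Q) (v i)) * (∑ j ∈ J, θ j * fac (insert p Q) (w j)))^(1/2+ε)) := by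
  classical
  have hp0 : (0:ℝ) < p := by exact_mod_cast hp.pos
  have hp1 : (1:ℝ) ≤ p := by exact_mod_cast hp.one_le
  set c : ℕ → ℝ := fun m => if p ∣ m then 1 - 1/(p:ℝ) else 1 with hc
  have hpinv : 1/(p:ℝ) ≤ 1 := by rw [div_le_one hp0]; exact hp1
  have hpinv0 : 0 ≤ 1/(p:ℝ) := by positivity
  have hc0 : ∀ m, 0 ≤ c m := by intro m; simp only [hc]; split_ifs <;> linarith
  have hc1 : ∀ m, c m ≤ 1 := by intro m; simp only [hc]; split_ifs <;> linarith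
  have fv : ∀ m, fac (insert p Q) m = c m * fac Q m := fun m => fac_insert hpQ m
  have key := hB I J E v w (fun i => c (v i) * ψ i) (fun j => c (w j) * θ j) δ hδ hv hw hvi hwi
    (fun i hi => mul_nonneg (hc0 _) (hψ i hi)) (fun j hj => mul_nonneg (hc0 _) (hθ j hj)) hE
    (by
      intro e he
      have hm := Finset.mem_product.1 (hE he)
      have ht := hθ _ hm.2
      calc (cof (v e.1) (w e.2) : ℝ) * (c (w e.2) * θ e.2)
          = c (w e.2) * ((cof (v e.1) (w e.2) : ℝ) * θ e.2) := by ring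
        _ ≤ 1 * ((cof (v e.1) (w e.2) : ℝ) * θ e.2) :=
            mul_le_mul_of_nonneg_right (hc1 _) (by positivity)
        _ ≤ δ := by rw [one_mul]; exact h1 e he)
    (by
      intro e he
      have hm := Finset.mem_product.1 (hE he)
      have ht := hψ _ hm.1
      calc (cof (w e.2) (v e.1) : ℝ) * (c (v e.1) * ψ e.1)
          = c (v e.1) * ((cof (w e.2) (v e.1) : ℝ) * ψ e.1) := by ring
        _ ≤ 1 * ((cof (w e.2) (v e.1) : ℝ) * ψ e.1) :=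
            mul_le_mul_of_nonneg_right (hc1 _) (by positivity)
        _ ≤ δ := by rw [one_mul]; exact h2 e he)
    (by
      intro e he q hq hqv hqw
      rcases Finset.mem_insert.1 (h3 e he q hq hqv hqw) with h5 | h5
      · exact absurd ⟨h5 ▸ hqv, h5 ▸ hqw⟩ (hnot e he)
      · exact h5)
  have e1 : ∀ f : ℕ → ℝ, ∀ u : ℕ → ℕ, ∀ i, f i * fac (insert p Q) (u i) = c (u i) * f i * fac Q (u i) := by
    intro f u i; rw [fv]; ring
  simp_rw [e1 ψ v, e1 θ w]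
  exact key

/-- the piece with `min = K ≥ 1`, kept in one piece -/
theorem unsplitK {A : ℕ →* ℝ} {ε : ℝ} {Q : Finset ℕ} {B : ℝ} (hB : Bd A ε Q B)
    (hQ : ∀ q ∈ Q, q.Prime) {p : ℕ} (hp : p.Prime) (hpQ : p ∉ Q) (K : ℕ) (hK : K ≠ 0)
    (I J : Finset ℕ) (E : Finset (ℕ × ℕ)) (v w : ℕ → ℕ) (ψ θ : ℕ → ℝ) (δ : ℝ)
    (hδ : 0 < δ) (hv : ∀ i ∈ I, 0 < v i) (hw : ∀ j ∈ J, 0 < w j) (hvi : Set.InjOn v I)
    (hwi : Set.InjOn w J) (hψ : ∀ i ∈ I, 0 ≤ ψ i) (hθ : ∀ j ∈ J, 0 ≤ θ j) (hE : E ⊆ I ×ˢ J)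
    (h1 : ∀ e ∈ E, (cof (v e.1) (w e.2) : ℝ) * θ e.2 ≤ δ)
    (h2 : ∀ e ∈ E, (cof (w e.2) (v e.1) : ℝ) * ψ e.1 ≤ δ)
    (h3 : ∀ e ∈ E, ∀ q, q.Prime → q ∣ v e.1 → q ∣ w e.2 → q ∈ insert p Q)
    (hvK : ∀ i ∈ I, K ≤ (v i).factorization p) (hwK : ∀ j ∈ J, K ≤ (w j).factorization p)
    (hmin : ∀ e ∈ E, min ((v e.1).factorization p) ((w e.2).factorization p) = K) :
    ∑ e ∈ E, (ψ e.1 * fac (insert p Q) (v e.1)) * (θ e.2 * fac (insert p Q) (w e.2)) *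
        (A (cof (v e.1) (w e.2)) * A (cof (w e.2) (v e.1)))
      ≤ B * (δ^(1-2*ε) * ((1 - 1/(p:ℝ))^(2*(1/2-ε)) *
        ((∑ i ∈ I, ψ i * fac (insert p Q) (v i)) * (∑ j ∈ J, θ j * fac (insert p Q) (w j)))^(1/2+ε))) := by
  classical
  have hp0 : (0:ℝ) < p := by exact_mod_cast hp.pos
  have hp1 : (1:ℝ) < p := by exact_mod_cast hp.one_lt
  set c : ℝ := 1 - 1/(p:ℝ) with hc
  have hc0 : 0 < c := by
    have : 1/(p:ℝ) < 1 := by rw [div_lt_one hp0]; exact hp1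
    rw [hc]; linarith
  have hpK : 0 < p^K := pow_pos hp.pos K
  set v1 : ℕ → ℕ := fun i => v i / p^K with hv1
  set w1 : ℕ → ℕ := fun j => w j / p^K with hw1
  have dv : ∀ i ∈ I, p^K ∣ v i := fun i hi =>
    (hp.pow_dvd_iff_le_factorization (hv i hi).ne').2 (hvK i hi)
  have dw : ∀ j ∈ J, p^K ∣ w j := fun j hj =>
    (hp.pow_dvd_iff_le_factorization (hw j hj).ne').2 (hwK j hj)
  have ev : ∀ i ∈ I, v i = p^K * v1 i := fun i hi => (Nat.mul_div_cancel' (dv i hi)).symm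
  have ew : ∀ j ∈ J, w j = p^K * w1 j := fun j hj => (Nat.mul_div_cancel' (dw j hj)).symm
  have pv : ∀ i ∈ I, p ∣ v i := fun i hi => dvd_trans (dvd_pow_self p hK) (dv i hi)
  have pw : ∀ j ∈ J, p ∣ w j := fun j hj => dvd_trans (dvd_pow_self p hK) (dw j hj)
  have fv : ∀ i ∈ I, fac (insert p Q) (v i) = c * fac Q (v1 i) := by
    intro i hi
    rw [fac_insert hpQ, if_pos (pv i hi)]
    congr 1
    conv_lhs => rw [ev i hi]
    exact fac_div hQ hp hpQ K _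
  have fw : ∀ j ∈ J, fac (insert p Q) (w j) = c * fac Q (w1 j) := by
    intro i hi
    rw [fac_insert hpQ, if_pos (pw i hi)]
    congr 1
    conv_lhs => rw [ew i hi]
    exact fac_div hQ hp hpQ K _
  have ec1 : ∀ e ∈ E, cof (v e.1) (w e.2) = cof (v1 e.1) (w1 e.2) := by
    intro e he
    have hm := Finset.mem_product.1 (hE he)
    conv_lhs => rw [ev _ hm.1, ew _ hm.2]
    exact cof_mul_left hpK _ _
  have ec2 : ∀ e ∈ E, cof (w e.2) (v e.1) = cof (w1 e.2) (v1 e.1) := by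
    intro e he
    have hm := Finset.mem_product.1 (hE he)
    conv_lhs => rw [ev _ hm.1, ew _ hm.2]
    exact cof_mul_left hpK _ _
  have pos1 : ∀ i ∈ I, 0 < v1 i := by
    intro i hi
    apply Nat.pos_of_ne_zero
    intro h
    have := hv i hi
    rw [ev i hi, h, mul_zero] at this
    exact lt_irrefl _ this
  have pos2 : ∀ i ∈ J, 0 < w1 i := by
    intro i hi
    apply Nat.pos_of_ne_zero
    intro h
    have := hw i hi
    rw [ew i hi, h, mul_zero] at this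
    exact lt_irrefl _ this
  have key := hB I J E v1 w1 ψ θ δ hδ pos1 pos2
    (by
      intro i hi i' hi' h
      apply hvi hi hi'
      rw [ev i hi, ev i' hi', h])
    (by
      intro i hi i' hi' h
      apply hwi hi hi'
      rw [ew i hi, ew i' hi', h])
    hψ hθ hE
    (by intro e he; rw [← ec1 e he]; exact h1 e he)
    (by intro e he; rw [← ec2 e he]; exact h2 e he)
    (by
      intro e he q hq hqv hqw
      have hm := Finset.mem_product.1 (hE he)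
      have h4 := h3 e he q hq (by rw [ev _ hm.1]; exact Dvd.dvd.mul_left hqv _)
        (by rw [ew _ hm.2]; exact Dvd.dvd.mul_left hqw _)
      rcases Finset.mem_insert.1 h4 with h5 | h5
      · exfalso
        subst h5
        have m1 : K + 1 ≤ (v e.1).factorization q := by
          rw [← hp.pow_dvd_iff_le_factorization (hv _ hm.1).ne', ev _ hm.1, pow_succ]
          exact mul_dvd_mul_left _ hqv
        have m2 : K + 1 ≤ (w e.2).factorization q := by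
          rw [← hp.pow_dvd_iff_le_factorization (hw _ hm.2).ne', ew _ hm.2, pow_succ]
          exact mul_dvd_mul_left _ hqw
        have := hmin e he
        omega
      · exact h5)
  set a : ℝ := ∑ i ∈ I, ψ i * fac Q (v1 i) with ha
  set b : ℝ := ∑ j ∈ J, θ j * fac Q (w1 j) with hb
  have ha' : ∑ i ∈ I, ψ i * fac (insert p Q) (v i) = c * a := by
    rw [ha, Finset.mul_sum]
    apply Finset.sum_congr rfl
    intro i hi
    rw [fv i hi]; ring
  have hb' : ∑ j ∈ J, θ j * fac (insert p Q) (w j) = c * b := by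
    rw [hb, Finset.mul_sum]
    apply Finset.sum_congr rfl
    intro i hi
    rw [fw i hi]; ring
  have ha0 : 0 ≤ a := Finset.sum_nonneg fun i hi => mul_nonneg (hψ i hi) (fac_nonneg hQ _)
  have hb0 : 0 ≤ b := Finset.sum_nonneg fun i hi => mul_nonneg (hθ i hi) (fac_nonneg hQ _)
  rw [ha', hb']
  have hL : ∑ e ∈ E, (ψ e.1 * fac (insert p Q) (v e.1)) * (θ e.2 * fac (insert p Q) (w e.2)) *
        (A (cof (v e.1) (w e.2)) * A (cof (w e.2) (v e.1)))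
      = c^2 * ∑ e ∈ E, (ψ e.1 * fac Q (v1 e.1)) * (θ e.2 * fac Q (w1 e.2)) *
        (A (cof (v1 e.1) (w1 e.2)) * A (cof (w1 e.2) (v1 e.1))) := by
    rw [Finset.mul_sum]
    apply Finset.sum_congr rfl
    intro e he
    have hm := Finset.mem_product.1 (hE he)
    rw [fv _ hm.1, fw _ hm.2, ec1 e he, ec2 e he]
    ring
  rw [hL]
  refine (mul_le_mul_of_nonneg_left key (sq_nonneg c)).trans (le_of_eq ?_)
  have e2 : (c * a * (c * b))^(1/2+ε) = c^(2*(1/2+ε)) * (a*b)^(1/2+ε) := by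
    rw [show c * a * (c * b) = c^2 * (a*b) by ring, Real.mul_rpow (sq_nonneg c) (mul_nonneg ha0 hb0),
      Real.rpow_mul hc0.le, Real.rpow_two]
  have e3 : c^(2*(1/2-ε)) * c^(2*(1/2+ε)) = c^2 := by
    rw [← Real.rpow_add hc0, ← Real.rpow_two]
    congr 1; ring
  rw [e2]
  calc c^2 * (B * (δ^(1-2*ε) * (a*b)^(1/2+ε))) = B * (δ^(1-2*ε) * (c^2 * (a*b)^(1/2+ε))) := by ring
    _ = B * (δ^(1-2*ε) * (c^(2*(1/2-ε)) * c^(2*(1/2+ε)) * (a*b)^(1/2+ε))) := by rw [e3]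
    _ = _ := by ring

end Crest.Agent.R4.HVW560
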