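import Mathlib
import Crest.Agent.R4.HVWEng560

/-! Base case (coprime pairs) of the HVW inequality, with a completely multiplicative weight. -/

set_option autoImplicit false
open Finset

namespace Crest.Agent.R4.HVW560

/-- multiplicative function with value `g p` at the primes of `P` and `1` at the others -/
noncomputable def gP (g : ℕ → ℝ) (P : Finset ℕ) (n : ℕ) : ℝ := ∏ p ∈ P, (g p)^(n.factorization p)

theorem sum_multiples (h : ℕ → ℝ) {p : ℕ} (hp : 0 < p) (X : ℕ) :
    ∑ n ∈ (Icc 1 X).filter (fun n => p ∣ n), h n = ∑ m ∈ Icc 1 (X/p), h (p*m) := by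
  symm
  apply Finset.sum_bij (fun m _ => p * m)
  · intro m hm
    rw [mem_Icc] at hm
    rw [mem_filter, mem_Icc]
    refine ⟨⟨?_, ?_⟩, dvd_mul_right _ _⟩
    · exact Nat.succ_le_of_lt (Nat.mul_pos hp hm.1)
    · calc p * m ≤ p * (X/p) := Nat.mul_le_mul_left _ hm.2
        _ ≤ X := Nat.mul_div_le X p
  · intro a _ b _ hab
    exact Nat.eq_of_mul_eq_mul_left hp hab
  · intro n hn
    rw [mem_filter, mem_Icc] at hn
    obtain ⟨⟨h1, h2⟩, m, rfl⟩ := hn
    refine ⟨m, ?_, rfl⟩
    rw [mem_Icc]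
    constructor
    · apply Nat.pos_of_ne_zero
      rintro rfl
      simp at h1
    · rw [Nat.le_div_iff_mul_le hp, mul_comm]; exact h2
  · intro m _; rfl

theorem gP_nonneg {g : ℕ → ℝ} {P : Finset ℕ} (hg : ∀ p ∈ P, 1 ≤ g p) (n : ℕ) : 0 ≤ gP g P n :=
  Finset.prod_nonneg fun p hp => pow_nonneg (by linarith [hg p hp]) _

theorem mean_value {g : ℕ → ℝ} (P : Finset ℕ) (hP : ∀ p ∈ P, p.Prime) (hg : ∀ p ∈ P, 1 ≤ g p)
    (hg2 : ∀ p ∈ P, g p < p) (X : ℕ) :
    ∑ n ∈ Icc 1 X, gP g P n ≤ (∏ p ∈ P, (1 + (g p - 1)/(p - g p))) * X := by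
  classical
  induction P using Finset.induction_on generalizing X with
  | empty => simp [gP]
  | insert p P hpP ih =>
    have hpp : p.Prime := hP p (mem_insert_self _ _)
    have hp0 : (0:ℝ) < p := by exact_mod_cast hpp.pos
    have hP' : ∀ q ∈ P, q.Prime := fun q hq => hP q (mem_insert_of_mem hq)
    have hg' : ∀ q ∈ P, 1 ≤ g q := fun q hq => hg q (mem_insert_of_mem hq)
    have hg2' : ∀ q ∈ P, g q < q := fun q hq => hg2 q (mem_insert_of_mem hq)
    have ih' := ih hP' hg' hg2'
    have hgp1 : 1 ≤ g p := hg p (mem_insert_self _ _)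
    have hgp2 : g p < p := hg2 p (mem_insert_self _ _)
    set C : ℝ := ∏ p ∈ P, (1 + (g p - 1)/(p - g p)) with hC
    have hC0 : 0 ≤ C := by
      apply Finset.prod_nonneg
      intro q hq
      have h1 := hg' q hq; have h2 := hg2' q hq
      have : 0 ≤ (g q - 1)/(q - g q) := div_nonneg (by linarith) (by linarith)
      linarith
    set κ : ℝ := (g p - 1)/(p - g p) with hκ
    have hκ0 : 0 ≤ κ := div_nonneg (by linarith) (by linarith)
    have hκe : g p * κ + (g p - 1) = κ * p := by
      rw [hκ]; field_simp [show (p:ℝ) - g p ≠ 0 by linarith]; ring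
    have e1 : ∀ n, gP g (insert p P) n = (g p)^(n.factorization p) * gP g P n := by
      intro n; unfold gP; rw [Finset.prod_insert hpP]
    have e2 : ∀ m, 0 < m → gP g P (p*m) = gP g P m := by
      intro m hm
      unfold gP
      apply Finset.prod_congr rfl
      intro q hq
      congr 1
      rw [Nat.factorization_mul hpp.pos.ne' hm.ne', Finsupp.add_apply, hpp.factorization, Finsupp.single_apply,
        if_neg (by rintro rfl; exact hpP hq), zero_add]
    have e3 : ∀ m, 0 < m → gP g (insert p P) (p*m) = g p * gP g (insert p P) m := by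
      intro m hm
      rw [e1, e1, e2 m hm, Nat.factorization_mul hpp.pos.ne' hm.ne', Finsupp.add_apply, hpp.factorization,
        Finsupp.single_apply, if_pos rfl, pow_add, pow_one]
      ring
    -- difference
    have hD : ∀ X : ℕ, ∑ n ∈ Icc 1 X, gP g (insert p P) n - ∑ n ∈ Icc 1 X, gP g P n ≤ C * κ * X := by
      intro X
      induction X using Nat.strong_induction_on with
      | _ X ihX =>
        rcases Nat.eq_zero_or_pos X with hX | hX
        · subst hX; simp
        · have hlt : X / p < X := Nat.div_lt_self hX hpp.one_lt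
          have h1 := ihX (X/p) hlt
          have h2 := ih' (X/p)
          have hdiv : ((X/p : ℕ) : ℝ) ≤ X / p := Nat.cast_div_le
          have hrec : ∑ n ∈ Icc 1 X, gP g (insert p P) n - ∑ n ∈ Icc 1 X, gP g P n
              = g p * (∑ n ∈ Icc 1 (X/p), gP g (insert p P) n - ∑ n ∈ Icc 1 (X/p), gP g P n)
                + (g p - 1) * ∑ n ∈ Icc 1 (X/p), gP g P n := by
            rw [← Finset.sum_sub_distrib]
            rw [← Finset.sum_filter_add_sum_filter_not (Icc 1 X) (fun n => p ∣ n)]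
            rw [sum_multiples _ hpp.pos X]
            have z : ∑ n ∈ (Icc 1 X).filter (fun n => ¬ p ∣ n), (gP g (insert p P) n - gP g P n) = 0 := by
              apply Finset.sum_eq_zero
              intro n hn
              have := (mem_filter.1 hn).2
              rw [e1, Nat.factorization_eq_zero_of_not_dvd this]; simp
            rw [z, add_zero, ← Finset.sum_sub_distrib, Finset.mul_sum, Finset.mul_sum, ← Finset.sum_add_distrib]
            apply Finset.sum_congr rfl
            intro m hm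
            have hm0 : 0 < m := (mem_Icc.1 hm).1
            rw [e3 m hm0, e2 m hm0]; ring
          rw [hrec]
          calc g p * (∑ n ∈ Icc 1 (X/p), gP g (insert p P) n - ∑ n ∈ Icc 1 (X/p), gP g P n)
                + (g p - 1) * ∑ n ∈ Icc 1 (X/p), gP g P n
              ≤ g p * (C * κ * ((X/p : ℕ) : ℝ)) + (g p - 1) * (C * ((X/p : ℕ) : ℝ)) := by
                apply add_le_add
                · exact mul_le_mul_of_nonneg_left h1 (by linarith)
                · exact mul_le_mul_of_nonneg_left h2 (by linarith)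
            _ = C * (g p * κ + (g p - 1)) * ((X/p : ℕ) : ℝ) := by ring
            _ = C * (κ * p) * ((X/p : ℕ) : ℝ) := by rw [hκe]
            _ ≤ C * (κ * p) * (X / p) := by
                apply mul_le_mul_of_nonneg_left hdiv (by positivity)
            _ = C * κ * X := by field_simp
    rw [Finset.prod_insert hpP]
    have h1 := hD X
    have h2 := ih' X
    calc ∑ n ∈ Icc 1 X, gP g (insert p P) n ≤ C * κ * X + C * X := by linarith
      _ = (1 + κ) * C * X := by ring

/-- the base case -/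
theorem base {A : ℕ →* ℝ} {ε C : ℝ} (hε : 0 < ε) (hε4 : ε ≤ 1/4) (hA : ∀ n, 0 < n → 0 < A n)
    (hC : 1 ≤ C) (hmean : ∀ X : ℕ, ∑ n ∈ Icc 1 X, (A n)^(1/(1/2-ε)) ≤ C * X) :
    Bd A ε ∅ C := by
  classical
  intro I J E v w ψ θ δ hδ hv hw hvi hwi hψ hθ hE h1 h2 h3
  set u : ℝ := 1/2 - ε with hu
  have hu0 : 0 < u := by rw [hu]; linarith
  have hC0 : 0 < C := by linarith
  have hfac : ∀ n, fac ∅ n = 1 := by intro n; simp [fac]
  simp_rw [hfac, mul_one]
  -- gcd = 1
  have hgcd : ∀ e ∈ E, Nat.gcd (v e.1) (w e.2) = 1 := by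
    intro e he
    by_contra hne
    obtain ⟨p, hp, hpd⟩ := Nat.exists_prime_and_dvd hne
    have := h3 e he p hp (dvd_trans hpd (Nat.gcd_dvd_left _ _)) (dvd_trans hpd (Nat.gcd_dvd_right _ _))
    simp at this
  have ec1 : ∀ e ∈ E, cof (v e.1) (w e.2) = v e.1 := by
    intro e he; unfold cof; rw [hgcd e he, Nat.div_one]
  have ec2 : ∀ e ∈ E, cof (w e.2) (v e.1) = w e.2 := by
    intro e he; unfold cof; rw [Nat.gcd_comm, hgcd e he, Nat.div_one]
  set M : ℝ := ∑ i ∈ I, ψ i with hM
  set N : ℝ := ∑ j ∈ J, θ j with hN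
  have hM0 : 0 ≤ M := Finset.sum_nonneg hψ
  have hN0 : 0 ≤ N := Finset.sum_nonneg hθ
  have hRHS : 0 ≤ C * (δ^(1-2*ε) * (M*N)^(1/2+ε)) := by positivity
  rcases hM0.eq_or_lt with hMz | hMp
  · have hz := (Finset.sum_eq_zero_iff_of_nonneg hψ).1 hMz.symm
    refine le_trans (le_of_eq ?_) hRHS
    apply Finset.sum_eq_zero
    intro e he
    rw [hz _ (Finset.mem_product.1 (hE he)).1]; ring
  rcases hN0.eq_or_lt with hNz | hNp
  · have hz := (Finset.sum_eq_zero_iff_of_nonneg hθ).1 hNz.symm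
    refine le_trans (le_of_eq ?_) hRHS
    apply Finset.sum_eq_zero
    intro e he
    rw [hz _ (Finset.mem_product.1 (hE he)).2]; ring
  set vp : ℕ → ℕ := fun j => (E.filter (fun e => e.2 = j)).sup (fun e => v e.1) with hvp
  set wp : ℕ → ℕ := fun i => (E.filter (fun e => e.1 = i)).sup (fun e => w e.2) with hwp
  have hvle : ∀ e ∈ E, v e.1 ≤ vp e.2 := by
    intro e he
    exact Finset.le_sup (f := fun e : ℕ × ℕ => v e.1) (Finset.mem_filter.2 ⟨he, rfl⟩)
  have hwle : ∀ e ∈ E, w e.2 ≤ wp e.1 := by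
    intro e he
    exact Finset.le_sup (f := fun e : ℕ × ℕ => w e.2) (Finset.mem_filter.2 ⟨he, rfl⟩)
  have hvp1 : ∀ e ∈ E, (0:ℝ) < vp e.2 := by
    intro e he
    have := hv _ (Finset.mem_product.1 (hE he)).1
    have h5 := hvle e he
    exact_mod_cast lt_of_lt_of_le this h5
  have hwp1 : ∀ e ∈ E, (0:ℝ) < wp e.1 := by
    intro e he
    have := hw _ (Finset.mem_product.1 (hE he)).2
    have h5 := hwle e he
    exact_mod_cast lt_of_lt_of_le this h5
  have hθb : ∀ e ∈ E, θ e.2 * vp e.2 ≤ δ := by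
    intro e he
    obtain ⟨e', he', hs⟩ := Finset.exists_mem_eq_sup (E.filter (fun e' => e'.2 = e.2))
      ⟨e, Finset.mem_filter.2 ⟨he, rfl⟩⟩ (fun e => v e.1)
    have hm := Finset.mem_filter.1 he'
    have h5 := h1 e' hm.1
    rw [ec1 e' hm.1, hm.2] at h5
    have : vp e.2 = v e'.1 := hs
    rw [this, mul_comm]; exact h5
  have hψb : ∀ e ∈ E, ψ e.1 * wp e.1 ≤ δ := by
    intro e he
    obtain ⟨e', he', hs⟩ := Finset.exists_mem_eq_sup (E.filter (fun e' => e'.1 = e.1))
      ⟨e, Finset.mem_filter.2 ⟨he, rfl⟩⟩ (fun e => w e.2)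
    have hm := Finset.mem_filter.1 he'
    have h5 := h2 e' hm.1
    rw [ec2 e' hm.1, hm.2] at h5
    have : wp e.1 = w e'.2 := hs
    rw [this, mul_comm]; exact h5
  set a : ℕ × ℕ → ℝ := fun e => vp e.2 / wp e.1 with ha
  have ha0 : ∀ e ∈ E, 0 < a e := fun e he => div_pos (hvp1 e he) (hwp1 e he)
  -- sum 1
  have S1 : ∑ e ∈ E, ψ e.1 * θ e.2 * (a e * (A (w e.2))^(1/u)) ≤ δ * C * M := by
    have hmaps : ∀ e ∈ E, e.1 ∈ I := fun e he => (Finset.mem_product.1 (hE he)).1
    rw [← Finset.sum_fiberwise_of_maps_to hmaps, hM, Finset.mul_sum]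
    apply Finset.sum_le_sum
    intro i hi
    have hb : ∀ e ∈ E.filter (fun e => e.1 = i), ψ e.1 * θ e.2 * (a e * (A (w e.2))^(1/u))
        ≤ ψ i * (δ / wp i) * (A (w e.2))^(1/u) := by
      intro e he
      obtain ⟨he1, he2⟩ := Finset.mem_filter.1 he
      have hm := Finset.mem_product.1 (hE he1)
      have hAw : 0 ≤ (A (w e.2))^(1/u) := Real.rpow_nonneg (hA _ (hw _ hm.2)).le _
      have hwpp := hwp1 e he1
      rw [he2] at hwpp
      rw [← mul_assoc]
      apply mul_le_mul_of_nonneg_right _ hAw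
      rw [he2, mul_assoc]
      apply mul_le_mul_of_nonneg_left _ (hψ i hi)
      simp only [ha]
      rw [he2, ← mul_div_assoc]
      exact div_le_div_of_nonneg_right (hθb e he1) hwpp.le
    refine (Finset.sum_le_sum hb).trans ?_
    rw [← Finset.mul_sum]
    rcases Finset.eq_empty_or_nonempty (E.filter (fun e => e.1 = i)) with hem | ⟨e0, he0⟩
    · rw [hem, Finset.sum_empty, mul_zero]
      have := hψ i hi; positivity
    obtain ⟨he01, he02⟩ := Finset.mem_filter.1 he0
    have hwpp := hwp1 e0 he01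
    rw [he02] at hwpp
    have hinj : ∑ e ∈ E.filter (fun e => e.1 = i), (A (w e.2))^(1/u)
        ≤ ∑ n ∈ Icc 1 (wp i), (A n)^(1/u) := by
      rw [← Finset.sum_image (s := E.filter (fun e => e.1 = i)) (g := fun e => w e.2)
        (f := fun n => (A n)^(1/u))]
      · apply Finset.sum_le_sum_of_subset_of_nonneg
        · intro n hn
          obtain ⟨e, he, rfl⟩ := Finset.mem_image.1 hn
          obtain ⟨he1, he2⟩ := Finset.mem_filter.1 he
          rw [mem_Icc]
          refine ⟨hw _ (Finset.mem_product.1 (hE he1)).2, ?_⟩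
          have := hwle e he1
          rw [he2] at this; exact this
        · intro n hn _
          exact Real.rpow_nonneg (hA _ (mem_Icc.1 hn).1).le _
      · intro e he e' he' heq
        obtain ⟨he1, he2⟩ := Finset.mem_filter.1 he
        obtain ⟨he1', he2'⟩ := Finset.mem_filter.1 he'
        have := hwi (Finset.mem_product.1 (hE he1)).2 (Finset.mem_product.1 (hE he1')).2 heq
        exact Prod.ext (he2.trans he2'.symm) this
    have h6 := hinj.trans (hmean (wp i))
    have hψi := hψ i hi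
    calc ψ i * (δ / wp i) * ∑ e ∈ E.filter (fun e => e.1 = i), (A (w e.2))^(1/u)
        ≤ ψ i * (δ / wp i) * (C * wp i) := by
          apply mul_le_mul_of_nonneg_left h6; positivity
      _ = δ * C * ψ i := by field_simp
  have S2 : ∑ e ∈ E, ψ e.1 * θ e.2 * ((A (v e.1))^(1/u) / a e) ≤ δ * C * N := by
    have hmaps : ∀ e ∈ E, e.2 ∈ J := fun e he => (Finset.mem_product.1 (hE he)).2
    rw [← Finset.sum_fiberwise_of_maps_to hmaps, hN, Finset.mul_sum]
    apply Finset.sum_le_sum
    intro j hj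
    have hb : ∀ e ∈ E.filter (fun e => e.2 = j), ψ e.1 * θ e.2 * ((A (v e.1))^(1/u) / a e)
        ≤ θ j * (δ / vp j) * (A (v e.1))^(1/u) := by
      intro e he
      obtain ⟨he1, he2⟩ := Finset.mem_filter.1 he
      have hm := Finset.mem_product.1 (hE he1)
      have hAw : 0 ≤ (A (v e.1))^(1/u) := Real.rpow_nonneg (hA _ (hv _ hm.1)).le _
      have hvpp := hvp1 e he1
      have hwpp := hwp1 e he1
      rw [he2] at hvpp
      have e5 : ψ e.1 * θ e.2 * ((A (v e.1))^(1/u) / a e)
          = θ j * (ψ e.1 * wp e.1 / vp j) * (A (v e.1))^(1/u) := by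
        simp only [ha]
        rw [he2]; field_simp
      rw [e5]
      apply mul_le_mul_of_nonneg_right _ hAw
      apply mul_le_mul_of_nonneg_left _ (hθ j hj)
      exact div_le_div_of_nonneg_right (hψb e he1) hvpp.le
    refine (Finset.sum_le_sum hb).trans ?_
    rw [← Finset.mul_sum]
    rcases Finset.eq_empty_or_nonempty (E.filter (fun e => e.2 = j)) with hem | ⟨e0, he0⟩
    · rw [hem, Finset.sum_empty, mul_zero]
      have := hθ j hj; positivity
    obtain ⟨he01, he02⟩ := Finset.mem_filter.1 he0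
    have hvpp := hvp1 e0 he01
    rw [he02] at hvpp
    have hinj : ∑ e ∈ E.filter (fun e => e.2 = j), (A (v e.1))^(1/u)
        ≤ ∑ n ∈ Icc 1 (vp j), (A n)^(1/u) := by
      rw [← Finset.sum_image (s := E.filter (fun e => e.2 = j)) (g := fun e => v e.1)
        (f := fun n => (A n)^(1/u))]
      · apply Finset.sum_le_sum_of_subset_of_nonneg
        · intro n hn
          obtain ⟨e, he, rfl⟩ := Finset.mem_image.1 hn
          obtain ⟨he1, he2⟩ := Finset.mem_filter.1 he
          rw [mem_Icc]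
          refine ⟨hv _ (Finset.mem_product.1 (hE he1)).1, ?_⟩
          have := hvle e he1
          rw [he2] at this; exact this
        · intro n hn _
          exact Real.rpow_nonneg (hA _ (mem_Icc.1 hn).1).le _
      · intro e he e' he' heq
        obtain ⟨he1, he2⟩ := Finset.mem_filter.1 he
        obtain ⟨he1', he2'⟩ := Finset.mem_filter.1 he'
        have := hvi (Finset.mem_product.1 (hE he1)).1 (Finset.mem_product.1 (hE he1')).1 heq
        exact Prod.ext this (he2.trans he2'.symm)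
    have h6 := hinj.trans (hmean (vp j))
    have hθj := hθ j hj
    calc θ j * (δ / vp j) * ∑ e ∈ E.filter (fun e => e.2 = j), (A (v e.1))^(1/u)
        ≤ θ j * (δ / vp j) * (C * vp j) := by
          apply mul_le_mul_of_nonneg_left h6; positivity
      _ = δ * C * θ j := by field_simp
  have S3 : ∑ e ∈ E, ψ e.1 * θ e.2 ≤ M * N := by
    calc ∑ e ∈ E, ψ e.1 * θ e.2 ≤ ∑ e ∈ I ×ˢ J, ψ e.1 * θ e.2 := by
          apply Finset.sum_le_sum_of_subset_of_nonneg hE
          intro e he _
          have hm := Finset.mem_product.1 he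
          exact mul_nonneg (hψ _ hm.1) (hθ _ hm.2)
      _ = M * N := by rw [Finset.sum_product, hM, hN, Finset.sum_mul_sum]
  set N1 : ℝ := δ * C / N with hN1
  set N2 : ℝ := δ * C / M with hN2
  have hN1p : 0 < N1 := by positivity
  have hN2p : 0 < N2 := by positivity
  -- per edge
  have hedge : ∀ e ∈ E, ψ e.1 * θ e.2 * (A (cof (v e.1) (w e.2)) * A (cof (w e.2) (v e.1)))
      ≤ (N1*N2)^u * ((1-2*u) * (ψ e.1 * θ e.2) + u/N1 * (ψ e.1 * θ e.2 * (a e * (A (w e.2))^(1/u)))
        + u/N2 * (ψ e.1 * θ e.2 * ((A (v e.1))^(1/u) / a e))) := by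
    intro e he
    have hm := Finset.mem_product.1 (hE he)
    rw [ec1 e he, ec2 e he]
    have hAv := hA _ (hv _ hm.1)
    have hAw := hA _ (hw _ hm.2)
    have hae := ha0 e he
    have hpt := mul_nonneg (hψ _ hm.1) (hθ _ hm.2)
    set x1 := a e * (A (w e.2))^(1/u) / N1 with hx1
    set x2 := (A (v e.1))^(1/u) / a e / N2 with hx2
    have hx1p : 0 ≤ x1 := by positivity
    have hx2p : 0 ≤ x2 := by positivity
    have hAG := Real.geom_mean_le_arith_mean3_weighted (w₁ := 1 - 2*u) (w₂ := u) (w₃ := u)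
      (p₁ := 1) (p₂ := x1) (p₃ := x2) (by rw [hu]; linarith) hu0.le hu0.le (by norm_num) hx1p hx2p (by ring)
    rw [Real.one_rpow, one_mul, mul_one] at hAG
    have hprod : A (v e.1) * A (w e.2) = (N1*N2)^u * (x1^u * x2^u) := by
      rw [← Real.mul_rpow hx1p hx2p, ← Real.mul_rpow (by positivity) (by positivity)]
      have : N1 * N2 * (x1 * x2) = (A (w e.2))^(1/u) * (A (v e.1))^(1/u) := by
        rw [hx1, hx2]; field_simp
      rw [this, ← Real.mul_rpow hAw.le hAv.le, ← Real.rpow_mul (by positivity), one_div_mul_cancel hu0.ne',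
        Real.rpow_one, mul_comm]
    rw [hprod]
    calc ψ e.1 * θ e.2 * ((N1*N2)^u * (x1^u * x2^u))
        = (N1*N2)^u * (ψ e.1 * θ e.2 * (x1^u * x2^u)) := by ring
      _ ≤ (N1*N2)^u * (ψ e.1 * θ e.2 * ((1-2*u) + u*x1 + u*x2)) := by
          apply mul_le_mul_of_nonneg_left _ (by positivity)
          exact mul_le_mul_of_nonneg_left hAG hpt
      _ = _ := by rw [hx1, hx2]; ring
  calc ∑ e ∈ E, ψ e.1 * θ e.2 * (A (cof (v e.1) (w e.2)) * A (cof (w e.2) (v e.1)))
      ≤ ∑ e ∈ E, (N1*N2)^u * ((1-2*u) * (ψ e.1 * θ e.2) + u/N1 * (ψ e.1 * θ e.2 * (a e * (A (w e.2))^(1/u)))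
        + u/N2 * (ψ e.1 * θ e.2 * ((A (v e.1))^(1/u) / a e))) := Finset.sum_le_sum hedge
    _ = (N1*N2)^u * ((1-2*u) * (∑ e ∈ E, ψ e.1 * θ e.2)
        + u/N1 * (∑ e ∈ E, ψ e.1 * θ e.2 * (a e * (A (w e.2))^(1/u)))
        + u/N2 * (∑ e ∈ E, ψ e.1 * θ e.2 * ((A (v e.1))^(1/u) / a e))) := by
        rw [← Finset.mul_sum, Finset.sum_add_distrib, Finset.sum_add_distrib, ← Finset.mul_sum,
          ← Finset.mul_sum, ← Finset.mul_sum]
    _ ≤ (N1*N2)^u * ((1-2*u) * (M*N) + u/N1 * (δ*C*M) + u/N2 * (δ*C*N)) := by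
        apply mul_le_mul_of_nonneg_left _ (by positivity)
        have t1 : (1-2*u) * (∑ e ∈ E, ψ e.1 * θ e.2) ≤ (1-2*u) * (M*N) :=
          mul_le_mul_of_nonneg_left S3 (by rw [hu]; linarith)
        have t2 := mul_le_mul_of_nonneg_left S1 (show 0 ≤ u/N1 by positivity)
        have t3 := mul_le_mul_of_nonneg_left S2 (show 0 ≤ u/N2 by positivity)
        linarith
    _ = (N1*N2)^u * (M*N) := by
        rw [hN1, hN2]; field_simp; ring
    _ = C^(2*u) * (δ^(1-2*ε) * (M*N)^(1/2+ε)) := by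
        have e1 : N1 * N2 = (δ*C)^(2:ℝ) * (M*N)^(-1:ℝ) := by
          rw [hN1, hN2, Real.rpow_two, Real.rpow_neg_one]; field_simp
        rw [e1, Real.mul_rpow (by positivity) (by positivity), ← Real.rpow_mul (by positivity),
          ← Real.rpow_mul (by positivity), Real.mul_rpow hδ.le hC0.le]
        have e2 : (M*N)^(-1*u) * (M*N) = (M*N)^(1/2+ε) := by
          nth_rewrite 2 [← Real.rpow_one (M*N)]
          rw [← Real.rpow_add (by positivity)]
          congr 1; rw [hu]; ring
        rw [show 1 - 2*ε = 2*u by rw [hu]; ring]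
        rw [← e2]; ring
    _ ≤ C * (δ^(1-2*ε) * (M*N)^(1/2+ε)) := by
        apply mul_le_mul_of_nonneg_right _ (by positivity)
        calc C^(2*u) ≤ C^(1:ℝ) := Real.rpow_le_rpow_of_exponent_le hC (by rw [hu]; linarith)
          _ = C := Real.rpow_one C

end Crest.Agent.R4.HVW560
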