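import Mathlib
import Crest.Agent.R4.HVWEng560

/-! The induction step over primes for the HVW inequality: assembly. -/

set_option autoImplicit false
open Finset

namespace Crest.Agent.R4.HVW560

/-- fibre sums of a finite family -/
theorem fibre_sum (I : Finset ℕ) (f : ℕ → ℕ) (g : ℕ → ℝ) (n : ℕ) (hn : ∀ i ∈ I, f i < n) (K : ℕ) :
    ∑ i ∈ I.filter (fun i => K ≤ f i), g i
      = ∑ k ∈ (range n).filter (fun k => K ≤ k), ∑ i ∈ I.filter (fun i => f i = k), g i := by
  rw [← Finset.sum_fiberwise_of_maps_to (s := I.filter (fun i => K ≤ f i))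
    (t := (range n).filter (fun k => K ≤ k)) (g := f)]
  · apply Finset.sum_congr rfl
    intro k hk
    rw [Finset.filter_filter]
    apply Finset.sum_congr _ (fun _ _ => rfl)
    ext i
    simp only [mem_filter]
    have := (Finset.mem_filter.1 hk).2
    constructor
    · rintro ⟨h1, h2, h3⟩; exact ⟨h1, h3⟩
    · rintro ⟨h1, h3⟩; exact ⟨h1, by rw [h3]; exact this, h3⟩
  · intro i hi
    rw [Finset.mem_filter] at hi ⊢
    exact ⟨mem_range.2 (hn i hi.1), hi.2⟩

theorem step {A : ℕ →* ℝ} {ε : ℝ} {Q : Finset ℕ} {B F : ℝ} (hB : Bd A ε Q B) (hB0 : 0 ≤ B)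
    (hF0 : 0 ≤ F) (hQ : ∀ q ∈ Q, q.Prime) {p : ℕ} (hp : p.Prime) (hpQ : p ∉ Q) (hAp : 0 ≤ A p)
    (hε : 0 < ε)
    (hF : ∀ (n : ℕ) (a b : ℕ → ℝ), (∀ k, 0 ≤ a k) → (∀ k, 0 ≤ b k) →
      ∑ k ∈ range n, a k = 1 → ∑ k ∈ range n, b k = 1 →
      FA ((p:ℝ)^(-(1/2-ε)) * A p) (1/2+ε) n a b ≤ F ∨ ∃ K, K < n ∧
        FK ((p:ℝ)^(-(1/2-ε)) * A p) (1/2+ε) (if K = 0 then 1 else (1-1/(p:ℝ))^(2*(1/2-ε))) n K a b ≤ F) :
    Bd A ε (insert p Q) (B*F) := by
  classical
  intro I J E v w ψ θ δ hδ hv hw hvi hwi hψ hθ hE h1 h2 h3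
  have hI' : ∀ q ∈ insert p Q, q.Prime := by
    intro q hq
    rcases Finset.mem_insert.1 hq with h | h
    · exact h ▸ hp
    · exact hQ q h
  set s : ℝ := 1/2 + ε with hs
  have hs0 : 0 < s := by rw [hs]; linarith
  set q : ℝ := (p:ℝ)^(-(1/2-ε)) * A p with hq
  have hq0 : 0 ≤ q := mul_nonneg (by positivity) hAp
  set gI : ℕ → ℝ := fun i => ψ i * fac (insert p Q) (v i) with hgI
  set gJ : ℕ → ℝ := fun j => θ j * fac (insert p Q) (w j) with hgJ
  have hgI0 : ∀ i ∈ I, 0 ≤ gI i := fun i hi => mul_nonneg (hψ i hi) (fac_nonneg hI' _)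
  have hgJ0 : ∀ i ∈ J, 0 ≤ gJ i := fun i hi => mul_nonneg (hθ i hi) (fac_nonneg hI' _)
  set M : ℝ := ∑ i ∈ I, gI i with hM
  set N : ℝ := ∑ j ∈ J, gJ j with hN
  have hM0 : 0 ≤ M := Finset.sum_nonneg hgI0
  have hN0 : 0 ≤ N := Finset.sum_nonneg hgJ0
  set f : ℕ × ℕ → ℝ := fun e => gI e.1 * gJ e.2 * (A (cof (v e.1) (w e.2)) * A (cof (w e.2) (v e.1))) with hf
  have hδ0 : 0 ≤ δ^(1-2*ε) := by positivity
  have hRHS : 0 ≤ B * F * (δ^(1-2*ε) * (M*N)^s) := by positivity
  show ∑ e ∈ E, f e ≤ B * F * (δ^(1-2*ε) * (M*N)^s)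
  rcases hM0.eq_or_lt with hMz | hMp
  · have hz := (Finset.sum_eq_zero_iff_of_nonneg hgI0).1 hMz.symm
    have : ∑ e ∈ E, f e = 0 := by
      apply Finset.sum_eq_zero
      intro e he
      have hm := Finset.mem_product.1 (hE he)
      simp only [hf]
      rw [hz _ hm.1]; ring
    rw [this]; exact hRHS
  rcases hN0.eq_or_lt with hNz | hNp
  · have hz := (Finset.sum_eq_zero_iff_of_nonneg hgJ0).1 hNz.symm
    have : ∑ e ∈ E, f e = 0 := by
      apply Finset.sum_eq_zero
      intro e he
      have hm := Finset.mem_product.1 (hE he)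
      simp only [hf]
      rw [hz _ hm.2]; ring
    rw [this]; exact hRHS
  set fv : ℕ → ℕ := fun i => (v i).factorization p with hfv
  set fw : ℕ → ℕ := fun i => (w i).factorization p with hfw
  set n : ℕ := max (I.sup fv) (J.sup fw) + 1 with hn
  have hnI : ∀ i ∈ I, fv i < n := by
    intro i hi
    have : fv i ≤ I.sup fv := Finset.le_sup hi
    omega
  have hnJ : ∀ i ∈ J, fw i < n := by
    intro i hi
    have : fw i ≤ J.sup fw := Finset.le_sup hi
    omega
  set a : ℕ → ℝ := fun k => (∑ i ∈ I.filter (fun i => fv i = k), gI i) / M with ha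
  set b : ℕ → ℝ := fun k => (∑ i ∈ J.filter (fun i => fw i = k), gJ i) / N with hb
  have ha0 : ∀ k, 0 ≤ a k := fun k => div_nonneg
    (Finset.sum_nonneg fun i hi => hgI0 i (Finset.mem_filter.1 hi).1) hM0
  have hb0 : ∀ k, 0 ≤ b k := fun k => div_nonneg
    (Finset.sum_nonneg fun i hi => hgJ0 i (Finset.mem_filter.1 hi).1) hN0
  have hgeI : ∀ K, ∑ i ∈ I.filter (fun i => K ≤ fv i), gI i
      = M * ∑ k ∈ (range n).filter (fun k => K ≤ k), a k := by
    intro K
    rw [fibre_sum I fv gI n hnI K, Finset.mul_sum]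
    apply Finset.sum_congr rfl
    intro k _
    simp only [ha]
    field_simp
  have hgeJ : ∀ K, ∑ i ∈ J.filter (fun i => K ≤ fw i), gJ i
      = N * ∑ k ∈ (range n).filter (fun k => K ≤ k), b k := by
    intro K
    rw [fibre_sum J fw gJ n hnJ K, Finset.mul_sum]
    apply Finset.sum_congr rfl
    intro k _
    simp only [hb]
    field_simp
  have f0 : ∀ S : Finset ℕ, ∀ g : ℕ → ℕ, S.filter (fun k => 0 ≤ g k) = S := by
    intro S g; apply Finset.filter_true_of_mem; intro i _; exact Nat.zero_le _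
  have hSa : ∑ k ∈ range n, a k = 1 := by
    have := hgeI 0
    rw [f0 I fv, f0 (range n) (fun k => k), ← hM] at this
    have h5 : M * 1 = M * ∑ k ∈ range n, a k := by rw [mul_one]; exact this
    exact (mul_left_cancel₀ hMp.ne' h5).symm
  have hSb : ∑ k ∈ range n, b k = 1 := by
    have := hgeJ 0
    rw [f0 J fw, f0 (range n) (fun k => k), ← hN] at this
    have h5 : N * 1 = N * ∑ k ∈ range n, b k := by rw [mul_one]; exact this
    exact (mul_left_cancel₀ hNp.ne' h5).symm
  -- exact pieces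
  have piece : ∀ (k l : ℕ) (E'' : Finset (ℕ × ℕ)), E'' ⊆ E → (∀ e ∈ E'', fv e.1 = k ∧ fw e.2 = l) →
      ∑ e ∈ E'', f e ≤ B * (δ^(1-2*ε) * ((M*N)^s * (q^(dst k l) * (a k * b l)^s))) := by
    intro k l E'' hE'' hkl
    have hsub : E'' ⊆ (I.filter (fun i => fv i = k)) ×ˢ (J.filter (fun i => fw i = l)) := by
      intro e he
      have hm := Finset.mem_product.1 (hE (hE'' he))
      rw [Finset.mem_product, Finset.mem_filter, Finset.mem_filter]
      exact ⟨⟨hm.1, (hkl e he).1⟩, ⟨hm.2, (hkl e he).2⟩⟩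
    have := exact_part hB hQ hp hpQ hAp k l (I.filter (fun i => fv i = k)) (J.filter (fun i => fw i = l)) E'' v w
      ψ θ δ hδ (fun i hi => hv i (Finset.mem_filter.1 hi).1) (fun i hi => hw i (Finset.mem_filter.1 hi).1)
      (fun i hi j hj h => hvi (Finset.mem_filter.1 hi).1 (Finset.mem_filter.1 hj).1 h)
      (fun i hi j hj h => hwi (Finset.mem_filter.1 hi).1 (Finset.mem_filter.1 hj).1 h)
      (fun i hi => hψ i (Finset.mem_filter.1 hi).1) (fun i hi => hθ i (Finset.mem_filter.1 hi).1)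
      hsub (fun e he => h1 e (hE'' he)) (fun e he => h2 e (hE'' he)) (fun e he => h3 e (hE'' he))
      (fun i hi => (Finset.mem_filter.1 hi).2) (fun i hi => (Finset.mem_filter.1 hi).2)
    have e1 : ∑ i ∈ I.filter (fun i => fv i = k), ψ i * fac (insert p Q) (v i) = M * a k := by
      simp only [ha]; rw [mul_div_cancel₀ _ hMp.ne']
    have e2 : ∑ i ∈ J.filter (fun i => fw i = l), θ i * fac (insert p Q) (w i) = N * b l := by
      simp only [hb]; rw [mul_div_cancel₀ _ hNp.ne']
    rw [e1, e2] at this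
    refine this.trans (le_of_eq ?_)
    rw [show M * a k * (N * b l) = (M*N) * (a k * b l) by ring, Real.mul_rpow (by positivity)
      (mul_nonneg (ha0 k) (hb0 l))]
    ring
  have hmaps : ∀ e ∈ E, (fv e.1, fw e.2) ∈ range n ×ˢ range n := by
    intro e he
    have hm := Finset.mem_product.1 (hE he)
    rw [Finset.mem_product]
    exact ⟨mem_range.2 (hnI _ hm.1), mem_range.2 (hnJ _ hm.2)⟩
  rcases hF n a b ha0 hb0 hSa hSb with hFA | ⟨K, hKn, hFK⟩
  · calc ∑ e ∈ E, f e = ∑ x ∈ range n ×ˢ range n, ∑ e ∈ E.filter (fun e => (fv e.1, fw e.2) = x), f e :=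
          (Finset.sum_fiberwise_of_maps_to hmaps f).symm
      _ ≤ ∑ x ∈ range n ×ˢ range n, B * (δ^(1-2*ε) * ((M*N)^s * (q^(dst x.1 x.2) * (a x.1 * b x.2)^s))) := by
          apply Finset.sum_le_sum
          intro x _
          apply piece x.1 x.2 _ (Finset.filter_subset _ _)
          intro e he
          have := (Finset.mem_filter.1 he).2
          rw [← this]; exact ⟨rfl, rfl⟩
      _ = B * (δ^(1-2*ε) * ((M*N)^s * FA q s n a b)) := by
          unfold FA
          rw [← Finset.sum_product']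
          generalize (M*N)^s = X
          rw [Finset.mul_sum, Finset.mul_sum, Finset.mul_sum]
      _ ≤ B * (δ^(1-2*ε) * ((M*N)^s * F)) := by
          have : 0 ≤ (M*N)^s := by positivity
          gcongr
      _ = _ := by ring
  · -- unsplit
    have hun : ∑ e ∈ E.filter (fun e => min (fv e.1) (fw e.2) = K), f e
        ≤ B * (δ^(1-2*ε) * ((M*N)^s * ((if K = 0 then 1 else (1-1/(p:ℝ))^(2*(1/2-ε))) *
          ((∑ k ∈ (range n).filter (fun k => K ≤ k), a k) *
            (∑ l ∈ (range n).filter (fun l => K ≤ l), b l))^s))) := by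
      by_cases hK0 : K = 0
      · rw [if_pos hK0, hK0, f0 (range n) (fun k => k), hSa, hSb, one_mul, one_mul, Real.one_rpow, mul_one]
        have := unsplit0 hB hp hpQ I J (E.filter (fun e => min (fv e.1) (fw e.2) = 0)) v w ψ θ δ hδ hv hw
          hvi hwi hψ hθ ((Finset.filter_subset _ _).trans hE)
          (fun e he => h1 e (Finset.mem_filter.1 he).1) (fun e he => h2 e (Finset.mem_filter.1 he).1)
          (fun e he => h3 e (Finset.mem_filter.1 he).1)
          (by
            intro e he hcon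
            have hm := Finset.mem_product.1 (hE (Finset.mem_filter.1 he).1)
            have h5 := (dvd_iff_fact hp (hv _ hm.1)).1 hcon.1
            have h6 := (dvd_iff_fact hp (hw _ hm.2)).1 hcon.2
            have h7 := (Finset.mem_filter.1 he).2
            simp only [hfv, hfw] at h7
            omega)
        exact this
      · rw [if_neg hK0]
        have hsub : E.filter (fun e => min (fv e.1) (fw e.2) = K) ⊆
            (I.filter (fun i => K ≤ fv i)) ×ˢ (J.filter (fun i => K ≤ fw i)) := by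
          intro e he
          have hm := Finset.mem_product.1 (hE (Finset.mem_filter.1 he).1)
          have h7 := (Finset.mem_filter.1 he).2
          rw [Finset.mem_product, Finset.mem_filter, Finset.mem_filter]
          refine ⟨⟨hm.1, ?_⟩, ⟨hm.2, ?_⟩⟩
          · rw [← h7]; exact min_le_left _ _
          · rw [← h7]; exact min_le_right _ _
        have := unsplitK hB hQ hp hpQ K hK0 (I.filter (fun i => K ≤ fv i)) (J.filter (fun i => K ≤ fw i))
          (E.filter (fun e => min (fv e.1) (fw e.2) = K)) v w ψ θ δ hδ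
          (fun i hi => hv i (Finset.mem_filter.1 hi).1) (fun i hi => hw i (Finset.mem_filter.1 hi).1)
          (fun i hi j hj h => hvi (Finset.mem_filter.1 hi).1 (Finset.mem_filter.1 hj).1 h)
          (fun i hi j hj h => hwi (Finset.mem_filter.1 hi).1 (Finset.mem_filter.1 hj).1 h)
          (fun i hi => hψ i (Finset.mem_filter.1 hi).1) (fun i hi => hθ i (Finset.mem_filter.1 hi).1)
          hsub (fun e he => h1 e (Finset.mem_filter.1 he).1) (fun e he => h2 e (Finset.mem_filter.1 he).1)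
          (fun e he => h3 e (Finset.mem_filter.1 he).1)
          (fun i hi => (Finset.mem_filter.1 hi).2) (fun i hi => (Finset.mem_filter.1 hi).2)
          (fun e he => (Finset.mem_filter.1 he).2)
        refine this.trans (le_of_eq ?_)
        have e1 : ∑ i ∈ I.filter (fun i => K ≤ fv i), ψ i * fac (insert p Q) (v i)
          = M * ∑ k ∈ (range n).filter (fun k => K ≤ k), a k := hgeI K
        have e2 : ∑ i ∈ J.filter (fun i => K ≤ fw i), θ i * fac (insert p Q) (w i)
          = N * ∑ k ∈ (range n).filter (fun k => K ≤ k), b k := hgeJ K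
        rw [e1, e2]
        have ha1 : 0 ≤ ∑ k ∈ (range n).filter (fun k => K ≤ k), a k := Finset.sum_nonneg fun k _ => ha0 k
        have hb1 : 0 ≤ ∑ k ∈ (range n).filter (fun k => K ≤ k), b k := Finset.sum_nonneg fun k _ => hb0 k
        set X := ∑ k ∈ (range n).filter (fun k => K ≤ k), a k
        set Y := ∑ k ∈ (range n).filter (fun k => K ≤ k), b k
        rw [show M * X * (N * Y) = (M*N) * (X*Y) by ring,
          Real.mul_rpow (by positivity) (mul_nonneg ha1 hb1)]
        ring
    have hsp : ∑ e ∈ E.filter (fun e => ¬ min (fv e.1) (fw e.2) = K), f e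
        ≤ ∑ x ∈ (range n ×ˢ range n).filter (fun x => min x.1 x.2 ≠ K),
          B * (δ^(1-2*ε) * ((M*N)^s * (q^(dst x.1 x.2) * (a x.1 * b x.2)^s))) := by
      rw [← Finset.sum_fiberwise_of_maps_to (s := E.filter (fun e => ¬ min (fv e.1) (fw e.2) = K))
        (t := (range n ×ˢ range n).filter (fun x => min x.1 x.2 ≠ K)) (g := fun e => (fv e.1, fw e.2))]
      · apply Finset.sum_le_sum
        intro x _
        apply piece x.1 x.2 _ ((Finset.filter_subset _ _).trans (Finset.filter_subset _ _))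
        intro e he
        have := (Finset.mem_filter.1 he).2
        rw [← this]; exact ⟨rfl, rfl⟩
      · intro e he
        rw [Finset.mem_filter] at he ⊢
        exact ⟨hmaps e he.1, he.2⟩
    calc ∑ e ∈ E, f e = ∑ e ∈ E.filter (fun e => min (fv e.1) (fw e.2) = K), f e +
          ∑ e ∈ E.filter (fun e => ¬ min (fv e.1) (fw e.2) = K), f e :=
          (Finset.sum_filter_add_sum_filter_not E _ f).symm
      _ ≤ _ := add_le_add hun hsp
      _ = B * (δ^(1-2*ε) * ((M*N)^s * FK q s (if K = 0 then 1 else (1-1/(p:ℝ))^(2*(1/2-ε))) n K a b)) := by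
          unfold FK
          rw [← Finset.mul_sum, ← Finset.mul_sum, ← Finset.mul_sum]
          ring
      _ ≤ B * (δ^(1-2*ε) * ((M*N)^s * F)) := by
          have : 0 ≤ (M*N)^s := by positivity
          gcongr
      _ = _ := by ring

end Crest.Agent.R4.HVW560
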