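import Mathlib
import Crest.Agent.R4.HVWBase560
import Crest.Agent.R4.HVWStep560

/-! The HVW inequality with completely multiplicative weight: main theorem. -/

set_option autoImplicit false
open Finset

namespace Crest.Agent.R4.HVW560

/-- admissible weights -/
structure GoodWt (A : ℕ →* ℝ) (L Λ : ℝ) : Prop where
  one_le : ∀ p : ℕ, p.Prime → 1 ≤ A p
  le_L : ∀ p : ℕ, p.Prime → A p ≤ L
  le_pow : ∀ p : ℕ, p.Prime → A p ≤ (p:ℝ)^(1/16:ℝ)
  sum_le : ∀ P : Finset ℕ, (∀ p ∈ P, p.Prime) → ∑ p ∈ P, (A p - 1)/p ≤ Λ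

/-- `∑ n^{-1-t} ≤ 1 + 1/t` -/
theorem zeta_bound {t : ℝ} (ht : 0 < t) (N : ℕ) :
    ∑ n ∈ Icc 1 (N+1), (n:ℝ)^(-(1+t)) ≤ 1 + 1/t - (1/t) * ((N+1 : ℕ):ℝ)^(-t) := by
  induction N with
  | zero => simp
  | succ N ih =>
    rw [Finset.sum_Icc_succ_top (by omega)]
    have hN1 : (0:ℝ) < ((N+1:ℕ):ℝ) := by positivity
    have hN2 : (0:ℝ) < ((N+1+1:ℕ):ℝ) := by positivity
    -- (N+2)^{-1-t} ≤ (1/t)((N+1)^{-t} - (N+2)^{-t})
    have key : ((N+1+1:ℕ):ℝ)^(-(1+t)) ≤ (1/t) * (((N+1:ℕ):ℝ)^(-t) - ((N+1+1:ℕ):ℝ)^(-t)) := by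
      set x : ℝ := ((N+1+1:ℕ):ℝ) with hx
      have hy : ((N+1:ℕ):ℝ) = x - 1 := by rw [hx]; push_cast; ring
      have hx1 : 1 < x := by rw [hx]; push_cast; linarith [show (0:ℝ) ≤ (N:ℝ) by positivity]
      rw [hy]
      have e1 : (x-1)^(-t) = x^(-t) * (1 - 1/x)^(-t) := by
        rw [← Real.mul_rpow (by linarith) (by rw [sub_nonneg, div_le_one (by linarith)]; linarith)]
        congr 1; field_simp
      have h1x : 0 < 1 - 1/x := by rw [sub_pos, div_lt_one (by linarith)]; exact hx1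
      have e2 : 1 + t/x ≤ (1 - 1/x)^(-t) := by
        rw [Real.rpow_def_of_pos h1x]
        have hlog : Real.log (1 - 1/x) ≤ -(1/x) := by
          have := Real.log_le_sub_one_of_pos h1x; linarith
        have h3 : t/x ≤ Real.log (1-1/x) * (-t) := by
          have : t * (1/x) ≤ t * (-Real.log (1-1/x)) := mul_le_mul_of_nonneg_left (by linarith) ht.le
          calc t/x = t * (1/x) := by ring
            _ ≤ _ := this
            _ = _ := by ring
        calc 1 + t/x ≤ Real.exp (t/x) := by linarith [Real.add_one_le_exp (t/x)]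
          _ ≤ _ := Real.exp_le_exp.2 h3
      have hxt : 0 < x^(-t) := by positivity
      have e3 : x^(-(1+t)) = x^(-t) / x := by
        rw [show -(1+t) = -t + (-1) by ring, Real.rpow_add (by linarith), Real.rpow_neg_one]; rfl
      rw [e1, e3]
      have h4 : x^(-t) * (1 + t/x) ≤ x^(-t) * (1-1/x)^(-t) := mul_le_mul_of_nonneg_left e2 hxt.le
      calc x^(-t)/x = (1/t) * (x^(-t) * (1 + t/x) - x^(-t)) := by field_simp; ring
        _ ≤ (1/t) * (x^(-t) * (1-1/x)^(-t) - x^(-t)) := by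
            apply mul_le_mul_of_nonneg_left (by linarith) (by positivity)
    calc _ ≤ (1 + 1/t - (1/t) * ((N+1 : ℕ):ℝ)^(-t)) + (1/t) * (((N+1:ℕ):ℝ)^(-t) - ((N+1+1:ℕ):ℝ)^(-t)) :=
          add_le_add ih key
      _ = _ := by ring

theorem zeta_bound' {t : ℝ} (ht : 0 < t) (P : Finset ℕ) (hP : ∀ p ∈ P, 0 < p) :
    ∑ n ∈ P, (n:ℝ)^(-(1+t)) ≤ 1 + 1/t := by
  have h1 := zeta_bound ht (P.sup id)
  calc ∑ n ∈ P, (n:ℝ)^(-(1+t)) ≤ ∑ n ∈ Icc 1 (P.sup id + 1), (n:ℝ)^(-(1+t)) := by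
        apply Finset.sum_le_sum_of_subset_of_nonneg
        · intro n hn
          rw [mem_Icc]
          have : n ≤ P.sup id := Finset.le_sup (f := id) hn
          exact ⟨hP n hn, by omega⟩
        · intro n _ _; positivity
    _ ≤ _ := h1
    _ ≤ 1 + 1/t := by
        have : 0 ≤ (1/t) * ((P.sup id + 1 : ℕ):ℝ)^(-t) := by positivity
        linarith

theorem pow_four_sub {x L : ℝ} (h1 : 1 ≤ x) (h2 : x ≤ L) : x^4 - 1 ≤ 4 * L^3 * (x - 1) := by
  have e : x^4 - 1 = (x^3 + x^2 + x + 1) * (x-1) := by ring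
  rw [e]
  apply mul_le_mul_of_nonneg_right _ (by linarith)
  have hL : 1 ≤ L := h1.trans h2
  have h3 : x^3 ≤ L^3 := pow_le_pow_left₀ (by linarith) h2 3
  have h4 : x^2 ≤ L^3 := (pow_le_pow_right₀ h1 (by norm_num)).trans h3
  have h5 : x ≤ L^3 := (le_trans (by nlinarith [sq_nonneg (x-1), mul_self_nonneg x] : x ≤ x^3) h3)
  have h6 : 1 ≤ L^3 := h1.trans h5
  linarith

section
variable {A : ℕ →* ℝ} {L Λ ε : ℝ}

theorem GoodWt.L1 (h : GoodWt A L Λ) : 1 ≤ L := (h.one_le 2 Nat.prime_two).trans (h.le_L 2 Nat.prime_two)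

theorem GoodWt.Λ0 (h : GoodWt A L Λ) : 0 ≤ Λ := by simpa using h.sum_le ∅ (by simp)

theorem GoodWt.pos (h : GoodWt A L Λ) (n : ℕ) (hn : 0 < n) : 1 ≤ A n := by
  induction n using Nat.strong_induction_on with
  | _ n ih =>
    rcases Nat.lt_or_ge n 2 with h2 | h2
    · have : n = 1 := by omega
      rw [this, map_one]
    · obtain ⟨p, hp, m, rfl⟩ := Nat.exists_prime_and_dvd (show n ≠ 1 by omega)
      rw [map_mul]
      have hm : 0 < m := Nat.pos_of_ne_zero (by rintro rfl; simp at hn)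
      have := ih m (by nlinarith [hp.two_le]) hm
      have h3 := h.one_le p hp
      nlinarith

/-- `A(p)^{1/u}` -/
theorem GoodWt.pow_u (h : GoodWt A L Λ) (hε : 0 < ε) (hε4 : ε ≤ 1/4) {p : ℕ} (hp : p.Prime) :
    1 ≤ (A p)^(1/(1/2-ε)) ∧ (A p)^(1/(1/2-ε)) ≤ (A p)^4 ∧ (A p)^4 ≤ (p:ℝ)^(1/4:ℝ) := by
  have hu0 : 0 < 1/2 - ε := by linarith
  have h1 := h.one_le p hp
  have hp0 : (0:ℝ) ≤ p := by positivity
  refine ⟨Real.one_le_rpow h1 (by positivity), ?_, ?_⟩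
  · rw [← Real.rpow_natCast]
    apply Real.rpow_le_rpow_of_exponent_le h1
    rw [div_le_iff₀ hu0]
    push_cast; linarith
  · calc (A p)^4 ≤ ((p:ℝ)^(1/16:ℝ))^4 := pow_le_pow_left₀ (by linarith) (h.le_pow p hp) 4
      _ = (p:ℝ)^(1/4:ℝ) := by
        rw [← Real.rpow_natCast, ← Real.rpow_mul hp0]; norm_num

theorem quarter_le {p : ℝ} (hp : 2 ≤ p) : p^(1/4:ℝ) ≤ 2/3*p := by
  have hp0 : 0 < p := by linarith
  have h1 : (3/2:ℝ) ≤ p^(3/4:ℝ) := by
    have h2 : (2:ℝ)^(3/4:ℝ) ≤ p^(3/4:ℝ) := Real.rpow_le_rpow (by norm_num) hp (by norm_num)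
    refine le_trans ?_ h2
    have h3 : (3/2:ℝ)^(4:ℝ) ≤ ((2:ℝ)^(3/4:ℝ))^(4:ℝ) := by
      rw [← Real.rpow_mul (by norm_num)]; norm_num
    exact (Real.rpow_le_rpow_iff (by norm_num) (by positivity) (by norm_num)).1 h3
  have h4 : p^(1/4:ℝ) * p^(3/4:ℝ) = p := by
    rw [← Real.rpow_add hp0]; norm_num
  have h5 : 0 < p^(1/4:ℝ) := by positivity
  nlinarith

/-- the mean value of `A^{1/u}` -/
theorem mean_A (h : GoodWt A L Λ) (hε : 0 < ε) (hε4 : ε ≤ 1/4) (X : ℕ) :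
    ∑ n ∈ Icc 1 X, (A n)^(1/(1/2-ε)) ≤ Real.exp (12 * L^3 * Λ) * X := by
  set P : Finset ℕ := (range (X+1)).filter Nat.Prime with hP
  have hPp : ∀ p ∈ P, p.Prime := fun p hp => (mem_filter.1 hp).2
  set g : ℕ → ℝ := fun p => (A p)^(1/(1/2-ε)) with hg
  have e1 : ∀ n ∈ Icc 1 X, (A n)^(1/(1/2-ε)) = gP g P n := by
    intro n hn
    rw [mem_Icc] at hn
    have hn0 : n ≠ 0 := by omega
    unfold gP
    have h2 : A n = ∏ p ∈ n.primeFactors, (A p)^(n.factorization p) := by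
      conv_lhs => rw [← Nat.prod_factorization_pow_eq_self hn0]
      rw [Finsupp.prod, map_prod, Nat.support_factorization]
      simp only [map_pow]
    rw [h2, ← Real.finset_prod_rpow]
    · rw [← Finset.prod_subset (s₁ := n.primeFactors) (s₂ := P)]
      · apply Finset.prod_congr rfl
        intro p hp
        have hpp := (Nat.mem_primeFactors.1 hp).1
        have hA1 := h.one_le p hpp
        simp only [hg]
        rw [← Real.rpow_natCast, ← Real.rpow_natCast, ← Real.rpow_mul (by linarith), ← Real.rpow_mul (by linarith),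
          mul_comm]
      · intro p hp
        have := Nat.mem_primeFactors.1 hp
        rw [hP, mem_filter, mem_range]
        exact ⟨by have := Nat.le_of_dvd (by omega) this.2.1; omega, this.1⟩
      · intro p hp hpn
        rw [← Nat.support_factorization, Finsupp.notMem_support_iff] at hpn
        rw [hpn, pow_zero]
    · intro p hp
      have hpp := (Nat.mem_primeFactors.1 hp).1
      have hA1 := h.one_le p hpp
      positivity
  rw [Finset.sum_congr rfl e1]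
  have hg1 : ∀ p ∈ P, 1 ≤ g p := fun p hp => (h.pow_u hε hε4 (hPp p hp)).1
  have hg3 : ∀ p ∈ P, g p ≤ 2/3*p := by
    intro p hp
    have := h.pow_u hε hε4 (hPp p hp)
    have h5 : (2:ℝ) ≤ p := by exact_mod_cast (hPp p hp).two_le
    exact this.2.1.trans (this.2.2.trans (quarter_le h5))
  have hg2 : ∀ p ∈ P, g p < p := by
    intro p hp
    have h5 : (2:ℝ) ≤ p := by exact_mod_cast (hPp p hp).two_le
    have := hg3 p hp
    linarith
  refine (mean_value P hPp hg1 hg2 X).trans ?_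
  apply mul_le_mul_of_nonneg_right _ (by positivity)
  calc ∏ p ∈ P, (1 + (g p - 1)/(p - g p)) ≤ ∏ p ∈ P, Real.exp (12 * L^3 * ((A p - 1)/p)) := by
        apply Finset.prod_le_prod
        · intro p hp
          have h1 := hg1 p hp; have h2 := hg2 p hp
          have : 0 ≤ (g p - 1)/(p - g p) := div_nonneg (by linarith) (by linarith)
          linarith
        · intro p hp
          have h1 := hg1 p hp; have h2 := hg2 p hp; have h3 := hg3 p hp
          have hpp := hPp p hp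
          have h5 : (2:ℝ) ≤ p := by exact_mod_cast hpp.two_le
          have h6 := (h.pow_u hε hε4 hpp).2.1
          have h7 := pow_four_sub (h.one_le p hpp) (h.le_L p hpp)
          have h8 : (g p - 1)/(p - g p) ≤ 12 * L^3 * ((A p - 1)/p) := by
            have h9 : g p - 1 ≤ 4 * L^3 * (A p - 1) := by
              have : g p ≤ (A p)^4 := h6
              linarith
            have h10 : (1/3:ℝ) * p ≤ p - g p := by linarith
            calc (g p - 1)/(p - g p) ≤ (4 * L^3 * (A p - 1))/((1/3:ℝ)*p) := by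
                  apply div_le_div₀ _ h9 (by linarith) h10
                  linarith
              _ = _ := by field_simp; ring
          calc 1 + (g p - 1)/(p - g p) ≤ 1 + 12 * L^3 * ((A p - 1)/p) := by linarith
            _ ≤ _ := by linarith [Real.add_one_le_exp (12 * L^3 * ((A p - 1)/p))]
    _ = Real.exp (12 * L^3 * ∑ p ∈ P, (A p - 1)/p) := by
        rw [← Real.exp_sum, Finset.mul_sum]
    _ ≤ Real.exp (12 * L^3 * Λ) := by
        apply Real.exp_le_exp.2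
        have := h.sum_le P hPp
        have hL := h.L1
        exact mul_le_mul_of_nonneg_left this (by positivity)

/-- the exponent in the factor of one prime -/
noncomputable def ex (A : ℕ →* ℝ) (L ε : ℝ) (p : ℕ) : ℝ :=
  4*L^3*((A p - 1)/p) + 4 * (p:ℝ)^(-(1+1/2:ℝ)) + 4 * (56*L/ε)^6 * (p:ℝ)^(-(1+2*ε)) +
    (if (p:ℝ) < (24*L/ε)^4 then 3 else 0)

theorem ex_nonneg (h : GoodWt A L Λ) (hε : 0 < ε) {p : ℕ} (hp : p.Prime) : 0 ≤ ex A L ε p := by
  have h1 := h.one_le p hp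
  have hL := h.L1
  have hp0 : (0:ℝ) < p := by exact_mod_cast hp.pos
  have : 0 ≤ (A p - 1)/p := div_nonneg (by linarith) hp0.le
  unfold ex
  split_ifs <;> positivity

theorem geom_bd {Q : ℝ} (h0 : 0 ≤ Q) (h1 : Q < 1) (m : ℕ) : ∑ j ∈ range m, Q^(j+1) ≤ Q/(1-Q) := by
  have hq : Q ≠ 1 := by linarith
  have e : ∑ j ∈ range m, Q^(j+1) = (∑ j ∈ range m, Q^j) * Q := by
    rw [Finset.sum_mul]; apply Finset.sum_congr rfl; intros; ring
  rw [e, geom_sum_eq hq, le_div_iff₀ (by linarith)]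
  have e2 : (Q^m - 1)/(Q-1) * Q * (1-Q) = (1 - Q^m) * Q := by
    field_simp [show Q - 1 ≠ 0 by intro h; apply hq; linarith]
    ring
  rw [e2]
  have : 0 ≤ Q^m := by positivity
  nlinarith

/-- the factor of one prime -/
theorem one_prime_exp (h : GoodWt A L Λ) (hε : 0 < ε) (hε4 : ε ≤ 1/4) {p : ℕ} (hp : p.Prime)
    (n : ℕ) (a b : ℕ → ℝ) (ha : ∀ k, 0 ≤ a k) (hb : ∀ k, 0 ≤ b k)
    (hSa : ∑ k ∈ range n, a k = 1) (hSb : ∑ k ∈ range n, b k = 1) :
    FA ((p:ℝ)^(-(1/2-ε)) * A p) (1/2+ε) n a b ≤ Real.exp (ex A L ε p) ∨ ∃ K, K < n ∧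
        FK ((p:ℝ)^(-(1/2-ε)) * A p) (1/2+ε) (if K = 0 then 1 else (1-1/(p:ℝ))^(2*(1/2-ε))) n K a b
          ≤ Real.exp (ex A L ε p) := by
  set u : ℝ := 1/2 - ε with hu
  have hu0 : 0 < u := by rw [hu]; linarith
  have hu4 : 1/4 ≤ u := by rw [hu]; linarith
  have hp0 : (0:ℝ) < p := by exact_mod_cast hp.pos
  have hp1 : (1:ℝ) ≤ p := by exact_mod_cast hp.one_le
  have hp2 : (2:ℝ) ≤ p := by exact_mod_cast hp.two_le
  have hA1 := h.one_le p hp
  have hA0 : 0 < A p := by linarith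
  have hAL := h.le_L p hp
  have hL := h.L1
  set q : ℝ := (p:ℝ)^(-u) * A p with hq
  have hq0 : 0 < q := by positivity
  have hexn := ex_nonneg (A := A) (L := L) h hε hp
  have hone : 1 ≤ Real.exp (ex A L ε p) := Real.one_le_exp hexn
  -- q ≤ 8/9
  have hq89 : q ≤ 8/9 := by
    have h1 : q ≤ (p:ℝ)^(-(1/4):ℝ) * (p:ℝ)^(1/16:ℝ) := by
      apply mul_le_mul _ (h.le_pow p hp) hA0.le (by positivity)
      exact Real.rpow_le_rpow_of_exponent_le hp1 (by linarith)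
    rw [← Real.rpow_add hp0] at h1
    have h2 : (p:ℝ)^(-(1/4)+1/16:ℝ) ≤ (2:ℝ)^(-(1/4)+1/16:ℝ) :=
      Real.rpow_le_rpow_of_nonpos (by norm_num) hp2 (by norm_num)
    have h3 : (2:ℝ)^(-(1/4)+1/16:ℝ) ≤ 8/9 := by
      have h4 : ((2:ℝ)^(-(1/4)+1/16:ℝ))^(16:ℝ) ≤ (8/9:ℝ)^(16:ℝ) := by
        rw [← Real.rpow_mul (by norm_num)]
        rw [show (-(1/4)+1/16:ℝ)*16 = -(3:ℝ) by norm_num, Real.rpow_neg (by norm_num)]
        rw [show (16:ℝ) = ((16:ℕ):ℝ) by norm_num, show (3:ℝ) = ((3:ℕ):ℝ) by norm_num,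
          Real.rpow_natCast, Real.rpow_natCast]
        norm_num
      exact (Real.rpow_le_rpow_iff (by positivity) (by norm_num) (by norm_num)).1 h4
    exact h1.trans (h2.trans h3)
  by_cases hqe : q ≤ ε/24
  · -- main case
    set Q : ℝ := q^(1/u) with hQ
    have hQe : Q = (p:ℝ)^(-1:ℝ) * (A p)^(1/u) := by
      rw [hQ, hq, Real.mul_rpow (by positivity) hA0.le, ← Real.rpow_mul hp0.le]
      congr 2
      rw [neg_mul, mul_one_div_cancel hu0.ne']
    obtain ⟨g1, g2, g3⟩ := h.pow_u hε hε4 hp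
    rw [← hu] at g1 g2
    have hQ0 : 0 ≤ Q := by rw [hQ]; positivity
    have hQ34 : Q ≤ (p:ℝ)^(-(3/4):ℝ) := by
      rw [hQe]
      calc (p:ℝ)^(-1:ℝ) * (A p)^(1/u) ≤ (p:ℝ)^(-1:ℝ) * (p:ℝ)^(1/4:ℝ) :=
            mul_le_mul_of_nonneg_left (g2.trans g3) (by positivity)
        _ = _ := by rw [← Real.rpow_add hp0]; norm_num
    have h34 : (p:ℝ)^(-(3/4):ℝ) ≤ 2/3 := by
      have h2 : (p:ℝ)^(-(3/4):ℝ) ≤ (2:ℝ)^(-(3/4):ℝ) :=
        Real.rpow_le_rpow_of_nonpos (by norm_num) hp2 (by norm_num)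
      have h4 : ((2:ℝ)^(-(3/4):ℝ))^(4:ℝ) ≤ (2/3:ℝ)^(4:ℝ) := by
        rw [← Real.rpow_mul (by norm_num)]
        rw [show (-(3/4):ℝ)*4 = -(3:ℝ) by norm_num, Real.rpow_neg (by norm_num)]
        rw [show (4:ℝ) = ((4:ℕ):ℝ) by norm_num, show (3:ℝ) = ((3:ℕ):ℝ) by norm_num,
          Real.rpow_natCast, Real.rpow_natCast]
        norm_num
      exact h2.trans ((Real.rpow_le_rpow_iff (by positivity) (by norm_num) (by norm_num)).1 h4)
    have hQ23 : Q ≤ 2/3 := hQ34.trans h34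
    have hQP : 1/(p:ℝ) ≤ Q := by
      rw [hQe, Real.rpow_neg_one]
      have : (p:ℝ)⁻¹ * 1 ≤ (p:ℝ)⁻¹ * (A p)^(1/u) := mul_le_mul_of_nonneg_left g1 (by positivity)
      rw [mul_one] at this
      rw [one_div]; exact this
    have hQR : Q ≤ Q/(1-Q) := by
      rw [le_div_iff₀ (by linarith)]; nlinarith
    have hP1 : 1/(p:ℝ) ≤ 1 := by rw [div_le_one hp0]; exact hp1
    have key := one_prime (q := q) (ε := ε) (P := 1/(p:ℝ)) (R' := Q/(1-Q)) hq0 hqe hε hε4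
      (fun m => geom_bd hQ0 (by linarith) m) (by positivity) hP1 (hQP.trans hQR) n a b ha hb hSa hSb
    rcases key with key | ⟨K, hK, key⟩
    · left; exact key.trans hone
    · right
      refine ⟨K, hK, key.trans ?_⟩
      have t1 : Q/(1-Q) - 1/(p:ℝ) ≤ 4*L^3*((A p - 1)/p) + 3 * (p:ℝ)^(-(1+1/2:ℝ)) := by
        have e1 : Q/(1-Q) ≤ Q + 3*Q^2 := by
          rw [div_le_iff₀ (by linarith)]
          nlinarith [mul_nonneg hQ0 (show 0 ≤ 2/3 - Q by linarith), sq_nonneg Q,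
            mul_nonneg (sq_nonneg Q) (show 0 ≤ 2/3 - Q by linarith)]
        have e2 : Q - 1/(p:ℝ) ≤ 4*L^3*((A p - 1)/p) := by
          have h7 := pow_four_sub hA1 hAL
          have : Q - 1/(p:ℝ) = ((A p)^(1/u) - 1)/p := by
            rw [hQe, Real.rpow_neg_one]; field_simp
          rw [this, ← mul_div_assoc]
          apply div_le_div_of_nonneg_right _ hp0.le
          linarith
        have e3 : Q^2 ≤ (p:ℝ)^(-(1+1/2:ℝ)) := by
          calc Q^2 ≤ ((p:ℝ)^(-(3/4):ℝ))^2 := pow_le_pow_left₀ hQ0 hQ34 2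
            _ = (p:ℝ)^(-(1+1/2:ℝ)) := by
              rw [← Real.rpow_natCast, ← Real.rpow_mul hp0.le]; norm_num
        linarith
      have t2 : (1/(p:ℝ))^2 ≤ (p:ℝ)^(-(1+1/2:ℝ)) := by
        have : (1/(p:ℝ))^2 = (p:ℝ)^(-2:ℝ) := by
          rw [Real.rpow_neg hp0.le, Real.rpow_two, one_div, inv_pow]
        rw [this]
        exact Real.rpow_le_rpow_of_exponent_le hp1 (by norm_num)
      have t3 : 4 * (56*q/ε)^(2*(1/2+ε)/u) ≤ 4 * (56*L/ε)^6 * (p:ℝ)^(-(1+2*ε)) := by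
        have e1 : 56*q/ε = (56*A p/ε) * (p:ℝ)^(-u) := by rw [hq]; ring
        have hx1 : 1 ≤ 56*A p/ε := by
          rw [le_div_iff₀ hε]; linarith
        have e2 : ((p:ℝ)^(-u))^(2*(1/2+ε)/u) = (p:ℝ)^(-(1+2*ε)) := by
          rw [← Real.rpow_mul hp0.le]
          congr 1
          rw [neg_mul, mul_comm u, div_mul_cancel₀ _ hu0.ne']
          ring
        rw [e1, Real.mul_rpow (by linarith) (by positivity), e2, ← mul_assoc]
        apply mul_le_mul_of_nonneg_right _ (by positivity)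
        apply mul_le_mul_of_nonneg_left _ (by norm_num)
        calc (56*A p/ε)^(2*(1/2+ε)/u) ≤ (56*A p/ε)^((6:ℕ):ℝ) := by
              apply Real.rpow_le_rpow_of_exponent_le hx1
              rw [div_le_iff₀ hu0]; push_cast; rw [hu]; linarith
          _ = (56*A p/ε)^6 := Real.rpow_natCast _ _
          _ ≤ (56*L/ε)^6 := by
              apply pow_le_pow_left₀ (by linarith)
              apply div_le_div_of_nonneg_right _ hε.le
              linarith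
      have t4 : 0 ≤ (if (p:ℝ) < (24*L/ε)^4 then (3:ℝ) else 0) := by split_ifs <;> norm_num
      calc 1 + ((Q/(1-Q) - 1/(p:ℝ)) + (1/(p:ℝ))^2 + 4 * (56*q/ε)^(2*(1/2+ε)/u))
          ≤ 1 + ex A L ε p := by unfold ex; linarith
        _ ≤ Real.exp (ex A L ε p) := by linarith [Real.add_one_le_exp (ex A L ε p)]
  · -- small primes
    left
    push Not at hqe
    have hsmall : (p:ℝ) < (24*L/ε)^4 := by
      have h1 : ε/24 < L * (p:ℝ)^(-(1/4):ℝ) := by
        calc ε/24 < q := hqe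
          _ ≤ (p:ℝ)^(-(1/4):ℝ) * L := by
              apply mul_le_mul _ hAL hA0.le (by positivity)
              exact Real.rpow_le_rpow_of_exponent_le hp1 (by linarith)
          _ = _ := mul_comm _ _
      have h2 : (p:ℝ)^(1/4:ℝ) < 24*L/ε := by
        rw [Real.rpow_neg hp0.le, ← div_eq_mul_inv, lt_div_iff₀ (by positivity)] at h1
        rw [lt_div_iff₀ hε]
        linarith
      calc (p:ℝ) = ((p:ℝ)^(1/4:ℝ))^4 := by
            rw [← Real.rpow_natCast, ← Real.rpow_mul hp0.le]; norm_num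
        _ < (24*L/ε)^4 := pow_lt_pow_left₀ h2 (by positivity) (by norm_num)
    have h3 : 3 ≤ ex A L ε p := by
      unfold ex
      rw [if_pos hsmall]
      have : 0 ≤ (A p - 1)/p := div_nonneg (by linarith) hp0.le
      have : 0 ≤ 4*L^3*((A p - 1)/p) := by positivity
      have : 0 ≤ 4 * (p:ℝ)^(-(1+1/2:ℝ)) := by positivity
      have : 0 ≤ 4 * (56*L/ε)^6 * (p:ℝ)^(-(1+2*ε)) := by positivity
      linarith
    calc FA q (1/2+ε) n a b ≤ 1 + 18*q := FA_le hq0.le hq89 (by linarith) n a b ha hb hSa hSb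
      _ ≤ 17 := by linarith
      _ ≤ Real.exp 3 := by
          have := Real.exp_one_gt_d9
          have e : Real.exp 3 = (Real.exp 1)^3 := by rw [← Real.exp_nat_mul]; norm_num
          rw [e]
          calc (17:ℝ) ≤ (2.7182818283:ℝ)^3 := by norm_num
            _ ≤ _ := pow_le_pow_left₀ (by norm_num) this.le 3
      _ ≤ Real.exp (ex A L ε p) := Real.exp_le_exp.2 h3

theorem bd_all (h : GoodWt A L Λ) (hε : 0 < ε) (hε4 : ε ≤ 1/4) (Q : Finset ℕ) (hQ : ∀ p ∈ Q, p.Prime) :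
    Bd A ε Q (Real.exp (12 * L^3 * Λ + ∑ p ∈ Q, ex A L ε p)) := by
  classical
  induction Q using Finset.induction_on with
  | empty =>
    rw [Finset.sum_empty, add_zero]
    have hL := h.L1
    have hΛ := h.Λ0
    exact base hε hε4 (fun n hn => by linarith [h.pos n hn]) (Real.one_le_exp (by positivity))
      (fun X => mean_A h hε hε4 X)
  | insert p Q hpQ ih =>
    have hpp := hQ p (mem_insert_self _ _)
    have hQ' : ∀ q ∈ Q, q.Prime := fun q hq => hQ q (mem_insert_of_mem hq)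
    have := step (F := Real.exp (ex A L ε p)) (ih hQ') (by positivity) (by positivity) hQ' hpp hpQ
      (by linarith [h.one_le p hpp]) hε (fun n a b ha hb hSa hSb => one_prime_exp h hε hε4 hpp n a b ha hb hSa hSb)
    rw [← Real.exp_add] at this
    rw [Finset.sum_insert hpQ]
    convert this using 2
    ring

theorem sum_ex (h : GoodWt A L Λ) (hε : 0 < ε) (hε4 : ε ≤ 1/4) (Q : Finset ℕ) (hQ : ∀ p ∈ Q, p.Prime) :
    12 * L^3 * Λ + ∑ p ∈ Q, ex A L ε p ≤ 16 * L^3 * Λ + 10^12 * (L/ε)^7 := by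
  have hL := h.L1
  have hΛ := h.Λ0
  have hx : 4 ≤ L/ε := by rw [le_div_iff₀ hε]; linarith
  have hpos : ∀ p ∈ Q, 0 < p := fun p hp => (hQ p hp).pos
  unfold ex
  rw [Finset.sum_add_distrib, Finset.sum_add_distrib, Finset.sum_add_distrib, ← Finset.mul_sum,
    ← Finset.mul_sum, ← Finset.mul_sum]
  have s1 : 4*L^3 * ∑ p ∈ Q, (A p - 1)/p ≤ 4*L^3*Λ :=
    mul_le_mul_of_nonneg_left (h.sum_le Q hQ) (by positivity)
  have s2 : ∑ p ∈ Q, (p:ℝ)^(-(1+1/2:ℝ)) ≤ 3 := by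
    have := zeta_bound' (t := 1/2) (by norm_num) Q hpos
    norm_num at this ⊢; linarith
  have s3 : ∑ p ∈ Q, (p:ℝ)^(-(1+2*ε)) ≤ 1 + 1/(2*ε) := zeta_bound' (by linarith) Q hpos
  have s4 : ∑ p ∈ Q, (if (p:ℝ) < (24*L/ε)^4 then (3:ℝ) else 0) ≤ 3 * (24*L/ε)^4 := by
    rw [← Finset.sum_filter, Finset.sum_const, nsmul_eq_mul, mul_comm]
    apply mul_le_mul_of_nonneg_left _ (by norm_num)
    have hsub : Q.filter (fun p : ℕ => (p:ℝ) < (24*L/ε)^4) ⊆ Icc 1 ⌊(24*L/ε)^4⌋₊ := by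
      intro p hp
      rw [mem_filter] at hp
      rw [mem_Icc]
      exact ⟨hpos p hp.1, Nat.le_floor hp.2.le⟩
    have := Finset.card_le_card hsub
    rw [Nat.card_Icc, Nat.add_sub_cancel] at this
    calc ((Q.filter (fun p : ℕ => (p:ℝ) < (24*L/ε)^4)).card : ℝ) ≤ (⌊(24*L/ε)^4⌋₊ : ℝ) := by exact_mod_cast this
      _ ≤ _ := Nat.floor_le (by positivity)
  set x : ℝ := L/ε with hxd
  have e1 : 56*L/ε = 56*x := by rw [hxd]; ring
  have e2 : 24*L/ε = 24*x := by rw [hxd]; ring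
  have e3 : 1 + 1/(2*ε) ≤ x := by
    have h1 : 1/ε ≤ x := by
      rw [hxd]; exact div_le_div_of_nonneg_right hL hε.le
    have h2 : 1/(2*ε) = (1/ε)/2 := by field_simp
    have h3 : 4 ≤ 1/ε := by rw [le_div_iff₀ hε]; linarith
    rw [h2]; linarith
  have hx0 : 0 ≤ x := by linarith
  have s3' : 4 * (56*L/ε)^6 * ∑ p ∈ Q, (p:ℝ)^(-(1+2*ε)) ≤ 4*56^6 * x^7 := by
    rw [e1]
    calc 4 * (56*x)^6 * ∑ p ∈ Q, (p:ℝ)^(-(1+2*ε)) ≤ 4 * (56*x)^6 * x :=
          mul_le_mul_of_nonneg_left (s3.trans e3) (by positivity)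
      _ = 4*56^6 * x^7 := by ring
  have p4 : x^4 ≤ x^7 := pow_le_pow_right₀ (by linarith) (by norm_num)
  have p0 : 1 ≤ x^7 := one_le_pow₀ (by linarith)
  have s4' : ∑ p ∈ Q, (if (p:ℝ) < (24*L/ε)^4 then (3:ℝ) else 0) ≤ 3*24^4*x^7 := by
    refine s4.trans ?_
    rw [e2]
    calc 3*(24*x)^4 = 3*24^4*x^4 := by ring
      _ ≤ 3*24^4*x^7 := mul_le_mul_of_nonneg_left p4 (by norm_num)
  have hnum : (4*56^6 + 3*24^4 + 12 : ℝ) ≤ 10^12 := by norm_num
  have hfin : (4*56^6 + 3*24^4 + 12 : ℝ) * x^7 ≤ 10^12 * x^7 :=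
    mul_le_mul_of_nonneg_right hnum (by positivity)
  linarith

end

/-- **Koukoulopoulos–Maynard / Hauke–Vazquez Saez–Walker inequality** with completely multiplicative
anatomy weight `A(v')A(w')`. -/
theorem hvw_totient {A : ℕ →* ℝ} {L Λ ε : ℝ} (h : GoodWt A L Λ) (hε : 0 < ε) (hε4 : ε ≤ 1/4)
    (V W : Finset ℕ) (E : Finset (ℕ × ℕ)) (ψ θ : ℕ → ℝ) (δ : ℝ) (hδ : 0 < δ)
    (hV : ∀ v ∈ V, 0 < v) (hW : ∀ w ∈ W, 0 < w) (hψ : ∀ v ∈ V, 0 ≤ ψ v) (hθ : ∀ w ∈ W, 0 ≤ θ w)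
    (hE : E ⊆ V ×ˢ W)
    (h1 : ∀ e ∈ E, (cof e.1 e.2 : ℝ) * θ e.2 ≤ δ)
    (h2 : ∀ e ∈ E, (cof e.2 e.1 : ℝ) * ψ e.1 ≤ δ) :
    ∑ e ∈ E, (ψ e.1 * ((Nat.totient e.1 : ℝ)/e.1)) * (θ e.2 * ((Nat.totient e.2 : ℝ)/e.2)) *
        (A (cof e.1 e.2) * A (cof e.2 e.1))
      ≤ Real.exp (16 * L^3 * Λ + 10^12 * (L/ε)^7) * (δ^(1-2*ε) *
        ((∑ v ∈ V, ψ v * ((Nat.totient v : ℝ)/v)) * (∑ w ∈ W, θ w * ((Nat.totient w : ℝ)/w)))^(1/2+ε)) := by
  classical
  set Q : Finset ℕ := (range (max (V.sup id) (W.sup id) + 1)).filter Nat.Prime with hQ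
  have hQp : ∀ p ∈ Q, p.Prime := fun p hp => (mem_filter.1 hp).2
  have hmemV : ∀ v ∈ V, ∀ p, p.Prime → p ∣ v → p ∈ Q := by
    intro v hv p hp hpv
    rw [hQ, mem_filter, mem_range]
    refine ⟨?_, hp⟩
    have h5 : v ≤ V.sup id := Finset.le_sup (f := id) hv
    have h6 := Nat.le_of_dvd (hV v hv) hpv
    omega
  have hmemW : ∀ v ∈ W, ∀ p, p.Prime → p ∣ v → p ∈ Q := by
    intro v hv p hp hpv
    rw [hQ, mem_filter, mem_range]
    refine ⟨?_, hp⟩
    have h5 : v ≤ W.sup id := Finset.le_sup (f := id) hv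
    have h6 := Nat.le_of_dvd (hW v hv) hpv
    omega
  have hfac : ∀ n, 0 < n → (∀ p, p.Prime → p ∣ n → p ∈ Q) → fac Q n = (Nat.totient n : ℝ)/n := by
    intro n hn hmem
    have h5 : (Nat.totient n : ℝ) = n * ∏ p ∈ n.primeFactors, (1 - (p:ℝ)⁻¹) := by
      have := Nat.totient_eq_mul_prod_factors n
      have h6 : ((Nat.totient n : ℚ) : ℝ) = ((n * ∏ p ∈ n.primeFactors, (1 - (p:ℚ)⁻¹) : ℚ) : ℝ) := by rw [this]
      push_cast at h6
      exact h6
    rw [h5, mul_comm, mul_div_assoc, div_self (by positivity), mul_one]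
    unfold fac
    have : Q.filter (fun p => p ∣ n) = n.primeFactors := by
      ext p
      rw [mem_filter, Nat.mem_primeFactors]
      constructor
      · rintro ⟨a1, a2⟩; exact ⟨hQp p a1, a2, hn.ne'⟩
      · rintro ⟨a1, a2, _⟩; exact ⟨hmem p a1 a2, a2⟩
    rw [this]
    apply Finset.prod_congr rfl
    intro p _
    rw [one_div]
  have hB := bd_all h hε hε4 Q hQp
  have key := hB V W E id id ψ θ δ hδ hV hW (fun _ _ _ _ h => h) (fun _ _ _ _ h => h) hψ hθ hE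
    (fun e he => h1 e he) (fun e he => h2 e he)
    (fun e he p hp hpv _ => hmemV _ (Finset.mem_product.1 (hE he)).1 p hp hpv)
  simp only [id] at key
  have eV : ∀ v ∈ V, fac Q v = (Nat.totient v : ℝ)/v := fun v hv => hfac v (hV v hv) (hmemV v hv)
  have eW : ∀ v ∈ W, fac Q v = (Nat.totient v : ℝ)/v := fun v hv => hfac v (hW v hv) (hmemW v hv)
  have e1 : ∑ v ∈ V, ψ v * fac Q v = ∑ v ∈ V, ψ v * ((Nat.totient v : ℝ)/v) :=
    Finset.sum_congr rfl fun v hv => by rw [eV v hv]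
  have e2 : ∑ v ∈ W, θ v * fac Q v = ∑ v ∈ W, θ v * ((Nat.totient v : ℝ)/v) :=
    Finset.sum_congr rfl fun v hv => by rw [eW v hv]
  have e3 : ∑ e ∈ E, (ψ e.1 * fac Q e.1) * (θ e.2 * fac Q e.2) * (A (cof e.1 e.2) * A (cof e.2 e.1))
      = ∑ e ∈ E, (ψ e.1 * ((Nat.totient e.1 : ℝ)/e.1)) * (θ e.2 * ((Nat.totient e.2 : ℝ)/e.2)) *
        (A (cof e.1 e.2) * A (cof e.2 e.1)) := by
    apply Finset.sum_congr rfl
    intro e he
    have hm := Finset.mem_product.1 (hE he)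
    rw [eV _ hm.1, eW _ hm.2]
  rw [e1, e2, e3] at key
  refine key.trans ?_
  apply mul_le_mul_of_nonneg_right _ _
  · exact Real.exp_le_exp.2 (sum_ex h hε hε4 Q hQp)
  · have t1 : 0 ≤ ∑ v ∈ V, ψ v * ((Nat.totient v : ℝ)/v) :=
      Finset.sum_nonneg fun v hv => mul_nonneg (hψ v hv) (by positivity)
    have t2 : 0 ≤ ∑ v ∈ W, θ v * ((Nat.totient v : ℝ)/v) :=
      Finset.sum_nonneg fun v hv => mul_nonneg (hθ v hv) (by positivity)
    positivity

end Crest.Agent.R4.HVW560
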