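import Mathlib
import Crest.Agent.R4.HVWMain560

/-! Corollaries of the HVW inequality: plain version, anatomy version, smooth Rankin version. -/

set_option autoImplicit false
open Finset

namespace Crest.Agent.R4.HVW560

/-- completely multiplicative function with prescribed values at the primes -/
noncomputable def mkA (f : ℕ → ℝ) : ℕ →* ℝ where
  toFun n := if n = 0 then 0 else n.factorization.prod (fun p k => f p ^ k)
  map_one' := by simp
  map_mul' m n := by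
    by_cases hm : m = 0
    · simp [hm]
    by_cases hn : n = 0
    · simp [hn]
    rw [if_neg (mul_ne_zero hm hn), if_neg hm, if_neg hn, Nat.factorization_mul hm hn,
      Finsupp.prod_add_index' (fun a => pow_zero _) (fun a b c => pow_add _ _ _)]

theorem mkA_apply (f : ℕ → ℝ) {n : ℕ} (hn : n ≠ 0) :
    mkA f n = n.factorization.prod (fun p k => f p ^ k) := by
  show (if n = 0 then 0 else _) = _
  rw [if_neg hn]

theorem mkA_prime (f : ℕ → ℝ) {p : ℕ} (hp : p.Prime) : mkA f p = f p := by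
  rw [mkA_apply f hp.ne_zero, hp.factorization]
  rw [Finsupp.prod_single_index (h := fun p k => f p ^ k) (pow_zero _), pow_one]

theorem mkA_exp (g : ℕ → ℝ) {n : ℕ} (hn : n ≠ 0) :
    mkA (fun p => Real.exp (g p)) n = Real.exp (∑ p ∈ n.primeFactors, n.factorization p * g p) := by
  rw [mkA_apply _ hn, Finsupp.prod, Nat.support_factorization, Real.exp_sum]
  apply Finset.prod_congr rfl
  intro p _
  rw [← Real.exp_nat_mul]

theorem mkA_exp_ge (g : ℕ → ℝ) (hg : ∀ p, 0 ≤ g p) {n : ℕ} (hn : n ≠ 0) :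
    Real.exp (∑ p ∈ n.primeFactors, g p) ≤ mkA (fun p => Real.exp (g p)) n := by
  rw [mkA_exp g hn]
  apply Real.exp_le_exp.2
  apply Finset.sum_le_sum
  intro p hp
  have h1 : (1:ℝ) ≤ n.factorization p := by
    have := Nat.mem_primeFactors.1 hp
    exact_mod_cast (this.1.factorization_pos_of_dvd hn this.2.1)
  nlinarith [hg p]

/-- the hypotheses of the HVW inequality -/
structure Sys (V W : Finset ℕ) (E : Finset (ℕ × ℕ)) (ψ θ : ℕ → ℝ) (δ : ℝ) : Prop where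
  hδ : 0 < δ
  hV : ∀ v ∈ V, 0 < v
  hW : ∀ w ∈ W, 0 < w
  hψ : ∀ v ∈ V, 0 ≤ ψ v
  hθ : ∀ w ∈ W, 0 ≤ θ w
  hE : E ⊆ V ×ˢ W
  h1 : ∀ e ∈ E, (cof e.1 e.2 : ℝ) * θ e.2 ≤ δ
  h2 : ∀ e ∈ E, (cof e.2 e.1 : ℝ) * ψ e.1 ≤ δ

/-- weight `ψ(v) φ(v)/v` -/
noncomputable def wt (ψ : ℕ → ℝ) (v : ℕ) : ℝ := ψ v * ((Nat.totient v : ℝ)/v)

theorem hvw {A : ℕ →* ℝ} {L Λ ε : ℝ} (h : GoodWt A L Λ) (hε : 0 < ε) (hε4 : ε ≤ 1/4)
    {V W : Finset ℕ} {E : Finset (ℕ × ℕ)} {ψ θ : ℕ → ℝ} {δ : ℝ} (hs : Sys V W E ψ θ δ) :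
    ∑ e ∈ E, wt ψ e.1 * wt θ e.2 * (A (cof e.1 e.2) * A (cof e.2 e.1))
      ≤ Real.exp (16 * L^3 * Λ + 10^12 * (L/ε)^7) * (δ^(1-2*ε) *
        ((∑ v ∈ V, wt ψ v) * (∑ w ∈ W, wt θ w))^(1/2+ε)) :=
  hvw_totient h hε hε4 V W E ψ θ δ hs.hδ hs.hV hs.hW hs.hψ hs.hθ hs.hE hs.h1 hs.h2

theorem goodWt_one : GoodWt (1 : ℕ →* ℝ) 1 0 where
  one_le p _ := by simp
  le_L p _ := by simp
  le_pow p hp := by
    simp only [MonoidHom.one_apply]
    exact Real.one_le_rpow (by exact_mod_cast hp.one_le) (by norm_num)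
  sum_le P _ := by simp

/-- plain HVW -/
theorem hvw_plain {ε : ℝ} (hε : 0 < ε) (hε4 : ε ≤ 1/4)
    {V W : Finset ℕ} {E : Finset (ℕ × ℕ)} {ψ θ : ℕ → ℝ} {δ : ℝ} (hs : Sys V W E ψ θ δ) :
    ∑ e ∈ E, wt ψ e.1 * wt θ e.2
      ≤ Real.exp (10^12 * (1/ε)^7) * (δ^(1-2*ε) *
        ((∑ v ∈ V, wt ψ v) * (∑ w ∈ W, wt θ w))^(1/2+ε)) := by
  have := hvw goodWt_one hε hε4 hs
  simpa using this

theorem wt_nonneg {ψ : ℕ → ℝ} {v : ℕ} (h : 0 ≤ ψ v) : 0 ≤ wt ψ v := mul_nonneg h (by positivity)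

theorem cof_pos {v w : ℕ} (hv : 0 < v) : 0 < cof v w :=
  Nat.div_pos (Nat.le_of_dvd hv (Nat.gcd_dvd_left v w)) (Nat.gcd_pos_of_pos_left _ hv)

theorem cof_coprime {v w : ℕ} (hv : 0 < v) : Nat.Coprime (cof v w) (cof w v) := by
  unfold cof
  rw [Nat.gcd_comm w v]
  exact Nat.coprime_div_gcd_div_gcd (Nat.gcd_pos_of_pos_left _ hv)

theorem exp_sub_one_le {x : ℝ} : Real.exp x - 1 ≤ x * Real.exp x := by
  have h1 := Real.add_one_le_exp (-x)
  have h2 : Real.exp (-x) * Real.exp x = 1 := by rw [← Real.exp_add]; simp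
  nlinarith [Real.exp_pos x]

/-- the anatomy weight -/
theorem goodWt_anatomy {l T : ℝ} (hl : 0 ≤ l) (hT : Real.exp (16*l) ≤ T) :
    GoodWt (mkA (fun p => Real.exp (if T < p then l*T/p else 0))) (Real.exp l) (2*l*Real.exp l) := by
  have hT1 : 1 ≤ T := (Real.one_le_exp (by positivity)).trans hT
  have hT0 : 0 < T := by linarith
  have hle : ∀ p : ℕ, (if T < p then l*T/p else 0) ≤ l := by
    intro p
    split_ifs with h
    · rw [div_le_iff₀ (by linarith)]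
      exact mul_le_mul_of_nonneg_left h.le hl
    · exact hl
  have h0 : ∀ p : ℕ, 0 ≤ (if T < p then l*T/p else 0) := by
    intro p; split_ifs with h
    · have : (0:ℝ) < p := by linarith
      positivity
    · exact le_refl _
  refine ⟨?_, ?_, ?_, ?_⟩
  · intro p hp
    rw [mkA_prime _ hp]; exact Real.one_le_exp (h0 p)
  · intro p hp
    rw [mkA_prime _ hp]; exact Real.exp_le_exp.2 (hle p)
  · intro p hp
    rw [mkA_prime _ hp]
    have hp0 : (0:ℝ) < p := by exact_mod_cast hp.pos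
    have hp1 : (1:ℝ) ≤ p := by exact_mod_cast hp.one_le
    by_cases h : T < p
    · have h2 : Real.exp (if T < p then l*T/p else 0) ≤ Real.exp l := Real.exp_le_exp.2 (hle p)
      refine h2.trans ?_
      have h3 : Real.exp (16*l) ≤ p := hT.trans h.le
      calc Real.exp l = (Real.exp (16*l))^(1/16:ℝ) := by
            rw [← Real.exp_mul]; congr 1; ring
        _ ≤ (p:ℝ)^(1/16:ℝ) := Real.rpow_le_rpow (by positivity) h3 (by norm_num)
    · rw [if_neg h, Real.exp_zero]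
      exact Real.one_le_rpow hp1 (by norm_num)
  · intro P hP
    have h1 : ∀ p ∈ P, (mkA (fun p => Real.exp (if T < (p:ℝ) then l*T/p else 0)) p - 1)/p
        ≤ if T < (p:ℝ) then l*T*Real.exp l * (((p:ℝ)^2)⁻¹) else 0 := by
      intro p hp
      rw [mkA_prime _ (hP p hp)]
      have hp0 : (0:ℝ) < p := by exact_mod_cast (hP p hp).pos
      by_cases h : T < p
      · rw [if_pos h, if_pos h]
        have h2 : Real.exp (l*T/p) - 1 ≤ (l*T/p) * Real.exp l := by
          refine exp_sub_one_le.trans ?_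
          apply mul_le_mul_of_nonneg_left _ (by positivity)
          have := hle p
          rw [if_pos h] at this
          exact Real.exp_le_exp.2 this
        calc (Real.exp (l*T/p) - 1)/p ≤ ((l*T/p) * Real.exp l)/p :=
              div_le_div_of_nonneg_right h2 hp0.le
          _ = _ := by field_simp
      · rw [if_neg h, if_neg h, Real.exp_zero]; simp
    refine (Finset.sum_le_sum h1).trans ?_
    rw [← Finset.sum_filter, ← Finset.mul_sum]
    have h2 : ∑ p ∈ P.filter (fun p : ℕ => T < (p:ℝ)), ((p:ℝ)^2)⁻¹ ≤ 2/(⌊T⌋₊+1) := by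
      refine le_trans ?_ (sum_Ioo_inv_sq_le (α := ℝ) ⌊T⌋₊ (P.sup id + 1))
      apply Finset.sum_le_sum_of_subset_of_nonneg
      · intro p hp
        rw [mem_filter] at hp
        rw [mem_Ioo]
        have h5 : p ≤ P.sup id := Finset.le_sup (f := id) hp.1
        exact ⟨(Nat.floor_lt hT0.le).2 hp.2, by omega⟩
      · intro p _ _; positivity
    have h3 : (2:ℝ)/(⌊T⌋₊+1) ≤ 2/T := by
      apply div_le_div_of_nonneg_left (by norm_num) hT0
      exact (Nat.lt_floor_add_one T).le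
    calc l*T*Real.exp l * ∑ p ∈ P.filter (fun p : ℕ => T < (p:ℝ)), ((p:ℝ)^2)⁻¹
        ≤ l*T*Real.exp l * (2/T) := mul_le_mul_of_nonneg_left (h2.trans h3) (by positivity)
      _ = 2*l*Real.exp l := by field_simp

/-- **anatomy version**: pairs with `∑_{p ∣ v'w', p > T} 1/p ≥ 1` cost `e^{-lT}`. -/
theorem hvw_anatomy {ε l T : ℝ} (hε : 0 < ε) (hε4 : ε ≤ 1/4) (hl : 0 ≤ l) (hT : Real.exp (16*l) ≤ T)
    {V W : Finset ℕ} {E : Finset (ℕ × ℕ)} {ψ θ : ℕ → ℝ} {δ : ℝ} (hs : Sys V W E ψ θ δ)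
    (hE : ∀ e ∈ E, 1 ≤ ∑ p ∈ (cof e.1 e.2 * cof e.2 e.1).primeFactors.filter (fun p : ℕ => T < (p:ℝ)), 1/(p:ℝ)) :
    ∑ e ∈ E, wt ψ e.1 * wt θ e.2
      ≤ Real.exp (-(l*T)) * (Real.exp (32*l*Real.exp (4*l) + 10^12 * (Real.exp l/ε)^7) * (δ^(1-2*ε) *
        ((∑ v ∈ V, wt ψ v) * (∑ w ∈ W, wt θ w))^(1/2+ε))) := by
  classical
  have hT1 : 1 ≤ T := (Real.one_le_exp (by positivity)).trans hT
  set g : ℕ → ℝ := fun p => if T < (p:ℝ) then l*T/p else 0 with hg
  have h0 : ∀ p : ℕ, 0 ≤ g p := by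
    intro p; simp only [hg]; split_ifs with h
    · have : (0:ℝ) < p := by linarith
      positivity
    · exact le_refl _
  have key := hvw (goodWt_anatomy hl hT) hε hε4 hs
  set A := mkA (fun p => Real.exp (g p)) with hA
  have hlow : ∀ e ∈ E, Real.exp (l*T) ≤ A (cof e.1 e.2) * A (cof e.2 e.1) := by
    intro e he
    have hm := Finset.mem_product.1 (hs.hE he)
    have c1 := cof_pos (w := e.2) (hs.hV _ hm.1)
    have c2 := cof_pos (w := e.1) (hs.hW _ hm.2)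
    rw [← map_mul]
    refine le_trans ?_ (mkA_exp_ge g h0 (n := cof e.1 e.2 * cof e.2 e.1) (Nat.mul_pos c1 c2).ne')
    apply Real.exp_le_exp.2
    have h2 : ∑ p ∈ (cof e.1 e.2 * cof e.2 e.1).primeFactors, g p
        = l*T * ∑ p ∈ (cof e.1 e.2 * cof e.2 e.1).primeFactors.filter (fun p : ℕ => T < (p:ℝ)), 1/(p:ℝ) := by
      rw [Finset.sum_filter, Finset.mul_sum]
      apply Finset.sum_congr rfl
      intro p _
      simp only [hg]
      split_ifs <;> ring
    rw [h2]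
    have := mul_le_mul_of_nonneg_left (hE e he) (show 0 ≤ l*T by positivity)
    linarith
  have hmain : Real.exp (l*T) * ∑ e ∈ E, wt ψ e.1 * wt θ e.2
      ≤ ∑ e ∈ E, wt ψ e.1 * wt θ e.2 * (A (cof e.1 e.2) * A (cof e.2 e.1)) := by
    rw [Finset.mul_sum]
    apply Finset.sum_le_sum
    intro e he
    have hm := Finset.mem_product.1 (hs.hE he)
    have w1 := wt_nonneg (hs.hψ _ hm.1)
    have w2 := wt_nonneg (hs.hθ _ hm.2)
    rw [mul_comm]
    exact mul_le_mul_of_nonneg_left (hlow e he) (mul_nonneg w1 w2)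
  have h3 := hmain.trans key
  have e4 : 16 * (Real.exp l)^3 * (2*l*Real.exp l) = 32*l*Real.exp (4*l) := by
    have : Real.exp (4*l) = (Real.exp l)^4 := by rw [← Real.exp_nat_mul]; norm_num
    rw [this]; ring
  rw [e4] at h3
  rw [Real.exp_neg, ← div_eq_inv_mul, le_div_iff₀ (Real.exp_pos _), mul_comm]
  exact h3

end Crest.Agent.R4.HVW560
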