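import Mathlib
import Crest.Agent.R4.HVWOne560

/-! One-prime lemma for the twisted (Bohr) HVW inequality = Theorem T of helper588. -/

set_option autoImplicit false
open Finset

namespace Crest.Agent.R4.HVW560

/-- `S_j = ∑_{k - l = j} (a_k b_l)^s` -/
noncomputable def Sj (s : ℝ) (n : ℕ) (a b : ℕ → ℝ) (j : ℤ) : ℝ :=
  ∑ x ∈ (range n ×ˢ range n).filter (fun x => (x.1:ℤ) - x.2 = j), (a x.1 * b x.2)^s

theorem Sj_nonneg {s : ℝ} {n : ℕ} {a b : ℕ → ℝ} (ha : ∀ k, 0 ≤ a k) (hb : ∀ k, 0 ≤ b k) (j : ℤ) :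
    0 ≤ Sj s n a b j :=
  Finset.sum_nonneg fun x _ => Real.rpow_nonneg (mul_nonneg (ha _) (hb _)) _

/-- pairs on a line `k - l = j` in `S × T` -/
theorem line_le {s : ℝ} (hs : 1/2 ≤ s) (S T : Finset ℕ) (a b : ℕ → ℝ) (ha : ∀ k, 0 ≤ a k)
    (hb : ∀ k, 0 ≤ b k) (j : ℤ) :
    ∑ x ∈ (S ×ˢ T).filter (fun x => (x.1:ℤ) - x.2 = j), (a x.1 * b x.2)^s
      ≤ ((∑ k ∈ S, a k) * (∑ l ∈ T, b l))^s := by
  have := schur_rpow S T (fun k l => if (k:ℤ) - l = j then (1:ℝ) else 0) a b (s := s) (D := 1) hs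
    (fun _ _ _ _ => by split_ifs <;> norm_num)
    (by
      intro k _
      rw [← Finset.sum_filter, Finset.sum_const, nsmul_eq_mul, mul_one]
      have : (T.filter (fun l : ℕ => (k:ℤ) - l = j)).card ≤ 1 := by
        rw [Finset.card_le_one]
        intro x hx y hy
        have h1 := (mem_filter.1 hx).2; have h2 := (mem_filter.1 hy).2
        omega
      exact_mod_cast this)
    (by
      intro k _
      rw [← Finset.sum_filter, Finset.sum_const, nsmul_eq_mul, mul_one]
      have : (S.filter (fun l : ℕ => (l:ℤ) - k = j)).card ≤ 1 := by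
        rw [Finset.card_le_one]
        intro x hx y hy
        have h1 := (mem_filter.1 hx).2; have h2 := (mem_filter.1 hy).2
        omega
      exact_mod_cast this)
    (by norm_num) (fun k _ => ha k) (fun k _ => hb k)
  rw [one_mul] at this
  refine le_trans (le_of_eq ?_) this
  rw [Finset.sum_filter, Finset.sum_product]
  apply Finset.sum_congr rfl; intro k _
  apply Finset.sum_congr rfl; intro l _
  split_ifs <;> simp

theorem sum_natAbs (n : ℕ) (f : ℕ → ℝ) (hf : ∀ m, 0 ≤ f m) :
    ∑ j ∈ (Icc (-(n:ℤ)) n).erase 0, f j.natAbs ≤ 2 * ∑ m ∈ Icc 1 n, f m := by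
  rw [← Finset.sum_fiberwise_of_maps_to (s := (Icc (-(n:ℤ)) n).erase 0) (t := Icc 1 n)
    (g := fun j => j.natAbs), Finset.mul_sum]
  · apply Finset.sum_le_sum
    intro m _
    have hsub : ((Icc (-(n:ℤ)) n).erase 0).filter (fun j => j.natAbs = m) ⊆ {(m:ℤ), -(m:ℤ)} := by
      intro j hj
      have := (mem_filter.1 hj).2
      simp only [mem_insert, mem_singleton]
      omega
    calc ∑ j ∈ ((Icc (-(n:ℤ)) n).erase 0).filter (fun j => j.natAbs = m), f j.natAbs
        = ∑ j ∈ ((Icc (-(n:ℤ)) n).erase 0).filter (fun j => j.natAbs = m), f m := by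
          apply Finset.sum_congr rfl
          intro j hj
          rw [(mem_filter.1 hj).2]
      _ = (((Icc (-(n:ℤ)) n).erase 0).filter (fun j => j.natAbs = m)).card * f m := by
          rw [Finset.sum_const, nsmul_eq_mul]
      _ ≤ 2 * f m := by
          apply mul_le_mul_of_nonneg_right _ (hf m)
          have h1 := Finset.card_le_card hsub
          have h2 : ({(m:ℤ), -(m:ℤ)} : Finset ℤ).card ≤ 2 := Finset.card_le_two
          exact_mod_cast h1.trans h2
  · intro j hj
    rw [mem_erase, mem_Icc] at hj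
    rw [mem_Icc]
    omega

theorem sum_inv_sq (n : ℕ) : ∑ m ∈ Icc 1 n, ((m:ℝ)^2)⁻¹ ≤ 2 := by
  have := sum_Ioo_inv_sq_le (α := ℝ) 0 (n+1)
  simp only [CharP.cast_eq_zero, zero_add, div_one] at this
  refine le_trans (le_of_eq ?_) this
  apply Finset.sum_congr _ (fun _ _ => rfl)
  ext m; simp only [mem_Icc, mem_Ioo]; omega

theorem three_pow {s u v w : ℝ} (hs : 1/2 ≤ s) (hu : 0 ≤ u) (hv : 0 ≤ v) (hw : 0 ≤ w)
    {S : ℝ} (hS0 : 0 ≤ S) (hS : S ≤ u^s + v^s + w^s) : S^(1/s) ≤ 9 * (u+v+w) := by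
  have hs0 : 0 < s := by linarith
  have hsum : 0 ≤ u+v+w := by positivity
  have h1 : S ≤ 3 * (u+v+w)^s := by
    have a1 : u^s ≤ (u+v+w)^s := Real.rpow_le_rpow hu (by linarith) hs0.le
    have a2 : v^s ≤ (u+v+w)^s := Real.rpow_le_rpow hv (by linarith) hs0.le
    have a3 : w^s ≤ (u+v+w)^s := Real.rpow_le_rpow hw (by linarith) hs0.le
    linarith
  calc S^(1/s) ≤ (3 * (u+v+w)^s)^(1/s) := Real.rpow_le_rpow hS0 h1 (by positivity)
    _ = 3^(1/s) * (u+v+w) := by
      rw [Real.mul_rpow (by norm_num) (by positivity), ← Real.rpow_mul hsum, mul_one_div_cancel hs0.ne',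
        Real.rpow_one]
    _ ≤ 9 * (u+v+w) := by
      apply mul_le_mul_of_nonneg_right _ hsum
      calc (3:ℝ)^(1/s) ≤ 3^(2:ℝ) := by
            apply Real.rpow_le_rpow_of_exponent_le (by norm_num)
            rw [div_le_iff₀ hs0]; linarith
        _ = 9 := by norm_num

/-- the key inequality `(*)` -/
theorem star {ε κ' : ℝ} (hε : 0 < ε) (hε4 : ε ≤ 1/4) (hκ0 : 0 ≤ κ') (hκ : κ' ≤ ε/72) (n : ℕ)
    (a b : ℕ → ℝ) (ha : ∀ k, 0 ≤ a k) (hb : ∀ k, 0 ≤ b k) (hSa : ∑ k ∈ range n, a k = 1)
    (hSb : ∑ k ∈ range n, b k = 1) :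
    (Sj (1/2+ε) n a b 0)^(1/(1/2+ε)) + ∑ j ∈ (Icc (-(n:ℤ)) n).erase 0,
      κ' * (((j.natAbs:ℝ)^2)⁻¹) * (Sj (1/2+ε) n a b j)^(1/(1/2+ε)) ≤ 1 := by
  set s : ℝ := 1/2 + ε with hs
  have hs0 : 0 < s := by rw [hs]; linarith
  have hs1 : s ≤ 1 := by linarith
  have hs12 : 1/2 ≤ s := by linarith
  have h1s : 1 ≤ 1/s := by rw [le_div_iff₀ hs0]; linarith
  have hSj0 : ∀ j, 0 ≤ Sj s n a b j := Sj_nonneg ha hb
  have hSj1 : ∀ j, Sj s n a b j ≤ 1 := by
    intro j
    have := line_le hs12 (range n) (range n) a b ha hb j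
    rw [hSa, hSb, one_mul, Real.one_rpow] at this
    exact this
  have hpow : ∀ {t : ℝ}, 0 ≤ t → t ≤ 1 → t^(1/s) ≤ t := by
    intro t h0 h1
    rcases h0.eq_or_lt with h | h
    · rw [← h, Real.zero_rpow (by positivity)]
    · calc t^(1/s) ≤ t^(1:ℝ) := Real.rpow_le_rpow_of_exponent_ge h h1 h1s
        _ = t := Real.rpow_one t
  have hn : (range n).Nonempty := by
    by_contra h
    rw [Finset.not_nonempty_iff_eq_empty] at h
    rw [h] at hSa
    simp at hSa
  have hS0eq : Sj s n a b 0 = ∑ k ∈ range n, (a k * b k)^s := by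
    unfold Sj
    symm
    apply Finset.sum_bij (fun k _ => (k,k))
    · intro k hk
      rw [mem_filter, mem_product]
      exact ⟨⟨hk, hk⟩, by simp⟩
    · intro k _ k' _ h
      exact (Prod.mk.inj h).1
    · intro x hx
      rw [mem_filter, mem_product] at hx
      refine ⟨x.1, hx.1.1, ?_⟩
      have : x.1 = x.2 := by omega
      exact Prod.ext rfl this
    · intro k _; rfl
  have hinv : ∑ j ∈ (Icc (-(n:ℤ)) n).erase 0, ((j.natAbs:ℝ)^2)⁻¹ ≤ 4 := by
    have := sum_natAbs n (fun m => ((m:ℝ)^2)⁻¹) (fun m => by positivity)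
    have h2 := sum_inv_sq n
    linarith
  obtain ⟨K, hK, hmax⟩ := Finset.exists_max_image (range n) (fun k => a k * b k) hn
  have haK : a K ≤ 1 := by rw [← hSa]; exact Finset.single_le_sum (fun k _ => ha k) hK
  have hbK : b K ≤ 1 := by rw [← hSb]; exact Finset.single_le_sum (fun k _ => hb k) hK
  set x := ∑ k ∈ (range n).erase K, a k with hx
  set y := ∑ l ∈ (range n).erase K, b l with hy
  have hx0 : 0 ≤ x := Finset.sum_nonneg fun k _ => ha k
  have hy0 : 0 ≤ y := Finset.sum_nonneg fun k _ => hb k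
  have hax : a K = 1 - x := by
    have := Finset.sum_erase_add (range n) a hK
    rw [hSa] at this; linarith
  have hby : b K = 1 - y := by
    have := Finset.sum_erase_add (range n) b hK
    rw [hSb] at this; linarith
  set z : ℝ := (x+y)/2 with hz
  have hz0 : 0 ≤ z := by positivity
  have hz1 : z ≤ 1 := by
    have := ha K; have := hb K; rw [hz]; linarith
  by_cases hz2 : z ≤ 1/2
  · -- concentrated
    have hxy : x * y ≤ z^(2:ℝ) := by
      rw [hz, Real.rpow_two]; nlinarith [sq_nonneg (x-y)]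
    have hxy' : x * y ≤ z^2 := by rw [← Real.rpow_two]; exact hxy
    have r4 : (x*y)^s ≤ z^(2*s) := by
      rw [Real.rpow_mul hz0]
      exact Real.rpow_le_rpow (by positivity) hxy hs0.le
    have r5 : z^(2*s) ≤ z * (1 - ε/2) := by
      rcases hz0.eq_or_lt with h | h
      · rw [← h, Real.zero_rpow (by positivity)]; simp
      · have e : z^(2*s) = z * (z^2)^ε := by
          rw [show 2*s = 1 + 2*ε by rw [hs]; ring, Real.rpow_add h, Real.rpow_one, Real.rpow_mul h.le, Real.rpow_two]
        rw [e]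
        apply mul_le_mul_of_nonneg_left _ h.le
        calc (z^2)^ε ≤ (1/4:ℝ)^ε := by
              apply Real.rpow_le_rpow (by positivity) _ hε.le
              nlinarith
          _ ≤ 1 - 3*ε/4 := quarter_pow hε.le (by linarith)
          _ ≤ 1 - ε/2 := by linarith
    have r6 : (a K * b K)^s ≤ 1 - z := by
      have hm : a K * b K ≤ (1-z)^(2:ℝ) := by
        rw [Real.rpow_two, hax, hby, hz]; nlinarith [sq_nonneg (x-y)]
      calc (a K * b K)^s ≤ ((1-z)^(2:ℝ))^s := Real.rpow_le_rpow (mul_nonneg (ha K) (hb K)) hm hs0.le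
        _ = (1-z)^(2*s) := by rw [← Real.rpow_mul (by linarith)]
        _ ≤ (1-z)^(1:ℝ) := Real.rpow_le_rpow_of_exponent_ge (by linarith) (by linarith) (by linarith)
        _ = 1 - z := Real.rpow_one _
    have hS0 : Sj s n a b 0 ≤ 1 - ε/2*z := by
      rw [hS0eq, ← Finset.sum_erase_add _ _ hK]
      have h1 : ∑ k ∈ (range n).erase K, (a k * b k)^s ≤ (x*y)^s := by
        have := schur_rpow ((range n).erase K) ((range n).erase K) (fun k l => if k = l then (1:ℝ) else 0) a b
          (s := s) (D := 1) hs12 (fun _ _ _ _ => by split_ifs <;> norm_num)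
          (fun k _ => by rw [Finset.sum_ite_eq]; split_ifs <;> norm_num)
          (fun k _ => by rw [Finset.sum_ite_eq']; split_ifs <;> norm_num)
          (by norm_num) (fun k _ => ha k) (fun k _ => hb k)
        rw [one_mul] at this
        refine le_trans (le_of_eq ?_) this
        apply Finset.sum_congr rfl
        intro k hk
        rw [Finset.sum_eq_single_of_mem k hk]
        · rw [if_pos rfl, one_mul]
        · intro l _ hl; rw [if_neg (fun h => hl h.symm), zero_mul]
      have h2 := h1.trans (r4.trans r5)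
      linarith
    have hS0p : (Sj s n a b 0)^(1/s) ≤ 1 - ε/2*z := (hpow (hSj0 0) (hSj1 0)).trans hS0
    -- off diagonal
    set α : ℤ → ℝ := fun j => ∑ k ∈ ((range n).erase K).filter (fun k : ℕ => (k:ℤ) - K = j), a k with hα
    set β : ℤ → ℝ := fun j => ∑ l ∈ ((range n).erase K).filter (fun l : ℕ => (K:ℤ) - l = j), b l with hβ
    have hα0 : ∀ j, 0 ≤ α j := fun j => Finset.sum_nonneg fun k _ => ha k
    have hβ0 : ∀ j, 0 ≤ β j := fun j => Finset.sum_nonneg fun k _ => hb k
    have single : ∀ (F : Finset ℕ) (c : ℕ → ℝ), F.card ≤ 1 → ∑ k ∈ F, (c k)^s = (∑ k ∈ F, c k)^s := by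
      intro F c hF
      rcases Finset.eq_empty_or_nonempty F with h | h
      · rw [h]; simp [Real.zero_rpow hs0.ne']
      · have h1 : F.card = 1 := le_antisymm hF (Finset.card_pos.2 h)
        obtain ⟨k, rfl⟩ := Finset.card_eq_one.1 h1
        simp
    have hSjle : ∀ j ∈ (Icc (-(n:ℤ)) n).erase 0, Sj s n a b j ≤ (α j)^s + (β j)^s + (x*y)^s := by
      intro j hj
      have hj0 : j ≠ 0 := (mem_erase.1 hj).1
      have hfn : ∀ x : ℕ × ℕ, 0 ≤ (a x.1 * b x.2)^s := fun x => Real.rpow_nonneg (mul_nonneg (ha _) (hb _)) _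
      have hss : (range n ×ˢ range n).filter (fun x => (x.1:ℤ) - x.2 = j) ⊆
          ((((range n).erase K).filter (fun k : ℕ => (k:ℤ) - K = j)) ×ˢ {K}) ∪
          (({K} ×ˢ (((range n).erase K).filter (fun l : ℕ => (K:ℤ) - l = j))) ∪
           ((((range n).erase K) ×ˢ ((range n).erase K)).filter (fun x => (x.1:ℤ) - x.2 = j))) := by
        intro x hx
        rw [mem_filter, mem_product] at hx
        by_cases h1 : x.1 = K
        · by_cases h2 : x.2 = K
          · exfalso; apply hj0; rw [← hx.2, h1, h2]; simp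
          · rw [mem_union, mem_union]
            right; left
            rw [mem_product, mem_singleton, mem_filter, mem_erase]
            exact ⟨h1, ⟨h2, hx.1.2⟩, by rw [← h1]; exact hx.2⟩
        · by_cases h2 : x.2 = K
          · rw [mem_union]
            left
            rw [mem_product, mem_singleton, mem_filter, mem_erase]
            exact ⟨⟨⟨h1, hx.1.1⟩, by rw [← h2]; exact hx.2⟩, h2⟩
          · rw [mem_union, mem_union]
            right; right
            rw [mem_filter, mem_product, mem_erase, mem_erase]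
            exact ⟨⟨⟨h1, hx.1.1⟩, ⟨h2, hx.1.2⟩⟩, hx.2⟩
      unfold Sj
      have hun : ∀ (X Y : Finset (ℕ × ℕ)), ∑ x ∈ X ∪ Y, (a x.1 * b x.2)^s
          ≤ ∑ x ∈ X, (a x.1 * b x.2)^s + ∑ x ∈ Y, (a x.1 * b x.2)^s := by
        intro X Y
        rw [← Finset.sum_union_inter]
        have : 0 ≤ ∑ x ∈ X ∩ Y, (a x.1 * b x.2)^s := Finset.sum_nonneg fun x _ => hfn x
        linarith
      refine (Finset.sum_le_sum_of_subset_of_nonneg hss (fun x _ _ => hfn x)).trans ?_
      refine (hun _ _).trans ?_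
      have t1 : ∑ x ∈ (((range n).erase K).filter (fun k : ℕ => (k:ℤ) - K = j)) ×ˢ {K}, (a x.1 * b x.2)^s ≤ (α j)^s := by
        rw [Finset.sum_product]
        simp only [Finset.sum_singleton]
        rw [hα]
        simp only
        rw [← single _ a]
        · apply Finset.sum_le_sum
          intro k _
          apply Real.rpow_le_rpow (mul_nonneg (ha k) (hb K)) _ hs0.le
          calc a k * b K ≤ a k * 1 := mul_le_mul_of_nonneg_left hbK (ha k)
            _ = a k := mul_one _
        · rw [Finset.card_le_one]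
          intro k hk l hl
          have h1 := (mem_filter.1 hk).2; have h2 := (mem_filter.1 hl).2
          omega
      have t2 : ∑ x ∈ {K} ×ˢ (((range n).erase K).filter (fun l : ℕ => (K:ℤ) - l = j)), (a x.1 * b x.2)^s ≤ (β j)^s := by
        rw [Finset.sum_product]
        simp only [Finset.sum_singleton]
        rw [hβ]
        simp only
        rw [← single _ b]
        · apply Finset.sum_le_sum
          intro k _
          apply Real.rpow_le_rpow (mul_nonneg (ha K) (hb k)) _ hs0.le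
          calc a K * b k ≤ 1 * b k := mul_le_mul_of_nonneg_right haK (hb k)
            _ = b k := one_mul _
        · rw [Finset.card_le_one]
          intro k hk l hl
          have h1 := (mem_filter.1 hk).2; have h2 := (mem_filter.1 hl).2
          omega
      have t3 := line_le hs12 ((range n).erase K) ((range n).erase K) a b ha hb j
      have := hun ({K} ×ˢ (((range n).erase K).filter (fun l : ℕ => (K:ℤ) - l = j)))
        ((((range n).erase K) ×ˢ ((range n).erase K)).filter (fun x => (x.1:ℤ) - x.2 = j))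
      linarith
    have hoff : ∑ j ∈ (Icc (-(n:ℤ)) n).erase 0, κ' * (((j.natAbs:ℝ)^2)⁻¹) * (Sj s n a b j)^(1/s)
        ≤ κ' * (9*x + 9*y + 36*(x*y)) := by
      have hb1 : ∀ j ∈ (Icc (-(n:ℤ)) n).erase 0, κ' * (((j.natAbs:ℝ)^2)⁻¹) * (Sj s n a b j)^(1/s)
          ≤ κ' * (9 * α j + 9 * β j + 9 * (x*y) * (((j.natAbs:ℝ)^2)⁻¹)) := by
        intro j hj
        have h1 := three_pow hs12 (hα0 j) (hβ0 j) (mul_nonneg hx0 hy0) (hSj0 j) (hSjle j hj)
        have hj0 : j ≠ 0 := (mem_erase.1 hj).1
        have hj1 : (1:ℝ) ≤ (j.natAbs:ℝ) := by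
          have : 1 ≤ j.natAbs := by omega
          exact_mod_cast this
        have hi1 : ((j.natAbs:ℝ)^2)⁻¹ ≤ 1 := inv_le_one_of_one_le₀ (one_le_pow₀ hj1)
        have hi0 : 0 ≤ ((j.natAbs:ℝ)^2)⁻¹ := by positivity
        rw [mul_assoc]
        apply mul_le_mul_of_nonneg_left _ hκ0
        calc ((j.natAbs:ℝ)^2)⁻¹ * (Sj s n a b j)^(1/s) ≤ ((j.natAbs:ℝ)^2)⁻¹ * (9 * (α j + β j + x*y)) :=
              mul_le_mul_of_nonneg_left h1 hi0
          _ ≤ _ := by
              have g1 : ((j.natAbs:ℝ)^2)⁻¹ * (α j) ≤ 1 * α j := mul_le_mul_of_nonneg_right hi1 (hα0 j)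
              have g2 : ((j.natAbs:ℝ)^2)⁻¹ * (β j) ≤ 1 * β j := mul_le_mul_of_nonneg_right hi1 (hβ0 j)
              nlinarith
      refine (Finset.sum_le_sum hb1).trans ?_
      rw [← Finset.mul_sum]
      apply mul_le_mul_of_nonneg_left _ hκ0
      rw [Finset.sum_add_distrib, Finset.sum_add_distrib, ← Finset.mul_sum, ← Finset.mul_sum, ← Finset.mul_sum]
      have hαs : ∑ j ∈ (Icc (-(n:ℤ)) n).erase 0, α j = x := by
        rw [hx]
        apply Finset.sum_fiberwise_of_maps_to
        intro k hk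
        rw [mem_erase, mem_range] at hk
        rw [mem_erase, mem_Icc]
        have := mem_range.1 hK
        omega
      have hβs : ∑ j ∈ (Icc (-(n:ℤ)) n).erase 0, β j = y := by
        rw [hy]
        apply Finset.sum_fiberwise_of_maps_to
        intro k hk
        rw [mem_erase, mem_range] at hk
        rw [mem_erase, mem_Icc]
        have := mem_range.1 hK
        omega
      rw [hαs, hβs]
      have : 9 * (x*y) * ∑ j ∈ (Icc (-(n:ℤ)) n).erase 0, ((j.natAbs:ℝ)^2)⁻¹ ≤ 9*(x*y)*4 :=
        mul_le_mul_of_nonneg_left hinv (by positivity)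
      linarith
    have hfin : κ' * (9*x + 9*y + 36*(x*y)) ≤ ε/2*z := by
      have h1 : 9*x + 9*y + 36*(x*y) ≤ 36*z := by
        have h2 : x + y = 2*z := by rw [hz]; ring
        have h3 : z^2 ≤ z/2 := by nlinarith
        have h5 : x*y ≤ z/2 := by
          refine hxy.trans ?_
          rw [Real.rpow_two]; exact h3
        calc 9*x + 9*y + 36*(x*y) = 9*(x+y) + 36*(x*y) := by ring
          _ = 18*z + 36*(x*y) := by rw [h2]; ring
          _ ≤ 18*z + 36*(z/2) := by
              have := mul_le_mul_of_nonneg_left h5 (show (0:ℝ) ≤ 36 by norm_num)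
              exact add_le_add le_rfl this
          _ = 36*z := by ring
      calc κ' * (9*x + 9*y + 36*(x*y)) ≤ (ε/72) * (36*z) :=
            mul_le_mul hκ h1 (by positivity) (by linarith)
        _ = ε/2*z := by ring
    linarith
  · -- spread out
    push Not at hz2
    have h4 : ∀ k ∈ range n, a k * b k ≤ 1/4 := by
      intro k hk
      refine (hmax k hk).trans ?_
      have := ha K; have := hb K
      have h5 : a K + b K < 1 := by rw [hax, hby]; rw [hz] at hz2; linarith
      nlinarith [sq_nonneg (a K - b K)]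
    have hd : Sj s n a b 0 ≤ 1 - 3*ε/4 := by
      rw [hS0eq]
      have hq := quarter_pow hε.le (show ε ≤ 1 by linarith)
      have h4n : 0 ≤ (1/4:ℝ)^ε := by positivity
      calc ∑ k ∈ range n, (a k * b k)^s ≤ ∑ k ∈ range n, (1/4:ℝ)^ε * ((a k + b k)/2) := by
            apply Finset.sum_le_sum
            intro k hk
            have hab : 0 ≤ a k * b k := mul_nonneg (ha k) (hb k)
            rcases hab.eq_or_lt with h | h
            · rw [← h, Real.zero_rpow hs0.ne']
              have := ha k; have := hb k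
              positivity
            · rw [hs, Real.rpow_add h, mul_comm]
              apply mul_le_mul
              · exact Real.rpow_le_rpow hab (h4 k hk) hε.le
              · rw [← Real.sqrt_eq_rpow]
                rw [Real.sqrt_le_left (by have := ha k; have := hb k; positivity)]
                nlinarith [sq_nonneg (a k - b k)]
              · positivity
              · exact h4n
        _ = (1/4:ℝ)^ε := by
            rw [← Finset.mul_sum, ← Finset.sum_div, Finset.sum_add_distrib, hSa, hSb]; norm_num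
        _ ≤ _ := hq
    have hd' : (Sj s n a b 0)^(1/s) ≤ 1 - 3*ε/4 := (hpow (hSj0 0) (hSj1 0)).trans hd
    have hoff : ∑ j ∈ (Icc (-(n:ℤ)) n).erase 0, κ' * (((j.natAbs:ℝ)^2)⁻¹) * (Sj s n a b j)^(1/s) ≤ κ' * 4 := by
      calc _ ≤ ∑ j ∈ (Icc (-(n:ℤ)) n).erase 0, κ' * (((j.natAbs:ℝ)^2)⁻¹) := by
            apply Finset.sum_le_sum
            intro j _
            have h1 : (Sj s n a b j)^(1/s) ≤ 1 := (hpow (hSj0 j) (hSj1 j)).trans (hSj1 j)
            have h2 : 0 ≤ κ' * (((j.natAbs:ℝ)^2)⁻¹) := by positivity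
            nlinarith
        _ = κ' * ∑ j ∈ (Icc (-(n:ℤ)) n).erase 0, ((j.natAbs:ℝ)^2)⁻¹ := by rw [Finset.mul_sum]
        _ ≤ _ := mul_le_mul_of_nonneg_left hinv hκ0
    linarith

end Crest.Agent.R4.HVW560
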