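import Mathlib
import Crest.Agent.R4.HVWTnum560
import Crest.Agent.R4.HVWStep560

/-! Theorem T of helper588 (twisted / Bohr HVW inequality), in the form with an arbitrary nonnegative
weight `Φ(v', w')` on the reduced pairs:
`∑_E ψ(v) θ(w) Φ(v',w')^{1-s} ≤ δ^{2-2s} (∑_{(x,y)} w(x) w(y) Φ(x,y))^{1-s} (ψ(V) θ(W))^s`. -/

set_option autoImplicit false
open Finset

namespace Crest.Agent.R4.HVW560

/-- local weight `κ j^6 / p^j` -/
noncomputable def wt1 (κ : ℝ) (p j : ℕ) : ℝ := if j = 0 then 1 else κ * (j:ℝ)^6 / (p:ℝ)^j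

theorem wt1_nonneg {κ : ℝ} (hκ : 0 ≤ κ) (p j : ℕ) : 0 ≤ wt1 κ p j := by
  unfold wt1; split_ifs <;> positivity

theorem dst_natAbs (k l : ℕ) : ((k:ℤ) - l).natAbs = dst k l := by unfold dst; omega

/-- one-prime lemma of Theorem T -/
theorem onePrimeT {ε : ℝ} (hε : 0 < ε) (hε4 : ε ≤ 1/4) {p : ℕ} (hp : 0 < p) (n : ℕ)
    (a b : ℕ → ℝ) (ha : ∀ k, 0 ≤ a k) (hb : ∀ k, 0 ≤ b k) (hSa : ∑ k ∈ range n, a k = 1)
    (hSb : ∑ k ∈ range n, b k = 1) (g : ℤ → ℝ) (hg : ∀ j, 0 ≤ g j) :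
    ∑ x ∈ range n ×ˢ range n, ((p:ℝ)^(-(1/2-ε)))^(dst x.1 x.2) * (g ((x.1:ℤ) - x.2))^(1/2-ε) *
        (a x.1 * b x.2)^(1/2+ε)
      ≤ (∑ j ∈ Icc (-(n:ℤ)) n, wt1 ((72/ε)^3) p j.natAbs * g j)^(1/2-ε) := by
  set s : ℝ := 1/2 + ε with hs
  set u : ℝ := 1/2 - ε with hu
  have hu0 : 0 < u := by rw [hu]; linarith
  have hs0 : 0 < s := by rw [hs]; linarith
  have hp0 : (0:ℝ) < p := by exact_mod_cast hp
  set κ : ℝ := (72/ε)^3 with hκ
  have hκ0 : 0 < κ := by positivity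
  have h72 : 1 ≤ 72/ε := by rw [le_div_iff₀ hε]; linarith
  have hwt0 : ∀ j : ℤ, 0 < wt1 κ p j.natAbs := by
    intro j; unfold wt1; split_ifs with h
    · norm_num
    · have : (0:ℝ) < (j.natAbs:ℝ) := by
        have : 0 < j.natAbs := Nat.pos_of_ne_zero h
        exact_mod_cast this
      positivity
  have hconj : (1/u).HolderConjugate (1/s) := by
    rw [Real.holderConjugate_iff]
    constructor
    · rw [one_lt_div hu0]; linarith
    · rw [inv_div, inv_div, div_one, div_one]; linarith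
  set T : Finset ℤ := Icc (-(n:ℤ)) n with hT
  have h0T : (0:ℤ) ∈ T := by rw [hT, mem_Icc]; omega
  have hSj0 : ∀ j, 0 ≤ Sj s n a b j := Sj_nonneg ha hb
  have e1 : ∑ x ∈ range n ×ˢ range n, ((p:ℝ)^(-u))^(dst x.1 x.2) * (g ((x.1:ℤ) - x.2))^u * (a x.1 * b x.2)^s
      = ∑ j ∈ T, (wt1 κ p j.natAbs * g j)^u *
          ((wt1 κ p j.natAbs)^(-u) * ((p:ℝ)^(-u))^j.natAbs * Sj s n a b j) := by
    have hm : ∀ x ∈ range n ×ˢ range n, (x.1:ℤ) - x.2 ∈ T := by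
      intro x hx
      rw [mem_product, mem_range, mem_range] at hx
      rw [hT, mem_Icc]; omega
    rw [← Finset.sum_fiberwise_of_maps_to hm]
    apply Finset.sum_congr rfl
    intro j _
    have h2 : (wt1 κ p j.natAbs * g j)^u * ((wt1 κ p j.natAbs)^(-u) * ((p:ℝ)^(-u))^j.natAbs * Sj s n a b j)
        = ((p:ℝ)^(-u))^j.natAbs * (g j)^u * Sj s n a b j := by
      rw [Real.mul_rpow (hwt0 j).le (hg j), Real.rpow_neg (hwt0 j).le]
      have : (wt1 κ p j.natAbs)^u ≠ 0 := (Real.rpow_pos_of_pos (hwt0 j) u).ne'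
      field_simp
    rw [h2]
    unfold Sj
    rw [Finset.mul_sum]
    apply Finset.sum_congr rfl
    intro x hx
    have h3 := (mem_filter.1 hx).2
    rw [h3, ← dst_natAbs, h3]
  rw [e1]
  refine (Real.inner_le_Lp_mul_Lq_of_nonneg T hconj
    (f := fun j => (wt1 κ p j.natAbs * g j)^u)
    (g := fun j => (wt1 κ p j.natAbs)^(-u) * ((p:ℝ)^(-u))^j.natAbs * Sj s n a b j)
    (fun j _ => Real.rpow_nonneg (mul_nonneg (hwt0 j).le (hg j)) _)
    (fun j _ => mul_nonneg (mul_nonneg (Real.rpow_nonneg (hwt0 j).le _) (by positivity)) (hSj0 j))).trans ?_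
  rw [one_div_one_div, one_div_one_div]
  have e2 : ∑ j ∈ T, ((wt1 κ p j.natAbs * g j)^u)^(1/u) = ∑ j ∈ T, wt1 κ p j.natAbs * g j := by
    apply Finset.sum_congr rfl
    intro j _
    rw [← Real.rpow_mul (mul_nonneg (hwt0 j).le (hg j)), mul_one_div_cancel hu0.ne', Real.rpow_one]
  rw [e2]
  have hR0 : 0 ≤ (∑ j ∈ T, wt1 κ p j.natAbs * g j)^u :=
    Real.rpow_nonneg (Finset.sum_nonneg fun j _ => mul_nonneg (hwt0 j).le (hg j)) _
  have e3 : ∑ j ∈ T, ((wt1 κ p j.natAbs)^(-u) * ((p:ℝ)^(-u))^j.natAbs * Sj s n a b j)^(1/s) ≤ 1 := by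
    rw [← Finset.add_sum_erase _ _ h0T]
    have h4 := star (κ' := ε/72) hε hε4 (by positivity) le_rfl n a b ha hb hSa hSb
    refine le_trans (add_le_add (le_of_eq ?_) ?_) h4
    · simp [wt1, hs]
    · apply Finset.sum_le_sum
      intro j hj
      have hj0 : j.natAbs ≠ 0 := by
        have := (mem_erase.1 hj).1
        omega
      have hj1 : (1:ℝ) ≤ (j.natAbs:ℝ) := by
        have : 1 ≤ j.natAbs := Nat.one_le_iff_ne_zero.2 hj0
        exact_mod_cast this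
      have e5 : (wt1 κ p j.natAbs)^(-u) * ((p:ℝ)^(-u))^j.natAbs = (κ * (j.natAbs:ℝ)^6)^(-u) := by
        rw [← Real.rpow_natCast, ← Real.rpow_mul hp0.le, mul_comm (-u) _, Real.rpow_mul hp0.le,
          Real.rpow_natCast, ← Real.mul_rpow (hwt0 j).le (by positivity)]
        congr 1
        unfold wt1
        rw [if_neg hj0]
        field_simp
      rw [e5, Real.mul_rpow (by positivity) (hSj0 j), ← Real.rpow_mul (by positivity)]
      apply mul_le_mul_of_nonneg_right _ (Real.rpow_nonneg (hSj0 j) _)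
      have hbig : 1 ≤ κ * (j.natAbs:ℝ)^6 := by
        have h1 : 1 ≤ κ := one_le_pow₀ h72
        have h2 : 1 ≤ (j.natAbs:ℝ)^6 := one_le_pow₀ hj1
        nlinarith
      calc (κ * (j.natAbs:ℝ)^6)^(-u*(1/s)) ≤ (κ * (j.natAbs:ℝ)^6)^(-(1/3):ℝ) := by
            apply Real.rpow_le_rpow_of_exponent_le hbig
            rw [neg_mul, neg_le_neg_iff, mul_one_div, le_div_iff₀ hs0]
            rw [hs, hu]; linarith
        _ = ε/72 * ((j.natAbs:ℝ)^2)⁻¹ := by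
            have hx : κ * (j.natAbs:ℝ)^6 = ((72/ε) * (j.natAbs:ℝ)^2)^(3:ℝ) := by
              rw [show (3:ℝ) = ((3:ℕ):ℝ) by norm_num, Real.rpow_natCast, hκ]; ring
            rw [hx, ← Real.rpow_mul (by positivity)]
            norm_num
            rw [Real.rpow_neg_one, mul_inv, inv_div]
  calc (∑ j ∈ T, wt1 κ p j.natAbs * g j)^u *
        (∑ j ∈ T, ((wt1 κ p j.natAbs)^(-u) * ((p:ℝ)^(-u))^j.natAbs * Sj s n a b j)^(1/s))^s
      ≤ (∑ j ∈ T, wt1 κ p j.natAbs * g j)^u * 1 := by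
        apply mul_le_mul_of_nonneg_left _ hR0
        apply Real.rpow_le_one _ e3 hs0.le
        apply Finset.sum_nonneg
        intro j _
        exact Real.rpow_nonneg (mul_nonneg (mul_nonneg (Real.rpow_nonneg (hwt0 j).le _) (by positivity)) (hSj0 j)) _
    _ = _ := mul_one _

/-- the reduced pair of an edge -/
def pr (v w : ℕ → ℕ) (e : ℕ × ℕ) : ℕ × ℕ := (cof (v e.1) (w e.2), cof (w e.2) (v e.1))

/-- product weight over the primes of `Q` -/
noncomputable def wQ (κ : ℝ) (Q : Finset ℕ) (n : ℕ) : ℝ := ∏ q ∈ Q, wt1 κ q (n.factorization q)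

theorem wQ_nonneg {κ : ℝ} (hκ : 0 ≤ κ) (Q : Finset ℕ) (n : ℕ) : 0 ≤ wQ κ Q n :=
  Finset.prod_nonneg fun q _ => wt1_nonneg hκ q _

/-- Theorem T for elements all of whose primes are in `Q` -/
def BdT (ε : ℝ) (Q : Finset ℕ) : Prop :=
  ∀ (I J : Finset ℕ) (E : Finset (ℕ × ℕ)) (v w : ℕ → ℕ) (ψ θ : ℕ → ℝ) (δ : ℝ) (Φ : ℕ × ℕ → ℝ),
    0 < δ → (∀ i ∈ I, 0 < v i) → (∀ j ∈ J, 0 < w j) → Set.InjOn v I → Set.InjOn w J →
    (∀ i ∈ I, 0 ≤ ψ i) → (∀ j ∈ J, 0 ≤ θ j) → E ⊆ I ×ˢ J →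
    (∀ e ∈ E, (cof (v e.1) (w e.2) : ℝ) * θ e.2 ≤ δ) →
    (∀ e ∈ E, (cof (w e.2) (v e.1) : ℝ) * ψ e.1 ≤ δ) →
    (∀ i ∈ I, ∀ p, p.Prime → p ∣ v i → p ∈ Q) → (∀ j ∈ J, ∀ p, p.Prime → p ∣ w j → p ∈ Q) →
    (∀ x, 0 ≤ Φ x) →
    ∑ e ∈ E, ψ e.1 * θ e.2 * (Φ (pr v w e))^(1/2-ε)
      ≤ δ^(1-2*ε) * ((∑ x ∈ E.image (pr v w), wQ ((72/ε)^3) Q x.1 * wQ ((72/ε)^3) Q x.2 * Φ x)^(1/2-ε) *
        ((∑ i ∈ I, ψ i) * (∑ j ∈ J, θ j))^(1/2+ε))

theorem baseT {ε : ℝ} (hε : 0 < ε) (hε4 : ε ≤ 1/4) : BdT ε ∅ := by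
  classical
  intro I J E v w ψ θ δ Φ hδ hv hw hvi hwi hψ hθ hE h1 h2 h3 h4 hΦ
  have hv1 : ∀ i ∈ I, v i = 1 := by
    intro i hi
    by_contra hne
    obtain ⟨p, hp, hpd⟩ := Nat.exists_prime_and_dvd hne
    have := h3 i hi p hp hpd
    simp at this
  have hw1 : ∀ i ∈ J, w i = 1 := by
    intro i hi
    by_contra hne
    obtain ⟨p, hp, hpd⟩ := Nat.exists_prime_and_dvd hne
    have := h4 i hi p hp hpd
    simp at this
  set M := ∑ i ∈ I, ψ i with hM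
  set N := ∑ i ∈ J, θ i with hN
  have hM0 : 0 ≤ M := Finset.sum_nonneg hψ
  have hN0 : 0 ≤ N := Finset.sum_nonneg hθ
  rcases Finset.eq_empty_or_nonempty E with hem | ⟨e0, he0⟩
  · rw [hem, Finset.sum_empty]; simp only [Finset.image_empty, Finset.sum_empty]
    positivity
  have hE1 : E = {e0} := by
    apply Finset.eq_singleton_iff_unique_mem.2 ⟨he0, ?_⟩
    intro e he
    have hm := Finset.mem_product.1 (hE he)
    have hm0 := Finset.mem_product.1 (hE he0)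
    have a1 := hvi hm.1 hm0.1 ((hv1 _ hm.1).trans (hv1 _ hm0.1).symm)
    have a2 := hwi hm.2 hm0.2 ((hw1 _ hm.2).trans (hw1 _ hm0.2).symm)
    exact Prod.ext a1 a2
  have hm0 := Finset.mem_product.1 (hE he0)
  have hpsi : 0 ≤ ψ e0.1 := hψ _ hm0.1
  have htheta : 0 ≤ θ e0.2 := hθ _ hm0.2
  have hpM : ψ e0.1 ≤ M := Finset.single_le_sum hψ hm0.1
  have htN : θ e0.2 ≤ N := Finset.single_le_sum hθ hm0.2
  have c1 : cof (v e0.1) (w e0.2) = 1 := by rw [hv1 _ hm0.1, hw1 _ hm0.2]; rfl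
  have c2 : cof (w e0.2) (v e0.1) = 1 := by rw [hv1 _ hm0.1, hw1 _ hm0.2]; rfl
  have d1 := h1 e0 he0
  have d2 := h2 e0 he0
  rw [c1, Nat.cast_one, one_mul] at d1
  rw [c2, Nat.cast_one, one_mul] at d2
  rw [hE1, Finset.sum_singleton, Finset.image_singleton, Finset.sum_singleton]
  simp only [wQ, Finset.prod_empty, one_mul]
  have hΦu : 0 ≤ (Φ (pr v w e0))^(1/2-ε) := Real.rpow_nonneg (hΦ _) _
  have key : ψ e0.1 * θ e0.2 ≤ δ^(1-2*ε) * (M*N)^(1/2+ε) := by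
    have hpt : 0 ≤ ψ e0.1 * θ e0.2 := mul_nonneg hpsi htheta
    rcases hpt.eq_or_lt with h | h
    · rw [← h]; positivity
    · have e1 : ψ e0.1 * θ e0.2 = (ψ e0.1 * θ e0.2)^(1/2-ε) * (ψ e0.1 * θ e0.2)^(1/2+ε) := by
        rw [← Real.rpow_add h]; norm_num
      rw [e1]
      apply mul_le_mul
      · calc (ψ e0.1 * θ e0.2)^(1/2-ε) ≤ (δ^(2:ℝ))^(1/2-ε) := by
              apply Real.rpow_le_rpow hpt _ (by linarith)
              rw [Real.rpow_two, sq]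
              exact mul_le_mul d2 d1 htheta hδ.le
          _ = δ^(1-2*ε) := by rw [← Real.rpow_mul hδ.le]; congr 1; ring
      · apply Real.rpow_le_rpow hpt _ (by linarith)
        exact mul_le_mul hpM htN htheta hM0
      · positivity
      · positivity
  calc ψ e0.1 * θ e0.2 * (Φ (pr v w e0))^(1/2-ε) ≤ (δ^(1-2*ε) * (M*N)^(1/2+ε)) * (Φ (pr v w e0))^(1/2-ε) :=
        mul_le_mul_of_nonneg_right key hΦu
    _ = _ := by ring

theorem wQ_pow_mul {κ : ℝ} {Q : Finset ℕ} (hQ : ∀ q ∈ Q, q.Prime) {p : ℕ} (hp : p.Prime) (hpQ : p ∉ Q)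
    (m : ℕ) {n : ℕ} (hn : 0 < n) : wQ κ Q (p^m * n) = wQ κ Q n := by
  unfold wQ
  apply Finset.prod_congr rfl
  intro q hq
  have hne : q ≠ p := fun h => hpQ (h ▸ hq)
  congr 1
  rw [Nat.factorization_mul (pow_pos hp.pos m).ne' hn.ne', Finsupp.add_apply, hp.factorization_pow,
    Finsupp.single_apply, if_neg (fun h => hne h.symm), zero_add]

/-- the exact piece -/
theorem exactT {ε : ℝ} {Q : Finset ℕ} (hB : BdT ε Q) (hε : 0 < ε)
    (hQ : ∀ q ∈ Q, q.Prime) {p : ℕ} (hp : p.Prime) (hpQ : p ∉ Q) (k l : ℕ)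
    (I J : Finset ℕ) (E : Finset (ℕ × ℕ)) (v w : ℕ → ℕ) (ψ θ : ℕ → ℝ) (δ : ℝ) (Φ : ℕ × ℕ → ℝ)
    (hδ : 0 < δ) (hv : ∀ i ∈ I, 0 < v i) (hw : ∀ j ∈ J, 0 < w j) (hvi : Set.InjOn v I)
    (hwi : Set.InjOn w J) (hψ : ∀ i ∈ I, 0 ≤ ψ i) (hθ : ∀ j ∈ J, 0 ≤ θ j) (hE : E ⊆ I ×ˢ J)
    (h1 : ∀ e ∈ E, (cof (v e.1) (w e.2) : ℝ) * θ e.2 ≤ δ)
    (h2 : ∀ e ∈ E, (cof (w e.2) (v e.1) : ℝ) * ψ e.1 ≤ δ)
    (h3 : ∀ i ∈ I, ∀ q, q.Prime → q ∣ v i → q ∈ insert p Q)
    (h4 : ∀ i ∈ J, ∀ q, q.Prime → q ∣ w i → q ∈ insert p Q)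
    (hΦ : ∀ x, 0 ≤ Φ x)
    (hvk : ∀ i ∈ I, (v i).factorization p = k) (hwl : ∀ j ∈ J, (w j).factorization p = l)
    (R : Finset (ℕ × ℕ)) (hR : E.image (pr v w) ⊆ R) (hε4 : ε ≤ 1/4) :
    ∑ e ∈ E, ψ e.1 * θ e.2 * (Φ (pr v w e))^(1/2-ε)
      ≤ δ^(1-2*ε) * (((p:ℝ)^(-(1/2-ε)))^(dst k l) *
        ((∑ x ∈ R.filter (fun x => (x.1.factorization p:ℤ) - x.2.factorization p = (k:ℤ) - l),
            wQ ((72/ε)^3) Q x.1 * wQ ((72/ε)^3) Q x.2 * Φ x)^(1/2-ε)) *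
        ((∑ i ∈ I, ψ i) * (∑ j ∈ J, θ j))^(1/2+ε)) := by
  classical
  set κ : ℝ := (72/ε)^3 with hκ
  have hκ0 : 0 ≤ κ := by positivity
  have hu0 : 0 < 1/2 - ε := by linarith
  have hp0 : (0:ℝ) < p := by exact_mod_cast hp.pos
  set v1 : ℕ → ℕ := fun i => v i / p^k with hv1
  set w1 : ℕ → ℕ := fun j => w j / p^l with hw1
  have ev : ∀ i ∈ I, v i = p^k * v1 i := by
    intro i hi
    have := @eq_ord p (v i)
    rw [hvk i hi] at this; exact this
  have ew : ∀ j ∈ J, w j = p^l * w1 j := by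
    intro j hj
    have := @eq_ord p (w j)
    rw [hwl j hj] at this; exact this
  have nv : ∀ i ∈ I, ¬ p ∣ v1 i := by
    intro i hi
    have := not_dvd_ordCompl' hp (hv i hi)
    rw [hvk i hi] at this; exact this
  have nw : ∀ j ∈ J, ¬ p ∣ w1 j := by
    intro j hj
    have := not_dvd_ordCompl' hp (hw j hj)
    rw [hwl j hj] at this; exact this
  have pv1 : ∀ i ∈ I, 0 < v1 i := fun i hi => Nat.pos_of_ne_zero (fun h => nv i hi (h ▸ dvd_zero p))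
  have pw1 : ∀ i ∈ J, 0 < w1 i := fun i hi => Nat.pos_of_ne_zero (fun h => nw i hi (h ▸ dvd_zero p))
  have ec1 : ∀ e ∈ E, cof (v e.1) (w e.2) = p^(k-l) * cof (v1 e.1) (w1 e.2) := by
    intro e he
    have hm := Finset.mem_product.1 (hE he)
    conv_lhs => rw [ev _ hm.1, ew _ hm.2]
    exact cof_pow_mul hp (nv _ hm.1) (nw _ hm.2) k l
  have ec2 : ∀ e ∈ E, cof (w e.2) (v e.1) = p^(l-k) * cof (w1 e.2) (v1 e.1) := by
    intro e he
    have hm := Finset.mem_product.1 (hE he)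
    conv_lhs => rw [ev _ hm.1, ew _ hm.2]
    exact cof_pow_mul hp (nw _ hm.2) (nv _ hm.1) l k
  set τ : ℕ × ℕ → ℕ × ℕ := fun x => (p^(k-l) * x.1, p^(l-k) * x.2) with hτ
  have etau : ∀ e ∈ E, pr v w e = τ (pr v1 w1 e) := by
    intro e he
    unfold pr
    rw [ec1 e he, ec2 e he]
  have key := hB I J E v1 w1 (fun i => (p:ℝ)^(l-k) * ψ i) (fun j => (p:ℝ)^(k-l) * θ j) δ
    (fun x => Φ (τ x)) hδ pv1 pw1
    (by
      intro i hi i' hi' h
      apply hvi hi hi'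
      rw [ev i hi, ev i' hi', h])
    (by
      intro i hi i' hi' h
      apply hwi hi hi'
      rw [ew i hi, ew i' hi', h])
    (fun i hi => by have := hψ i hi; positivity)
    (fun j hj => by have := hθ j hj; positivity)
    hE
    (by
      intro e he
      have hh := h1 e he
      rw [ec1 e he] at hh
      push_cast at hh
      calc (cof (v1 e.1) (w1 e.2) : ℝ) * ((p:ℝ)^(k-l) * θ e.2)
          = ((p:ℝ)^(k-l) * (cof (v1 e.1) (w1 e.2) : ℝ)) * θ e.2 := by ring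
        _ ≤ δ := hh)
    (by
      intro e he
      have hh := h2 e he
      rw [ec2 e he] at hh
      push_cast at hh
      calc (cof (w1 e.2) (v1 e.1) : ℝ) * ((p:ℝ)^(l-k) * ψ e.1)
          = ((p:ℝ)^(l-k) * (cof (w1 e.2) (v1 e.1) : ℝ)) * ψ e.1 := by ring
        _ ≤ δ := hh)
    (by
      intro i hi q hq hqv
      have h5 := h3 i hi q hq (by rw [ev _ hi]; exact Dvd.dvd.mul_left hqv _)
      rcases Finset.mem_insert.1 h5 with h6 | h6
      · exact absurd (h6 ▸ hqv) (nv _ hi)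
      · exact h6)
    (by
      intro i hi q hq hqv
      have h5 := h4 i hi q hq (by rw [ew _ hi]; exact Dvd.dvd.mul_left hqv _)
      rcases Finset.mem_insert.1 h5 with h6 | h6
      · exact absurd (h6 ▸ hqv) (nw _ hi)
      · exact h6)
    (fun x => hΦ _)
  set a : ℝ := ∑ i ∈ I, ψ i with ha
  set b : ℝ := ∑ j ∈ J, θ j with hb
  have ha0 : 0 ≤ a := Finset.sum_nonneg hψ
  have hb0 : 0 ≤ b := Finset.sum_nonneg hθ
  rw [← Finset.mul_sum, ← Finset.mul_sum, ← ha, ← hb] at key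
  -- LHS
  have hL : ∑ e ∈ E, ((p:ℝ)^(l-k) * ψ e.1) * ((p:ℝ)^(k-l) * θ e.2) * (Φ (τ (pr v1 w1 e)))^(1/2-ε)
      = (p:ℝ)^(dst k l) * ∑ e ∈ E, ψ e.1 * θ e.2 * (Φ (pr v w e))^(1/2-ε) := by
    rw [Finset.mul_sum]
    apply Finset.sum_congr rfl
    intro e he
    rw [etau e he]
    unfold dst
    rw [pow_add]
    ring
  rw [hL] at key
  -- the weight sum
  have hG : ∑ x ∈ E.image (pr v1 w1), wQ κ Q x.1 * wQ κ Q x.2 * Φ (τ x)
      ≤ ∑ x ∈ R.filter (fun x => (x.1.factorization p:ℤ) - x.2.factorization p = (k:ℤ) - l),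
            wQ κ Q x.1 * wQ κ Q x.2 * Φ x := by
    have hinj : Set.InjOn τ (E.image (pr v1 w1) : Finset (ℕ × ℕ)) := by
      intro x _ y _ hxy
      simp only [hτ, Prod.mk.injEq] at hxy
      exact Prod.ext (Nat.eq_of_mul_eq_mul_left (pow_pos hp.pos _) hxy.1)
        (Nat.eq_of_mul_eq_mul_left (pow_pos hp.pos _) hxy.2)
    have hposx : ∀ x ∈ E.image (pr v1 w1), 0 < x.1 ∧ 0 < x.2 ∧ ¬ p ∣ x.1 ∧ ¬ p ∣ x.2 := by
      intro x hx
      obtain ⟨e, he, rfl⟩ := Finset.mem_image.1 hx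
      have hm := Finset.mem_product.1 (hE he)
      have c1 : cof (v1 e.1) (w1 e.2) ∣ v1 e.1 := Dvd.intro _ (cof_mul_gcd _ _)
      have c2 : cof (w1 e.2) (v1 e.1) ∣ w1 e.2 := Dvd.intro _ (cof_mul_gcd _ _)
      refine ⟨Nat.pos_of_dvd_of_pos c1 (pv1 _ hm.1), Nat.pos_of_dvd_of_pos c2 (pw1 _ hm.2), ?_, ?_⟩
      · intro h; exact nv _ hm.1 (h.trans c1)
      · intro h; exact nw _ hm.2 (h.trans c2)
    calc ∑ x ∈ E.image (pr v1 w1), wQ κ Q x.1 * wQ κ Q x.2 * Φ (τ x)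
        = ∑ x ∈ E.image (pr v1 w1), wQ κ Q (τ x).1 * wQ κ Q (τ x).2 * Φ (τ x) := by
          apply Finset.sum_congr rfl
          intro x hx
          obtain ⟨p1, p2, _, _⟩ := hposx x hx
          simp only [hτ]
          rw [wQ_pow_mul hQ hp hpQ _ p1, wQ_pow_mul hQ hp hpQ _ p2]
      _ = ∑ y ∈ (E.image (pr v1 w1)).image τ, wQ κ Q y.1 * wQ κ Q y.2 * Φ y := by
          rw [Finset.sum_image hinj]
      _ ≤ _ := by
          apply Finset.sum_le_sum_of_subset_of_nonneg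
          · intro y hy
            obtain ⟨x, hx, rfl⟩ := Finset.mem_image.1 hy
            obtain ⟨p1, p2, q1, q2⟩ := hposx x hx
            rw [Finset.mem_filter]
            constructor
            · apply hR
              obtain ⟨e, he, rfl⟩ := Finset.mem_image.1 hx
              rw [← etau e he]
              exact Finset.mem_image_of_mem _ he
            · simp only [hτ]
              rw [Nat.factorization_mul (pow_pos hp.pos _).ne' p1.ne',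
                Nat.factorization_mul (pow_pos hp.pos _).ne' p2.ne', Finsupp.add_apply, Finsupp.add_apply,
                hp.factorization_pow, hp.factorization_pow, Finsupp.single_apply, Finsupp.single_apply,
                if_pos rfl, if_pos rfl, Nat.factorization_eq_zero_of_not_dvd q1,
                Nat.factorization_eq_zero_of_not_dvd q2]
              omega
          · intro y _ _
            exact mul_nonneg (mul_nonneg (wQ_nonneg hκ0 _ _) (wQ_nonneg hκ0 _ _)) (hΦ _)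
  have hG0 : 0 ≤ ∑ x ∈ E.image (pr v1 w1), wQ κ Q x.1 * wQ κ Q x.2 * Φ (τ x) :=
    Finset.sum_nonneg fun x _ => mul_nonneg (mul_nonneg (wQ_nonneg hκ0 _ _) (wQ_nonneg hκ0 _ _)) (hΦ _)
  have hG' := Real.rpow_le_rpow hG0 hG hu0.le
  have hD0 : (0:ℝ) < (p:ℝ)^(dst k l) := by positivity
  rw [← mul_le_mul_iff_right₀ hD0]
  refine key.trans ?_
  have e1 : (p:ℝ)^(l-k) * a * ((p:ℝ)^(k-l) * b) = (p:ℝ)^(dst k l) * (a * b) := by
    unfold dst; rw [pow_add]; ring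
  rw [e1, Real.mul_rpow hD0.le (mul_nonneg ha0 hb0)]
  have e2 : ((p:ℝ)^(dst k l))^(1/2+ε) = (p:ℝ)^(dst k l) * ((p:ℝ)^(-(1/2-ε)))^(dst k l) := by
    rw [← Real.rpow_natCast, ← Real.rpow_natCast, ← Real.rpow_mul hp0.le, ← Real.rpow_mul hp0.le,
      ← Real.rpow_add hp0]
    congr 1; ring
  rw [e2]
  have hab : 0 ≤ (a*b)^(1/2+ε) := by positivity
  calc _ = (δ^(1-2*ε) * ((p:ℝ)^(dst k l) * ((p:ℝ)^(-(1/2-ε)))^(dst k l)) * (a*b)^(1/2+ε)) *
          (∑ x ∈ E.image (pr v1 w1), wQ κ Q x.1 * wQ κ Q x.2 * Φ (τ x))^(1/2-ε) := by ring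
    _ ≤ (δ^(1-2*ε) * ((p:ℝ)^(dst k l) * ((p:ℝ)^(-(1/2-ε)))^(dst k l)) * (a*b)^(1/2+ε)) * _ :=
        mul_le_mul_of_nonneg_left hG' (by positivity)
    _ = _ := by ring

theorem stepT {ε : ℝ} {Q : Finset ℕ} (hB : BdT ε Q) (hε : 0 < ε) (hε4 : ε ≤ 1/4)
    (hQ : ∀ q ∈ Q, q.Prime) {p : ℕ} (hp : p.Prime) (hpQ : p ∉ Q) : BdT ε (insert p Q) := by
  classical
  intro I J E v w ψ θ δ Φ hδ hv hw hvi hwi hψ hθ hE h1 h2 h3 h4 hΦ
  set κ : ℝ := (72/ε)^3 with hκ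
  have hκ0 : 0 ≤ κ := by positivity
  have hu0 : 0 < 1/2 - ε := by linarith
  set s : ℝ := 1/2 + ε with hs
  have hs0 : 0 < s := by rw [hs]; linarith
  set u : ℝ := 1/2 - ε with hu
  set M : ℝ := ∑ i ∈ I, ψ i with hM
  set N : ℝ := ∑ j ∈ J, θ j with hN
  have hM0 : 0 ≤ M := Finset.sum_nonneg hψ
  have hN0 : 0 ≤ N := Finset.sum_nonneg hθ
  set R := E.image (pr v w) with hR
  set f : ℕ × ℕ → ℝ := fun e => ψ e.1 * θ e.2 * (Φ (pr v w e))^u with hf
  have hRn : 0 ≤ (∑ x ∈ R, wQ κ (insert p Q) x.1 * wQ κ (insert p Q) x.2 * Φ x) :=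
    Finset.sum_nonneg fun x _ => mul_nonneg (mul_nonneg (wQ_nonneg hκ0 _ _) (wQ_nonneg hκ0 _ _)) (hΦ _)
  have hRHS : 0 ≤ δ^(1-2*ε) * ((∑ x ∈ R, wQ κ (insert p Q) x.1 * wQ κ (insert p Q) x.2 * Φ x)^u * (M*N)^s) := by
    positivity
  show ∑ e ∈ E, f e ≤ δ^(1-2*ε) * ((∑ x ∈ R, wQ κ (insert p Q) x.1 * wQ κ (insert p Q) x.2 * Φ x)^u * (M*N)^s)
  rcases hM0.eq_or_lt with hMz | hMp
  · have hz := (Finset.sum_eq_zero_iff_of_nonneg hψ).1 hMz.symm
    have : ∑ e ∈ E, f e = 0 := by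
      apply Finset.sum_eq_zero
      intro e he
      have hm := Finset.mem_product.1 (hE he)
      simp only [hf]
      rw [hz _ hm.1]; ring
    rw [this]; exact hRHS
  rcases hN0.eq_or_lt with hNz | hNp
  · have hz := (Finset.sum_eq_zero_iff_of_nonneg hθ).1 hNz.symm
    have : ∑ e ∈ E, f e = 0 := by
      apply Finset.sum_eq_zero
      intro e he
      have hm := Finset.mem_product.1 (hE he)
      simp only [hf]
      rw [hz _ hm.2]; ring
    rw [this]; exact hRHS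
  set fv : ℕ → ℕ := fun i => (v i).factorization p with hfv
  set fw : ℕ → ℕ := fun i => (w i).factorization p with hfw
  set n : ℕ := max (I.sup fv) (J.sup fw) + 1 with hn
  have hnI : ∀ i ∈ I, fv i < n := by
    intro i hi
    have : fv i ≤ I.sup fv := Finset.le_sup hi
    omega
  have hnJ : ∀ i ∈ J, fw i < n := by
    intro i hi
    have : fw i ≤ J.sup fw := Finset.le_sup hi
    omega
  set a : ℕ → ℝ := fun k => (∑ i ∈ I.filter (fun i => fv i = k), ψ i) / M with ha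
  set b : ℕ → ℝ := fun k => (∑ i ∈ J.filter (fun i => fw i = k), θ i) / N with hb
  have ha0 : ∀ k, 0 ≤ a k := fun k => div_nonneg
    (Finset.sum_nonneg fun i hi => hψ i (Finset.mem_filter.1 hi).1) hM0
  have hb0 : ∀ k, 0 ≤ b k := fun k => div_nonneg
    (Finset.sum_nonneg fun i hi => hθ i (Finset.mem_filter.1 hi).1) hN0
  have hSa : ∑ k ∈ range n, a k = 1 := by
    simp only [ha]
    rw [← Finset.sum_div, Finset.sum_fiberwise_of_maps_to (fun i hi => mem_range.2 (hnI i hi)), ← hM,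
      div_self hMp.ne']
  have hSb : ∑ k ∈ range n, b k = 1 := by
    simp only [hb]
    rw [← Finset.sum_div, Finset.sum_fiberwise_of_maps_to (fun i hi => mem_range.2 (hnJ i hi)), ← hN,
      div_self hNp.ne']
  set dj : ℕ × ℕ → ℤ := fun x => (x.1.factorization p:ℤ) - x.2.factorization p with hdj
  set g : ℤ → ℝ := fun j => ∑ x ∈ R.filter (fun x => dj x = j), wQ κ Q x.1 * wQ κ Q x.2 * Φ x with hg
  have hg0 : ∀ j, 0 ≤ g j := fun j => Finset.sum_nonneg fun x _ =>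
    mul_nonneg (mul_nonneg (wQ_nonneg hκ0 _ _) (wQ_nonneg hκ0 _ _)) (hΦ _)
  have piece : ∀ (k l : ℕ) (E'' : Finset (ℕ × ℕ)), E'' ⊆ E → (∀ e ∈ E'', fv e.1 = k ∧ fw e.2 = l) →
      ∑ e ∈ E'', f e ≤ δ^(1-2*ε) * ((M*N)^s * (((p:ℝ)^(-u))^(dst k l) * (g ((k:ℤ)-l))^u * (a k * b l)^s)) := by
    intro k l E'' hE'' hkl
    have hsub : E'' ⊆ (I.filter (fun i => fv i = k)) ×ˢ (J.filter (fun i => fw i = l)) := by
      intro e he
      have hm := Finset.mem_product.1 (hE (hE'' he))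
      rw [Finset.mem_product, Finset.mem_filter, Finset.mem_filter]
      exact ⟨⟨hm.1, (hkl e he).1⟩, ⟨hm.2, (hkl e he).2⟩⟩
    have := exactT hB hε hQ hp hpQ k l (I.filter (fun i => fv i = k)) (J.filter (fun i => fw i = l)) E'' v w
      ψ θ δ Φ hδ (fun i hi => hv i (Finset.mem_filter.1 hi).1) (fun i hi => hw i (Finset.mem_filter.1 hi).1)
      (fun i hi j hj h => hvi (Finset.mem_filter.1 hi).1 (Finset.mem_filter.1 hj).1 h)
      (fun i hi j hj h => hwi (Finset.mem_filter.1 hi).1 (Finset.mem_filter.1 hj).1 h)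
      (fun i hi => hψ i (Finset.mem_filter.1 hi).1) (fun i hi => hθ i (Finset.mem_filter.1 hi).1)
      hsub (fun e he => h1 e (hE'' he)) (fun e he => h2 e (hE'' he))
      (fun i hi => h3 i (Finset.mem_filter.1 hi).1) (fun i hi => h4 i (Finset.mem_filter.1 hi).1) hΦ
      (fun i hi => (Finset.mem_filter.1 hi).2) (fun i hi => (Finset.mem_filter.1 hi).2) R
      (Finset.image_subset_image hE'') hε4
    have e1 : ∑ i ∈ I.filter (fun i => fv i = k), ψ i = M * a k := by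
      simp only [ha]; rw [mul_div_cancel₀ _ hMp.ne']
    have e2 : ∑ i ∈ J.filter (fun i => fw i = l), θ i = N * b l := by
      simp only [hb]; rw [mul_div_cancel₀ _ hNp.ne']
    rw [e1, e2] at this
    refine this.trans (le_of_eq ?_)
    rw [show M * a k * (N * b l) = (M*N) * (a k * b l) by ring, Real.mul_rpow (by positivity)
      (mul_nonneg (ha0 k) (hb0 l))]
    ring
  have hmaps : ∀ e ∈ E, (fv e.1, fw e.2) ∈ range n ×ˢ range n := by
    intro e he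
    have hm := Finset.mem_product.1 (hE he)
    rw [Finset.mem_product]
    exact ⟨mem_range.2 (hnI _ hm.1), mem_range.2 (hnJ _ hm.2)⟩
  have hnum := onePrimeT hε hε4 hp.pos n a b ha0 hb0 hSa hSb g hg0
  -- reassemble
  have hcopr : ∀ x ∈ R, 0 < x.1 ∧ 0 < x.2 ∧ Nat.Coprime x.1 x.2 ∧ dj x ∈ Icc (-(n:ℤ)) n := by
    intro x hx
    obtain ⟨e, he, rfl⟩ := Finset.mem_image.1 hx
    have hm := Finset.mem_product.1 (hE he)
    have hv0 := hv _ hm.1; have hw0 := hw _ hm.2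
    have c1 : cof (v e.1) (w e.2) ∣ v e.1 := Dvd.intro _ (cof_mul_gcd _ _)
    have c2 : cof (w e.2) (v e.1) ∣ w e.2 := Dvd.intro _ (cof_mul_gcd _ _)
    refine ⟨Nat.pos_of_dvd_of_pos c1 hv0, Nat.pos_of_dvd_of_pos c2 hw0, ?_, ?_⟩
    · show Nat.Coprime (cof (v e.1) (w e.2)) (cof (w e.2) (v e.1))
      unfold cof
      rw [Nat.gcd_comm (w e.2)]
      exact Nat.coprime_div_gcd_div_gcd (Nat.gcd_pos_of_pos_left _ hv0)
    · have f1 : (cof (v e.1) (w e.2)).factorization p ≤ (v e.1).factorization p :=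
        (Nat.factorization_le_iff_dvd (Nat.pos_of_dvd_of_pos c1 hv0).ne' hv0.ne').2 c1 p
      have f2 : (cof (w e.2) (v e.1)).factorization p ≤ (w e.2).factorization p :=
        (Nat.factorization_le_iff_dvd (Nat.pos_of_dvd_of_pos c2 hw0).ne' hw0.ne').2 c2 p
      have g1 := hnI _ hm.1
      have g2 := hnJ _ hm.2
      simp only [hfv, hfw] at g1 g2
      rw [mem_Icc]
      simp only [hdj, pr]
      omega
  have hre : ∑ j ∈ Icc (-(n:ℤ)) n, wt1 κ p j.natAbs * g j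
      = ∑ x ∈ R, wQ κ (insert p Q) x.1 * wQ κ (insert p Q) x.2 * Φ x := by
    rw [← Finset.sum_fiberwise_of_maps_to (s := R) (t := Icc (-(n:ℤ)) n) (g := dj)
      (fun x hx => (hcopr x hx).2.2.2)]
    apply Finset.sum_congr rfl
    intro j _
    simp only [hg]
    rw [Finset.mul_sum]
    apply Finset.sum_congr rfl
    intro x hx
    rw [Finset.mem_filter] at hx
    obtain ⟨q1, q2, q3, _⟩ := hcopr x hx.1
    have e3 : ∀ m, wQ κ (insert p Q) m = wt1 κ p (m.factorization p) * wQ κ Q m := by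
      intro m; unfold wQ; rw [Finset.prod_insert hpQ]
    rw [e3, e3]
    have e4 : wt1 κ p j.natAbs = wt1 κ p (x.1.factorization p) * wt1 κ p (x.2.factorization p) := by
      have hj : dj x = j := hx.2
      simp only [hdj] at hj
      by_cases hd : p ∣ x.1
      · have hd2 : ¬ p ∣ x.2 := fun h => hp.one_lt.ne' (Nat.dvd_one.1 (q3 ▸ Nat.dvd_gcd hd h))
        have z2 := Nat.factorization_eq_zero_of_not_dvd hd2
        rw [z2] at hj ⊢
        have : j.natAbs = x.1.factorization p := by omega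
        rw [this]; simp [wt1]
      · have z1 := Nat.factorization_eq_zero_of_not_dvd hd
        rw [z1] at hj ⊢
        have : j.natAbs = x.2.factorization p := by omega
        rw [this]; simp [wt1]
    rw [e4]; ring
  rw [hre] at hnum
  calc ∑ e ∈ E, f e = ∑ x ∈ range n ×ˢ range n, ∑ e ∈ E.filter (fun e => (fv e.1, fw e.2) = x), f e :=
        (Finset.sum_fiberwise_of_maps_to hmaps f).symm
    _ ≤ ∑ x ∈ range n ×ˢ range n, δ^(1-2*ε) * ((M*N)^s *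
          (((p:ℝ)^(-u))^(dst x.1 x.2) * (g ((x.1:ℤ)-x.2))^u * (a x.1 * b x.2)^s)) := by
        apply Finset.sum_le_sum
        intro x _
        apply piece x.1 x.2 _ (Finset.filter_subset _ _)
        intro e he
        have := (Finset.mem_filter.1 he).2
        rw [← this]; exact ⟨rfl, rfl⟩
    _ = δ^(1-2*ε) * ((M*N)^s * ∑ x ∈ range n ×ˢ range n,
          (((p:ℝ)^(-u))^(dst x.1 x.2) * (g ((x.1:ℤ)-x.2))^u * (a x.1 * b x.2)^s)) := by
        generalize (M*N)^s = X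
        rw [Finset.mul_sum, Finset.mul_sum]
    _ ≤ δ^(1-2*ε) * ((M*N)^s * (∑ x ∈ R, wQ κ (insert p Q) x.1 * wQ κ (insert p Q) x.2 * Φ x)^u) := by
        have : 0 ≤ (M*N)^s := by positivity
        gcongr
    _ = _ := by ring

theorem bdT_all {ε : ℝ} (hε : 0 < ε) (hε4 : ε ≤ 1/4) (Q : Finset ℕ) (hQ : ∀ p ∈ Q, p.Prime) : BdT ε Q := by
  classical
  induction Q using Finset.induction_on with
  | empty => exact baseT hε hε4
  | insert p Q hpQ ih =>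
    exact stepT (ih fun q hq => hQ q (mem_insert_of_mem hq)) hε hε4
      (fun q hq => hQ q (mem_insert_of_mem hq)) (hQ p (mem_insert_self _ _)) hpQ

/-- the full weight `w(n) = ∏_{p^j ∥ n} κ j^6/p^j` -/
noncomputable def wn (κ : ℝ) (n : ℕ) : ℝ := n.factorization.prod (fun p j => κ * (j:ℝ)^6 / (p:ℝ)^j)

theorem wQ_eq_wn {κ : ℝ} {Q : Finset ℕ} {n : ℕ} (h : n.primeFactors ⊆ Q) : wQ κ Q n = wn κ n := by
  unfold wQ wn Finsupp.prod
  rw [Nat.support_factorization, ← Finset.prod_subset h]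
  · apply Finset.prod_congr rfl
    intro p hp
    rw [← Nat.support_factorization, Finsupp.mem_support_iff] at hp
    unfold wt1; rw [if_neg hp]
  · intro p _ hp
    rw [← Nat.support_factorization, Finsupp.notMem_support_iff] at hp
    unfold wt1; rw [if_pos hp]

/-- **Theorem T** (twisted HVW inequality of helper588). -/
theorem theoremT {ε : ℝ} (hε : 0 < ε) (hε4 : ε ≤ 1/4) (V W : Finset ℕ) (E : Finset (ℕ × ℕ))
    (ψ θ : ℕ → ℝ) (δ : ℝ) (Φ : ℕ × ℕ → ℝ) (hδ : 0 < δ) (hV : ∀ v ∈ V, 0 < v) (hW : ∀ w ∈ W, 0 < w)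
    (hψ : ∀ v ∈ V, 0 ≤ ψ v) (hθ : ∀ w ∈ W, 0 ≤ θ w) (hE : E ⊆ V ×ˢ W)
    (h1 : ∀ e ∈ E, (cof e.1 e.2 : ℝ) * θ e.2 ≤ δ) (h2 : ∀ e ∈ E, (cof e.2 e.1 : ℝ) * ψ e.1 ≤ δ)
    (hΦ : ∀ x, 0 ≤ Φ x) :
    ∑ e ∈ E, ψ e.1 * θ e.2 * (Φ (cof e.1 e.2, cof e.2 e.1))^(1/2-ε)
      ≤ δ^(1-2*ε) * ((∑ x ∈ E.image (fun e => (cof e.1 e.2, cof e.2 e.1)),
          wn ((72/ε)^3) x.1 * wn ((72/ε)^3) x.2 * Φ x)^(1/2-ε) *
        ((∑ v ∈ V, ψ v) * (∑ w ∈ W, θ w))^(1/2+ε)) := by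
  classical
  set Q : Finset ℕ := (range (max (V.sup id) (W.sup id) + 1)).filter Nat.Prime with hQ
  have hQp : ∀ p ∈ Q, p.Prime := fun p hp => (mem_filter.1 hp).2
  have hmemV : ∀ v ∈ V, ∀ p, p.Prime → p ∣ v → p ∈ Q := by
    intro v hv p hp hpv
    rw [hQ, mem_filter, mem_range]
    refine ⟨?_, hp⟩
    have h5 : v ≤ V.sup id := Finset.le_sup (f := id) hv
    have h6 := Nat.le_of_dvd (hV v hv) hpv
    omega
  have hmemW : ∀ v ∈ W, ∀ p, p.Prime → p ∣ v → p ∈ Q := by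
    intro v hv p hp hpv
    rw [hQ, mem_filter, mem_range]
    refine ⟨?_, hp⟩
    have h5 : v ≤ W.sup id := Finset.le_sup (f := id) hv
    have h6 := Nat.le_of_dvd (hW v hv) hpv
    omega
  have key := bdT_all hε hε4 Q hQp V W E id id ψ θ δ Φ hδ hV hW (fun _ _ _ _ h => h) (fun _ _ _ _ h => h)
    hψ hθ hE (fun e he => h1 e he) (fun e he => h2 e he) hmemV hmemW hΦ
  have epr : (fun e : ℕ × ℕ => (cof e.1 e.2, cof e.2 e.1)) = pr id id := rfl
  rw [epr]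
  refine key.trans (le_of_eq ?_)
  congr 3
  apply Finset.sum_congr rfl
  intro x hx
  obtain ⟨e, he, rfl⟩ := Finset.mem_image.1 hx
  have hm := Finset.mem_product.1 (hE he)
  have c1 : cof e.1 e.2 ∣ e.1 := Dvd.intro _ (cof_mul_gcd _ _)
  have c2 : cof e.2 e.1 ∣ e.2 := Dvd.intro _ (cof_mul_gcd _ _)
  rw [wQ_eq_wn, wQ_eq_wn]
  · intro p hp
    have := Nat.mem_primeFactors.1 hp
    exact hmemW _ hm.2 p this.1 (this.2.1.trans c2)
  · intro p hp
    have := Nat.mem_primeFactors.1 hp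
    exact hmemV _ hm.1 p this.1 (this.2.1.trans c1)

end Crest.Agent.R4.HVW560
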