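import Mathlib
import Crest.Agent.R4.Smo944

/-!
R4 (S0004), helper944: LEAF TEXT LF10.

`NStr θ t Y N` : `(θ,t,Y)` is `N`-structured: some `1 ≤ k ≤ N` has `‖kθ‖ ≤ 2N/(tY)`.

`lf10` : the set `BB` of smooth numbers `b ≤ B1` such that `(bθ, t, W0)` is `N`-structured for some
`W0 ≥ Yb/(2 B1)` for which `(θ, t, 2 b W0)` is not `N2`-structured (`N2 = 2 N^5`), has
`∑ wn κ b ≤ C N^{-1.7} (e^6 log z)^{κ S_6}`.
-/

set_option autoImplicit false
open Finset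

namespace Crest.Agent.R4.LF10

open Crest.Agent.R4.HVW560 Crest.Agent.R4.Smo944

/-- `(θ,t,Y)` is `N`-structured -/
def NStr (θ t Y N : ℝ) : Prop :=
  ∃ k : ℕ, 1 ≤ k ∧ (k:ℝ) ≤ N ∧ ∃ m : ℤ, |θ * k - m| ≤ 2 * N / (t * Y)

theorem NStr.mono {θ t Y Y' N : ℝ} (ht : 0 < t) (hY : 0 < Y) (hYY : Y ≤ Y') (h : NStr θ t Y' N) :
    NStr θ t Y N := by
  obtain ⟨k, hk1, hkN, m, hm⟩ := h
  have hN : 0 ≤ N := le_trans (by positivity) hkN
  refine ⟨k, hk1, hkN, m, hm.trans ?_⟩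
  apply div_le_div_of_nonneg_left (by positivity) (by positivity)
  exact mul_le_mul_of_nonneg_left hYY ht.le

/-- the common rational: two fractions with denominators `≤ Q` and close are equal -/
theorem frac_eq {m m' : ℤ} {d d' : ℕ} {Q θ η : ℝ} (hd : 0 < d) (hd' : 0 < d') (hdQ : (d:ℝ) ≤ Q)
    (hdQ' : (d':ℝ) ≤ Q) (h : |θ - m / d| ≤ η) (h' : |θ - m' / d'| ≤ η) (hη : 2 * η * Q^2 < 1) :
    m * d' = m' * d := by
  have hd0 : (0:ℝ) < d := by exact_mod_cast hd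
  have hd0' : (0:ℝ) < d' := by exact_mod_cast hd'
  have h1 : |(m:ℝ)/d - m'/d'| ≤ 2*η := by
    have e : (m:ℝ)/d - m'/d' = (θ - m'/d') - (θ - m/d) := by ring
    rw [e]
    refine (abs_sub _ _).trans ?_
    linarith
  have h2 : |((m * d' - m' * d : ℤ) : ℝ)| < 1 := by
    have e : ((m * d' - m' * d : ℤ) : ℝ) = ((m:ℝ)/d - m'/d') * (d * d') := by
      push_cast; field_simp
    rw [e, abs_mul, abs_of_pos (mul_pos hd0 hd0')]
    have hη0 : 0 ≤ η := (abs_nonneg _).trans h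
    have h3 : (d:ℝ) * d' ≤ Q^2 := by
      rw [sq]; exact mul_le_mul hdQ hdQ' hd0'.le (hd0.le.trans hdQ)
    calc |(m:ℝ)/d - m'/d'| * (d * d') ≤ (2*η) * Q^2 :=
          mul_le_mul h1 h3 (by positivity) (by positivity)
      _ < 1 := by linarith
  have h3 : |m * d' - m' * d| < 1 := by exact_mod_cast h2
  have := Int.abs_lt_one_iff.1 h3
  omega

/-- hypotheses on `BB` -/
structure BBHyp (θ t N B1 Yb : ℝ) (z : ℕ) (BB : Finset ℕ) : Prop where
  ht : 0 < t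
  hN : 1 ≤ N
  hB1 : 1 ≤ B1
  hYb : 0 < Yb
  big : 8 * (N * B1)^3 < t * Yb
  sm : Smooth z BB
  le : ∀ b ∈ BB, (b:ℝ) ≤ B1
  str : ∀ b ∈ BB, ∃ W0 : ℝ, Yb / (2*B1) ≤ W0 ∧ NStr (b*θ) t W0 N ∧ ¬ NStr θ t (2*b*W0) (2*N^5)

theorem BBHyp.core {θ t N B1 Yb : ℝ} {z : ℕ} {BB : Finset ℕ} (h : BBHyp θ t N B1 Yb z BB)
    {b : ℕ} (hb : b ∈ BB) : ∃ (W0 : ℝ) (k : ℕ) (m : ℤ), 0 < W0 ∧ 1 ≤ k ∧ (k:ℝ) ≤ N ∧
      |θ - m / ((k*b : ℕ):ℝ)| ≤ 2*N/(t*W0*(k*b)) ∧ 2*N/(t*W0*(k*b)) ≤ 4*N*B1/(t*Yb) ∧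
      ¬ NStr θ t (2*b*W0) (2*N^5) := by
  obtain ⟨W0, hW0, ⟨k, hk1, hkN, m, hm⟩, hn⟩ := h.str b hb
  have ht := h.ht; have hN := h.hN; have hB1 := h.hB1; have hYb := h.hYb
  have hb0 : (0:ℝ) < b := by exact_mod_cast (h.sm b hb).1
  have hb1 : (1:ℝ) ≤ b := by exact_mod_cast (h.sm b hb).1
  have hk0 : (0:ℝ) < k := by exact_mod_cast hk1
  have hk1' : (1:ℝ) ≤ k := by exact_mod_cast hk1
  have hW : 0 < W0 := lt_of_lt_of_le (by positivity) hW0
  refine ⟨W0, k, m, hW, hk1, hkN, ?_, ?_, hn⟩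
  · have e : θ - m / ((k*b : ℕ):ℝ) = (b*θ*k - m) / (k*b) := by
      push_cast; field_simp
    rw [e, abs_div, abs_of_pos (mul_pos hk0 hb0), div_le_iff₀ (mul_pos hk0 hb0)]
    refine hm.trans (le_of_eq ?_)
    field_simp
  · rw [div_le_div_iff₀ (by positivity) (by positivity)]
    have h1 : Yb ≤ 2*B1*W0 := by
      rw [div_le_iff₀ (by positivity)] at hW0; linarith
    have h2 : (1:ℝ) ≤ k*b := by nlinarith
    calc 2*N*(t*Yb) = (2*N*t)*Yb := by ring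
      _ ≤ (2*N*t)*(2*B1*W0) := mul_le_mul_of_nonneg_left h1 (by positivity)
      _ = 4*N*B1*(t*W0*1) := by ring
      _ ≤ 4*N*B1*(t*W0*(k*b)) := by
          apply mul_le_mul_of_nonneg_left _ (by positivity)
          exact mul_le_mul_of_nonneg_left h2 (by positivity)

/-- arithmetic of `BB`: there is `K` with all `b ∈ BB` divisible by some `K / f`, `f ≤ N`, `K > N^4`. -/
theorem BBHyp.exists_K {θ t N B1 Yb : ℝ} {z : ℕ} {BB : Finset ℕ} (h : BBHyp θ t N B1 Yb z BB)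
    (hne : BB.Nonempty) : ∃ K : ℕ, N^4 < (K:ℝ) ∧
      ∀ b ∈ BB, ∃ f : ℕ, 1 ≤ f ∧ (f:ℝ) ≤ N ∧ f ∣ K ∧ K / f ∣ b := by
  have ht := h.ht; have hN := h.hN; have hB1 := h.hB1; have hYb := h.hYb
  obtain ⟨b0, hb0⟩ := hne
  obtain ⟨W0, k0, m0, hW0, hk0, hk0N, hm0, hm0', -⟩ := h.core hb0
  have hb0p := (h.sm b0 hb0).1
  set d0 : ℕ := k0 * b0 with hd0
  have hd0p : 0 < d0 := Nat.mul_pos hk0 hb0p
  set g : ℕ := Int.gcd m0 d0 with hg
  have hgp : 0 < g := Int.gcd_pos_of_ne_zero_right _ (by exact_mod_cast hd0p.ne')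
  set K : ℕ := d0 / g with hK
  have hgd : g ∣ d0 := by
    have : ((g:ℕ):ℤ) ∣ (d0:ℤ) := Int.gcd_dvd_right ..
    exact_mod_cast this
  have hKg : K * g = d0 := Nat.div_mul_cancel hgd
  have hKp : 0 < K := Nat.div_pos (Nat.le_of_dvd hd0p hgd) hgp
  obtain ⟨H, hH⟩ : (g:ℤ) ∣ m0 := Int.gcd_dvd_left ..
  -- H/K reduced
  have hcop : IsCoprime H (K:ℤ) := by
    have h1 : Int.gcd m0 d0 = g := rfl
    rw [Int.isCoprime_iff_gcd_eq_one]
    have h2 : m0 = g * H := hH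
    have h3 : (d0:ℤ) = g * K := by
      rw [← hKg]; push_cast; ring
    rw [h2, h3, Int.gcd_mul_left, Int.natAbs_natCast] at h1
    have : g * Int.gcd H K = g * 1 := by rw [h1, mul_one]
    exact Nat.eq_of_mul_eq_mul_left hgp this
  have hK0 : (0:ℝ) < K := by exact_mod_cast hKp
  have hfrac0 : (m0:ℝ)/((d0:ℕ):ℝ) = H / K := by
    have e1 : (m0:ℝ) = g * H := by exact_mod_cast hH
    have e2 : (d0:ℝ) = K * g := by exact_mod_cast hKg.symm
    have hg0 : (0:ℝ) < g := by exact_mod_cast hgp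
    rw [e1, e2]; field_simp
  -- every b gives the same fraction
  have hall : ∀ b ∈ BB, ∃ (W : ℝ) (k : ℕ), 0 < W ∧ 1 ≤ k ∧ (k:ℝ) ≤ N ∧ K ∣ k * b ∧
      |θ - H / K| ≤ 2*N/(t*W*(k*b)) ∧ ¬ NStr θ t (2*b*W) (2*N^5) := by
    intro b hb
    obtain ⟨W, k, m, hW, hk, hkN, hm, hm', hn⟩ := h.core hb
    have hbp := (h.sm b hb).1
    have hdp : 0 < k * b := Nat.mul_pos hk hbp
    have hQ : ∀ (k b : ℕ), (k:ℝ) ≤ N → b ∈ BB → ((k * b : ℕ):ℝ) ≤ N * B1 := by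
      intro k b hk hb
      push_cast
      exact mul_le_mul hk (h.le b hb) (by positivity) (by linarith)
    have heq := frac_eq (m := m) (m' := m0) (d := k*b) (d' := d0) (Q := N*B1) (θ := θ)
      (η := 4*N*B1/(t*Yb)) hdp hd0p (hQ k b hkN hb) (hQ k0 b0 hk0N hb0) (hm.trans hm')
      (by
        refine le_trans ?_ hm0'
        exact hm0) (by
        have e : 2 * (4*N*B1/(t*Yb)) * (N*B1)^2 = 8*(N*B1)^3/(t*Yb) := by ring
        rw [e, div_lt_one (by positivity)]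
        exact h.big)
    have hdp' : (0:ℝ) < ((k*b:ℕ):ℝ) := by exact_mod_cast hdp
    have hd0' : (0:ℝ) < (d0:ℝ) := by exact_mod_cast hd0p
    have hfr : (m:ℝ)/((k*b:ℕ):ℝ) = H/K := by
      rw [← hfrac0, div_eq_div_iff hdp'.ne' hd0'.ne']
      exact_mod_cast heq
    refine ⟨W, k, hW, hk, hkN, ?_, ?_, hn⟩
    · have h1 : (m:ℤ) * K = H * ((k*b:ℕ):ℤ) := by
        rw [div_eq_div_iff hdp'.ne' hK0.ne'] at hfr
        exact_mod_cast hfr
      have h2 : (K:ℤ) ∣ H * ((k*b:ℕ):ℤ) := ⟨m, by rw [← h1]; ring⟩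
      have h3 : (K:ℤ) ∣ ((k*b:ℕ):ℤ) := hcop.symm.dvd_of_dvd_mul_left h2
      exact_mod_cast h3
    · rw [← hfr]; exact hm
  refine ⟨K, ?_, ?_⟩
  · -- K large
    by_contra hcon
    push Not at hcon
    obtain ⟨W, k, hW, hk, hkN, hKd, hclose, hn⟩ := hall b0 hb0
    apply hn
    have hb0' : (0:ℝ) < b0 := by exact_mod_cast hb0p
    have hk0' : (0:ℝ) < k := by exact_mod_cast hk
    have hk1' : (1:ℝ) ≤ k := by exact_mod_cast hk
    have hN4 : N^4 ≤ 2*N^5 := by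
      have : N^5 = N^4 * N := by ring
      rw [this]
      have : 0 < N^4 := by positivity
      nlinarith
    refine ⟨K, hKp, hcon.trans hN4, H, ?_⟩
    have e : θ * K - H = (θ - H/K) * K := by field_simp
    rw [e, abs_mul, abs_of_pos hK0]
    calc |θ - H/K| * K ≤ (2*N/(t*W*(k*b0))) * N^4 :=
          mul_le_mul hclose hcon hK0.le (by positivity)
      _ = 2*N^5/(t*W*(k*b0)) := by ring
      _ ≤ 2*N^5/(t*W*(1*b0)) := by
          apply div_le_div_of_nonneg_left (by positivity) (by positivity)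
          apply mul_le_mul_of_nonneg_left _ (by positivity)
          exact mul_le_mul_of_nonneg_right hk1' hb0'.le
      _ = 2*(2*N^5)/(t*(2*b0*W)) := by field_simp
  · intro b hb
    obtain ⟨W, k, hW, hk, hkN, hKd, -, -⟩ := hall b hb
    refine ⟨Nat.gcd K k, Nat.gcd_pos_of_pos_right _ hk, ?_, Nat.gcd_dvd_left _ _, ?_⟩
    · have : Nat.gcd K k ≤ k := Nat.le_of_dvd hk (Nat.gcd_dvd_right _ _)
      have h2 : ((Nat.gcd K k : ℕ):ℝ) ≤ k := by exact_mod_cast this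
      linarith
    · have hc : Nat.Coprime (K / Nat.gcd K k) (k / Nat.gcd K k) :=
        Nat.coprime_div_gcd_div_gcd (Nat.gcd_pos_of_pos_right _ hk)
      apply hc.dvd_of_dvd_mul_left
      have h1 : Nat.gcd K k ∣ k := Nat.gcd_dvd_right _ _
      have h2 : k / Nat.gcd K k * b = (k * b) / Nat.gcd K k := by
        rw [Nat.div_mul_right_comm h1]
      rw [h2]
      exact Nat.div_dvd_div (Nat.gcd_dvd_left _ _) hKd

/-- **LF10.** -/
theorem lf10 {κ : ℝ} (hκ : 0 ≤ κ) : ∃ C : ℝ, 1 ≤ C ∧ ∀ (θ t N B1 Yb : ℝ) (z : ℕ) (BB : Finset ℕ),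
    2 ≤ z → BBHyp θ t N B1 Yb z BB →
    ∑ b ∈ BB, wn κ b ≤ C * N^(-(17/10):ℝ) * Real.exp (κ * Sm 6 * (Real.log (Real.log z) + 6)) := by
  classical
  obtain ⟨C, hC1, hC⟩ := exists_sum_wn_dvd hκ
  refine ⟨C, hC1, fun θ t N B1 Yb z BB hz h => ?_⟩
  have hN := h.hN
  set X := Real.exp (κ * Sm 6 * (Real.log (Real.log z) + 6)) with hX
  have hX0 : 0 < X := Real.exp_pos _
  rcases BB.eq_empty_or_nonempty with rfl | hne
  · rw [Finset.sum_empty]; positivity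
  obtain ⟨K, hK, hall⟩ := h.exists_K hne
  have hN0 : 0 < N := by linarith
  have hKp : 0 < K := by
    have : (0:ℝ) < K := lt_trans (by positivity) hK
    exact_mod_cast this
  set Fs : Finset ℕ := (Icc 1 ⌊N⌋₊).filter (fun f => f ∣ K) with hFs
  have hcover : ∀ b ∈ BB, ∃ f ∈ Fs, K / f ∣ b := by
    intro b hb
    obtain ⟨f, hf1, hfN, hfK, hfb⟩ := hall b hb
    refine ⟨f, ?_, hfb⟩
    rw [hFs, Finset.mem_filter, Finset.mem_Icc]
    exact ⟨⟨hf1, Nat.le_floor hfN⟩, hfK⟩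
  have hwn0 : ∀ b, 0 ≤ wn κ b := by
    intro b
    unfold wn
    exact Finset.prod_nonneg fun p _ => by positivity
  have h1 : ∑ b ∈ BB, wn κ b ≤ ∑ f ∈ Fs, ∑ b ∈ BB.filter (fun b => K / f ∣ b), wn κ b := by
    simp only [Finset.sum_filter]
    rw [Finset.sum_comm]
    apply Finset.sum_le_sum
    intro b hb
    obtain ⟨f, hf, hfb⟩ := hcover b hb
    have h0 : ∀ f ∈ Fs, 0 ≤ (if K / f ∣ b then wn κ b else 0) := by
      intro f _; split_ifs
      · exact hwn0 b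
      · exact le_rfl
    refine le_trans ?_ (Finset.single_le_sum h0 hf)
    rw [if_pos hfb]
  have h2 : ∀ f ∈ Fs, ∑ b ∈ BB.filter (fun b => K / f ∣ b), wn κ b ≤ C * N^(-(27/10):ℝ) * X := by
    intro f hf
    rw [hFs, Finset.mem_filter, Finset.mem_Icc] at hf
    obtain ⟨⟨hf1, hfN⟩, hfK⟩ := hf
    have hfN' : (f:ℝ) ≤ N := le_trans (by exact_mod_cast hfN) (Nat.floor_le hN0.le)
    have hf0 : (0:ℝ) < f := by exact_mod_cast hf1
    have he : 0 < K / f := Nat.div_pos (Nat.le_of_dvd hKp hfK) hf1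
    have h3 := hC z hz (BB.filter (fun b => K / f ∣ b)) (K / f)
      (fun b hb => h.sm b (Finset.mem_filter.1 hb).1) he (fun b hb => (Finset.mem_filter.1 hb).2)
    refine h3.trans ?_
    apply mul_le_mul_of_nonneg_right _ hX0.le
    apply mul_le_mul_of_nonneg_left _ (by linarith)
    have h4 : N^3 ≤ ((K / f : ℕ):ℝ) := by
      rw [Nat.cast_div hfK hf0.ne', le_div_iff₀ hf0]
      calc N^3 * f ≤ N^3 * N := mul_le_mul_of_nonneg_left hfN' (by positivity)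
        _ = N^4 := by ring
        _ ≤ K := hK.le
    calc ((K / f : ℕ):ℝ)^(-(9/10):ℝ) ≤ (N^3)^(-(9/10):ℝ) :=
          Real.rpow_le_rpow_of_nonpos (by positivity) h4 (by norm_num)
      _ = N^(-(27/10):ℝ) := by
          rw [← Real.rpow_natCast, ← Real.rpow_mul hN0.le]; norm_num
  refine h1.trans ((Finset.sum_le_sum h2).trans ?_)
  rw [Finset.sum_const, nsmul_eq_mul]
  have hcard : (Fs.card : ℝ) ≤ N := by
    have h5 : Fs.card ≤ ⌊N⌋₊ := by
      refine (Finset.card_filter_le _ _).trans ?_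
      simp
    exact le_trans (by exact_mod_cast h5) (Nat.floor_le hN0.le)
  calc (Fs.card : ℝ) * (C * N^(-(27/10):ℝ) * X) ≤ N * (C * N^(-(27/10):ℝ) * X) :=
        mul_le_mul_of_nonneg_right hcard (by positivity)
    _ = C * (N * N^(-(27/10):ℝ)) * X := by ring
    _ = C * N^(-(17/10):ℝ) * X := by
        congr 2
        nth_rw 1 [← Real.rpow_one N]
        rw [← Real.rpow_add hN0]; norm_num

end Crest.Agent.R4.LF10
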