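import Mathlib
import Crest.Agent.R4.LF10_944
import Crest.Agent.R4.HVWCor560
import Crest.Agent.R4.LF67_765

/-!
R4 (S0004), helper944: LEAF TEXT, class (S) (cofactors at most `Yb`).

* `sum_R_le` : a relation with `≤ ρ 2^j` partners in every dyadic block has
  `∑_R wn wn ≤ (ρ L)^{1/2} exp (...)`;
* `energy_R` : theoremT with totient weights and the weight `A(x)A(y)`, `A(n) = ∏_{p ∣ n} (1-1/p)^{-1}`;
* `classS` : the energy of class (S).
-/

set_option autoImplicit false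
open Finset

namespace Crest.Agent.R4.ClsS

open Crest.Agent.R4.HVW560 Crest.Agent.R4.Smo944 Crest.Agent.R4.LF10 Crest.Agent.R016

theorem wn_nonneg {κ : ℝ} (hκ : 0 ≤ κ) (n : ℕ) : 0 ≤ wn κ n := by
  unfold wn
  exact Finset.prod_nonneg fun p _ => by positivity

/-- `n · wn κ n ^ 2` is again a product weight -/
theorem mul_wn_sq {κ : ℝ} {z : ℕ} {B : Finset ℕ} (hB : Smooth z B) {b : ℕ} (hb : b ∈ B) :
    (b:ℝ) * (wn κ b)^2 = ∏ p ∈ primesIoc 0 z, wt2 (κ^2) 12 p (b.factorization p) := by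
  have hb0 := (hB b hb).1
  have h1 : (b:ℝ) = ∏ p ∈ primesIoc 0 z, (p:ℝ)^(b.factorization p) := by
    conv_lhs => rw [← Nat.prod_factorization_pow_eq_self hb0.ne']
    rw [Finsupp.prod, Nat.support_factorization]
    push_cast
    apply Finset.prod_subset (hB.pf hb)
    intro p _ hp
    rw [← Nat.support_factorization, Finsupp.notMem_support_iff] at hp
    rw [hp, pow_zero]
  rw [wn_eq hB hb, ← Finset.prod_pow]
  rw [show (b:ℝ) * ∏ x ∈ primesIoc 0 z, wt2 κ 6 x (b.factorization x)^2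
      = (∏ p ∈ primesIoc 0 z, (p:ℝ)^(b.factorization p)) *
        ∏ x ∈ primesIoc 0 z, wt2 κ 6 x (b.factorization x)^2 by rw [← h1], ← Finset.prod_mul_distrib]
  apply Finset.prod_congr rfl
  intro p hp
  have hp0 : (0:ℝ) < p := by exact_mod_cast (mem_primesIoc.1 hp).2.pos
  unfold wt2
  split_ifs with h
  · rw [h]; simp
  · field_simp

/-- relations with few partners -/
theorem sum_R_le {κ : ℝ} (hκ : 0 ≤ κ) {z : ℕ} (hz : 2 ≤ z) {ρ : ℝ} (hρ : 0 ≤ ρ) (L : ℕ)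
    (R : Finset (ℕ × ℕ)) (hX : Smooth z (R.image Prod.fst)) (hY : Smooth z (R.image Prod.snd))
    (h1 : ∀ e ∈ R, 1 < e.2) (hL : ∀ e ∈ R, e.2 ≤ 2^L)
    (hcount : ∀ (x j : ℕ), ((R.filter (fun e => e.1 = x ∧ 2^j < e.2 ∧ e.2 ≤ 2^(j+1))).card : ℝ)
      ≤ ρ * 2^j) :
    ∑ e ∈ R, wn κ e.1 * wn κ e.2 ≤ (ρ * L)^(1/2:ℝ) *
      Real.exp ((κ * Sm 6 + κ^2 * Sm 12) * (Real.log (Real.log z) + 6)) := by
  classical
  set ℓ : ℝ := Real.log (Real.log z) + 6 with hℓ
  have hℓ0 : 0 ≤ ℓ := by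
    have hz2 : (2:ℝ) ≤ z := by exact_mod_cast hz
    have h3 : -1 ≤ Real.log (Real.log z) := by
      have h4 : Real.exp (-1) ≤ Real.log z := by
        have h1 := Real.exp_neg_one_lt_d9
        have h2 := Real.log_two_gt_d9
        have h3 : Real.log 2 ≤ Real.log z := Real.log_le_log (by norm_num) hz2
        linarith
      calc (-1 : ℝ) = Real.log (Real.exp (-1)) := (Real.log_exp _).symm
        _ ≤ _ := Real.log_le_log (Real.exp_pos _) h4
    rw [hℓ]; linarith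
  set X := R.image Prod.fst with hXd
  set Yx : ℕ → Finset ℕ := fun x => (R.filter (fun e => e.1 = x)).image Prod.snd with hYx
  -- reorganise
  have e1 : ∑ e ∈ R, wn κ e.1 * wn κ e.2 = ∑ x ∈ X, wn κ x * ∑ y ∈ Yx x, wn κ y := by
    rw [← Finset.sum_fiberwise_of_maps_to (s := R) (t := X) (g := Prod.fst)
      (fun e he => Finset.mem_image_of_mem _ he)]
    apply Finset.sum_congr rfl
    intro x _
    rw [hYx, Finset.sum_image, Finset.mul_sum]
    · apply Finset.sum_congr rfl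
      intro e he
      rw [(Finset.mem_filter.1 he).2]
    · intro a ha b hb hab
      have ha' := (Finset.mem_filter.1 ha).2
      have hb' := (Finset.mem_filter.1 hb).2
      exact Prod.ext (ha'.trans hb'.symm) hab
  have hYs : ∀ x, Smooth z (Yx x) := by
    intro x y hy
    obtain ⟨e, he, rfl⟩ := Finset.mem_image.1 hy
    exact hY _ (Finset.mem_image_of_mem _ (Finset.mem_filter.1 he).1)
  -- sum of 1/y
  have hinv : ∀ x, ∑ y ∈ Yx x, 1/(y:ℝ) ≤ ρ * L := by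
    intro x
    have hmaps : ∀ y ∈ Yx x, Nat.clog 2 y - 1 ∈ range L := by
      intro y hy
      obtain ⟨e, he, rfl⟩ := Finset.mem_image.1 hy
      have he' := (Finset.mem_filter.1 he).1
      have h2 := hL e he'
      have h3 := h1 e he'
      have h4 : Nat.clog 2 e.2 ≤ L := (Nat.clog_le_iff_le_pow (by norm_num)).2 h2
      have h5 : 0 < Nat.clog 2 e.2 := Nat.clog_pos (by norm_num) h3
      rw [mem_range]; omega
    rw [← Finset.sum_fiberwise_of_maps_to hmaps]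
    have hblock : ∀ j ∈ range L, ∑ y ∈ (Yx x).filter (fun y => Nat.clog 2 y - 1 = j), 1/(y:ℝ) ≤ ρ := by
      intro j _
      have hmem : ∀ y ∈ (Yx x).filter (fun y => Nat.clog 2 y - 1 = j), 2^j < y ∧ y ≤ 2^(j+1) := by
        intro y hy
        rw [Finset.mem_filter] at hy
        obtain ⟨e, he, rfl⟩ := Finset.mem_image.1 hy.1
        have he' := (Finset.mem_filter.1 he).1
        have h3 := h1 e he'
        have h5 : 0 < Nat.clog 2 e.2 := Nat.clog_pos (by norm_num) h3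
        have h6 : Nat.clog 2 e.2 = j + 1 := by omega
        constructor
        · by_contra hcon
          push Not at hcon
          have := (Nat.clog_le_iff_le_pow (b := 2) (by norm_num) (x := e.2) (y := j)).2 hcon
          omega
        · exact (Nat.clog_le_iff_le_pow (by norm_num)).1 h6.le
      have hcard : (((Yx x).filter (fun y => Nat.clog 2 y - 1 = j)).card : ℝ) ≤ ρ * 2^j := by
        refine le_trans ?_ (hcount x j)
        have : (Yx x).filter (fun y => Nat.clog 2 y - 1 = j) ⊆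
            (R.filter (fun e => e.1 = x ∧ 2^j < e.2 ∧ e.2 ≤ 2^(j+1))).image Prod.snd := by
          intro y hy
          have h7 := hmem y hy
          rw [Finset.mem_filter] at hy
          obtain ⟨e, he, rfl⟩ := Finset.mem_image.1 hy.1
          rw [Finset.mem_filter] at he
          exact Finset.mem_image_of_mem _ (Finset.mem_filter.2 ⟨he.1, he.2, h7.1, h7.2⟩)
        exact_mod_cast (Finset.card_le_card this).trans Finset.card_image_le
      have h2j : (0:ℝ) < 2^j := by positivity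
      calc ∑ y ∈ (Yx x).filter (fun y => Nat.clog 2 y - 1 = j), 1/(y:ℝ)
          ≤ ∑ y ∈ (Yx x).filter (fun y => Nat.clog 2 y - 1 = j), 1/(2:ℝ)^j := by
            apply Finset.sum_le_sum
            intro y hy
            apply one_div_le_one_div_of_le h2j
            exact_mod_cast (hmem y hy).1.le
        _ = ((Yx x).filter (fun y => Nat.clog 2 y - 1 = j)).card * (1/(2:ℝ)^j) := by
            rw [Finset.sum_const, nsmul_eq_mul]
        _ ≤ (ρ * 2^j) * (1/(2:ℝ)^j) := mul_le_mul_of_nonneg_right hcard (by positivity)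
        _ = ρ := by field_simp
    refine (Finset.sum_le_sum hblock).trans (le_of_eq ?_)
    rw [Finset.sum_const, card_range, nsmul_eq_mul, mul_comm]
  have hinner : ∀ x, ∑ y ∈ Yx x, wn κ y ≤ (ρ * L)^(1/2:ℝ) * Real.exp (κ^2 * Sm 12 * ℓ) := by
    intro x
    have hcs := Finset.sum_mul_sq_le_sq_mul_sq (Yx x) (fun y => (Real.sqrt (y:ℝ))⁻¹)
      (fun y => Real.sqrt (y:ℝ) * wn κ y)
    have hpos : ∀ y ∈ Yx x, (0:ℝ) < y := fun y hy => by exact_mod_cast (hYs x y hy).1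
    have e2 : ∑ y ∈ Yx x, (Real.sqrt (y:ℝ))⁻¹ * (Real.sqrt (y:ℝ) * wn κ y) = ∑ y ∈ Yx x, wn κ y := by
      apply Finset.sum_congr rfl
      intro y hy
      have := Real.sqrt_pos.2 (hpos y hy)
      field_simp
    have e3 : ∑ y ∈ Yx x, ((Real.sqrt (y:ℝ))⁻¹)^2 = ∑ y ∈ Yx x, 1/(y:ℝ) := by
      apply Finset.sum_congr rfl
      intro y hy
      rw [inv_pow, Real.sq_sqrt (hpos y hy).le, one_div]
    have e4 : ∑ y ∈ Yx x, (Real.sqrt (y:ℝ) * wn κ y)^2
        = ∑ y ∈ Yx x, ∏ p ∈ primesIoc 0 z, wt2 (κ^2) 12 p (y.factorization p) := by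
      apply Finset.sum_congr rfl
      intro y hy
      rw [mul_pow, Real.sq_sqrt (hpos y hy).le, mul_wn_sq (hYs x) hy]
    rw [e2, e3, e4] at hcs
    have h5 := sum_wt2_le (κ := κ^2) (by positivity) 12 hz (hYs x)
    rw [← hℓ] at h5
    have hS0 : 0 ≤ ∑ y ∈ Yx x, wn κ y := Finset.sum_nonneg fun y _ => wn_nonneg hκ y
    have h6 : (∑ y ∈ Yx x, wn κ y)^2 ≤ (ρ * L) * Real.exp (κ^2 * Sm 12 * ℓ) := by
      refine hcs.trans ?_
      apply mul_le_mul (hinv x) h5 _ (by positivity)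
      exact Finset.sum_nonneg fun y _ => Finset.prod_nonneg fun p _ => wt2_nonneg (by positivity) _ _ _
    have hSm := (Sm_pos 12).le
    have h7 : ∑ y ∈ Yx x, wn κ y ≤ ((ρ * L) * Real.exp (κ^2 * Sm 12 * ℓ))^(1/2:ℝ) := by
      rw [← Real.sqrt_eq_rpow]
      exact Real.le_sqrt_of_sq_le h6
    refine h7.trans ?_
    rw [Real.mul_rpow (by positivity) (by positivity)]
    apply mul_le_mul_of_nonneg_left _ (by positivity)
    rw [← Real.exp_mul]
    apply Real.exp_le_exp.2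
    have : 0 ≤ κ^2 * Sm 12 * ℓ := by positivity
    linarith
  rw [e1]
  have h8 := sum_wn_le hκ hz hX
  rw [← hℓ] at h8
  calc ∑ x ∈ X, wn κ x * ∑ y ∈ Yx x, wn κ y
      ≤ ∑ x ∈ X, wn κ x * ((ρ * L)^(1/2:ℝ) * Real.exp (κ^2 * Sm 12 * ℓ)) :=
        Finset.sum_le_sum fun x _ => mul_le_mul_of_nonneg_left (hinner x) (wn_nonneg hκ x)
    _ = (∑ x ∈ X, wn κ x) * ((ρ * L)^(1/2:ℝ) * Real.exp (κ^2 * Sm 12 * ℓ)) := by
        rw [Finset.sum_mul]
    _ ≤ Real.exp (κ * Sm 6 * ℓ) * ((ρ * L)^(1/2:ℝ) * Real.exp (κ^2 * Sm 12 * ℓ)) :=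
        mul_le_mul_of_nonneg_right h8 (by positivity)
    _ = _ := by
        rw [add_mul, Real.exp_add]; ring

/-- `A(n) = ∏_{p ∣ n} (1 - 1/p)^{-1}` -/
noncomputable def Af (n : ℕ) : ℝ := ∏ p ∈ n.primeFactors, (1 - 1/(p:ℝ))⁻¹

theorem one_sub_inv {p : ℕ} (hp : 2 ≤ p) : (1/2:ℝ) ≤ 1 - 1/(p:ℝ) ∧ 1 - 1/(p:ℝ) ≤ 1 := by
  have hp2 : (2:ℝ) ≤ p := by exact_mod_cast hp
  have hp0 : (0:ℝ) < p := by linarith
  constructor
  · have : 1/(p:ℝ) ≤ 1/2 := one_div_le_one_div_of_le (by norm_num) hp2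
    linarith
  · have : 0 ≤ 1/(p:ℝ) := by positivity
    linarith

theorem Af_pos (n : ℕ) : 0 < Af n := by
  unfold Af
  apply Finset.prod_pos
  intro p hp
  have := one_sub_inv (Nat.mem_primeFactors.1 hp).1.two_le
  have h : (0:ℝ) < 1 - 1/(p:ℝ) := by linarith
  positivity

theorem one_le_Af (n : ℕ) : 1 ≤ Af n := by
  unfold Af
  refine Finset.prod_induction _ (fun x : ℝ => 1 ≤ x)
    (fun a b ha hb => one_le_mul_of_one_le_of_one_le ha hb) le_rfl ?_
  intro p hp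
  have := one_sub_inv (Nat.mem_primeFactors.1 hp).1.two_le
  exact (one_le_inv₀ (by linarith)).2 this.2

theorem wn_mul_Af {κ : ℝ} (hκ : 0 ≤ κ) {r : ℝ} (hr0 : 0 ≤ r) (hr : r ≤ 4) (n : ℕ) :
    wn κ n * (Af n)^r ≤ wn (16*κ) n := by
  unfold wn Af Finsupp.prod
  rw [Nat.support_factorization, ← Real.finsetProd_rpow _ _ (by
    intro p hp
    have := one_sub_inv (Nat.mem_primeFactors.1 hp).1.two_le
    have h : (0:ℝ) < 1 - 1/(p:ℝ) := by linarith
    positivity), ← Finset.prod_mul_distrib]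
  apply Finset.prod_le_prod
  · intro p hp
    have := one_sub_inv (Nat.mem_primeFactors.1 hp).1.two_le
    have h : (0:ℝ) < 1 - 1/(p:ℝ) := by linarith
    positivity
  · intro p hp
    have h1 := one_sub_inv (Nat.mem_primeFactors.1 hp).1.two_le
    have h : (0:ℝ) < 1 - 1/(p:ℝ) := by linarith
    have h2 : (1 - 1/(p:ℝ))⁻¹ ≤ 2 := by
      rw [inv_le_comm₀ h (by norm_num)]; linarith
    have h3 : 1 ≤ (1 - 1/(p:ℝ))⁻¹ := (one_le_inv₀ h).2 h1.2
    have h4 : ((1 - 1/(p:ℝ))⁻¹)^r ≤ 16 := by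
      calc ((1 - 1/(p:ℝ))⁻¹)^r ≤ (2:ℝ)^r := Real.rpow_le_rpow (by positivity) h2 hr0
        _ ≤ (2:ℝ)^(4:ℝ) := Real.rpow_le_rpow_of_exponent_le (by norm_num) hr
        _ = 16 := by norm_num
    have h5 : 0 ≤ κ * ((n.factorization p : ℕ):ℝ)^6 / (p:ℝ)^(n.factorization p) := by positivity
    calc _ ≤ κ * ((n.factorization p : ℕ):ℝ)^6 / (p:ℝ)^(n.factorization p) * 16 :=
          mul_le_mul_of_nonneg_left h4 h5
      _ = _ := by ring

theorem totient_ratio_le_one (n : ℕ) : (Nat.totient n : ℝ)/n ≤ 1 := by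
  rcases Nat.eq_zero_or_pos n with rfl | h
  · simp
  · rw [div_le_one (by exact_mod_cast h)]
    exact_mod_cast Nat.totient_le n

/-- theoremT with totient weights and with the weight `A(x) A(y)` -/
theorem energy_R {ε : ℝ} (hε : 0 < ε) (hε4 : ε ≤ 1/4)
    {V W : Finset ℕ} {E : Finset (ℕ × ℕ)} {ψ θ : ℕ → ℝ} {δ : ℝ} (hs : Sys V W E ψ θ δ) :
    ∑ e ∈ E, wt ψ e.1 * wt θ e.2 * (Af (cof e.1 e.2) * Af (cof e.2 e.1))
      ≤ δ^(1-2*ε) * ((∑ x ∈ E.image (fun e => (cof e.1 e.2, cof e.2 e.1)),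
          wn (16*(72/ε)^3) x.1 * wn (16*(72/ε)^3) x.2)^(1/2-ε) *
        ((∑ v ∈ V, wt ψ v) * (∑ w ∈ W, wt θ w))^(1/2+ε)) := by
  classical
  have hu : 0 < 1/2 - ε := by linarith
  set r : ℝ := 1/(1/2-ε) with hr
  have hr0 : 0 ≤ r := by positivity
  have hr4 : r ≤ 4 := by
    rw [hr, div_le_iff₀ hu]; linarith
  have hδ := hs.hδ
  set κ : ℝ := (72/ε)^3 with hκ
  have hκ0 : 0 ≤ κ := by positivity
  have key := theoremT hε hε4 V W E (fun v => wt ψ v) (fun w => wt θ w) δ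
    (fun x => (Af x.1 * Af x.2)^r) hs.hδ hs.hV hs.hW (fun v hv => wt_nonneg (hs.hψ v hv))
    (fun w hw => wt_nonneg (hs.hθ w hw)) hs.hE
    (fun e he => by
      have hm := Finset.mem_product.1 (hs.hE he)
      refine le_trans ?_ (hs.h1 e he)
      apply mul_le_mul_of_nonneg_left _ (by positivity)
      unfold wt
      have := totient_ratio_le_one e.2
      have h2 := hs.hθ _ hm.2
      nlinarith)
    (fun e he => by
      have hm := Finset.mem_product.1 (hs.hE he)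
      refine le_trans ?_ (hs.h2 e he)
      apply mul_le_mul_of_nonneg_left _ (by positivity)
      unfold wt
      have := totient_ratio_le_one e.1
      have h2 := hs.hψ _ hm.1
      nlinarith)
    (fun x => by
      have := Af_pos x.1; have := Af_pos x.2; positivity)
  rw [← hκ] at key
  have hL : ∑ e ∈ E, wt ψ e.1 * wt θ e.2 * (Af (cof e.1 e.2) * Af (cof e.2 e.1))
      = ∑ e ∈ E, wt ψ e.1 * wt θ e.2 * ((Af (cof e.1 e.2) * Af (cof e.2 e.1))^r)^(1/2-ε) := by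
    apply Finset.sum_congr rfl
    intro e _
    have h1 := Af_pos (cof e.1 e.2)
    have h2 := Af_pos (cof e.2 e.1)
    rw [← Real.rpow_mul (by positivity), hr, one_div_mul_cancel hu.ne', Real.rpow_one]
  rw [hL]
  refine key.trans ?_
  have hM : 0 ≤ (∑ v ∈ V, wt ψ v) * (∑ w ∈ W, wt θ w) :=
    mul_nonneg (Finset.sum_nonneg fun v hv => wt_nonneg (hs.hψ v hv))
      (Finset.sum_nonneg fun v hv => wt_nonneg (hs.hθ v hv))
  apply mul_le_mul_of_nonneg_left _ (by positivity)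
  apply mul_le_mul_of_nonneg_right _ (by positivity)
  have hterm : ∀ x ∈ E.image (fun e => (cof e.1 e.2, cof e.2 e.1)),
      wn κ x.1 * wn κ x.2 * (Af x.1 * Af x.2)^r ≤ wn (16*κ) x.1 * wn (16*κ) x.2 := by
    intro x _
    have h1 := Af_pos x.1
    have h2 := Af_pos x.2
    rw [Real.mul_rpow h1.le h2.le]
    calc wn κ x.1 * wn κ x.2 * ((Af x.1)^r * (Af x.2)^r)
        = (wn κ x.1 * (Af x.1)^r) * (wn κ x.2 * (Af x.2)^r) := by ring
      _ ≤ _ := mul_le_mul (wn_mul_Af hκ0 hr0 hr4 _) (wn_mul_Af hκ0 hr0 hr4 _)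
          (mul_nonneg (wn_nonneg hκ0 _) (by positivity)) (wn_nonneg (by positivity) _)
  apply Real.rpow_le_rpow _ (Finset.sum_le_sum hterm) hu.le
  apply Finset.sum_nonneg
  intro x _
  have h1 := Af_pos x.1
  have h2 := Af_pos x.2
  exact mul_nonneg (mul_nonneg (wn_nonneg hκ0 _) (wn_nonneg hκ0 _)) (by positivity)

open Crest.Agent.R4.LF765

theorem NStr_iff {θ t Y N : ℝ} : NStr θ t Y N ↔ Struct N θ t Y := Iff.rfl

/-- an unstructured related pair of class (S), target `θ`, scale `t` -/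
structure PairS (θ t N Yb : ℝ) (x y : ℕ) : Prop where
  hx : 0 < x
  hxy : x < y
  hyY : (y:ℝ) ≤ Yb
  rel : ∃ n : ℤ, |(n:ℝ) - θ * ((x:ℝ) - y)| ≤ 2 / t
  uns : ∀ Y : ℝ, 0 < Y → Y < y → (y:ℝ) ≤ 2 * Y → ¬ Struct N θ t Y

theorem PairS.lt {θ t N Yb : ℝ} {x y : ℕ} (ht : 0 < t) (hN : 1 ≤ N) (h : PairS θ t N Yb x y) :
    N < y := by
  by_contra hcon
  push Not at hcon
  have hx := h.hx
  have hxy := h.hxy
  have hy0 : (0:ℝ) < y := by
    have : 0 < y := by omega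
    exact_mod_cast this
  -- `Y = y / 2`
  apply h.uns (y/2) (by positivity) (by linarith) (by linarith)
  obtain ⟨n, hn⟩ := h.rel
  refine ⟨y - x, by omega, ?_, -n, ?_⟩
  · rw [Nat.cast_sub hxy.le]
    have : (0:ℝ) < x := by exact_mod_cast hx
    linarith
  · rw [Nat.cast_sub hxy.le]
    push_cast
    have e : θ * ((y:ℝ) - x) - -(n:ℝ) = (n:ℝ) - θ * ((x:ℝ) - y) := by ring
    rw [e]
    refine hn.trans ?_
    rw [div_le_div_iff₀ ht (by positivity)]
    have h2 : (y:ℝ)/2 ≤ N := by linarith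
    calc 2 * (t * (y/2)) = (2 * t) * (y/2) := by ring
      _ ≤ (2 * t) * N := mul_le_mul_of_nonneg_left h2 (by positivity)
      _ = 2 * N * t := by ring

/-- the number of partners in a dyadic block -/
theorem count_block {θ t N Yb : ℝ} (hN : 1 ≤ N) (ht : 200 * N ≤ t) (R : Finset (ℕ × ℕ))
    (hR : ∀ e ∈ R, PairS θ t N Yb e.1 e.2) (x j : ℕ) :
    ((R.filter (fun e => e.1 = x ∧ 2^j < e.2 ∧ e.2 ≤ 2^(j+1))).card : ℝ) ≤ 4 / N * 2^j := by
  classical
  have ht0 : 0 < t := by linarith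
  have hN0 : 0 < N := by linarith
  set F := R.filter (fun e => e.1 = x ∧ 2^j < e.2 ∧ e.2 ≤ 2^(j+1)) with hF
  rcases F.eq_empty_or_nonempty with hem | ⟨e0, he0⟩
  · rw [hem]; simp; positivity
  rw [hF, Finset.mem_filter] at he0
  obtain ⟨he0R, he0x, he0l, he0u⟩ := he0
  have hP0 := hR e0 he0R
  have h0l : ((2:ℝ)^j) < e0.2 := by exact_mod_cast he0l
  have h0u : (e0.2:ℝ) ≤ 2 * 2^j := by
    have : (e0.2:ℝ) ≤ 2^(j+1) := by exact_mod_cast he0u
    rw [pow_succ] at this; linarith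
  have hns := hP0.uns (2^j) (by positivity) h0l h0u
  have hcard : F.card = (F.image Prod.snd).card := by
    rw [Finset.card_image_of_injOn]
    intro a ha b hb hab
    have ha' := (Finset.mem_filter.1 ha).2
    have hb' := (Finset.mem_filter.1 hb).2
    exact Prod.ext (ha'.1.trans hb'.1.symm) hab
  have h1 := LF6 (N := N) (θ := θ) (t := t) (Y := 2^j) hN (by positivity) ht hns (θ * x)
    (F.image Prod.snd) (by
      intro y hy
      obtain ⟨e, he, rfl⟩ := Finset.mem_image.1 hy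
      rw [hF, Finset.mem_filter] at he
      obtain ⟨_, _, h2, h3⟩ := he
      have h3' : (e.2:ℝ) ≤ 2^(j+1) := by exact_mod_cast h3
      rw [pow_succ] at h3'
      exact ⟨by exact_mod_cast h2, by linarith⟩) (by
      intro y hy
      obtain ⟨e, he, rfl⟩ := Finset.mem_image.1 hy
      rw [hF, Finset.mem_filter] at he
      obtain ⟨heR, hex, _, _⟩ := he
      obtain ⟨n, hn⟩ := (hR e heR).rel
      refine ⟨-n, ?_⟩
      rw [hex] at hn
      have e4 : θ * (e.2:ℝ) - θ * x - ((-n : ℤ):ℝ) = (n:ℝ) - θ * ((x:ℝ) - e.2) := by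
        push_cast; ring
      rw [e4]; exact hn)
  rw [← hcard] at h1
  have h2 := hP0.lt ht0 hN
  have h3 : 1 ≤ 2 * 2^j / N := by
    rw [le_div_iff₀ hN0]; linarith
  calc (F.card:ℝ) ≤ 2 * 2^j / N + 1 := h1.le
    _ ≤ 2 * 2^j / N + 2 * 2^j / N := by linarith
    _ = 4 / N * 2^j := by ring

theorem clog_le {n : ℕ} (hn : 2 ≤ n) : (Nat.clog 2 n : ℝ) ≤ 2 * Real.log n + 1 := by
  have h1 : (2:ℝ)^(Nat.clog 2 n - 1) < n := by
    have := Nat.pow_pred_clog_lt_self (b := 2) (by norm_num) (x := n) (by omega)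
    rw [Nat.pred_eq_sub_one] at this
    exact_mod_cast this
  have hc : 1 ≤ Nat.clog 2 n := Nat.clog_pos (by norm_num) hn
  have hn0 : (0:ℝ) < n := by positivity
  have h2 : ((Nat.clog 2 n - 1 : ℕ):ℝ) * Real.log 2 ≤ Real.log n := by
    rw [← Real.log_pow]
    exact Real.log_le_log (by positivity) h1.le
  rw [Nat.cast_sub hc, Nat.cast_one] at h2
  have h3 := Real.log_two_gt_d9
  have h4 : (0:ℝ) ≤ (Nat.clog 2 n : ℝ) - 1 := by
    have : (1:ℝ) ≤ (Nat.clog 2 n : ℝ) := by exact_mod_cast hc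
    linarith
  nlinarith

/-- sum over the relation of class (S) -/
theorem exists_sum_R {κ : ℝ} (hκ : 0 ≤ κ) : ∃ C c0 : ℝ, 1 ≤ C ∧ 0 < c0 ∧ c0 ≤ 1/40 ∧
    ∀ (θ t Yb : ℝ) (R : Finset (ℕ × ℕ)), 2^10 ≤ t → Yb ≤ Real.exp (t^c0) →
    (∀ e ∈ R, PairS θ t (t^(1/10:ℝ)) Yb e.1 e.2) →
    ∑ e ∈ R, wn κ e.1 * wn κ e.2 ≤ C * t^(-(1/40):ℝ) := by
  classical
  set K : ℝ := κ * Sm 6 + κ^2 * Sm 12 with hK
  have hS6 := (Sm_pos 6).le
  have hS12 := (Sm_pos 12).le
  have hK0 : 0 ≤ K := by positivity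
  set c0 : ℝ := 1/(40*(K+1)) with hc0
  have hc0p : 0 < c0 := by positivity
  have hc40 : c0 ≤ 1/40 := by
    rw [hc0]
    apply one_div_le_one_div_of_le (by norm_num)
    linarith
  refine ⟨4 * Real.exp (6*K), c0, ?_, hc0p, hc40, ?_⟩
  · have : 1 ≤ Real.exp (6*K) := Real.one_le_exp (by positivity)
    linarith
  intro θ t Yb R ht hYb hR
  have ht0 : 0 < t := by linarith
  have ht1 : 1 ≤ t := by linarith
  rcases R.eq_empty_or_nonempty with rfl | hne
  · rw [Finset.sum_empty]; positivity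
  set N : ℝ := t^(1/10:ℝ) with hN
  have hN1 : 1 ≤ N := Real.one_le_rpow ht1 (by norm_num)
  have hN200 : 200 * N ≤ t := by
    have e1 : t = N * t^(9/10:ℝ) := by
      rw [hN, ← Real.rpow_add ht0]; norm_num
    have e2 : (200:ℝ) ≤ t^(9/10:ℝ) := by
      calc (200:ℝ) ≤ (2^10:ℝ)^(9/10:ℝ) := by
            rw [← Real.rpow_natCast, ← Real.rpow_mul (by norm_num)]
            norm_num
        _ ≤ _ := Real.rpow_le_rpow (by norm_num) ht (by norm_num)
    calc 200 * N ≤ t^(9/10:ℝ) * N := mul_le_mul_of_nonneg_right e2 (by linarith)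
      _ = t := by rw [mul_comm]; exact e1.symm
  set z : ℕ := max 2 ⌊Yb⌋₊ with hz
  have hz2 : 2 ≤ z := le_max_left _ _
  have hzY : ∀ n : ℕ, (n:ℝ) ≤ Yb → n ≤ z := fun n hn => (Nat.le_floor hn).trans (le_max_right _ _)
  have hsm : ∀ n : ℕ, 0 < n → (n:ℝ) ≤ Yb → ∀ p, p.Prime → p ∣ n → p ≤ z := fun n hn hnY p _ hpn =>
    (Nat.le_of_dvd hn hpn).trans (hzY n hnY)
  have hX : Smooth z (R.image Prod.fst) := by
    intro b hb
    obtain ⟨e, he, rfl⟩ := Finset.mem_image.1 hb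
    have h := hR e he
    refine ⟨h.hx, hsm _ h.hx ?_⟩
    have : (e.1:ℝ) ≤ e.2 := by exact_mod_cast h.hxy.le
    exact this.trans h.hyY
  have hY : Smooth z (R.image Prod.snd) := by
    intro b hb
    obtain ⟨e, he, rfl⟩ := Finset.mem_image.1 hb
    have h := hR e he
    have h0 : 0 < e.2 := lt_trans h.hx h.hxy
    exact ⟨h0, hsm _ h0 h.hyY⟩
  set L : ℕ := Nat.clog 2 z with hL
  have hLle : ∀ e ∈ R, e.2 ≤ 2^L := by
    intro e he
    exact (hzY _ (hR e he).hyY).trans (Nat.le_pow_clog (by norm_num) _)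
  have h1R : ∀ e ∈ R, 1 < e.2 := by
    intro e he
    have h := hR e he
    have := h.hx; have := h.hxy; omega
  have key := sum_R_le hκ hz2 (ρ := 4/N) (by positivity) L R hX hY h1R hLle
    (count_block hN1 hN200 R hR)
  rw [← hK] at key
  refine key.trans ?_
  -- numerics
  set Z : ℝ := t^c0 with hZ
  have hZ1 : 1 ≤ Z := Real.one_le_rpow ht1 hc0p.le
  have hz0 : (0:ℝ) < z := by positivity
  have hlogz : Real.log z ≤ Z := by
    have h1 : (z:ℝ) ≤ Real.exp Z := by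
      rw [hz]
      push_cast
      apply max_le
      · have := Real.add_one_le_exp Z
        linarith
      · have hYpos : 0 ≤ Yb := by
          obtain ⟨e, he⟩ := hne
          exact le_trans (by positivity) (hR e he).hyY
        exact (Nat.floor_le hYpos).trans hYb
    calc Real.log z ≤ Real.log (Real.exp Z) := Real.log_le_log hz0 h1
      _ = Z := Real.log_exp Z
  have hlogz0 : 0 < Real.log z := Real.log_pos (by
    have : (2:ℝ) ≤ z := by exact_mod_cast hz2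
    linarith)
  have hLr : (L:ℝ) ≤ 4 * Z := by
    have := clog_le hz2
    rw [← hL] at this
    nlinarith
  have hexp : Real.exp (K * (Real.log (Real.log z) + 6)) ≤ Real.exp (6*K) * Z^K := by
    have h2 : Real.log (Real.log z) ≤ Real.log Z := Real.log_le_log hlogz0 hlogz
    have h3 : Z^K = Real.exp (K * Real.log Z) := by
      rw [Real.rpow_def_of_pos (by linarith), mul_comm]
    rw [h3, ← Real.exp_add]
    apply Real.exp_le_exp.2
    nlinarith
  have hρL : (4/N * (L:ℝ))^(1/2:ℝ) ≤ 4 * (N^(-(1/2):ℝ) * Z^(1/2:ℝ)) := by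
    have h1 : 4/N * (L:ℝ) ≤ 16 * (N⁻¹ * Z) := by
      have : 4/N * (L:ℝ) ≤ 4/N * (4*Z) := mul_le_mul_of_nonneg_left hLr (by positivity)
      refine this.trans (le_of_eq ?_)
      rw [div_eq_mul_inv]; ring
    calc (4/N * (L:ℝ))^(1/2:ℝ) ≤ (16 * (N⁻¹ * Z))^(1/2:ℝ) :=
          Real.rpow_le_rpow (by positivity) h1 (by norm_num)
      _ = 4 * (N^(-(1/2):ℝ) * Z^(1/2:ℝ)) := by
          rw [Real.mul_rpow (by norm_num) (by positivity), Real.mul_rpow (by positivity) (by positivity)]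
          congr 1
          · rw [show (16:ℝ) = 4^(2:ℝ) by norm_num, ← Real.rpow_mul (by norm_num)]; norm_num
          · congr 1
            rw [← Real.rpow_neg_one, ← Real.rpow_mul (by linarith)]; norm_num
  calc (4/N * (L:ℝ))^(1/2:ℝ) * Real.exp (K * (Real.log (Real.log z) + 6))
      ≤ (4 * (N^(-(1/2):ℝ) * Z^(1/2:ℝ))) * (Real.exp (6*K) * Z^K) :=
        mul_le_mul hρL hexp (by positivity) (by positivity)
    _ = 4 * Real.exp (6*K) * (N^(-(1/2):ℝ) * (Z^(1/2:ℝ) * Z^K)) := by ring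
    _ ≤ 4 * Real.exp (6*K) * t^(-(1/40):ℝ) := by
        apply mul_le_mul_of_nonneg_left _ (by positivity)
        rw [← Real.rpow_add (by linarith), hN, hZ, ← Real.rpow_mul ht0.le, ← Real.rpow_mul ht0.le,
          ← Real.rpow_add ht0]
        apply Real.rpow_le_rpow_of_exponent_le ht1
        have : c0 * (1/2 + K) ≤ 1/40 := by
          rw [hc0, div_mul_eq_mul_div, div_le_div_iff₀ (by positivity) (by norm_num)]
          nlinarith
        linarith

/-- the exponent used everywhere in the leaf -/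
noncomputable def eps1 : ℝ := 1/1000

/-- **class (S)**, one orientation -/
theorem classS_half : ∃ C c0 : ℝ, 1 ≤ C ∧ 0 < c0 ∧ c0 ≤ 1/40 ∧
    ∀ (θ t Yb : ℝ) (V W : Finset ℕ) (E : Finset (ℕ × ℕ)) (ψ ψ' : ℕ → ℝ), 2^10 ≤ t →
    Yb ≤ Real.exp (t^c0) → Sys V W E ψ ψ' (1/t) →
    (∀ e ∈ E, PairS θ t (t^(1/10:ℝ)) Yb (cof e.1 e.2) (cof e.2 e.1)) →
    ∑ e ∈ E, wt ψ e.1 * wt ψ' e.2 * (Af (cof e.1 e.2) * Af (cof e.2 e.1))
      ≤ C * t^(-(101/100):ℝ) * ((∑ v ∈ V, wt ψ v) * (∑ w ∈ W, wt ψ' w))^(1/2+eps1) := by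
  classical
  have hε : (0:ℝ) < eps1 := by unfold eps1; norm_num
  have hε4 : eps1 ≤ 1/4 := by unfold eps1; norm_num
  obtain ⟨C, c0, hC1, hc0, hc40, hC⟩ := exists_sum_R (κ := 16*(72/eps1)^3) (by positivity)
  refine ⟨C, c0, hC1, hc0, hc40, ?_⟩
  intro θ t Yb V W E ψ ψ' ht hYb hs hE
  have ht0 : 0 < t := by linarith
  have ht1 : 1 ≤ t := by linarith
  have key := energy_R hε hε4 hs
  have hR := hC θ t Yb (E.image (fun e => (cof e.1 e.2, cof e.2 e.1))) ht hYb (by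
    intro e he
    obtain ⟨e', he', rfl⟩ := Finset.mem_image.1 he
    exact hE e' he')
  refine key.trans ?_
  have hM : 0 ≤ (∑ v ∈ V, wt ψ v) * (∑ w ∈ W, wt ψ' w) :=
    mul_nonneg (Finset.sum_nonneg fun v hv => wt_nonneg (hs.hψ v hv))
      (Finset.sum_nonneg fun v hv => wt_nonneg (hs.hθ v hv))
  rw [← mul_assoc]
  apply mul_le_mul_of_nonneg_right _ (by positivity)
  have hR0 : 0 ≤ ∑ x ∈ E.image (fun e => (cof e.1 e.2, cof e.2 e.1)),
      wn (16*(72/eps1)^3) x.1 * wn (16*(72/eps1)^3) x.2 :=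
    Finset.sum_nonneg fun x _ => mul_nonneg (wn_nonneg (by positivity) _) (wn_nonneg (by positivity) _)
  have h1 : (∑ x ∈ E.image (fun e => (cof e.1 e.2, cof e.2 e.1)),
      wn (16*(72/eps1)^3) x.1 * wn (16*(72/eps1)^3) x.2)^(1/2-eps1) ≤ C * t^(-(1/40)*(1/2-eps1)) := by
    calc _ ≤ (C * t^(-(1/40):ℝ))^(1/2-eps1) :=
          Real.rpow_le_rpow hR0 hR (by unfold eps1; norm_num)
      _ = C^(1/2-eps1) * t^(-(1/40)*(1/2-eps1)) := by
          rw [Real.mul_rpow (by positivity) (by positivity), ← Real.rpow_mul ht0.le]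
      _ ≤ C * t^(-(1/40)*(1/2-eps1)) := by
          apply mul_le_mul_of_nonneg_right _ (by positivity)
          calc C^(1/2-eps1) ≤ C^(1:ℝ) :=
                Real.rpow_le_rpow_of_exponent_le hC1 (by unfold eps1; norm_num)
            _ = C := Real.rpow_one C
  have h2 : (1/t)^(1-2*eps1) = t^(-(1-2*eps1)) := by
    rw [one_div, Real.inv_rpow ht0.le, Real.rpow_neg ht0.le]
  rw [h2]
  calc t^(-(1-2*eps1)) * _ ≤ t^(-(1-2*eps1)) * (C * t^(-(1/40)*(1/2-eps1))) :=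
        mul_le_mul_of_nonneg_left h1 (by positivity)
    _ = C * (t^(-(1-2*eps1)) * t^(-(1/40)*(1/2-eps1))) := by ring
    _ ≤ C * t^(-(101/100):ℝ) := by
        apply mul_le_mul_of_nonneg_left _ (by linarith)
        rw [← Real.rpow_add ht0]
        apply Real.rpow_le_rpow_of_exponent_le ht1
        unfold eps1; norm_num

/-- an unstructured related pair with `max x y ≤ Yb`, `x ≠ y` -/
structure PairS2 (θ t N Yb : ℝ) (x y : ℕ) : Prop where
  hx : 0 < x
  hy : 0 < y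
  hxy : x ≠ y
  hmY : ((max x y : ℕ):ℝ) ≤ Yb
  rel : ∃ n : ℤ, |(n:ℝ) - θ * ((x:ℝ) - y)| ≤ 2 / t
  uns : ∀ Y : ℝ, 0 < Y → Y < ((max x y : ℕ):ℝ) → ((max x y : ℕ):ℝ) ≤ 2 * Y → ¬ Struct N θ t Y

/-- **class (S)**: all unstructured related pairs with cofactors at most `Yb ≤ exp (t^{c0})`. -/
theorem classS : ∃ C c0 : ℝ, 1 ≤ C ∧ 0 < c0 ∧ c0 ≤ 1/40 ∧
    ∀ (θ t Yb : ℝ) (V W : Finset ℕ) (E : Finset (ℕ × ℕ)) (ψ ψ' : ℕ → ℝ), 2^10 ≤ t →
    Yb ≤ Real.exp (t^c0) → Sys V W E ψ ψ' (1/t) →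
    (∀ e ∈ E, PairS2 θ t (t^(1/10:ℝ)) Yb (cof e.1 e.2) (cof e.2 e.1)) →
    ∑ e ∈ E, wt ψ e.1 * wt ψ' e.2 * (Af (cof e.1 e.2) * Af (cof e.2 e.1))
      ≤ C * t^(-(101/100):ℝ) * ((∑ v ∈ V, wt ψ v) * (∑ w ∈ W, wt ψ' w))^(1/2+eps1) := by
  classical
  obtain ⟨C, c0, hC1, hc0, hc40, hC⟩ := classS_half
  refine ⟨2*C, c0, by linarith, hc0, hc40, ?_⟩
  intro θ t Yb V W E ψ ψ' ht hYb hs hE
  set f : ℕ × ℕ → ℝ := fun e => wt ψ e.1 * wt ψ' e.2 * (Af (cof e.1 e.2) * Af (cof e.2 e.1)) with hf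
  set E1 := E.filter (fun e => cof e.1 e.2 < cof e.2 e.1) with hE1
  set E2 := E.filter (fun e => ¬ cof e.1 e.2 < cof e.2 e.1) with hE2
  have hsplit : ∑ e ∈ E, f e = ∑ e ∈ E1, f e + ∑ e ∈ E2, f e := by
    rw [hE1, hE2, Finset.sum_filter_add_sum_filter_not]
  have hs1 : Sys V W E1 ψ ψ' (1/t) :=
    { hδ := hs.hδ, hV := hs.hV, hW := hs.hW, hψ := hs.hψ, hθ := hs.hθ
      hE := (Finset.filter_subset _ _).trans hs.hE
      h1 := fun e he => hs.h1 e (Finset.mem_filter.1 he).1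
      h2 := fun e he => hs.h2 e (Finset.mem_filter.1 he).1 }
  have b1 := hC θ t Yb V W E1 ψ ψ' ht hYb hs1 (by
    intro e he
    rw [hE1, Finset.mem_filter] at he
    have h := hE e he.1
    have hmax : max (cof e.1 e.2) (cof e.2 e.1) = cof e.2 e.1 := max_eq_right he.2.le
    exact ⟨h.hx, he.2, by rw [← hmax]; exact h.hmY, h.rel, by rw [← hmax]; exact h.uns⟩)
  set E2' := E2.image Prod.swap with hE2'
  have hinj : Set.InjOn (Prod.swap : ℕ × ℕ → ℕ × ℕ) (E2 : Set (ℕ × ℕ)) :=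
    Prod.swap_injective.injOn
  have hs2 : Sys W V E2' ψ' ψ (1/t) :=
    { hδ := hs.hδ, hV := hs.hW, hW := hs.hV, hψ := hs.hθ, hθ := hs.hψ
      hE := by
        intro e he
        obtain ⟨e', he', rfl⟩ := Finset.mem_image.1 he
        have := Finset.mem_product.1 (hs.hE (Finset.mem_filter.1 he').1)
        exact Finset.mem_product.2 ⟨this.2, this.1⟩
      h1 := by
        intro e he
        obtain ⟨e', he', rfl⟩ := Finset.mem_image.1 he
        exact hs.h2 e' (Finset.mem_filter.1 he').1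
      h2 := by
        intro e he
        obtain ⟨e', he', rfl⟩ := Finset.mem_image.1 he
        exact hs.h1 e' (Finset.mem_filter.1 he').1 }
  have b2 := hC θ t Yb W V E2' ψ' ψ ht hYb hs2 (by
    intro e he
    obtain ⟨e', he', rfl⟩ := Finset.mem_image.1 he
    rw [hE2, Finset.mem_filter] at he'
    have h := hE e' he'.1
    have hlt : cof e'.2 e'.1 < cof e'.1 e'.2 := lt_of_le_of_ne (not_lt.1 he'.2) (Ne.symm h.hxy)
    have hmax : max (cof e'.1 e'.2) (cof e'.2 e'.1) = cof e'.1 e'.2 := max_eq_left hlt.le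
    refine ⟨h.hy, hlt, by simp only [Prod.fst_swap, Prod.snd_swap]; rw [← hmax]; exact h.hmY, ?_, by
      simp only [Prod.fst_swap, Prod.snd_swap]
      rw [← hmax]; exact h.uns⟩
    obtain ⟨n, hn⟩ := h.rel
    refine ⟨-n, ?_⟩
    simp only [Prod.fst_swap, Prod.snd_swap]
    rw [← abs_neg]
    have e5 : -(((-n : ℤ):ℝ) - θ * ((cof e'.2 e'.1 : ℝ) - cof e'.1 e'.2))
        = (n:ℝ) - θ * ((cof e'.1 e'.2 : ℝ) - cof e'.2 e'.1) := by push_cast; ring
    rw [e5]; exact hn)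
  have hb2 : ∑ e ∈ E2', wt ψ' e.1 * wt ψ e.2 * (Af (cof e.1 e.2) * Af (cof e.2 e.1)) = ∑ e ∈ E2, f e := by
    rw [hE2', Finset.sum_image hinj]
    apply Finset.sum_congr rfl
    intro e _
    simp only [hf, Prod.fst_swap, Prod.snd_swap]
    ring
  rw [hb2, mul_comm (∑ w ∈ W, wt ψ' w)] at b2
  have : ∑ e ∈ E, f e ≤ C * t^(-(101/100):ℝ) * ((∑ v ∈ V, wt ψ v) * (∑ w ∈ W, wt ψ' w))^(1/2+eps1)
      + C * t^(-(101/100):ℝ) * ((∑ v ∈ V, wt ψ v) * (∑ w ∈ W, wt ψ' w))^(1/2+eps1) := by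
    rw [hsplit]; exact add_le_add b1 b2
  refine this.trans (le_of_eq ?_)
  ring

end Crest.Agent.R4.ClsS
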