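import Mathlib
import Crest.Agent.R4.ClsS_944
import Crest.Agent.R4.HVWX793

/-!
R4 (S0004), helper944: LEAF TEXT, class (U) (unbalanced pairs), and the admissible weight
`A11(n) = ∏_{p ∣ n, p ≥ 11} (1-1/p)^{-v_p(n)}` dominating `Af`.
-/

set_option autoImplicit false
open Finset

namespace Crest.Agent.R4.ClsU

open Crest.Agent.R4.HVW560 Crest.Agent.R4.HVWX793 Crest.Agent.R4.ClsS

/-- local values of the weight -/
noncomputable def a11 (p : ℕ) : ℝ := if 11 ≤ p then (1 - 1/(p:ℝ))⁻¹ else 1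

/-- completely multiplicative weight dominating `Af` up to a constant -/
noncomputable def A11 : ℕ →* ℝ := mkA a11

theorem a11_ge {p : ℕ} (h : 11 ≤ p) : a11 p = (1 - 1/(p:ℝ))⁻¹ ∧ 1 ≤ a11 p ∧ a11 p ≤ 11/10 ∧
    a11 p - 1 ≤ 2/(p:ℝ) := by
  have hp : (11:ℝ) ≤ p := by exact_mod_cast h
  have hp0 : (0:ℝ) < p := by linarith
  have h1 : 1/(p:ℝ) ≤ 1/11 := one_div_le_one_div_of_le (by norm_num) hp
  have h0 : 0 < 1/(p:ℝ) := by positivity
  have hd : 0 < 1 - 1/(p:ℝ) := by linarith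
  have e : a11 p = (1 - 1/(p:ℝ))⁻¹ := by unfold a11; rw [if_pos h]
  refine ⟨e, ?_, ?_, ?_⟩
  · rw [e]; exact (one_le_inv₀ hd).2 (by linarith)
  · rw [e, inv_le_comm₀ hd (by norm_num)]; linarith
  · rw [e, sub_le_iff_le_add, inv_le_iff_one_le_mul₀ hd]
    have : (1 - 1/(p:ℝ)) * (2/(p:ℝ) + 1) = 1 + 1/(p:ℝ) * (1 - 2/(p:ℝ)) := by ring
    rw [mul_comm] at this
    have h3 : 2/(p:ℝ) ≤ 1 := by rw [div_le_one hp0]; linarith
    have h4 : 0 ≤ 1/(p:ℝ) * (1 - 2/(p:ℝ)) := mul_nonneg h0.le (by linarith)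
    nlinarith

theorem a11_lt {p : ℕ} (h : ¬ 11 ≤ p) : a11 p = 1 := by unfold a11; rw [if_neg h]

theorem goodWt_A11 : GoodWt A11 (11/10) 1 := by
  refine ⟨?_, ?_, ?_, ?_⟩
  · intro p hp
    unfold A11; rw [mkA_prime _ hp]
    by_cases h : 11 ≤ p
    · exact (a11_ge h).2.1
    · rw [a11_lt h]
  · intro p hp
    unfold A11; rw [mkA_prime _ hp]
    by_cases h : 11 ≤ p
    · exact (a11_ge h).2.2.1
    · rw [a11_lt h]; norm_num
  · intro p hp
    unfold A11; rw [mkA_prime _ hp]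
    by_cases h : 11 ≤ p
    · refine (a11_ge h).2.2.1.trans ?_
      have hp11 : (11:ℝ) ≤ p := by exact_mod_cast h
      have h1 : (11/10:ℝ) ≤ (11:ℝ)^(1/16:ℝ) := by
        have h2 : ((11/10:ℝ)^(16:ℝ))^(1/16:ℝ) ≤ (11:ℝ)^(1/16:ℝ) := by
          apply Real.rpow_le_rpow (by positivity) _ (by norm_num)
          norm_num
        rwa [← Real.rpow_mul (by norm_num), show (16:ℝ)*(1/16) = 1 by norm_num, Real.rpow_one] at h2
      exact h1.trans (Real.rpow_le_rpow (by norm_num) hp11 (by norm_num))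
    · rw [a11_lt h]
      exact Real.one_le_rpow (by exact_mod_cast hp.one_le) (by norm_num)
  · intro P hP
    have h1 : ∀ p ∈ P, (A11 p - 1)/p ≤ if 10 < p then 2 * ((p:ℝ)^2)⁻¹ else 0 := by
      intro p hp
      have hp0 : (0:ℝ) < p := by exact_mod_cast (hP p hp).pos
      unfold A11; rw [mkA_prime _ (hP p hp)]
      by_cases h : 11 ≤ p
      · rw [if_pos (by omega)]
        have := (a11_ge h).2.2.2
        calc (a11 p - 1)/p ≤ (2/(p:ℝ))/p := div_le_div_of_nonneg_right this hp0.le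
          _ = 2 * ((p:ℝ)^2)⁻¹ := by field_simp
      · rw [if_neg (by omega), a11_lt h]; simp
    refine (Finset.sum_le_sum h1).trans ?_
    rw [← Finset.sum_filter, ← Finset.mul_sum]
    have h2 : ∑ p ∈ P.filter (fun p : ℕ => 10 < p), ((p:ℝ)^2)⁻¹ ≤ 2/((10:ℕ)+1) := by
      refine le_trans ?_ (sum_Ioo_inv_sq_le (α := ℝ) 10 (P.sup id + 1))
      apply Finset.sum_le_sum_of_subset_of_nonneg
      · intro p hp
        rw [mem_filter] at hp
        rw [mem_Ioo]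
        have h5 : p ≤ P.sup id := Finset.le_sup (f := id) hp.1
        exact ⟨hp.2, by omega⟩
      · intro p _ _; positivity
    have : (2:ℝ)/((10:ℕ)+1) ≤ 1/2 := by norm_num
    linarith

theorem Af_le {n : ℕ} (hn : 0 < n) : Af n ≤ 35/8 * A11 n := by
  classical
  -- split the primes of `n`
  set P := n.primeFactors with hP
  have hPp : ∀ p ∈ P, p.Prime := fun p hp => (Nat.mem_primeFactors.1 hp).1
  set P1 := P.filter (fun p => p < 11) with hP1
  set P2 := P.filter (fun p => ¬ p < 11) with hP2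
  have hsplit : Af n = (∏ p ∈ P1, (1 - 1/(p:ℝ))⁻¹) * ∏ p ∈ P2, (1 - 1/(p:ℝ))⁻¹ := by
    unfold Af
    rw [hP1, hP2, Finset.prod_filter_mul_prod_filter_not]
  have hsmall : ∏ p ∈ P1, (1 - 1/(p:ℝ))⁻¹ ≤ 35/8 := by
    have hsub : P1 ⊆ ({2, 3, 5, 7} : Finset ℕ) := by
      intro p hp
      rw [hP1, Finset.mem_filter] at hp
      have h1 := hPp p hp.1
      have h2 := hp.2
      clear hp
      revert h1
      clear_value P P1 P2
      interval_cases p <;> decide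
    calc ∏ p ∈ P1, (1 - 1/(p:ℝ))⁻¹ ≤ ∏ p ∈ ({2, 3, 5, 7} : Finset ℕ), (1 - 1/(p:ℝ))⁻¹ := by
          rw [← Finset.prod_sdiff hsub]
          have h0 : (0:ℝ) ≤ ∏ p ∈ P1, (1 - 1/(p:ℝ))⁻¹ := by
            apply Finset.prod_nonneg
            intro p hp
            have := one_sub_inv (hPp p (Finset.mem_filter.1 hp).1).two_le
            have h : (0:ℝ) < 1 - 1/(p:ℝ) := by linarith
            positivity
          apply le_mul_of_one_le_left h0
          refine Finset.prod_induction _ (fun x : ℝ => 1 ≤ x)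
            (fun a b ha hb => one_le_mul_of_one_le_of_one_le ha hb) le_rfl ?_
          intro p hp
          have hp2 : 2 ≤ p := by
            have := (Finset.mem_sdiff.1 hp).1
            simp only [Finset.mem_insert, Finset.mem_singleton] at this
            omega
          have := one_sub_inv hp2
          exact (one_le_inv₀ (by linarith)).2 this.2
      _ = 35/8 := by norm_num
  have hbig : ∏ p ∈ P2, (1 - 1/(p:ℝ))⁻¹ ≤ A11 n := by
    unfold A11
    rw [mkA_apply _ hn.ne', Finsupp.prod, Nat.support_factorization, ← hP,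
      ← Finset.prod_filter_mul_prod_filter_not P (fun p => p < 11)]
    have h1 : (1:ℝ) ≤ ∏ p ∈ P.filter (fun p => p < 11), a11 p ^ (n.factorization p) := by
      apply le_of_eq
      symm
      apply Finset.prod_eq_one
      intro p hp
      rw [Finset.mem_filter] at hp
      rw [a11_lt (by omega), one_pow]
    have h2 : ∏ p ∈ P2, (1 - 1/(p:ℝ))⁻¹ ≤ ∏ p ∈ P.filter (fun p => ¬ p < 11), a11 p ^ (n.factorization p) := by
      apply Finset.prod_le_prod
      · intro p hp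
        rw [hP2, Finset.mem_filter] at hp
        have := (a11_ge (p := p) (by omega))
        rw [← this.1]; linarith [this.2.1]
      · intro p hp
        rw [hP2, Finset.mem_filter] at hp
        have h3 := (a11_ge (p := p) (by omega))
        rw [← h3.1]
        have h4 : 1 ≤ n.factorization p := by
          have h5 := Nat.mem_primeFactors.1 hp.1
          exact h5.1.factorization_pos_of_dvd hn.ne' h5.2.1
        exact le_self_pow₀ h3.2.1 (by omega)
    have h0 : (0:ℝ) ≤ ∏ p ∈ P.filter (fun p => ¬ p < 11), a11 p ^ (n.factorization p) := by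
      apply Finset.prod_nonneg
      intro p hp
      rw [Finset.mem_filter] at hp
      have := (a11_ge (p := p) (by omega)).2.1
      positivity
    refine h2.trans ?_
    exact le_mul_of_one_le_left h0 h1
  have h0 : (0:ℝ) ≤ ∏ p ∈ P2, (1 - 1/(p:ℝ))⁻¹ := by
    apply Finset.prod_nonneg
    intro p hp
    rw [hP2, Finset.mem_filter] at hp
    have := (a11_ge (p := p) (by omega))
    rw [← this.1]; linarith [this.2.1]
  rw [hsplit]
  exact mul_le_mul hsmall hbig h0 (by norm_num)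

/-- two-threshold HVW with the weight `A(x) A(y)` -/
theorem hvw2_Af {ε : ℝ} (hε : 0 < ε) (hε4 : ε ≤ 1/4)
    {V W : Finset ℕ} {E : Finset (ℕ × ℕ)} {ψ θ : ℕ → ℝ} {δ₁ δ₂ : ℝ} (hs : Sys2 V W E ψ θ δ₁ δ₂) :
    ∑ e ∈ E, wt ψ e.1 * wt θ e.2 * (Af (cof e.1 e.2) * Af (cof e.2 e.1))
      ≤ 20 * KH (11/10) 1 ε * ((δ₁ * δ₂)^(1/2-ε) *
        ((∑ v ∈ V, wt ψ v) * (∑ w ∈ W, wt θ w))^(1/2+ε)) := by
  have key := hvw2 goodWt_A11 hε hε4 hs
  have h1 : ∑ e ∈ E, wt ψ e.1 * wt θ e.2 * (Af (cof e.1 e.2) * Af (cof e.2 e.1))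
      ≤ 20 * ∑ e ∈ E, wt ψ e.1 * wt θ e.2 * (A11 (cof e.1 e.2) * A11 (cof e.2 e.1)) := by
    rw [Finset.mul_sum]
    apply Finset.sum_le_sum
    intro e he
    have hm := Finset.mem_product.1 (hs.hE he)
    have w1 := wt_nonneg (hs.hψ _ hm.1)
    have w2 := wt_nonneg (hs.hθ _ hm.2)
    have c1 := cof_pos (w := e.2) (hs.hV _ hm.1)
    have c2 := cof_pos (w := e.1) (hs.hW _ hm.2)
    have a1 := Af_le c1
    have a2 := Af_le c2
    have p1 := Af_pos (cof e.1 e.2)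
    have p2 := Af_pos (cof e.2 e.1)
    have q1 := goodWt_A11.pos _ c1
    have q2 := goodWt_A11.pos _ c2
    have h2 : Af (cof e.1 e.2) * Af (cof e.2 e.1) ≤ 20 * (A11 (cof e.1 e.2) * A11 (cof e.2 e.1)) := by
      calc Af (cof e.1 e.2) * Af (cof e.2 e.1)
          ≤ (35/8 * A11 (cof e.1 e.2)) * (35/8 * A11 (cof e.2 e.1)) :=
            mul_le_mul a1 a2 p2.le (by linarith)
        _ = (1225/64) * (A11 (cof e.1 e.2) * A11 (cof e.2 e.1)) := by ring
        _ ≤ 20 * (A11 (cof e.1 e.2) * A11 (cof e.2 e.1)) := by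
            apply mul_le_mul_of_nonneg_right (by norm_num)
            nlinarith
    calc wt ψ e.1 * wt θ e.2 * (Af (cof e.1 e.2) * Af (cof e.2 e.1))
        ≤ wt ψ e.1 * wt θ e.2 * (20 * (A11 (cof e.1 e.2) * A11 (cof e.2 e.1))) :=
          mul_le_mul_of_nonneg_left h2 (mul_nonneg w1 w2)
      _ = _ := by ring
  refine h1.trans ?_
  calc 20 * ∑ e ∈ E, wt ψ e.1 * wt θ e.2 * (A11 (cof e.1 e.2) * A11 (cof e.2 e.1))
      ≤ 20 * (KH (11/10) 1 ε * ((δ₁ * δ₂)^(1/2-ε) *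
        ((∑ v ∈ V, wt ψ v) * (∑ w ∈ W, wt θ w))^(1/2+ε))) := by linarith
    _ = _ := by ring

/-- **class (U)**: unbalanced pairs at scale `t` -/
theorem classU : ∃ C : ℝ, 1 ≤ C ∧
    ∀ (t : ℝ) (V W : Finset ℕ) (E : Finset (ℕ × ℕ)) (ψ ψ' : ℕ → ℝ), 1 ≤ t →
    Sys V W E ψ ψ' (1/t) →
    (∀ e ∈ E, (cof e.1 e.2 : ℝ) * ψ' e.2 ≤ t^(-(51/50):ℝ) ∨ (cof e.2 e.1 : ℝ) * ψ e.1 ≤ t^(-(51/50):ℝ)) →
    ∑ e ∈ E, wt ψ e.1 * wt ψ' e.2 * (Af (cof e.1 e.2) * Af (cof e.2 e.1))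
      ≤ C * t^(-(1007/1000):ℝ) * ((∑ v ∈ V, wt ψ v) * (∑ w ∈ W, wt ψ' w))^(1/2+eps1) := by
  classical
  have hε : (0:ℝ) < eps1 := by unfold eps1; norm_num
  have hε4 : eps1 ≤ 1/4 := by unfold eps1; norm_num
  set K : ℝ := 20 * KH (11/10) 1 eps1 with hK
  have hK0 : 0 < K := by
    have := KH_pos (11/10) 1 eps1
    positivity
  refine ⟨max 1 (2*K), le_max_left _ _, ?_⟩
  intro t V W E ψ ψ' ht hs hU
  have ht0 : 0 < t := by linarith
  set f : ℕ × ℕ → ℝ := fun e => wt ψ e.1 * wt ψ' e.2 * (Af (cof e.1 e.2) * Af (cof e.2 e.1)) with hf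
  set M := (∑ v ∈ V, wt ψ v) * (∑ w ∈ W, wt ψ' w) with hM
  have hM0 : 0 ≤ M :=
    mul_nonneg (Finset.sum_nonneg fun v hv => wt_nonneg (hs.hψ v hv))
      (Finset.sum_nonneg fun v hv => wt_nonneg (hs.hθ v hv))
  set E1 := E.filter (fun e => (cof e.1 e.2 : ℝ) * ψ' e.2 ≤ t^(-(51/50):ℝ)) with hE1
  set E2 := E.filter (fun e => ¬ (cof e.1 e.2 : ℝ) * ψ' e.2 ≤ t^(-(51/50):ℝ)) with hE2
  have hsplit : ∑ e ∈ E, f e = ∑ e ∈ E1, f e + ∑ e ∈ E2, f e := by
    rw [hE1, hE2, Finset.sum_filter_add_sum_filter_not]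
  have hexp : (t^(-(51/50):ℝ) * (1/t))^(1/2-eps1) ≤ t^(-(1007/1000):ℝ) := by
    have e1 : t^(-(51/50):ℝ) * (1/t) = t^(-(101/50):ℝ) := by
      rw [one_div, ← Real.rpow_neg_one, ← Real.rpow_add ht0]; norm_num
    rw [e1, ← Real.rpow_mul ht0.le]
    apply Real.rpow_le_rpow_of_exponent_le ht
    unfold eps1; norm_num
  have hs1 : Sys2 V W E1 ψ ψ' (t^(-(51/50):ℝ)) (1/t) :=
    { hδ₁ := by positivity, hδ₂ := by positivity
      hV := hs.hV, hW := hs.hW, hψ := hs.hψ, hθ := hs.hθ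
      hE := (Finset.filter_subset _ _).trans hs.hE
      h1 := fun e he => (Finset.mem_filter.1 he).2
      h2 := fun e he => hs.h2 e (Finset.mem_filter.1 he).1 }
  have hs2 : Sys2 V W E2 ψ ψ' (1/t) (t^(-(51/50):ℝ)) :=
    { hδ₁ := by positivity, hδ₂ := by positivity
      hV := hs.hV, hW := hs.hW, hψ := hs.hψ, hθ := hs.hθ
      hE := (Finset.filter_subset _ _).trans hs.hE
      h1 := fun e he => hs.h1 e (Finset.mem_filter.1 he).1
      h2 := fun e he => (hU e (Finset.mem_filter.1 he).1).resolve_left (Finset.mem_filter.1 he).2 }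
  have b1 := hvw2_Af hε hε4 hs1
  have b2 := hvw2_Af hε hε4 hs2
  rw [← hK, ← hM] at b1 b2
  rw [mul_comm (1/t)] at b2
  have hMs : 0 ≤ M^(1/2+eps1) := by positivity
  have b3 : K * ((t^(-(51/50):ℝ) * (1/t))^(1/2-eps1) * M^(1/2+eps1)) ≤
      K * (t^(-(1007/1000):ℝ) * M^(1/2+eps1)) := by
    apply mul_le_mul_of_nonneg_left _ hK0.le
    exact mul_le_mul_of_nonneg_right hexp hMs
  rw [hsplit]
  calc ∑ e ∈ E1, f e + ∑ e ∈ E2, f e
      ≤ K * (t^(-(1007/1000):ℝ) * M^(1/2+eps1)) + K * (t^(-(1007/1000):ℝ) * M^(1/2+eps1)) :=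
        add_le_add (b1.trans b3) (b2.trans b3)
    _ = 2*K * (t^(-(1007/1000):ℝ) * M^(1/2+eps1)) := by ring
    _ ≤ max 1 (2*K) * (t^(-(1007/1000):ℝ) * M^(1/2+eps1)) :=
        mul_le_mul_of_nonneg_right (le_max_right _ _) (by positivity)
    _ = _ := by ring

end Crest.Agent.R4.ClsU
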