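import Mathlib
import Crest.Agent.R4.Ovl560F
import Crest.Agent.R001.FL.Prog

/-!
R4 (S0004), helper560: sieve in a short window with excluded classes and coincidence factor.
-/

set_option autoImplicit false
open Finset

namespace Crest.Agent.R4.Ovl560

open Crest.Agent.Lib.Mertens

lemma win_subset {c L D : ℝ} (hD : 0 ≤ D) (hL : L ≤ 2 * D) :
    win c L ⊆ Ioc ⌊c - L⌋ (⌊c - L⌋ + (⌈4 * D⌉₊ + 1 : ℕ)) := by
  intro n hn
  rw [mem_win, abs_lt] at hn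
  rw [mem_Ioc]
  have h1 := Int.floor_le (c - L)
  have h2 := Int.lt_floor_add_one (c - L)
  have h3 : 4 * D ≤ (⌈4 * D⌉₊ : ℝ) := Nat.le_ceil _
  constructor
  · have : ((⌊c - L⌋ : ℤ) : ℝ) < n := by linarith [hn.1]
    exact_mod_cast this
  · have : (n : ℝ) ≤ ((⌊c - L⌋ + (⌈4 * D⌉₊ + 1 : ℕ) : ℤ) : ℝ) := by
      push_cast
      linarith [hn.2]
    exact_mod_cast this

lemma ceil_le {D : ℝ} (hD : 1 ≤ D) : (((⌈4 * D⌉₊ + 1 : ℕ)) : ℝ) ≤ 6 * D := by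
  have := Nat.ceil_lt_add_one (show 0 ≤ 4 * D by linarith)
  push_cast
  linarith

lemma card_win_le {c L D : ℝ} (hD : 1 ≤ D) (hL : L ≤ 2 * D) : ((win c L).card : ℝ) ≤ 6 * D := by
  have h1 := Finset.card_le_card (win_subset (c := c) (zero_le_one.trans hD) hL)
  rw [Int.card_Ioc] at h1
  have h2 : ((win c L).card : ℝ) ≤ ((⌈4 * D⌉₊ + 1 : ℕ) : ℝ) := by
    have : (⌊c - L⌋ + (⌈4 * D⌉₊ + 1 : ℕ) - ⌊c - L⌋).toNat = ⌈4 * D⌉₊ + 1 := by omega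
    rw [this] at h1
    exact_mod_cast h1
  exact h2.trans (ceil_le hD)

open Classical in
lemma exists_sieve_prog : ∃ s : ℕ, ∀ z : ℝ, 2 ≤ z → ∀ T : Finset ℕ,
    (∀ p ∈ T, p.Prime ∧ (p : ℝ) ≤ z) → ∀ m : ℕ, 0 < m → (∀ p ∈ T, ¬ p ∣ m) →
    ∀ D : ℝ, 1 ≤ D → z ^ s ≤ D / m → ∀ c L : ℝ, L ≤ 2 * D → ∀ (a : ℤ) (e : ℕ → ℤ),
    (((win c L).filter fun n => n ≡ a [ZMOD (m : ℤ)] ∧
      ∀ p ∈ T, ¬ n ≡ e p [ZMOD (p : ℤ)]).card : ℝ) ≤ 12 * (D / m) * dens T := by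
  obtain ⟨s, hs⟩ := Crest.Agent.R001.FL.prog_classes 1 one_pos
  refine ⟨s, fun z hz T hT m hm hTm D hD hzs c L hL a e => ?_⟩
  have hm0 : (0 : ℝ) < m := by exact_mod_cast hm
  set H : ℕ := ⌈4 * D⌉₊ + 1 with hH
  have h4 : 4 * D ≤ (⌈4 * D⌉₊ : ℝ) := Nat.le_ceil _
  have hHD : D ≤ (H : ℝ) := by rw [hH]; push_cast; linarith
  have hHD' : (H : ℝ) ≤ 6 * D := ceil_le hD
  have h1 := hs z hz T hT m hm hTm ⌊c - L⌋ H
    (hzs.trans (div_le_div_of_nonneg_right hHD hm0.le)) a e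
  have h2 := (abs_le.1 h1).2
  have h3 : (((win c L).filter fun n => n ≡ a [ZMOD (m : ℤ)] ∧
      ∀ p ∈ T, ¬ n ≡ e p [ZMOD (p : ℤ)]).card : ℝ) ≤
      (((Ioc ⌊c - L⌋ (⌊c - L⌋ + H)).filter fun n => n ≡ a [ZMOD (m : ℤ)] ∧
      ∀ p ∈ T, ¬ n ≡ e p [ZMOD (p : ℤ)]).card : ℝ) := by
    exact_mod_cast Finset.card_le_card
      (Finset.filter_subset_filter _ (win_subset (zero_le_one.trans hD) hL))
  have hdT : 0 < dens T := dens_pos fun p hp => (hT p hp).1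
  have h5 : (H : ℝ) / m * ∏ p ∈ T, (1 - 1 / (p : ℝ)) ≤ 6 * D / m * dens T :=
    mul_le_mul_of_nonneg_right (div_le_div_of_nonneg_right hHD' hm0.le) hdT.le
  have h6 : 12 * (D / m) * dens T = 2 * (6 * D / m * dens T) := by ring
  rw [h6]
  linarith

lemma card_win_modEq {c L D : ℝ} (hD : 1 ≤ D) (hL : L ≤ 2 * D) {m : ℕ} (hm : 0 < m)
    (hmD : (m : ℝ) ≤ D) (a : ℤ) :
    (((win c L).filter fun n => n ≡ a [ZMOD (m : ℤ)]).card : ℝ) ≤ 7 * (D / m) := by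
  classical
  have hm0 : (0 : ℝ) < m := by exact_mod_cast hm
  set H : ℕ := ⌈4 * D⌉₊ + 1 with hH
  have h1 := Crest.Agent.R001.FL.card_modEq ⌊c - L⌋ H m hm a
  have h2 := (abs_le.1 h1).2
  have h3 : (((win c L).filter fun n => n ≡ a [ZMOD (m : ℤ)]).card : ℝ) ≤
      (((Ioc ⌊c - L⌋ (⌊c - L⌋ + H)).filter fun n => n ≡ a [ZMOD (m : ℤ)]).card : ℝ) := by
    exact_mod_cast Finset.card_le_card
      (Finset.filter_subset_filter _ (win_subset (zero_le_one.trans hD) hL))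
  have hHD' : (H : ℝ) ≤ 6 * D := ceil_le hD
  have h4 : (H : ℝ) / m ≤ 6 * D / m := div_le_div_of_nonneg_right hHD' hm0.le
  have h5 : 1 ≤ D / m := (one_le_div hm0).2 hmD
  have h6 : 6 * D / m = 6 * (D / m) := by ring
  rw [h6] at h4
  linarith

end Crest.Agent.R4.Ovl560
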