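import Mathlib
import Crest.Agent.R4.Ovl560G

/-!
R4 (S0004), helper560: sieve in a short window with excluded classes and coincidence factor.
-/

set_option autoImplicit false
open Finset

namespace Crest.Agent.R4.Ovl560

open Crest.Agent.Lib.Mertens

lemma exists_sum_pw (s : ℝ) (hs : 1 < s) : ∃ K : ℝ, 0 < K ∧ ∀ B : Finset ℕ,
    ∑ p ∈ B, (p : ℝ) ^ (-s) ≤ K := by
  have h1 : Summable fun n : ℕ => (n : ℝ) ^ (-s) := Real.summable_nat_rpow.2 (by linarith)
  refine ⟨∑' n : ℕ, (n : ℝ) ^ (-s) + 1, ?_, fun B => ?_⟩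
  · have : 0 ≤ ∑' n : ℕ, (n : ℝ) ^ (-s) := tsum_nonneg fun n => Real.rpow_nonneg (Nat.cast_nonneg n) _
    linarith
  · have := h1.sum_le_tsum B fun n _ => Real.rpow_nonneg (Nat.cast_nonneg n) _
    linarith

lemma log_le_rpow {D : ℝ} (hD : 1 ≤ D) : Real.log D ≤ 4 * D ^ (1 / 4 : ℝ) := by
  have h := Real.log_le_rpow_div (show 0 ≤ D by linarith) (show (0 : ℝ) < 1 / 4 by norm_num)
  have : D ^ (1 / 4 : ℝ) / (1 / 4) = 4 * D ^ (1 / 4 : ℝ) := by ring
  linarith

open Classical in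
/-- **Sieve with coincidences, linear form** -/
theorem exists_sieve_lin : ∃ C : ℝ, 0 < C ∧ ∀ (D : ℝ), 1 ≤ D → ∀ (c L : ℝ), L ≤ 2 * D →
    ∀ (T : Finset ℕ) (e : ℕ → ℤ) (B : Finset ℕ) (f : ℕ → ℤ), (∀ p ∈ T, p.Prime) →
    (∀ p ∈ B, p.Prime) → Disjoint T B →
    ∑ n ∈ (win c L).filter (fun n => ∀ p ∈ T, ¬ n ≡ e p [ZMOD (p : ℤ)]),
      (1 + ∑ p ∈ B.filter (fun p : ℕ => (p : ℝ) ≤ D ∧ n ≡ f p [ZMOD (p : ℤ)]), pw p) ≤
      C * D * dens (T.filter fun p : ℕ => (p : ℝ) ≤ D) := by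
  obtain ⟨s, hs⟩ := exists_sieve_prog
  obtain ⟨K1, hK1, hsum1⟩ := exists_sum_pw (7 / 4) (by norm_num)
  obtain ⟨K2, hK2, hsum2⟩ := exists_sum_pw (5 / 4) (by norm_num)
  set E : ℕ := 4 * (s + 1) with hE
  have hE0 : (0 : ℝ) < E := by rw [hE]; push_cast; positivity
  set D0 : ℝ := 2 ^ E with hD0
  have hD02 : 2 ≤ D0 := by
    rw [hD0]
    calc (2 : ℝ) = 2 ^ 1 := by norm_num
      _ ≤ 2 ^ E := pow_le_pow_right₀ (by norm_num) (by omega)
  have hCM := CM_pos
  have hl0 : 0 < Real.log D0 := Real.log_pos (by linarith)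
  have hl2 : 0 < Real.log 2 := Real.log_pos (by norm_num)
  set G : ℝ := Real.exp (22 / Real.log 2) * E with hG
  have hG0 : 0 < G := by positivity
  refine ⟨6 * (2 + D0) * (CM * Real.log D0) + (12 + 12 * K1) * G + 28 * K2 * CM,
    by positivity, fun D hD c L hL T e B f hT hB hTB => ?_⟩
  have hDpos : 0 < D := by linarith
  set TD := T.filter fun p : ℕ => (p : ℝ) ≤ D with hTD
  have hTDp : ∀ p ∈ TD, p.Prime := fun p hp => hT p (mem_filter.1 hp).1
  have hdTD : 0 < dens TD := dens_pos hTDp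
  have hcoin : ∀ n : ℤ, ∀ p ∈ B.filter (fun p : ℕ => (p : ℝ) ≤ D ∧ n ≡ f p [ZMOD (p : ℤ)]), p.Prime :=
    fun n p hp => hB p (mem_filter.1 hp).1
  rcases lt_or_ge D D0 with hsmall | hbig
  · -- small `D`
    have h1 : ∀ n : ℤ, 1 + ∑ p ∈ B.filter (fun p : ℕ => (p : ℝ) ≤ D ∧ n ≡ f p [ZMOD (p : ℤ)]), pw p ≤
        2 + D0 := by
      intro n
      have h2 : B.filter (fun p : ℕ => (p : ℝ) ≤ D ∧ n ≡ f p [ZMOD (p : ℤ)]) ⊆
          range (⌊D0⌋₊ + 1) := by
        intro p hp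
        have h3 := (mem_filter.1 hp).2.1
        rw [mem_range]
        have : p ≤ ⌊D0⌋₊ := Nat.le_floor (h3.trans hsmall.le)
        omega
      have h4 : ∑ p ∈ B.filter (fun p : ℕ => (p : ℝ) ≤ D ∧ n ≡ f p [ZMOD (p : ℤ)]), pw p ≤
          ∑ p ∈ B.filter (fun p : ℕ => (p : ℝ) ≤ D ∧ n ≡ f p [ZMOD (p : ℤ)]), (1 : ℝ) := by
        refine Finset.sum_le_sum fun p hp => ?_
        have h5 : (1 : ℝ) ≤ p := by exact_mod_cast (hB p (mem_filter.1 hp).1).one_lt.le
        exact Real.rpow_le_one_of_one_le_of_nonpos h5 (by norm_num)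
      have h6 : ((B.filter (fun p : ℕ => (p : ℝ) ≤ D ∧ n ≡ f p [ZMOD (p : ℤ)])).card : ℝ) ≤
          D0 + 1 := by
        have h7 := Finset.card_le_card h2
        rw [card_range] at h7
        have h8 : (⌊D0⌋₊ : ℝ) ≤ D0 := Nat.floor_le (by linarith)
        have h9 : ((B.filter (fun p : ℕ => (p : ℝ) ≤ D ∧ n ≡ f p [ZMOD (p : ℤ)])).card : ℝ) ≤
            ((⌊D0⌋₊ + 1 : ℕ) : ℝ) := by exact_mod_cast h7
        push_cast at h9
        linarith
      rw [sum_const, nsmul_eq_mul, mul_one] at h4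
      linarith
    have h2 : (dens TD)⁻¹ ≤ CM * Real.log D0 :=
      dens_inv_le hD02 hTDp fun p hp => ((mem_filter.1 hp).2).trans hsmall.le
    have h3 : 1 ≤ CM * Real.log D0 * dens TD := by
      rw [inv_le_iff_one_le_mul₀ hdTD] at h2
      exact h2
    have h4 : (0 : ℝ) < CM * Real.log D0 := by positivity
    calc ∑ n ∈ (win c L).filter (fun n => ∀ p ∈ T, ¬ n ≡ e p [ZMOD (p : ℤ)]),
          (1 + ∑ p ∈ B.filter (fun p : ℕ => (p : ℝ) ≤ D ∧ n ≡ f p [ZMOD (p : ℤ)]), pw p)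
        ≤ ∑ n ∈ (win c L).filter (fun n => ∀ p ∈ T, ¬ n ≡ e p [ZMOD (p : ℤ)]), (2 + D0) :=
          Finset.sum_le_sum fun n _ => h1 n
      _ = (((win c L).filter (fun n => ∀ p ∈ T, ¬ n ≡ e p [ZMOD (p : ℤ)])).card : ℝ) *
            (2 + D0) := by rw [sum_const, nsmul_eq_mul]
      _ ≤ (6 * D) * (2 + D0) := by
          refine mul_le_mul_of_nonneg_right ?_ (by linarith)
          refine le_trans ?_ (card_win_le (c := c) hD hL)
          exact_mod_cast Finset.card_filter_le _ _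
      _ ≤ (6 * D) * (2 + D0) * (CM * Real.log D0 * dens TD) :=
          le_mul_of_one_le_right (by positivity) h3
      _ = 6 * (2 + D0) * (CM * Real.log D0) * D * dens TD := by ring
      _ ≤ _ := by
          have : 0 ≤ ((12 + 12 * K1) * G + 28 * K2 * CM) * (D * dens TD) := by positivity
          nlinarith
  · -- large `D`
    set z : ℝ := D ^ (1 / (E : ℝ)) with hz
    have hzE : z ^ E = D := by
      rw [hz, ← Real.rpow_natCast, ← Real.rpow_mul hDpos.le]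
      rw [one_div, inv_mul_cancel₀ hE0.ne', Real.rpow_one]
    have hz2 : 2 ≤ z := by
      by_contra h
      have hz0 : 0 ≤ z := Real.rpow_nonneg hDpos.le _
      have := pow_lt_pow_left₀ (not_le.1 h) hz0 (show E ≠ 0 by omega)
      rw [hzE] at this
      linarith
    have hz1 : 1 ≤ z := by linarith
    set Q4 : ℝ := D ^ (1 / 4 : ℝ) with hQ4
    have hQ4pos : 0 < Q4 := Real.rpow_pos_of_pos hDpos _
    have hQ44 : Q4 ^ 4 = D := by
      rw [hQ4, ← Real.rpow_natCast, ← Real.rpow_mul hDpos.le]; norm_num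
    have hQ41 : 1 ≤ Q4 := Real.one_le_rpow hD (by norm_num)
    have hzs : z ^ s ≤ Q4 := by
      have h1 : (z ^ (s + 1)) ^ 4 = Q4 ^ 4 := by
        rw [hQ44, ← hzE, hE, ← pow_mul]; ring_nf
      have h2 : z ^ (s + 1) = Q4 :=
        (pow_left_inj₀ (by positivity) hQ4pos.le (by norm_num)).1 h1
      rw [← h2]
      exact pow_le_pow_right₀ hz1 (by omega)
    have hzD : z ≤ D := by
      rw [← hzE]
      exact le_self_pow₀ hz1 (by omega)
    set Tz := T.filter fun p : ℕ => (p : ℝ) ≤ z with hTz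
    have hTzp : ∀ p ∈ Tz, p.Prime ∧ (p : ℝ) ≤ z := fun p hp =>
      ⟨hT p (mem_filter.1 hp).1, (mem_filter.1 hp).2⟩
    have hdTz : 0 < dens Tz := dens_pos fun p hp => (hTzp p hp).1
    -- `dens Tz ≤ G * dens TD`
    have hdd : dens Tz ≤ G * dens TD := by
      set T2 := TD.filter (fun p : ℕ => ¬ (p : ℝ) ≤ z) with hT2
      have hT2p : ∀ p ∈ T2, p.Prime := fun p hp => hTDp p (mem_filter.1 hp).1
      have h1 : dens TD = dens Tz * dens T2 := by
        unfold dens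
        have : Tz = TD.filter (fun p : ℕ => (p : ℝ) ≤ z) := by
          rw [hTz, hTD, filter_filter]
          refine filter_congr fun p _ => ⟨fun h => ⟨h.trans hzD, h⟩, fun h => h.2⟩
        rw [this, hT2, prod_filter_mul_prod_filter_not]
      have h2 := dens_inv_le_of_range hz2 hzD hT2p
        (fun p hp => not_le.1 (mem_filter.1 hp).2)
        (fun p hp => (mem_filter.1 (mem_filter.1 hp).1).2)
      have hlz : 0 < Real.log z := Real.log_pos (by linarith)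
      have h3 : Real.log D = E * Real.log z := by rw [← hzE, Real.log_pow]
      have h4 : Real.log D / Real.log z = E := by rw [h3]; field_simp
      rw [h4] at h2
      have h5 : Real.exp (22 / Real.log z) ≤ Real.exp (22 / Real.log 2) := by
        refine Real.exp_le_exp.2 ?_
        exact div_le_div_of_nonneg_left (by norm_num) hl2 (Real.log_le_log (by norm_num) hz2)
      have h6 : (dens T2)⁻¹ ≤ G := h2.trans (mul_le_mul_of_nonneg_right h5 hE0.le)
      have h7 := dens_pos hT2p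
      rw [h1]
      rw [inv_le_iff_one_le_mul₀ h7] at h6
      nlinarith
    -- replace the sifting set by `Tz`
    set W := (win c L).filter (fun n => ∀ p ∈ Tz, ¬ n ≡ e p [ZMOD (p : ℤ)]) with hW
    have hWsub : (win c L).filter (fun n => ∀ p ∈ T, ¬ n ≡ e p [ZMOD (p : ℤ)]) ⊆ W := by
      intro n hn
      rw [mem_filter] at hn
      rw [hW, mem_filter]
      exact ⟨hn.1, fun p hp => hn.2 p (mem_filter.1 hp).1⟩
    set BD := B.filter (fun p : ℕ => (p : ℝ) ≤ D) with hBD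
    have hcoin2 : ∀ n : ℤ, B.filter (fun p : ℕ => (p : ℝ) ≤ D ∧ n ≡ f p [ZMOD (p : ℤ)]) =
        BD.filter (fun p : ℕ => n ≡ f p [ZMOD (p : ℤ)]) := fun n => by rw [hBD, filter_filter]
    have hN0 : ((W.card : ℕ) : ℝ) ≤ 12 * D * dens Tz := by
      have h1 := hs z hz2 Tz hTzp 1 one_pos
        (fun p hp h => (hTzp p hp).1.one_lt.ne' (Nat.dvd_one.1 h)) D hD
        (by
          rw [Nat.cast_one, div_one]
          calc z ^ s ≤ Q4 := hzs
            _ ≤ Q4 ^ 4 := le_self_pow₀ hQ41 (by norm_num)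
            _ = D := hQ44) c L hL 0 e
      have h2 : (win c L).filter (fun n => n ≡ 0 [ZMOD ((1 : ℕ) : ℤ)] ∧
          ∀ p ∈ Tz, ¬ n ≡ e p [ZMOD (p : ℤ)]) = W := by
        rw [hW]
        refine filter_congr fun n _ => ⟨fun h => h.2, fun h => ⟨?_, h⟩⟩
        rw [Nat.cast_one]
        exact Int.modEq_one
      rw [h2, Nat.cast_one, div_one] at h1
      linarith
    have hNp : ∀ p ∈ BD, pw p * (((W.filter fun n => n ≡ f p [ZMOD (p : ℤ)]).card : ℕ) : ℝ) ≤
        12 * D * dens Tz * (p : ℝ) ^ (-(7 / 4) : ℝ) + 7 * D * Q4⁻¹ * (p : ℝ) ^ (-(5 / 4) : ℝ) := by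
      intro p hp
      have hpB := (mem_filter.1 hp).1
      have hpD := (mem_filter.1 hp).2
      have hpp := hB p hpB
      have hp0 : (0 : ℝ) < p := by exact_mod_cast hpp.pos
      have e1 : pw p / p = (p : ℝ) ^ (-(7 / 4) : ℝ) := by
        unfold pw
        rw [div_eq_mul_inv, ← Real.rpow_neg_one, ← Real.rpow_add hp0]
        norm_num
      have hr1 : 0 ≤ (p : ℝ) ^ (-(7 / 4) : ℝ) := Real.rpow_nonneg hp0.le _
      have hr2 : 0 ≤ (p : ℝ) ^ (-(5 / 4) : ℝ) := Real.rpow_nonneg hp0.le _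
      rcases le_total (p : ℝ) (Q4 ^ 2) with hle | hge
      · have h1 := hs z hz2 Tz hTzp p hpp.pos
          (fun q hq h => by
            have h2 : q = p := (Nat.prime_dvd_prime_iff_eq (hTzp q hq).1 hpp).1 h
            exact (Finset.disjoint_left.1 hTB (mem_filter.1 hq).1) (h2 ▸ hpB)) D hD
          (by
            calc z ^ s ≤ Q4 := hzs
              _ ≤ Q4 ^ 2 := le_self_pow₀ hQ41 (by norm_num)
              _ ≤ D / p := by
                  rw [le_div_iff₀ hp0, ← hQ44]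
                  nlinarith [sq_nonneg Q4, hQ4pos]) c L hL (f p) e
        have h2 : (win c L).filter (fun n => n ≡ f p [ZMOD (p : ℤ)] ∧
            ∀ p ∈ Tz, ¬ n ≡ e p [ZMOD (p : ℤ)]) = W.filter fun n => n ≡ f p [ZMOD (p : ℤ)] := by
          rw [hW, filter_filter]
          exact filter_congr fun n _ => and_comm
        rw [h2] at h1
        calc pw p * (((W.filter fun n => n ≡ f p [ZMOD (p : ℤ)]).card : ℕ) : ℝ)
            ≤ pw p * (12 * (D / p) * dens Tz) := mul_le_mul_of_nonneg_left h1 (pw_nonneg p)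
          _ = 12 * D * dens Tz * (pw p / p) := by field_simp
          _ = 12 * D * dens Tz * (p : ℝ) ^ (-(7 / 4) : ℝ) := by rw [e1]
          _ ≤ _ := by
              have : 0 ≤ 7 * D * Q4⁻¹ * (p : ℝ) ^ (-(5 / 4) : ℝ) := by positivity
              linarith
      · have h1 : (((W.filter fun n => n ≡ f p [ZMOD (p : ℤ)]).card : ℕ) : ℝ) ≤ 7 * (D / p) := by
          refine le_trans ?_ (card_win_modEq (c := c) hD hL hpp.pos hpD (f p))
          exact_mod_cast Finset.card_le_card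
            (Finset.filter_subset_filter _ (filter_subset _ _))
        have h2 : (p : ℝ) ^ (-(1 / 2) : ℝ) ≤ Q4⁻¹ := by
          calc (p : ℝ) ^ (-(1 / 2) : ℝ) ≤ (Q4 ^ 2) ^ (-(1 / 2) : ℝ) :=
                Real.rpow_le_rpow_of_nonpos (by positivity) hge (by norm_num)
            _ = Q4⁻¹ := by
                rw [← Real.rpow_natCast, ← Real.rpow_mul hQ4pos.le]
                norm_num
                rw [Real.rpow_neg_one]
        have e2 : (p : ℝ) ^ (-(7 / 4) : ℝ) = (p : ℝ) ^ (-(1 / 2) : ℝ) * (p : ℝ) ^ (-(5 / 4) : ℝ) := by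
          rw [← Real.rpow_add hp0]; norm_num
        calc pw p * (((W.filter fun n => n ≡ f p [ZMOD (p : ℤ)]).card : ℕ) : ℝ)
            ≤ pw p * (7 * (D / p)) := mul_le_mul_of_nonneg_left h1 (pw_nonneg p)
          _ = 7 * D * (pw p / p) := by field_simp
          _ = 7 * D * ((p : ℝ) ^ (-(1 / 2) : ℝ) * (p : ℝ) ^ (-(5 / 4) : ℝ)) := by rw [e1, e2]
          _ ≤ 7 * D * (Q4⁻¹ * (p : ℝ) ^ (-(5 / 4) : ℝ)) := by gcongr
          _ = 7 * D * Q4⁻¹ * (p : ℝ) ^ (-(5 / 4) : ℝ) := by ring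
          _ ≤ _ := by
              have : 0 ≤ 12 * D * dens Tz * (p : ℝ) ^ (-(7 / 4) : ℝ) := by positivity
              linarith
    have hQdens : Q4⁻¹ ≤ 4 * CM * dens TD := by
      have h1 : (dens TD)⁻¹ ≤ CM * Real.log D :=
        dens_inv_le (hD02.trans hbig) hTDp fun p hp => (mem_filter.1 hp).2
      have h2 : (dens TD)⁻¹ ≤ CM * (4 * Q4) := h1.trans (by
        have := log_le_rpow hD
        gcongr)
      rw [inv_le_iff_one_le_mul₀ hdTD] at h2
      rw [inv_le_iff_one_le_mul₀ hQ4pos]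
      linarith
    calc ∑ n ∈ (win c L).filter (fun n => ∀ p ∈ T, ¬ n ≡ e p [ZMOD (p : ℤ)]),
          (1 + ∑ p ∈ B.filter (fun p : ℕ => (p : ℝ) ≤ D ∧ n ≡ f p [ZMOD (p : ℤ)]), pw p)
        ≤ ∑ n ∈ W, (1 + ∑ p ∈ B.filter (fun p : ℕ => (p : ℝ) ≤ D ∧ n ≡ f p [ZMOD (p : ℤ)]), pw p) :=
          Finset.sum_le_sum_of_subset_of_nonneg hWsub fun n _ _ =>
            add_nonneg zero_le_one (Finset.sum_nonneg fun p _ => pw_nonneg p)
      _ = W.card + ∑ p ∈ BD, pw p *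
            (((W.filter fun n => n ≡ f p [ZMOD (p : ℤ)]).card : ℕ) : ℝ) := by
          rw [Finset.sum_add_distrib]
          congr 1
          · simp
          · rw [Finset.sum_congr rfl fun n _ => by rw [hcoin2 n]]
            simp_rw [Finset.sum_filter]
            rw [Finset.sum_comm]
            refine Finset.sum_congr rfl fun p _ => ?_
            rw [← Finset.sum_filter, sum_const, nsmul_eq_mul, mul_comm]
      _ ≤ 12 * D * dens Tz + ∑ p ∈ BD, (12 * D * dens Tz * (p : ℝ) ^ (-(7 / 4) : ℝ) +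
            7 * D * Q4⁻¹ * (p : ℝ) ^ (-(5 / 4) : ℝ)) :=
          add_le_add hN0 (Finset.sum_le_sum hNp)
      _ = 12 * D * dens Tz + (12 * D * dens Tz * ∑ p ∈ BD, (p : ℝ) ^ (-(7 / 4) : ℝ) +
            7 * D * Q4⁻¹ * ∑ p ∈ BD, (p : ℝ) ^ (-(5 / 4) : ℝ)) := by
          rw [Finset.sum_add_distrib, ← Finset.mul_sum, ← Finset.mul_sum]
      _ ≤ 12 * D * dens Tz + (12 * D * dens Tz * K1 + 7 * D * Q4⁻¹ * K2) := by
          have g1 := hsum1 BD
          have g2 := hsum2 BD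
          gcongr
      _ ≤ 12 * D * (G * dens TD) + (12 * D * (G * dens TD) * K1 +
            7 * D * (4 * CM * dens TD) * K2) := by gcongr
      _ = ((12 + 12 * K1) * G + 28 * K2 * CM) * D * dens TD := by ring
      _ ≤ _ := by
          have : 0 ≤ 6 * (2 + D0) * (CM * Real.log D0) * (D * dens TD) := by positivity
          nlinarith

open Classical in
/-- **Sieve with coincidences** -/
theorem exists_sieve : ∃ C : ℝ, 0 < C ∧ ∀ (D : ℝ), 1 ≤ D → ∀ (c L : ℝ), L ≤ 2 * D →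
    ∀ (T : Finset ℕ) (e : ℕ → ℤ) (B : Finset ℕ) (f : ℕ → ℤ), (∀ p ∈ T, p.Prime) →
    (∀ p ∈ B, p.Prime) → Disjoint T B →
    ∑ n ∈ (win c L).filter (fun n => ∀ p ∈ T, ¬ n ≡ e p [ZMOD (p : ℤ)]),
      (dens (B.filter fun p : ℕ => (p : ℝ) ≤ D ∧ n ≡ f p [ZMOD (p : ℤ)]))⁻¹ ≤
      C * D * dens (T.filter fun p : ℕ => (p : ℝ) ≤ D) := by
  obtain ⟨C, hC, h⟩ := exists_sieve_lin
  obtain ⟨C1, hC1, hlin⟩ := exists_lin
  refine ⟨(1 + C1) * C, by positivity, fun D hD c L hL T e B f hT hB hTB => ?_⟩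
  have h1 := h D hD c L hL T e B f hT hB hTB
  calc ∑ n ∈ (win c L).filter (fun n => ∀ p ∈ T, ¬ n ≡ e p [ZMOD (p : ℤ)]),
      (dens (B.filter fun p : ℕ => (p : ℝ) ≤ D ∧ n ≡ f p [ZMOD (p : ℤ)]))⁻¹
      ≤ ∑ n ∈ (win c L).filter (fun n => ∀ p ∈ T, ¬ n ≡ e p [ZMOD (p : ℤ)]),
        (1 + C1) * (1 + ∑ p ∈ B.filter (fun p : ℕ => (p : ℝ) ≤ D ∧ n ≡ f p [ZMOD (p : ℤ)]), pw p) := by
        refine Finset.sum_le_sum fun n _ => ?_
        have h2 := hlin (B.filter fun p : ℕ => (p : ℝ) ≤ D ∧ n ≡ f p [ZMOD (p : ℤ)])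
          fun p hp => hB p (mem_filter.1 hp).1
        have h3 : 0 ≤ ∑ p ∈ B.filter (fun p : ℕ => (p : ℝ) ≤ D ∧ n ≡ f p [ZMOD (p : ℤ)]), pw p :=
          Finset.sum_nonneg fun p _ => pw_nonneg p
        nlinarith
    _ = (1 + C1) * ∑ n ∈ (win c L).filter (fun n => ∀ p ∈ T, ¬ n ≡ e p [ZMOD (p : ℤ)]),
        (1 + ∑ p ∈ B.filter (fun p : ℕ => (p : ℝ) ≤ D ∧ n ≡ f p [ZMOD (p : ℤ)]), pw p) := by
        rw [Finset.mul_sum]
    _ ≤ (1 + C1) * (C * D * dens (T.filter fun p : ℕ => (p : ℝ) ≤ D)) :=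
        mul_le_mul_of_nonneg_left h1 (by positivity)
    _ = _ := by ring

end Crest.Agent.R4.Ovl560
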