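import Mathlib
import Crest.Agent.R4.Ovl560H

/-!
R4 (S0004), helper560: overlap of two arcs with excluded classes, `D ≥ 1` (O2) and `D < 1` (O3).
-/

set_option autoImplicit false
open Finset MeasureTheory

namespace Crest.Agent.R4.Ovl560

/-- unshared primes carrying an excluded class -/
noncomputable def uns (P Q : Finset ℕ) (x y : ℕ) : Finset ℕ :=
  (P.filter fun p => p ∣ x) ∪ (Q.filter fun p => p ∣ y)

/-- the shared primes carrying two excluded classes -/
noncomputable def shr (P Q : Finset ℕ) (x y : ℕ) : Finset ℕ :=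
  (P ∩ Q).filter fun p => ¬ p ∣ x ∧ ¬ p ∣ y

section

variable {P Q : Finset ℕ} {c c' : ℕ → ℤ} {x y : ℕ}

lemma uns_prime (hP : ∀ p ∈ P, p.Prime) (hQ : ∀ p ∈ Q, p.Prime) :
    ∀ p ∈ uns P Q x y, p.Prime := by
  intro p hp
  rcases mem_union.1 hp with h | h
  · exact hP p (mem_filter.1 h).1
  · exact hQ p (mem_filter.1 h).1

lemma shr_prime (hP : ∀ p ∈ P, p.Prime) : ∀ p ∈ shr P Q x y, p.Prime := fun p hp =>
  hP p (mem_inter.1 (mem_filter.1 hp).1).1

lemma disjoint_uns_shr : Disjoint (uns P Q x y) (shr P Q x y) := by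
  rw [Finset.disjoint_left]
  intro p hp hp'
  have h2 := (mem_filter.1 hp').2
  rcases mem_union.1 hp with h | h
  · exact h2.1 (mem_filter.1 h).2
  · exact h2.2 (mem_filter.1 h).2

/-- the class excluded by an unshared prime -/
def ucl (c c' : ℕ → ℤ) (x y : ℕ) (p : ℕ) : ℤ := if p ∣ x then c p * y else -(c' p * x)

lemma surv_iff (hP : ∀ p ∈ P, p.Prime) (hQ : ∀ p ∈ Q, p.Prime) (hxy : Nat.Coprime x y) (n : ℤ) :
    Surv P Q c c' x y n ↔ ∀ p ∈ uns P Q x y, ¬ n ≡ ucl c c' x y p [ZMOD (p : ℤ)] := by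
  constructor
  · rintro ⟨h1, h2⟩ p hp
    unfold ucl
    rcases mem_union.1 hp with h | h
    · rw [mem_filter] at h
      rw [if_pos h.2]
      exact h1 p h.1 h.2
    · rw [mem_filter] at h
      have hpp := hQ p h.1
      have hpx : ¬ p ∣ x := fun hx =>
        hpp.one_lt.ne' (Nat.eq_one_of_dvd_coprimes hxy hx h.2)
      rw [if_neg hpx]
      exact h2 p h.1 h.2
  · intro h
    refine ⟨fun p hp hpx => ?_, fun p hp hpy => ?_⟩
    · have := h p (mem_union_left _ (mem_filter.2 ⟨hp, hpx⟩))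
      unfold ucl at this
      rwa [if_pos hpx] at this
    · have hpp := hQ p hp
      have hpx : ¬ p ∣ x := fun hx =>
        hpp.one_lt.ne' (Nat.eq_one_of_dvd_coprimes hxy hx hpy)
      have := h p (mem_union_right _ (mem_filter.2 ⟨hp, hpy⟩))
      unfold ucl at this
      rwa [if_neg hpx] at this

lemma dens_split (P : Finset ℕ) (x : ℕ) :
    dens P = dens (P.filter fun p => ¬ p ∣ x) * dens (P.filter fun p => p ∣ x) := by
  unfold dens
  rw [mul_comm, prod_filter_mul_prod_filter_not]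

lemma dens_uns (hP : ∀ p ∈ P, p.Prime) (hxy : Nat.Coprime x y) :
    dens (uns P Q x y) = dens (P.filter fun p => p ∣ x) * dens (Q.filter fun p => p ∣ y) := by
  unfold dens uns
  rw [prod_union]
  rw [Finset.disjoint_left]
  intro p hp hp'
  rw [mem_filter] at hp hp'
  exact (hP p hp.1).one_lt.ne' (Nat.eq_one_of_dvd_coprimes hxy hp.2 hp'.2)

lemma coin_prime (hP : ∀ p ∈ P, p.Prime) (n : ℤ) : ∀ p ∈ coin P Q c c' x y n, p.Prime :=
  fun p hp => hP p (mem_inter.1 (mem_filter.1 hp).1).1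

lemma coin_eq (n : ℤ) : coin P Q c c' x y n =
    (shr P Q x y).filter fun p : ℕ => n ≡ c p * y - c' p * x [ZMOD (p : ℤ)] := by
  unfold coin shr
  rw [filter_filter]
  exact filter_congr fun p _ => by tauto

end

open Classical in
lemma sum_swap (W : Finset ℤ) (S : ℤ → Prop) (B : Finset ℕ) (g : ℕ → ℤ) :
    ∑ n ∈ W.filter S, ∑ p ∈ B.filter (fun p : ℕ => n ≡ g p [ZMOD (p : ℤ)]), pw p =
      ∑ p ∈ B, pw p * ((W.filter fun n => S n ∧ n ≡ g p [ZMOD (p : ℤ)]).card : ℝ) := by
  have e1 : ∀ n ∈ W.filter S, ∑ p ∈ B.filter (fun p : ℕ => n ≡ g p [ZMOD (p : ℤ)]), pw p =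
      ∑ p ∈ B, if n ≡ g p [ZMOD (p : ℤ)] then pw p else 0 := fun n _ => Finset.sum_filter _ _
  rw [Finset.sum_congr rfl e1, Finset.sum_comm]
  refine Finset.sum_congr rfl fun p _ => ?_
  rw [← Finset.sum_filter, filter_filter, sum_const, nsmul_eq_mul, mul_comm]

open Classical in
/-- bound for `dsum` with the maximum of the coincidence factor at large primes -/
theorem exists_dsum_le : ∃ C : ℝ, 0 < C ∧ ∀ {P Q : Finset ℕ} (c c' : ℕ → ℤ) {x y : ℕ},
    (∀ p ∈ P, p.Prime) → (∀ p ∈ Q, p.Prime) → Nat.Coprime x y → ∀ D : ℝ, 1 ≤ D →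
    ∀ a L : ℝ, L ≤ 2 * D → ∀ F : ℝ, 0 ≤ F →
    (∀ n ∈ win a L, Surv P Q c c' x y n →
      (dens ((coin P Q c c' x y n).filter fun p : ℕ => D < p))⁻¹ ≤ F) →
    dsum P Q c c' x y (win a L) ≤
      C * D * dens ((uns P Q x y).filter fun p : ℕ => (p : ℝ) ≤ D) * F := by
  obtain ⟨C, hC, hs⟩ := exists_sieve
  refine ⟨C, hC, fun {P Q} c c' {x y} hP hQ hxy D hD a L hL F hF0 hF => ?_⟩
  have h1 := hs D hD a L hL (uns P Q x y) (ucl c c' x y) (shr P Q x y)
    (fun p => c p * y - c' p * x) (uns_prime hP hQ) (shr_prime hP) disjoint_uns_shr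
  unfold dsum
  have hset : (win a L).filter (Surv P Q c c' x y) = (win a L).filter
      (fun n => ∀ p ∈ uns P Q x y, ¬ n ≡ ucl c c' x y p [ZMOD (p : ℤ)]) :=
    filter_congr fun n _ => surv_iff hP hQ hxy n
  calc ∑ n ∈ (win a L).filter (Surv P Q c c' x y), (dens (coin P Q c c' x y n))⁻¹
      ≤ ∑ n ∈ (win a L).filter (Surv P Q c c' x y),
        (dens ((shr P Q x y).filter fun p : ℕ => (p : ℝ) ≤ D ∧
          n ≡ c p * y - c' p * x [ZMOD (p : ℤ)]))⁻¹ * F := by
        refine Finset.sum_le_sum fun n hn => ?_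
        rw [mem_filter] at hn
        have e1 : dens (coin P Q c c' x y n) =
            dens ((shr P Q x y).filter fun p : ℕ => (p : ℝ) ≤ D ∧
              n ≡ c p * y - c' p * x [ZMOD (p : ℤ)]) *
            dens ((coin P Q c c' x y n).filter fun p : ℕ => D < p) := by
          unfold dens
          rw [← prod_filter_mul_prod_filter_not (coin P Q c c' x y n) (fun p : ℕ => (p : ℝ) ≤ D)]
          congr 1
          · refine prod_congr ?_ fun p _ => rfl
            rw [coin_eq, filter_filter]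
            exact filter_congr fun p _ => and_comm
          · exact prod_congr (filter_congr fun p _ => not_le) fun p _ => rfl
        rw [e1, mul_inv]
        refine mul_le_mul_of_nonneg_left (hF n hn.1 hn.2) (inv_nonneg.2 (dens_pos ?_).le)
        exact fun p hp => shr_prime hP p (mem_filter.1 hp).1
    _ = (∑ n ∈ (win a L).filter (fun n => ∀ p ∈ uns P Q x y,
          ¬ n ≡ ucl c c' x y p [ZMOD (p : ℤ)]),
        (dens ((shr P Q x y).filter fun p : ℕ => (p : ℝ) ≤ D ∧
          n ≡ c p * y - c' p * x [ZMOD (p : ℤ)]))⁻¹) * F := by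
        rw [← Finset.sum_mul, hset]
    _ ≤ _ := mul_le_mul_of_nonneg_right h1 hF0

open Classical in
/-- bound for `dsum`, un-maximised linear form -/
theorem exists_dsum_le_lin : ∃ C : ℝ, 0 < C ∧ ∀ {P Q : Finset ℕ} (c c' : ℕ → ℤ) {x y : ℕ},
    (∀ p ∈ P, p.Prime) → (∀ p ∈ Q, p.Prime) → Nat.Coprime x y → ∀ D : ℝ, 1 ≤ D →
    ∀ a L : ℝ, L ≤ 2 * D →
    dsum P Q c c' x y (win a L) ≤
      C * (D * dens ((uns P Q x y).filter fun p : ℕ => (p : ℝ) ≤ D) +
        ∑ p ∈ (shr P Q x y).filter (fun p : ℕ => D < p), pw p *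
          (((win a L).filter fun n => Surv P Q c c' x y n ∧
            n ≡ c p * y - c' p * x [ZMOD (p : ℤ)]).card : ℝ)) := by
  obtain ⟨C, hC, hs⟩ := exists_sieve_lin
  obtain ⟨C1, hC1, hlin⟩ := exists_lin
  refine ⟨(1 + C1) * (1 + C), by positivity, fun {P Q} c c' {x y} hP hQ hxy D hD a L hL => ?_⟩
  have h1 := hs D hD a L hL (uns P Q x y) (ucl c c' x y) (shr P Q x y)
    (fun p => c p * y - c' p * x) (uns_prime hP hQ) (shr_prime hP) disjoint_uns_shr
  have hset : (win a L).filter (Surv P Q c c' x y) = (win a L).filter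
      (fun n => ∀ p ∈ uns P Q x y, ¬ n ≡ ucl c c' x y p [ZMOD (p : ℤ)]) :=
    filter_congr fun n _ => surv_iff hP hQ hxy n
  unfold dsum
  set X := ∑ p ∈ (shr P Q x y).filter (fun p : ℕ => D < p), pw p *
          (((win a L).filter fun n => Surv P Q c c' x y n ∧
            n ≡ c p * y - c' p * x [ZMOD (p : ℤ)]).card : ℝ) with hX
  have hX0 : 0 ≤ X := Finset.sum_nonneg fun p _ => mul_nonneg (pw_nonneg p) (Nat.cast_nonneg _)
  have hu0 : 0 ≤ D * dens ((uns P Q x y).filter fun p : ℕ => (p : ℝ) ≤ D) := by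
    refine mul_nonneg (by linarith) (dens_pos ?_).le
    exact fun p hp => uns_prime hP hQ p (mem_filter.1 hp).1
  calc ∑ n ∈ (win a L).filter (Surv P Q c c' x y), (dens (coin P Q c c' x y n))⁻¹
      ≤ ∑ n ∈ (win a L).filter (Surv P Q c c' x y), (1 + C1) *
        ((1 + ∑ p ∈ (shr P Q x y).filter (fun p : ℕ => (p : ℝ) ≤ D ∧
          n ≡ c p * y - c' p * x [ZMOD (p : ℤ)]), pw p) +
        ∑ p ∈ ((shr P Q x y).filter (fun p : ℕ => D < p)).filter
          (fun p : ℕ => n ≡ c p * y - c' p * x [ZMOD (p : ℤ)]), pw p) := by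
        refine Finset.sum_le_sum fun n _ => ?_
        have h2 := hlin (coin P Q c c' x y n) (coin_prime hP n)
        have h3 : ∑ p ∈ coin P Q c c' x y n, pw p =
            ∑ p ∈ (shr P Q x y).filter (fun p : ℕ => (p : ℝ) ≤ D ∧
              n ≡ c p * y - c' p * x [ZMOD (p : ℤ)]), pw p +
            ∑ p ∈ ((shr P Q x y).filter (fun p : ℕ => D < p)).filter
              (fun p : ℕ => n ≡ c p * y - c' p * x [ZMOD (p : ℤ)]), pw p := by
          rw [← Finset.sum_filter_add_sum_filter_not (coin P Q c c' x y n)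
            (fun p : ℕ => (p : ℝ) ≤ D), coin_eq]
          congr 1
          · rw [filter_filter]
            exact Finset.sum_congr (filter_congr fun p _ => and_comm) fun p _ => rfl
          · rw [filter_filter, filter_filter]
            exact Finset.sum_congr (filter_congr fun p _ => by rw [not_le, and_comm]) fun p _ => rfl
        rw [h3] at h2
        have h4 : 0 ≤ ∑ p ∈ (shr P Q x y).filter (fun p : ℕ => (p : ℝ) ≤ D ∧
              n ≡ c p * y - c' p * x [ZMOD (p : ℤ)]), pw p :=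
          Finset.sum_nonneg fun p _ => pw_nonneg p
        have h5 : 0 ≤ ∑ p ∈ ((shr P Q x y).filter (fun p : ℕ => D < p)).filter
              (fun p : ℕ => n ≡ c p * y - c' p * x [ZMOD (p : ℤ)]), pw p :=
          Finset.sum_nonneg fun p _ => pw_nonneg p
        nlinarith
    _ = (1 + C1) * (∑ n ∈ (win a L).filter (fun n => ∀ p ∈ uns P Q x y,
          ¬ n ≡ ucl c c' x y p [ZMOD (p : ℤ)]),
          (1 + ∑ p ∈ (shr P Q x y).filter (fun p : ℕ => (p : ℝ) ≤ D ∧
          n ≡ c p * y - c' p * x [ZMOD (p : ℤ)]), pw p) + X) := by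
        rw [← Finset.mul_sum, Finset.sum_add_distrib, hset]
        congr 2
        rw [← hset, hX]
        exact sum_swap _ _ _ _
    _ ≤ (1 + C1) * (C * D * dens ((uns P Q x y).filter fun p : ℕ => (p : ℝ) ≤ D) + X) :=
        mul_le_mul_of_nonneg_left (by linarith) (by positivity)
    _ ≤ _ := by
        have h6 : 0 ≤ (1 + C1) * (D * dens ((uns P Q x y).filter fun p : ℕ => (p : ℝ) ≤ D)) := by
          positivity
        have h7 : 0 ≤ (1 + C1) * C * X := by positivity
        nlinarith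

end Crest.Agent.R4.Ovl560
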