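import Mathlib
import Crest.Agent.R4.Ovl560I

/-!
R4 (S0004), helper560: overlap of two arcs with excluded classes, final forms.
-/

set_option autoImplicit false
open Finset MeasureTheory

namespace Crest.Agent.R4.Ovl560

lemma dens_nonneg (P : Finset ℕ) (hP : ∀ p ∈ P, p.Prime) : 0 ≤ dens P := (dens_pos hP).le

/-- the general overlap formula, normalised by the masses `r dens P`, `r' dens Q` -/
theorem overlap_le {P Q : Finset ℕ} (c c' : ℕ → ℤ)
    (hP : ∀ p ∈ P, p.Prime) (hQ : ∀ p ∈ Q, p.Prime) {g x y : ℕ} (hg : 0 < g) (hx : 0 < x)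
    (hy : 0 < y) (hxy : Nat.Coprime x y)
    (hPd : ∀ p ∈ P, p ∣ g * x) (hQd : ∀ p ∈ Q, p ∣ g * y)
    (θ θ' r r' : ℝ) (h0 : 0 ≤ r) (h0' : 0 ≤ r') (hD : 0 < max ((x : ℝ) * r') (y * r)) :
    volume.real (Set.Ico (0 : ℝ) 1 ∩ (XArc θ r (g * x) P c ∩ XArc θ' r' (g * y) Q c')) ≤
      2 * (r * dens P) * (r' * dens Q) / max ((x : ℝ) * r') (y * r) * (dens (uns P Q x y))⁻¹ *
          dsum P Q c c' x y (win (x * θ' - y * θ) (y * r + x * r')) := by
  refine (volume_xarc_inter c c' hP hQ hg hx hy hxy hPd hQd θ θ' r r' h0 h0' hD).trans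
    (le_of_eq ?_)
  have h1 := dens_split P x
  have h2 := dens_split Q y
  have h3 := dens_uns (Q := Q) (y := y) hP hxy
  have h4 : dens (P.filter fun p => p ∣ x) ≠ 0 :=
    (dens_pos fun p hp => hP p (mem_filter.1 hp).1).ne'
  have h5 : dens (Q.filter fun p => p ∣ y) ≠ 0 :=
    (dens_pos fun p hp => hQ p (mem_filter.1 hp).1).ne'
  rw [h3, h1, h2]
  field_simp

/-- **(O2)**: `D ≥ 1` -/
theorem exists_overlap_large : ∃ C : ℝ, 0 < C ∧ ∀ {P Q : Finset ℕ} (c c' : ℕ → ℤ),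
    (∀ p ∈ P, p.Prime) → (∀ p ∈ Q, p.Prime) → ∀ {g x y : ℕ}, 0 < g → 0 < x →
    0 < y → Nat.Coprime x y → (∀ p ∈ P, p ∣ g * x) → (∀ p ∈ Q, p ∣ g * y) →
    ∀ θ θ' r r' D : ℝ, 0 ≤ r → 0 ≤ r' → D = max ((x : ℝ) * r') (y * r) → 1 ≤ D →
    ∀ F : ℝ, 0 ≤ F →
    (∀ n ∈ win (x * θ' - y * θ) (y * r + x * r'), Surv P Q c c' x y n →
      (dens ((coin P Q c c' x y n).filter fun p : ℕ => D < p))⁻¹ ≤ F) →
    volume.real (Set.Ico (0 : ℝ) 1 ∩ (XArc θ r (g * x) P c ∩ XArc θ' r' (g * y) Q c')) ≤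
      C * (r * dens P) * (r' * dens Q) * (dens ((uns P Q x y).filter fun p : ℕ => D < p))⁻¹ * F := by
  obtain ⟨C, hC, hs⟩ := exists_dsum_le
  refine ⟨2 * C, by positivity, fun {P Q} c c' hP hQ {g x y} hg hx hy hxy hPd hQd θ θ' r r' D h0 h0'
    hDdef hD F hF0 hF => ?_⟩
  have hDpos : 0 < D := by linarith
  have h1 := overlap_le c c' hP hQ hg hx hy hxy hPd hQd θ θ' r r' h0 h0' (hDdef ▸ hDpos)
  rw [← hDdef] at h1
  have hL : (y : ℝ) * r + x * r' ≤ 2 * D := by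
    have g1 := le_max_left ((x : ℝ) * r') (y * r)
    have g2 := le_max_right ((x : ℝ) * r') (y * r)
    rw [← hDdef] at g1 g2
    linarith
  have h2 := hs c c' hP hQ hxy D hD (x * θ' - y * θ) (y * r + x * r') hL F hF0 hF
  have hu := uns_prime (x := x) (y := y) hP hQ
  have hPn := dens_nonneg P hP
  have hQn := dens_nonneg Q hQ
  have h3 : dens (uns P Q x y) = dens ((uns P Q x y).filter fun p : ℕ => (p : ℝ) ≤ D) *
      dens ((uns P Q x y).filter fun p : ℕ => D < p) := by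
    unfold dens
    rw [← prod_filter_mul_prod_filter_not (uns P Q x y) (fun p : ℕ => (p : ℝ) ≤ D)]
    congr 1
    exact prod_congr (filter_congr fun p _ => not_le) fun p _ => rfl
  have h4 : 0 < dens ((uns P Q x y).filter fun p : ℕ => (p : ℝ) ≤ D) :=
    dens_pos fun p hp => hu p (mem_filter.1 hp).1
  have h5 : 0 < dens ((uns P Q x y).filter fun p : ℕ => D < p) :=
    dens_pos fun p hp => hu p (mem_filter.1 hp).1
  have hpre : 0 ≤ 2 * (r * dens P) * (r' * dens Q) / D * (dens (uns P Q x y))⁻¹ := by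
    have := inv_nonneg.2 (dens_pos hu).le
    positivity
  refine h1.trans ((mul_le_mul_of_nonneg_left h2 hpre).trans (le_of_eq ?_))
  rw [h3]
  field_simp

/-- **(O2)** with both factors linearised -/
theorem exists_overlap_large_lin : ∃ C : ℝ, 0 < C ∧ ∀ {P Q : Finset ℕ} (c c' : ℕ → ℤ),
    (∀ p ∈ P, p.Prime) → (∀ p ∈ Q, p.Prime) → ∀ {g x y : ℕ}, 0 < g → 0 < x →
    0 < y → Nat.Coprime x y → (∀ p ∈ P, p ∣ g * x) → (∀ p ∈ Q, p ∣ g * y) →
    ∀ θ θ' r r' D : ℝ, 0 ≤ r → 0 ≤ r' → D = max ((x : ℝ) * r') (y * r) → 1 ≤ D →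
    ∀ F : ℝ, 0 ≤ F →
    (∀ n ∈ win (x * θ' - y * θ) (y * r + x * r'), Surv P Q c c' x y n →
      ∑ p ∈ (coin P Q c c' x y n).filter (fun p : ℕ => D < p), pw p ≤ F) →
    volume.real (Set.Ico (0 : ℝ) 1 ∩ (XArc θ r (g * x) P c ∩ XArc θ' r' (g * y) Q c')) ≤
      C * (r * dens P) * (r' * dens Q) *
        (1 + ∑ p ∈ (uns P Q x y).filter (fun p : ℕ => D < p), pw p) * (1 + F) := by
  obtain ⟨C, hC, hs⟩ := exists_overlap_large
  obtain ⟨C1, hC1, hlin⟩ := exists_lin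
  refine ⟨C * (1 + C1) * (1 + C1), by positivity, fun {P Q} c c' hP hQ {g x y} hg hx hy hxy hPd
    hQd θ θ' r r' D h0 h0' hDdef hD F hF0 hF => ?_⟩
  have h1 := hs c c' hP hQ hg hx hy hxy hPd hQd θ θ' r r' D h0 h0' hDdef hD
    ((1 + C1) * (1 + F)) (by positivity) (fun n hn hsv => by
      have g1 := hlin ((coin P Q c c' x y n).filter fun p : ℕ => D < p)
        fun p hp => coin_prime hP n p (mem_filter.1 hp).1
      have g2 := hF n hn hsv
      have g3 := mul_le_mul_of_nonneg_left g2 hC1.le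
      nlinarith)
  have h2 := hlin ((uns P Q x y).filter fun p : ℕ => D < p)
    fun p hp => uns_prime hP hQ p (mem_filter.1 hp).1
  set S := ∑ p ∈ (uns P Q x y).filter (fun p : ℕ => D < p), pw p with hS
  have hS0 : 0 ≤ S := Finset.sum_nonneg fun p _ => pw_nonneg p
  have h3 : (dens ((uns P Q x y).filter fun p : ℕ => D < p))⁻¹ ≤ (1 + C1) * (1 + S) := by
    nlinarith
  have hPn := dens_nonneg P hP
  have hQn := dens_nonneg Q hQ
  calc volume.real (Set.Ico (0 : ℝ) 1 ∩ (XArc θ r (g * x) P c ∩ XArc θ' r' (g * y) Q c'))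
      ≤ C * (r * dens P) * (r' * dens Q) *
        (dens ((uns P Q x y).filter fun p : ℕ => D < p))⁻¹ * ((1 + C1) * (1 + F)) := h1
    _ ≤ C * (r * dens P) * (r' * dens Q) * ((1 + C1) * (1 + S)) * ((1 + C1) * (1 + F)) := by
        gcongr
    _ = _ := by ring

lemma dsum_eq_zero {P Q : Finset ℕ} {c c' : ℕ → ℤ} {x y : ℕ} {W : Finset ℤ}
    (h : ∀ n ∈ W, ¬ Surv P Q c c' x y n) : dsum P Q c c' x y W = 0 := by
  classical
  unfold dsum
  rw [Finset.filter_false_of_mem h, Finset.sum_empty]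

open Classical in
lemma dsum_le_card {P Q : Finset ℕ} {c c' : ℕ → ℤ} {x y : ℕ} {W : Finset ℤ} {F : ℝ}
    (h : ∀ n ∈ W, Surv P Q c c' x y n → (dens (coin P Q c c' x y n))⁻¹ ≤ F) :
    dsum P Q c c' x y W ≤ ((W.filter (Surv P Q c c' x y)).card : ℝ) * F := by
  unfold dsum
  calc ∑ n ∈ W.filter (Surv P Q c c' x y), (dens (coin P Q c c' x y n))⁻¹
      ≤ ∑ n ∈ W.filter (Surv P Q c c' x y), F :=
        Finset.sum_le_sum fun n hn => h n (mem_filter.1 hn).1 (mem_filter.1 hn).2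
    _ = _ := by rw [sum_const, nsmul_eq_mul]

/-- number of integers in a window -/
lemma card_win_le' (a : ℝ) {L : ℝ} (hL : 0 ≤ L) : ((win a L).card : ℝ) ≤ 2 * L + 1 := by
  rcases (win a L).eq_empty_or_nonempty with h | h
  · rw [h]; simp; linarith
  · set m := (win a L).min' h with hm
    set M := (win a L).max' h with hM
    have h1 : win a L ⊆ Icc m M := fun n hn => by
      rw [mem_Icc]; exact ⟨Finset.min'_le _ _ hn, Finset.le_max' _ _ hn⟩
    have h2 := Finset.card_le_card h1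
    rw [Int.card_Icc] at h2
    have hm1 := mem_win.1 (Finset.min'_mem _ h)
    have hM1 := mem_win.1 (Finset.max'_mem _ h)
    rw [← hm, abs_lt] at hm1
    rw [← hM, abs_lt] at hM1
    have hmM : m ≤ M := Finset.min'_le _ _ (Finset.max'_mem _ h)
    have h3 : ((M + 1 - m).toNat : ℤ) = M + 1 - m := Int.toNat_of_nonneg (by linarith)
    have h4 : ((M + 1 - m).toNat : ℝ) = M + 1 - m := by
      have : (((M + 1 - m).toNat : ℤ) : ℝ) = ((M + 1 - m : ℤ) : ℝ) := by rw [h3]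
      push_cast at this
      exact this
    have h5 : ((win a L).card : ℝ) ≤ ((M + 1 - m).toNat : ℝ) := by exact_mod_cast h2
    rw [h4] at h5
    linarith [hm1.1, hM1.2]

/-- **(O3)**: any `D > 0`, in particular `D < 1`: no surviving determinant, no overlap -/
theorem overlap_eq_zero {P Q : Finset ℕ} (c c' : ℕ → ℤ)
    (hP : ∀ p ∈ P, p.Prime) (hQ : ∀ p ∈ Q, p.Prime) {g x y : ℕ} (hg : 0 < g) (hx : 0 < x)
    (hy : 0 < y) (hxy : Nat.Coprime x y)
    (hPd : ∀ p ∈ P, p ∣ g * x) (hQd : ∀ p ∈ Q, p ∣ g * y)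
    (θ θ' r r' : ℝ) (h0 : 0 ≤ r) (h0' : 0 ≤ r') (hD : 0 < max ((x : ℝ) * r') (y * r))
    (h : ∀ n ∈ win (x * θ' - y * θ) (y * r + x * r'), ¬ Surv P Q c c' x y n) :
    volume.real (Set.Ico (0 : ℝ) 1 ∩ (XArc θ r (g * x) P c ∩ XArc θ' r' (g * y) Q c')) = 0 := by
  refine le_antisymm ?_ measureReal_nonneg
  have h1 := overlap_le c c' hP hQ hg hx hy hxy hPd hQd θ θ' r r' h0 h0' hD
  rwa [dsum_eq_zero h, mul_zero] at h1

/-- **(O3)**: `D ≤ 1` -/
theorem overlap_small {P Q : Finset ℕ} (c c' : ℕ → ℤ)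
    (hP : ∀ p ∈ P, p.Prime) (hQ : ∀ p ∈ Q, p.Prime) {g x y : ℕ} (hg : 0 < g) (hx : 0 < x)
    (hy : 0 < y) (hxy : Nat.Coprime x y)
    (hPd : ∀ p ∈ P, p ∣ g * x) (hQd : ∀ p ∈ Q, p ∣ g * y)
    (θ θ' r r' : ℝ) (h0 : 0 ≤ r) (h0' : 0 ≤ r') (hD : 0 < max ((x : ℝ) * r') (y * r))
    (hD1 : max ((x : ℝ) * r') (y * r) ≤ 1) (F : ℝ) (hF0 : 0 ≤ F)
    (hF : ∀ n ∈ win (x * θ' - y * θ) (y * r + x * r'), Surv P Q c c' x y n →
      (dens (coin P Q c c' x y n))⁻¹ ≤ F) :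
    volume.real (Set.Ico (0 : ℝ) 1 ∩ (XArc θ r (g * x) P c ∩ XArc θ' r' (g * y) Q c')) ≤
      10 * (r * dens P) * (r' * dens Q) / max ((x : ℝ) * r') (y * r) *
        (dens (uns P Q x y))⁻¹ * F := by
  classical
  have h1 := overlap_le c c' hP hQ hg hx hy hxy hPd hQd θ θ' r r' h0 h0' hD
  have h2 := dsum_le_card hF
  have hL0 : 0 ≤ (y : ℝ) * r + x * r' := by positivity
  have hL : (y : ℝ) * r + x * r' ≤ 2 := by
    have g1 := le_max_left ((x : ℝ) * r') (y * r)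
    have g2 := le_max_right ((x : ℝ) * r') (y * r)
    linarith
  have h3 : (((win (x * θ' - y * θ) (y * r + x * r')).filter (Surv P Q c c' x y)).card : ℝ) ≤ 5 := by
    calc (((win (x * θ' - y * θ) (y * r + x * r')).filter (Surv P Q c c' x y)).card : ℝ)
        ≤ ((win (x * θ' - y * θ) (y * r + x * r')).card : ℝ) := by
          exact_mod_cast Finset.card_filter_le _ _
      _ ≤ 2 * (y * r + x * r') + 1 := card_win_le' _ hL0
      _ ≤ 5 := by linarith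
  have hpre : 0 ≤ 2 * (r * dens P) * (r' * dens Q) / max ((x : ℝ) * r') (y * r) *
      (dens (uns P Q x y))⁻¹ := by
    have := inv_nonneg.2 (dens_pos (uns_prime (x := x) (y := y) hP hQ)).le
    have hPn := dens_nonneg P hP
    have hQn := dens_nonneg Q hQ
    positivity
  calc volume.real (Set.Ico (0 : ℝ) 1 ∩ (XArc θ r (g * x) P c ∩ XArc θ' r' (g * y) Q c'))
      ≤ _ := h1
    _ ≤ 2 * (r * dens P) * (r' * dens Q) / max ((x : ℝ) * r') (y * r) *
      (dens (uns P Q x y))⁻¹ * (5 * F) :=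
        mul_le_mul_of_nonneg_left (h2.trans (mul_le_mul_of_nonneg_right h3 hF0)) hpre
    _ = _ := by ring

end Crest.Agent.R4.Ovl560
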