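import Mathlib
import Crest.Agent.R4.HVWRan560
import Crest.Agent.R4.Ovl560J

/-!
R4 (S0004), helper793: energy sums over all pairs with `D ≥ 1/T` (leaf text LF4, abstract form).
-/

set_option autoImplicit false
open Finset hiding dens

namespace Crest.Agent.R4.LF4

open Crest.Agent.R4.HVW560 Crest.Agent.R4.Ovl560

/-- the weight `p ↦ (1 - 1/p)⁻¹`, only for `p ≥ 11` -/
noncomputable def f0 (p : ℕ) : ℝ := if 11 ≤ p then (1 - 1 / (p : ℝ))⁻¹ else 1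

lemma one_le_f0 {p : ℕ} : 1 ≤ f0 p := by
  unfold f0
  split_ifs with h
  · have hp : (11 : ℝ) ≤ p := by exact_mod_cast h
    have h1 : 1 / (p : ℝ) ≤ 1 / 11 := one_div_le_one_div_of_le (by norm_num) hp
    have h2 : 0 ≤ 1 / (p : ℝ) := by positivity
    exact (one_le_inv₀ (by linarith)).2 (by linarith)
  · exact le_rfl

lemma f0_le {p : ℕ} : f0 p ≤ 11 / 10 := by
  unfold f0
  split_ifs with h
  · have hp : (11 : ℝ) ≤ p := by exact_mod_cast h
    have h1 : 1 / (p : ℝ) ≤ 1 / 11 := one_div_le_one_div_of_le (by norm_num) hp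
    rw [inv_le_comm₀ (by linarith) (by norm_num)]
    linarith
  · norm_num

theorem goodWt_f0 : GoodWt (mkA f0) 2 1 := by
  refine ⟨?_, ?_, ?_, ?_⟩
  · intro p hp; rw [mkA_prime _ hp]; exact one_le_f0
  · intro p hp; rw [mkA_prime _ hp]; linarith [f0_le (p := p)]
  · intro p hp
    rw [mkA_prime _ hp]
    by_cases h : 11 ≤ p
    · refine f0_le.trans ?_
      have hp' : (11 : ℝ) ≤ p := by exact_mod_cast h
      calc (11 / 10 : ℝ) = ((11 / 10 : ℝ) ^ 16) ^ (1 / 16 : ℝ) := by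
            rw [← Real.rpow_natCast, ← Real.rpow_mul (by norm_num)]; norm_num
        _ ≤ (p : ℝ) ^ (1 / 16 : ℝ) := by
            refine Real.rpow_le_rpow (by positivity) ?_ (by norm_num)
            norm_num
            linarith
    · unfold f0
      rw [if_neg h]
      exact Real.one_le_rpow (by exact_mod_cast hp.one_le) (by norm_num)
  · intro P hP
    have h1 : ∀ p ∈ P, (mkA f0 p - 1) / p ≤ if 11 ≤ p then 2 * ((p : ℝ) ^ 2)⁻¹ else 0 := by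
      intro p hp
      rw [mkA_prime _ (hP p hp)]
      unfold f0
      split_ifs with h
      · have hp' : (11 : ℝ) ≤ p := by exact_mod_cast h
        have h2 : (1 - 1 / (p : ℝ))⁻¹ - 1 = 1 / ((p : ℝ) - 1) := by
          have : (p : ℝ) - 1 ≠ 0 := by linarith
          have h3 : (p : ℝ) ≠ 0 := by linarith
          field_simp
          ring
        rw [h2, div_div, div_le_iff₀ (by nlinarith)]
        have h4 : 2 * ((p : ℝ) ^ 2)⁻¹ * (((p : ℝ) - 1) * p) = 2 * ((p : ℝ) - 1) / p := by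
          field_simp
        rw [h4, le_div_iff₀ (by linarith)]
        linarith
      · simp
    refine (Finset.sum_le_sum h1).trans ?_
    rw [← Finset.sum_filter, ← Finset.mul_sum]
    have h2 : ∑ p ∈ P.filter (fun p : ℕ => 11 ≤ p), ((p : ℝ) ^ 2)⁻¹ ≤ 2 / ((10 : ℕ) + 1) := by
      refine le_trans ?_ (sum_Ioo_inv_sq_le (α := ℝ) 10 (P.sup id + 1))
      apply Finset.sum_le_sum_of_subset_of_nonneg
      · intro p hp
        rw [mem_filter] at hp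
        rw [mem_Ioo]
        have h5 : p ≤ P.sup id := Finset.le_sup (f := id) hp.1
        omega
      · intro p _ _; positivity
    norm_num at h2
    linarith

lemma prod_f0_le {n : ℕ} (hn : n ≠ 0) {P : Finset ℕ} (hP : P ⊆ n.primeFactors) :
    ∏ p ∈ P, f0 p ≤ mkA f0 n := by
  rw [mkA_apply _ hn, Finsupp.prod, Nat.support_factorization]
  calc ∏ p ∈ P, f0 p ≤ ∏ p ∈ n.primeFactors, f0 p :=
        Finset.prod_le_prod_of_subset_of_one_le hP
          (fun p _ => zero_le_one.trans one_le_f0) fun p _ _ => one_le_f0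
    _ ≤ ∏ p ∈ n.primeFactors, f0 p ^ n.factorization p := by
        refine prod_le_prod (fun p _ => zero_le_one.trans one_le_f0) fun p hp => ?_
        have := Nat.mem_primeFactors.1 hp
        have h1 : n.factorization p ≠ 0 := (this.1.factorization_pos_of_dvd hn this.2.1).ne'
        exact le_self_pow₀ one_le_f0 h1

/-- inverse density is at most `5` times the multiplicative weight -/
lemma dens_inv_le_mkA {n : ℕ} (hn : n ≠ 0) {P : Finset ℕ} (hP : P ⊆ n.primeFactors) :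
    (dens P)⁻¹ ≤ 5 * mkA f0 n := by
  have hPp : ∀ p ∈ P, p.Prime := fun p hp => (Nat.mem_primeFactors.1 (hP hp)).1
  set P1 := P.filter (fun p => ¬ 11 ≤ p) with hP1
  set P2 := P.filter (fun p => 11 ≤ p) with hP2
  have e1 : dens P = dens P2 * dens P1 := by
    unfold dens
    rw [hP1, hP2, prod_filter_mul_prod_filter_not]
  have h1 : (dens P1)⁻¹ ≤ 5 := by
    have hsub : P1 ⊆ {2, 3, 5, 7} := by
      intro p hp
      rw [hP1, mem_filter] at hp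
      have := hPp p hp.1
      have h11 := hp.2
      interval_cases p <;> revert this <;> decide
    have hpr : ∀ p ∈ ({2, 3, 5, 7} : Finset ℕ), p.Prime := by decide
    have h2 := dens_mono hpr hsub
    have h3 : dens {2, 3, 5, 7} = 48 / 210 := by
      unfold dens
      rw [Finset.prod_insert (by decide), Finset.prod_insert (by decide),
        Finset.prod_insert (by decide), Finset.prod_singleton]
      norm_num
    rw [h3] at h2
    rw [inv_le_comm₀ (by linarith) (by norm_num)]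
    linarith
  have h2 : (dens P2)⁻¹ ≤ mkA f0 n := by
    refine le_trans (le_of_eq ?_) (prod_f0_le hn (P := P2) ((filter_subset _ _).trans hP))
    unfold dens
    rw [← prod_inv_distrib]
    refine prod_congr rfl fun p hp => ?_
    unfold f0
    rw [if_pos (mem_filter.1 hp).2]
  have hd1 : 0 < dens P1 := dens_pos fun p hp => hPp p (mem_filter.1 hp).1
  have hd2 : 0 < dens P2 := dens_pos fun p hp => hPp p (mem_filter.1 hp).1
  rw [e1, mul_inv]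
  calc (dens P2)⁻¹ * (dens P1)⁻¹ ≤ mkA f0 n * 5 :=
        mul_le_mul h2 h1 (inv_pos.2 hd1).le ((inv_pos.2 hd2).le.trans h2)
    _ = _ := mul_comm _ _

/-- scale of the pair `(q, r)` -/
noncomputable def DD (ψ θ : ℕ → ℝ) (e : ℕ × ℕ) : ℝ :=
  max ((cof e.1 e.2 : ℝ) * θ e.2) ((cof e.2 e.1 : ℝ) * ψ e.1)

/-- product of the two cofactors -/
def cc (e : ℕ × ℕ) : ℕ := cof e.1 e.2 * cof e.2 e.1

/-- sub-family with scale at most `δ` is a system for the HVW inequality -/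
lemma sys_filter {V W : Finset ℕ} {E : Finset (ℕ × ℕ)} {ψ θ : ℕ → ℝ} {δ : ℝ} (hδ : 0 < δ)
    (hV : ∀ v ∈ V, 0 < v) (hW : ∀ w ∈ W, 0 < w) (hψ : ∀ v ∈ V, 0 ≤ ψ v) (hθ : ∀ w ∈ W, 0 ≤ θ w)
    (hE : E ⊆ V ×ˢ W) : Sys V W (E.filter fun e => DD ψ θ e ≤ δ) ψ θ δ where
  hδ := hδ
  hV := hV
  hW := hW
  hψ := hψ
  hθ := hθ
  hE := (filter_subset _ _).trans hE
  h1 _ he := (le_max_left _ _).trans (mem_filter.1 he).2
  h2 _ he := (le_max_right _ _).trans (mem_filter.1 he).2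

/-- dyadic majorant of `1/D` -/
lemma one_div_le_dyadic {D : ℝ} {J : ℕ} (hJ : ((2 : ℝ) ^ J)⁻¹ ≤ D) (h1 : D ≤ 1) :
    1 / D ≤ 2 * ∑ j ∈ range (J + 1), if D ≤ ((2 : ℝ) ^ j)⁻¹ then (2 : ℝ) ^ j else 0 := by
  classical
  have hex : ∃ j : ℕ, D ≤ ((2 : ℝ) ^ j)⁻¹ ∧ 1 / D ≤ 2 * (2 : ℝ) ^ j ∧ j ≤ J := by
    by_contra hcon
    push Not at hcon
    have key : ∀ j : ℕ, j ≤ J → D ≤ ((2 : ℝ) ^ j)⁻¹ := by
      intro j
      induction j with
      | zero => intro _; simpa using h1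
      | succ j ih =>
        intro hj
        have h2 := ih (by omega)
        by_contra h3
        push Not at h3
        have h4 : 1 / D ≤ 2 * (2 : ℝ) ^ j := by
          have h5 : ((2 : ℝ) ^ (j + 1))⁻¹ ≤ D := h3.le
          rw [one_div]
          have h6 := inv_anti₀ (by positivity) h5
          rw [inv_inv] at h6
          calc D⁻¹ ≤ (2 : ℝ) ^ (j + 1) := h6
            _ = _ := by rw [pow_succ, mul_comm]
        exact absurd (hcon j h2 h4) (by omega)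
    have h2 := key J le_rfl
    have h3 : 1 / D ≤ 2 * (2 : ℝ) ^ J := by
      have h6 := inv_anti₀ (by positivity) hJ
      rw [inv_inv] at h6
      rw [one_div]
      have : (0 : ℝ) < 2 ^ J := by positivity
      linarith
    exact absurd (hcon J h2 h3) (by omega)
  obtain ⟨j, hj1, hj2, hj3⟩ := hex
  refine hj2.trans (mul_le_mul_of_nonneg_left ?_ (by norm_num))
  have h2 : (if D ≤ ((2 : ℝ) ^ j)⁻¹ then (2 : ℝ) ^ j else 0) = 2 ^ j := if_pos hj1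
  rw [← h2]
  exact Finset.single_le_sum (f := fun j => if D ≤ ((2 : ℝ) ^ j)⁻¹ then (2 : ℝ) ^ j else 0)
    (fun i _ => by split_ifs <;> positivity) (mem_range.2 (by omega))

/-- geometric sum -/
lemma geom_le {ρ : ℝ} (hρ : 1 < ρ) (J : ℕ) : ∑ j ∈ range (J + 1), ρ ^ j ≤ ρ / (ρ - 1) * ρ ^ J := by
  rw [geom_sum_eq hρ.ne']
  have : 0 < ρ - 1 := by linarith
  rw [div_mul_eq_mul_div]
  refine div_le_div_of_nonneg_right ?_ this.le
  rw [pow_succ]
  linarith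


variable {V W : Finset ℕ} {E : Finset (ℕ × ℕ)} {ψ θ : ℕ → ℝ}

/-- weight of a pair -/
noncomputable def ww (ψ θ : ℕ → ℝ) (e : ℕ × ℕ) : ℝ := wt ψ e.1 * wt θ e.2

lemma ww_nonneg (hψ : ∀ v ∈ V, 0 ≤ ψ v) (hθ : ∀ w ∈ W, 0 ≤ θ w) (hE : E ⊆ V ×ˢ W)
    {e : ℕ × ℕ} (he : e ∈ E) : 0 ≤ ww ψ θ e := by
  have hm := Finset.mem_product.1 (hE he)
  exact mul_nonneg (wt_nonneg (hψ _ hm.1)) (wt_nonneg (hθ _ hm.2))

lemma cc_pos (hV : ∀ v ∈ V, 0 < v) (hW : ∀ w ∈ W, 0 < w) (hE : E ⊆ V ×ˢ W)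
    {e : ℕ × ℕ} (he : e ∈ E) : 0 < cc e := by
  have hm := Finset.mem_product.1 (hE he)
  exact Nat.mul_pos (cof_pos (hV _ hm.1)) (cof_pos (hW _ hm.2))

/-- sum with a good weight over the pairs with `D ≤ δ` -/
lemma sum_le_hvw {A : ℕ →* ℝ} {L Λ ε δ : ℝ} (hA : GoodWt A L Λ) (hε : 0 < ε) (hε4 : ε ≤ 1 / 4)
    (hδ : 0 < δ)
    (hV : ∀ v ∈ V, 0 < v) (hW : ∀ w ∈ W, 0 < w) (hψ : ∀ v ∈ V, 0 ≤ ψ v) (hθ : ∀ w ∈ W, 0 ≤ θ w)
    (hE : E ⊆ V ×ˢ W) :
    ∑ e ∈ E.filter (fun e => DD ψ θ e ≤ δ), ww ψ θ e * A (cc e) ≤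
      Real.exp (16 * L ^ 3 * Λ + 10 ^ 12 * (L / ε) ^ 7) * (δ ^ (1 - 2 * ε) *
        ((∑ v ∈ V, wt ψ v) * (∑ w ∈ W, wt θ w)) ^ (1 / 2 + ε)) := by
  refine le_trans (le_of_eq ?_) (hvw hA hε hε4 (sys_filter hδ hV hW hψ hθ hE))
  refine Finset.sum_congr rfl fun e _ => ?_
  unfold ww cc
  rw [map_mul]

/-- constant of the low range -/
noncomputable def CA (ε : ℝ) : ℝ := Real.exp (16 * 2 ^ 3 * 1 + 10 ^ 12 * (2 / ε) ^ 7)

/-- constant of the high range -/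
noncomputable def CB (ε : ℝ) : ℝ :=
  Real.exp (16 * (Real.exp 2) ^ 3 * (2 * 2 * Real.exp 2) + 10 ^ 12 * (Real.exp 2 / ε) ^ 7)

/-- sum of `w w' A / D` over the pairs with `2^{-J} ≤ D ≤ 1` -/
lemma sum_small {ε : ℝ} (hε : 0 < ε) (hε4 : ε ≤ 1 / 4)
    (hV : ∀ v ∈ V, 0 < v) (hW : ∀ w ∈ W, 0 < w) (hψ : ∀ v ∈ V, 0 ≤ ψ v) (hθ : ∀ w ∈ W, 0 ≤ θ w)
    (hE : E ⊆ V ×ˢ W) (J : ℕ) (hD : ∀ e ∈ E, ((2 : ℝ) ^ J)⁻¹ ≤ DD ψ θ e) :
    ∑ e ∈ E.filter (fun e => DD ψ θ e ≤ 1), ww ψ θ e * mkA f0 (cc e) * (1 / DD ψ θ e) ≤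
      2 * CA ε * ((2 : ℝ) ^ (2 * ε) / ((2 : ℝ) ^ (2 * ε) - 1)) * ((2 : ℝ) ^ J) ^ (2 * ε) *
        ((∑ v ∈ V, wt ψ v) * (∑ w ∈ W, wt θ w)) ^ (1 / 2 + ε) := by
  classical
  set M : ℝ := ((∑ v ∈ V, wt ψ v) * (∑ w ∈ W, wt θ w)) ^ (1 / 2 + ε) with hM
  have hM0 : 0 ≤ M := Real.rpow_nonneg (mul_nonneg
    (Finset.sum_nonneg fun v hv => wt_nonneg (hψ v hv))
    (Finset.sum_nonneg fun w hw => wt_nonneg (hθ w hw))) _
  set g : ℕ × ℕ → ℝ := fun e => ww ψ θ e * mkA f0 (cc e) with hg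
  have hg0 : ∀ e ∈ E, 0 ≤ g e := fun e he =>
    mul_nonneg (ww_nonneg hψ hθ hE he)
      (zero_le_one.trans (goodWt_f0.pos _ (cc_pos hV hW hE he)))
  have h1 : ∀ e ∈ E.filter (fun e => DD ψ θ e ≤ 1), g e * (1 / DD ψ θ e) ≤
      ∑ j ∈ range (J + 1), 2 * ((2 : ℝ) ^ j * if DD ψ θ e ≤ ((2 : ℝ) ^ j)⁻¹ then g e else 0) := by
    intro e he
    rw [mem_filter] at he
    have h2 := one_div_le_dyadic (hD e he.1) he.2
    refine (mul_le_mul_of_nonneg_left h2 (hg0 e he.1)).trans (le_of_eq ?_)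
    rw [Finset.mul_sum, Finset.mul_sum]
    refine Finset.sum_congr rfl fun j _ => ?_
    split_ifs <;> ring
  have h3 : ∀ j ∈ range (J + 1), ∑ e ∈ E.filter (fun e => DD ψ θ e ≤ 1),
      2 * ((2 : ℝ) ^ j * if DD ψ θ e ≤ ((2 : ℝ) ^ j)⁻¹ then g e else 0) ≤
      2 * CA ε * M * ((2 : ℝ) ^ (2 * ε)) ^ j := by
    intro j _
    rw [← Finset.mul_sum, ← Finset.mul_sum, ← Finset.sum_filter]
    have h4 : ∑ e ∈ (E.filter (fun e => DD ψ θ e ≤ 1)).filter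
        (fun e => DD ψ θ e ≤ ((2 : ℝ) ^ j)⁻¹), g e ≤
        ∑ e ∈ E.filter (fun e => DD ψ θ e ≤ ((2 : ℝ) ^ j)⁻¹), g e := by
      refine Finset.sum_le_sum_of_subset_of_nonneg ?_ fun e he _ => hg0 e (mem_filter.1 he).1
      intro e he
      rw [mem_filter, mem_filter] at he
      exact mem_filter.2 ⟨he.1.1, he.2⟩
    have h5 := sum_le_hvw (δ := ((2 : ℝ) ^ j)⁻¹) goodWt_f0 hε hε4 (by positivity) hV hW hψ hθ hE
    have h6 : (2 : ℝ) ^ j * (((2 : ℝ) ^ j)⁻¹) ^ (1 - 2 * ε) = ((2 : ℝ) ^ (2 * ε)) ^ j := by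
      rw [← Real.rpow_natCast 2 j, ← Real.rpow_neg (by norm_num), ← Real.rpow_mul (by norm_num),
        ← Real.rpow_add (by norm_num), ← Real.rpow_natCast ((2 : ℝ) ^ (2 * ε)) j,
        ← Real.rpow_mul (by norm_num)]
      congr 1; ring
    calc 2 * ((2 : ℝ) ^ j * ∑ e ∈ (E.filter (fun e => DD ψ θ e ≤ 1)).filter
        (fun e => DD ψ θ e ≤ ((2 : ℝ) ^ j)⁻¹), g e)
        ≤ 2 * ((2 : ℝ) ^ j * (CA ε * ((((2 : ℝ) ^ j)⁻¹) ^ (1 - 2 * ε) * M))) := by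
          have := h4.trans h5
          unfold CA
          gcongr
      _ = 2 * CA ε * M * ((2 : ℝ) ^ j * (((2 : ℝ) ^ j)⁻¹) ^ (1 - 2 * ε)) := by ring
      _ = _ := by rw [h6]
  have hρ : 1 < (2 : ℝ) ^ (2 * ε) := Real.one_lt_rpow (by norm_num) (by positivity)
  calc ∑ e ∈ E.filter (fun e => DD ψ θ e ≤ 1), g e * (1 / DD ψ θ e)
      ≤ ∑ e ∈ E.filter (fun e => DD ψ θ e ≤ 1),
        ∑ j ∈ range (J + 1), 2 * ((2 : ℝ) ^ j * if DD ψ θ e ≤ ((2 : ℝ) ^ j)⁻¹ then g e else 0) :=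
        Finset.sum_le_sum h1
    _ = ∑ j ∈ range (J + 1), ∑ e ∈ E.filter (fun e => DD ψ θ e ≤ 1),
        2 * ((2 : ℝ) ^ j * if DD ψ θ e ≤ ((2 : ℝ) ^ j)⁻¹ then g e else 0) := Finset.sum_comm
    _ ≤ ∑ j ∈ range (J + 1), 2 * CA ε * M * ((2 : ℝ) ^ (2 * ε)) ^ j := Finset.sum_le_sum h3
    _ = 2 * CA ε * M * ∑ j ∈ range (J + 1), ((2 : ℝ) ^ (2 * ε)) ^ j := by rw [Finset.mul_sum]
    _ ≤ 2 * CA ε * M * ((2 : ℝ) ^ (2 * ε) / ((2 : ℝ) ^ (2 * ε) - 1) * ((2 : ℝ) ^ (2 * ε)) ^ J) := by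
        refine mul_le_mul_of_nonneg_left (geom_le hρ J) ?_
        have : 0 ≤ CA ε := (Real.exp_pos _).le
        positivity
    _ = _ := by
        have : ((2 : ℝ) ^ (2 * ε)) ^ J = ((2 : ℝ) ^ J) ^ (2 * ε) := by
          rw [← Real.rpow_natCast, ← Real.rpow_natCast, ← Real.rpow_mul (by norm_num),
            ← Real.rpow_mul (by norm_num)]
          congr 1; ring
        rw [this]; ring


/-- the anatomy weight at level `2^i` -/
noncomputable def gA (i : ℕ) (p : ℕ) : ℝ :=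
  if (2 : ℝ) ^ i < (p : ℝ) then 2 * (2 : ℝ) ^ i / p else 0

lemma gA_nonneg (i p : ℕ) : 0 ≤ gA i p := by
  unfold gA; split_ifs <;> positivity

lemma exp_32_le : Real.exp (16 * 2) ≤ (2 : ℝ) ^ 47 := by
  have h1 : Real.exp (16 * 2) = (Real.exp 1) ^ 32 := by
    rw [← Real.exp_nat_mul]; norm_num
  rw [h1]
  have h2 : Real.exp 1 ≤ 2.7182818286 := Real.exp_one_lt_d9.le
  calc (Real.exp 1) ^ 32 ≤ (2.7182818286 : ℝ) ^ 32 :=
        pow_le_pow_left₀ (Real.exp_pos _).le h2 _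
    _ ≤ 2 ^ 47 := by norm_num

lemma goodWt_gA {i : ℕ} (hi : 47 ≤ i) :
    GoodWt (mkA fun p => Real.exp (gA i p)) (Real.exp 2) (2 * 2 * Real.exp 2) := by
  have h := goodWt_anatomy (l := 2) (T := (2 : ℝ) ^ i) (by norm_num)
    (exp_32_le.trans (pow_le_pow_right₀ (by norm_num) hi))
  exact h

/-- pointwise bound of the inverse density at large scale -/
lemma dens_inv_large {i : ℕ} (hi : 1 ≤ i) {D : ℝ} {n : ℕ} (hn : n ≠ 0) (hD : (2 : ℝ) ^ i ≤ D) :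
    (dens (n.primeFactors.filter fun p : ℕ => D < p))⁻¹ ≤
      8 + Real.exp (-(2 : ℝ) ^ i) * mkA (fun p => Real.exp (gA i p)) n := by
  set T : ℝ := (2 : ℝ) ^ i with hT
  have hT2 : 2 ≤ T := by
    rw [hT]
    calc (2 : ℝ) = 2 ^ 1 := by norm_num
      _ ≤ 2 ^ i := pow_le_pow_right₀ (by norm_num) hi
  set s : ℝ := ∑ p ∈ n.primeFactors.filter (fun p : ℕ => T < p), 1 / (p : ℝ) with hs
  have h1 : (dens (n.primeFactors.filter fun p : ℕ => D < p))⁻¹ ≤ Real.exp (2 * s) := by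
    refine (dens_inv_le_exp fun p hp => (Nat.mem_primeFactors.1 (mem_filter.1 hp).1).1).trans ?_
    refine Real.exp_le_exp.2 (mul_le_mul_of_nonneg_left ?_ (by norm_num))
    refine Finset.sum_le_sum_of_subset_of_nonneg ?_ fun p _ _ => by positivity
    intro p hp
    rw [mem_filter] at hp ⊢
    exact ⟨hp.1, hD.trans_lt hp.2⟩
  have h2 : Real.exp (2 * T * s) ≤ mkA (fun p => Real.exp (gA i p)) n := by
    refine le_trans (le_of_eq ?_) (mkA_exp_ge (gA i) (gA_nonneg i) hn)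
    congr 1
    rw [hs, Finset.sum_filter, Finset.mul_sum]
    refine Finset.sum_congr rfl fun p _ => ?_
    unfold gA
    rw [← hT]
    split_ifs <;> ring
  have hpos : 0 < mkA (fun p => Real.exp (gA i p)) n := (Real.exp_pos _).trans_le h2
  rcases le_or_gt s 1 with h | h
  · have h3 : Real.exp (2 * s) ≤ 8 := by
      calc Real.exp (2 * s) ≤ Real.exp (2 * 1) := Real.exp_le_exp.2 (by linarith)
        _ = (Real.exp 1) ^ 2 := by rw [← Real.exp_nat_mul]; norm_num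
        _ ≤ (2.7182818286 : ℝ) ^ 2 := pow_le_pow_left₀ (Real.exp_pos _).le Real.exp_one_lt_d9.le _
        _ ≤ 8 := by norm_num
    have : 0 ≤ Real.exp (-T) * mkA (fun p => Real.exp (gA i p)) n := by positivity
    linarith
  · have h3 : Real.exp (2 * s) ≤ Real.exp (-T) * Real.exp (2 * T * s) := by
      rw [← Real.exp_add]
      refine Real.exp_le_exp.2 ?_
      nlinarith
    have h4 := mul_le_mul_of_nonneg_left h2 (Real.exp_pos (-T)).le
    linarith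

/-- numerical bound -/
lemma exp_neg_pow_le (i : ℕ) : Real.exp (-(2 : ℝ) ^ i) * (2 : ℝ) ^ (i + 1) ≤ 4 * (1 / 2 : ℝ) ^ i := by
  set x : ℝ := (2 : ℝ) ^ i with hx
  have hx0 : 0 < x := by positivity
  have h1 : x ^ 2 / 2 ≤ Real.exp x := by
    have := Real.quadratic_le_exp_of_nonneg hx0.le
    nlinarith
  have h2 : Real.exp (-x) * Real.exp x = 1 := by rw [← Real.exp_add]; simp
  have h3 : (1 / 2 : ℝ) ^ i = 1 / x := by rw [hx, one_div_pow]
  have h4 : (2 : ℝ) ^ (i + 1) = 2 * x := by rw [pow_succ, mul_comm]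
  rw [h3, h4, mul_one_div, le_div_iff₀ hx0]
  have h5 : Real.exp (-x) * (x ^ 2 / 2) ≤ 1 := by
    rw [← h2]
    exact mul_le_mul_of_nonneg_left h1 (Real.exp_pos _).le
  nlinarith

lemma exists_top (E : Finset (ℕ × ℕ)) (f : ℕ × ℕ → ℝ) : ∃ I : ℕ, ∀ e ∈ E, f e ≤ (2 : ℝ) ^ I := by
  classical
  obtain ⟨B, hB⟩ := (E.image f).bddAbove
  obtain ⟨I, hI⟩ := pow_unbounded_of_one_lt B (show (1 : ℝ) < 2 by norm_num)
  refine ⟨I, fun e he => ?_⟩
  exact (hB (mem_coe.2 (mem_image_of_mem f he))).trans hI.le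

/-- sum over the pairs with `D > 2^47` -/
lemma sum_large {ε : ℝ} (hε : 0 < ε) (hε4 : ε ≤ 1 / 4)
    (hV : ∀ v ∈ V, 0 < v) (hW : ∀ w ∈ W, 0 < w) (hψ : ∀ v ∈ V, 0 ≤ ψ v) (hθ : ∀ w ∈ W, 0 ≤ θ w)
    (hE : E ⊆ V ×ˢ W) :
    ∑ e ∈ E.filter (fun e => (2 : ℝ) ^ 47 < DD ψ θ e), ww ψ θ e *
        (dens ((cc e).primeFactors.filter fun p : ℕ => DD ψ θ e < p))⁻¹ ≤
      8 * ((∑ v ∈ V, wt ψ v) * (∑ w ∈ W, wt θ w)) + 8 * CB ε *
        ((∑ v ∈ V, wt ψ v) * (∑ w ∈ W, wt θ w)) ^ (1 / 2 + ε) := by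
  classical
  obtain ⟨I, hI⟩ := exists_top E (DD ψ θ)
  set M : ℝ := ((∑ v ∈ V, wt ψ v) * (∑ w ∈ W, wt θ w)) ^ (1 / 2 + ε) with hM
  have hM0 : 0 ≤ M := Real.rpow_nonneg (mul_nonneg
    (Finset.sum_nonneg fun v hv => wt_nonneg (hψ v hv))
    (Finset.sum_nonneg fun w hw => wt_nonneg (hθ w hw))) _
  have hCB : 0 ≤ CB ε := (Real.exp_pos _).le
  set E' := E.filter (fun e => (2 : ℝ) ^ 47 < DD ψ θ e) with hE'
  set h : ℕ → ℕ × ℕ → ℝ := fun i e => Real.exp (-(2 : ℝ) ^ i) *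
    (if DD ψ θ e ≤ (2 : ℝ) ^ (i + 1) then ww ψ θ e * mkA (fun p => Real.exp (gA i p)) (cc e) else 0)
    with hh
  have hh0 : ∀ i, 47 ≤ i → ∀ e ∈ E, 0 ≤ h i e := by
    intro i hi e he
    simp only [hh]
    refine mul_nonneg (Real.exp_pos _).le ?_
    split_ifs
    · exact mul_nonneg (ww_nonneg hψ hθ hE he)
        (zero_le_one.trans ((goodWt_gA hi).pos _ (cc_pos hV hW hE he)))
    · exact le_rfl
  have h1 : ∀ e ∈ E', ww ψ θ e *
        (dens ((cc e).primeFactors.filter fun p : ℕ => DD ψ θ e < p))⁻¹ ≤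
      8 * ww ψ θ e + ∑ i ∈ Ico 47 (I + 1), h i e := by
    intro e he
    rw [hE', mem_filter] at he
    have hw := ww_nonneg hψ hθ hE he.1
    have hex : ∃ i : ℕ, DD ψ θ e ≤ (2 : ℝ) ^ (i + 1) := ⟨I, (hI e he.1).trans
      (pow_le_pow_right₀ (by norm_num) (Nat.le_succ I))⟩
    set i := Nat.find hex with hi
    have hi1 : DD ψ θ e ≤ (2 : ℝ) ^ (i + 1) := Nat.find_spec hex
    have hi47 : 47 ≤ i := by
      by_contra hlt
      push Not at hlt
      have : (2 : ℝ) ^ (i + 1) ≤ 2 ^ 47 := pow_le_pow_right₀ (by norm_num) (by omega)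
      linarith [he.2]
    have hi2 : (2 : ℝ) ^ i ≤ DD ψ θ e := by
      have h3 : ¬ DD ψ θ e ≤ (2 : ℝ) ^ (i - 1 + 1) := Nat.find_min hex (by omega)
      rw [show i - 1 + 1 = i by omega] at h3
      exact (not_le.1 h3).le
    have hiI : i ≤ I := Nat.find_min' hex ((hI e he.1).trans
      (pow_le_pow_right₀ (by norm_num) (Nat.le_succ I)))
    have h4 := dens_inv_large (i := i) (by omega) (cc_pos hV hW hE he.1).ne' hi2
    have h5 : h i e ≤ ∑ i ∈ Ico 47 (I + 1), h i e :=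
      Finset.single_le_sum (f := fun i => h i e)
        (fun j hj => hh0 j (mem_Ico.1 hj).1 e he.1) (mem_Ico.2 ⟨hi47, by omega⟩)
    have h6 : h i e = Real.exp (-(2 : ℝ) ^ i) *
        (ww ψ θ e * mkA (fun p => Real.exp (gA i p)) (cc e)) := by
      simp only [hh]; rw [if_pos hi1]
    calc ww ψ θ e * (dens ((cc e).primeFactors.filter fun p : ℕ => DD ψ θ e < p))⁻¹
        ≤ ww ψ θ e * (8 + Real.exp (-(2 : ℝ) ^ i) * mkA (fun p => Real.exp (gA i p)) (cc e)) :=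
          mul_le_mul_of_nonneg_left h4 hw
      _ = 8 * ww ψ θ e + h i e := by rw [h6]; ring
      _ ≤ _ := by linarith
  have h2 : ∀ i ∈ Ico 47 (I + 1), ∑ e ∈ E', h i e ≤ CB ε * M * (4 * (1 / 2 : ℝ) ^ i) := by
    intro i hi
    rw [mem_Ico] at hi
    have h3 : ∑ e ∈ E', h i e ≤ ∑ e ∈ E, h i e :=
      Finset.sum_le_sum_of_subset_of_nonneg (filter_subset _ _) fun e he _ => hh0 i hi.1 e he
    have h4 := sum_le_hvw (δ := (2 : ℝ) ^ (i + 1)) (goodWt_gA hi.1) hε hε4 (by positivity)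
      hV hW hψ hθ hE
    have h5 : ((2 : ℝ) ^ (i + 1)) ^ (1 - 2 * ε) ≤ (2 : ℝ) ^ (i + 1) := by
      have : (1 : ℝ) ≤ (2 : ℝ) ^ (i + 1) := one_le_pow₀ (by norm_num)
      calc ((2 : ℝ) ^ (i + 1)) ^ (1 - 2 * ε) ≤ ((2 : ℝ) ^ (i + 1)) ^ (1 : ℝ) :=
            Real.rpow_le_rpow_of_exponent_le this (by linarith)
        _ = _ := Real.rpow_one _
    calc ∑ e ∈ E', h i e ≤ ∑ e ∈ E, h i e := h3
      _ = Real.exp (-(2 : ℝ) ^ i) * ∑ e ∈ E.filter (fun e => DD ψ θ e ≤ (2 : ℝ) ^ (i + 1)),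
          ww ψ θ e * mkA (fun p => Real.exp (gA i p)) (cc e) := by
          simp only [hh]
          rw [← Finset.mul_sum, Finset.sum_filter]
      _ ≤ Real.exp (-(2 : ℝ) ^ i) * (CB ε * ((2 : ℝ) ^ (i + 1) * M)) := by
          refine mul_le_mul_of_nonneg_left (h4.trans ?_) (Real.exp_pos _).le
          unfold CB
          gcongr
      _ = CB ε * M * (Real.exp (-(2 : ℝ) ^ i) * (2 : ℝ) ^ (i + 1)) := by ring
      _ ≤ CB ε * M * (4 * (1 / 2 : ℝ) ^ i) :=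
          mul_le_mul_of_nonneg_left (exp_neg_pow_le i) (by positivity)
  have h3 : ∑ i ∈ Ico 47 (I + 1), (1 / 2 : ℝ) ^ i ≤ 2 := by
    calc ∑ i ∈ Ico 47 (I + 1), (1 / 2 : ℝ) ^ i ≤ ∑ i ∈ range (I + 1), (1 / 2 : ℝ) ^ i := by
          refine Finset.sum_le_sum_of_subset_of_nonneg ?_ fun i _ _ => by positivity
          intro i hi
          rw [mem_Ico] at hi
          exact mem_range.2 hi.2
      _ ≤ 2 := by
          have := Summable.sum_le_tsum (range (I + 1)) (fun i _ => by positivity)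
            (summable_geometric_of_lt_one (r := (1 / 2 : ℝ)) (by norm_num) (by norm_num))
          rw [tsum_geometric_of_lt_one (by norm_num) (by norm_num)] at this
          norm_num at this
          norm_num
          exact this
  have h4 : ∑ e ∈ E', ww ψ θ e ≤ (∑ v ∈ V, wt ψ v) * (∑ w ∈ W, wt θ w) := by
    rw [Finset.sum_mul_sum, ← Finset.sum_product']
    refine Finset.sum_le_sum_of_subset_of_nonneg ((filter_subset _ _).trans hE) fun e he _ => ?_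
    rw [mem_product] at he
    exact mul_nonneg (wt_nonneg (hψ _ he.1)) (wt_nonneg (hθ _ he.2))
  calc ∑ e ∈ E', ww ψ θ e *
        (dens ((cc e).primeFactors.filter fun p : ℕ => DD ψ θ e < p))⁻¹
      ≤ ∑ e ∈ E', (8 * ww ψ θ e + ∑ i ∈ Ico 47 (I + 1), h i e) := Finset.sum_le_sum h1
    _ = 8 * ∑ e ∈ E', ww ψ θ e + ∑ i ∈ Ico 47 (I + 1), ∑ e ∈ E', h i e := by
        rw [Finset.sum_add_distrib, ← Finset.mul_sum, Finset.sum_comm]
    _ ≤ 8 * ((∑ v ∈ V, wt ψ v) * (∑ w ∈ W, wt θ w)) +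
        ∑ i ∈ Ico 47 (I + 1), CB ε * M * (4 * (1 / 2 : ℝ) ^ i) :=
        add_le_add (mul_le_mul_of_nonneg_left h4 (by norm_num)) (Finset.sum_le_sum h2)
    _ = 8 * ((∑ v ∈ V, wt ψ v) * (∑ w ∈ W, wt θ w)) +
        CB ε * M * 4 * ∑ i ∈ Ico 47 (I + 1), (1 / 2 : ℝ) ^ i := by
        have e9 : ∑ i ∈ Ico 47 (I + 1), CB ε * M * (4 * (1 / 2 : ℝ) ^ i) =
            CB ε * M * 4 * ∑ i ∈ Ico 47 (I + 1), (1 / 2 : ℝ) ^ i := by
          rw [Finset.mul_sum (s := Ico 47 (I + 1))]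
          exact Finset.sum_congr rfl fun i _ => by ring
        rw [e9]
    _ ≤ 8 * ((∑ v ∈ V, wt ψ v) * (∑ w ∈ W, wt θ w)) + CB ε * M * 4 * 2 := by
        have : 0 ≤ CB ε * M * 4 := by positivity
        gcongr
    _ = _ := by ring

/-- constant of the energy estimate -/
noncomputable def CE (ε : ℝ) : ℝ :=
  10 * CA ε * ((2 : ℝ) ^ (2 * ε) / ((2 : ℝ) ^ (2 * ε) - 1)) + 5 * CA ε * 2 ^ 47 + 8 * CB ε

lemma CE_pos {ε : ℝ} (hε : 0 < ε) : 0 < CE ε := by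
  have hρ : 1 < (2 : ℝ) ^ (2 * ε) := Real.one_lt_rpow (by norm_num) (by positivity)
  have h1 : 0 < CA ε := Real.exp_pos _
  have h2 : 0 < CB ε := Real.exp_pos _
  have h3 : 0 < (2 : ℝ) ^ (2 * ε) - 1 := by linarith
  unfold CE
  positivity

/-- **Energy of all pairs with `D ≥ 2^{-J}`**, abstract form of LF4 -/
theorem energy {ε : ℝ} (hε : 0 < ε) (hε4 : ε ≤ 1 / 4)
    (hV : ∀ v ∈ V, 0 < v) (hW : ∀ w ∈ W, 0 < w) (hψ : ∀ v ∈ V, 0 ≤ ψ v) (hθ : ∀ w ∈ W, 0 ≤ θ w)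
    (hE : E ⊆ V ×ˢ W) (J : ℕ) (hD : ∀ e ∈ E, ((2 : ℝ) ^ J)⁻¹ ≤ DD ψ θ e) (K : ℝ) (hK : 0 ≤ K)
    (T1 : ℕ × ℕ → ℝ)
    (hT : ∀ e ∈ E, T1 e ≤ K * (ww ψ θ e * max 1 (1 / DD ψ θ e) *
      (dens ((cc e).primeFactors.filter fun p : ℕ => max 1 (DD ψ θ e) < p))⁻¹)) :
    ∑ e ∈ E, T1 e ≤ K * (8 * ((∑ v ∈ V, wt ψ v) * (∑ w ∈ W, wt θ w)) +
      CE ε * ((2 : ℝ) ^ J) ^ (2 * ε) *
        ((∑ v ∈ V, wt ψ v) * (∑ w ∈ W, wt θ w)) ^ (1 / 2 + ε)) := by
  classical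
  set MM : ℝ := (∑ v ∈ V, wt ψ v) * (∑ w ∈ W, wt θ w) with hMM
  have hMM0 : 0 ≤ MM := mul_nonneg
    (Finset.sum_nonneg fun v hv => wt_nonneg (hψ v hv))
    (Finset.sum_nonneg fun w hw => wt_nonneg (hθ w hw))
  set M : ℝ := MM ^ (1 / 2 + ε) with hM
  have hM0 : 0 ≤ M := Real.rpow_nonneg hMM0 _
  have hCA : 0 ≤ CA ε := (Real.exp_pos _).le
  have hCB : 0 ≤ CB ε := (Real.exp_pos _).le
  set f : ℕ × ℕ → ℝ := fun e => ww ψ θ e * max 1 (1 / DD ψ θ e) *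
      (dens ((cc e).primeFactors.filter fun p : ℕ => max 1 (DD ψ θ e) < p))⁻¹ with hf
  have hDpos : ∀ e ∈ E, 0 < DD ψ θ e := fun e he => lt_of_lt_of_le (by positivity) (hD e he)
  have h0 : ∑ e ∈ E, T1 e ≤ K * ∑ e ∈ E, f e := by
    rw [Finset.mul_sum]; exact Finset.sum_le_sum hT
  refine h0.trans (mul_le_mul_of_nonneg_left ?_ hK)
  have hsplit : ∑ e ∈ E, f e = ∑ e ∈ E.filter (fun e => DD ψ θ e ≤ 1), f e +
      (∑ e ∈ (E.filter (fun e => ¬ DD ψ θ e ≤ 1)).filter (fun e => DD ψ θ e ≤ 2 ^ 47), f e +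
      ∑ e ∈ (E.filter (fun e => ¬ DD ψ θ e ≤ 1)).filter (fun e => ¬ DD ψ θ e ≤ 2 ^ 47), f e) := by
    rw [Finset.sum_filter_add_sum_filter_not, Finset.sum_filter_add_sum_filter_not]
  have hA : ∀ e ∈ E, (dens ((cc e).primeFactors.filter fun p : ℕ => max 1 (DD ψ θ e) < p))⁻¹ ≤
      5 * mkA f0 (cc e) := fun e he =>
    dens_inv_le_mkA (cc_pos hV hW hE he).ne' (filter_subset _ _)
  have hA0 : ∀ e ∈ E, 0 ≤ mkA f0 (cc e) := fun e he =>
    zero_le_one.trans (goodWt_f0.pos _ (cc_pos hV hW hE he))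
  -- small scales
  have h1 : ∑ e ∈ E.filter (fun e => DD ψ θ e ≤ 1), f e ≤
      10 * CA ε * ((2 : ℝ) ^ (2 * ε) / ((2 : ℝ) ^ (2 * ε) - 1)) * ((2 : ℝ) ^ J) ^ (2 * ε) * M := by
    have h2 := sum_small hε hε4 hV hW hψ hθ hE J hD
    calc ∑ e ∈ E.filter (fun e => DD ψ θ e ≤ 1), f e
        ≤ ∑ e ∈ E.filter (fun e => DD ψ θ e ≤ 1),
          5 * (ww ψ θ e * mkA f0 (cc e) * (1 / DD ψ θ e)) := by
          refine Finset.sum_le_sum fun e he => ?_
          rw [mem_filter] at he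
          have hp := hDpos e he.1
          have h3 : max 1 (1 / DD ψ θ e) = 1 / DD ψ θ e :=
            max_eq_right ((le_div_iff₀ hp).2 (by linarith [he.2]))
          simp only [hf]
          rw [h3]
          have hw := ww_nonneg hψ hθ hE he.1
          calc ww ψ θ e * (1 / DD ψ θ e) *
              (dens ((cc e).primeFactors.filter fun p : ℕ => max 1 (DD ψ θ e) < p))⁻¹
              ≤ ww ψ θ e * (1 / DD ψ θ e) * (5 * mkA f0 (cc e)) :=
                mul_le_mul_of_nonneg_left (hA e he.1) (by positivity)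
            _ = _ := by ring
      _ = 5 * ∑ e ∈ E.filter (fun e => DD ψ θ e ≤ 1), ww ψ θ e * mkA f0 (cc e) *
          (1 / DD ψ θ e) := by rw [Finset.mul_sum]
      _ ≤ 5 * (2 * CA ε * ((2 : ℝ) ^ (2 * ε) / ((2 : ℝ) ^ (2 * ε) - 1)) *
          ((2 : ℝ) ^ J) ^ (2 * ε) * M) := mul_le_mul_of_nonneg_left h2 (by norm_num)
      _ = _ := by ring
  -- middle scales
  have hone : (1 : ℝ) ≤ ((2 : ℝ) ^ J) ^ (2 * ε) :=
    Real.one_le_rpow (one_le_pow₀ (by norm_num)) (by positivity)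
  have h2 : ∑ e ∈ (E.filter (fun e => ¬ DD ψ θ e ≤ 1)).filter (fun e => DD ψ θ e ≤ 2 ^ 47), f e ≤
      5 * CA ε * 2 ^ 47 * ((2 : ℝ) ^ J) ^ (2 * ε) * M := by
    have h3 := sum_le_hvw (δ := (2 : ℝ) ^ 47) goodWt_f0 hε hε4 (by positivity) hV hW hψ hθ hE
    have h5 : ((2 : ℝ) ^ 47) ^ (1 - 2 * ε) ≤ (2 : ℝ) ^ 47 := by
      calc ((2 : ℝ) ^ 47) ^ (1 - 2 * ε) ≤ ((2 : ℝ) ^ 47) ^ (1 : ℝ) :=
            Real.rpow_le_rpow_of_exponent_le (by norm_num) (by linarith)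
        _ = _ := Real.rpow_one _
    calc ∑ e ∈ (E.filter (fun e => ¬ DD ψ θ e ≤ 1)).filter (fun e => DD ψ θ e ≤ 2 ^ 47), f e
        ≤ ∑ e ∈ (E.filter (fun e => ¬ DD ψ θ e ≤ 1)).filter (fun e => DD ψ θ e ≤ 2 ^ 47),
          5 * (ww ψ θ e * mkA f0 (cc e)) := by
          refine Finset.sum_le_sum fun e he => ?_
          rw [mem_filter, mem_filter, not_le] at he
          have hp := hDpos e he.1.1
          have h3 : max 1 (1 / DD ψ θ e) = 1 :=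
            max_eq_left ((div_le_iff₀ hp).2 (by linarith [he.1.2]))
          simp only [hf]
          rw [h3, mul_one]
          have hw := ww_nonneg hψ hθ hE he.1.1
          calc ww ψ θ e *
              (dens ((cc e).primeFactors.filter fun p : ℕ => max 1 (DD ψ θ e) < p))⁻¹
              ≤ ww ψ θ e * (5 * mkA f0 (cc e)) :=
                mul_le_mul_of_nonneg_left (hA e he.1.1) hw
            _ = _ := by ring
      _ ≤ ∑ e ∈ E.filter (fun e => DD ψ θ e ≤ 2 ^ 47), 5 * (ww ψ θ e * mkA f0 (cc e)) := by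
          refine Finset.sum_le_sum_of_subset_of_nonneg ?_ fun e he _ => ?_
          · intro e he
            rw [mem_filter, mem_filter] at he
            exact mem_filter.2 ⟨he.1.1, he.2⟩
          · rw [mem_filter] at he
            exact mul_nonneg (by norm_num) (mul_nonneg (ww_nonneg hψ hθ hE he.1) (hA0 e he.1))
      _ = 5 * ∑ e ∈ E.filter (fun e => DD ψ θ e ≤ 2 ^ 47), ww ψ θ e * mkA f0 (cc e) := by
          rw [Finset.mul_sum]
      _ ≤ 5 * (CA ε * ((2 : ℝ) ^ 47 * M)) := by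
          refine mul_le_mul_of_nonneg_left (h3.trans ?_) (by norm_num)
          unfold CA
          gcongr
      _ = 5 * CA ε * 2 ^ 47 * 1 * M := by ring
      _ ≤ _ := by gcongr
  -- large scales
  have h3 : ∑ e ∈ (E.filter (fun e => ¬ DD ψ θ e ≤ 1)).filter (fun e => ¬ DD ψ θ e ≤ 2 ^ 47), f e ≤
      8 * MM + 8 * CB ε * ((2 : ℝ) ^ J) ^ (2 * ε) * M := by
    have h4 := sum_large hε hε4 hV hW hψ hθ hE
    calc ∑ e ∈ (E.filter (fun e => ¬ DD ψ θ e ≤ 1)).filter (fun e => ¬ DD ψ θ e ≤ 2 ^ 47), f e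
        ≤ ∑ e ∈ E.filter (fun e => (2 : ℝ) ^ 47 < DD ψ θ e), ww ψ θ e *
        (dens ((cc e).primeFactors.filter fun p : ℕ => DD ψ θ e < p))⁻¹ := by
          have hset : (E.filter (fun e => ¬ DD ψ θ e ≤ 1)).filter (fun e => ¬ DD ψ θ e ≤ 2 ^ 47) =
              E.filter (fun e => (2 : ℝ) ^ 47 < DD ψ θ e) := by
            rw [filter_filter]
            refine filter_congr fun e _ => ?_
            rw [not_le, not_le]
            constructor
            · exact fun h => h.2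
            · intro h
              exact ⟨lt_trans (by norm_num) h, h⟩
          rw [hset]
          refine Finset.sum_le_sum fun e he => le_of_eq ?_
          rw [mem_filter] at he
          have hp := hDpos e he.1
          have h1' : (1 : ℝ) ≤ DD ψ θ e := le_trans (by norm_num) he.2.le
          simp only [hf]
          rw [max_eq_left ((div_le_iff₀ hp).2 (by linarith)), max_eq_right h1', mul_one]
      _ ≤ 8 * MM + 8 * CB ε * M := h4
      _ = 8 * MM + 8 * CB ε * 1 * M := by ring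
      _ ≤ _ := by gcongr
  rw [hsplit]
  unfold CE
  have e1 : (10 * CA ε * ((2 : ℝ) ^ (2 * ε) / ((2 : ℝ) ^ (2 * ε) - 1)) + 5 * CA ε * 2 ^ 47 +
      8 * CB ε) * ((2 : ℝ) ^ J) ^ (2 * ε) * M =
      10 * CA ε * ((2 : ℝ) ^ (2 * ε) / ((2 : ℝ) ^ (2 * ε) - 1)) * ((2 : ℝ) ^ J) ^ (2 * ε) * M +
      5 * CA ε * 2 ^ 47 * ((2 : ℝ) ^ J) ^ (2 * ε) * M +
      8 * CB ε * ((2 : ℝ) ^ J) ^ (2 * ε) * M := by ring
  rw [e1]
  refine (add_le_add h1 (add_le_add h2 h3)).trans (le_of_eq ?_)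
  ring

end Crest.Agent.R4.LF4
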