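import Mathlib
import Crest.Agent.R4.LFEn793
import Crest.Agent.R4.LFDef363

/-!
R4 (S0004), helper793: pair part of LF3/LF4: two items with different targets, arc radii `psi`,
label radii `phi ≤ psi` and labels.
-/

set_option autoImplicit false
open Finset hiding dens

namespace Crest.Agent.R4.LF4

open Crest.Agent.R4.HVW560 Crest.Agent.R4.Ovl560
open Crest.Agent.R4.LF363 hiding cof_pos cof_coprime one_sub_nonneg

/-! ### constants pulled out of the local factors -/

open Classical in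
/-- active primes -/
noncomputable def actS (θ φ : ℝ) (l : Option ℚ) (P : Finset ℕ) : Finset ℕ :=
  P.filter fun p => ∃ ρ : ℚ, l = some ρ ∧ Act θ φ ρ p

lemma actS_subset (θ φ : ℝ) (l : Option ℚ) (P : Finset ℕ) : actS θ φ l P ⊆ P := by
  classical
  exact filter_subset _ _

open Classical in
/-- the excluded class at a prime -/
noncomputable def cls (l : Option ℚ) (p : ℕ) : ℤ :=
  if h : ∃ c : ℤ, ∃ ρ : ℚ, l = some ρ ∧
    ∀ a : ℤ, ((p : ℤ) ∣ ρ.den * a + ρ.num ↔ a ≡ c [ZMOD p]) then h.choose else 0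

lemma cls_spec {θ φ : ℝ} {ρ : ℚ} {p : ℕ} (hp : p.Prime) (h : Act θ φ ρ p) (a : ℤ) :
    ((p : ℤ) ∣ ρ.den * a + ρ.num ↔ a ≡ cls (some ρ) p [ZMOD p]) := by
  classical
  obtain ⟨c, hc, -⟩ := uw_eq_exw hp h
  have hex : ∃ c : ℤ, ∃ ρ' : ℚ, some ρ = some ρ' ∧
    ∀ a : ℤ, ((p : ℤ) ∣ ρ'.den * a + ρ'.num ↔ a ≡ c [ZMOD p]) := ⟨c, ρ, rfl, hc⟩
  have h2 : cls (some ρ) p = hex.choose := by
    unfold cls
    rw [dif_pos hex]
  obtain ⟨ρ', e, h3⟩ := hex.choose_spec
  rw [h2]
  cases e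
  exact h3 a

lemma uw_eq_if {θ φ : ℝ} {l : Option ℚ} {P : Finset ℕ} {p : ℕ} (hp : p.Prime) (hpP : p ∈ P)
    (a : ℤ) : uw θ φ l p a =
      if p ∈ actS θ φ l P then exw (cls l) p a else 1 - 1 / (p : ℝ) := by
  classical
  unfold actS
  cases l with
  | none =>
    rw [if_neg]
    · exact uw_none _ _ _ _
    · rw [mem_filter]; rintro ⟨-, ρ, h, -⟩; cases h
  | some ρ =>
    by_cases h : Act θ φ ρ p
    · rw [if_pos (mem_filter.2 ⟨hpP, ρ, rfl, h⟩), uw_act h]
      unfold exw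
      simp only [cls_spec hp h a]
    · rw [if_neg, uw_not_act h]
      rw [mem_filter]
      rintro ⟨-, ρ', h1, h2⟩
      cases h1
      exact h h2

/-- constant factor at an inactive prime -/
noncomputable def kc (P A : Finset ℕ) (p : ℕ) : ℝ := if p ∈ P \ A then 1 - 1 / (p : ℝ) else 1

lemma prod_kc {P A R : Finset ℕ} (hR : P ⊆ R) : ∏ p ∈ R, kc P A p = dens (P \ A) := by
  classical
  unfold kc dens
  rw [← prod_subset (sdiff_subset.trans hR : P \ A ⊆ R) fun p _ hp => if_neg hp]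
  exact prod_congr rfl fun p hp => if_pos hp

lemma lf_uw {θ θ' φ φ' : ℝ} {l l' : Option ℚ} {P Q : Finset ℕ} (hP : ∀ p ∈ P, p.Prime)
    (hQ : ∀ p ∈ Q, p.Prime) (x y : ℕ) (a b : ℤ) (p : ℕ) :
    lf P Q (uw θ φ l) (uw θ' φ' l') x y a b p =
      kc P (actS θ φ l P) p * kc Q (actS θ' φ' l' Q) p *
        lf (actS θ φ l P) (actS θ' φ' l' Q) (exw (cls l)) (exw (cls l')) x y a b p := by
  classical
  have h1 : ∀ z : ℤ, (if p ∈ P then uw θ φ l p z else 1) =
      kc P (actS θ φ l P) p * (if p ∈ actS θ φ l P then exw (cls l) p z else 1) := by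
    intro z
    unfold kc
    by_cases hp : p ∈ P
    · rw [if_pos hp, uw_eq_if (hP p hp) hp]
      by_cases h : p ∈ actS θ φ l P
      · rw [if_pos h, if_neg, if_pos h, one_mul]
        rw [mem_sdiff]; exact fun h2 => h2.2 h
      · rw [if_neg h, if_pos (mem_sdiff.2 ⟨hp, h⟩), if_neg h, mul_one]
    · have h : p ∉ actS θ φ l P := fun h => hp (actS_subset _ _ _ _ h)
      rw [if_neg hp, if_neg (fun h2 => hp (mem_sdiff.1 h2).1), if_neg h, one_mul]
  have h2 : ∀ z : ℤ, (if p ∈ Q then uw θ' φ' l' p z else 1) =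
      kc Q (actS θ' φ' l' Q) p * (if p ∈ actS θ' φ' l' Q then exw (cls l') p z else 1) := by
    intro z
    unfold kc
    by_cases hp : p ∈ Q
    · rw [if_pos hp, uw_eq_if (hQ p hp) hp]
      by_cases h : p ∈ actS θ' φ' l' Q
      · rw [if_pos h, if_neg, if_pos h, one_mul]
        rw [mem_sdiff]; exact fun h2 => h2.2 h
      · rw [if_neg h, if_pos (mem_sdiff.2 ⟨hp, h⟩), if_neg h, mul_one]
    · have h : p ∉ actS θ' φ' l' Q := fun h => hp (actS_subset _ _ _ _ h)
      rw [if_neg hp, if_neg (fun h2 => hp (mem_sdiff.1 h2).1), if_neg h, one_mul]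
  unfold lf
  rw [← mul_div_assoc, Finset.mul_sum]
  congr 1
  refine Finset.sum_congr rfl fun k _ => ?_
  rw [h1, h2]
  ring

lemma lf_not_mem {A B : Finset ℕ} {u v : ℕ → ℤ → ℝ} {x y : ℕ} {a b : ℤ} {p : ℕ} (hp : p ≠ 0)
    (hA : p ∉ A) (hB : p ∉ B) : lf A B u v x y a b p = 1 := by
  unfold lf
  simp only [if_neg hA, if_neg hB, mul_one, sum_const, card_range, nsmul_eq_mul]
  exact div_self (by exact_mod_cast hp)

open Classical in
/-- **(P1)** product of the joint local factors -/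
theorem prod_lf_le {θ θ' φ φ' : ℝ} {l l' : Option ℚ} {P Q : Finset ℕ} (hP : ∀ p ∈ P, p.Prime)
    (hQ : ∀ p ∈ Q, p.Prime) {x y : ℕ} (hxy : Nat.Coprime x y) {n a b : ℤ}
    (hn : a * y - b * x = n) :
    ∏ p ∈ P ∪ Q, lf P Q (uw θ φ l) (uw θ' φ' l') x y a b p ≤
      dens P * dens Q * (dens (uns (actS θ φ l P) (actS θ' φ' l' Q) x y))⁻¹ *
        (if Surv (actS θ φ l P) (actS θ' φ' l' Q) (cls l) (cls l') x y n then
          (dens (coin (actS θ φ l P) (actS θ' φ' l' Q) (cls l) (cls l') x y n))⁻¹ else 0) := by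
  set A := actS θ φ l P with hA
  set B := actS θ' φ' l' Q with hB
  have hAP : A ⊆ P := actS_subset _ _ _ _
  have hBQ : B ⊆ Q := actS_subset _ _ _ _
  have hAp : ∀ p ∈ A, p.Prime := fun p hp => hP p (hAP hp)
  have hBp : ∀ p ∈ B, p.Prime := fun p hp => hQ p (hBQ hp)
  have hPQ : ∀ p ∈ P ∪ Q, p.Prime := fun p hp => by
    rcases mem_union.1 hp with h | h
    · exact hP p h
    · exact hQ p h
  have e1 : ∏ p ∈ P ∪ Q, lf P Q (uw θ φ l) (uw θ' φ' l') x y a b p =
      dens (P \ A) * dens (Q \ B) *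
        ∏ p ∈ A ∪ B, lf A B (exw (cls l)) (exw (cls l')) x y a b p := by
    rw [prod_congr rfl fun p _ => lf_uw hP hQ x y a b p, prod_mul_distrib, prod_mul_distrib,
      prod_kc subset_union_left, prod_kc subset_union_right]
    congr 1
    symm
    refine prod_subset (union_subset_union hAP hBQ) fun p hp hp' => ?_
    rw [mem_union, not_or] at hp'
    exact lf_not_mem (hPQ p hp).ne_zero hp'.1 hp'.2
  have e2 : ∏ p ∈ A ∪ B, lf A B (exw (cls l)) (exw (cls l')) x y a b p ≤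
      ∏ p ∈ A ∪ B, lam A B (cls l) (cls l') x y n p := by
    refine prod_le_prod (fun p _ => ?_) fun p hp => lf_le_lam _ _ hAp hBp hxy n a b hn hp
    unfold lf
    refine div_nonneg (Finset.sum_nonneg fun k _ => mul_nonneg ?_ ?_) (Nat.cast_nonneg p)
    · split_ifs
      · exact exw_nonneg _ _ _
      · exact zero_le_one
    · split_ifs
      · exact exw_nonneg _ _ _
      · exact zero_le_one
  have hd1 : 0 ≤ dens (P \ A) * dens (Q \ B) :=
    mul_nonneg (dens_pos fun p hp => hP p (mem_sdiff.1 hp).1).le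
      (dens_pos fun p hp => hQ p (mem_sdiff.1 hp).1).le
  rw [e1]
  refine (mul_le_mul_of_nonneg_left e2 hd1).trans (le_of_eq ?_)
  rw [prod_lam, dens_uns hAp hxy]
  have h1 := dens_split A x
  have h2 := dens_split B y
  have h3 : dens P = dens (P \ A) * dens A := by
    unfold dens; rw [prod_sdiff hAP]
  have h4 : dens Q = dens (Q \ B) * dens B := by
    unfold dens; rw [prod_sdiff hBQ]
  have h5 : dens (A.filter fun p => p ∣ x) ≠ 0 :=
    (dens_pos fun p hp => hAp p (mem_filter.1 hp).1).ne'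
  have h6 : dens (B.filter fun p => p ∣ y) ≠ 0 :=
    (dens_pos fun p hp => hBp p (mem_filter.1 hp).1).ne'
  rw [h3, h4, h1, h2]
  field_simp

/-! ### restricted sum over determinants -/

open Classical in
/-- 560's bound of `dsum`, for a restricted set of determinants -/
theorem exists_dsumN : ∃ C : ℝ, 0 < C ∧ ∀ {P Q : Finset ℕ} (c c' : ℕ → ℤ) {x y : ℕ},
    (∀ p ∈ P, p.Prime) → (∀ p ∈ Q, p.Prime) → Nat.Coprime x y → ∀ D : ℝ, 1 ≤ D →
    ∀ a L : ℝ, L ≤ 2 * D → ∀ N : ℤ → Prop, ∀ F : ℝ, 0 ≤ F →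
    (∀ n ∈ win a L, N n → Surv P Q c c' x y n →
      (dens ((coin P Q c c' x y n).filter fun p : ℕ => D < p))⁻¹ ≤ F) →
    ∑ n ∈ (win a L).filter N, (if Surv P Q c c' x y n then (dens (coin P Q c c' x y n))⁻¹ else 0) ≤
      C * D * dens ((uns P Q x y).filter fun p : ℕ => (p : ℝ) ≤ D) * F := by
  obtain ⟨C, hC, hs⟩ := exists_sieve
  refine ⟨C, hC, fun {P Q} c c' {x y} hP hQ hxy D hD a L hL N F hF0 hF => ?_⟩
  have h1 := hs D hD a L hL (uns P Q x y) (ucl c c' x y) (shr P Q x y)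
    (fun p => c p * y - c' p * x) (uns_prime hP hQ) (shr_prime hP) disjoint_uns_shr
  have hset : (win a L).filter (Surv P Q c c' x y) = (win a L).filter
      (fun n => ∀ p ∈ uns P Q x y, ¬ n ≡ ucl c c' x y p [ZMOD (p : ℤ)]) :=
    filter_congr fun n _ => surv_iff hP hQ hxy n
  have hd0 : ∀ n : ℤ, 0 ≤ (dens ((shr P Q x y).filter fun p : ℕ => (p : ℝ) ≤ D ∧
          n ≡ c p * y - c' p * x [ZMOD (p : ℤ)]))⁻¹ := fun n =>
    inv_nonneg.2 (dens_pos fun p hp => shr_prime hP p (mem_filter.1 hp).1).le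
  calc ∑ n ∈ (win a L).filter N, (if Surv P Q c c' x y n then (dens (coin P Q c c' x y n))⁻¹ else 0)
      = ∑ n ∈ ((win a L).filter N).filter (Surv P Q c c' x y), (dens (coin P Q c c' x y n))⁻¹ := by
        rw [Finset.sum_filter (s := (win a L).filter N)]
    _ ≤ ∑ n ∈ ((win a L).filter N).filter (Surv P Q c c' x y),
        (dens ((shr P Q x y).filter fun p : ℕ => (p : ℝ) ≤ D ∧
          n ≡ c p * y - c' p * x [ZMOD (p : ℤ)]))⁻¹ * F := by
        refine Finset.sum_le_sum fun n hn => ?_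
        rw [mem_filter, mem_filter] at hn
        have e1 : dens (coin P Q c c' x y n) =
            dens ((shr P Q x y).filter fun p : ℕ => (p : ℝ) ≤ D ∧
              n ≡ c p * y - c' p * x [ZMOD (p : ℤ)]) *
            dens ((coin P Q c c' x y n).filter fun p : ℕ => D < p) := by
          unfold dens
          rw [← prod_filter_mul_prod_filter_not (coin P Q c c' x y n) (fun p : ℕ => (p : ℝ) ≤ D)]
          congr 1
          · refine prod_congr ?_ fun p _ => rfl
            rw [coin_eq, filter_filter]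
            exact filter_congr fun p _ => and_comm
          · exact prod_congr (filter_congr fun p _ => not_le) fun p _ => rfl
        rw [e1, mul_inv]
        exact mul_le_mul_of_nonneg_left (hF n hn.1.1 hn.1.2 hn.2) (hd0 n)
    _ ≤ ∑ n ∈ (win a L).filter (Surv P Q c c' x y),
        (dens ((shr P Q x y).filter fun p : ℕ => (p : ℝ) ≤ D ∧
          n ≡ c p * y - c' p * x [ZMOD (p : ℤ)]))⁻¹ * F := by
        refine Finset.sum_le_sum_of_subset_of_nonneg
          (filter_subset_filter _ (filter_subset _ _)) fun n _ _ => mul_nonneg (hd0 n) hF0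
    _ = (∑ n ∈ (win a L).filter (fun n => ∀ p ∈ uns P Q x y,
          ¬ n ≡ ucl c c' x y p [ZMOD (p : ℤ)]),
        (dens ((shr P Q x y).filter fun p : ℕ => (p : ℝ) ≤ D ∧
          n ≡ c p * y - c' p * x [ZMOD (p : ℤ)]))⁻¹) * F := by
        rw [← Finset.sum_mul, hset]
    _ ≤ _ := mul_le_mul_of_nonneg_right h1 hF0

/-! ### LF3: large coincidence primes of a nonzero determinant -/

/-- large primes dividing a nonzero integer of controlled size -/
theorem exists_dens_dvd : ∃ C : ℝ, 0 < C ∧ ∀ (m : ℤ), m ≠ 0 → ∀ (y D : ℝ), 0 ≤ y →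
    Real.log |(m : ℝ)| ≤ 2 * y ^ 2 + Real.log (max 1 D) → ∀ H : Finset ℕ, (∀ p ∈ H, p.Prime) →
    (∀ p ∈ H, y < p) → (∀ p ∈ H, max 1 D < p) → (∀ p ∈ H, (p : ℤ) ∣ m) → (dens H)⁻¹ ≤ C := by
  refine ⟨2 * ((Real.exp (22 / Real.log 2) * 2) * Real.exp 10), by positivity,
    fun m hm y D hy hlog H hH h1 h2 h3 => ?_⟩
  have hl2 : 0 < Real.log 2 := Real.log_pos (by norm_num)
  set Y : ℝ := max 2 y with hY
  have hY2 : 2 ≤ Y := le_max_left _ _
  have hyY : y ≤ Y := le_max_right _ _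
  have hlY : 0 < Real.log Y := Real.log_pos (by linarith)
  set Ha := H.filter (fun p : ℕ => (p : ℝ) ≤ Y) with hHa
  set Hb := H.filter (fun p : ℕ => ¬ (p : ℝ) ≤ Y) with hHb
  set H1 := Hb.filter (fun p : ℕ => (p : ℝ) ≤ Y ^ 2) with hH1
  set H2 := Hb.filter (fun p : ℕ => ¬ (p : ℝ) ≤ Y ^ 2) with hH2
  have hdec : (dens H)⁻¹ = (dens Ha)⁻¹ * ((dens H1)⁻¹ * (dens H2)⁻¹) := by
    rw [← mul_inv, ← mul_inv]
    congr 1
    unfold dens
    rw [hH1, hH2, prod_filter_mul_prod_filter_not, hHa, hHb, prod_filter_mul_prod_filter_not]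
  have hpa : ∀ p ∈ Ha, p.Prime := fun p hp => hH p (mem_filter.1 hp).1
  have hpb : ∀ p ∈ Hb, p.Prime := fun p hp => hH p (mem_filter.1 hp).1
  have hp1 : ∀ p ∈ H1, p.Prime := fun p hp => hpb p (mem_filter.1 hp).1
  have hp2 : ∀ p ∈ H2, p.Prime := fun p hp => hpb p (mem_filter.1 hp).1
  -- primes `≤ Y`: only `2`
  have ga : (dens Ha)⁻¹ ≤ 2 := by
    have hsub : Ha ⊆ {2} := by
      intro p hp
      rw [hHa, mem_filter] at hp
      have hyp := h1 p hp.1
      have hpr := (hH p hp.1).two_le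
      rcases le_or_gt y 2 with h | h
      · rw [hY, max_eq_left h] at hp
        have : p ≤ 2 := by exact_mod_cast hp.2
        rw [mem_singleton]; omega
      · rw [hY, max_eq_right h.le] at hp
        linarith [hp.2]
    have h4 := dens_mono (P := Ha) (Q := {2}) (by decide) hsub
    have h5 : dens {2} = 1 / 2 := by unfold dens; rw [prod_singleton]; norm_num
    rw [h5] at h4
    rw [inv_le_comm₀ (by linarith) (by norm_num)]
    linarith
  -- primes in `(Y, Y^2]`
  have g1 : (dens H1)⁻¹ ≤ Real.exp (22 / Real.log 2) * 2 := by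
    have h4 := dens_inv_le_of_range hY2 (show Y ≤ Y ^ 2 by nlinarith) hp1
      (fun p hp => not_le.1 (mem_filter.1 (mem_filter.1 hp).1).2) fun p hp => (mem_filter.1 hp).2
    refine h4.trans ?_
    have h5 : Real.log (Y ^ 2) / Real.log Y = 2 := by
      rw [Real.log_pow]; field_simp; norm_num
    rw [h5]
    refine mul_le_mul_of_nonneg_right (Real.exp_le_exp.2 ?_) (by norm_num)
    exact div_le_div_of_nonneg_left (by norm_num) hl2 (Real.log_le_log (by norm_num) hY2)
  -- primes `> Y^2`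
  set Z : ℝ := max (Y ^ 2) (max 1 D) with hZ
  have hZ1 : 1 ≤ Z := (le_max_left 1 D).trans (le_max_right _ _)
  have hZp : ∀ p ∈ H2, Z ≤ p := fun p hp =>
    max_le (not_le.1 (mem_filter.1 hp).2).le (h2 p (mem_filter.1 (mem_filter.1 hp).1).1).le
  have hcard : (H2.card : ℝ) * Real.log 2 ≤ 3 * Z := by
    have hdvd : ((∏ p ∈ H2, p : ℕ) : ℤ) ∣ m := by
      rw [Int.natCast_dvd]
      refine Finset.prod_primes_dvd _ (fun p hp => (hp2 p hp).prime) fun p hp => ?_
      rw [← Int.natCast_dvd]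
      exact h3 p (mem_filter.1 (mem_filter.1 hp).1).1
    have hle : ((∏ p ∈ H2, p : ℕ) : ℝ) ≤ |(m : ℝ)| := by
      have h5 := Int.le_of_dvd (abs_pos.2 hm) ((dvd_abs _ _).2 hdvd)
      have h6 : (((∏ p ∈ H2, p : ℕ) : ℤ) : ℝ) ≤ ((|m| : ℤ) : ℝ) := by exact_mod_cast h5
      rw [Int.cast_abs] at h6
      exact_mod_cast h6
    have h5 : (2 : ℝ) ^ H2.card ≤ ((∏ p ∈ H2, p : ℕ) : ℝ) := by
      push_cast
      rw [← prod_const]
      exact prod_le_prod (fun _ _ => by norm_num) fun p hp => by exact_mod_cast (hp2 p hp).two_le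
    have h6 : Real.log ((2 : ℝ) ^ H2.card) ≤ Real.log |(m : ℝ)| :=
      Real.log_le_log (by positivity) (h5.trans hle)
    rw [Real.log_pow] at h6
    have h7 : Real.log (max 1 D) ≤ Z := by
      have := Real.log_le_sub_one_of_pos (show 0 < max 1 D by positivity)
      have h8 : max 1 D ≤ Z := le_max_right _ _
      linarith
    have h8 : y ^ 2 ≤ Z := by
      have : y ^ 2 ≤ Y ^ 2 := pow_le_pow_left₀ hy hyY 2
      exact this.trans (le_max_left _ _)
    linarith
  have hsum : ∑ p ∈ H2, 1 / (p : ℝ) ≤ 5 := by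
    have hZ0 : 0 < Z := by linarith
    calc ∑ p ∈ H2, 1 / (p : ℝ) ≤ ∑ _p ∈ H2, 1 / Z :=
          Finset.sum_le_sum fun p hp => one_div_le_one_div_of_le hZ0 (hZp p hp)
      _ = H2.card / Z := by rw [sum_const, nsmul_eq_mul]; ring
      _ ≤ 5 := by
          rw [div_le_iff₀ hZ0]
          have h5 : (0.69 : ℝ) ≤ Real.log 2 := by linarith [Real.log_two_gt_d9]
          have h6 : (H2.card : ℝ) * 0.69 ≤ 3 * Z :=
            (mul_le_mul_of_nonneg_left h5 (Nat.cast_nonneg _)).trans hcard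
          linarith
  have g2 : (dens H2)⁻¹ ≤ Real.exp 10 :=
    (dens_inv_le_exp hp2).trans (Real.exp_le_exp.2 (by linarith))
  rw [hdec]
  have i1 : 0 ≤ (dens H1)⁻¹ := (inv_pos.2 (dens_pos hp1)).le
  have i2 : 0 ≤ (dens H2)⁻¹ := (inv_pos.2 (dens_pos hp2)).le
  exact mul_le_mul ga (mul_le_mul g1 g2 i2 (by positivity)) (mul_nonneg i1 i2) (by norm_num)

/-- the constant of LF3 -/
noncomputable def C3 : ℝ := max 1 exists_dens_dvd.choose

lemma one_le_C3 : 1 ≤ C3 := le_max_left _ _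

/-- the integer `n* = k k' n - h' k x + h k' y` -/
def nst (ρ σ : ℚ) (x y : ℕ) (n : ℤ) : ℤ :=
  ρ.den * σ.den * n - σ.num * ρ.den * x + ρ.num * σ.den * y

lemma nst_eq (ρ σ : ℚ) (x y : ℕ) (n : ℤ) :
    ((nst ρ σ x y n : ℤ) : ℚ) = ρ.den * σ.den * (n - (σ * x - ρ * y)) := by
  have h1 : (ρ : ℚ) * ρ.den = ρ.num := Rat.mul_den_eq_num ρ
  have h2 : (σ : ℚ) * σ.den = σ.num := Rat.mul_den_eq_num σ
  unfold nst
  push_cast
  rw [← h1, ← h2]
  ring

lemma nst_ne {ρ σ : ℚ} {x y : ℕ} {n : ℤ} (h : (n : ℚ) ≠ σ * x - ρ * y) : nst ρ σ x y n ≠ 0 := by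
  intro h0
  have h1 := nst_eq ρ σ x y n
  rw [h0] at h1
  have h2 : (ρ.den : ℚ) ≠ 0 := by exact_mod_cast ρ.den_nz
  have h3 : (σ.den : ℚ) ≠ 0 := by exact_mod_cast σ.den_nz
  have h4 : (n : ℚ) - (σ * x - ρ * y) = 0 := by
    have : (ρ.den * σ.den : ℚ) * (n - (σ * x - ρ * y)) = 0 := by rw [← h1]; simp
    exact (mul_eq_zero.1 this).resolve_left (mul_ne_zero h2 h3)
  exact h (sub_eq_zero.1 h4)

lemma nst_abs_le {θ θ' ψ ψ' φ φ' D : ℝ} {ρ σ : ℚ} {x y : ℕ} {n : ℤ} (hφ : 0 < φ) (hφψ : φ ≤ ψ)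
    (hφ' : 0 < φ') (hφψ' : φ' ≤ ψ') (h1 : y * ψ ≤ D) (h2 : x * ψ' ≤ D)
    (hn : |(n : ℝ) - (x * θ' - y * θ)| < y * ψ + x * ψ') :
    |((nst ρ σ x y n : ℤ) : ℝ)| ≤
      ρ.den * σ.den * (D * (2 + |θ - ρ| / φ + |θ' - σ| / φ')) := by
  have hx0 : (0 : ℝ) ≤ x := Nat.cast_nonneg x
  have hy0 : (0 : ℝ) ≤ y := Nat.cast_nonneg y
  have e1 : ((nst ρ σ x y n : ℤ) : ℝ) = ρ.den * σ.den * (((n : ℝ) - (x * θ' - y * θ)) +
      x * (θ' - σ) - y * (θ - ρ)) := by
    have h3 := congrArg (fun t : ℚ => (t : ℝ)) (nst_eq ρ σ x y n)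
    push_cast at h3
    rw [h3]; ring
  rw [e1, abs_mul]
  have hk : 0 ≤ (ρ.den : ℝ) * σ.den := by positivity
  rw [abs_of_nonneg hk]
  refine mul_le_mul_of_nonneg_left ?_ hk
  have h5 : |(x : ℝ) * (θ' - σ)| ≤ D * (|θ' - σ| / φ') := by
    rw [abs_mul, abs_of_nonneg hx0]
    have : (x : ℝ) * |θ' - σ| = (x * φ') * (|θ' - σ| / φ') := by field_simp
    rw [this]
    refine mul_le_mul_of_nonneg_right ?_ (by positivity)
    exact (mul_le_mul_of_nonneg_left hφψ' hx0).trans h2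
  have h6 : |(y : ℝ) * (θ - ρ)| ≤ D * (|θ - ρ| / φ) := by
    rw [abs_mul, abs_of_nonneg hy0]
    have : (y : ℝ) * |θ - ρ| = (y * φ) * (|θ - ρ| / φ) := by field_simp
    rw [this]
    refine mul_le_mul_of_nonneg_right ?_ (by positivity)
    exact (mul_le_mul_of_nonneg_left hφψ hy0).trans h1
  calc |((n : ℝ) - (x * θ' - y * θ)) + x * (θ' - σ) - y * (θ - ρ)|
      ≤ |((n : ℝ) - (x * θ' - y * θ)) + x * (θ' - σ)| + |(y : ℝ) * (θ - ρ)| := abs_sub _ _
    _ ≤ (|(n : ℝ) - (x * θ' - y * θ)| + |(x : ℝ) * (θ' - σ)|) + |(y : ℝ) * (θ - ρ)| := by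
        linarith [abs_add_le ((n : ℝ) - (x * θ' - y * θ)) (x * (θ' - σ))]
    _ ≤ ((D + D) + D * (|θ' - σ| / φ')) + D * (|θ - ρ| / φ) := by linarith
    _ = _ := by ring

lemma yq_sq (θ φ : ℝ) (ρ : ℚ) (hφ : 0 < φ) :
    yq θ φ ρ ^ 2 = Real.log (ρ.den * (2 + |θ - ρ| / φ)) := by
  unfold yq
  refine Real.sq_sqrt (Real.log_nonneg ?_)
  have h1 : (1 : ℝ) ≤ ρ.den := by exact_mod_cast ρ.pos
  have h2 : 0 ≤ |θ - ρ| / φ := by positivity
  nlinarith

lemma log_nst_le {θ θ' ψ ψ' φ φ' D : ℝ} {ρ σ : ℚ} {x y : ℕ} {n : ℤ} (hφ : 0 < φ) (hφψ : φ ≤ ψ)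
    (hφ' : 0 < φ') (hφψ' : φ' ≤ ψ') (h1 : y * ψ ≤ D) (h2 : x * ψ' ≤ D)
    (hn : |(n : ℝ) - (x * θ' - y * θ)| < y * ψ + x * ψ') (hne : nst ρ σ x y n ≠ 0) :
    Real.log |((nst ρ σ x y n : ℤ) : ℝ)| ≤
      yq θ φ ρ ^ 2 + yq θ' φ' σ ^ 2 + Real.log (max 1 D) := by
  rw [yq_sq θ φ ρ hφ, yq_sq θ' φ' σ hφ']
  have h3 := nst_abs_le (ρ := ρ) (σ := σ) hφ hφψ hφ' hφψ' h1 h2 hn
  set X := |θ - ρ| / φ with hX
  set X' := |θ' - σ| / φ' with hX'
  have hX0 : 0 ≤ X := by positivity
  have hX0' : 0 ≤ X' := by positivity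
  have hk : (1 : ℝ) ≤ ρ.den := by exact_mod_cast ρ.pos
  have hk' : (1 : ℝ) ≤ σ.den := by exact_mod_cast σ.pos
  have hpos : 0 < |((nst ρ σ x y n : ℤ) : ℝ)| := abs_pos.2 (by exact_mod_cast hne)
  have hm1 : (1 : ℝ) ≤ max 1 D := le_max_left _ _
  have hmD : D ≤ max 1 D := le_max_right _ _
  rw [← Real.log_mul (by positivity) (by positivity), ← Real.log_mul (by positivity) (by positivity)]
  refine Real.log_le_log hpos (h3.trans ?_)
  calc (ρ.den : ℝ) * σ.den * (D * (2 + X + X'))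
      ≤ ρ.den * σ.den * (max 1 D * ((2 + X) * (2 + X'))) := by
        refine mul_le_mul_of_nonneg_left ?_ (by positivity)
        refine mul_le_mul hmD ?_ (by positivity) (by positivity)
        nlinarith [mul_nonneg hX0 hX0']
    _ = _ := by ring

/-- a coincidence prime divides `n*` -/
lemma coin_spec {θ θ' φ φ' : ℝ} {l l' : Option ℚ} {P Q : Finset ℕ} (hP : ∀ p ∈ P, p.Prime)
    {x y : ℕ} {n : ℤ} {p : ℕ}
    (hp : p ∈ coin (actS θ φ l P) (actS θ' φ' l' Q) (cls l) (cls l') x y n) :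
    ∃ ρ σ : ℚ, l = some ρ ∧ l' = some σ ∧ yq θ φ ρ < p ∧ yq θ' φ' σ < p ∧
      (p : ℤ) ∣ nst ρ σ x y n := by
  classical
  unfold coin at hp
  rw [mem_filter, mem_inter] at hp
  obtain ⟨⟨hA, hB⟩, -, -, hc⟩ := hp
  unfold actS at hA hB
  rw [mem_filter] at hA hB
  obtain ⟨hpP, ρ, rfl, hρ⟩ := hA
  obtain ⟨-, σ, rfl, hσ⟩ := hB
  have hpp := hP p hpP
  refine ⟨ρ, σ, rfl, rfl, hρ.1, hσ.1, ?_⟩
  have h1 : (p : ℤ) ∣ ρ.den * cls (some ρ) p + ρ.num := (cls_spec hpp hρ _).2 rfl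
  have h2 : (p : ℤ) ∣ σ.den * cls (some σ) p + σ.num := (cls_spec hpp hσ _).2 rfl
  have h3 : (p : ℤ) ∣ (cls (some ρ) p * y - cls (some σ) p * x) - n := hc.dvd
  obtain ⟨s1, e1⟩ := h1
  obtain ⟨s2, e2⟩ := h2
  obtain ⟨s3, e3⟩ := h3
  unfold nst
  refine ⟨σ.den * y * s1 - ρ.den * x * s2 - ρ.den * σ.den * s3, ?_⟩
  linear_combination (σ.den : ℤ) * y * e1 - (ρ.den : ℤ) * x * e2 - (ρ.den : ℤ) * σ.den * e3

/-- **(P2) = LF3**: the coincidence factor of a non-exact determinant is bounded -/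
theorem coin_le {θ θ' ψ ψ' φ φ' D : ℝ} {l l' : Option ℚ} {P Q : Finset ℕ} (hP : ∀ p ∈ P, p.Prime)
    {x y : ℕ} {n : ℤ} (hφ : 0 < φ) (hφψ : φ ≤ ψ)
    (hφ' : 0 < φ') (hφψ' : φ' ≤ ψ') (h1 : y * ψ ≤ D) (h2 : x * ψ' ≤ D)
    (hn : |(n : ℝ) - (x * θ' - y * θ)| < y * ψ + x * ψ')
    (hex : ¬ ∃ ρ σ : ℚ, l = some ρ ∧ l' = some σ ∧ (n : ℚ) = σ * x - ρ * y) :
    (dens ((coin (actS θ φ l P) (actS θ' φ' l' Q) (cls l) (cls l') x y n).filter
      fun p : ℕ => max 1 D < p))⁻¹ ≤ C3 := by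
  classical
  set H := (coin (actS θ φ l P) (actS θ' φ' l' Q) (cls l) (cls l') x y n).filter
      fun p : ℕ => max 1 D < p with hH
  rcases H.eq_empty_or_nonempty with h0 | ⟨p0, hp0⟩
  · rw [h0]
    have : dens ∅ = 1 := by unfold dens; rw [prod_empty]
    rw [this, inv_one]; exact one_le_C3
  · obtain ⟨ρ, σ, rfl, rfl, -, -, -⟩ := coin_spec hP (mem_filter.1 hp0).1
    have hne : nst ρ σ x y n ≠ 0 := nst_ne fun h => hex ⟨ρ, σ, rfl, rfl, h⟩
    have hlog := log_nst_le hφ hφψ hφ' hφψ' h1 h2 hn hne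
    have hy1 : 0 ≤ yq θ φ ρ := Real.sqrt_nonneg _
    have hy2 : 0 ≤ yq θ' φ' σ := Real.sqrt_nonneg _
    have hspec := exists_dens_dvd.choose_spec.2 (nst ρ σ x y n) hne
      (max (yq θ φ ρ) (yq θ' φ' σ)) D (le_max_of_le_left hy1) (by
        refine hlog.trans ?_
        have g1 : yq θ φ ρ ^ 2 ≤ max (yq θ φ ρ) (yq θ' φ' σ) ^ 2 :=
          pow_le_pow_left₀ hy1 (le_max_left _ _) 2
        have g2 : yq θ' φ' σ ^ 2 ≤ max (yq θ φ ρ) (yq θ' φ' σ) ^ 2 :=
          pow_le_pow_left₀ hy2 (le_max_right _ _) 2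
        linarith) H
      (fun p hp => by
        have := (mem_filter.1 hp).1
        unfold coin at this
        exact hP p (actS_subset _ _ _ _ (mem_inter.1 (mem_filter.1 this).1).1))
      (fun p hp => by
        obtain ⟨ρ', σ', e1, e2, g1, g2, -⟩ := coin_spec hP (mem_filter.1 hp).1
        cases e1; cases e2
        exact max_lt g1 g2)
      (fun p hp => (mem_filter.1 hp).2)
      (fun p hp => by
        obtain ⟨ρ', σ', e1, e2, -, -, g3⟩ := coin_spec hP (mem_filter.1 hp).1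
        cases e1; cases e2
        exact g3)
    exact hspec.trans (le_max_right _ _)

/-! ### items -/

/-- data of an item: target, arc radius, label radius, label -/
structure Itm where
  th : ℝ
  psi : ℝ
  phi : ℝ
  lab : Option ℚ

/-- admissible radii -/
def Itm.Ok (a : Itm) : Prop := 0 < a.phi ∧ a.phi ≤ a.psi

/-- scale of the pair -/
noncomputable def DI (a b : Itm) (q r : ℕ) : ℝ := max (cof r q * a.psi) (cof q r * b.psi)

/-- window of determinants -/
noncomputable def WI (a b : Itm) (q r : ℕ) : Finset ℤ :=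
  win (cof q r * b.th - cof r q * a.th) (cof r q * a.psi + cof q r * b.psi)

/-- term of one determinant -/
noncomputable def tmI (a b : Itm) (q r : ℕ) (n : ℤ) : ℝ :=
  2 * a.psi * b.psi / DI a b q r *
    ∏ p ∈ q.primeFactors ∪ r.primeFactors,
      lf q.primeFactors r.primeFactors (uw a.th a.phi a.lab) (uw b.th b.phi b.lab)
        (cof q r) (cof r q) (n * bA (cof q r) (cof r q)) (n * bB (cof q r) (cof r q)) p

/-- exact determinant -/
def ExI (a b : Itm) (q r : ℕ) (n : ℤ) : Prop :=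
  ∃ ρ σ : ℚ, a.lab = some ρ ∧ b.lab = some σ ∧ (n : ℚ) = σ * cof q r - ρ * cof r q

open Classical in
/-- contribution of the exact determinants -/
noncomputable def T0I (a b : Itm) (q r : ℕ) : ℝ :=
  ∑ n ∈ (WI a b q r).filter (ExI a b q r), tmI a b q r n

open Classical in
/-- contribution of the other determinants -/
noncomputable def T1I (a b : Itm) (q r : ℕ) : ℝ :=
  ∑ n ∈ (WI a b q r).filter (fun n => ¬ ExI a b q r n), tmI a b q r n

/-- 363's terms are a special case -/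
lemma T1_eq (θ : ℝ) (ψ : ℕ → ℝ) (lab : ℕ → Option ℚ) (q r : ℕ) :
    T1 θ ψ lab q r = T1I ⟨θ, ψ q, ψ q, lab q⟩ ⟨θ, ψ r, ψ r, lab r⟩ q r := rfl

/-- 363's terms are a special case -/
lemma T0_eq (θ : ℝ) (ψ : ℕ → ℝ) (lab : ℕ → Option ℚ) (q r : ℕ) :
    T0 θ ψ lab q r = T0I ⟨θ, ψ q, ψ q, lab q⟩ ⟨θ, ψ r, ψ r, lab r⟩ q r := rfl

/-- mass of an item (half of the integral) -/
noncomputable def mI (a : Itm) (q : ℕ) : ℝ := a.psi * ((Nat.totient q : ℝ) / q)

lemma mI_eq (a : Itm) {q : ℕ} (hq : 0 < q) : mI a q = a.psi * dens q.primeFactors := by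
  unfold mI dens
  rw [prod_one_sub q hq]

/-- inverse density of the unshared primes above `max 1 D` -/
noncomputable def AI (a b : Itm) (q r : ℕ) : ℝ :=
  (dens ((cof q r * cof r q).primeFactors.filter fun p : ℕ => max 1 (DI a b q r) < p))⁻¹

/-- the constant of the pair bound -/
noncomputable def CP : ℝ := max (2 * exists_dsumN.choose * C3) (10 * C3)

lemma CP_nonneg : 0 ≤ CP := le_max_of_le_right (by
  have := one_le_C3
  linarith)

/-- **(P3)** pair bound -/
theorem T1I_le {a b : Itm} (ha : a.Ok) (hb : b.Ok) {q r : ℕ} (hq : 0 < q) (hr : 0 < r) :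
    T1I a b q r ≤ CP * (mI a q * mI b r * max 1 (1 / DI a b q r) * AI a b q r) := by
  classical
  obtain ⟨hφa, hφψa⟩ := ha
  obtain ⟨hφb, hφψb⟩ := hb
  have hψa : 0 < a.psi := lt_of_lt_of_le hφa hφψa
  have hψb : 0 < b.psi := lt_of_lt_of_le hφb hφψb
  set x := cof q r with hx
  set y := cof r q with hy
  have hxp : 0 < x := HVW560.cof_pos hq
  have hyp : 0 < y := HVW560.cof_pos hr
  have hxy : Nat.Coprime x y := HVW560.cof_coprime hq
  have hxr : (0 : ℝ) < x := by exact_mod_cast hxp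
  have hyr : (0 : ℝ) < y := by exact_mod_cast hyp
  set D := DI a b q r with hD
  have hDmax : D = max ((y : ℝ) * a.psi) (x * b.psi) := rfl
  have h1 : (y : ℝ) * a.psi ≤ D := le_max_left _ _
  have h2 : (x : ℝ) * b.psi ≤ D := le_max_right _ _
  have hDpos : 0 < D := lt_of_lt_of_le (mul_pos hyr hψa) h1
  have hL : (y : ℝ) * a.psi + x * b.psi ≤ 2 * D := by linarith
  have hPp : ∀ p ∈ q.primeFactors, p.Prime := fun p hp => Nat.prime_of_mem_primeFactors hp
  have hQp : ∀ p ∈ r.primeFactors, p.Prime := fun p hp => Nat.prime_of_mem_primeFactors hp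
  set A := actS a.th a.phi a.lab q.primeFactors with hA
  set B := actS b.th b.phi b.lab r.primeFactors with hB
  have hAp : ∀ p ∈ A, p.Prime := fun p hp => hPp p (actS_subset _ _ _ _ hp)
  have hBp : ∀ p ∈ B, p.Prime := fun p hp => hQp p (actS_subset _ _ _ _ hp)
  have hun := uns_prime (x := x) (y := y) hAp hBp
  set U := uns A B x y with hU
  have hdU : 0 < dens U := dens_pos hun
  have hdP : 0 < dens q.primeFactors := dens_pos hPp
  have hdQ : 0 < dens r.primeFactors := dens_pos hQp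
  have hsubU : U ⊆ (x * y).primeFactors := by
    intro p hp
    have hpp := hun p hp
    rw [Nat.mem_primeFactors]
    refine ⟨hpp, ?_, (Nat.mul_pos hxp hyp).ne'⟩
    rw [hU, uns, mem_union, mem_filter, mem_filter] at hp
    rcases hp with h | h
    · exact Dvd.dvd.mul_right h.2 _
    · exact Dvd.dvd.mul_left h.2 _
  have hccp : ∀ p ∈ (x * y).primeFactors, p.Prime := fun p hp => Nat.prime_of_mem_primeFactors hp
  have hAI : (dens (U.filter fun p : ℕ => max 1 D < p))⁻¹ ≤ AI a b q r := by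
    unfold AI
    refine inv_anti₀ (dens_pos fun p hp => hccp p (mem_filter.1 hp).1) ?_
    refine dens_mono (fun p hp => hccp p (mem_filter.1 hp).1) ?_
    exact filter_subset_filter _ hsubU
  have hAI0 : 0 ≤ AI a b q r :=
    (inv_pos.2 (dens_pos fun p hp => hun p (mem_filter.1 hp).1)).le.trans hAI
  -- bound of the sum of the local factors
  set S : ℤ → ℝ := fun n => if Surv A B (cls a.lab) (cls b.lab) x y n then
          (dens (coin A B (cls a.lab) (cls b.lab) x y n))⁻¹ else 0 with hS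
  have hterm : ∀ n : ℤ, tmI a b q r n ≤
      2 * a.psi * b.psi / D * (dens q.primeFactors * dens r.primeFactors * (dens U)⁻¹ * S n) := by
    intro n
    unfold tmI
    refine mul_le_mul_of_nonneg_left ?_ (by positivity)
    exact prod_lf_le hPp hQp hxy (bez hxy n)
  have hsum : T1I a b q r ≤ 2 * a.psi * b.psi / D * (dens q.primeFactors * dens r.primeFactors *
      (dens U)⁻¹ * ∑ n ∈ (WI a b q r).filter (fun n => ¬ ExI a b q r n), S n) := by
    unfold T1I
    rw [Finset.mul_sum, Finset.mul_sum]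
    exact Finset.sum_le_sum fun n _ => hterm n
  have hF : ∀ n ∈ WI a b q r, (¬ ExI a b q r n) → 
      (dens ((coin A B (cls a.lab) (cls b.lab) x y n).filter fun p : ℕ => max 1 D < p))⁻¹ ≤ C3 := by
    intro n hn hex
    exact coin_le (θ := a.th) (θ' := b.th) (ψ := a.psi) (ψ' := b.psi) hPp hφa hφψa hφb hφψb h1 h2
      (mem_win.1 hn) hex
  have hC3 : 0 < C3 := lt_of_lt_of_le one_pos one_le_C3
  have hm : mI a q * mI b r = a.psi * b.psi * (dens q.primeFactors * dens r.primeFactors) := by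
    rw [mI_eq a hq, mI_eq b hr]; ring
  have hm0 : 0 ≤ mI a q * mI b r := by rw [hm]; positivity
  rcases le_total 1 D with hD1 | hD1
  · -- `D ≥ 1`
    have hmax : max 1 D = D := max_eq_right hD1
    have hmax2 : max 1 (1 / D) = 1 := max_eq_left ((div_le_iff₀ hDpos).2 (by linarith))
    have hs := exists_dsumN.choose_spec
    have h3 := hs.2 (cls a.lab) (cls b.lab) hAp hBp hxy D hD1
      (x * b.th - y * a.th) (y * a.psi + x * b.psi) hL (fun n => ¬ ExI a b q r n) C3 hC3.le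
      (fun n hn hex _ => by
        have := hF n hn hex
        rwa [hmax] at this)
    have h3' : ∑ n ∈ (WI a b q r).filter (fun n => ¬ ExI a b q r n), S n ≤
        exists_dsumN.choose * D * dens (U.filter fun p : ℕ => (p : ℝ) ≤ D) * C3 := by
      have key : ∀ (G : Finset ℤ) (g : ℤ → ℝ) (i1 i2 : DecidablePred fun n => ¬ ExI a b q r n),
          ∑ n ∈ @Finset.filter ℤ (fun n => ¬ ExI a b q r n) i1 G, g n =
            ∑ n ∈ @Finset.filter ℤ (fun n => ¬ ExI a b q r n) i2 G, g n := by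
        intro G g i1 i2
        rw [Subsingleton.elim i1 i2]
      exact (le_of_eq (key _ _ _ _)).trans h3
    have h4 : dens U = dens (U.filter fun p : ℕ => (p : ℝ) ≤ D) *
        dens (U.filter fun p : ℕ => D < p) := by
      unfold dens
      rw [← prod_filter_mul_prod_filter_not U (fun p : ℕ => (p : ℝ) ≤ D)]
      congr 1
      exact prod_congr (filter_congr fun p _ => not_le) fun p _ => rfl
    have h5 : 0 < dens (U.filter fun p : ℕ => (p : ℝ) ≤ D) :=
      dens_pos fun p hp => hun p (mem_filter.1 hp).1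
    have h6 : 0 < dens (U.filter fun p : ℕ => D < p) :=
      dens_pos fun p hp => hun p (mem_filter.1 hp).1
    rw [hmax] at hAI
    rw [hmax2, mul_one]
    have hc0 : 0 < exists_dsumN.choose := hs.1
    calc T1I a b q r ≤ 2 * a.psi * b.psi / D * (dens q.primeFactors * dens r.primeFactors *
          (dens U)⁻¹ * (exists_dsumN.choose * D *
            dens (U.filter fun p : ℕ => (p : ℝ) ≤ D) * C3)) := by
          refine hsum.trans (mul_le_mul_of_nonneg_left ?_ (by positivity))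
          exact mul_le_mul_of_nonneg_left h3' (by positivity)
      _ = (2 * exists_dsumN.choose * C3) * (mI a q * mI b r *
            (dens (U.filter fun p : ℕ => D < p))⁻¹) := by
          rw [hm, h4]
          field_simp
      _ ≤ (2 * exists_dsumN.choose * C3) * (mI a q * mI b r * AI a b q r) := by
          refine mul_le_mul_of_nonneg_left ?_ (by positivity)
          exact mul_le_mul_of_nonneg_left hAI hm0
      _ ≤ CP * (mI a q * mI b r * AI a b q r) :=
          mul_le_mul_of_nonneg_right (le_max_left _ _) (mul_nonneg hm0 hAI0)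
  · -- `D ≤ 1`
    have hmax : max 1 D = 1 := max_eq_left hD1
    have hmax2 : max 1 (1 / D) = 1 / D := max_eq_right ((le_div_iff₀ hDpos).2 (by linarith))
    have hfil : ∀ H : Finset ℕ, (∀ p ∈ H, p.Prime) → H.filter (fun p : ℕ => (1 : ℝ) < p) = H := by
      intro H hH
      refine filter_true_of_mem fun p hp => ?_
      exact_mod_cast (hH p hp).one_lt
    have hcard : (((WI a b q r).filter (fun n => ¬ ExI a b q r n)).card : ℝ) ≤ 5 := by
      have h3 : ((WI a b q r).card : ℝ) ≤ 2 * (y * a.psi + x * b.psi) + 1 :=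
        card_win_le' _ (by positivity)
      have h4 : (((WI a b q r).filter (fun n => ¬ ExI a b q r n)).card : ℝ) ≤
          ((WI a b q r).card : ℝ) := by exact_mod_cast card_filter_le _ _
      linarith
    have h3' : ∑ n ∈ (WI a b q r).filter (fun n => ¬ ExI a b q r n), S n ≤ 5 * C3 := by
      calc ∑ n ∈ (WI a b q r).filter (fun n => ¬ ExI a b q r n), S n
          ≤ ∑ _n ∈ (WI a b q r).filter (fun n => ¬ ExI a b q r n), C3 := by
            refine Finset.sum_le_sum fun n hn => ?_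
            rw [mem_filter] at hn
            have h4 := hF n hn.1 hn.2
            rw [hmax, hfil _ (coin_prime hAp n)] at h4
            simp only [hS]
            split_ifs
            · exact h4
            · exact hC3.le
        _ = (((WI a b q r).filter (fun n => ¬ ExI a b q r n)).card : ℝ) * C3 := by
            rw [sum_const, nsmul_eq_mul]
        _ ≤ 5 * C3 := mul_le_mul_of_nonneg_right hcard hC3.le
    rw [hmax, hfil _ hun] at hAI
    rw [hmax2]
    calc T1I a b q r ≤ 2 * a.psi * b.psi / D * (dens q.primeFactors * dens r.primeFactors *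
          (dens U)⁻¹ * (5 * C3)) := by
          refine hsum.trans (mul_le_mul_of_nonneg_left ?_ (by positivity))
          exact mul_le_mul_of_nonneg_left h3' (by positivity)
      _ = (10 * C3) * (mI a q * mI b r * (1 / D) * (dens U)⁻¹) := by
          rw [hm]; ring
      _ ≤ (10 * C3) * (mI a q * mI b r * (1 / D) * AI a b q r) := by
          refine mul_le_mul_of_nonneg_left ?_ (by positivity)
          exact mul_le_mul_of_nonneg_left hAI (by positivity)
      _ ≤ CP * (mI a q * mI b r * (1 / D) * AI a b q r) := by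
          refine mul_le_mul_of_nonneg_right (le_max_right _ _) ?_
          have : 0 ≤ 1 / D := by positivity
          exact mul_nonneg (mul_nonneg hm0 this) hAI0

/-- a nonzero `T1I` has a non-exact determinant in the window -/
lemma exists_of_T1I_ne {a b : Itm} {q r : ℕ} (h : T1I a b q r ≠ 0) :
    ∃ n : ℤ, |(n : ℝ) - (cof q r * b.th - cof r q * a.th)| <
      cof r q * a.psi + cof q r * b.psi ∧ ¬ ExI a b q r n := by
  classical
  unfold T1I at h
  obtain ⟨n, hn, -⟩ := Finset.exists_ne_zero_of_sum_ne_zero h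
  rw [mem_filter] at hn
  exact ⟨n, mem_win.1 hn.1, hn.2⟩

/-- the weight `A(x) A(y)` -/
noncomputable def Axy (x y : ℕ) : ℝ := (dens (x * y).primeFactors)⁻¹

lemma AI_le (a b : Itm) {q r : ℕ} (_hq : 0 < q) (_hr : 0 < r) :
    AI a b q r ≤ Axy (cof q r) (cof r q) := by
  unfold AI Axy
  have hp : ∀ p ∈ (cof q r * cof r q).primeFactors, p.Prime :=
    fun p hp => Nat.prime_of_mem_primeFactors hp
  exact inv_anti₀ (dens_pos hp) (dens_mono hp (filter_subset _ _))

lemma Axy_eq {x y : ℕ} (hxy : Nat.Coprime x y) :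
    Axy x y = (dens x.primeFactors)⁻¹ * (dens y.primeFactors)⁻¹ := by
  unfold Axy
  rw [hxy.primeFactors_mul, ← mul_inv]
  congr 1
  unfold dens
  exact prod_union (Nat.Coprime.disjoint_primeFactors hxy)

/-- **(P3) at small scale** `1/(2t) < D ≤ 1/t` -/
theorem T1I_le_small {a b : Itm} (ha : a.Ok) (hb : b.Ok) {q r : ℕ} (hq : 0 < q) (hr : 0 < r)
    {t : ℝ} (ht : 1 ≤ t) (hD : 1 / (2 * t) ≤ DI a b q r) :
    T1I a b q r ≤ (2 * CP) * (t * (mI a q * mI b r) * Axy (cof q r) (cof r q)) := by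
  have h1 := T1I_le ha hb hq hr
  have h2 := AI_le a b hq hr
  have hψa : 0 < a.psi := lt_of_lt_of_le ha.1 ha.2
  have hψb : 0 < b.psi := lt_of_lt_of_le hb.1 hb.2
  have hm0 : 0 ≤ mI a q * mI b r := by unfold mI; positivity
  have hDpos : 0 < DI a b q r := lt_of_lt_of_le (by positivity) hD
  have h3 : max 1 (1 / DI a b q r) ≤ 2 * t := by
    refine max_le (by linarith) ?_
    rw [div_le_iff₀ hDpos]
    rw [div_le_iff₀ (by positivity)] at hD
    linarith
  have hp : ∀ p ∈ (cof q r * cof r q).primeFactors, p.Prime :=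
    fun p hp => Nat.prime_of_mem_primeFactors hp
  have h0 : 0 ≤ AI a b q r := (inv_pos.2 (dens_pos fun p hp' => hp p (mem_filter.1 hp').1)).le
  have hA0 : 0 ≤ Axy (cof q r) (cof r q) := h0.trans h2
  calc T1I a b q r ≤ CP * (mI a q * mI b r * max 1 (1 / DI a b q r) * AI a b q r) := h1
    _ ≤ CP * (mI a q * mI b r * (2 * t) * Axy (cof q r) (cof r q)) := by
        refine mul_le_mul_of_nonneg_left ?_ CP_nonneg
        refine mul_le_mul (mul_le_mul_of_nonneg_left h3 hm0) h2 h0 ?_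
        exact mul_nonneg hm0 (by linarith)
    _ = _ := by ring

/-- **LF4**: all pairs with `D ≥ 2^{-J}`, non-exact determinants, two families of items -/
theorem lf4 {ε : ℝ} (hε : 0 < ε) (hε4 : ε ≤ 1 / 4) {V W : Finset ℕ} {E : Finset (ℕ × ℕ)}
    (a b : ℕ → Itm) (hV : ∀ v ∈ V, 0 < v ∧ (a v).Ok) (hW : ∀ w ∈ W, 0 < w ∧ (b w).Ok)
    (hE : E ⊆ V ×ˢ W) (J : ℕ) (hD : ∀ e ∈ E, ((2 : ℝ) ^ J)⁻¹ ≤ DI (a e.1) (b e.2) e.1 e.2) :
    ∑ e ∈ E, T1I (a e.1) (b e.2) e.1 e.2 ≤
      CP * (8 * ((∑ v ∈ V, mI (a v) v) * (∑ w ∈ W, mI (b w) w)) +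
        CE ε * ((2 : ℝ) ^ J) ^ (2 * ε) *
          ((∑ v ∈ V, mI (a v) v) * (∑ w ∈ W, mI (b w) w)) ^ (1 / 2 + ε)) := by
  have hDD : ∀ e : ℕ × ℕ, DD (fun v => (a v).psi) (fun w => (b w).psi) e =
      DI (a e.1) (b e.2) e.1 e.2 := fun e => max_comm _ _
  refine energy (V := V) (W := W) (ψ := fun v => (a v).psi) (θ := fun w => (b w).psi) hε hε4
    (fun v hv => (hV v hv).1) (fun w hw => (hW w hw).1)
    (fun v hv => ((hV v hv).2.1.trans_le (hV v hv).2.2).le)
    (fun w hw => ((hW w hw).2.1.trans_le (hW w hw).2.2).le) hE J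
    (fun e he => by rw [hDD]; exact hD e he) CP CP_nonneg
    (fun e => T1I (a e.1) (b e.2) e.1 e.2) fun e he => ?_
  have hm := mem_product.1 (hE he)
  have h1 := T1I_le (hV _ hm.1).2 (hW _ hm.2).2 (hV _ hm.1).1 (hW _ hm.2).1
  rw [hDD]
  exact h1

/-- the diagonal: `q = r` without label or with a non-exact determinant is covered by the trivial
bound `T1I ≤ 10 C3 ...`; here: each item against itself -/
theorem T1I_diag_le {a : Itm} (ha : a.Ok) {q : ℕ} (hq : 0 < q) (h1 : a.psi ≤ 1) :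
    T1I a a q q ≤ CP * mI a q := by
  have h2 := T1I_le ha ha hq hq
  have hψ : 0 < a.psi := lt_of_lt_of_le ha.1 ha.2
  have hc : cof q q = 1 := by unfold cof; rw [Nat.gcd_self]; exact Nat.div_self hq
  have hD : DI a a q q = a.psi := by unfold DI; rw [hc]; simp
  have hA : AI a a q q = 1 := by
    unfold AI
    rw [hc]
    simp [dens]
  rw [hD, hA, mul_one] at h2
  have h3 : max 1 (1 / a.psi) = 1 / a.psi := max_eq_right ((le_div_iff₀ hψ).2 (by linarith))
  rw [h3] at h2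
  refine h2.trans (mul_le_mul_of_nonneg_left ?_ CP_nonneg)
  have h4 : mI a q * mI a q * (1 / a.psi) = mI a q * ((Nat.totient q : ℝ) / q) := by
    unfold mI; field_simp
  rw [h4]
  have h5 : ((Nat.totient q : ℝ) / q) ≤ 1 := by
    have hq' : (0 : ℝ) < q := by exact_mod_cast hq
    rw [div_le_one hq']
    exact_mod_cast Nat.totient_le q
  have h6 : 0 ≤ mI a q := by unfold mI; positivity
  exact mul_le_of_le_one_right h6 h5

end Crest.Agent.R4.LF4
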