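import Mathlib
import Crest.Agent.R4.ClsU_944
import Crest.Agent.R4.LF67_765
import Crest.Agent.R4.LF4P793
import Crest.Agent.R4.LFX223

/-!
R4 (S0004), helper579: LEAF TEXT, LF11 — assembly of the deep classes (U), (S), (B).

`deep_pairs`: if `T1` is bounded by `K w w' / D A(x) A(y)` on pairs with `D ≤ 1/T`, and is non-zero
only on related pairs whose determinant is not the one of a common label (label radius `η ψ`), then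
the sum of `T1` over the pairs with `x ≠ y`, `D ≤ 1/T` is
`≤ C T^{-c} (M_V M_W)^{1/2+eps1}`, provided class (B) is known.
-/

set_option autoImplicit false
open Finset

namespace Crest.Agent.R4.LF11

open Crest.Agent.R4.HVW560 Crest.Agent.R4.LF765 Crest.Agent.R4.ClsS Crest.Agent.R4.ClsU

/-- `D = max (y ψ_q) (x ψ'_r)` -/
noncomputable def DD (ψ ψ' : ℕ → ℝ) (e : ℕ × ℕ) : ℝ :=
  max (cof e.2 e.1 * ψ e.1) (cof e.1 e.2 * ψ' e.2)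

/-- an unstructured related pair with `max x y > Yb`, `x ≠ y` -/
structure PairB (θ t N Yb : ℝ) (x y : ℕ) : Prop where
  hx : 0 < x
  hy : 0 < y
  hxy : x ≠ y
  hmY : Yb < ((max x y : ℕ):ℝ)
  rel : ∃ n : ℤ, |(n:ℝ) - θ * ((x:ℝ) - y)| ≤ 2 / t
  uns : ∀ Y : ℝ, 0 < Y → Y < ((max x y : ℕ):ℝ) → ((max x y : ℕ):ℝ) ≤ 2 * Y → ¬ Struct N θ t Y

/-- the edge weight of the deep classes -/
noncomputable def ew (ψ ψ' : ℕ → ℝ) (e : ℕ × ℕ) : ℝ :=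
  wt ψ e.1 * wt ψ' e.2 * (Af (cof e.1 e.2) * Af (cof e.2 e.1))

/-- class (B) for a given family, as a hypothesis: all scales `t ≥ T` -/
def ClsB (θ T CB cB : ℝ) (Yb : ℝ → ℝ) (V W : Finset ℕ) (ψ ψ' : ℕ → ℝ) : Prop :=
  ∀ t : ℝ, T ≤ t → ∀ E : Finset (ℕ × ℕ), Sys V W E ψ ψ' (1/t) →
    (∀ e ∈ E, PairB θ t (t^(1/10:ℝ)) (Yb t) (cof e.1 e.2) (cof e.2 e.1)) →
    ∑ e ∈ E, ew ψ ψ' e ≤ CB * t^(-(1+cB)) * ((∑ v ∈ V, wt ψ v) * (∑ w ∈ W, wt ψ' w))^(1/2+eps1)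

lemma ew_nonneg {ψ ψ' : ℕ → ℝ} {e : ℕ × ℕ} (h1 : 0 ≤ ψ e.1) (h2 : 0 ≤ ψ' e.2) : 0 ≤ ew ψ ψ' e := by
  unfold ew
  have := Af_pos (cof e.1 e.2)
  have := Af_pos (cof e.2 e.1)
  have := wt_nonneg h1
  have := wt_nonneg h2
  positivity

/-- LF7 for the label radius `η ψ` -/
theorem struct_exact {η θ t ψ ψ' D Y : ℝ} {x y : ℕ} {n : ℤ} (hη : 0 < η) (hη1 : η ≤ 1)
    (ht : 2^50 ≤ t) (htη : 2^38 ≤ η^10 * t)
    (hψ : 0 < ψ) (hψ' : 0 < ψ') (hx : 1 ≤ x) (hy : 1 ≤ y)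
    (hyψ : (y:ℝ) * ψ ≤ D) (hxψ : (x:ℝ) * ψ' ≤ D) (hD1 : 1 / (2 * t) < D) (hD2 : D ≤ 1 / t)
    (himb : D ≤ t^(1/50:ℝ) * (y * ψ)) (himb' : D ≤ t^(1/50:ℝ) * (x * ψ'))
    (hn : |(n:ℝ) - θ * ((x:ℝ) - y)| < 2 * D)
    (hY : 0 < Y) (hxY : (x:ℝ) ≤ 2 * Y) (hyY : (y:ℝ) ≤ 2 * Y) (hst : Struct (t^(1/10:ℝ)) θ t Y) :
    ∃ ρ : ℚ, (∀ a, η * ψ ≤ a → a ≤ ψ → Lb θ a ρ) ∧ (∀ a, η * ψ' ≤ a → a ≤ ψ' → Lb θ a ρ) ∧
      (n:ℝ) = ρ * ((x:ℝ) - y) := by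
  have ht0 : 0 < t := lt_of_lt_of_le (by norm_num) ht
  set s : ℝ := t^(1/50:ℝ) with hs
  have hs2 : (2:ℝ) ≤ s := by
    have h1 : ((2:ℝ)^50)^(1/50:ℝ) ≤ t^(1/50:ℝ) := Real.rpow_le_rpow (by norm_num) ht (by norm_num)
    have h2 : ((2:ℝ)^50)^(1/50:ℝ) = 2 := by
      rw [← Real.rpow_natCast (2:ℝ) 50, ← Real.rpow_mul (by norm_num)]; norm_num
    rwa [h2] at h1
  have hts : t = s^50 := by
    rw [hs, ← Real.rpow_natCast (t^(1/50:ℝ)) 50, ← Real.rpow_mul ht0.le]; norm_num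
  have h5 : t^(1/10:ℝ) = s^5 := by
    rw [hs, ← Real.rpow_natCast (t^(1/50:ℝ)) 5, ← Real.rpow_mul ht0.le]; norm_num
  rw [h5] at hst
  obtain ⟨ρ, h1, h2, h3, h4, h6, h6'⟩ := LF7_poly hs2 hts hψ hψ' hx hy hyψ hxψ hD1 hD2 himb himb' hn hY hxY hyY hst
  have hs0 : 0 < s := by linarith
  -- `2^15 s^30 ψ ≤ η^4`
  have hη4 : 2^15 ≤ η^4 * s^20 := by
    have h7 : (2:ℝ)^38 ≤ (η * s^5)^10 := by
      calc (2:ℝ)^38 ≤ η^10 * t := htη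
        _ = (η * s^5)^10 := by rw [hts]; ring
    have h8 : (2:ℝ)^15 ≤ (η * s^5)^4 := by
      by_contra hcon
      push Not at hcon
      have h9 : ((η * s^5)^4)^5 < (2^15)^5 := pow_lt_pow_left₀ hcon (by positivity) (by norm_num)
      have h10 : ((2:ℝ)^38)^2 ≤ ((η * s^5)^10)^2 := pow_le_pow_left₀ (by norm_num) h7 2
      have e1 : ((η * s^5)^4)^5 = ((η * s^5)^10)^2 := by ring
      rw [e1] at h9
      have : ((2:ℝ)^38)^2 < (2^15)^5 := lt_of_le_of_lt h10 h9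
      norm_num at this
    calc (2:ℝ)^15 ≤ (η * s^5)^4 := h8
      _ = η^4 * s^20 := by ring
  have key : ∀ a : ℝ, 0 < a → a ≤ D → Lb θ a ρ → |θ - ρ| ≤ 8 * s^6 * a →
      ∀ b, η * a ≤ b → b ≤ a → Lb θ b ρ := by
    intro a ha haD hL hb b hb1 hb2
    have hb0 : 0 < b := lt_of_lt_of_le (by positivity) hb1
    refine ⟨?_, ?_⟩
    · calc (ρ.den:ℝ)^5 * b ≤ (ρ.den:ℝ)^5 * a := mul_le_mul_of_nonneg_left hb2 (by positivity)
        _ ≤ 1 := hL.1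
    · have hat : a * s^50 ≤ 1 := by
        have h1 : a ≤ 1 / t := haD.trans hD2
        rw [le_div_iff₀ ht0, hts] at h1; exact h1
      have h11 : 2^15 * s^30 * a ≤ η^4 := by
        calc 2^15 * s^30 * a ≤ (η^4 * s^20) * s^30 * a := by
              apply mul_le_mul_of_nonneg_right _ ha.le
              exact mul_le_mul_of_nonneg_right hη4 (by positivity)
          _ = η^4 * (a * s^50) := by ring
          _ ≤ η^4 * 1 := mul_le_mul_of_nonneg_left hat (by positivity)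
          _ = η^4 := mul_one _
      calc |θ - ρ|^5 ≤ (8 * s^6 * a)^5 := pow_le_pow_left₀ (abs_nonneg _) hb 5
        _ = a^4 * (2^15 * s^30 * a) := by ring
        _ ≤ a^4 * η^4 := mul_le_mul_of_nonneg_left h11 (by positivity)
        _ = (η * a)^4 := by ring
        _ ≤ b^4 := pow_le_pow_left₀ (by positivity) hb1 4
  have hyD : ψ ≤ D := by
    refine le_trans ?_ hyψ
    have : (1:ℝ) ≤ y := by exact_mod_cast hy
    exact le_mul_of_one_le_left hψ.le this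
  have hxD : ψ' ≤ D := by
    refine le_trans ?_ hxψ
    have : (1:ℝ) ≤ x := by exact_mod_cast hx
    exact le_mul_of_one_le_left hψ'.le this
  exact ⟨ρ, key ψ hψ hyD h1 h6, key ψ' hψ' hxD h2 h6', h3⟩

/-- hypotheses on the term `T1`; `φ, φ'` are the label radii -/
structure T1Hyp (K θ T η : ℝ) (V W : Finset ℕ) (ψ φ ψ' φ' : ℕ → ℝ) (T1 : ℕ × ℕ → ℝ) : Prop where
  hV : ∀ v ∈ V, 0 < v
  hW : ∀ w ∈ W, 0 < w
  hψ : ∀ v ∈ V, 0 < ψ v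
  hψ' : ∀ w ∈ W, 0 < ψ' w
  hφ : ∀ v ∈ V, η * ψ v ≤ φ v ∧ φ v ≤ ψ v
  hφ' : ∀ w ∈ W, η * ψ' w ≤ φ' w ∧ φ' w ≤ ψ' w
  h3 : ∀ e ∈ V ×ˢ W, DD ψ ψ' e ≤ 1/T → T1 e ≤ K * (ew ψ ψ' e / DD ψ ψ' e)
  h7 : ∀ e ∈ V ×ˢ W, cof e.1 e.2 ≠ cof e.2 e.1 → DD ψ ψ' e ≤ 1/T → 0 < T1 e →
    ∃ n : ℤ, |(n:ℝ) - θ * ((cof e.1 e.2 : ℝ) - cof e.2 e.1)| < cof e.2 e.1 * ψ e.1 + cof e.1 e.2 * ψ' e.2 ∧
      ∀ ρ : ℚ, Lb θ (φ e.1) ρ → Lb θ (φ' e.2) ρ →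
        (n:ℝ) = ρ * ((cof e.1 e.2 : ℝ) - cof e.2 e.1) → False

lemma DD_pos {ψ ψ' : ℕ → ℝ} {e : ℕ × ℕ} (h2 : 0 < e.2) (hψ : 0 < ψ e.1) : 0 < DD ψ ψ' e :=
  lt_max_of_lt_left (mul_pos (by exact_mod_cast cof_pos h2) hψ)

/-- one scale `t`: the pairs with `1/(2t) < D ≤ 1/t` -/
theorem one_scale : ∃ C c0 : ℝ, 1 ≤ C ∧ 0 < c0 ∧ c0 ≤ 1/40 ∧
    ∀ (K CB cB θ T η : ℝ) (Yb : ℝ → ℝ) (V W : Finset ℕ) (ψ φ ψ' φ' : ℕ → ℝ) (T1 : ℕ × ℕ → ℝ),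
    0 ≤ K → 0 ≤ CB → 0 < cB → 2^50 ≤ T → 0 < η → η ≤ 1 → 2^38 ≤ η^10 * T →
    (∀ t, T ≤ t → Yb t ≤ Real.exp (t^c0)) → T1Hyp K θ T η V W ψ φ ψ' φ' T1 →
    ClsB θ T CB cB Yb V W ψ ψ' → ∀ t, T ≤ t → ∀ E : Finset (ℕ × ℕ), E ⊆ V ×ˢ W →
    (∀ e ∈ E, cof e.1 e.2 ≠ cof e.2 e.1 ∧ 1/(2*t) < DD ψ ψ' e ∧ DD ψ ψ' e ≤ 1/t) →
    ∑ e ∈ E, T1 e ≤ 2 * K * (C + CB) * t^(-min (7/1000) cB) *
      ((∑ v ∈ V, wt ψ v) * (∑ w ∈ W, wt ψ' w))^(1/2+eps1) := by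
  classical
  obtain ⟨CU, hCU1, hCU⟩ := classU
  obtain ⟨CS, c0, hCS1, hc0, hc40, hCS⟩ := classS
  refine ⟨CU + CS, c0, by linarith, hc0, hc40, ?_⟩
  intro K CB cB θ T η Yb V W ψ φ ψ' φ' T1 hK hCB hcB hT hη hη1 hTη hYb H hB t ht E hE hED
  have hT0 : 0 < T := lt_of_lt_of_le (by norm_num) hT
  have ht0 : 0 < t := lt_of_lt_of_le hT0 ht
  have ht50 : 2^50 ≤ t := hT.trans ht
  have ht1 : 1 ≤ t := le_trans (by norm_num) ht50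
  have h1tT : 1/t ≤ 1/T := one_div_le_one_div_of_le hT0 ht
  set M := (∑ v ∈ V, wt ψ v) * (∑ w ∈ W, wt ψ' w) with hM
  have hM0 : 0 ≤ M :=
    mul_nonneg (Finset.sum_nonneg fun v hv => wt_nonneg (H.hψ v hv).le)
      (Finset.sum_nonneg fun v hv => wt_nonneg (H.hψ' v hv).le)
  set P := E.filter (fun e => 0 < T1 e) with hP
  have hPE : P ⊆ E := Finset.filter_subset _ _
  have hsub : ∀ Q : Finset (ℕ × ℕ), Q ⊆ E → Sys V W Q ψ ψ' (1/t) := by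
    intro Q hQ
    exact
    { hδ := by positivity
      hV := H.hV, hW := H.hW
      hψ := fun v hv => (H.hψ v hv).le, hθ := fun v hv => (H.hψ' v hv).le
      hE := hQ.trans hE
      h1 := fun e he => le_trans (le_max_right _ _) (hED e (hQ he)).2.2
      h2 := fun e he => le_trans (le_max_left _ _) (hED e (hQ he)).2.2 }
  -- bound of `T1` by `ew`
  have hT1 : ∑ e ∈ E, T1 e ≤ ∑ e ∈ P, K * (2 * t * ew ψ ψ' e) := by
    have h1 : ∑ e ∈ E, T1 e ≤ ∑ e ∈ P, T1 e := by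
      rw [← Finset.sum_filter_add_sum_filter_not E (fun e => 0 < T1 e)]
      have : ∑ e ∈ E.filter (fun e => ¬ 0 < T1 e), T1 e ≤ 0 :=
        Finset.sum_nonpos fun e he => not_lt.1 (Finset.mem_filter.1 he).2
      linarith
    refine h1.trans (Finset.sum_le_sum fun e he => ?_)
    have heE := hPE he
    obtain ⟨-, hD1, hD2⟩ := hED e heE
    have hm := Finset.mem_product.1 (hE heE)
    have h2 := H.h3 e (hE heE) (hD2.trans h1tT)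
    refine h2.trans (mul_le_mul_of_nonneg_left ?_ hK)
    have hew := ew_nonneg (H.hψ _ hm.1).le (H.hψ' _ hm.2).le
    have hDp : 0 < DD ψ ψ' e := lt_trans (by positivity) hD1
    rw [div_le_iff₀ hDp]
    have h3 : 1 ≤ 2 * t * DD ψ ψ' e := by
      rw [div_lt_iff₀ (by positivity)] at hD1; linarith
    calc ew ψ ψ' e = 1 * ew ψ ψ' e := (one_mul _).symm
      _ ≤ (2 * t * DD ψ ψ' e) * ew ψ ψ' e := mul_le_mul_of_nonneg_right h3 hew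
      _ = _ := by ring
  -- classification
  set U := P.filter (fun e => (cof e.1 e.2 : ℝ) * ψ' e.2 ≤ t^(-(51/50):ℝ) ∨
    (cof e.2 e.1 : ℝ) * ψ e.1 ≤ t^(-(51/50):ℝ)) with hU
  set Q := P.filter (fun e => ¬ ((cof e.1 e.2 : ℝ) * ψ' e.2 ≤ t^(-(51/50):ℝ) ∨
    (cof e.2 e.1 : ℝ) * ψ e.1 ≤ t^(-(51/50):ℝ))) with hQ
  set Qs := Q.filter (fun e => ((max (cof e.1 e.2) (cof e.2 e.1) : ℕ):ℝ) ≤ Yb t) with hQs
  set Qb := Q.filter (fun e => ¬ ((max (cof e.1 e.2) (cof e.2 e.1) : ℕ):ℝ) ≤ Yb t) with hQb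
  have hUE : U ⊆ E := (Finset.filter_subset _ _).trans hPE
  have hQE : Q ⊆ E := (Finset.filter_subset _ _).trans hPE
  have hQsE : Qs ⊆ E := (Finset.filter_subset _ _).trans hQE
  have hQbE : Qb ⊆ E := (Finset.filter_subset _ _).trans hQE
  have hsplit : ∑ e ∈ P, ew ψ ψ' e = ∑ e ∈ U, ew ψ ψ' e + (∑ e ∈ Qs, ew ψ ψ' e + ∑ e ∈ Qb, ew ψ ψ' e) := by
    rw [hQs, hQb, Finset.sum_filter_add_sum_filter_not, hU, hQ, Finset.sum_filter_add_sum_filter_not]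
  -- facts about pairs in `Q`
  have hQfact : ∀ e ∈ Q, 0 < cof e.1 e.2 ∧ 0 < cof e.2 e.1 ∧ cof e.1 e.2 ≠ cof e.2 e.1 ∧
      (∃ n : ℤ, |(n:ℝ) - θ * ((cof e.1 e.2 : ℝ) - cof e.2 e.1)| ≤ 2 / t) ∧
      (∀ Y : ℝ, 0 < Y → Y < ((max (cof e.1 e.2) (cof e.2 e.1) : ℕ):ℝ) →
        ((max (cof e.1 e.2) (cof e.2 e.1) : ℕ):ℝ) ≤ 2 * Y → ¬ Struct (t^(1/10:ℝ)) θ t Y) := by
    intro e he
    have heE := hQE he
    obtain ⟨hne, hD1, hD2⟩ := hED e heE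
    have hm := Finset.mem_product.1 (hE heE)
    have hp1 := H.hV _ hm.1
    have hp2 := H.hW _ hm.2
    have hψ1 := H.hψ _ hm.1
    have hψ2 := H.hψ' _ hm.2
    have hcx : 0 < cof e.1 e.2 := cof_pos hp1
    have hcy : 0 < cof e.2 e.1 := cof_pos hp2
    have hTpos : 0 < T1 e := (Finset.mem_filter.1 (Finset.mem_filter.1 he).1).2
    have hnU := (Finset.mem_filter.1 he).2
    push Not at hnU
    obtain ⟨n, hn, hex⟩ := H.h7 e (hE heE) hne (hD2.trans h1tT) hTpos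
    have hsum : (cof e.2 e.1 : ℝ) * ψ e.1 + cof e.1 e.2 * ψ' e.2 ≤ 2 * DD ψ ψ' e := by
      have h1 : (cof e.2 e.1 : ℝ) * ψ e.1 ≤ DD ψ ψ' e := le_max_left _ _
      have h2 : (cof e.1 e.2 : ℝ) * ψ' e.2 ≤ DD ψ ψ' e := le_max_right _ _
      linarith
    have hn2 : |(n:ℝ) - θ * ((cof e.1 e.2 : ℝ) - cof e.2 e.1)| < 2 * DD ψ ψ' e := lt_of_lt_of_le hn hsum
    refine ⟨hcx, hcy, hne, ⟨n, ?_⟩, ?_⟩
    · refine hn2.le.trans ?_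
      calc 2 * DD ψ ψ' e ≤ 2 * (1/t) := by linarith
        _ = 2/t := by ring
    · intro Y hY hY1 hY2 hst
      have e1 : t^(1/50:ℝ) * t^(-(51/50):ℝ) = 1/t := by
        rw [← Real.rpow_add ht0, show (1/50:ℝ) + -(51/50) = -1 by norm_num, Real.rpow_neg_one,
          one_div]
      have himb : ∀ a : ℝ, t^(-(51/50):ℝ) < a → DD ψ ψ' e ≤ t^(1/50:ℝ) * a := by
        intro a ha
        refine hD2.trans ?_
        rw [← e1]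
        exact mul_le_mul_of_nonneg_left ha.le (by positivity)
      have htη : 2^38 ≤ η^10 * t := hTη.trans (mul_le_mul_of_nonneg_left ht (by positivity))
      obtain ⟨ρ, hr1, hr2, hr3⟩ := struct_exact (x := cof e.1 e.2) (y := cof e.2 e.1)
        (D := DD ψ ψ' e) hη hη1 ht50 htη hψ1 hψ2 hcx hcy (le_max_left _ _) (le_max_right _ _)
        hD1 hD2 (himb _ hnU.2) (himb _ hnU.1) hn2 hY
        (le_trans (by exact_mod_cast le_max_left _ _) hY2)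
        (le_trans (by exact_mod_cast le_max_right _ _) hY2) hst
      exact hex ρ (hr1 _ (H.hφ _ hm.1).1 (H.hφ _ hm.1).2) (hr2 _ (H.hφ' _ hm.2).1 (H.hφ' _ hm.2).2) hr3
  have bU : ∑ e ∈ U, ew ψ ψ' e ≤ CU * t^(-(1007/1000):ℝ) * M^(1/2+eps1) :=
    hCU t V W U ψ ψ' ht1 (hsub U hUE) (fun e he => (Finset.mem_filter.1 he).2)
  have bS : ∑ e ∈ Qs, ew ψ ψ' e ≤ CS * t^(-(101/100):ℝ) * M^(1/2+eps1) := by
    refine hCS θ t (Yb t) V W Qs ψ ψ' (le_trans (by norm_num) ht50) (hYb t ht) (hsub Qs hQsE) ?_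
    intro e he
    obtain ⟨h1, h2, h3, h4, h5⟩ := hQfact e (Finset.mem_filter.1 he).1
    exact ⟨h1, h2, h3, (Finset.mem_filter.1 he).2, h4, h5⟩
  have bB : ∑ e ∈ Qb, ew ψ ψ' e ≤ CB * t^(-(1+cB)) * M^(1/2+eps1) := by
    refine hB t ht Qb (hsub Qb hQbE) ?_
    intro e he
    obtain ⟨h1, h2, h3, h4, h5⟩ := hQfact e (Finset.mem_filter.1 he).1
    exact ⟨h1, h2, h3, not_le.1 (Finset.mem_filter.1 he).2, h4, h5⟩
  set c := min (7/1000) cB with hc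
  have hc7 : c ≤ 7/1000 := min_le_left _ _
  have hccB : c ≤ cB := min_le_right _ _
  have hMs : 0 ≤ M^(1/2+eps1) := by positivity
  have pw : ∀ a : ℝ, 1 + c ≤ a → t^(-a) ≤ t^(-(1+c)) := fun a ha =>
    Real.rpow_le_rpow_of_exponent_le ht1 (by linarith)
  have b1 : ∑ e ∈ P, ew ψ ψ' e ≤ (CU + CS + CB) * t^(-(1+c)) * M^(1/2+eps1) := by
    rw [hsplit]
    have g1 : CU * t^(-(1007/1000):ℝ) * M^(1/2+eps1) ≤ CU * t^(-(1+c)) * M^(1/2+eps1) :=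
      mul_le_mul_of_nonneg_right (mul_le_mul_of_nonneg_left (pw _ (by linarith)) (by linarith)) hMs
    have g2 : CS * t^(-(101/100):ℝ) * M^(1/2+eps1) ≤ CS * t^(-(1+c)) * M^(1/2+eps1) :=
      mul_le_mul_of_nonneg_right (mul_le_mul_of_nonneg_left (pw _ (by linarith)) (by linarith)) hMs
    have g3 : CB * t^(-(1+cB)) * M^(1/2+eps1) ≤ CB * t^(-(1+c)) * M^(1/2+eps1) :=
      mul_le_mul_of_nonneg_right (mul_le_mul_of_nonneg_left (pw _ (by linarith)) hCB) hMs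
    calc _ ≤ CU * t^(-(1+c)) * M^(1/2+eps1) + (CS * t^(-(1+c)) * M^(1/2+eps1) +
          CB * t^(-(1+c)) * M^(1/2+eps1)) := by
          refine add_le_add (bU.trans g1) (add_le_add (bS.trans g2) (bB.trans g3))
      _ = _ := by ring
  have e2 : t * t^(-(1+c)) = t^(-c) := by
    nth_rw 1 [← Real.rpow_one t]
    rw [← Real.rpow_add ht0]; congr 1; ring
  calc ∑ e ∈ E, T1 e ≤ ∑ e ∈ P, K * (2 * t * ew ψ ψ' e) := hT1
    _ = 2 * K * t * ∑ e ∈ P, ew ψ ψ' e := by rw [Finset.mul_sum]; exact Finset.sum_congr rfl fun e _ => by ring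
    _ ≤ 2 * K * t * ((CU + CS + CB) * t^(-(1+c)) * M^(1/2+eps1)) :=
        mul_le_mul_of_nonneg_left b1 (by positivity)
    _ = 2 * K * (CU + CS + CB) * (t * t^(-(1+c))) * M^(1/2+eps1) := by ring
    _ = _ := by rw [e2]

/-- **deep pairs**: all pairs with `x ≠ y`, `D ≤ 1/T` -/
theorem deep_pairs : ∃ C c0 : ℝ, 1 ≤ C ∧ 0 < c0 ∧ c0 ≤ 1/40 ∧
    ∀ (K CB cB θ T η : ℝ) (Yb : ℝ → ℝ) (V W : Finset ℕ) (ψ φ ψ' φ' : ℕ → ℝ) (T1 : ℕ × ℕ → ℝ),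
    0 ≤ K → 0 ≤ CB → 0 < cB → 2^50 ≤ T → 0 < η → η ≤ 1 → 2^38 ≤ η^10 * T →
    (∀ t, T ≤ t → Yb t ≤ Real.exp (t^c0)) → T1Hyp K θ T η V W ψ φ ψ' φ' T1 →
    ClsB θ T CB cB Yb V W ψ ψ' →
    ∑ e ∈ (V ×ˢ W).filter (fun e => cof e.1 e.2 ≠ cof e.2 e.1 ∧ DD ψ ψ' e ≤ 1/T), T1 e ≤
      2 * K * (C + CB) / (1 - 2^(-min (7/1000) cB)) * T^(-min (7/1000) cB) *
      ((∑ v ∈ V, wt ψ v) * (∑ w ∈ W, wt ψ' w))^(1/2+eps1) := by
  classical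
  obtain ⟨C, c0, hC1, hc0, hc40, hC⟩ := one_scale
  refine ⟨C, c0, hC1, hc0, hc40, ?_⟩
  intro K CB cB θ T η Yb V W ψ φ ψ' φ' T1 hK hCB hcB hT hη hη1 hTη hYb H hB
  have key := hC K CB cB θ T η Yb V W ψ φ ψ' φ' T1 hK hCB hcB hT hη hη1 hTη hYb H hB
  have hT0 : 0 < T := lt_of_lt_of_le (by norm_num) hT
  set M := (∑ v ∈ V, wt ψ v) * (∑ w ∈ W, wt ψ' w) with hM
  have hM0 : 0 ≤ M :=
    mul_nonneg (Finset.sum_nonneg fun v hv => wt_nonneg (H.hψ v hv).le)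
      (Finset.sum_nonneg fun v hv => wt_nonneg (H.hψ' v hv).le)
  set c := min (7/1000) cB with hc
  have hcpos : 0 < c := lt_min (by norm_num) hcB
  set E := (V ×ˢ W).filter (fun e => cof e.1 e.2 ≠ cof e.2 e.1 ∧ DD ψ ψ' e ≤ 1/T) with hE
  -- dyadic index
  have hidx : ∀ e : ℕ × ℕ, ∃ i : ℕ, e ∈ E → 1/(2*(2^i*T)) < DD ψ ψ' e ∧ DD ψ ψ' e ≤ 1/(2^i*T) := by
    intro e
    by_cases he : e ∈ E
    · have h := Finset.mem_filter.1 he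
      have hm := Finset.mem_product.1 h.1
      have hD : 0 < DD ψ ψ' e := DD_pos (H.hW _ hm.2) (H.hψ _ hm.1)
      have h1 : 1 ≤ 1/(T * DD ψ ψ' e) := by
        rw [le_div_iff₀ (by positivity)]
        have := h.2.2
        rw [le_div_iff₀ hT0] at this
        linarith
      obtain ⟨i, hi1, hi2⟩ := exists_nat_pow_near h1 (by norm_num : (1:ℝ) < 2)
      refine ⟨i, fun _ => ⟨?_, ?_⟩⟩
      · rw [div_lt_iff₀ (by positivity)]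
        rw [div_lt_iff₀ (by positivity)] at hi2
        calc (1:ℝ) < 2^(i+1) * (T * DD ψ ψ' e) := hi2
          _ = DD ψ ψ' e * (2 * (2^i * T)) := by ring
      · rw [le_div_iff₀ (by positivity)]
        rw [le_div_iff₀ (by positivity)] at hi1
        calc DD ψ ψ' e * (2^i * T) = 2^i * (T * DD ψ ψ' e) := by ring
          _ ≤ 1 := hi1
    · exact ⟨0, fun h => absurd h he⟩
  choose idx hidx using hidx
  have h2c : (0:ℝ) < 2^(-c) := by positivity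
  have h2c1 : (2:ℝ)^(-c) < 1 := Real.rpow_lt_one_of_one_lt_of_neg (by norm_num) (by linarith)
  have hstep : ∀ i ∈ E.image idx, ∑ e ∈ E.filter (fun e => idx e = i), T1 e ≤
      (2 * K * (C + CB) * T^(-c) * M^(1/2+eps1)) * ((2:ℝ)^(-c))^i := by
    intro i _
    have h2i : (1:ℝ) ≤ 2^i := one_le_pow₀ (by norm_num)
    have h1 := key (2^i * T) (by nlinarith) (E.filter (fun e => idx e = i))
      ((Finset.filter_subset _ _).trans (Finset.filter_subset _ _)) (by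
        intro e he
        obtain ⟨he1, he2⟩ := Finset.mem_filter.1 he
        have h := Finset.mem_filter.1 he1
        have h' := hidx e he1
        rw [he2] at h'
        exact ⟨h.2.1, h'.1, h'.2⟩)
    refine h1.trans (le_of_eq ?_)
    have e3 : ((2:ℝ)^i * T)^(-c) = ((2:ℝ)^(-c))^i * T^(-c) := by
      rw [Real.mul_rpow (by positivity) hT0.le]
      congr 1
      rw [← Real.rpow_natCast, ← Real.rpow_mul (by norm_num), ← Real.rpow_natCast ((2:ℝ)^(-c)),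
        ← Real.rpow_mul (by norm_num), mul_comm]
    rw [e3]; ring
  have hsum : ∑ e ∈ E, T1 e = ∑ i ∈ E.image idx, ∑ e ∈ E.filter (fun e => idx e = i), T1 e :=
    (Finset.sum_fiberwise_of_maps_to (fun e he => Finset.mem_image_of_mem idx he) T1).symm
  rw [hsum]
  have hMs : 0 ≤ M^(1/2+eps1) := by positivity
  have hgeo : ∑ i ∈ E.image idx, ((2:ℝ)^(-c))^i ≤ 1/(1 - 2^(-c)) := by
    rw [one_div, ← tsum_geometric_of_lt_one h2c.le h2c1]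
    exact (summable_geometric_of_lt_one h2c.le h2c1).sum_le_tsum _ (fun i _ => by positivity)
  calc _ ≤ ∑ i ∈ E.image idx, (2 * K * (C + CB) * T^(-c) * M^(1/2+eps1)) * ((2:ℝ)^(-c))^i :=
        Finset.sum_le_sum hstep
    _ = (2 * K * (C + CB) * T^(-c) * M^(1/2+eps1)) * ∑ i ∈ E.image idx, ((2:ℝ)^(-c))^i := by
        rw [Finset.mul_sum]
    _ ≤ (2 * K * (C + CB) * T^(-c) * M^(1/2+eps1)) * (1/(1 - 2^(-c))) :=
        mul_le_mul_of_nonneg_left hgeo (by positivity)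
    _ = _ := by ring

/-! ### the leaf theorem -/

open Crest.Agent.R4.LF363 Crest.Agent.R4.LF4
open Crest.Agent.R4.Tour104 (I PB)

/-- hypotheses of a leaf: target `θ`, arcs `ψ`, label radii `φ ≥ η ψ`, canonical labels -/
structure Leaf (η θ : ℝ) (S : Finset ℕ) (ψ φ : ℕ → ℝ) (lab : ℕ → Option ℚ) : Prop where
  η0 : 0 < η
  η1 : η ≤ 1
  pos : ∀ q ∈ S, 0 < q
  ψ0 : ∀ q ∈ S, 0 < ψ q
  φ0 : ∀ q ∈ S, η * ψ q ≤ φ q
  φψ : ∀ q ∈ S, φ q ≤ ψ q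
  lb : ∀ q ∈ S, ∀ ρ, lab q = some ρ ↔ Lab θ (φ q) ρ

lemma Leaf.sub {η θ : ℝ} {S S' : Finset ℕ} {ψ φ : ℕ → ℝ} {lab : ℕ → Option ℚ}
    (h : Leaf η θ S ψ φ lab) (hS : S' ⊆ S) : Leaf η θ S' ψ φ lab where
  η0 := h.η0
  η1 := h.η1
  pos := fun q hq => h.pos q (hS hq)
  ψ0 := fun q hq => h.ψ0 q (hS hq)
  φ0 := fun q hq => h.φ0 q (hS hq)
  φψ := fun q hq => h.φψ q (hS hq)
  lb := fun q hq => h.lb q (hS hq)

lemma T12_eq (θ : ℝ) (ψ φ : ℕ → ℝ) (lab : ℕ → Option ℚ) (q r : ℕ) :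
    T12 θ ψ φ lab q r = T1I ⟨θ, ψ q, φ q, lab q⟩ ⟨θ, ψ r, φ r, lab r⟩ q r := rfl

lemma cof_eq_iff {q r : ℕ} (hq : 0 < q) (hr : 0 < r) : cof q r = cof r q ↔ q = r := by
  constructor
  · intro h
    have h1 := gcd_mul_cof q r
    have h2 := gcd_mul_cof' q r
    rw [← h1, h, h2]
  · rintro rfl; rfl

lemma Af_eq_dens (n : ℕ) : Af n = (Crest.Agent.R4.Ovl560.dens n.primeFactors)⁻¹ := by
  unfold Af Crest.Agent.R4.Ovl560.dens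
  rw [← Finset.prod_inv_distrib]

lemma wt_eq_mI (θ : ℝ) (ψ φ : ℕ → ℝ) (lab : ℕ → Option ℚ) (q : ℕ) :
    mI ⟨θ, ψ q, φ q, lab q⟩ q = wt ψ q := rfl

/-- the non-exact terms of a leaf satisfy `T1Hyp` -/
theorem Leaf.t1hyp {η θ T : ℝ} {S : Finset ℕ} {ψ φ : ℕ → ℝ} {lab : ℕ → Option ℚ}
    (h : Leaf η θ S ψ φ lab) (hT : 10 ≤ T) :
    T1Hyp CP θ T η S S ψ φ ψ φ (fun e => T12 θ ψ φ lab e.1 e.2) where
  hV := h.pos
  hW := h.pos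
  hψ := h.ψ0
  hψ' := h.ψ0
  hφ := fun v hv => ⟨h.φ0 v hv, h.φψ v hv⟩
  hφ' := fun v hv => ⟨h.φ0 v hv, h.φψ v hv⟩
  h3 := by
    intro e he hD
    have hm := Finset.mem_product.1 he
    have hT0 : 0 < T := by linarith
    have hφ1 : 0 < φ e.1 := lt_of_lt_of_le (mul_pos h.η0 (h.ψ0 _ hm.1)) (h.φ0 _ hm.1)
    have hφ2 : 0 < φ e.2 := lt_of_lt_of_le (mul_pos h.η0 (h.ψ0 _ hm.2)) (h.φ0 _ hm.2)
    have hDpos := DD_pos (ψ' := ψ) (h.pos _ hm.2) (h.ψ0 _ hm.1)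
    have h1 := T1I_le (a := ⟨θ, ψ e.1, φ e.1, lab e.1⟩) (b := ⟨θ, ψ e.2, φ e.2, lab e.2⟩)
      ⟨hφ1, h.φψ _ hm.1⟩ ⟨hφ2, h.φψ _ hm.2⟩ (h.pos _ hm.1) (h.pos _ hm.2)
    have h2 := AI_le (⟨θ, ψ e.1, φ e.1, lab e.1⟩) (⟨θ, ψ e.2, φ e.2, lab e.2⟩)
      (h.pos _ hm.1) (h.pos _ hm.2)
    rw [Axy_eq (Crest.Agent.R4.HVW560.cof_coprime (h.pos _ hm.1)), ← Af_eq_dens, ← Af_eq_dens] at h2
    have hDI : DI (⟨θ, ψ e.1, φ e.1, lab e.1⟩) (⟨θ, ψ e.2, φ e.2, lab e.2⟩) e.1 e.2 = DD ψ ψ e := rfl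
    rw [hDI, wt_eq_mI, wt_eq_mI] at h1
    have hD1 : DD ψ ψ e ≤ 1 := by
      refine hD.trans ?_
      rw [div_le_one hT0]; linarith
    have hmax : max 1 (1 / DD ψ ψ e) = 1 / DD ψ ψ e := by
      apply max_eq_right
      rw [le_div_iff₀ hDpos]; linarith
    rw [hmax] at h1
    show T12 θ ψ φ lab e.1 e.2 ≤ _
    rw [T12_eq]
    refine h1.trans (mul_le_mul_of_nonneg_left ?_ CP_nonneg)
    unfold ew
    have hw1 := wt_nonneg (h.ψ0 _ hm.1).le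
    have hw2 := wt_nonneg (h.ψ0 _ hm.2).le
    calc wt ψ e.1 * wt ψ e.2 * (1 / DD ψ ψ e) * AI ⟨θ, ψ e.1, φ e.1, lab e.1⟩ ⟨θ, ψ e.2, φ e.2, lab e.2⟩ e.1 e.2
        ≤ wt ψ e.1 * wt ψ e.2 * (1 / DD ψ ψ e) * (Af (cof e.1 e.2) * Af (cof e.2 e.1)) :=
          mul_le_mul_of_nonneg_left h2 (by positivity)
      _ = _ := by ring
  h7 := by
    intro e he hne hD hpos
    have hm := Finset.mem_product.1 he
    have hT0 : 0 < T := by linarith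
    obtain ⟨n, hn, hex⟩ := exists_of_T1I_ne (a := ⟨θ, ψ e.1, φ e.1, lab e.1⟩)
      (b := ⟨θ, ψ e.2, φ e.2, lab e.2⟩) (q := e.1) (r := e.2) (by
        have : T12 θ ψ φ lab e.1 e.2 ≠ 0 := ne_of_gt hpos
        rwa [T12_eq] at this)
    have e1 : (cof e.1 e.2 : ℝ) * θ - cof e.2 e.1 * θ = θ * ((cof e.1 e.2 : ℝ) - cof e.2 e.1) := by ring
    refine ⟨n, ?_, ?_⟩
    · simpa only [e1] using hn
    · intro ρ h1 h2 h3
      have hφ1 : 0 < φ e.1 := lt_of_lt_of_le (mul_pos h.η0 (h.ψ0 _ hm.1)) (h.φ0 _ hm.1)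
      have hφ2 : 0 < φ e.2 := lt_of_lt_of_le (mul_pos h.η0 (h.ψ0 _ hm.2)) (h.φ0 _ hm.2)
      have hcx : (1:ℝ) ≤ cof e.1 e.2 := by exact_mod_cast Crest.Agent.R4.HVW560.cof_pos (h.pos _ hm.1)
      have hcy : (1:ℝ) ≤ cof e.2 e.1 := by exact_mod_cast Crest.Agent.R4.HVW560.cof_pos (h.pos _ hm.2)
      have h10 : 1/T ≤ 1/10 := one_div_le_one_div_of_le (by norm_num) hT
      have hs1 : φ e.1 ≤ 1/10 := by
        refine (h.φψ _ hm.1).trans (le_trans ?_ (hD.trans h10))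
        exact le_trans (le_mul_of_one_le_left (h.ψ0 _ hm.1).le hcy) (le_max_left _ _)
      have hs2 : φ e.2 ≤ 1/10 := by
        refine (h.φψ _ hm.2).trans (le_trans ?_ (hD.trans h10))
        exact le_trans (le_mul_of_one_le_left (h.ψ0 _ hm.2).le hcx) (le_max_right _ _)
      refine hex ⟨ρ, ρ, (h.lb _ hm.1 ρ).2 ⟨hφ1, hs1, h1.1, h1.2⟩,
        (h.lb _ hm.2 ρ).2 ⟨hφ2, hs2, h2.1, h2.2⟩, ?_⟩
      have : ((n:ℚ):ℝ) = ((ρ * cof e.1 e.2 - ρ * cof e.2 e.1 : ℚ) : ℝ) := by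
        push_cast; rw [h3]; ring
      exact_mod_cast this

lemma T12_diag_le {η θ : ℝ} {S : Finset ℕ} {ψ φ : ℕ → ℝ} {lab : ℕ → Option ℚ}
    (h : Leaf η θ S ψ φ lab) {q : ℕ} (hq : q ∈ S) (h1 : ψ q ≤ 1) :
    T12 θ ψ φ lab q q ≤ CP * wt ψ q := by
  have hφ : 0 < φ q := lt_of_lt_of_le (mul_pos h.η0 (h.ψ0 _ hq)) (h.φ0 _ hq)
  exact T1I_diag_le (a := ⟨θ, ψ q, φ q, lab q⟩) ⟨hφ, h.φψ _ hq⟩ (h.pos _ hq) h1

/-- **non-exact pairs of a leaf** (two subfamilies are not needed: one family) -/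
theorem leaf_T1 : ∃ C c0 : ℝ, 1 ≤ C ∧ 0 < c0 ∧ c0 ≤ 1/40 ∧
    ∀ (ε CB cB θ T η : ℝ) (Yb : ℝ → ℝ) (S : Finset ℕ) (ψ φ : ℕ → ℝ) (lab : ℕ → Option ℚ),
    0 < ε → ε ≤ 1/4 → 0 ≤ CB → 0 < cB → 2^50 ≤ T → 2^38 ≤ η^10 * T →
    (∀ t, T ≤ t → Yb t ≤ Real.exp (t^c0)) → Leaf η θ S ψ φ lab →
    ClsB θ T CB cB Yb S S ψ ψ →
    ∑ q ∈ S, ∑ r ∈ S, T12 θ ψ φ lab q r ≤
      CP * (8 * (∑ q ∈ S, wt ψ q)^2 + CE ε * (2*T)^(2*ε) * (∑ q ∈ S, wt ψ q)^(1+2*ε)) +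
      CP * ∑ q ∈ S, wt ψ q +
      2 * CP * (C + CB) / (1 - 2^(-min (7/1000) cB)) * T^(-min (7/1000) cB) *
      (∑ q ∈ S, wt ψ q)^(1+2*eps1) := by
  classical
  obtain ⟨C, c0, hC1, hc0, hc40, hC⟩ := deep_pairs
  refine ⟨C, c0, hC1, hc0, hc40, ?_⟩
  intro ε CB cB θ T η Yb S ψ φ lab hε hε4 hCB hcB hT hTη hYb h hB
  have hT0 : 0 < T := lt_of_lt_of_le (by norm_num) hT
  have hT1 : 1 ≤ T := le_trans (by norm_num) hT
  have hH := h.t1hyp (le_trans (by norm_num) hT)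
  have key := hC CP CB cB θ T η Yb S S ψ φ ψ φ (fun e => T12 θ ψ φ lab e.1 e.2) CP_nonneg hCB hcB hT
    h.η0 h.η1 hTη hYb hH hB
  set M := ∑ q ∈ S, wt ψ q with hM
  have hM0 : 0 ≤ M := Finset.sum_nonneg fun v hv => wt_nonneg (h.ψ0 v hv).le
  have hMM : ∀ a : ℝ, (M * M)^(1/2 + a) = M^(1+2*a) := by
    intro a
    rw [← sq, ← Real.rpow_natCast M 2, ← Real.rpow_mul hM0]
    congr 1; push_cast; ring
  rw [hMM] at key
  -- split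
  have hsum : ∑ q ∈ S, ∑ r ∈ S, T12 θ ψ φ lab q r = ∑ e ∈ S ×ˢ S, T12 θ ψ φ lab e.1 e.2 := by
    rw [Finset.sum_product]
  rw [hsum, ← Finset.sum_filter_add_sum_filter_not (S ×ˢ S) (fun e => 1/T < DD ψ ψ e)]
  -- large `D`
  obtain ⟨J, hJ1, hJ2⟩ := exists_nat_pow_near hT1 (by norm_num : (1:ℝ) < 2)
  have b1 := lf4 (V := S) (W := S) (E := (S ×ˢ S).filter (fun e => 1/T < DD ψ ψ e)) hε hε4
    (fun q => ⟨θ, ψ q, φ q, lab q⟩) (fun q => ⟨θ, ψ q, φ q, lab q⟩)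
    (fun q hq => ⟨h.pos q hq, lt_of_lt_of_le (mul_pos h.η0 (h.ψ0 _ hq)) (h.φ0 _ hq), h.φψ _ hq⟩)
    (fun q hq => ⟨h.pos q hq, lt_of_lt_of_le (mul_pos h.η0 (h.ψ0 _ hq)) (h.φ0 _ hq), h.φψ _ hq⟩)
    (Finset.filter_subset _ _) (J+1) (by
      intro e he
      have h1 := (Finset.mem_filter.1 he).2
      have h2 : ((2:ℝ)^(J+1))⁻¹ ≤ 1/T := by
        rw [← one_div]; exact one_div_le_one_div_of_le hT0 hJ2.le
      exact h2.trans h1.le)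
  have e1 : ∑ q ∈ S, mI ⟨θ, ψ q, φ q, lab q⟩ q = M := rfl
  simp only [e1] at b1
  rw [hMM] at b1
  have b1' : ∑ e ∈ (S ×ˢ S).filter (fun e => 1/T < DD ψ ψ e), T12 θ ψ φ lab e.1 e.2 ≤
      CP * (8 * M^2 + CE ε * (2*T)^(2*ε) * M^(1+2*ε)) := by
    refine b1.trans (mul_le_mul_of_nonneg_left ?_ CP_nonneg)
    have hce := (CE_pos hε).le
    have h2 : ((2:ℝ)^(J+1))^(2*ε) ≤ (2*T)^(2*ε) := by
      apply Real.rpow_le_rpow (by positivity) _ (by linarith)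
      rw [pow_succ]; linarith
    have h3 : CE ε * ((2:ℝ)^(J+1))^(2*ε) * M^(1+2*ε) ≤ CE ε * (2*T)^(2*ε) * M^(1+2*ε) :=
      mul_le_mul_of_nonneg_right (mul_le_mul_of_nonneg_left h2 hce) (by positivity)
    have h4 : 8 * (M * M) = 8 * M^2 := by ring
    rw [h4]
    linarith
  -- small `D`
  have b2 : ∑ e ∈ (S ×ˢ S).filter (fun e => ¬ 1/T < DD ψ ψ e), T12 θ ψ φ lab e.1 e.2 ≤
      CP * M + 2 * CP * (C + CB) / (1 - 2^(-min (7/1000) cB)) * T^(-min (7/1000) cB) * M^(1+2*eps1) := by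
    rw [← Finset.sum_filter_add_sum_filter_not ((S ×ˢ S).filter (fun e => ¬ 1/T < DD ψ ψ e))
      (fun e => cof e.1 e.2 = cof e.2 e.1)]
    refine add_le_add ?_ ?_
    · -- diagonal
      rw [Finset.filter_filter]
      set G := (S ×ˢ S).filter (fun e => ¬ 1/T < DD ψ ψ e ∧ cof e.1 e.2 = cof e.2 e.1) with hG
      have hdiag : ∀ e ∈ G, e.1 ∈ S ∧ e.1 = e.2 ∧ ψ e.1 ≤ 1 := by
        intro e he
        obtain ⟨he1, he2, he3⟩ := Finset.mem_filter.1 he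
        have hm := Finset.mem_product.1 he1
        refine ⟨hm.1, (cof_eq_iff (h.pos _ hm.1) (h.pos _ hm.2)).1 he3, ?_⟩
        have hcy : (1:ℝ) ≤ cof e.2 e.1 := by
          exact_mod_cast Crest.Agent.R4.HVW560.cof_pos (h.pos _ hm.2)
        have h1 : ψ e.1 ≤ DD ψ ψ e := le_trans (le_mul_of_one_le_left (h.ψ0 _ hm.1).le hcy) (le_max_left _ _)
        have h2 : (1:ℝ)/T ≤ 1 := by rw [div_le_one hT0]; exact hT1
        linarith [not_lt.1 he2]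
      calc ∑ e ∈ G, T12 θ ψ φ lab e.1 e.2 ≤ ∑ e ∈ G, CP * wt ψ e.1 := by
            refine Finset.sum_le_sum fun e he => ?_
            obtain ⟨g1, g2, g3⟩ := hdiag e he
            rw [← g2]
            exact T12_diag_le h g1 g3
        _ ≤ CP * ∑ q ∈ S, wt ψ q := by
            rw [← Finset.mul_sum]
            refine mul_le_mul_of_nonneg_left ?_ CP_nonneg
            have hinj : Set.InjOn (fun e : ℕ × ℕ => e.1) (G : Set (ℕ × ℕ)) := by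
              intro e he e' he' hee
              have g1 := (hdiag e he).2.1
              have g2 := (hdiag e' he').2.1
              exact Prod.ext hee (by rw [← g1, ← g2]; exact hee)
            rw [← Finset.sum_image (f := fun q => wt ψ q) (g := fun e : ℕ × ℕ => e.1) hinj]
            refine Finset.sum_le_sum_of_subset_of_nonneg ?_ (fun q hq _ => wt_nonneg (h.ψ0 q hq).le)
            intro q hq
            obtain ⟨e, he, rfl⟩ := Finset.mem_image.1 hq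
            exact (hdiag e he).1
        _ = CP * M := rfl
    · refine le_trans (le_of_eq ?_) key
      refine Finset.sum_congr ?_ (fun _ _ => rfl)
      rw [Finset.filter_filter]
      refine Finset.filter_congr fun e _ => ?_
      rw [not_lt]
      exact and_comm
  linarith

/-- sum of the items of a leaf -/
noncomputable def FS (θ : ℝ) (S : Finset ℕ) (ψ φ : ℕ → ℝ) (lab : ℕ → Option ℚ) (x : ℝ) : ℝ :=
  ∑ q ∈ S, fq2 θ ψ φ lab q x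

lemma PB_FS (θ : ℝ) (S : Finset ℕ) (ψ φ : ℕ → ℝ) (lab : ℕ → Option ℚ) : PB (FS θ S ψ φ lab) :=
  PB.sum S fun q _ => PB_fq2 θ ψ φ lab q

open Crest.Agent.R4.Tour104 in
lemma I_FS {θ : ℝ} {S : Finset ℕ} {ψ : ℕ → ℝ} (φ : ℕ → ℝ) (lab : ℕ → Option ℚ)
    (hS : ∀ q ∈ S, 0 < q) (hψ : ∀ q ∈ S, 0 < ψ q) :
    I (FS θ S ψ φ lab) = 2 * ∑ q ∈ S, wt ψ q := by
  have h1 : I (FS θ S ψ φ lab) = ∑ q ∈ S, I (fq2 θ ψ φ lab q) :=
    I_sum S fun q _ => (PB_fq2 θ ψ φ lab q).integrableOn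
  rw [h1, Finset.mul_sum]
  exact Finset.sum_congr rfl fun q hq => I_fq2 φ lab (hS q hq) (hψ q hq).le

open Crest.Agent.R4.Tour104 in
lemma I_FS_sq {θ : ℝ} {S : Finset ℕ} {ψ : ℕ → ℝ} (φ : ℕ → ℝ) (lab : ℕ → Option ℚ)
    (hS : ∀ q ∈ S, 0 < q) (hψ : ∀ q ∈ S, 0 < ψ q) :
    I (fun x => FS θ S ψ φ lab x ^ 2) ≤
      ∑ q ∈ S, ∑ r ∈ S, T02 θ ψ φ lab q r + ∑ q ∈ S, ∑ r ∈ S, T12 θ ψ φ lab q r := by
  have h1 : (fun x => FS θ S ψ φ lab x ^ 2) =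
      fun x => ∑ q ∈ S, ∑ r ∈ S, fq2 θ ψ φ lab q x * fq2 θ ψ φ lab r x := by
    funext x
    unfold FS
    rw [sq, Finset.sum_mul_sum]
  have h2 : I (fun x => FS θ S ψ φ lab x ^ 2) =
      ∑ q ∈ S, ∑ r ∈ S, I (fun x => fq2 θ ψ φ lab q x * fq2 θ ψ φ lab r x) := by
    rw [h1, I_sum S fun q _ => (PB.sum S fun r _ =>
      (PB_fq2 θ ψ φ lab q).mul (PB_fq2 θ ψ φ lab r)).integrableOn]
    exact Finset.sum_congr rfl fun q _ => I_sum S fun r _ =>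
      ((PB_fq2 θ ψ φ lab q).mul (PB_fq2 θ ψ φ lab r)).integrableOn
  rw [h2, ← Finset.sum_add_distrib]
  refine Finset.sum_le_sum fun q hq => ?_
  rw [← Finset.sum_add_distrib]
  exact Finset.sum_le_sum fun r hr => pair_le2 φ lab (hS q hq) (hS r hr) (hψ q hq) (hψ r hr)

/-- **Theorem LF (A)**, class (B) as a hypothesis:
`∫ F² ≤ C (M² + T^{2ε} M^{1+2ε} + (1+C_B) T^{-c} M^{1+2eps1} + η^{-ε} M)`. -/
theorem leafA' : ∃ c0 : ℝ, 0 < c0 ∧ c0 ≤ 1/40 ∧ ∀ ε : ℝ, 0 < ε → ε ≤ 1/4 → ∃ C : ℝ, 1 ≤ C ∧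
    ∀ (CB cB θ T η : ℝ) (Yb : ℝ → ℝ) (S : Finset ℕ) (ψ φ : ℕ → ℝ) (lab : ℕ → Option ℚ),
    0 ≤ CB → 0 < cB → cB ≤ 7/1000 → 2^50 ≤ T → 2^38 ≤ η^10 * T →
    (∀ t, T ≤ t → Yb t ≤ Real.exp (t^c0)) → Leaf η θ S ψ φ lab →
    ClsB θ T CB cB Yb S S ψ ψ →
    I (fun x => FS θ S ψ φ lab x ^ 2) ≤
      C * ((∑ q ∈ S, wt ψ q)^2 + T^(2*ε) * (∑ q ∈ S, wt ψ q)^(1+2*ε) +
        (1 + CB) / (1 - 2^(-cB)) * T^(-cB) * (∑ q ∈ S, wt ψ q)^(1+2*eps1) +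
        η^(-ε) * ∑ q ∈ S, wt ψ q) := by
  obtain ⟨C, c0, hC1, hc0, hc40, hC⟩ := leaf_T1
  refine ⟨c0, hc0, hc40, fun ε hε hε4 => ?_⟩
  obtain ⟨C5, hC5, h5⟩ := Crest.Agent.R4.LFX223.exact_sum2 hε
  have hCP := CP_nonneg
  have hCE := (CE_pos hε).le
  set K : ℝ := 1 + 8 * CP + CP * CE ε * 2^(2*ε) + 2 * CP * C + CP + C5 with hK
  have hK1 : 1 ≤ K := by
    have : 0 ≤ CP * CE ε * 2^(2*ε) := by positivity
    have : 0 ≤ 2 * CP * C := by positivity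
    linarith
  refine ⟨K, hK1, ?_⟩
  intro CB cB θ T η Yb S ψ φ lab hCB hcB hcB7 hT hTη hYb h hB
  have h1 := hC ε CB cB θ T η Yb S ψ φ lab hε hε4 hCB hcB hT hTη hYb h hB
  have h2 := h5 η h.η0 h.η1 S ψ φ θ lab h.pos h.ψ0 h.φψ h.φ0 (fun q hq ρ hρ => (h.lb q hq ρ).1 hρ)
  have h3 := I_FS_sq (θ := θ) φ lab h.pos h.ψ0
  rw [min_eq_right hcB7] at h1
  have e5 : ∑ q ∈ S, ψ q * ((Nat.totient q : ℝ) / q) = ∑ q ∈ S, wt ψ q := rfl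
  rw [e5] at h2
  set M := ∑ q ∈ S, wt ψ q with hM
  have hM0 : 0 ≤ M := Finset.sum_nonneg fun v hv => wt_nonneg (h.ψ0 v hv).le
  have hT0 : 0 < T := lt_of_lt_of_le (by norm_num) hT
  have hη := h.η0
  have h2c1 : (2:ℝ)^(-cB) < 1 := Real.rpow_lt_one_of_one_lt_of_neg (by norm_num) (by linarith)
  have hd : 0 < 1 - (2:ℝ)^(-cB) := by linarith
  set a := (1 + CB) / (1 - 2^(-cB)) * T^(-cB) * M^(1+2*eps1) with ha
  have ha0 : 0 ≤ a := by positivity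
  set b := T^(2*ε) * M^(1+2*ε) with hb
  have hb0 : 0 ≤ b := by positivity
  have hη1 : 1 ≤ η^(-ε) := by
    rw [Real.rpow_neg hη.le]
    exact (one_le_inv₀ (by positivity)).2 (Real.rpow_le_one hη.le h.η1 hε.le)
  set d := η^(-ε) * M with hd'
  have hMd : M ≤ d := le_mul_of_one_le_left hM0 hη1
  have hd0 : 0 ≤ d := hM0.trans hMd
  have e1 : (2*T)^(2*ε) = 2^(2*ε) * T^(2*ε) := Real.mul_rpow (by norm_num) hT0.le
  have t1 : CE ε * (2*T)^(2*ε) * M^(1+2*ε) = CE ε * 2^(2*ε) * b := by rw [e1, hb]; ring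
  have t2 : 2 * CP * (C + CB) / (1 - 2^(-cB)) * T^(-cB) * M^(1+2*eps1) ≤ 2 * CP * C * a := by
    have h6 : C + CB ≤ C * (1 + CB) := by nlinarith
    have e2 : 2 * CP * (C + CB) / (1 - 2^(-cB)) * T^(-cB) * M^(1+2*eps1) =
        (2 * CP / (1 - 2^(-cB)) * T^(-cB) * M^(1+2*eps1)) * (C + CB) := by ring
    have e3 : 2 * CP * C * a = (2 * CP / (1 - 2^(-cB)) * T^(-cB) * M^(1+2*eps1)) * (C * (1 + CB)) := by
      rw [ha]; ring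
    rw [e2, e3]
    exact mul_le_mul_of_nonneg_left h6 (by positivity)
  have hM2 : 0 ≤ M^2 := by positivity
  rw [t1] at h1
  have t3 : C5 * η^(-ε) * M = C5 * d := by rw [hd']; ring
  rw [t3] at h2
  have hs : I (fun x => FS θ S ψ φ lab x ^ 2) ≤ C5 * d + (CP * (8 * M^2 + CE ε * 2^(2*ε) * b) +
      CP * M + 2 * CP * C * a) := by linarith
  refine hs.trans ?_
  have hp1 : 0 ≤ CP * CE ε * 2^(2*ε) := by positivity
  have hp2 : 0 ≤ 2 * CP * C := by positivity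
  have g1 : 8 * CP * M^2 ≤ K * M^2 := mul_le_mul_of_nonneg_right (by linarith) hM2
  have g2 : CP * CE ε * 2^(2*ε) * b ≤ K * b := mul_le_mul_of_nonneg_right (by linarith) hb0
  have g3 : 2 * CP * C * a ≤ K * a := mul_le_mul_of_nonneg_right (by linarith) ha0
  have g4 : (CP + C5) * d ≤ K * d := mul_le_mul_of_nonneg_right (by linarith) hd0
  have g5 : CP * M ≤ CP * d := mul_le_mul_of_nonneg_left hMd hCP
  calc _ = C5 * d + (8 * CP * M^2 + CP * CE ε * 2^(2*ε) * b) + CP * M + 2 * CP * C * a := by ring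
    _ ≤ K * (M^2 + b + a + d) := by linarith

theorem leafA {ε : ℝ} (hε : 0 < ε) (hε4 : ε ≤ 1/4) : ∃ C c0 : ℝ, 1 ≤ C ∧ 0 < c0 ∧ c0 ≤ 1/40 ∧
    ∀ (CB cB θ T η : ℝ) (Yb : ℝ → ℝ) (S : Finset ℕ) (ψ φ : ℕ → ℝ) (lab : ℕ → Option ℚ),
    0 ≤ CB → 0 < cB → cB ≤ 7/1000 → 2^50 ≤ T → 2^38 ≤ η^10 * T →
    (∀ t, T ≤ t → Yb t ≤ Real.exp (t^c0)) → Leaf η θ S ψ φ lab →
    ClsB θ T CB cB Yb S S ψ ψ →
    I (fun x => FS θ S ψ φ lab x ^ 2) ≤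
      C * ((∑ q ∈ S, wt ψ q)^2 + T^(2*ε) * (∑ q ∈ S, wt ψ q)^(1+2*ε) +
        (1 + CB) / (1 - 2^(-cB)) * T^(-cB) * (∑ q ∈ S, wt ψ q)^(1+2*eps1) +
        η^(-ε) * ∑ q ∈ S, wt ψ q) := by
  obtain ⟨c0, h0, h1, h2⟩ := leafA'
  obtain ⟨C, h3, h4⟩ := h2 ε hε hε4
  exact ⟨C, c0, h3, h0, h1, h4⟩

end Crest.Agent.R4.LF11
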