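import Mathlib
import Crest.Agent.R4.HVWOne560

/-! Theorem R (LF8 of the LEAF text): one-prime numerics.
Diagonal pieces carry the constant `1` (level `0`) resp. `γ` (levels `≥ 1`), off-diagonal pieces the (large)
constant `τ`. -/

set_option autoImplicit false
open Finset

namespace Crest.Agent.R4.LF8
open Crest.Agent.R4.HVW560

/-- local constant of the piece `(k,l)` -/
noncomputable def cc (γ τ q : ℝ) (k l : ℕ) : ℝ :=
  if k = l then (if k = 0 then 1 else γ) else τ * q^(dst k l)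

/-- everything split -/
noncomputable def TA (γ τ q s : ℝ) (n : ℕ) (a b : ℕ → ℝ) : ℝ :=
  ∑ k ∈ range n, ∑ l ∈ range n, cc γ τ q k l * (a k * b l)^s

/-- off-diagonal kernel -/
noncomputable def oc (q : ℝ) (k l : ℕ) : ℝ := if k = l then 0 else q^(dst k l)

theorem oc_nonneg {q : ℝ} (h0 : 0 ≤ q) (k l : ℕ) : 0 ≤ oc q k l := by
  unfold oc; split_ifs <;> positivity

theorem oc_comm (q : ℝ) (k l : ℕ) : oc q k l = oc q l k := by
  unfold oc; simp only [eq_comm (a := k), dst_comm k l]

theorem oc_row {q : ℝ} (h0 : 0 ≤ q) (h1 : q ≤ 8/9) (n k : ℕ) (S : Finset ℕ) (hS : S ⊆ range n) :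
    ∑ l ∈ S, oc q k l ≤ 18 * q := by
  calc ∑ l ∈ S, oc q k l ≤ ∑ l ∈ insert k ((range n).erase k), oc q k l := by
        apply Finset.sum_le_sum_of_subset_of_nonneg _ (fun _ _ _ => oc_nonneg h0 _ _)
        intro l hl
        have := hS hl
        simp only [mem_insert, mem_erase]
        tauto
    _ = ∑ l ∈ (range n).erase k, q^(dst k l) := by
        rw [Finset.sum_insert (by simp)]
        simp only [oc, if_true, zero_add]
        apply Finset.sum_congr rfl
        intro l hl
        rw [if_neg (fun h => (Finset.mem_erase.1 hl).1 h.symm)]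
    _ ≤ _ := offrow h0 h1 n k

theorem oc_all {q s : ℝ} (h0 : 0 ≤ q) (h1 : q ≤ 8/9) (hs : 1/2 ≤ s) (n : ℕ) (S T : Finset ℕ)
    (hS : S ⊆ range n) (hT : T ⊆ range n) (a b : ℕ → ℝ) (ha : ∀ k, 0 ≤ a k) (hb : ∀ k, 0 ≤ b k) :
    ∑ k ∈ S, ∑ l ∈ T, oc q k l * (a k * b l)^s
      ≤ (18*q) * ((∑ k ∈ S, a k) * (∑ l ∈ T, b l))^s :=
  schur_rpow S T (fun k l => oc q k l) a b hs (fun _ _ _ _ => oc_nonneg h0 _ _)
    (fun k _ => oc_row h0 h1 n k T hT)
    (fun l _ => by
      have : ∑ i ∈ S, oc q i l = ∑ i ∈ S, oc q l i := Finset.sum_congr rfl fun i _ => oc_comm q i l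
      rw [this]; exact oc_row h0 h1 n l S hS)
    (by positivity) (fun k _ => ha k) (fun k _ => hb k)

/-- splitting off the diagonal -/
theorem TA_eq (γ τ q s : ℝ) (n : ℕ) (a b : ℕ → ℝ) :
    TA γ τ q s n a b = ∑ k ∈ range n, (if k = 0 then 1 else γ) * (a k * b k)^s
      + τ * ∑ k ∈ range n, ∑ l ∈ range n, oc q k l * (a k * b l)^s := by
  unfold TA
  rw [Finset.mul_sum, ← Finset.sum_add_distrib]
  apply Finset.sum_congr rfl
  intro k hk
  rw [Finset.mul_sum]
  have : (if k = 0 then (1:ℝ) else γ) * (a k * b k)^s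
      = ∑ l ∈ range n, if k = l then (if k = 0 then (1:ℝ) else γ) * (a k * b l)^s else 0 := by
    rw [Finset.sum_ite_eq, if_pos hk]
  rw [this, ← Finset.sum_add_distrib]
  apply Finset.sum_congr rfl
  intro l _
  unfold cc oc
  by_cases h : k = l
  · simp only [if_pos h]; simp
  · simp only [if_neg h]; ring

theorem diag_case1 {ε : ℝ} (hε : 0 < ε) (hε1 : ε ≤ 1) (n : ℕ) (a b : ℕ → ℝ)
    (ha : ∀ k, 0 ≤ a k) (hb : ∀ k, 0 ≤ b k) (hSa : ∑ k ∈ range n, a k = 1)
    (hSb : ∑ k ∈ range n, b k = 1) (h4 : ∀ k ∈ range n, a k * b k ≤ 1/4) :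
    ∑ k ∈ range n, (a k * b k)^(1/2+ε) ≤ 1 - 3*ε/4 := by
  have hq := quarter_pow hε.le hε1
  have h4n : 0 ≤ (1/4:ℝ)^ε := by positivity
  calc ∑ k ∈ range n, (a k * b k)^(1/2+ε) ≤ ∑ k ∈ range n, (1/4:ℝ)^ε * ((a k + b k)/2) := by
        apply Finset.sum_le_sum
        intro k hk
        have hab : 0 ≤ a k * b k := mul_nonneg (ha k) (hb k)
        rcases hab.eq_or_lt with h | h
        · rw [← h, Real.zero_rpow (by linarith)]
          have := ha k; have := hb k
          positivity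
        · rw [Real.rpow_add h, mul_comm]
          apply mul_le_mul
          · exact Real.rpow_le_rpow hab (h4 k hk) hε.le
          · rw [← Real.sqrt_eq_rpow]
            rw [Real.sqrt_le_left (by have := ha k; have := hb k; positivity)]
            nlinarith [sq_nonneg (a k - b k)]
          · positivity
          · exact h4n
    _ = (1/4:ℝ)^ε := by
        rw [← Finset.mul_sum, ← Finset.sum_div, Finset.sum_add_distrib, hSa, hSb]; norm_num
    _ ≤ _ := hq

/-- the concentrated case -/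
theorem TA_case2 {q ε γ τ : ℝ} (h0 : 0 < q) (h1 : q ≤ 8/9) (hε : 0 < ε) (hε4 : ε ≤ 1/4)
    (hγ0 : 0 ≤ γ) (hγ1 : γ ≤ 1) (hτ : 0 ≤ τ) (n K : ℕ)
    (hK : K ∈ range n) (a b : ℕ → ℝ)
    (ha : ∀ k, 0 ≤ a k) (hb : ∀ k, 0 ≤ b k) (hSa : ∑ k ∈ range n, a k = 1)
    (hSb : ∑ k ∈ range n, b k = 1) {z : ℝ} (hz : a K + b K = 2 - 2*z) (hz2 : z ≤ 1/2) :
    TA γ τ q (1/2+ε) n a b ≤ (if K = 0 then 1 else γ) * (1 - z) + z^(2*(1/2+ε))
      + 28 * τ * q * z^(1/2+ε) := by
  set s : ℝ := 1/2 + ε with hs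
  have hs0 : 0 < s := by rw [hs]; linarith
  have hs1 : s ≤ 1 := by linarith
  set x := ∑ k ∈ (range n).erase K, a k with hx
  set y := ∑ l ∈ (range n).erase K, b l with hy
  have hx0 : 0 ≤ x := Finset.sum_nonneg fun k _ => ha k
  have hy0 : 0 ≤ y := Finset.sum_nonneg fun k _ => hb k
  have hax : a K = 1 - x := by
    have := Finset.sum_erase_add (range n) a hK
    rw [hSa] at this; linarith
  have hby : b K = 1 - y := by
    have := Finset.sum_erase_add (range n) b hK
    rw [hSb] at this; linarith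
  have hzxy : z = (x+y)/2 := by linarith
  have hz0 : 0 ≤ z := by rw [hzxy]; positivity
  have ha1 : a K ≤ 1 := by linarith
  have hb1 : b K ≤ 1 := by linarith
  -- (xy)^s ≤ z^(2s)
  have hxy : x * y ≤ z^(2:ℝ) := by
    rw [hzxy, Real.rpow_two]; nlinarith [sq_nonneg (x-y)]
  have r4 : (x*y)^s ≤ z^(2*s) := by
    rw [Real.rpow_mul hz0]
    exact Real.rpow_le_rpow (by positivity) hxy hs0.le
  have r5' : z^(2*s) ≤ z^s := by
    rcases hz0.eq_or_lt with h | h
    · rw [← h, Real.zero_rpow (by positivity), Real.zero_rpow (by positivity)]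
    · exact Real.rpow_le_rpow_of_exponent_ge h (by linarith) (by linarith)
  have r6 : (a K * b K)^s ≤ 1 - z := by
    have hm : a K * b K ≤ (1-z)^(2:ℝ) := by
      rw [Real.rpow_two, hax, hby, hzxy]; nlinarith [sq_nonneg (x-y)]
    calc (a K * b K)^s ≤ ((1-z)^(2:ℝ))^s := Real.rpow_le_rpow (mul_nonneg (ha K) (hb K)) hm hs0.le
      _ = (1-z)^(2*s) := by rw [← Real.rpow_mul (by linarith)]
      _ ≤ (1-z)^(1:ℝ) := Real.rpow_le_rpow_of_exponent_ge (by linarith) (by linarith) (by linarith)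
      _ = 1 - z := Real.rpow_one _
  have r7 : x^s + y^s ≤ 2 * z^s := by
    have hc := (Real.concaveOn_rpow hs0.le hs1).2 (Set.mem_Ici.2 hx0) (Set.mem_Ici.2 hy0)
      (show (0:ℝ) ≤ 1/2 by norm_num) (show (0:ℝ) ≤ 1/2 by norm_num) (by norm_num)
    simp only [smul_eq_mul] at hc
    have : 1/2 * x + 1/2 * y = z := by rw [hzxy]; ring
    rw [this] at hc
    linarith
  -- diagonal
  have hd : ∑ k ∈ range n, (if k = 0 then 1 else γ) * (a k * b k)^s
      ≤ (if K = 0 then 1 else γ) * (1 - z) + z^(2*s) := by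
    rw [← Finset.sum_erase_add _ _ hK]
    have e1 : ∑ k ∈ (range n).erase K, (if k = 0 then 1 else γ) * (a k * b k)^s ≤ (x*y)^s := by
      have hsch := schur_rpow ((range n).erase K) ((range n).erase K)
        (fun k l => if k = l then (1:ℝ) else 0) a b (s := s) (D := 1) (by linarith)
        (fun _ _ _ _ => by split_ifs <;> norm_num)
        (fun k hk => by rw [Finset.sum_ite_eq, if_pos hk])
        (fun l hl => by
          simp only [Finset.sum_ite_eq', if_pos hl, le_refl]) (by norm_num)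
        (fun k _ => ha k) (fun k _ => hb k)
      rw [one_mul] at hsch
      refine le_trans ?_ hsch
      apply Finset.sum_le_sum
      intro k hk
      have : ∑ l ∈ (range n).erase K, (if k = l then (1:ℝ) else 0) * (a k * b l)^s = (a k * b k)^s := by
        have h2 : ∀ l, (if k = l then (1:ℝ) else 0) * (a k * b l)^s = if k = l then (a k * b l)^s else 0 := by
          intro l; split_ifs <;> simp
        simp_rw [h2]
        rw [Finset.sum_ite_eq, if_pos hk]
      rw [this]
      have h3 : 0 ≤ (a k * b k)^s := Real.rpow_nonneg (mul_nonneg (ha k) (hb k)) _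
      split_ifs
      · rw [one_mul]
      · exact mul_le_of_le_one_left h3 hγ1
    have e2 : (if K = 0 then 1 else γ) * (a K * b K)^s ≤ (if K = 0 then 1 else γ) * (1 - z) := by
      apply mul_le_mul_of_nonneg_left r6
      split_ifs
      · norm_num
      · exact hγ0
    linarith
  -- off-diagonal
  have ho : ∑ k ∈ range n, ∑ l ∈ range n, oc q k l * (a k * b l)^s ≤ 28 * q * z^s := by
    have hsplit : ∑ k ∈ range n, ∑ l ∈ range n, oc q k l * (a k * b l)^s
        = (∑ k ∈ (range n).erase K, ∑ l ∈ (range n).erase K, oc q k l * (a k * b l)^s)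
        + (∑ k ∈ (range n).erase K, oc q k K * (a k * b K)^s)
        + (∑ l ∈ (range n).erase K, oc q K l * (a K * b l)^s) + oc q K K * (a K * b K)^s := by
      rw [← Finset.sum_erase_add _ _ hK]
      have : ∀ k, ∑ l ∈ range n, oc q k l * (a k * b l)^s
          = ∑ l ∈ (range n).erase K, oc q k l * (a k * b l)^s + oc q k K * (a k * b K)^s := by
        intro k; rw [Finset.sum_erase_add _ _ hK]
      simp_rw [this]
      rw [Finset.sum_add_distrib]
      ring
    rw [hsplit]
    have r0 : oc q K K * (a K * b K)^s = 0 := by simp [oc]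
    have r1 : ∑ k ∈ (range n).erase K, ∑ l ∈ (range n).erase K, oc q k l * (a k * b l)^s
        ≤ (18*q) * (x*y)^s :=
      oc_all h0.le h1 (by linarith) n _ _ (Finset.erase_subset _ _) (Finset.erase_subset _ _) a b ha hb
    have r2 : ∑ k ∈ (range n).erase K, oc q k K * (a k * b K)^s ≤ 5 * q * x^s := by
      refine le_trans ?_ (single_dev h0 h1 hε hε4 n K a ha)
      apply Finset.sum_le_sum
      intro k hk
      have : oc q k K = q^(dst K k) := by
        unfold oc; rw [if_neg (Finset.mem_erase.1 hk).1, dst_comm]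
      rw [this]
      apply mul_le_mul_of_nonneg_left _ (by positivity)
      apply Real.rpow_le_rpow (mul_nonneg (ha k) (hb K)) _ hs0.le
      calc a k * b K ≤ a k * 1 := mul_le_mul_of_nonneg_left hb1 (ha k)
        _ = a k := mul_one _
    have r3 : ∑ l ∈ (range n).erase K, oc q K l * (a K * b l)^s ≤ 5 * q * y^s := by
      refine le_trans ?_ (single_dev h0 h1 hε hε4 n K b hb)
      apply Finset.sum_le_sum
      intro k hk
      have : oc q K k = q^(dst K k) := by
        unfold oc; rw [if_neg (Finset.mem_erase.1 hk).1.symm]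
      rw [this]
      apply mul_le_mul_of_nonneg_left _ (by positivity)
      apply Real.rpow_le_rpow (mul_nonneg (ha K) (hb k)) _ hs0.le
      calc a K * b k ≤ 1 * b k := mul_le_mul_of_nonneg_right ha1 (hb k)
        _ = b k := one_mul _
    have t2 : 18*q*(x*y)^s ≤ 18*q*z^s := mul_le_mul_of_nonneg_left (r4.trans r5') (by positivity)
    have t3 : 5*q*(x^s+y^s) ≤ 5*q*(2*z^s) := mul_le_mul_of_nonneg_left r7 (by positivity)
    rw [r0]
    calc _ ≤ (18*q) * (x*y)^s + 5*q*x^s + 5*q*y^s + 0 := by linarith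
      _ = 18*q*(x*y)^s + 5*q*(x^s+y^s) := by ring
      _ ≤ 18*q*z^s + 5*q*(2*z^s) := by linarith
      _ = 28 * q * z^s := by ring
  rw [TA_eq]
  have ho' := mul_le_mul_of_nonneg_left ho hτ
  calc _ ≤ ((if K = 0 then 1 else γ) * (1 - z) + z^(2*s)) + τ * (28 * q * z^s) := add_le_add hd ho'
    _ = _ := by ring

theorem young_aux {A z u : ℝ} (hA : 0 < A) (hz : 0 ≤ z) (hu : 0 < u) (hu1 : u ≤ 1/2) :
    A * z^(1-u) ≤ z/2 + (2*A)^(1/u) := by
  have hR : 0 ≤ (2*A)^(1/u) := by positivity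
  by_cases h : A * z^(1-u) ≤ z/2
  · linarith
  · push Not at h
    have hz' : 0 < z := by
      rcases hz.eq_or_lt with h0 | h0
      · rw [← h0, Real.zero_rpow (by linarith)] at h; norm_num at h
      · exact h0
    have e1 : z = z^(1-u) * z^u := by rw [← Real.rpow_add hz']; norm_num
    have hzu : 0 < z^(1-u) := by positivity
    have h2 : z^u < 2*A := by
      by_contra hcon
      push Not at hcon
      have : z^(1-u) * (2*A) ≤ z^(1-u) * z^u := mul_le_mul_of_nonneg_left hcon hzu.le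
      rw [← e1] at this
      linarith
    have h3 : z ≤ (2*A)^(1/u) := by
      have : (z^u)^(1/u) ≤ (2*A)^(1/u) := Real.rpow_le_rpow (by positivity) h2.le (by positivity)
      rwa [← Real.rpow_mul hz, mul_one_div_cancel hu.ne', Real.rpow_one] at this
    have h4 : A * z^(1-u) ≤ A * ((2*A)^(1/u))^(1-u) := by
      apply mul_le_mul_of_nonneg_left _ hA.le
      exact Real.rpow_le_rpow hz h3 (by linarith)
    have h5 : A * ((2*A)^(1/u))^(1-u) = (2*A)^(1/u) / 2 := by
      rw [← Real.rpow_mul (by positivity)]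
      have e : (1/u)*(1-u) = 1/u - 1 := by field_simp
      rw [e, Real.rpow_sub (by positivity), Real.rpow_one]
      field_simp
    rw [h5] at h4
    linarith

theorem aux_e1 {ε u : ℝ} (hε : 0 < ε) (hu : 1/4 ≤ u) : ε/8 ≤ ε/2*u := by nlinarith
theorem aux_e2 {ε : ℝ} (hε : 0 < ε) (hε4 : ε ≤ 1/4) : -(1-ε/2) * (2*(1/2+ε)) ≤ -(1+ε) := by nlinarith
theorem aux_q {a b : ℝ} (h : a + b ≤ 1) (ha : 0 ≤ a) (hb : 0 ≤ b) : a * b ≤ 1/4 := by
  nlinarith [sq_nonneg (a - b)]
theorem aux_z {z : ℝ} (h0 : 0 ≤ z) (h1 : z ≤ 1/2) : z^2 ≤ 1/4 := by nlinarith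
theorem aux_d {a b : ℝ} : (1 - a) * (1 - b) ≤ (1 - (a + b)/2)^2 := by nlinarith [sq_nonneg (a - b)]
theorem aux_t {t : ℝ} (h0 : 0 ≤ t) (h1 : t ≤ 1) : 1 ≤ (1 - t/2) * (1 + t) := by nlinarith
theorem aux_g {η z : ℝ} (h0 : 0 ≤ η) (h1 : η ≤ 1/2) (hz : 0 ≤ z) : (1-η)*(1-z) ≤ 1 - z/2 - η := by nlinarith
theorem aux_4 {τ X : ℝ} (h : (448*τ)^4 ≤ X) (h1 : 1 ≤ τ^4) : 2*(1 + (56*τ)^4) ≤ X := by nlinarith
theorem aux_f {p x X : ℝ} (hp : 0 < p) (h : 2*(1 + x) ≤ X) : (1 + x) * (2*p) ≤ X * p := by nlinarith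

set_option maxHeartbeats 1600000 in
/-- the one-prime inequality for Theorem R -/
theorem one_primeR {ε Z τ : ℝ} {p : ℕ} (hε : 0 < ε) (hε4 : ε ≤ 1/4) (hp : 2 ≤ p) (hZ1 : 1 ≤ Z)
    (hZp : Z ≤ p) (hτ1 : 1 ≤ τ) (hZ : 112/ε * τ ≤ Z^(ε/8)) (n : ℕ) (a b : ℕ → ℝ)
    (ha : ∀ k, 0 ≤ a k) (hb : ∀ k, 0 ≤ b k) (hSa : ∑ k ∈ range n, a k = 1)
    (hSb : ∑ k ∈ range n, b k = 1) :
    TA (Real.exp (-(Z^(ε/2)/p))) τ ((p:ℝ)^(-(1/2-ε))) (1/2+ε) n a b ≤ 1 + (p:ℝ)^(-(1+ε/2)) ∨
    1 + τ * ((∑ k ∈ (range n).filter (fun k => 1 ≤ k), a k) *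
      (∑ l ∈ (range n).filter (fun l => 1 ≤ l), b l))^(1/2+ε) ≤ 1 + (p:ℝ)^(-(1+ε/2)) := by
  have hp0 : (0:ℝ) < p := by positivity
  have hp2 : (2:ℝ) ≤ p := by exact_mod_cast hp
  have hp1 : (1:ℝ) ≤ p := by linarith
  have hZ0 : 0 < Z := by linarith
  have hτ0 : 0 < τ := by linarith
  set s : ℝ := 1/2 + ε with hs
  set u : ℝ := 1/2 - ε with hu
  have hu4 : 1/4 ≤ u := by rw [hu]; linarith
  have hu0 : 0 < u := by linarith
  have hu2 : u ≤ 1/2 := by rw [hu]; linarith
  have hs0 : 0 < s := by rw [hs]; linarith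
  set q : ℝ := (p:ℝ)^(-u) with hq
  have hq0 : 0 < q := by positivity
  set γ : ℝ := Real.exp (-(Z^(ε/2)/p)) with hγ
  have hγ0 : 0 ≤ γ := (Real.exp_pos _).le
  have hγ1 : γ ≤ 1 := by
    rw [hγ]; apply Real.exp_le_one_iff.2
    have : 0 ≤ Z^(ε/2)/p := by positivity
    linarith
  have hF0 : 0 ≤ (p:ℝ)^(-(1+ε/2)) := by positivity
  -- p^{ε/8} bounds
  have hZp8 : Z^(ε/8) ≤ (p:ℝ)^(ε/8) := Real.rpow_le_rpow hZ0.le hZp (by positivity)
  have hτp : 112/ε * τ ≤ (p:ℝ)^(ε/8) := hZ.trans hZp8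
  have hτp' : 112 * τ ≤ ε * (p:ℝ)^(ε/8) := by
    have := mul_le_mul_of_nonneg_left hτp hε.le
    calc 112 * τ = ε * (112/ε * τ) := by field_simp
      _ ≤ _ := this
  have hmono : ∀ {x y : ℝ}, x ≤ y → (p:ℝ)^x ≤ (p:ℝ)^y := fun h => Real.rpow_le_rpow_of_exponent_le hp1 h
  -- (a)
  have ca : 112 * τ * q ≤ ε := by
    calc 112 * τ * q ≤ ε * (p:ℝ)^(ε/8) * q := mul_le_mul_of_nonneg_right hτp' hq0.le
      _ = ε * ((p:ℝ)^(ε/8) * (p:ℝ)^(-u)) := by rw [hq]; ring
      _ = ε * (p:ℝ)^(ε/8 - u) := by rw [← Real.rpow_add hp0]; ring_nf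
      _ ≤ ε * (p:ℝ)^(0:ℝ) := by
          apply mul_le_mul_of_nonneg_left _ hε.le
          apply hmono; linarith
      _ = ε := by rw [Real.rpow_zero, mul_one]
  have hq1 : q ≤ 8/9 := by
    have : 112 * q ≤ 112 * τ * q := by
      have := mul_le_mul_of_nonneg_right hτ1 hq0.le
      linarith
    linarith
  -- (b)
  set x1 : ℝ := (p:ℝ)^(-(1-ε/2)) with hx1
  have hx10 : 0 < x1 := by positivity
  have cb : 56 * τ * q ≤ ε * x1^u := by
    have e1 : x1^u = q * (p:ℝ)^(ε/2*u) := by
      rw [hx1, hq, ← Real.rpow_mul hp0.le, ← Real.rpow_add hp0]; congr 1; ring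
    rw [e1]
    have : 56 * τ ≤ ε * (p:ℝ)^(ε/2*u) := by
      calc 56 * τ ≤ 112 * τ := by linarith
        _ ≤ ε * (p:ℝ)^(ε/8) := hτp'
        _ ≤ ε * (p:ℝ)^(ε/2*u) := by
            apply mul_le_mul_of_nonneg_left _ hε.le
            apply hmono; nlinarith
    calc 56 * τ * q ≤ (ε * (p:ℝ)^(ε/2*u)) * q := mul_le_mul_of_nonneg_right this hq0.le
      _ = _ := by ring
  have x12s : x1^(2*s) ≤ (p:ℝ)^(-(1+ε)) := by
    rw [hx1, ← Real.rpow_mul hp0.le]
    apply hmono
    rw [hs]; exact aux_e2 hε hε4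
  -- (d)
  have cd : τ * x1^(2*s) ≤ (p:ℝ)^(-(1+ε/2)) := by
    have h1 : τ ≤ (p:ℝ)^(ε/2) := by
      have h2 : τ ≤ 112/ε * τ := by
        have : 1 ≤ 112/ε := by rw [le_div_iff₀ hε]; linarith
        exact le_mul_of_one_le_left hτ0.le this
      exact (h2.trans hτp).trans (hmono (by linarith))
    calc τ * x1^(2*s) ≤ (p:ℝ)^(ε/2) * (p:ℝ)^(-(1+ε)) :=
          mul_le_mul h1 x12s (by positivity) (by positivity)
      _ = (p:ℝ)^(-(1+ε/2)) := by rw [← Real.rpow_add hp0]; congr 1; ring
  -- main case distinction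
  by_cases hcase : ∀ k ∈ range n, a k + b k ≤ 1
  · left
    have h4 : ∀ k ∈ range n, a k * b k ≤ 1/4 := by
      intro k hk
      exact aux_q (hcase k hk) (ha k) (hb k)
    have hd := diag_case1 hε (by linarith) n a b ha hb hSa hSb h4
    have ho := oc_all hq0.le hq1 (s := s) (by rw [hs]; linarith) n (range n) (range n) (le_refl _) (le_refl _) a b ha hb
    rw [hSa, hSb, one_mul, Real.one_rpow, mul_one] at ho
    rw [TA_eq]
    have hd' : ∑ k ∈ range n, (if k = 0 then 1 else γ) * (a k * b k)^s ≤ 1 - 3*ε/4 := by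
      refine le_trans ?_ hd
      apply Finset.sum_le_sum
      intro k _
      have h3 : 0 ≤ (a k * b k)^s := Real.rpow_nonneg (mul_nonneg (ha k) (hb k)) _
      split_ifs
      · rw [one_mul]
      · exact mul_le_of_le_one_left h3 hγ1
    have ho' := mul_le_mul_of_nonneg_left ho hτ0.le
    have h5 : τ * (18 * q) ≤ 3*ε/4 := by
      have : τ * (18*q) = (18/112) * (112 * τ * q) := by ring
      rw [this]; linarith
    linarith
  · push Not at hcase
    obtain ⟨K, hK, hKs⟩ := hcase
    set z : ℝ := 1 - (a K + b K)/2 with hzdef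
    have hz : a K + b K = 2 - 2*z := by rw [hzdef]; ring
    have hz2 : z ≤ 1/2 := by rw [hzdef]; linarith
    have haK : a K ≤ 1 := by rw [← hSa]; exact Finset.single_le_sum (fun k _ => ha k) hK
    have hbK : b K ≤ 1 := by rw [← hSb]; exact Finset.single_le_sum (fun k _ => hb k) hK
    have hz0 : 0 ≤ z := by rw [hzdef]; linarith
    have hT2 := TA_case2 (γ := γ) (τ := τ) hq0 hq1 hε hε4 hγ0 hγ1 hτ0.le n K hK a b ha hb hSa hSb hz hz2
    rw [← hs] at hT2
    by_cases hzx : x1 ≤ z
    · -- (b)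
      left
      refine hT2.trans ?_
      have hzp : 0 < z := lt_of_lt_of_le hx10 hzx
      have hγK : (if K = 0 then 1 else γ) * (1 - z) ≤ 1 - z := by
        have : 0 ≤ 1 - z := by linarith
        split_ifs
        · rw [one_mul]
        · exact mul_le_of_le_one_left this hγ1
      have r5 : z^(2*s) ≤ z * (1 - ε/2) := by
        have e : z^(2*s) = z * (z^2)^ε := by
          rw [show 2*s = 1 + 2*ε by rw [hs]; ring, Real.rpow_add hzp, Real.rpow_one, Real.rpow_mul hzp.le,
            Real.rpow_two]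
        rw [e]
        apply mul_le_mul_of_nonneg_left _ hzp.le
        calc (z^2)^ε ≤ (1/4:ℝ)^ε := by
              apply Real.rpow_le_rpow (by positivity) _ hε.le
              exact aux_z hz0 hz2
          _ ≤ 1 - 3*ε/4 := quarter_pow hε.le (by linarith)
          _ ≤ 1 - ε/2 := by linarith
      have h6 : 28 * τ * q * z^s ≤ (ε/2) * z := by
        have e1 : z = z^u * z^s := by
          rw [← Real.rpow_add hzp, hu, hs]; norm_num
        have h7 : 56 * τ * q ≤ ε * z^u := by
          refine cb.trans ?_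
          apply mul_le_mul_of_nonneg_left _ hε.le
          exact Real.rpow_le_rpow hx10.le hzx hu0.le
        have h8 : 0 < z^s := by positivity
        calc 28 * τ * q * z^s = (1/2) * ((56 * τ * q) * z^s) := by ring
          _ ≤ (1/2) * ((ε * z^u) * z^s) := by
              apply mul_le_mul_of_nonneg_left _ (by norm_num)
              exact mul_le_mul_of_nonneg_right h7 h8.le
          _ = (ε/2) * (z^u * z^s) := by ring
          _ = (ε/2) * z := by rw [← e1]
      linarith
    · push Not at hzx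
      by_cases hK0 : K = 0
      · -- (d)
        right
        have hsum : ∀ c : ℕ → ℝ, ∑ k ∈ range n, c k = 1 → ∑ k ∈ (range n).filter (fun k => 1 ≤ k), c k = 1 - c K := by
          intro c hc
          have : (range n).filter (fun k => 1 ≤ k) = (range n).erase K := by
            ext k; rw [hK0]; simp only [mem_filter, mem_erase, mem_range]; omega
          rw [this]
          have := Finset.sum_erase_add (range n) c hK
          rw [hc] at this; linarith
        rw [hsum a hSa, hsum b hSb]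
        have h1 : (1 - a K) * (1 - b K) ≤ z^(2:ℝ) := by
          rw [Real.rpow_two, hzdef]; exact aux_d
        have h2 : ((1 - a K) * (1 - b K))^s ≤ x1^(2*s) := by
          calc ((1 - a K) * (1 - b K))^s ≤ (z^(2:ℝ))^s :=
                Real.rpow_le_rpow (mul_nonneg (by linarith) (by linarith)) h1 hs0.le
            _ = z^(2*s) := by rw [← Real.rpow_mul hz0]
            _ ≤ x1^(2*s) := Real.rpow_le_rpow hz0 hzx.le (by positivity)
        have h3 := mul_le_mul_of_nonneg_left h2 hτ0.le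
        linarith
      · -- (c)
        left
        refine hT2.trans ?_
        rw [if_neg hK0]
        set η : ℝ := Z^(ε/2)/(2*p) with hη
        have hη0 : 0 ≤ η := by positivity
        have hZe : Z^(ε/2) ≤ p := by
          calc Z^(ε/2) ≤ Z^(1:ℝ) := Real.rpow_le_rpow_of_exponent_le hZ1 (by linarith)
            _ = Z := Real.rpow_one Z
            _ ≤ p := hZp
        have hη2 : η ≤ 1/2 := by
          rw [hη, div_le_iff₀ (by positivity)]; linarith
        have hγη : γ ≤ 1 - η := by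
          have ht0 : 0 ≤ Z^(ε/2)/p := by positivity
          have ht1 : Z^(ε/2)/p ≤ 1 := by rw [div_le_one hp0]; exact hZe
          have e1 : η = (Z^(ε/2)/p)/2 := by rw [hη]; field_simp
          rw [hγ, e1]
          set t := Z^(ε/2)/p
          -- exp(-t) ≤ 1 - t/2 on [0,1]
          have h1 : Real.exp (-t) * (1 + t) ≤ 1 := by
            have := Real.add_one_le_exp t
            calc Real.exp (-t) * (1+t) ≤ Real.exp (-t) * Real.exp t :=
                  mul_le_mul_of_nonneg_left (by linarith) (Real.exp_pos _).le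
              _ = 1 := by rw [← Real.exp_add]; simp
          have h2 : 1 ≤ (1 - t/2) * (1 + t) := aux_t ht0 ht1
          have h3 : 0 < 1 + t := by linarith
          by_contra hcon
          push Not at hcon
          have := mul_lt_mul_of_pos_right hcon h3
          linarith
        have h1z : 0 ≤ 1 - z := by linarith
        have hA1 : γ * (1 - z) ≤ 1 - z/2 - η := by
          calc γ * (1-z) ≤ (1-η)*(1-z) := mul_le_mul_of_nonneg_right hγη h1z
            _ ≤ 1 - z/2 - η := aux_g hη0 hη2 hz0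
        have hA2 : z^(2*s) ≤ 1/p := by
          calc z^(2*s) ≤ x1^(2*s) := Real.rpow_le_rpow hz0 hzx.le (by positivity)
            _ ≤ (p:ℝ)^(-(1+ε)) := x12s
            _ ≤ (p:ℝ)^(-1:ℝ) := hmono (by linarith)
            _ = 1/p := by rw [Real.rpow_neg_one, one_div]
        have hA3 : 28 * τ * q * z^s ≤ z/2 + (56*τ)^4/p := by
          have hy := young_aux (A := 28 * τ * q) (z := z) (u := u) (by positivity) hz0 hu0 hu2
          have e1 : 1 - u = s := by rw [hu, hs]; ring
          rw [e1] at hy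
          refine hy.trans ?_
          have e2 : (2 * (28 * τ * q))^(1/u) = (56*τ)^(1/u) * (1/p) := by
            rw [show 2 * (28 * τ * q) = (56*τ) * q by ring, Real.mul_rpow (by positivity) hq0.le, hq,
              ← Real.rpow_mul hp0.le]
            congr 1
            rw [show -u * (1/u) = -1 by field_simp, Real.rpow_neg_one, one_div]
          rw [e2]
          have h56 : 1 ≤ 56*τ := by linarith
          have e3 : (56*τ)^(1/u) ≤ (56*τ)^4 := by
            calc (56*τ)^(1/u) ≤ (56*τ)^(4:ℝ) := by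
                  apply Real.rpow_le_rpow_of_exponent_le h56
                  rw [div_le_iff₀ hu0]; linarith
              _ = (56*τ)^4 := by
                  rw [show (4:ℝ) = ((4:ℕ):ℝ) by norm_num, Real.rpow_natCast]
          have h9 : (56*τ)^(1/u) * (1/p) ≤ (56*τ)^4/p := by
            rw [mul_one_div]; exact div_le_div_of_nonneg_right e3 hp0.le
          linarith
        have hA4 : 1/p + (56*τ)^4/p ≤ η := by
          rw [← add_div, hη, div_le_div_iff₀ hp0 (by positivity)]
          have e1 : (Z^(ε/8))^4 = Z^(ε/2) := by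
            rw [← Real.rpow_natCast, ← Real.rpow_mul hZ0.le]; congr 1; push_cast; ring
          have h448 : 448 * τ ≤ Z^(ε/8) := by
            refine le_trans ?_ hZ
            apply mul_le_mul_of_nonneg_right _ hτ0.le
            rw [le_div_iff₀ hε]; linarith
          have h10 : (448*τ)^4 ≤ Z^(ε/2) := by
            rw [← e1]; exact pow_le_pow_left₀ (by positivity) h448 4
          have h11 : (1:ℝ) ≤ τ^4 := one_le_pow₀ hτ1
          have h12 : 2*(1 + (56*τ)^4) ≤ Z^(ε/2) := aux_4 h10 h11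
          exact aux_f hp0 h12
        linarith

end Crest.Agent.R4.LF8
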