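import Mathlib
import Crest.Agent.R4.ClsU_944
import Crest.Agent.R4.LF8d153
import Crest.Agent.R4.HVWRan560

/-!
R4 (S0004), helper944: LEAF TEXT, class (B) (cofactors larger than `Yb`), tame systems.
-/

set_option autoImplicit false
open Finset

namespace Crest.Agent.R4.ClsB

open Crest.Agent.R4.HVW560 Crest.Agent.R4.Smo944 Crest.Agent.R4.LF10 Crest.Agent.R016
open Crest.Agent.R4.LF765 Crest.Agent.R4.ClsS Crest.Agent.R4.LF9

/-- sums of `(wY)^{-1/2}` over sets with `≤ c W0` elements in every dyadic block `(W0, 2 W0]`,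
`W0 = Y / 2^{i+1}` -/
theorem dyadic_sum {Y : ℕ} {S : Finset ℕ} {c : ℝ} (hc : 0 ≤ c) (hS : ∀ w ∈ S, 0 < w ∧ w ≤ Y)
    (hblock : ∀ i : ℕ, ((S.filter (fun w : ℕ => (Y:ℝ)/2^(i+1) < (w:ℝ) ∧ (w:ℝ) ≤ 2 * ((Y:ℝ)/2^(i+1)))).card : ℝ)
      ≤ c * ((Y:ℝ)/2^(i+1))) :
    ∑ w ∈ S, ((w:ℝ) * Y)^(-(1/2:ℝ)) ≤ 3 * c := by
  classical
  rcases S.eq_empty_or_nonempty with rfl | ⟨w0, hw0⟩
  · rw [Finset.sum_empty]; positivity
  have hY0 : 0 < Y := lt_of_lt_of_le (hS w0 hw0).1 (hS w0 hw0).2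
  have hYr : (0:ℝ) < Y := by exact_mod_cast hY0
  set ix : ℕ → ℕ := fun w => Nat.log 2 (Y / w) with hix
  have hmaps : ∀ w ∈ S, ix w ∈ range (Y+1) := by
    intro w _
    rw [mem_range]
    have h1 : Nat.log 2 (Y / w) ≤ Y / w := Nat.log_le_self _ _
    have h2 : Y / w ≤ Y := Nat.div_le_self _ _
    simp only [hix]; omega
  rw [← Finset.sum_fiberwise_of_maps_to hmaps]
  have hr : (0:ℝ) ≤ (1/2:ℝ)^(1/2:ℝ) := by positivity
  set r : ℝ := (1/2:ℝ)^(1/2:ℝ) with hrd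
  have hr2 : r * r = 1/2 := by
    rw [hrd, ← Real.rpow_add (by norm_num)]; norm_num
  have hrlt : r < 3/4 := by nlinarith
  have hfib : ∀ i ∈ range (Y+1), ∑ w ∈ S.filter (fun w => ix w = i), ((w:ℝ) * Y)^(-(1/2:ℝ))
      ≤ c * r^(i+1) := by
    intro i _
    set W0 : ℝ := (Y:ℝ)/2^(i+1) with hW0
    have hW0p : 0 < W0 := by positivity
    have hmem : ∀ w ∈ S.filter (fun w => ix w = i), W0 < w ∧ (w:ℝ) ≤ 2 * W0 := by
      intro w hw
      rw [Finset.mem_filter] at hw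
      obtain ⟨hwS, hwi⟩ := hw
      obtain ⟨hw1, hw2⟩ := hS w hwS
      have hw1r : (0:ℝ) < w := by exact_mod_cast hw1
      have hdiv : 0 < Y / w := Nat.div_pos hw2 hw1
      have h1 : 2^i ≤ Y / w := by
        rw [← hwi]; exact Nat.pow_log_le_self 2 hdiv.ne'
      have h2 : Y / w < 2^(i+1) := by
        rw [← hwi]; exact Nat.lt_pow_succ_log_self (by norm_num) _
      have h3 : 2^i * w ≤ Y := (Nat.le_div_iff_mul_le hw1).1 h1
      have h4 : Y < 2^(i+1) * w := (Nat.div_lt_iff_lt_mul hw1).1 h2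
      have h3' : (2:ℝ)^i * w ≤ Y := by exact_mod_cast h3
      have h4' : (Y:ℝ) < 2^(i+1) * w := by exact_mod_cast h4
      constructor
      · rw [hW0, div_lt_iff₀ (by positivity)]; linarith
      · rw [hW0, pow_succ]
        rw [show 2 * ((Y:ℝ) / (2^i * 2)) = Y / 2^i by field_simp, le_div_iff₀ (by positivity)]
        linarith
    have hcard : ((S.filter (fun w => ix w = i)).card : ℝ) ≤ c * W0 := by
      refine le_trans ?_ (hblock i)
      have : S.filter (fun w => ix w = i) ⊆ S.filter (fun w : ℕ => (Y:ℝ)/2^(i+1) < (w:ℝ) ∧ (w:ℝ) ≤ 2 * ((Y:ℝ)/2^(i+1))) := by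
        intro w hw
        have := hmem w hw
        rw [Finset.mem_filter] at hw ⊢
        exact ⟨hw.1, this⟩
      exact_mod_cast Finset.card_le_card this
    have hterm : ∀ w ∈ S.filter (fun w => ix w = i), ((w:ℝ) * Y)^(-(1/2:ℝ)) ≤ (W0 * Y)^(-(1/2:ℝ)) := by
      intro w hw
      apply Real.rpow_le_rpow_of_nonpos (by positivity) _ (by norm_num)
      exact mul_le_mul_of_nonneg_right (hmem w hw).1.le hYr.le
    calc ∑ w ∈ S.filter (fun w => ix w = i), ((w:ℝ) * Y)^(-(1/2:ℝ))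
        ≤ ∑ w ∈ S.filter (fun w => ix w = i), (W0 * Y)^(-(1/2:ℝ)) := Finset.sum_le_sum hterm
      _ = ((S.filter (fun w => ix w = i)).card : ℝ) * (W0 * Y)^(-(1/2:ℝ)) := by
          rw [Finset.sum_const, nsmul_eq_mul]
      _ ≤ (c * W0) * (W0 * Y)^(-(1/2:ℝ)) := mul_le_mul_of_nonneg_right hcard (by positivity)
      _ = c * r^(i+1) := by
          rw [mul_assoc]
          congr 1
          have e1 : (W0 * Y)^(-(1/2:ℝ)) = W0^(-(1/2:ℝ)) * (Y:ℝ)^(-(1/2:ℝ)) :=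
            Real.mul_rpow hW0p.le hYr.le
          have e2 : W0 * W0^(-(1/2:ℝ)) = W0^(1/2:ℝ) := by
            nth_rw 1 [← Real.rpow_one W0]
            rw [← Real.rpow_add hW0p]; norm_num
          have e3 : W0 = Y * (1/2:ℝ)^(i+1) := by rw [hW0, one_div, inv_pow]; rfl
          rw [e1, ← mul_assoc, e2]
          rw [e3, Real.mul_rpow hYr.le (by positivity)]
          have e4 : (Y:ℝ)^(1/2:ℝ) * (Y:ℝ)^(-(1/2:ℝ)) = 1 := by
            rw [← Real.rpow_add hYr]; norm_num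
          have e5 : ((1/2:ℝ)^(i+1))^(1/2:ℝ) = r^(i+1) := by
            rw [hrd, ← Real.rpow_natCast, ← Real.rpow_natCast, ← Real.rpow_mul (by norm_num),
              ← Real.rpow_mul (by norm_num), mul_comm]
          rw [e5]
          calc (Y:ℝ)^(1/2:ℝ) * r^(i+1) * (Y:ℝ)^(-(1/2:ℝ)) = ((Y:ℝ)^(1/2:ℝ) * (Y:ℝ)^(-(1/2:ℝ))) * r^(i+1) := by ring
            _ = r^(i+1) := by rw [e4, one_mul]
  refine (Finset.sum_le_sum hfib).trans ?_
  rw [← Finset.mul_sum, mul_comm]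
  apply mul_le_mul_of_nonneg_right _ hc
  have hgeo : ∑ i ∈ range (Y+1), r^(i+1) = r * ∑ i ∈ range (Y+1), r^i := by
    rw [Finset.mul_sum]; apply Finset.sum_congr rfl; intro i _; rw [pow_succ, mul_comm]
  rw [hgeo, geom_sum_eq (by linarith)]
  have h1 : 0 ≤ r^(Y+1) := by positivity
  have h2 : (r^(Y+1) - 1)/(r - 1) ≤ 1/(1-r) := by
    rw [show (r^(Y+1) - 1)/(r - 1) = (1 - r^(Y+1))/(1-r) by
      rw [← neg_div_neg_eq]; congr 1 <;> ring]
    apply div_le_div_of_nonneg_right _ (by linarith)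
    linarith
  calc r * ((r^(Y+1) - 1)/(r - 1)) ≤ r * (1/(1-r)) := mul_le_mul_of_nonneg_left h2 hr
    _ = r/(1-r) := by ring
    _ ≤ 3 := by rw [div_le_iff₀ (by linarith)]; linarith

/-- trivial bound -/
theorem dyadic_triv {Y : ℕ} {S : Finset ℕ} (hS : ∀ w ∈ S, 0 < w ∧ w ≤ Y) :
    ∑ w ∈ S, ((w:ℝ) * Y)^(-(1/2:ℝ)) ≤ 6 := by
  classical
  have := dyadic_sum (c := 2) (by norm_num) hS (by
    intro i
    set W0 : ℝ := (Y:ℝ)/2^(i+1) with hW0
    have hW : 0 ≤ W0 := by positivity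
    have h1 : (S.filter (fun w : ℕ => W0 < (w:ℝ) ∧ (w:ℝ) ≤ 2 * W0)) ⊆ Icc 1 ⌊2*W0⌋₊ := by
      intro w hw
      rw [Finset.mem_filter] at hw
      rw [Finset.mem_Icc]
      exact ⟨(hS w hw.1).1, Nat.le_floor hw.2.2⟩
    have h2 := Finset.card_le_card h1
    rw [Nat.card_Icc] at h2
    have h3 : ((S.filter (fun w : ℕ => W0 < (w:ℝ) ∧ (w:ℝ) ≤ 2 * W0)).card : ℝ) ≤ ⌊2*W0⌋₊ := by
      exact_mod_cast (by omega : (S.filter (fun w : ℕ => W0 < (w:ℝ) ∧ (w:ℝ) ≤ 2 * W0)).card ≤ ⌊2*W0⌋₊)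
    exact h3.trans (Nat.floor_le (by positivity)))
  linarith

/-- relation of class (B) -/
structure PairB (θ t N2 Yb : ℝ) (x y : ℕ) : Prop where
  hx : 0 < x
  hxy : x < y
  hyY : Yb < y
  rel : ∃ n : ℤ, |(n:ℝ) - θ * ((x:ℝ) - y)| ≤ 2 / t
  uns : ∀ Y : ℝ, 0 < Y → Y < y → (y:ℝ) ≤ 2 * Y → ¬ Struct N2 θ t Y

/-- the exceptional smooth multipliers -/
def BBp (θ t N B1 Yb : ℝ) (b : ℕ) : Prop :=
  ∃ W0 : ℝ, Yb / (2*B1) ≤ W0 ∧ NStr (b*θ) t W0 N ∧ ¬ NStr θ t (2*b*W0) (2*N^5)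

open Classical in
/-- the value of `β` -/
noncomputable def bet (θ t N B1 Yb : ℝ) (b : ℕ) : ℝ := if BBp θ t N B1 Yb b then 6 else 9 / N

theorem bet_nonneg {θ t N B1 Yb : ℝ} (hN : 0 < N) (b : ℕ) : 0 ≤ bet θ t N B1 Yb b := by
  unfold bet; split_ifs <;> positivity

/-- the `β`-hypothesis -/
theorem betaHyp {θ t N B1 Yb z : ℝ} {a b : ℕ} (hN : 1 ≤ N) (ht : 200 * N ≤ t) (hB1 : 1 ≤ B1)
    (hbig : N ≤ Yb / (2*B1)) (hb : 0 < b) (hbB : (b:ℝ) ≤ B1) :
    BetaHyp z (fun x y => Nat.Coprime x y ∧ PairB θ t (2*N^5) Yb (a*x) (b*y)) (bet θ t N B1 Yb b) := by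
  classical
  intro v Y _
  have ht0 : 0 < t := by linarith
  have hN0 : 0 < N := by linarith
  have hbr : (0:ℝ) < b := by exact_mod_cast hb
  set S := (range (Y+1)).filter (fun w => ZR z w ∧ Nat.Coprime v w ∧ PairB θ t (2*N^5) Yb (a*v) (b*w)) with hS
  refine le_trans (le_of_eq (Finset.sum_congr (s₂ := S) ?_ fun _ _ => rfl)) ?_
  · ext w
    simp only [hS, Finset.mem_filter]
  have hS1 : ∀ w ∈ S, 0 < w ∧ w ≤ Y := by
    intro w hw
    rw [hS, Finset.mem_filter, Finset.mem_range] at hw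
    exact ⟨hw.2.1.1, by omega⟩
  by_cases hBB : BBp θ t N B1 Yb b
  · have : bet θ t N B1 Yb b = 6 := by unfold bet; rw [if_pos hBB]
    rw [this]
    exact dyadic_triv hS1
  · have hbet : bet θ t N B1 Yb b = 3 * (3 / N) := by unfold bet; rw [if_neg hBB]; ring
    rw [hbet]
    apply dyadic_sum (by positivity) hS1
    intro i
    set W0 : ℝ := (Y:ℝ)/2^(i+1) with hW0
    set F := S.filter (fun w : ℕ => W0 < (w:ℝ) ∧ (w:ℝ) ≤ 2 * W0) with hF
    rcases F.eq_empty_or_nonempty with hem | ⟨w0, hw0⟩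
    · rw [hem]; simp; positivity
    rw [hF, Finset.mem_filter, hS, Finset.mem_filter] at hw0
    obtain ⟨⟨_, _, _, hP⟩, hlo, hhi⟩ := hw0
    have hYpos : 0 < W0 := by
      have h1 := hP.hxy
      have : 0 < w0 := by
        rcases Nat.eq_zero_or_pos w0 with h | h
        · subst h; simp at h1
        · exact h
      have h2 : (0:ℝ) < w0 := by exact_mod_cast this
      linarith
    have h1 : Yb / (2*B1) ≤ W0 := by
      rw [div_le_iff₀ (by positivity)]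
      have h2 := hP.hyY
      push_cast at h2
      have h3 : (b:ℝ) * w0 ≤ B1 * (2*W0) := mul_le_mul hbB hhi (by positivity) (by linarith)
      linarith
    have hns2 : ¬ NStr θ t (2*b*W0) (2*N^5) := by
      intro hcon
      have h4 : ¬ Struct (2*N^5) θ t (b*W0) := hP.uns (b*W0) (by positivity)
        (by push_cast; exact mul_lt_mul_of_pos_left hlo hbr)
        (by
          push_cast
          calc (b:ℝ) * w0 ≤ b * (2*W0) := mul_le_mul_of_nonneg_left hhi hbr.le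
            _ = 2 * (b*W0) := by ring)
      apply h4
      exact NStr.mono ht0 (by positivity) (by nlinarith [mul_pos hbr hYpos]) hcon
    have hns : ¬ Struct N (b*θ) t W0 := fun hcon => hBB ⟨W0, h1, hcon, hns2⟩
    have hlf := LF6 hN hYpos ht hns (θ * (a*v)) F (by
      intro w hw
      rw [hF, Finset.mem_filter] at hw
      exact hw.2) (by
      intro w hw
      rw [hF, Finset.mem_filter, hS, Finset.mem_filter] at hw
      obtain ⟨n, hn⟩ := hw.1.2.2.2.rel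
      refine ⟨-n, ?_⟩
      push_cast at hn ⊢
      have e : (b:ℝ) * θ * w - θ * (a * v) - -(n:ℝ) = n - θ * (a * v - b * w) := by ring
      rw [e]; exact hn)
    have h5 : N ≤ W0 := hbig.trans h1
    have h6 : 1 ≤ W0 / N := by rw [le_div_iff₀ hN0]; linarith
    calc (F.card:ℝ) ≤ 2 * W0 / N + 1 := hlf.le
      _ ≤ 2 * W0 / N + W0 / N := by linarith
      _ = 3 / N * W0 := by ring

/-- the sum over the smooth reduced pairs -/
theorem exists_sumT {κ : ℝ} (hκ : 0 ≤ κ) : ∃ C : ℝ, 1 ≤ C ∧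
    ∀ (θ t N B1 Yb η : ℝ) (z : ℕ) (R : Finset (ℕ × ℕ)), 2 ≤ z → 0 < t → 1 ≤ N → 1 ≤ B1 → 0 < Yb →
    8 * (N * B1)^3 < t * Yb → 0 ≤ η → η ≤ 1 / N → Smooth z (R.image Prod.fst) →
    Smooth z (R.image Prod.snd) → (∀ x ∈ R, (x.2:ℝ) ≤ B1) →
    ∑ x ∈ R, wn κ x.1 * wn κ x.2 * (bet θ t N B1 Yb x.2 + η)
      ≤ C * (Real.exp (κ * Sm 6 * (Real.log (Real.log z) + 6)))^2 / N := by
  classical
  obtain ⟨C, hC1, hC⟩ := lf10 hκ
  refine ⟨10 + 6*C, by linarith, ?_⟩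
  intro θ t N B1 Yb η z R hz ht hN hB1 hYb hbig hη hηN hA hB hRB
  set X := Real.exp (κ * Sm 6 * (Real.log (Real.log z) + 6)) with hX
  have hX0 : 0 < X := Real.exp_pos _
  have hN0 : 0 < N := by linarith
  set A := R.image Prod.fst with hAd
  set B := R.image Prod.snd with hBd
  have hb0 : ∀ b, 0 ≤ bet θ t N B1 Yb b := bet_nonneg hN0
  have h1 : ∑ x ∈ R, wn κ x.1 * wn κ x.2 * (bet θ t N B1 Yb x.2 + η)
      ≤ ∑ x ∈ A ×ˢ B, wn κ x.1 * wn κ x.2 * (bet θ t N B1 Yb x.2 + η) := by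
    apply Finset.sum_le_sum_of_subset_of_nonneg
    · intro x hx
      exact Finset.mem_product.2 ⟨Finset.mem_image_of_mem _ hx, Finset.mem_image_of_mem _ hx⟩
    · intro x _ _
      exact mul_nonneg (mul_nonneg (wn_nonneg hκ _) (wn_nonneg hκ _)) (add_nonneg (hb0 _) hη)
  refine h1.trans ?_
  rw [Finset.sum_product]
  have h2 : ∀ a ∈ A, ∑ b ∈ B, wn κ a * wn κ b * (bet θ t N B1 Yb b + η)
      = wn κ a * ∑ b ∈ B, wn κ b * (bet θ t N B1 Yb b + η) := by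
    intro a _
    rw [Finset.mul_sum]; apply Finset.sum_congr rfl; intro b _; ring
  rw [Finset.sum_congr rfl h2, ← Finset.sum_mul]
  have hSA : ∑ a ∈ A, wn κ a ≤ X := sum_wn_le hκ hz hA
  have hSB : ∑ b ∈ B, wn κ b ≤ X := sum_wn_le hκ hz hB
  have hBBs : ∑ b ∈ B.filter (fun b => BBp θ t N B1 Yb b), wn κ b ≤ C * N^(-(17/10):ℝ) * X := by
    apply hC θ t N B1 Yb z _ hz
    exact
      { ht := ht, hN := hN, hB1 := hB1, hYb := hYb, big := hbig
        sm := fun b hb => hB b (Finset.mem_filter.1 hb).1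
        le := by
          intro b hb
          obtain ⟨x, hx, hxb⟩ := Finset.mem_image.1 (Finset.mem_filter.1 hb).1
          rw [← hxb]; exact hRB x hx
        str := fun b hb => (Finset.mem_filter.1 hb).2 }
  have hinner : ∑ b ∈ B, wn κ b * (bet θ t N B1 Yb b + η) ≤ (10 + 6*C) * X / N := by
    have e1 : ∀ b ∈ B, wn κ b * (bet θ t N B1 Yb b + η) ≤
        (10/N) * wn κ b + 6 * (if BBp θ t N B1 Yb b then wn κ b else 0) := by
      intro b _
      have hw := wn_nonneg hκ b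
      unfold bet
      split_ifs with h
      · have : 0 ≤ 9/N := by positivity
        have h3 : 10/N = 9/N + 1/N := by ring
        rw [h3]
        nlinarith
      · have h3 : 10/N = 9/N + 1/N := by ring
        rw [h3]
        nlinarith
    refine (Finset.sum_le_sum e1).trans ?_
    rw [Finset.sum_add_distrib, ← Finset.mul_sum, ← Finset.mul_sum, ← Finset.sum_filter]
    have h3 : N^(-(17/10):ℝ) ≤ 1/N := by
      calc N^(-(17/10):ℝ) ≤ N^(-1:ℝ) := Real.rpow_le_rpow_of_exponent_le hN (by norm_num)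
        _ = 1/N := by rw [Real.rpow_neg_one, one_div]
    calc 10/N * ∑ b ∈ B, wn κ b + 6 * ∑ b ∈ B.filter (fun b => BBp θ t N B1 Yb b), wn κ b
        ≤ 10/N * X + 6 * (C * (1/N) * X) := by
          apply add_le_add
          · exact mul_le_mul_of_nonneg_left hSB (by positivity)
          · apply mul_le_mul_of_nonneg_left _ (by norm_num)
            refine hBBs.trans ?_
            apply mul_le_mul_of_nonneg_right _ hX0.le
            exact mul_le_mul_of_nonneg_left h3 (by linarith)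
      _ = (10 + 6*C) * X / N := by ring
  calc (∑ a ∈ A, wn κ a) * ∑ b ∈ B, wn κ b * (bet θ t N B1 Yb b + η)
      ≤ X * ((10 + 6*C) * X / N) := by
        apply mul_le_mul hSA hinner _ hX0.le
        exact Finset.sum_nonneg fun b _ => mul_nonneg (wn_nonneg hκ _) (add_nonneg (hb0 _) hη)
    _ = _ := by ring

/-- `A(n)` for tame numbers -/
theorem Af_tame {z : ℝ} (hz : 2 ≤ z) {n : ℕ}
    (hb : ∑ p ∈ n.primeFactors.filter (fun p : ℕ => z < (p:ℝ)), (1:ℝ)/p ≤ 1) :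
    Af n ≤ Real.exp (2 * (Real.log (Real.log ⌊z⌋₊) + 6) + 2) := by
  classical
  have hz2 : 2 ≤ ⌊z⌋₊ := Nat.le_floor (by exact_mod_cast hz)
  have hstep : ∀ p ∈ n.primeFactors, (1 - 1/(p:ℝ))⁻¹ ≤ Real.exp (2 * (1/(p:ℝ))) := by
    intro p hp
    have h1 := one_sub_inv (Nat.mem_primeFactors.1 hp).1.two_le
    set u : ℝ := 1/(p:ℝ) with hu
    have hu0 : 0 ≤ u := by positivity
    rw [inv_le_comm₀ (by linarith) (Real.exp_pos _), ← Real.exp_neg]
    have h2 : Real.exp (-(2*u)) ≤ 1 / (1 + 2*u) := by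
      rw [Real.exp_neg, ← one_div]
      apply one_div_le_one_div_of_le (by linarith)
      linarith [Real.add_one_le_exp (2*u)]
    refine h2.trans ?_
    rw [div_le_iff₀ (by linarith)]
    nlinarith
  have h1 : Af n ≤ Real.exp (∑ p ∈ n.primeFactors, 2 * (1/(p:ℝ))) := by
    unfold Af
    rw [Real.exp_sum]
    apply Finset.prod_le_prod
    · intro p hp
      have := one_sub_inv (Nat.mem_primeFactors.1 hp).1.two_le
      have h : (0:ℝ) < 1 - 1/(p:ℝ) := by linarith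
      positivity
    · exact hstep
  refine h1.trans (Real.exp_le_exp.2 ?_)
  rw [← Finset.mul_sum, ← Finset.sum_filter_add_sum_filter_not n.primeFactors (fun p : ℕ => z < (p:ℝ))]
  have h2 : ∑ p ∈ n.primeFactors.filter (fun p : ℕ => ¬ z < (p:ℝ)), 1/(p:ℝ)
      ≤ Real.log (Real.log ⌊z⌋₊) + 6 := by
    refine le_trans ?_ (sum_prime_inv_le' ⌊z⌋₊ hz2)
    apply Finset.sum_le_sum_of_subset_of_nonneg
    · intro p hp
      rw [Finset.mem_filter] at hp
      have h3 := Nat.mem_primeFactors.1 hp.1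
      rw [mem_primesIoc]
      exact ⟨⟨h3.1.pos, Nat.le_floor (not_lt.1 hp.2)⟩, h3.1⟩
    · intro p _ _; positivity
  linarith

/-- smooth divisors divide the smooth part -/
theorem dvd_sp (S : ℕ → Prop) {b y : ℕ} (hy : 0 < y) (hb : ∀ p, p.Prime → p ∣ b → S p) (h : b ∣ y) :
    b ∣ sp S y := by
  have h1 : Nat.Coprime b (rp S y) := coprime_of_sep S hb (fun p hp hd => rp_prime S hp hd)
  have h2 : b ∣ sp S y * rp S y := by rw [sp_mul_rp S hy]; exact h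
  exact h1.dvd_of_dvd_mul_right h2

open Classical in
theorem log_sp (S : ℕ → Prop) (n : ℕ) :
    Real.log (sp S n) = ∑ p ∈ n.primeFactors.filter S, (n.factorization p : ℝ) * Real.log p := by
  unfold sp
  push_cast
  rw [Real.log_prod]
  · apply Finset.sum_congr rfl
    intro p _
    rw [Real.log_pow]
  · intro p hp
    have h := Nat.mem_primeFactors.1 (Finset.mem_filter.1 hp).1
    have : (0:ℝ) < p := by exact_mod_cast h.1.pos
    positivity

open Crest.Agent.R4.LF8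

/-- `N(t)`, with `2 N^5 = t^{1/10}` -/
noncomputable def Nt (t : ℝ) : ℝ := (t^(1/10:ℝ)/2)^(1/5:ℝ)

theorem two_Nt {t : ℝ} (ht : 0 < t) : 2 * (Nt t)^5 = t^(1/10:ℝ) := by
  unfold Nt
  rw [← Real.rpow_natCast, ← Real.rpow_mul (by positivity)]
  norm_num
  ring

theorem one_le_Nt {t : ℝ} (ht : 2^50 ≤ t) : 1 ≤ Nt t := by
  have ht0 : (0:ℝ) < t := lt_of_lt_of_le (by norm_num) ht
  unfold Nt
  apply Real.one_le_rpow _ (by norm_num)
  rw [le_div_iff₀ (by norm_num)]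
  calc (1 * 2 : ℝ) ≤ ((2:ℝ)^50)^(1/10:ℝ) := by
        rw [← Real.rpow_natCast, ← Real.rpow_mul (by norm_num)]; norm_num
    _ ≤ _ := Real.rpow_le_rpow (by norm_num) ht (by norm_num)

theorem Nt_le {t : ℝ} (ht : 2^50 ≤ t) : Nt t ≤ t^(1/50:ℝ) := by
  have ht0 : (0:ℝ) < t := lt_of_lt_of_le (by norm_num) ht
  unfold Nt
  calc (t^(1/10:ℝ)/2)^(1/5:ℝ) ≤ (t^(1/10:ℝ))^(1/5:ℝ) := by
        apply Real.rpow_le_rpow (by positivity) _ (by norm_num)
        have : 0 ≤ t^(1/10:ℝ) := by positivity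
        linarith
    _ = t^(1/50:ℝ) := by rw [← Real.rpow_mul ht0.le]; norm_num

theorem inv_Nt_le {t : ℝ} (ht : 2^50 ≤ t) : 1 / Nt t ≤ 2 * t^(-(1/50):ℝ) := by
  have ht0 : (0:ℝ) < t := lt_of_lt_of_le (by norm_num) ht
  have e : Nt t = t^(1/50:ℝ) / 2^(1/5:ℝ) := by
    unfold Nt
    rw [Real.div_rpow (by positivity) (by norm_num), ← Real.rpow_mul ht0.le]; norm_num
  rw [e, one_div_div, Real.rpow_neg ht0.le, ← div_eq_mul_inv]
  apply div_le_div_of_nonneg_right _ (by positivity)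
  calc (2:ℝ)^(1/5:ℝ) ≤ (2:ℝ)^(1:ℝ) := Real.rpow_le_rpow_of_exponent_le (by norm_num) (by norm_num)
    _ = 2 := by norm_num

theorem twohundred_Nt {t : ℝ} (ht : 2^50 ≤ t) : 200 * Nt t ≤ t := by
  have ht0 : (0:ℝ) < t := lt_of_lt_of_le (by norm_num) ht
  have e1 : t = t^(1/50:ℝ) * t^(49/50:ℝ) := by
    rw [← Real.rpow_add ht0]; norm_num
  have e2 : (200:ℝ) ≤ t^(49/50:ℝ) := by
    calc (200:ℝ) ≤ (2^50:ℝ)^(49/50:ℝ) := by
          rw [← Real.rpow_natCast, ← Real.rpow_mul (by norm_num)]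
          norm_num
      _ ≤ _ := Real.rpow_le_rpow (by norm_num) ht (by norm_num)
  have h1 := Nt_le ht
  have h0 : 0 ≤ t^(1/50:ℝ) := by positivity
  calc 200 * Nt t ≤ t^(49/50:ℝ) * t^(1/50:ℝ) := mul_le_mul e2 h1 (by linarith [one_le_Nt ht]) (by positivity)
    _ = t := by rw [mul_comm]; exact e1.symm

/-- numerical side conditions at scale `t` -/
structure NumB (ε c1 t : ℝ) : Prop where
  ht : 2^50 ≤ t
  hz0 : (112/ε * TR ε)^(16/ε) ≤ Real.exp (t^c1)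
  h16 : 20 ≤ t^c1
  big : 8 * (Nt t * Real.exp (t^(2*c1)))^3 < t * Real.exp (t^(3*c1))
  hN : Nt t ≤ Real.exp (t^(3*c1)) / (2*Real.exp (t^(2*c1)))
  hη : (Real.exp (t^c1))^(-(2*(ε/16))) ≤ 1 / Nt t
  hexp : Real.exp (-(t^c1)) ≤ t^(-1:ℝ)

/-- tameness of an element -/
def Tame (z : ℝ) (G q : ℕ) : Prop := G ∣ q ∧
  ∑ p ∈ (q/G).primeFactors.filter (fun p : ℕ => z < (p:ℝ)), (1:ℝ)/p ≤ z^(-(1/2:ℝ))

/-- part 1: the smooth part of `y` is at most `B1` -/
theorem part1 {ε : ℝ} (hε : 0 < ε) (hε4 : ε ≤ 1/4) : ∃ C K : ℝ, 1 ≤ C ∧ 0 ≤ K ∧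
    ∀ (c1 θ t : ℝ) (V W : Finset ℕ) (E : Finset (ℕ × ℕ)) (ψ ψ' : ℕ → ℝ) (G : ℕ), 0 < c1 →
    NumB ε c1 t → Sys V W E ψ ψ' (1/t) → 0 < G →
    (∀ q ∈ V, Tame (Real.exp (t^c1)) G q) → (∀ q ∈ W, Tame (Real.exp (t^c1)) G q) →
    (∀ e ∈ E, PairB θ t (t^(1/10:ℝ)) (Real.exp (t^(3*c1))) (cof e.1 e.2) (cof e.2 e.1)) →
    (∀ e ∈ E, ((sp (fun p : ℕ => (p:ℝ) ≤ Real.exp (t^c1)) (cof e.2 e.1) : ℕ) : ℝ) ≤ Real.exp (t^(2*c1))) →
    ∑ e ∈ E, wt ψ e.1 * wt ψ' e.2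
      ≤ C * ((1/t)^(1-2*ε) * (t^(c1*K - 1/50))^(1/2-ε) *
        ((∑ v ∈ V, wt ψ v) * (∑ w ∈ W, wt ψ' w))^(1/2+ε)) := by
  classical
  set κ : ℝ := (72/ε)^3 with hκd
  have hκ : 0 ≤ κ := by positivity
  obtain ⟨CT, hCT1, hCT⟩ := exists_sumT hκ
  have hSm := (Sm_pos 6).le
  set K0 : ℝ := κ * Sm 6 with hK0
  have hK00 : 0 ≤ K0 := by positivity
  have hu : 0 < 1/2 - ε := by linarith
  set C0 : ℝ := Real.exp (2 + 2/ε) with hC0
  have hC01 : 1 ≤ C0 := Real.one_le_exp (by positivity)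
  set C1 : ℝ := CT * (Real.exp (12*K0)) * 2 with hC1
  have hC11 : 1 ≤ C1 := by
    have : 1 ≤ Real.exp (12*K0) := Real.one_le_exp (by positivity)
    nlinarith
  refine ⟨C0 * C1, 2*K0, by nlinarith, by positivity, ?_⟩
  intro c1 θ t V W E ψ ψ' G hc1 hnum hs hG hVt hWt hP hB
  have ht := hnum.ht
  have ht0 : (0:ℝ) < t := lt_of_lt_of_le (by norm_num) ht
  have ht1 : (1:ℝ) ≤ t := le_trans (by norm_num) ht
  set z : ℝ := Real.exp (t^c1) with hz
  set B1 : ℝ := Real.exp (t^(2*c1)) with hB1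
  set Yb : ℝ := Real.exp (t^(3*c1)) with hYb
  set N : ℝ := Nt t with hN
  have hN1 : 1 ≤ N := one_le_Nt ht
  have hN0 : 0 < N := by linarith
  have hz1 : 1 ≤ z := Real.one_le_exp (by positivity)
  have hz2 : 2 ≤ z := by
    have := Real.add_one_le_exp (t^c1)
    have := hnum.h16
    linarith
  have hB11 : 1 ≤ B1 := Real.one_le_exp (by positivity)
  have hYb0 : 0 < Yb := Real.exp_pos _
  have hwnn : ∀ v ∈ V, 0 ≤ wt ψ v := fun v hv => wt_nonneg (hs.hψ v hv)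
  have hwnn' : ∀ v ∈ W, 0 ≤ wt ψ' v := fun v hv => wt_nonneg (hs.hθ v hv)
  have hdivV : ∀ q ∈ V, q = G * (q / G) := fun q hq => (Nat.mul_div_cancel' (hVt q hq).1).symm
  have hdivW : ∀ q ∈ W, q = G * (q / G) := fun q hq => (Nat.mul_div_cancel' (hWt q hq).1).symm
  have hcof : ∀ e ∈ E, cof (e.1/G) (e.2/G) = cof e.1 e.2 ∧ cof (e.2/G) (e.1/G) = cof e.2 e.1 := by
    intro e he
    have hm := Finset.mem_product.1 (hs.hE he)
    have h1 := hdivV _ hm.1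
    have h2 := hdivW _ hm.2
    constructor
    · conv_rhs => rw [h1, h2, cof_mul_left hG]
    · conv_rhs => rw [h1, h2, cof_mul_left hG]
  have hposV : ∀ q ∈ V, 0 < q / G := fun q hq =>
    Nat.div_pos (Nat.le_of_dvd (hs.hV q hq) (hVt q hq).1) hG
  have hposW : ∀ q ∈ W, 0 < q / G := fun q hq =>
    Nat.div_pos (Nat.le_of_dvd (hs.hW q hq) (hWt q hq).1) hG
  set β : ℕ → ℕ → ℝ := fun _ b => bet θ t N B1 Yb b with hβ
  have key := lf9_full hε hε4 (Real.exp_pos (2+2/ε)).le (by positivity : (0:ℝ) ≤ ε/16)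
    (thmR hε hε4) hnum.hz0 hz1 V W E (fun q => q/G) (fun q => q/G) (wt ψ) (wt ψ') (1/t)
    (PairB θ t (2*N^5) Yb) β (by positivity) hposV hposW
    (by
      intro a ha b hb hab
      rw [hdivV a ha, hdivV b hb]
      simp only at hab
      rw [hab])
    (by
      intro a ha b hb hab
      rw [hdivW a ha, hdivW b hb]
      simp only at hab
      rw [hab])
    hwnn hwnn' hs.hE (fun q hq => (hVt q hq).2) (fun q hq => (hWt q hq).2)
    (by
      intro e he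
      have hm := Finset.mem_product.1 (hs.hE he)
      rw [(hcof e he).1]
      refine le_trans ?_ (hs.h1 e he)
      apply mul_le_mul_of_nonneg_left _ (by positivity)
      unfold wt
      have := totient_ratio_le_one e.2
      have h2 := hs.hθ _ hm.2
      nlinarith)
    (by
      intro e he
      have hm := Finset.mem_product.1 (hs.hE he)
      rw [(hcof e he).2]
      refine le_trans ?_ (hs.h2 e he)
      apply mul_le_mul_of_nonneg_left _ (by positivity)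
      unfold wt
      have := totient_ratio_le_one e.1
      have h2 := hs.hψ _ hm.1
      nlinarith)
    (by
      intro e he
      rw [(hcof e he).1, (hcof e he).2, hN, two_Nt ht0]
      exact hP e he)
    (fun a b => bet_nonneg hN0 b)
    (by
      intro a b _ hb0 _ _ hbS himg
      apply betaHyp hN1 (twohundred_Nt ht) hB11 hnum.hN hb0
      obtain ⟨_, _, _, _, hxS, e, he, _, _, hdvd, _, _⟩ := mem_image_sp (fun p : ℕ => (p:ℝ) ≤ z)
        hposV hposW hs.hE himg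
      rw [(hcof e he).2] at hdvd
      have hm := Finset.mem_product.1 (hs.hE he)
      have hy := cof_pos (w := e.1) (hs.hW _ hm.2)
      have h1 := dvd_sp (fun p : ℕ => (p:ℝ) ≤ z) hy hxS hdvd
      have h2 := Nat.le_of_dvd (sp_pos _ hy) h1
      exact le_trans (by exact_mod_cast h2) (hB e he))
  refine key.trans ?_
  set img := E.image (fun e => (cof (sp (fun p : ℕ => (p:ℝ) ≤ z) (e.1/G)) (sp (fun p : ℕ => (p:ℝ) ≤ z) (e.2/G)),
            cof (sp (fun p : ℕ => (p:ℝ) ≤ z) (e.2/G)) (sp (fun p : ℕ => (p:ℝ) ≤ z) (e.1/G)))) with himg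
  have hzf2 : 2 ≤ ⌊z⌋₊ := Nat.le_floor (by exact_mod_cast hz2)
  have hprops : ∀ x ∈ img, 0 < x.1 ∧ 0 < x.2 ∧ (∀ p, p.Prime → p ∣ x.1 → p ≤ ⌊z⌋₊) ∧
      (∀ p, p.Prime → p ∣ x.2 → p ≤ ⌊z⌋₊) ∧ (x.2:ℝ) ≤ B1 := by
    intro x hx
    obtain ⟨h1, h2, _, h4, h5, e, he, _, _, hdvd, _, _⟩ := mem_image_sp (fun p : ℕ => (p:ℝ) ≤ z)
      hposV hposW hs.hE hx
    refine ⟨h1, h2, fun p hp hd => Nat.le_floor (h4 p hp hd), fun p hp hd => Nat.le_floor (h5 p hp hd), ?_⟩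
    rw [(hcof e he).2] at hdvd
    have hm := Finset.mem_product.1 (hs.hE he)
    have hy := cof_pos (w := e.1) (hs.hW _ hm.2)
    have h6 := dvd_sp (fun p : ℕ => (p:ℝ) ≤ z) hy h5 hdvd
    have h7 := Nat.le_of_dvd (sp_pos _ hy) h6
    exact le_trans (by exact_mod_cast h7) (hB e he)
  have hT := hCT θ t N B1 Yb (z^(-(2*(ε/16)))) ⌊z⌋₊ img hzf2 ht0 hN1 hB11 hYb0 hnum.big (by positivity)
    hnum.hη
    (by
      intro b hb
      obtain ⟨x, hx, rfl⟩ := Finset.mem_image.1 hb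
      exact ⟨(hprops x hx).1, (hprops x hx).2.2.1⟩)
    (by
      intro b hb
      obtain ⟨x, hx, rfl⟩ := Finset.mem_image.1 hb
      exact ⟨(hprops x hx).2.1, (hprops x hx).2.2.2.1⟩)
    (fun x hx => (hprops x hx).2.2.2.2)
  -- numerics
  have hlogz : Real.log ⌊z⌋₊ ≤ t^c1 := by
    have h0 : (0:ℝ) < (⌊z⌋₊:ℝ) := by positivity
    calc Real.log ⌊z⌋₊ ≤ Real.log z := Real.log_le_log h0 (Nat.floor_le (by linarith))
      _ = t^c1 := by rw [hz, Real.log_exp]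
  have hlogz0 : 0 < Real.log ⌊z⌋₊ := Real.log_pos (by
    have : (2:ℝ) ≤ (⌊z⌋₊:ℝ) := by exact_mod_cast hzf2
    linarith)
  have hX : Real.exp (K0 * (Real.log (Real.log ⌊z⌋₊) + 6)) ≤ Real.exp (6*K0) * t^(c1*K0) := by
    have h2 : Real.log (Real.log ⌊z⌋₊) ≤ c1 * Real.log t := by
      calc Real.log (Real.log ⌊z⌋₊) ≤ Real.log (t^c1) := Real.log_le_log hlogz0 hlogz
        _ = c1 * Real.log t := Real.log_rpow ht0 _
    have h3 : t^(c1*K0) = Real.exp (K0 * (c1 * Real.log t)) := by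
      rw [Real.rpow_def_of_pos ht0]; congr 1; ring
    rw [h3, ← Real.exp_add]
    apply Real.exp_le_exp.2
    nlinarith
  have hT2 : ∑ x ∈ img, wn κ x.1 * wn κ x.2 * (β x.1 x.2 + z^(-(2*(ε/16)))) ≤ C1 * t^(c1*(2*K0) - 1/50) := by
    refine hT.trans ?_
    have h1 : (Real.exp (κ * Sm 6 * (Real.log (Real.log ⌊z⌋₊) + 6)))^2 ≤ Real.exp (12*K0) * t^(c1*(2*K0)) := by
      calc (Real.exp (κ * Sm 6 * (Real.log (Real.log ⌊z⌋₊) + 6)))^2 ≤ (Real.exp (6*K0) * t^(c1*K0))^2 :=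
            pow_le_pow_left₀ (Real.exp_pos _).le hX 2
        _ = Real.exp (12*K0) * t^(c1*(2*K0)) := by
            rw [mul_pow, ← Real.exp_nat_mul, ← Real.rpow_natCast, ← Real.rpow_mul ht0.le]
            congr 1
            · congr 1; push_cast; ring
            · congr 1; push_cast; ring
    calc CT * (Real.exp (κ * Sm 6 * (Real.log (Real.log ⌊z⌋₊) + 6)))^2 / N
        = CT * (Real.exp (κ * Sm 6 * (Real.log (Real.log ⌊z⌋₊) + 6)))^2 * (1/N) := by ring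
      _ ≤ CT * (Real.exp (12*K0) * t^(c1*(2*K0))) * (2 * t^(-(1/50):ℝ)) := by
          apply mul_le_mul _ (inv_Nt_le ht) (by positivity) (by positivity)
          exact mul_le_mul_of_nonneg_left h1 (by linarith)
      _ = C1 * (t^(c1*(2*K0)) * t^(-(1/50):ℝ)) := by rw [hC1]; ring
      _ = C1 * t^(c1*(2*K0) - 1/50) := by rw [← Real.rpow_add ht0]; rfl
  have hT0 : 0 ≤ ∑ x ∈ img, wn κ x.1 * wn κ x.2 * (β x.1 x.2 + z^(-(2*(ε/16)))) := by
    apply Finset.sum_nonneg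
    intro x _
    exact mul_nonneg (mul_nonneg (wn_nonneg hκ _) (wn_nonneg hκ _))
      (add_nonneg (bet_nonneg hN0 _) (by positivity))
  have hT3 : (∑ x ∈ img, wn κ x.1 * wn κ x.2 * (β x.1 x.2 + z^(-(2*(ε/16)))))^(1/2-ε)
      ≤ C1 * (t^(c1*(2*K0) - 1/50))^(1/2-ε) := by
    calc _ ≤ (C1 * t^(c1*(2*K0) - 1/50))^(1/2-ε) := Real.rpow_le_rpow hT0 hT2 hu.le
      _ = C1^(1/2-ε) * (t^(c1*(2*K0) - 1/50))^(1/2-ε) := Real.mul_rpow (by linarith) (by positivity)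
      _ ≤ C1 * (t^(c1*(2*K0) - 1/50))^(1/2-ε) := by
          apply mul_le_mul_of_nonneg_right _ (by positivity)
          calc C1^(1/2-ε) ≤ C1^(1:ℝ) := Real.rpow_le_rpow_of_exponent_le hC11 (by linarith)
            _ = C1 := Real.rpow_one C1
  have hM : 0 ≤ (∑ v ∈ V, wt ψ v) * (∑ w ∈ W, wt ψ' w) :=
    mul_nonneg (Finset.sum_nonneg hwnn) (Finset.sum_nonneg hwnn')
  have hMs : 0 ≤ ((∑ v ∈ V, wt ψ v) * (∑ w ∈ W, wt ψ' w))^(1/2+ε) := by positivity
  calc C0 * ((1/t)^(1-2*ε) * ((∑ x ∈ img, wn κ x.1 * wn κ x.2 * (β x.1 x.2 + z^(-(2*(ε/16)))))^(1/2-ε) *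
        ((∑ v ∈ V, wt ψ v) * (∑ w ∈ W, wt ψ' w))^(1/2+ε)))
      ≤ C0 * ((1/t)^(1-2*ε) * ((C1 * (t^(c1*(2*K0) - 1/50))^(1/2-ε)) *
        ((∑ v ∈ V, wt ψ v) * (∑ w ∈ W, wt ψ' w))^(1/2+ε))) := by
        apply mul_le_mul_of_nonneg_left _ (by positivity)
        apply mul_le_mul_of_nonneg_left _ (by positivity)
        exact mul_le_mul_of_nonneg_right hT3 hMs
    _ = _ := by ring

/-- the side conditions hold for large `t` -/
theorem exists_NumB {ε c1 : ℝ} (hε : 0 < ε) (hε4 : ε ≤ 1/4) (hc1 : 0 < c1) :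
    ∃ T0 : ℝ, ∀ t : ℝ, T0 ≤ t → NumB ε c1 t := by
  have h1 : ∀ᶠ t : ℝ in Filter.atTop, (112/ε * TR ε)^(16/ε) ≤ Real.exp (t^c1) :=
    (Real.tendsto_exp_atTop.comp (tendsto_rpow_atTop hc1)).eventually_ge_atTop _
  have h2 : ∀ᶠ t : ℝ in Filter.atTop, 20 ≤ t^c1 :=
    (tendsto_rpow_atTop hc1).eventually_ge_atTop _
  have h3 : ∀ᶠ t : ℝ in Filter.atTop, ‖Real.log t‖ ≤ ε/8 * ‖t^c1‖ :=
    (isLittleO_log_rpow_atTop hc1).bound (by positivity)
  have h4 : ∀ᶠ t : ℝ in Filter.atTop, (2:ℝ)^50 ≤ t := Filter.eventually_ge_atTop _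
  obtain ⟨T0, hT0⟩ := Filter.eventually_atTop.1 (h1.and (h2.and (h3.and h4)))
  refine ⟨T0, fun t ht => ?_⟩
  obtain ⟨k1, k2, k3, k4⟩ := hT0 t ht
  have ht0 : (0:ℝ) < t := lt_of_lt_of_le (by norm_num) k4
  have ht1 : (1:ℝ) ≤ t := le_trans (by norm_num) k4
  have hlog0 : 0 ≤ Real.log t := Real.log_nonneg ht1
  set y : ℝ := t^c1 with hy
  have hy0 : 0 < y := by positivity
  have hlog : Real.log t ≤ ε/8 * y := by
    rw [Real.norm_eq_abs, Real.norm_eq_abs, abs_of_nonneg hlog0, abs_of_pos hy0] at k3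
    exact k3
  have hlogy : Real.log t ≤ y := by nlinarith
  have e2 : t^(2*c1) = y^2 := by
    rw [hy, ← Real.rpow_natCast, ← Real.rpow_mul ht0.le]; congr 1; push_cast; ring
  have e3 : t^(3*c1) = y^3 := by
    rw [hy, ← Real.rpow_natCast, ← Real.rpow_mul ht0.le]; congr 1; push_cast; ring
  have hty : t ≤ Real.exp y := by
    rw [← Real.log_le_iff_le_exp ht0]; exact hlogy
  have hN1 := one_le_Nt k4
  have hNt := Nt_le k4
  have hN0 : 0 < Nt t := by linarith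
  have hNt1 : 2 * Nt t ≤ t := by
    have := twohundred_Nt k4; linarith
  refine ⟨k4, k1, k2, ?_, ?_, ?_, ?_⟩
  · rw [e2, e3, mul_pow, ← mul_assoc]
    apply mul_lt_mul''
    · calc 8 * (Nt t)^3 ≤ 8 * (t^(1/50:ℝ))^3 := by
            apply mul_le_mul_of_nonneg_left _ (by norm_num)
            exact pow_le_pow_left₀ hN0.le hNt 3
        _ = 8 * t^(3/50:ℝ) := by
            rw [← Real.rpow_natCast, ← Real.rpow_mul ht0.le]; norm_num
        _ < t^(47/50:ℝ) * t^(3/50:ℝ) := by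
            apply mul_lt_mul_of_pos_right _ (by positivity)
            calc (8:ℝ) < (2^50:ℝ)^(47/50:ℝ) := by
                  rw [← Real.rpow_natCast, ← Real.rpow_mul (by norm_num)]
                  norm_num
              _ ≤ _ := Real.rpow_le_rpow (by norm_num) k4 (by norm_num)
        _ = t := by rw [← Real.rpow_add ht0]; norm_num
    · rw [← Real.exp_nat_mul]
      apply Real.exp_lt_exp.2
      push_cast
      nlinarith [sq_nonneg y]
    · positivity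
    · positivity
  · rw [e2, e3, le_div_iff₀ (by positivity)]
    calc Nt t * (2 * Real.exp (y^2)) = (2 * Nt t) * Real.exp (y^2) := by ring
      _ ≤ t * Real.exp (y^2) := mul_le_mul_of_nonneg_right hNt1 (Real.exp_pos _).le
      _ ≤ Real.exp y * Real.exp (y^2) := mul_le_mul_of_nonneg_right hty (Real.exp_pos _).le
      _ = Real.exp (y + y^2) := by rw [← Real.exp_add]
      _ ≤ Real.exp (y^3) := by
          apply Real.exp_le_exp.2
          nlinarith [sq_nonneg y]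
  · have h5 : (Real.exp y)^(-(2*(ε/16))) = Real.exp (-(ε/8*y)) := by
      rw [← Real.exp_mul]; congr 1; ring
    rw [h5, Real.exp_neg, ← one_div]
    apply one_div_le_one_div_of_le hN0
    have h6 : t ≤ Real.exp (ε/8*y) := by
      rw [← Real.log_le_iff_le_exp ht0]; exact hlog
    linarith
  · rw [Real.exp_neg, Real.rpow_neg_one]
    exact inv_anti₀ ht0 hty

/-- part 2: the smooth part of `y` is larger than `B1` -/
theorem part2 {ε : ℝ} (hε : 0 < ε) (hε4 : ε ≤ 1/4) : ∃ C : ℝ, 1 ≤ C ∧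
    ∀ (c1 t : ℝ) (V W : Finset ℕ) (E : Finset (ℕ × ℕ)) (ψ ψ' : ℕ → ℝ), 0 < c1 →
    NumB ε c1 t → Sys V W E ψ ψ' (1/t) →
    (∀ e ∈ E, Real.exp (t^(2*c1)) < ((sp (fun p : ℕ => (p:ℝ) ≤ Real.exp (t^c1)) (cof e.2 e.1) : ℕ) : ℝ)) →
    ∑ e ∈ E, wt ψ e.1 * wt ψ' e.2
      ≤ C * ((1/t)^(1-2*ε) * Real.exp (-(t^c1)) *
        ((∑ v ∈ V, wt ψ v) * (∑ w ∈ W, wt ψ' w))^(1/2+ε)) := by
  classical
  set C : ℝ := Real.exp (48*1*Real.exp (4*1) + 10^12 * (Real.exp 1/ε)^7) with hC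
  refine ⟨C, Real.one_le_exp (by positivity), ?_⟩
  intro c1 t V W E ψ ψ' hc1 hnum hs hE
  have ht := hnum.ht
  have ht0 : (0:ℝ) < t := lt_of_lt_of_le (by norm_num) ht
  set z : ℝ := Real.exp (t^c1) with hz
  have h16 := hnum.h16
  have hz2 : 2 ≤ z := by
    have := Real.add_one_le_exp (t^c1)
    linarith
  have hzf2 : 2 ≤ ⌊z⌋₊ := Nat.le_floor (by exact_mod_cast hz2)
  have h0 : (0:ℝ) < (⌊z⌋₊:ℝ) := by positivity
  have hlogz : Real.log ⌊z⌋₊ ≤ t^c1 := by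
    calc Real.log ⌊z⌋₊ ≤ Real.log z := Real.log_le_log h0 (Nat.floor_le (by linarith))
      _ = t^c1 := by rw [hz, Real.log_exp]
  have hlogz16 : 16 * 1 ≤ Real.log ⌊z⌋₊ := by
    have h1 : z / 2 ≤ ⌊z⌋₊ := by
      have := Nat.lt_floor_add_one z
      linarith
    have h2 : Real.log (z/2) ≤ Real.log ⌊z⌋₊ := Real.log_le_log (by positivity) h1
    rw [Real.log_div (by positivity) (by norm_num), hz, Real.log_exp] at h2
    have h3 := Real.log_two_lt_d9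
    linarith
  have hlogz0 : 0 < Real.log ⌊z⌋₊ := by linarith
  have key := hvw_smooth (κ := 1) (H := t^(2*c1)) (z := ⌊z⌋₊) hε hε4 hzf2 (by norm_num) hlogz16 hs (by
    intro e he
    have hm := Finset.mem_product.1 (hs.hE he)
    have c1' := cof_pos (w := e.2) (hs.hV _ hm.1)
    have c2' := cof_pos (w := e.1) (hs.hW _ hm.2)
    have h1 : t^(2*c1) ≤ Real.log (sp (fun p : ℕ => (p:ℝ) ≤ z) (cof e.2 e.1) : ℕ) := by
      have := hE e he
      rw [Real.le_log_iff_exp_le (by exact_mod_cast sp_pos _ c2')]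
      exact this.le
    rw [log_sp] at h1
    refine h1.trans ?_
    refine le_trans ?_ (Finset.sum_le_sum_of_subset_of_nonneg
      (s := (cof e.2 e.1).primeFactors.filter (fun p : ℕ => p ≤ ⌊z⌋₊)) ?_ ?_)
    · refine le_trans (le_of_eq ?_) (Finset.sum_le_sum (f := fun p : ℕ => ((cof e.2 e.1).factorization p : ℝ) * Real.log p) ?_)
      · apply Finset.sum_congr _ (fun _ _ => rfl)
        ext p
        simp only [Finset.mem_filter]
        constructor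
        · rintro ⟨h2, h3⟩; exact ⟨h2, Nat.le_floor h3⟩
        · rintro ⟨h2, h3⟩
          refine ⟨h2, le_trans (by exact_mod_cast h3) (Nat.floor_le (by linarith))⟩
      · intro p hp
        have hpp := (Nat.mem_primeFactors.1 (Finset.mem_filter.1 hp).1).1
        apply mul_le_mul_of_nonneg_right _ (Real.log_nonneg (by exact_mod_cast hpp.one_le))
        rw [Nat.factorization_mul c1'.ne' c2'.ne', Finsupp.add_apply]
        push_cast
        have : (0:ℝ) ≤ ((cof e.1 e.2).factorization p : ℝ) := by positivity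
        linarith
    · intro p hp
      rw [Finset.mem_filter] at hp ⊢
      exact ⟨Nat.primeFactors_mono (Dvd.intro_left _ rfl) (Nat.mul_pos c1' c2').ne' hp.1, hp.2⟩
    · intro p hp _
      have hpp := (Nat.mem_primeFactors.1 (Finset.mem_filter.1 hp).1).1
      exact mul_nonneg (by positivity) (Real.log_nonneg (by exact_mod_cast hpp.one_le)))
  rw [← hC] at key
  refine key.trans ?_
  have hM : 0 ≤ (∑ v ∈ V, wt ψ v) * (∑ w ∈ W, wt ψ' w) :=
    mul_nonneg (Finset.sum_nonneg fun v hv => wt_nonneg (hs.hψ v hv))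
      (Finset.sum_nonneg fun v hv => wt_nonneg (hs.hθ v hv))
  have hMs : 0 ≤ ((∑ v ∈ V, wt ψ v) * (∑ w ∈ W, wt ψ' w))^(1/2+ε) := by positivity
  have h5 : Real.exp (-(1 * t^(2*c1) / Real.log ⌊z⌋₊)) ≤ Real.exp (-(t^c1)) := by
    apply Real.exp_le_exp.2
    rw [neg_le_neg_iff, one_mul, le_div_iff₀ hlogz0]
    have e2 : t^(2*c1) = t^c1 * t^c1 := by
      rw [← Real.rpow_add ht0]; congr 1; ring
    rw [e2]
    exact mul_le_mul_of_nonneg_left hlogz (by positivity)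
  calc Real.exp (-(1 * t^(2*c1) / Real.log ⌊z⌋₊)) * (C * ((1/t)^(1-2*ε) *
        ((∑ v ∈ V, wt ψ v) * (∑ w ∈ W, wt ψ' w))^(1/2+ε)))
      ≤ Real.exp (-(t^c1)) * (C * ((1/t)^(1-2*ε) *
        ((∑ v ∈ V, wt ψ v) * (∑ w ∈ W, wt ψ' w))^(1/2+ε))) :=
        mul_le_mul_of_nonneg_right h5 (by positivity)
    _ = _ := by ring

/-- **class (B)**, one orientation -/
theorem classB_half : ∃ C K : ℝ, 1 ≤ C ∧ 0 ≤ K ∧
    ∀ c1 : ℝ, 0 < c1 → c1 * (4 + K) ≤ 1/1000 →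
    ∀ (θ t : ℝ) (V W : Finset ℕ) (E : Finset (ℕ × ℕ)) (ψ ψ' : ℕ → ℝ) (G : ℕ),
    NumB eps1 c1 t → Sys V W E ψ ψ' (1/t) → 0 < G →
    (∀ q ∈ V, Tame (Real.exp (t^c1)) G q) → (∀ q ∈ W, Tame (Real.exp (t^c1)) G q) →
    (∀ e ∈ E, PairB θ t (t^(1/10:ℝ)) (Real.exp (t^(3*c1))) (cof e.1 e.2) (cof e.2 e.1)) →
    ∑ e ∈ E, wt ψ e.1 * wt ψ' e.2 * (Af (cof e.1 e.2) * Af (cof e.2 e.1))
      ≤ C * t^(-(1006/1000):ℝ) * ((∑ v ∈ V, wt ψ v) * (∑ w ∈ W, wt ψ' w))^(1/2+eps1) := by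
  classical
  have hε : (0:ℝ) < eps1 := by unfold eps1; norm_num
  have hε4 : eps1 ≤ 1/4 := by unfold eps1; norm_num
  obtain ⟨C1, K, hC1, hK, h1⟩ := part1 hε hε4
  obtain ⟨C2, hC2, h2⟩ := part2 hε hε4
  refine ⟨Real.exp 28 * (C1 + C2), K, ?_, hK, ?_⟩
  · have : 1 ≤ Real.exp 28 := Real.one_le_exp (by norm_num)
    nlinarith
  intro c1 hc1 hc1K θ t V W E ψ ψ' G hnum hs hG hVt hWt hP
  have ht := hnum.ht
  have ht0 : (0:ℝ) < t := lt_of_lt_of_le (by norm_num) ht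
  have ht1 : (1:ℝ) ≤ t := le_trans (by norm_num) ht
  set z : ℝ := Real.exp (t^c1) with hz
  have h16 := hnum.h16
  have hz2 : 2 ≤ z := by
    have := Real.add_one_le_exp (t^c1)
    linarith
  have hzf2 : 2 ≤ ⌊z⌋₊ := Nat.le_floor (by exact_mod_cast hz2)
  have hlogz : Real.log ⌊z⌋₊ ≤ t^c1 := by
    have h0 : (0:ℝ) < (⌊z⌋₊:ℝ) := by positivity
    calc Real.log ⌊z⌋₊ ≤ Real.log z := Real.log_le_log h0 (Nat.floor_le (by linarith))
      _ = t^c1 := by rw [hz, Real.log_exp]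
  have hlogz0 : 0 < Real.log ⌊z⌋₊ := Real.log_pos (by
    have : (2:ℝ) ≤ (⌊z⌋₊:ℝ) := by exact_mod_cast hzf2
    linarith)
  have hA1 : Real.exp (2 * (Real.log (Real.log ⌊z⌋₊) + 6) + 2) ≤ Real.exp 14 * t^(2*c1) := by
    have h2 : Real.log (Real.log ⌊z⌋₊) ≤ c1 * Real.log t := by
      calc Real.log (Real.log ⌊z⌋₊) ≤ Real.log (t^c1) := Real.log_le_log hlogz0 hlogz
        _ = c1 * Real.log t := Real.log_rpow ht0 _
    rw [Real.rpow_def_of_pos ht0, ← Real.exp_add]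
    apply Real.exp_le_exp.2
    linarith
  have hzhalf : z^(-(1/2:ℝ)) ≤ 1 := Real.rpow_le_one_of_one_le_of_nonpos (by linarith) (by norm_num)
  -- the weights
  have hAf : ∀ e ∈ E, Af (cof e.1 e.2) * Af (cof e.2 e.1) ≤ Real.exp 28 * t^(4*c1) := by
    intro e he
    have hm := Finset.mem_product.1 (hs.hE he)
    have hd1 : e.1 = G * (e.1 / G) := (Nat.mul_div_cancel' (hVt _ hm.1).1).symm
    have hd2 : e.2 = G * (e.2 / G) := (Nat.mul_div_cancel' (hWt _ hm.2).1).symm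
    have hp1 : 0 < e.1 / G := Nat.div_pos (Nat.le_of_dvd (hs.hV _ hm.1) (hVt _ hm.1).1) hG
    have hp2 : 0 < e.2 / G := Nat.div_pos (Nat.le_of_dvd (hs.hW _ hm.2) (hWt _ hm.2).1) hG
    have hc1' : cof e.1 e.2 = cof (e.1/G) (e.2/G) := by
      conv_lhs => rw [hd1, hd2, cof_mul_left hG]
    have hc2' : cof e.2 e.1 = cof (e.2/G) (e.1/G) := by
      conv_lhs => rw [hd1, hd2, cof_mul_left hG]
    have hdv1 : cof e.1 e.2 ∣ e.1 / G := by rw [hc1']; exact Dvd.intro _ (cof_mul_gcd _ _)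
    have hdv2 : cof e.2 e.1 ∣ e.2 / G := by rw [hc2']; exact Dvd.intro _ (cof_mul_gcd _ _)
    have hb : ∀ (n q : ℕ), n ∣ q → 0 < q →
        ∑ p ∈ q.primeFactors.filter (fun p : ℕ => z < (p:ℝ)), (1:ℝ)/p ≤ z^(-(1/2:ℝ)) →
        Af n ≤ Real.exp 14 * t^(2*c1) := by
      intro n q hnq hq hbud
      refine le_trans (Af_tame hz2 ?_) hA1
      refine le_trans ?_ (hbud.trans hzhalf)
      apply Finset.sum_le_sum_of_subset_of_nonneg
      · intro p hp
        rw [Finset.mem_filter] at hp ⊢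
        exact ⟨Nat.primeFactors_mono hnq hq.ne' hp.1, hp.2⟩
      · intro p _ _; positivity
    have a1 := hb _ _ hdv1 hp1 (hVt _ hm.1).2
    have a2 := hb _ _ hdv2 hp2 (hWt _ hm.2).2
    calc Af (cof e.1 e.2) * Af (cof e.2 e.1) ≤ (Real.exp 14 * t^(2*c1)) * (Real.exp 14 * t^(2*c1)) :=
          mul_le_mul a1 a2 (Af_pos _).le (by positivity)
      _ = (Real.exp 14 * Real.exp 14) * (t^(2*c1) * t^(2*c1)) := by ring
      _ = Real.exp 28 * t^(4*c1) := by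
          rw [← Real.exp_add, ← Real.rpow_add ht0]
          congr 2
          · norm_num
          · ring
  have hw0 : ∀ e ∈ E, 0 ≤ wt ψ e.1 * wt ψ' e.2 := by
    intro e he
    have hm := Finset.mem_product.1 (hs.hE he)
    exact mul_nonneg (wt_nonneg (hs.hψ _ hm.1)) (wt_nonneg (hs.hθ _ hm.2))
  have hstep : ∑ e ∈ E, wt ψ e.1 * wt ψ' e.2 * (Af (cof e.1 e.2) * Af (cof e.2 e.1))
      ≤ (Real.exp 28 * t^(4*c1)) * ∑ e ∈ E, wt ψ e.1 * wt ψ' e.2 := by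
    rw [Finset.mul_sum]
    apply Finset.sum_le_sum
    intro e he
    rw [mul_comm]
    exact mul_le_mul_of_nonneg_right (hAf e he) (hw0 e he)
  refine hstep.trans ?_
  set M := (∑ v ∈ V, wt ψ v) * (∑ w ∈ W, wt ψ' w) with hM
  have hM0 : 0 ≤ M :=
    mul_nonneg (Finset.sum_nonneg fun v hv => wt_nonneg (hs.hψ v hv))
      (Finset.sum_nonneg fun v hv => wt_nonneg (hs.hθ v hv))
  set E1 := E.filter (fun e => ((sp (fun p : ℕ => (p:ℝ) ≤ z) (cof e.2 e.1) : ℕ) : ℝ) ≤ Real.exp (t^(2*c1))) with hE1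
  set E2 := E.filter (fun e => ¬ ((sp (fun p : ℕ => (p:ℝ) ≤ z) (cof e.2 e.1) : ℕ) : ℝ) ≤ Real.exp (t^(2*c1))) with hE2
  have hsub : ∀ E' ⊆ E, Sys V W E' ψ ψ' (1/t) := fun E' hE' =>
    { hδ := hs.hδ, hV := hs.hV, hW := hs.hW, hψ := hs.hψ, hθ := hs.hθ
      hE := hE'.trans hs.hE
      h1 := fun e he => hs.h1 e (hE' he)
      h2 := fun e he => hs.h2 e (hE' he) }
  have b1 := h1 c1 θ t V W E1 ψ ψ' G hc1 hnum (hsub _ (Finset.filter_subset _ _)) hG hVt hWt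
    (fun e he => hP e (Finset.mem_filter.1 he).1) (fun e he => (Finset.mem_filter.1 he).2)
  have b2 := h2 c1 t V W E2 ψ ψ' hc1 hnum (hsub _ (Finset.filter_subset _ _))
    (fun e he => not_le.1 (Finset.mem_filter.1 he).2)
  have hsplit : ∑ e ∈ E, wt ψ e.1 * wt ψ' e.2 = ∑ e ∈ E1, wt ψ e.1 * wt ψ' e.2 + ∑ e ∈ E2, wt ψ e.1 * wt ψ' e.2 := by
    rw [hE1, hE2, Finset.sum_filter_add_sum_filter_not]
  have hMs : 0 ≤ M^(1/2+eps1) := by positivity
  have et : (1/t)^(1-2*eps1) = t^(-(1-2*eps1)) := by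
    rw [one_div, Real.inv_rpow ht0.le, Real.rpow_neg ht0.le]
  have n1 : t^(4*c1) * ((1/t)^(1-2*eps1) * (t^(c1*K - 1/50))^(1/2-eps1)) ≤ t^(-(1006/1000):ℝ) := by
    rw [et, ← Real.rpow_mul ht0.le, ← Real.rpow_add ht0, ← Real.rpow_add ht0]
    apply Real.rpow_le_rpow_of_exponent_le ht1
    unfold eps1
    have : 0 ≤ c1 * K := by positivity
    nlinarith
  have n2 : t^(4*c1) * ((1/t)^(1-2*eps1) * Real.exp (-(t^c1))) ≤ t^(-(1006/1000):ℝ) := by
    calc t^(4*c1) * ((1/t)^(1-2*eps1) * Real.exp (-(t^c1)))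
        ≤ t^(4*c1) * ((1/t)^(1-2*eps1) * t^(-1:ℝ)) := by
          apply mul_le_mul_of_nonneg_left _ (by positivity)
          exact mul_le_mul_of_nonneg_left hnum.hexp (by positivity)
      _ = t^(4*c1 + (-(1-2*eps1) + (-1))) := by
          rw [et, ← Real.rpow_add ht0, ← Real.rpow_add ht0]
      _ ≤ t^(-(1006/1000):ℝ) := by
          apply Real.rpow_le_rpow_of_exponent_le ht1
          unfold eps1
          have : 0 ≤ c1 * K := by positivity
          nlinarith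
  calc Real.exp 28 * t^(4*c1) * ∑ e ∈ E, wt ψ e.1 * wt ψ' e.2
      ≤ Real.exp 28 * t^(4*c1) * (C1 * ((1/t)^(1-2*eps1) * (t^(c1*K - 1/50))^(1/2-eps1) * M^(1/2+eps1)) +
        C2 * ((1/t)^(1-2*eps1) * Real.exp (-(t^c1)) * M^(1/2+eps1))) := by
        rw [hsplit]
        exact mul_le_mul_of_nonneg_left (add_le_add b1 b2) (by positivity)
    _ = Real.exp 28 * (C1 * (t^(4*c1) * ((1/t)^(1-2*eps1) * (t^(c1*K - 1/50))^(1/2-eps1))) * M^(1/2+eps1) +
        C2 * (t^(4*c1) * ((1/t)^(1-2*eps1) * Real.exp (-(t^c1)))) * M^(1/2+eps1)) := by ring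
    _ ≤ Real.exp 28 * (C1 * t^(-(1006/1000):ℝ) * M^(1/2+eps1) + C2 * t^(-(1006/1000):ℝ) * M^(1/2+eps1)) := by
        apply mul_le_mul_of_nonneg_left _ (by positivity)
        apply add_le_add
        · apply mul_le_mul_of_nonneg_right _ hMs
          exact mul_le_mul_of_nonneg_left n1 (by linarith)
        · apply mul_le_mul_of_nonneg_right _ hMs
          exact mul_le_mul_of_nonneg_left n2 (by linarith)
    _ = _ := by ring

/-- an unstructured related pair with `Yb < max x y`, `x ≠ y` -/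
structure PairB2 (θ t N Yb : ℝ) (x y : ℕ) : Prop where
  hx : 0 < x
  hy : 0 < y
  hxy : x ≠ y
  hmY : Yb < ((max x y : ℕ):ℝ)
  rel : ∃ n : ℤ, |(n:ℝ) - θ * ((x:ℝ) - y)| ≤ 2 / t
  uns : ∀ Y : ℝ, 0 < Y → Y < ((max x y : ℕ):ℝ) → ((max x y : ℕ):ℝ) ≤ 2 * Y → ¬ Struct N θ t Y

/-- **class (B)**: all unstructured related pairs with a cofactor larger than `exp (t^{3 c1})`, for
systems which are tame at `z = exp (t^{c1})`. -/
theorem classB : ∃ C c0 : ℝ, 1 ≤ C ∧ 0 < c0 ∧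
    ∀ c1 : ℝ, 0 < c1 → c1 ≤ c0 → ∃ T0 : ℝ, ∀ (θ t : ℝ) (V W : Finset ℕ) (E : Finset (ℕ × ℕ))
    (ψ ψ' : ℕ → ℝ) (G : ℕ), T0 ≤ t → Sys V W E ψ ψ' (1/t) → 0 < G →
    (∀ q ∈ V, Tame (Real.exp (t^c1)) G q) → (∀ q ∈ W, Tame (Real.exp (t^c1)) G q) →
    (∀ e ∈ E, PairB2 θ t (t^(1/10:ℝ)) (Real.exp (t^(3*c1))) (cof e.1 e.2) (cof e.2 e.1)) →
    ∑ e ∈ E, wt ψ e.1 * wt ψ' e.2 * (Af (cof e.1 e.2) * Af (cof e.2 e.1))
      ≤ C * t^(-(1006/1000):ℝ) * ((∑ v ∈ V, wt ψ v) * (∑ w ∈ W, wt ψ' w))^(1/2+eps1) := by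
  classical
  obtain ⟨C, K, hC1, hK, hC⟩ := classB_half
  refine ⟨2*C, 1/(1000*(4+K)), by linarith, by positivity, ?_⟩
  intro c1 hc1 hc1K
  have hε : (0:ℝ) < eps1 := by unfold eps1; norm_num
  have hε4 : eps1 ≤ 1/4 := by unfold eps1; norm_num
  obtain ⟨T0, hT0⟩ := exists_NumB hε hε4 hc1
  have hcK : c1 * (4 + K) ≤ 1/1000 := by
    rw [le_div_iff₀ (by positivity)] at hc1K
    linarith
  refine ⟨T0, ?_⟩
  intro θ t V W E ψ ψ' G ht hs hG hVt hWt hE
  have hnum := hT0 t ht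
  set f : ℕ × ℕ → ℝ := fun e => wt ψ e.1 * wt ψ' e.2 * (Af (cof e.1 e.2) * Af (cof e.2 e.1)) with hf
  set E1 := E.filter (fun e => cof e.1 e.2 < cof e.2 e.1) with hE1
  set E2 := E.filter (fun e => ¬ cof e.1 e.2 < cof e.2 e.1) with hE2
  have hsplit : ∑ e ∈ E, f e = ∑ e ∈ E1, f e + ∑ e ∈ E2, f e := by
    rw [hE1, hE2, Finset.sum_filter_add_sum_filter_not]
  have hs1 : Sys V W E1 ψ ψ' (1/t) :=
    { hδ := hs.hδ, hV := hs.hV, hW := hs.hW, hψ := hs.hψ, hθ := hs.hθ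
      hE := (Finset.filter_subset _ _).trans hs.hE
      h1 := fun e he => hs.h1 e (Finset.mem_filter.1 he).1
      h2 := fun e he => hs.h2 e (Finset.mem_filter.1 he).1 }
  have b1 := hC c1 hc1 hcK θ t V W E1 ψ ψ' G hnum hs1 hG hVt hWt (by
    intro e he
    rw [hE1, Finset.mem_filter] at he
    have h := hE e he.1
    have hmax : max (cof e.1 e.2) (cof e.2 e.1) = cof e.2 e.1 := max_eq_right he.2.le
    exact ⟨h.hx, he.2, by rw [← hmax]; exact h.hmY, h.rel, by rw [← hmax]; exact h.uns⟩)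
  set E2' := E2.image Prod.swap with hE2'
  have hinj : Set.InjOn (Prod.swap : ℕ × ℕ → ℕ × ℕ) (E2 : Set (ℕ × ℕ)) :=
    Prod.swap_injective.injOn
  have hs2 : Sys W V E2' ψ' ψ (1/t) :=
    { hδ := hs.hδ, hV := hs.hW, hW := hs.hV, hψ := hs.hθ, hθ := hs.hψ
      hE := by
        intro e he
        obtain ⟨e', he', rfl⟩ := Finset.mem_image.1 he
        have := Finset.mem_product.1 (hs.hE (Finset.mem_filter.1 he').1)
        exact Finset.mem_product.2 ⟨this.2, this.1⟩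
      h1 := by
        intro e he
        obtain ⟨e', he', rfl⟩ := Finset.mem_image.1 he
        exact hs.h2 e' (Finset.mem_filter.1 he').1
      h2 := by
        intro e he
        obtain ⟨e', he', rfl⟩ := Finset.mem_image.1 he
        exact hs.h1 e' (Finset.mem_filter.1 he').1 }
  have b2 := hC c1 hc1 hcK θ t W V E2' ψ' ψ G hnum hs2 hG hWt hVt (by
    intro e he
    obtain ⟨e', he', rfl⟩ := Finset.mem_image.1 he
    rw [hE2, Finset.mem_filter] at he'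
    have h := hE e' he'.1
    have hlt : cof e'.2 e'.1 < cof e'.1 e'.2 := lt_of_le_of_ne (not_lt.1 he'.2) (Ne.symm h.hxy)
    have hmax : max (cof e'.1 e'.2) (cof e'.2 e'.1) = cof e'.1 e'.2 := max_eq_left hlt.le
    refine ⟨h.hy, hlt, by simp only [Prod.fst_swap, Prod.snd_swap]; rw [← hmax]; exact h.hmY, ?_, by
      simp only [Prod.fst_swap, Prod.snd_swap]
      rw [← hmax]; exact h.uns⟩
    obtain ⟨n, hn⟩ := h.rel
    refine ⟨-n, ?_⟩
    simp only [Prod.fst_swap, Prod.snd_swap]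
    rw [← abs_neg]
    have e5 : -(((-n : ℤ):ℝ) - θ * ((cof e'.2 e'.1 : ℝ) - cof e'.1 e'.2))
        = (n:ℝ) - θ * ((cof e'.1 e'.2 : ℝ) - cof e'.2 e'.1) := by push_cast; ring
    rw [e5]; exact hn)
  have hb2 : ∑ e ∈ E2', wt ψ' e.1 * wt ψ e.2 * (Af (cof e.1 e.2) * Af (cof e.2 e.1)) = ∑ e ∈ E2, f e := by
    rw [hE2', Finset.sum_image hinj]
    apply Finset.sum_congr rfl
    intro e _
    simp only [hf, Prod.fst_swap, Prod.snd_swap]
    ring
  rw [hb2, mul_comm (∑ w ∈ W, wt ψ' w)] at b2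
  have : ∑ e ∈ E, f e ≤ C * t^(-(1006/1000):ℝ) * ((∑ v ∈ V, wt ψ v) * (∑ w ∈ W, wt ψ' w))^(1/2+eps1)
      + C * t^(-(1006/1000):ℝ) * ((∑ v ∈ V, wt ψ v) * (∑ w ∈ W, wt ψ' w))^(1/2+eps1) := by
    rw [hsplit]; exact add_le_add b1 b2
  refine this.trans (le_of_eq ?_)
  ring

end Crest.Agent.R4.ClsB
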