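import Mathlib
import Crest.Agent.R4.LF11_579
import Crest.Agent.R4.ClsB_944

/-!
R4 (S0004), helper944: class (B) in the form of `LF11.ClsB`, and **Theorem LF (A)** for tame systems,
unconditional.
-/

set_option autoImplicit false
open Finset

namespace Crest.Agent.R4.LFA

open Crest.Agent.R4.HVW560 Crest.Agent.R4.ClsS Crest.Agent.R4.ClsB Crest.Agent.R4.Tour104

/-- tameness above `X` -/
def XTame (X : ℝ) (G : ℕ) (S : Finset ℕ) : Prop := ∀ z : ℝ, X ≤ z → ∀ q ∈ S, Tame z G q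

theorem XTame.sub {X : ℝ} {G : ℕ} {S S' : Finset ℕ} (h : XTame X G S) (hS : S' ⊆ S) : XTame X G S' :=
  fun z hz q hq => h z hz q (hS hq)

theorem XTame.mono {X X' : ℝ} {G : ℕ} {S : Finset ℕ} (h : XTame X G S) (hX : X ≤ X') : XTame X' G S :=
  fun z hz q hq => h z (hX.trans hz) q hq

/-- class (B) for tame families -/
theorem clsB : ∃ C c0 : ℝ, 1 ≤ C ∧ 0 < c0 ∧
    ∀ c1 : ℝ, 0 < c1 → c1 ≤ c0 → ∃ T0 : ℝ, ∀ (θ T X : ℝ) (V W : Finset ℕ) (ψ ψ' : ℕ → ℝ) (G : ℕ),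
    T0 ≤ T → 0 < T → X ≤ Real.exp (T^c1) → 0 < G → XTame X G V → XTame X G W →
    LF11.ClsB θ T C (6/1000) (fun t => Real.exp (t^(3*c1))) V W ψ ψ' := by
  obtain ⟨C, c0, hC1, hc0, hC⟩ := classB
  refine ⟨C, c0, hC1, hc0, fun c1 hc1 hc10 => ?_⟩
  obtain ⟨T0, hT0⟩ := hC c1 hc1 hc10
  refine ⟨T0, ?_⟩
  intro θ T X V W ψ ψ' G hT hTp hX hG hV hW t htT E hs hE
  have hXt : X ≤ Real.exp (t^c1) :=
    hX.trans (Real.exp_le_exp.2 (Real.rpow_le_rpow hTp.le htT hc1.le))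
  have h1 := hT0 θ t V W E ψ ψ' G (hT.trans htT) hs hG (hV _ hXt) (hW _ hXt) (by
    intro e he
    have h := hE e he
    exact ⟨h.hx, h.hy, h.hxy, h.hmY, h.rel, h.uns⟩)
  have e1 : (-(1006/1000):ℝ) = -(1 + 6/1000) := by norm_num
  rw [e1] at h1
  exact h1

/-- **Theorem LF (A)** for tame systems -/
theorem leafA_tame {ε : ℝ} (hε : 0 < ε) (hε4 : ε ≤ 1/4) : ∃ C c1 T0 : ℝ, 1 ≤ C ∧ 0 < c1 ∧
    c1 ≤ 1/120 ∧ 2^50 ≤ T0 ∧
    ∀ (θ T η X : ℝ) (S : Finset ℕ) (ψ φ : ℕ → ℝ) (lab : ℕ → Option ℚ) (G : ℕ),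
    T0 ≤ T → 2^38 ≤ η^10 * T → X ≤ Real.exp (T^c1) → LF11.Leaf η θ S ψ φ lab → 0 < G →
    XTame X G S →
    I (fun x => LF11.FS θ S ψ φ lab x ^ 2) ≤
      C * ((∑ q ∈ S, wt ψ q)^2 + T^(2*ε) * (∑ q ∈ S, wt ψ q)^(1+2*ε) +
        T^(-(6/1000):ℝ) * (∑ q ∈ S, wt ψ q)^(1+2*eps1) + η^(-ε) * ∑ q ∈ S, wt ψ q) := by
  obtain ⟨CA, cS, hCA1, hcS, hcS40, hA⟩ := LF11.leafA hε hε4
  obtain ⟨CB, cB, hCB1, hcB, hB⟩ := clsB
  set c1 : ℝ := min (cS/3) cB with hc1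
  have hc1p : 0 < c1 := lt_min (by positivity) hcB
  have hc1S : 3 * c1 ≤ cS := by
    have : c1 ≤ cS/3 := min_le_left _ _
    linarith
  obtain ⟨T0, hT0⟩ := hB c1 hc1p (min_le_right _ _)
  set κ : ℝ := (1 + CB) / (1 - 2^(-(6/1000):ℝ)) with hκ
  have h2 : (2:ℝ)^(-(6/1000):ℝ) < 1 := Real.rpow_lt_one_of_one_lt_of_neg (by norm_num) (by norm_num)
  have h20 : (0:ℝ) < (2:ℝ)^(-(6/1000):ℝ) := by positivity
  have hκ1 : 1 ≤ κ := by
    rw [hκ, le_div_iff₀ (by linarith)]; linarith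
  refine ⟨CA * κ, c1, max T0 (2^50), by nlinarith, hc1p, ?_, le_max_right _ _, ?_⟩
  · have : c1 ≤ cS/3 := min_le_left _ _
    linarith
  intro θ T η X S ψ φ lab G hT hTη hX hL hG hS
  have hT01 : T0 ≤ T := (le_max_left _ _).trans hT
  have hT50 : (2:ℝ)^50 ≤ T := (le_max_right _ _).trans hT
  have hTp : 0 < T := lt_of_lt_of_le (by norm_num) hT50
  have hT1 : 1 ≤ T := le_trans (by norm_num) hT50
  have key := hA CB (6/1000) θ T η (fun t => Real.exp (t^(3*c1))) S ψ φ lab (by linarith) (by norm_num)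
    (by norm_num) hT50 hTη (by
      intro t ht
      exact Real.exp_le_exp.2 (Real.rpow_le_rpow_of_exponent_le (hT1.trans ht) hc1S)) hL
    (hT0 θ T X S S ψ ψ G hT01 hTp hX hG hS hS)
  refine key.trans ?_
  rw [← hκ, mul_assoc CA κ]
  apply mul_le_mul_of_nonneg_left _ (by linarith)
  set M := ∑ q ∈ S, wt ψ q with hM
  have hM0 : 0 ≤ M := Finset.sum_nonneg fun v hv => wt_nonneg (hL.ψ0 v hv).le
  have hη := hL.η0
  have a1 : 0 ≤ M^2 := by positivity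
  have a2 : 0 ≤ T^(2*ε) * M^(1+2*ε) := by positivity
  have a3 : 0 ≤ T^(-(6/1000):ℝ) * M^(1+2*eps1) := by positivity
  have a4 : 0 ≤ η^(-ε) * M := by positivity
  have e1 : κ * T^(-(6/1000):ℝ) * M^(1+2*eps1) = κ * (T^(-(6/1000):ℝ) * M^(1+2*eps1)) := by ring
  rw [e1]
  nlinarith

end Crest.Agent.R4.LFA
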