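import Mathlib
import Crest.Agent.R4.LF11_579
import Crest.Agent.R4.LFA_944

/-!
R4 (S0004), helper579: THEOREM LF, final forms.

`leafA_tame`  : (A) for `X`-tame leaves;
`leafB`       : (B) heavy leaves, `∫ F² ≤ C M²`;
`cell_energy` : same-cell energy, `∫ F_η² ≤ C η M` if `η M T ≤ 1`.
-/

set_option autoImplicit false
open Finset

namespace Crest.Agent.R4.LF12

open Crest.Agent.R4.HVW560 Crest.Agent.R4.ClsS Crest.Agent.R4.ClsB
open Crest.Agent.R4.LF363 Crest.Agent.R4.LF4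
open Crest.Agent.R4.LF11 Crest.Agent.R4.LFA
open Crest.Agent.R4.Tour104 (I)

/-- **Theorem LF (A)** for tame leaves; neither `c0` depends on `ε`, nor `C` on `c1`. -/
theorem leafA_tame' : ∃ c0 : ℝ, 0 < c0 ∧ ∀ ε : ℝ, 0 < ε → ε ≤ 1/4 → ∃ C : ℝ, 1 ≤ C ∧
    ∀ c1 : ℝ, 0 < c1 → c1 ≤ c0 → ∃ T0 : ℝ, 2^50 ≤ T0 ∧
    ∀ (θ T η X : ℝ) (S : Finset ℕ) (ψ φ : ℕ → ℝ) (lab : ℕ → Option ℚ) (G : ℕ),
    T0 ≤ T → 2^38 ≤ η^10 * T → X ≤ Real.exp (T^c1) → Leaf η θ S ψ φ lab → 0 < G → XTame X G S →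
    I (fun x => FS θ S ψ φ lab x ^ 2) ≤
      C * ((∑ q ∈ S, wt ψ q)^2 + T^(2*ε) * (∑ q ∈ S, wt ψ q)^(1+2*ε) +
        T^(-(6/1000):ℝ) * (∑ q ∈ S, wt ψ q)^(1+2*eps1) + η^(-ε) * ∑ q ∈ S, wt ψ q) := by
  obtain ⟨c0, hc0, -, hC'⟩ := leafA'
  obtain ⟨CB, cb, hCB1, hcb, hB⟩ := clsB
  set r : ℝ := (1 + CB) / (1 - 2^(-(6/1000):ℝ)) with hr
  have hd : (0:ℝ) < 1 - 2^(-(6/1000):ℝ) := by
    have : (2:ℝ)^(-(6/1000):ℝ) < 1 := Real.rpow_lt_one_of_one_lt_of_neg (by norm_num) (by norm_num)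
    linarith
  have hd1 : (1:ℝ) - 2^(-(6/1000):ℝ) ≤ 1 := by
    have : (0:ℝ) < 2^(-(6/1000):ℝ) := by positivity
    linarith
  have hr1 : 1 ≤ r := by
    rw [hr, le_div_iff₀ hd]; linarith
  refine ⟨min cb (c0/3), lt_min hcb (by positivity), fun ε hε hε4 => ?_⟩
  obtain ⟨C, hC1, hC⟩ := hC' ε hε hε4
  refine ⟨C * r, by nlinarith, fun c1 hc1 hc10 => ?_⟩
  obtain ⟨T0, hT0⟩ := hB c1 hc1 (hc10.trans (min_le_left _ _))
  have hc13 : 3 * c1 ≤ c0 := by
    have := hc10.trans (min_le_right _ _)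
    linarith
  refine ⟨max (2^50) T0, le_max_left _ _, ?_⟩
  intro θ T η X S ψ φ lab G hT hTη hX h hG htame
  have hT50 : 2^50 ≤ T := (le_max_left _ _).trans hT
  have hT0' : 0 < T := lt_of_lt_of_le (by norm_num) hT50
  have hcls := hT0 θ T X S S ψ ψ G ((le_max_right _ _).trans hT) hT0' hX hG htame htame
  have key := hC CB (6/1000) θ T η (fun t => Real.exp (t^(3*c1))) S ψ φ lab (by linarith)
    (by norm_num) (by norm_num) hT50 hTη (by
      intro t ht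
      refine Real.exp_le_exp.2 (Real.rpow_le_rpow_of_exponent_le ?_ hc13)
      exact le_trans (by norm_num) (hT50.trans ht)) h hcls
  have hM0 : 0 ≤ ∑ q ∈ S, wt ψ q := Finset.sum_nonneg fun v hv => wt_nonneg (h.ψ0 v hv).le
  set M := ∑ q ∈ S, wt ψ q with hM
  refine key.trans ?_
  rw [← hr]
  have hη := h.η0
  have g1 : M^2 ≤ r * M^2 := le_mul_of_one_le_left (by positivity) hr1
  have g2 : T^(2*ε) * M^(1+2*ε) ≤ r * (T^(2*ε) * M^(1+2*ε)) := le_mul_of_one_le_left (by positivity) hr1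
  have g3 : η^(-ε) * M ≤ r * (η^(-ε) * M) := le_mul_of_one_le_left (by positivity) hr1
  have e1 : (-(6/1000:ℝ)) = -(6/1000) := rfl
  calc C * (M^2 + T^(2*ε) * M^(1+2*ε) + r * T^(-(6/1000):ℝ) * M^(1+2*eps1) + η^(-ε) * M)
      ≤ C * (r * M^2 + r * (T^(2*ε) * M^(1+2*ε)) + r * T^(-(6/1000):ℝ) * M^(1+2*eps1) +
        r * (η^(-ε) * M)) := by
        apply mul_le_mul_of_nonneg_left _ (by linarith)
        linarith
    _ = _ := by ring

/-- **Theorem LF (B)**: heavy leaves. `M ≥ 1`, `M ≥ (log X)^{c2}`, `η ≥ M^{-a}`: `∫ F² ≤ C M²`. -/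
theorem leafB {c2 a : ℝ} (hc2 : 0 < c2) (ha : 0 ≤ a) : ∃ C : ℝ, 1 ≤ C ∧
    ∀ (θ η X : ℝ) (S : Finset ℕ) (ψ φ : ℕ → ℝ) (lab : ℕ → Option ℚ) (G : ℕ),
    1 ≤ X → 1 ≤ ∑ q ∈ S, wt ψ q → (Real.log X)^c2 ≤ ∑ q ∈ S, wt ψ q →
    (∑ q ∈ S, wt ψ q)^(-a) ≤ η → Leaf η θ S ψ φ lab → 0 < G → XTame X G S →
    I (fun x => FS θ S ψ φ lab x ^ 2) ≤ C * (∑ q ∈ S, wt ψ q)^2 := by
  obtain ⟨c1, hc1, hH⟩ := leafA_tame'
  set A : ℝ := max (10*a) (1/(c1*c2)) with hA
  have hA0 : 0 ≤ A := le_trans (by positivity) (le_max_left _ _)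
  set ε : ℝ := 1/(4*(A+1)) with hεd
  have hε : 0 < ε := by positivity
  have hε4 : ε ≤ 1/4 := by
    rw [hεd]
    exact one_div_le_one_div_of_le (by norm_num) (by linarith)
  have hεA : 2*ε*A + 2*ε ≤ 1 := by
    have : 2*ε*A + 2*ε = 1/2 := by
      rw [hεd]; field_simp; ring
    linarith
  have haε : a*ε ≤ 1 := by
    have h1 : 10*a ≤ A := le_max_left _ _
    have h2 : 0 ≤ ε * (A - 10*a) := mul_nonneg hε.le (by linarith)
    nlinarith
  obtain ⟨C, hC1, hC⟩ := hH ε hε hε4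
  obtain ⟨T0, hT0, hC⟩ := hC c1 hc1 le_rfl
  refine ⟨C * (3 + T0), by nlinarith, ?_⟩
  intro θ η X S ψ φ lab G hX hM1 hMX hη h hG htame
  set M := ∑ q ∈ S, wt ψ q with hM
  have hM0 : 0 < M := by linarith
  have hη0 := h.η0
  have hη1 := h.η1
  have hT00 : (1:ℝ) ≤ T0 := le_trans (by norm_num) hT0
  have hlog : 0 ≤ Real.log X := Real.log_nonneg hX
  set T : ℝ := max T0 (max (2^38 * η^(-(10:ℝ))) ((Real.log X)^(1/c1))) with hTd
  have hTT0 : T0 ≤ T := le_max_left _ _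
  have hT1 : 1 ≤ T := hT00.trans hTT0
  have hTη : 2^38 ≤ η^10 * T := by
    have h1 : 2^38 * η^(-(10:ℝ)) ≤ T := (le_max_left _ _).trans (le_max_right _ _)
    have e1 : η^(-(10:ℝ)) = (η^10)⁻¹ := by
      rw [Real.rpow_neg hη0.le]; congr 1
      exact_mod_cast Real.rpow_natCast η 10
    rw [e1] at h1
    have h2 : 0 < η^10 := by positivity
    calc (2:ℝ)^38 = η^10 * (2^38 * (η^10)⁻¹) := by field_simp
      _ ≤ η^10 * T := mul_le_mul_of_nonneg_left h1 h2.le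
  have hXT : X ≤ Real.exp (T^c1) := by
    rw [← Real.log_le_iff_le_exp (by linarith)]
    have h1 : (Real.log X)^(1/c1) ≤ T := (le_max_right _ _).trans (le_max_right _ _)
    calc Real.log X = ((Real.log X)^(1/c1))^c1 := by
          rw [← Real.rpow_mul hlog]
          have : 1/c1*c1 = 1 := by field_simp
          rw [this, Real.rpow_one]
      _ ≤ T^c1 := Real.rpow_le_rpow (by positivity) h1 hc1.le
  have hTA : T ≤ T0 * M^A := by
    have hMA : 1 ≤ M^A := Real.one_le_rpow hM1 hA0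
    refine max_le ?_ (max_le ?_ ?_)
    · nlinarith
    · have h1 : η^(-(10:ℝ)) ≤ M^A := by
        calc η^(-(10:ℝ)) ≤ (M^(-a))^(-(10:ℝ)) :=
              Real.rpow_le_rpow_of_nonpos (by positivity) hη (by norm_num)
          _ = M^(10*a) := by rw [← Real.rpow_mul hM0.le]; congr 1; ring
          _ ≤ M^A := Real.rpow_le_rpow_of_exponent_le hM1 (le_max_left _ _)
      have h2 : (2:ℝ)^38 ≤ T0 := le_trans (by norm_num) hT0
      exact mul_le_mul h2 h1 (by positivity) (by linarith)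
    · have h1 : (Real.log X)^(1/c1) ≤ M^A := by
        calc (Real.log X)^(1/c1) = ((Real.log X)^c2)^(1/(c1*c2)) := by
              rw [← Real.rpow_mul hlog]; congr 1; field_simp
          _ ≤ M^(1/(c1*c2)) := Real.rpow_le_rpow (by positivity) hMX (by positivity)
          _ ≤ M^A := Real.rpow_le_rpow_of_exponent_le hM1 (le_max_right _ _)
      nlinarith
  have key := hC θ T η X S ψ φ lab G hTT0 hTη hXT h hG htame
  have g1 : T^(2*ε) * M^(1+2*ε) ≤ T0 * M^2 := by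
    calc T^(2*ε) * M^(1+2*ε) ≤ (T0 * M^A)^(2*ε) * M^(1+2*ε) := by
          apply mul_le_mul_of_nonneg_right _ (by positivity)
          exact Real.rpow_le_rpow (by linarith) hTA (by linarith)
      _ = T0^(2*ε) * M^(A*(2*ε) + (1+2*ε)) := by
          rw [Real.mul_rpow (by linarith) (by positivity), ← Real.rpow_mul hM0.le,
            Real.rpow_add hM0 (A*(2*ε)) (1+2*ε)]
          ring
      _ ≤ T0^(1:ℝ) * M^(2:ℝ) := by
          apply mul_le_mul
          · exact Real.rpow_le_rpow_of_exponent_le hT00 (by linarith)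
          · exact Real.rpow_le_rpow_of_exponent_le hM1 (by linarith)
          · positivity
          · positivity
      _ = T0 * M^2 := by
          rw [Real.rpow_one]
          congr 1
          exact_mod_cast Real.rpow_natCast M 2
  have g2 : T^(-(6/1000):ℝ) * M^(1+2*eps1) ≤ M^2 := by
    calc T^(-(6/1000):ℝ) * M^(1+2*eps1) ≤ 1 * M^(2:ℝ) := by
          apply mul_le_mul
          · exact Real.rpow_le_one_of_one_le_of_nonpos hT1 (by norm_num)
          · exact Real.rpow_le_rpow_of_exponent_le hM1 (by unfold eps1; norm_num)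
          · positivity
          · norm_num
      _ = M^2 := by rw [one_mul]; exact_mod_cast Real.rpow_natCast M 2
  have g3 : η^(-ε) * M ≤ M^2 := by
    calc η^(-ε) * M ≤ (M^(-a))^(-ε) * M := by
          apply mul_le_mul_of_nonneg_right _ hM0.le
          exact Real.rpow_le_rpow_of_nonpos (by positivity) hη (by linarith)
      _ = M^(a*ε) * M := by rw [← Real.rpow_mul hM0.le]; congr 2; ring
      _ ≤ M^(1:ℝ) * M := by
          apply mul_le_mul_of_nonneg_right _ hM0.le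
          exact Real.rpow_le_rpow_of_exponent_le hM1 haε
      _ = M^2 := by rw [Real.rpow_one]; ring
  refine key.trans ?_
  calc C * (M^2 + T^(2*ε) * M^(1+2*ε) + T^(-(6/1000):ℝ) * M^(1+2*eps1) + η^(-ε) * M)
      ≤ C * (M^2 + T0 * M^2 + M^2 + M^2) := by
        apply mul_le_mul_of_nonneg_left _ (by linarith)
        linarith
    _ = _ := by ring

/-- **same-cell energy**: the system with radii `η ψ` (labels of radius `η ψ`) has energy
`≤ C η M` as soon as `η M T ≤ 1`. -/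
theorem cell_energy : ∃ c0 C : ℝ, 0 < c0 ∧ 1 ≤ C ∧ ∀ c1 : ℝ, 0 < c1 → c1 ≤ c0 → ∃ T0 : ℝ, 2^50 ≤ T0 ∧
    ∀ (θ T η X : ℝ) (S : Finset ℕ) (ψ : ℕ → ℝ) (lab : ℕ → Option ℚ) (G : ℕ),
    T0 ≤ T → X ≤ Real.exp (T^c1) → 0 < η → η * (∑ q ∈ S, wt ψ q) * T ≤ 1 →
    Leaf 1 θ S (fun q => η * ψ q) (fun q => η * ψ q) lab → 0 < G → XTame X G S →
    I (fun x => FS θ S (fun q => η * ψ q) (fun q => η * ψ q) lab x ^ 2) ≤
      C * (η * ∑ q ∈ S, wt ψ q) := by
  obtain ⟨c0, hc0, hH⟩ := leafA_tame'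
  obtain ⟨C, hC1, hC⟩ := hH (1/4) (by norm_num) le_rfl
  refine ⟨c0, 4*C, hc0, by linarith, fun c1 hc1 hc10 => ?_⟩
  obtain ⟨T0, hT0, hT0'⟩ := hC c1 hc1 hc10
  refine ⟨T0, hT0, ?_⟩
  intro θ T η X S ψ lab G hT hX hη hηM h hG htame
  have hT1 : 1 ≤ T := le_trans (by norm_num) (hT0.trans hT)
  have e1 : ∑ q ∈ S, wt (fun q => η * ψ q) q = η * ∑ q ∈ S, wt ψ q := by
    rw [Finset.mul_sum]
    refine Finset.sum_congr rfl fun q _ => ?_
    unfold wt; ring
  have key := hT0' θ T 1 X S (fun q => η * ψ q) (fun q => η * ψ q) lab G hT (by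
    rw [one_pow, one_mul]
    exact le_trans (by norm_num) (hT0.trans hT)) hX h hG htame
  rw [e1] at key
  have hM0 : 0 ≤ ∑ q ∈ S, wt (fun q => η * ψ q) q :=
    Finset.sum_nonneg fun v hv => wt_nonneg (h.ψ0 v hv).le
  rw [e1] at hM0
  set M := η * ∑ q ∈ S, wt ψ q with hM
  have hM1 : M ≤ 1 := by nlinarith
  have g1 : M^2 ≤ M := by nlinarith
  have g2 : T^(2*(1/4):ℝ) * M^(1+2*(1/4):ℝ) ≤ M := by
    have h1 : T^(2*(1/4):ℝ) * M^(1+2*(1/4):ℝ) = M * (M*T)^(1/2:ℝ) := by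
      rcases hM0.eq_or_lt with h0 | h0
      · rw [← h0]
        rw [Real.zero_rpow (by norm_num)]; ring
      · rw [Real.mul_rpow hM0 (by linarith), Real.rpow_add h0, Real.rpow_one]
        norm_num
        ring
    rw [h1]
    have h2 : (M*T)^(1/2:ℝ) ≤ 1 := Real.rpow_le_one (by positivity) hηM (by norm_num)
    nlinarith
  have g3 : T^(-(6/1000):ℝ) * M^(1+2*eps1) ≤ M := by
    have h1 : T^(-(6/1000):ℝ) ≤ 1 := Real.rpow_le_one_of_one_le_of_nonpos hT1 (by norm_num)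
    have h2 : M^(1+2*eps1) ≤ M := by
      rcases hM0.eq_or_lt with h0 | h0
      · rw [← h0, Real.zero_rpow (by unfold eps1; norm_num)]
      · calc M^(1+2*eps1) ≤ M^(1:ℝ) :=
              Real.rpow_le_rpow_of_exponent_ge h0 hM1 (by unfold eps1; norm_num)
          _ = M := Real.rpow_one M
    have h3 : 0 ≤ M^(1+2*eps1) := by positivity
    nlinarith
  have g4 : (1:ℝ)^(-(1/4):ℝ) * M = M := by rw [Real.one_rpow, one_mul]
  rw [g4] at key
  refine key.trans ?_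
  calc C * (M^2 + T^(2*(1/4):ℝ) * M^(1+2*(1/4):ℝ) + T^(-(6/1000):ℝ) * M^(1+2*eps1) + M)
      ≤ C * (M + M + M + M) := by
        apply mul_le_mul_of_nonneg_left _ (by linarith)
        linarith
    _ = _ := by ring

end Crest.Agent.R4.LF12
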