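import Mathlib
import Crest.Agent.R4.LF12_579
import Crest.Agent.R4.Piece464
import Crest.Agent.R4.ClosL758

/-!
R4 (S0004), helper368: pair lemma for worlds, and the in-world energy of a leaf.
-/

set_option autoImplicit false
open Finset MeasureTheory
open scoped ENNReal

namespace Crest.Agent.R4.AnnLeaf368

open Crest.Agent.R4.Ovl560

lemma volume_abs_le {q : ℕ} (hq : 0 < q) (θ r a : ℝ) :
    volume {x : ℝ | |(q : ℝ) * x - θ - a| ≤ r} = ENNReal.ofReal (2 * (r / q)) := by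
  have hq' : (0 : ℝ) < q := by exact_mod_cast hq
  have : {x : ℝ | |(q : ℝ) * x - θ - a| ≤ r} = Set.Icc ((θ + a - r) / q) ((θ + a + r) / q) := by
    ext x
    simp only [Set.mem_ofPred_eq, Set.mem_Icc]
    rw [abs_le, div_le_iff₀ hq', le_div_iff₀ hq']
    constructor
    · rintro ⟨h1, h2⟩; constructor <;> linarith
    · rintro ⟨h1, h2⟩; constructor <;> linarith
  rw [this, Real.volume_Icc]
  congr 1
  field_simp
  ring

lemma measurable_term' (θ r : ℝ) (q : ℕ) (c : ℝ≥0∞) (a : ℤ) :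
    Measurable fun x : ℝ => if |(q : ℝ) * x - θ - a| ≤ r then c else 0 := by
  refine Measurable.ite ?_ measurable_const measurable_const
  exact measurableSet_le (by fun_prop) measurable_const

/-- pair integral on the line with a restriction `Φ` -/
lemma pair_restr {g x y : ℕ} (hg : 0 < g) (hx : 0 < x) (hy : 0 < y)
    (θ θ' r r' : ℝ) (a b : ℤ) (c c' : ℝ≥0∞) (Φ : ℝ → ℝ≥0∞) (hΦ : ∀ t, Φ t ≤ 1)
    (W : Finset ℤ)
    (hW : ∀ t, |((g * x : ℕ) : ℝ) * t - θ - a| ≤ r → |((g * y : ℕ) : ℝ) * t - θ' - b| ≤ r' →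
      Φ t ≠ 0 → a * y - b * x ∈ W) :
    ∫⁻ t : ℝ, (if |((g * x : ℕ) : ℝ) * t - θ - a| ≤ r then c else 0) *
        (if |((g * y : ℕ) : ℝ) * t - θ' - b| ≤ r' then c' else 0) * Φ t ≤
      if a * y - b * x ∈ W then
        c * c' * ENNReal.ofReal (2 * min (r / (g * x : ℕ)) (r' / (g * y : ℕ))) else 0 := by
  set A := {t : ℝ | |((g * x : ℕ) : ℝ) * t - θ - a| ≤ r} with hA
  set B := {t : ℝ | |((g * y : ℕ) : ℝ) * t - θ' - b| ≤ r'} with hB
  have hmA : MeasurableSet A := measurableSet_le (by fun_prop) measurable_const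
  have hmB : MeasurableSet B := measurableSet_le (by fun_prop) measurable_const
  split_ifs with h
  · calc ∫⁻ t : ℝ, (if |((g * x : ℕ) : ℝ) * t - θ - a| ≤ r then c else 0) *
          (if |((g * y : ℕ) : ℝ) * t - θ' - b| ≤ r' then c' else 0) * Φ t
        ≤ ∫⁻ t : ℝ, (A ∩ B).indicator (fun _ => c * c') t := by
          refine lintegral_mono fun t => ?_
          by_cases h1 : |((g * x : ℕ) : ℝ) * t - θ - a| ≤ r
          · by_cases h2 : |((g * y : ℕ) : ℝ) * t - θ' - b| ≤ r'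
            · rw [if_pos h1, if_pos h2, Set.indicator_of_mem (show t ∈ A ∩ B from ⟨h1, h2⟩)]
              exact mul_le_of_le_one_right' (hΦ t)
            · rw [if_neg h2, mul_zero, zero_mul]; exact zero_le
          · rw [if_neg h1, zero_mul, zero_mul]; exact zero_le
      _ = c * c' * volume (A ∩ B) := by
          rw [lintegral_indicator (hmA.inter hmB), setLIntegral_const]
      _ ≤ _ := by
          refine mul_le_mul_right ?_ _
          have h1 : volume (A ∩ B) ≤ ENNReal.ofReal (2 * (r / (g * x : ℕ))) := by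
            rw [← volume_abs_le (Nat.mul_pos hg hx) θ r a]
            exact measure_mono Set.inter_subset_left
          have h2 : volume (A ∩ B) ≤ ENNReal.ofReal (2 * (r' / (g * y : ℕ))) := by
            rw [← volume_abs_le (Nat.mul_pos hg hy) θ' r' b]
            exact measure_mono Set.inter_subset_right
          rcases le_total (r / (g * x : ℕ)) (r' / (g * y : ℕ)) with h3 | h3
          · rw [min_eq_left h3]; exact h1
          · rw [min_eq_right h3]; exact h2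
  · have e : ∀ t : ℝ, (if |((g * x : ℕ) : ℝ) * t - θ - a| ≤ r then c else 0) *
          (if |((g * y : ℕ) : ℝ) * t - θ' - b| ≤ r' then c' else 0) * Φ t = 0 := by
      intro t
      by_cases h1 : |((g * x : ℕ) : ℝ) * t - θ - a| ≤ r
      · by_cases h2 : |((g * y : ℕ) : ℝ) * t - θ' - b| ≤ r'
        · by_cases h3 : Φ t = 0
          · rw [h3, mul_zero]
          · exact absurd (hW t h1 h2 h3) h
        · rw [if_neg h2, mul_zero, zero_mul]
      · rw [if_neg h1, zero_mul, zero_mul]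
    rw [lintegral_congr e, lintegral_zero]

/-- **pair lemma with a restriction** (generalises `lintegral_cw_mul`) -/
theorem lintegral_restr {P Q : Finset ℕ} {u v : ℕ → ℤ → ℝ} (hu : LW P u) (hv : LW Q v)
    (hP : ∀ p ∈ P, p.Prime) (hQ : ∀ p ∈ Q, p.Prime) {g x y : ℕ} (hg : 0 < g) (hx : 0 < x)
    (hy : 0 < y) (hxy : Nat.Coprime x y)
    (hPd : ∀ p ∈ P, p ∣ g * x) (hQd : ∀ p ∈ Q, p ∣ g * y)
    (θ θ' r r' : ℝ) (h0 : 0 ≤ r) (h0' : 0 ≤ r') (A B : ℤ → ℤ) (hAB : ∀ n, A n * y - B n * x = n)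
    (W : Finset ℤ) (Φ : ℤ → ℤ → ℝ → ℝ≥0∞) (hΦm : ∀ a b, Measurable (Φ a b))
    (hΦ1 : ∀ a b t, Φ a b t ≤ 1)
    (hper : ∀ a b t, Φ (a + (g * x : ℕ)) (b + (g * y : ℕ)) (t + 1) = Φ a b t)
    (hW : ∀ (a b : ℤ) (t : ℝ), |((g * x : ℕ) : ℝ) * t - θ - a| ≤ r →
      |((g * y : ℕ) : ℝ) * t - θ' - b| ≤ r' → Φ a b t ≠ 0 → a * y - b * x ∈ W) :
    ∫⁻ t in Set.Ico (0 : ℝ) 1, ∑' a : ℤ, ∑' b : ℤ,
        (if |((g * x : ℕ) : ℝ) * t - θ - a| ≤ r then ENNReal.ofReal (nw P u a) else 0) *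
        (if |((g * y : ℕ) : ℝ) * t - θ' - b| ≤ r' then ENNReal.ofReal (nw Q v b) else 0) *
          Φ a b t ≤
      ENNReal.ofReal (2 * min (r / (g * x : ℕ)) (r' / (g * y : ℕ)) *
        ∑ n ∈ W, (g * ∏ p ∈ P ∪ Q, lf P Q u v x y (A n) (B n) p)) := by
  classical
  set V := ENNReal.ofReal (2 * min (r / (g * x : ℕ)) (r' / (g * y : ℕ))) with hV
  have hgx : 0 < g * x := Nat.mul_pos hg hx
  have hm2 : ∀ a b : ℤ, Measurable fun t : ℝ =>
      (if |((g * x : ℕ) : ℝ) * t - θ - a| ≤ r then ENNReal.ofReal (nw P u a) else 0) *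
        (if |((g * y : ℕ) : ℝ) * t - θ' - b| ≤ r' then ENNReal.ofReal (nw Q v b) else 0) *
          Φ a b t := fun a b =>
    ((measurable_term' θ r (g * x) _ a).mul (measurable_term' θ' r' (g * y) _ b)).mul (hΦm a b)
  have hmeas : ∀ a : ℤ, Measurable fun t : ℝ => ∑' b : ℤ,
      (if |((g * x : ℕ) : ℝ) * t - θ - a| ≤ r then ENNReal.ofReal (nw P u a) else 0) *
        (if |((g * y : ℕ) : ℝ) * t - θ' - b| ≤ r' then ENNReal.ofReal (nw Q v b) else 0) *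
          Φ a b t := fun a => Measurable.tsum fun b => hm2 a b
  have hT : ∀ (a b : ℤ) (t : ℝ),
      (if |((g * x : ℕ) : ℝ) * (t + 1) - θ - ((a + (g * x : ℕ) : ℤ) : ℝ)| ≤ r then
          ENNReal.ofReal (nw P u (a + (g * x : ℕ))) else 0) *
        (if |((g * y : ℕ) : ℝ) * (t + 1) - θ' - ((b + (g * y : ℕ) : ℤ) : ℝ)| ≤ r' then
          ENNReal.ofReal (nw Q v (b + (g * y : ℕ))) else 0) *
          Φ (a + (g * x : ℕ)) (b + (g * y : ℕ)) (t + 1) =
      (if |((g * x : ℕ) : ℝ) * t - θ - a| ≤ r then ENNReal.ofReal (nw P u a) else 0) *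
        (if |((g * y : ℕ) : ℝ) * t - θ' - b| ≤ r' then ENNReal.ofReal (nw Q v b) else 0) *
          Φ a b t := by
    intro a b t
    have h1 : nw P u (a + (g * x : ℕ)) = nw P u a := by
      have := nw_add hu hPd a 1
      simpa using this
    have h1' : nw Q v (b + (g * y : ℕ)) = nw Q v b := by
      have := nw_add hv hQd b 1
      simpa using this
    have h2 : ((g * x : ℕ) : ℝ) * (t + 1) - θ - ((a + (g * x : ℕ) : ℤ) : ℝ) =
        ((g * x : ℕ) : ℝ) * t - θ - a := by push_cast; ring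
    have h2' : ((g * y : ℕ) : ℝ) * (t + 1) - θ' - ((b + (g * y : ℕ) : ℤ) : ℝ) =
        ((g * y : ℕ) : ℝ) * t - θ' - b := by push_cast; ring
    rw [h1, h1', h2, h2', hper]
  rw [unfold_sum hgx _ hmeas]
  swap
  · intro a t
    rw [← (Equiv.addRight ((g * y : ℕ) : ℤ)).tsum_eq]
    exact tsum_congr fun b => hT a b t
  have step : ∀ a : ℕ, ∫⁻ t : ℝ, ∑' b : ℤ,
      (if |((g * x : ℕ) : ℝ) * t - θ - (a : ℤ)| ≤ r then ENNReal.ofReal (nw P u a) else 0) *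
        (if |((g * y : ℕ) : ℝ) * t - θ' - b| ≤ r' then ENNReal.ofReal (nw Q v b) else 0) *
          Φ a b t ≤
      V * ENNReal.ofReal (∑ n ∈ W, if (x : ℤ) ∣ a * y - n then
        nw P u a * nw Q v ((a * y - n) / x) else 0) := by
    intro a
    rw [lintegral_tsum fun b => (hm2 a b).aemeasurable]
    calc ∑' b : ℤ, ∫⁻ t : ℝ, (if |((g * x : ℕ) : ℝ) * t - θ - (a : ℤ)| ≤ r then
          ENNReal.ofReal (nw P u a) else 0) *
          (if |((g * y : ℕ) : ℝ) * t - θ' - b| ≤ r' then ENNReal.ofReal (nw Q v b) else 0) *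
          Φ a b t
        ≤ ∑' b : ℤ, (if (a : ℤ) * y - b * x ∈ W then
            ENNReal.ofReal (nw P u a) * ENNReal.ofReal (nw Q v b) * V else 0) :=
          ENNReal.tsum_le_tsum fun b => pair_restr hg hx hy θ θ' r r' a b _ _ (Φ a b)
            (hΦ1 a b) W (hW a b)
      _ = ∑ n ∈ W, if (x : ℤ) ∣ a * y - n then
            ENNReal.ofReal (nw P u a) * ENNReal.ofReal (nw Q v ((a * y - n) / x)) * V else 0 :=
          tsum_det hx (fun b => ENNReal.ofReal (nw P u a) * ENNReal.ofReal (nw Q v b) * V) a W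
      _ = V * ENNReal.ofReal (∑ n ∈ W, if (x : ℤ) ∣ a * y - n then
            nw P u a * nw Q v ((a * y - n) / x) else 0) := by
          rw [ENNReal.ofReal_sum_of_nonneg, Finset.mul_sum]
          · refine Finset.sum_congr rfl fun n _ => ?_
            split_ifs with h
            · rw [ENNReal.ofReal_mul (nw_nonneg hu _)]; ring
            · simp
          · intro n _
            split_ifs with h
            · exact mul_nonneg (nw_nonneg hu _) (nw_nonneg hv _)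
            · exact le_rfl
  refine (Finset.sum_le_sum fun a _ => step a).trans ?_
  rw [← Finset.mul_sum, ← ENNReal.ofReal_sum_of_nonneg]
  · rw [Finset.sum_comm]
    rw [Finset.sum_congr rfl fun n _ => sum_det hu hv hP hQ hx hxy hPd hQd n _ _ (hAB n)]
    rw [hV, ← ENNReal.ofReal_mul (by positivity)]
  · intro a _
    refine Finset.sum_nonneg fun n _ => ?_
    split_ifs with h
    · exact mul_nonneg (nw_nonneg hu _) (nw_nonneg hv _)
    · exact le_rfl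


/-! ### real-valued version, pieces -/

open Crest.Agent.R4.Piece464
open Crest.Agent.R4.Tour104 (PB I)

lemma ofReal_pc {θ α β : ℝ} {w : ℕ} {κ : ℤ → ℝ} (h : ∀ a, 0 ≤ κ a) (x : ℝ) :
    ENNReal.ofReal (pc θ α β w κ x) =
      ∑' a : ℤ, if α ≤ (w : ℝ) * x - θ - a ∧ (w : ℝ) * x - θ - a < β then
        ENNReal.ofReal (κ a) else 0 := by
  classical
  unfold pc
  rw [ENNReal.ofReal_sum_of_nonneg fun a _ => h a,
    tsum_eq_sum (s := Finset.Ioc ⌊(w : ℝ) * x - θ - β⌋ ⌊(w : ℝ) * x - θ - α⌋)]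
  · exact Finset.sum_congr rfl fun a ha => by rw [if_pos (mem_pw.1 ha)]
  · intro a ha
    rw [if_neg fun h => ha (mem_pw.2 h)]

lemma I_eq_lint {f : ℝ → ℝ} (hf : PB f) :
    I f = (∫⁻ t in Set.Ico (0 : ℝ) 1, ENNReal.ofReal (f t)).toReal := by
  unfold I
  rw [integral_eq_lintegral_of_nonneg_ae (Filter.Eventually.of_forall fun t => hf.nonneg t)
      hf.meas.aestronglyMeasurable]

lemma sum_tsum2 {ι : Type*} (s : Finset ι) (F : ι → ℤ → ℤ → ℝ≥0∞) :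
    ∑ e ∈ s, ∑' a : ℤ, ∑' b : ℤ, F e a b = ∑' a : ℤ, ∑' b : ℤ, ∑ e ∈ s, F e a b := by
  rw [← Summable.tsum_finsetSum fun _ _ => ENNReal.summable]
  refine tsum_congr fun a => ?_
  rw [← Summable.tsum_finsetSum fun _ _ => ENNReal.summable]

open Classical in
/-- **pair lemma for worlds** (`Rel` = pairs of pieces in the same world). -/
theorem world_pair {ι ι' : Type*} (Rel : Finset (ι × ι')) {P Q : Finset ℕ} {u v : ℕ → ℤ → ℝ}
    (hu : LW P u) (hv : LW Q v) (hP : ∀ p ∈ P, p.Prime) (hQ : ∀ p ∈ Q, p.Prime)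
    {g x y : ℕ} (hg : 0 < g) (hx : 0 < x) (hy : 0 < y) (hxy : Nat.Coprime x y)
    (hPd : ∀ p ∈ P, p ∣ g * x) (hQd : ∀ p ∈ Q, p ∣ g * y)
    (θ θ' R R' : ℝ) (hR : 0 ≤ R) (hR' : 0 ≤ R') (A B : ℤ → ℤ) (hAB : ∀ n, A n * y - B n * x = n)
    (α β : ι → ℝ) (α' β' : ι' → ℝ)
    (hα : ∀ e ∈ Rel, -R ≤ α e.1 ∧ β e.1 ≤ R) (hα' : ∀ e ∈ Rel, -R' ≤ α' e.2 ∧ β' e.2 ≤ R')
    (hdis : ∀ s s' : ℝ, ∀ e ∈ Rel, ∀ f ∈ Rel, (α e.1 ≤ s ∧ s < β e.1) →
      (α' e.2 ≤ s' ∧ s' < β' e.2) → (α f.1 ≤ s ∧ s < β f.1) → (α' f.2 ≤ s' ∧ s' < β' f.2) → e = f)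
    (W : Finset ℤ)
    (hW : ∀ e ∈ Rel, ∀ (a b : ℤ) (t : ℝ),
      (α e.1 ≤ ((g * x : ℕ) : ℝ) * t - θ - a ∧ ((g * x : ℕ) : ℝ) * t - θ - a < β e.1) →
      (α' e.2 ≤ ((g * y : ℕ) : ℝ) * t - θ' - b ∧ ((g * y : ℕ) : ℝ) * t - θ' - b < β' e.2) →
      a * y - b * x ∈ W) :
    ∑ e ∈ Rel, I (fun t => pc θ (α e.1) (β e.1) (g * x) (nw P u) t *
        pc θ' (α' e.2) (β' e.2) (g * y) (nw Q v) t) ≤
      2 * min (R / (g * x : ℕ)) (R' / (g * y : ℕ)) *
        ∑ n ∈ W, (g * ∏ p ∈ P ∪ Q, lf P Q u v x y (A n) (B n) p) := by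
  have hgx : 0 < g * x := Nat.mul_pos hg hx
  have hgy : 0 < g * y := Nat.mul_pos hg hy
  have hpb : ∀ e : ι × ι', PB (fun t => pc θ (α e.1) (β e.1) (g * x) (nw P u) t *
      pc θ' (α' e.2) (β' e.2) (g * y) (nw Q v) t) := fun e =>
    (PB_pc hgx (Wt_nw hu hPd)).mul (PB_pc hgy (Wt_nw hv hQd))
  rw [← Crest.Agent.R4.Tour104.I_sum Rel fun e _ => (hpb e).integrableOn]
  rw [I_eq_lint (PB.sum Rel fun e _ => hpb e)]
  set Φ : ℤ → ℤ → ℝ → ℝ≥0∞ := fun a b t => ∑ e ∈ Rel,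
    if (α e.1 ≤ ((g * x : ℕ) : ℝ) * t - θ - a ∧ ((g * x : ℕ) : ℝ) * t - θ - a < β e.1) ∧
      (α' e.2 ≤ ((g * y : ℕ) : ℝ) * t - θ' - b ∧ ((g * y : ℕ) : ℝ) * t - θ' - b < β' e.2)
      then 1 else 0 with hΦ
  have hpt : ∀ t : ℝ, ENNReal.ofReal (∑ e ∈ Rel, pc θ (α e.1) (β e.1) (g * x) (nw P u) t *
      pc θ' (α' e.2) (β' e.2) (g * y) (nw Q v) t) =
      ∑' a : ℤ, ∑' b : ℤ,
        (if |((g * x : ℕ) : ℝ) * t - θ - a| ≤ R then ENNReal.ofReal (nw P u a) else 0) *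
        (if |((g * y : ℕ) : ℝ) * t - θ' - b| ≤ R' then ENNReal.ofReal (nw Q v b) else 0) *
          Φ a b t := by
    intro t
    rw [ENNReal.ofReal_sum_of_nonneg fun e _ => (hpb e).nonneg t]
    have e1 : ∀ e ∈ Rel, ENNReal.ofReal (pc θ (α e.1) (β e.1) (g * x) (nw P u) t *
        pc θ' (α' e.2) (β' e.2) (g * y) (nw Q v) t) =
        ∑' a : ℤ, ∑' b : ℤ,
        (if |((g * x : ℕ) : ℝ) * t - θ - a| ≤ R then ENNReal.ofReal (nw P u a) else 0) *
        (if |((g * y : ℕ) : ℝ) * t - θ' - b| ≤ R' then ENNReal.ofReal (nw Q v b) else 0) *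
        (if (α e.1 ≤ ((g * x : ℕ) : ℝ) * t - θ - a ∧ ((g * x : ℕ) : ℝ) * t - θ - a < β e.1) ∧
          (α' e.2 ≤ ((g * y : ℕ) : ℝ) * t - θ' - b ∧ ((g * y : ℕ) : ℝ) * t - θ' - b < β' e.2)
          then 1 else 0) := by
      intro e he
      rw [ENNReal.ofReal_mul (pc_nonneg (Wt_nw hu hPd) t), ofReal_pc fun a => nw_nonneg hu a,
        ofReal_pc fun a => nw_nonneg hv a, ← ENNReal.tsum_mul_right]
      refine tsum_congr fun a => ?_
      rw [← ENNReal.tsum_mul_left]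
      refine tsum_congr fun b => ?_
      by_cases h1 : α e.1 ≤ ((g * x : ℕ) : ℝ) * t - θ - a ∧ ((g * x : ℕ) : ℝ) * t - θ - a < β e.1
      · by_cases h2 : α' e.2 ≤ ((g * y : ℕ) : ℝ) * t - θ' - b ∧
            ((g * y : ℕ) : ℝ) * t - θ' - b < β' e.2
        · have h3 : |((g * x : ℕ) : ℝ) * t - θ - a| ≤ R := by
            rw [abs_le]; constructor <;> linarith [h1.1, h1.2, (hα e he).1, (hα e he).2]
          have h4 : |((g * y : ℕ) : ℝ) * t - θ' - b| ≤ R' := by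
            rw [abs_le]; constructor <;> linarith [h2.1, h2.2, (hα' e he).1, (hα' e he).2]
          rw [if_pos h1, if_pos h2, if_pos h3, if_pos h4, if_pos ⟨h1, h2⟩, mul_one]
        · have h6 : ¬ ((α e.1 ≤ ((g * x : ℕ) : ℝ) * t - θ - a ∧
              ((g * x : ℕ) : ℝ) * t - θ - a < β e.1) ∧
            (α' e.2 ≤ ((g * y : ℕ) : ℝ) * t - θ' - b ∧
              ((g * y : ℕ) : ℝ) * t - θ' - b < β' e.2)) := fun h => h2 h.2
          rw [if_neg h2, if_neg h6, mul_zero, mul_zero]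
      · have h6 : ¬ ((α e.1 ≤ ((g * x : ℕ) : ℝ) * t - θ - a ∧
              ((g * x : ℕ) : ℝ) * t - θ - a < β e.1) ∧
            (α' e.2 ≤ ((g * y : ℕ) : ℝ) * t - θ' - b ∧
              ((g * y : ℕ) : ℝ) * t - θ' - b < β' e.2)) := fun h => h1 h.1
        rw [if_neg h1, if_neg h6, mul_zero, zero_mul]
    rw [Finset.sum_congr rfl e1, sum_tsum2]
    refine tsum_congr fun a => tsum_congr fun b => ?_
    rw [hΦ, Finset.mul_sum]
  rw [lintegral_congr hpt]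
  have hnn : 0 ≤ 2 * min (R / (g * x : ℕ)) (R' / (g * y : ℕ)) *
        ∑ n ∈ W, (g * ∏ p ∈ P ∪ Q, lf P Q u v x y (A n) (B n) p) := by
    refine mul_nonneg (by positivity) (Finset.sum_nonneg fun n _ => mul_nonneg (by positivity)
      (Finset.prod_nonneg fun p hp => ?_))
    unfold lf
    refine div_nonneg (Finset.sum_nonneg fun k _ => mul_nonneg ?_ ?_) (Nat.cast_nonneg p)
    · split_ifs with h
      · exact hu.nonneg h _
      · exact zero_le_one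
    · split_ifs with h
      · exact hv.nonneg h _
      · exact zero_le_one
  refine ENNReal.toReal_le_of_le_ofReal hnn ?_
  refine lintegral_restr hu hv hP hQ hg hx hy hxy hPd hQd θ θ' R R' hR hR' A B hAB W Φ
    (fun a b => ?_) (fun a b t => ?_) (fun a b t => ?_) (fun a b t _ _ h => ?_)
  · refine Finset.measurable_fun_sum _ fun e _ => Measurable.ite ?_ measurable_const measurable_const
    have m1 : Measurable fun t : ℝ => ((g * x : ℕ) : ℝ) * t - θ - a := by fun_prop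
    have m2 : Measurable fun t : ℝ => ((g * y : ℕ) : ℝ) * t - θ' - b := by fun_prop
    exact ((measurableSet_le measurable_const m1).inter
      (measurableSet_lt m1 measurable_const)).inter
      ((measurableSet_le measurable_const m2).inter
      (measurableSet_lt m2 measurable_const))
  · rw [hΦ]
    simp only
    rw [Finset.sum_boole]
    have : (Rel.filter fun e => (α e.1 ≤ ((g * x : ℕ) : ℝ) * t - θ - a ∧
        ((g * x : ℕ) : ℝ) * t - θ - a < β e.1) ∧ (α' e.2 ≤ ((g * y : ℕ) : ℝ) * t - θ' - b ∧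
        ((g * y : ℕ) : ℝ) * t - θ' - b < β' e.2)).card ≤ 1 := by
      rw [Finset.card_le_one]
      intro e he f hf
      rw [mem_filter] at he hf
      exact hdis _ _ e he.1 f hf.1 he.2.1 he.2.2 hf.2.1 hf.2.2
    exact_mod_cast this
  · rw [hΦ]
    simp only
    refine Finset.sum_congr rfl fun e _ => ?_
    have h2 : ((g * x : ℕ) : ℝ) * (t + 1) - θ - ((a + (g * x : ℕ) : ℤ) : ℝ) =
        ((g * x : ℕ) : ℝ) * t - θ - a := by push_cast; ring
    have h2' : ((g * y : ℕ) : ℝ) * (t + 1) - θ' - ((b + (g * y : ℕ) : ℤ) : ℝ) =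
        ((g * y : ℕ) : ℝ) * t - θ' - b := by push_cast; ring
    rw [h2, h2']
  · obtain ⟨e, he, h5⟩ := Finset.exists_ne_zero_of_sum_ne_zero h
    by_cases h6 : (α e.1 ≤ ((g * x : ℕ) : ℝ) * t - θ - a ∧ ((g * x : ℕ) : ℝ) * t - θ - a < β e.1) ∧
      (α' e.2 ≤ ((g * y : ℕ) : ℝ) * t - θ' - b ∧ ((g * y : ℕ) : ℝ) * t - θ' - b < β' e.2)
    · exact hW e he a b t h6.1 h6.2
    · exact absurd (if_neg h6) h5


/-! ### the sums `T0 + T1` of a leaf (`LF12.cell_energy` at the level of the pair bounds) -/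

section leaf
open Crest.Agent.R4.HVW560 Crest.Agent.R4.ClsS Crest.Agent.R4.ClsB
open Crest.Agent.R4.LF363 Crest.Agent.R4.LF4
open Crest.Agent.R4.LF11 Crest.Agent.R4.LFA Crest.Agent.R4.LF12

theorem leafT' : ∃ c0 : ℝ, 0 < c0 ∧ c0 ≤ 1/40 ∧ ∀ ε : ℝ, 0 < ε → ε ≤ 1/4 → ∃ C : ℝ, 1 ≤ C ∧
    ∀ (CB cB θ T η : ℝ) (Yb : ℝ → ℝ) (S : Finset ℕ) (ψ φ : ℕ → ℝ) (lab : ℕ → Option ℚ),
    0 ≤ CB → 0 < cB → cB ≤ 7/1000 → 2^50 ≤ T → 2^38 ≤ η^10 * T →
    (∀ t, T ≤ t → Yb t ≤ Real.exp (t^c0)) → Leaf η θ S ψ φ lab →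
    ClsB θ T CB cB Yb S S ψ ψ →
    ∑ q ∈ S, ∑ r ∈ S, T02 θ ψ φ lab q r + ∑ q ∈ S, ∑ r ∈ S, T12 θ ψ φ lab q r ≤
      C * ((∑ q ∈ S, wt ψ q)^2 + T^(2*ε) * (∑ q ∈ S, wt ψ q)^(1+2*ε) +
        (1 + CB) / (1 - 2^(-cB)) * T^(-cB) * (∑ q ∈ S, wt ψ q)^(1+2*eps1) +
        η^(-ε) * ∑ q ∈ S, wt ψ q) := by
  obtain ⟨C, c0, hC1, hc0, hc40, hC⟩ := leaf_T1
  refine ⟨c0, hc0, hc40, fun ε hε hε4 => ?_⟩
  obtain ⟨C5, hC5, h5⟩ := Crest.Agent.R4.LFX223.exact_sum2 hε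
  have hCP := CP_nonneg
  have hCE := (CE_pos hε).le
  set K : ℝ := 1 + 8 * CP + CP * CE ε * 2^(2*ε) + 2 * CP * C + CP + C5 with hK
  have hK1 : 1 ≤ K := by
    have : 0 ≤ CP * CE ε * 2^(2*ε) := by positivity
    have : 0 ≤ 2 * CP * C := by positivity
    linarith
  refine ⟨K, hK1, ?_⟩
  intro CB cB θ T η Yb S ψ φ lab hCB hcB hcB7 hT hTη hYb h hB
  have h1 := hC ε CB cB θ T η Yb S ψ φ lab hε hε4 hCB hcB hT hTη hYb h hB
  have h2 := h5 η h.η0 h.η1 S ψ φ θ lab h.pos h.ψ0 h.φψ h.φ0 (fun q hq ρ hρ => (h.lb q hq ρ).1 hρ)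
  rw [min_eq_right hcB7] at h1
  have e5 : ∑ q ∈ S, ψ q * ((Nat.totient q : ℝ) / q) = ∑ q ∈ S, wt ψ q := rfl
  rw [e5] at h2
  set M := ∑ q ∈ S, wt ψ q with hM
  have hM0 : 0 ≤ M := Finset.sum_nonneg fun v hv => wt_nonneg (h.ψ0 v hv).le
  have hT0 : 0 < T := lt_of_lt_of_le (by norm_num) hT
  have hη := h.η0
  have h2c1 : (2:ℝ)^(-cB) < 1 := Real.rpow_lt_one_of_one_lt_of_neg (by norm_num) (by linarith)
  have hd : 0 < 1 - (2:ℝ)^(-cB) := by linarith
  set a := (1 + CB) / (1 - 2^(-cB)) * T^(-cB) * M^(1+2*eps1) with ha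
  have ha0 : 0 ≤ a := by positivity
  set b := T^(2*ε) * M^(1+2*ε) with hb
  have hb0 : 0 ≤ b := by positivity
  have hη1 : 1 ≤ η^(-ε) := by
    rw [Real.rpow_neg hη.le]
    exact (one_le_inv₀ (by positivity)).2 (Real.rpow_le_one hη.le h.η1 hε.le)
  set d := η^(-ε) * M with hd'
  have hMd : M ≤ d := le_mul_of_one_le_left hM0 hη1
  have hd0 : 0 ≤ d := hM0.trans hMd
  have e1 : (2*T)^(2*ε) = 2^(2*ε) * T^(2*ε) := Real.mul_rpow (by norm_num) hT0.le
  have t1 : CE ε * (2*T)^(2*ε) * M^(1+2*ε) = CE ε * 2^(2*ε) * b := by rw [e1, hb]; ring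
  have t2 : 2 * CP * (C + CB) / (1 - 2^(-cB)) * T^(-cB) * M^(1+2*eps1) ≤ 2 * CP * C * a := by
    have h6 : C + CB ≤ C * (1 + CB) := by nlinarith
    have e2 : 2 * CP * (C + CB) / (1 - 2^(-cB)) * T^(-cB) * M^(1+2*eps1) =
        (2 * CP / (1 - 2^(-cB)) * T^(-cB) * M^(1+2*eps1)) * (C + CB) := by ring
    have e3 : 2 * CP * C * a = (2 * CP / (1 - 2^(-cB)) * T^(-cB) * M^(1+2*eps1)) * (C * (1 + CB)) := by
      rw [ha]; ring
    rw [e2, e3]
    exact mul_le_mul_of_nonneg_left h6 (by positivity)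
  have hM2 : 0 ≤ M^2 := by positivity
  rw [t1] at h1
  have t3 : C5 * η^(-ε) * M = C5 * d := by rw [hd']; ring
  rw [t3] at h2
  have hs : ∑ q ∈ S, ∑ r ∈ S, T02 θ ψ φ lab q r + ∑ q ∈ S, ∑ r ∈ S, T12 θ ψ φ lab q r ≤ C5 * d + (CP * (8 * M^2 + CE ε * 2^(2*ε) * b) +
      CP * M + 2 * CP * C * a) := by linarith
  refine hs.trans ?_
  have hp1 : 0 ≤ CP * CE ε * 2^(2*ε) := by positivity
  have hp2 : 0 ≤ 2 * CP * C := by positivity
  have g1 : 8 * CP * M^2 ≤ K * M^2 := mul_le_mul_of_nonneg_right (by linarith) hM2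
  have g2 : CP * CE ε * 2^(2*ε) * b ≤ K * b := mul_le_mul_of_nonneg_right (by linarith) hb0
  have g3 : 2 * CP * C * a ≤ K * a := mul_le_mul_of_nonneg_right (by linarith) ha0
  have g4 : (CP + C5) * d ≤ K * d := mul_le_mul_of_nonneg_right (by linarith) hd0
  have g5 : CP * M ≤ CP * d := mul_le_mul_of_nonneg_left hMd hCP
  calc _ = C5 * d + (8 * CP * M^2 + CP * CE ε * 2^(2*ε) * b) + CP * M + 2 * CP * C * a := by ring
    _ ≤ K * (M^2 + b + a + d) := by linarith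

/-- **Theorem LF (A)** for tame leaves; neither `c0` depends on `ε`, nor `C` on `c1`. -/
theorem leafT_tame : ∃ c0 : ℝ, 0 < c0 ∧ ∀ ε : ℝ, 0 < ε → ε ≤ 1/4 → ∃ C : ℝ, 1 ≤ C ∧
    ∀ c1 : ℝ, 0 < c1 → c1 ≤ c0 → ∃ T0 : ℝ, 2^50 ≤ T0 ∧
    ∀ (θ T η X : ℝ) (S : Finset ℕ) (ψ φ : ℕ → ℝ) (lab : ℕ → Option ℚ) (G : ℕ),
    T0 ≤ T → 2^38 ≤ η^10 * T → X ≤ Real.exp (T^c1) → Leaf η θ S ψ φ lab → 0 < G → XTame X G S →
    ∑ q ∈ S, ∑ r ∈ S, T02 θ ψ φ lab q r + ∑ q ∈ S, ∑ r ∈ S, T12 θ ψ φ lab q r ≤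
      C * ((∑ q ∈ S, wt ψ q)^2 + T^(2*ε) * (∑ q ∈ S, wt ψ q)^(1+2*ε) +
        T^(-(6/1000):ℝ) * (∑ q ∈ S, wt ψ q)^(1+2*eps1) + η^(-ε) * ∑ q ∈ S, wt ψ q) := by
  obtain ⟨c0, hc0, -, hC'⟩ := leafT'
  obtain ⟨CB, cb, hCB1, hcb, hB⟩ := clsB
  set r : ℝ := (1 + CB) / (1 - 2^(-(6/1000):ℝ)) with hr
  have hd : (0:ℝ) < 1 - 2^(-(6/1000):ℝ) := by
    have : (2:ℝ)^(-(6/1000):ℝ) < 1 := Real.rpow_lt_one_of_one_lt_of_neg (by norm_num) (by norm_num)
    linarith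
  have hd1 : (1:ℝ) - 2^(-(6/1000):ℝ) ≤ 1 := by
    have : (0:ℝ) < 2^(-(6/1000):ℝ) := by positivity
    linarith
  have hr1 : 1 ≤ r := by
    rw [hr, le_div_iff₀ hd]; linarith
  refine ⟨min cb (c0/3), lt_min hcb (by positivity), fun ε hε hε4 => ?_⟩
  obtain ⟨C, hC1, hC⟩ := hC' ε hε hε4
  refine ⟨C * r, by nlinarith, fun c1 hc1 hc10 => ?_⟩
  obtain ⟨T0, hT0⟩ := hB c1 hc1 (hc10.trans (min_le_left _ _))
  have hc13 : 3 * c1 ≤ c0 := by
    have := hc10.trans (min_le_right _ _)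
    linarith
  refine ⟨max (2^50) T0, le_max_left _ _, ?_⟩
  intro θ T η X S ψ φ lab G hT hTη hX h hG htame
  have hT50 : 2^50 ≤ T := (le_max_left _ _).trans hT
  have hT0' : 0 < T := lt_of_lt_of_le (by norm_num) hT50
  have hcls := hT0 θ T X S S ψ ψ G ((le_max_right _ _).trans hT) hT0' hX hG htame htame
  have key := hC CB (6/1000) θ T η (fun t => Real.exp (t^(3*c1))) S ψ φ lab (by linarith)
    (by norm_num) (by norm_num) hT50 hTη (by
      intro t ht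
      refine Real.exp_le_exp.2 (Real.rpow_le_rpow_of_exponent_le ?_ hc13)
      exact le_trans (by norm_num) (hT50.trans ht)) h hcls
  have hM0 : 0 ≤ ∑ q ∈ S, wt ψ q := Finset.sum_nonneg fun v hv => wt_nonneg (h.ψ0 v hv).le
  set M := ∑ q ∈ S, wt ψ q with hM
  refine key.trans ?_
  rw [← hr]
  have hη := h.η0
  have g1 : M^2 ≤ r * M^2 := le_mul_of_one_le_left (by positivity) hr1
  have g2 : T^(2*ε) * M^(1+2*ε) ≤ r * (T^(2*ε) * M^(1+2*ε)) := le_mul_of_one_le_left (by positivity) hr1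
  have g3 : η^(-ε) * M ≤ r * (η^(-ε) * M) := le_mul_of_one_le_left (by positivity) hr1
  have e1 : (-(6/1000:ℝ)) = -(6/1000) := rfl
  calc C * (M^2 + T^(2*ε) * M^(1+2*ε) + r * T^(-(6/1000):ℝ) * M^(1+2*eps1) + η^(-ε) * M)
      ≤ C * (r * M^2 + r * (T^(2*ε) * M^(1+2*ε)) + r * T^(-(6/1000):ℝ) * M^(1+2*eps1) +
        r * (η^(-ε) * M)) := by
        apply mul_le_mul_of_nonneg_left _ (by linarith)
        linarith
    _ = _ := by ring

/-- **same-cell energy**: the system with radii `η ψ` (labels of radius `η ψ`) has energy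
`≤ C η M` as soon as `η M T ≤ 1`. -/
theorem cellT : ∃ c0 C : ℝ, 0 < c0 ∧ 1 ≤ C ∧ ∀ c1 : ℝ, 0 < c1 → c1 ≤ c0 → ∃ T0 : ℝ, 2^50 ≤ T0 ∧
    ∀ (θ T η X : ℝ) (S : Finset ℕ) (ψ : ℕ → ℝ) (lab : ℕ → Option ℚ) (G : ℕ),
    T0 ≤ T → X ≤ Real.exp (T^c1) → 0 < η → η * (∑ q ∈ S, wt ψ q) * T ≤ 1 →
    Leaf 1 θ S (fun q => η * ψ q) (fun q => η * ψ q) lab → 0 < G → XTame X G S →
    ∑ q ∈ S, ∑ r ∈ S, T02 θ (fun q => η * ψ q) (fun q => η * ψ q) lab q r +
      ∑ q ∈ S, ∑ r ∈ S, T12 θ (fun q => η * ψ q) (fun q => η * ψ q) lab q r ≤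
      C * (η * ∑ q ∈ S, wt ψ q) := by
  obtain ⟨c0, hc0, hH⟩ := leafT_tame
  obtain ⟨C, hC1, hC⟩ := hH (1/4) (by norm_num) le_rfl
  refine ⟨c0, 4*C, hc0, by linarith, fun c1 hc1 hc10 => ?_⟩
  obtain ⟨T0, hT0, hT0'⟩ := hC c1 hc1 hc10
  refine ⟨T0, hT0, ?_⟩
  intro θ T η X S ψ lab G hT hX hη hηM h hG htame
  have hT1 : 1 ≤ T := le_trans (by norm_num) (hT0.trans hT)
  have e1 : ∑ q ∈ S, wt (fun q => η * ψ q) q = η * ∑ q ∈ S, wt ψ q := by
    rw [Finset.mul_sum]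
    refine Finset.sum_congr rfl fun q _ => ?_
    unfold wt; ring
  have key := hT0' θ T 1 X S (fun q => η * ψ q) (fun q => η * ψ q) lab G hT (by
    rw [one_pow, one_mul]
    exact le_trans (by norm_num) (hT0.trans hT)) hX h hG htame
  rw [e1] at key
  have hM0 : 0 ≤ ∑ q ∈ S, wt (fun q => η * ψ q) q :=
    Finset.sum_nonneg fun v hv => wt_nonneg (h.ψ0 v hv).le
  rw [e1] at hM0
  set M := η * ∑ q ∈ S, wt ψ q with hM
  have hM1 : M ≤ 1 := by nlinarith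
  have g1 : M^2 ≤ M := by nlinarith
  have g2 : T^(2*(1/4):ℝ) * M^(1+2*(1/4):ℝ) ≤ M := by
    have h1 : T^(2*(1/4):ℝ) * M^(1+2*(1/4):ℝ) = M * (M*T)^(1/2:ℝ) := by
      rcases hM0.eq_or_lt with h0 | h0
      · rw [← h0]
        rw [Real.zero_rpow (by norm_num)]; ring
      · rw [Real.mul_rpow hM0 (by linarith), Real.rpow_add h0, Real.rpow_one]
        norm_num
        ring
    rw [h1]
    have h2 : (M*T)^(1/2:ℝ) ≤ 1 := Real.rpow_le_one (by positivity) hηM (by norm_num)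
    nlinarith
  have g3 : T^(-(6/1000):ℝ) * M^(1+2*eps1) ≤ M := by
    have h1 : T^(-(6/1000):ℝ) ≤ 1 := Real.rpow_le_one_of_one_le_of_nonpos hT1 (by norm_num)
    have h2 : M^(1+2*eps1) ≤ M := by
      rcases hM0.eq_or_lt with h0 | h0
      · rw [← h0, Real.zero_rpow (by unfold eps1; norm_num)]
      · calc M^(1+2*eps1) ≤ M^(1:ℝ) :=
              Real.rpow_le_rpow_of_exponent_ge h0 hM1 (by unfold eps1; norm_num)
          _ = M := Real.rpow_one M
    have h3 : 0 ≤ M^(1+2*eps1) := by positivity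
    nlinarith
  have g4 : (1:ℝ)^(-(1/4):ℝ) * M = M := by rw [Real.one_rpow, one_mul]
  rw [g4] at key
  refine key.trans ?_
  calc C * (M^2 + T^(2*(1/4):ℝ) * M^(1+2*(1/4):ℝ) + T^(-(6/1000):ℝ) * M^(1+2*eps1) + M)
      ≤ C * (M + M + M + M) := by
        apply mul_le_mul_of_nonneg_left _ (by linarith)
        linarith
    _ = _ := by ring


/-! ### the pair lemma in terms of `T0I + T1I` -/

/-- `T0 + T1` as one sum over the window of determinants -/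
lemma T01_eq {a b : Itm} {q r : ℕ} (hq : 0 < q) (hr : 0 < r) (ha : 0 < a.psi) :
    T0I a b q r + T1I a b q r = 2 * min (a.psi / (q : ℝ)) (b.psi / (r : ℝ)) *
      ∑ n ∈ win (cof q r * b.th - cof r q * a.th) (cof r q * a.psi + cof q r * b.psi),
        ((Nat.gcd q r : ℝ) * ∏ p ∈ q.primeFactors ∪ r.primeFactors,
          lf q.primeFactors r.primeFactors (uw a.th a.phi a.lab) (uw b.th b.phi b.lab)
            (cof q r) (cof r q) (n * bA (cof q r) (cof r q)) (n * bB (cof q r) (cof r q)) p) := by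
  classical
  set x := cof q r with hx
  set y := cof r q with hy
  set g := Nat.gcd q r with hg
  have hxp : 0 < x := HVW560.cof_pos hq
  have hyp : 0 < y := HVW560.cof_pos hr
  have hgp : 0 < g := Nat.gcd_pos_of_pos_left _ hq
  have hgx : g * x = q := LF363.gcd_mul_cof q r
  have hgy : g * y = r := LF363.gcd_mul_cof' q r
  have hxr : (0 : ℝ) < x := by exact_mod_cast hxp
  have hyr : (0 : ℝ) < y := by exact_mod_cast hyp
  have hgr : (0 : ℝ) < g := by exact_mod_cast hgp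
  have hD : 0 < DI a b q r := lt_max_of_lt_left (mul_pos hyr ha)
  unfold T0I T1I
  rw [Finset.sum_filter_add_sum_filter_not, ← Finset.mul_sum, ← mul_assoc]
  have e1 : 2 * min (a.psi / (q : ℝ)) (b.psi / (r : ℝ)) * g = 2 * a.psi * b.psi / DI a b q r := by
    have e2 := Crest.Agent.R4.Ovl560.min_mul_max (r := a.psi) (r' := b.psi) hgr hxr hyr (by
      rw [max_comm]; exact hD)
    have e3 : (q : ℝ) = g * x := by rw [← hgx]; push_cast; ring
    have e4 : (r : ℝ) = g * y := by rw [← hgy]; push_cast; ring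
    rw [e3, e4, e2]
    unfold DI
    rw [max_comm]
  rw [e1, Finset.mul_sum]
  exact Finset.sum_congr rfl fun n _ => rfl

/-- **pair lemma for worlds**, general comparison items `a, b` of radii `η R, η R'`: it is enough
that the arcs of `a` and `b` with the same numerators overlap (the functions live at the true
targets `θ, θ'`, with the weights of `a, b`). -/
theorem world_pair_T' {ι ι' : Type*} (Rel : Finset (ι × ι')) {a b : Itm} {η : ℝ} (hη : 0 < η)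
    {q r : ℕ} (hq : 0 < q) (hr : 0 < r) {θ θ' R R' : ℝ} (hR : 0 < R) (hR' : 0 < R')
    (ha : a.psi = η * R) (hb : b.psi = η * R')
    (α β : ι → ℝ) (α' β' : ι' → ℝ)
    (hα : ∀ e ∈ Rel, -R ≤ α e.1 ∧ β e.1 ≤ R) (hα' : ∀ e ∈ Rel, -R' ≤ α' e.2 ∧ β' e.2 ≤ R')
    (hdis : ∀ s s' : ℝ, ∀ e ∈ Rel, ∀ f ∈ Rel, (α e.1 ≤ s ∧ s < β e.1) →
      (α' e.2 ≤ s' ∧ s' < β' e.2) → (α f.1 ≤ s ∧ s < β f.1) → (α' f.2 ≤ s' ∧ s' < β' f.2) → e = f)
    (hW : ∀ e ∈ Rel, ∀ (m n : ℤ) (t : ℝ),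
      (α e.1 ≤ (q : ℝ) * t - θ - m ∧ (q : ℝ) * t - θ - m < β e.1) →
      (α' e.2 ≤ (r : ℝ) * t - θ' - n ∧ (r : ℝ) * t - θ' - n < β' e.2) →
      |(a.th + m) / q - (b.th + n) / r| < a.psi / q + b.psi / r) :
    ∑ e ∈ Rel, I (fun t =>
        pc θ (α e.1) (β e.1) q (nw q.primeFactors (uw a.th a.phi a.lab)) t *
        pc θ' (α' e.2) (β' e.2) r (nw r.primeFactors (uw b.th b.phi b.lab)) t) ≤
      η⁻¹ * (T0I a b q r + T1I a b q r) := by
  classical
  have hapos : 0 < a.psi := by rw [ha]; positivity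
  rw [T01_eq hq hr hapos]
  set x := cof q r with hx
  set y := cof r q with hy
  set g := Nat.gcd q r with hg
  have hxp : 0 < x := HVW560.cof_pos hq
  have hyp : 0 < y := HVW560.cof_pos hr
  have hgp : 0 < g := Nat.gcd_pos_of_pos_left _ hq
  have hxy : Nat.Coprime x y := HVW560.cof_coprime hq
  have hgx : g * x = q := LF363.gcd_mul_cof q r
  have hgy : g * y = r := LF363.gcd_mul_cof' q r
  have hxr : (0 : ℝ) < x := by exact_mod_cast hxp
  have hyr : (0 : ℝ) < y := by exact_mod_cast hyp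
  have hgr : (0 : ℝ) < g := by exact_mod_cast hgp
  have hqr : (0 : ℝ) < q := by exact_mod_cast hq
  have hrr : (0 : ℝ) < r := by exact_mod_cast hr
  have key := world_pair Rel (u := uw a.th a.phi a.lab) (v := uw b.th b.phi b.lab)
    (LW_uw a.th a.phi a.lab q) (LW_uw b.th b.phi b.lab r)
    (fun _ hp => Nat.prime_of_mem_primeFactors hp) (fun _ hp => Nat.prime_of_mem_primeFactors hp)
    hgp hxp hyp hxy (fun p hp => by rw [hgx]; exact Nat.dvd_of_mem_primeFactors hp)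
    (fun p hp => by rw [hgy]; exact Nat.dvd_of_mem_primeFactors hp) θ θ' R R' hR.le hR'.le
    (fun n => n * bA x y) (fun n => n * bB x y) (bez hxy) α β α' β' hα hα' hdis
    (win (x * b.th - y * a.th) (y * a.psi + x * b.psi))
  rw [hgx, hgy] at key
  have h1 := key (by
    intro e he m n t h1 h2
    have h3 := hW e he m n t h1 h2
    rw [mem_win]
    have e3 : (q : ℝ) = g * x := by rw [← hgx]; push_cast; ring
    have e4 : (r : ℝ) = g * y := by rw [← hgy]; push_cast; ring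
    have h5 : ((m * (y : ℤ) - n * (x : ℤ) : ℤ) : ℝ) - (x * b.th - y * a.th) =
        (g * x * y) * ((a.th + m) / q - (b.th + n) / r) := by
      rw [e3, e4]; push_cast; field_simp; ring
    rw [h5, abs_mul, abs_of_pos (by positivity : (0 : ℝ) < g * x * y)]
    calc (g * x * y : ℝ) * |(a.th + m) / q - (b.th + n) / r|
        < (g * x * y) * (a.psi / q + b.psi / r) := mul_lt_mul_of_pos_left h3 (by positivity)
      _ = y * a.psi + x * b.psi := by rw [e3, e4]; field_simp)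
  refine h1.trans (le_of_eq ?_)
  have e5 : min (a.psi / (q : ℝ)) (b.psi / (r : ℝ)) = η * min (R / q) (R' / r) := by
    rw [ha, hb, mul_min_of_nonneg _ _ hη.le]
    congr 1 <;> ring
  rw [e5]
  field_simp

/-- **pair lemma for worlds**, in terms of the items `⟨σ, η R, φ, lab⟩` centred at the snapped
targets `σ = a.th`, `σ' = b.th`; the functions live at the true targets `θ, θ'`. -/
theorem world_pair_T {ι ι' : Type*} (Rel : Finset (ι × ι')) {a b : Itm} {η : ℝ} (hη : 0 < η)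
    {q r : ℕ} (hq : 0 < q) (hr : 0 < r) {θ θ' R R' : ℝ} (hR : 0 < R) (hR' : 0 < R')
    (ha : a.psi = η * R) (hb : b.psi = η * R')
    (α β : ι → ℝ) (α' β' : ι' → ℝ)
    (hα : ∀ e ∈ Rel, -R ≤ α e.1 ∧ β e.1 ≤ R) (hα' : ∀ e ∈ Rel, -R' ≤ α' e.2 ∧ β' e.2 ≤ R')
    (hdis : ∀ s s' : ℝ, ∀ e ∈ Rel, ∀ f ∈ Rel, (α e.1 ≤ s ∧ s < β e.1) →
      (α' e.2 ≤ s' ∧ s' < β' e.2) → (α f.1 ≤ s ∧ s < β f.1) → (α' f.2 ≤ s' ∧ s' < β' f.2) → e = f)
    (hW : ∀ e ∈ Rel, ∀ (m n : ℤ) (t : ℝ),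
      (α e.1 ≤ (q : ℝ) * t - θ - m ∧ (q : ℝ) * t - θ - m < β e.1) →
      (α' e.2 ≤ (r : ℝ) * t - θ' - n ∧ (r : ℝ) * t - θ' - n < β' e.2) →
      |(a.th + m) / q - (b.th + n) / r| ≤ η * min (R / q) (R' / r)) :
    ∑ e ∈ Rel, I (fun t =>
        pc θ (α e.1) (β e.1) q (nw q.primeFactors (uw a.th a.phi a.lab)) t *
        pc θ' (α' e.2) (β' e.2) r (nw r.primeFactors (uw b.th b.phi b.lab)) t) ≤
      η⁻¹ * (T0I a b q r + T1I a b q r) := by
  classical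
  have hapos : 0 < a.psi := by rw [ha]; positivity
  rw [T01_eq hq hr hapos]
  set x := cof q r with hx
  set y := cof r q with hy
  set g := Nat.gcd q r with hg
  have hxp : 0 < x := HVW560.cof_pos hq
  have hyp : 0 < y := HVW560.cof_pos hr
  have hgp : 0 < g := Nat.gcd_pos_of_pos_left _ hq
  have hxy : Nat.Coprime x y := HVW560.cof_coprime hq
  have hgx : g * x = q := LF363.gcd_mul_cof q r
  have hgy : g * y = r := LF363.gcd_mul_cof' q r
  have hxr : (0 : ℝ) < x := by exact_mod_cast hxp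
  have hyr : (0 : ℝ) < y := by exact_mod_cast hyp
  have hgr : (0 : ℝ) < g := by exact_mod_cast hgp
  have hqr : (0 : ℝ) < q := by exact_mod_cast hq
  have hrr : (0 : ℝ) < r := by exact_mod_cast hr
  have key := world_pair Rel (u := uw a.th a.phi a.lab) (v := uw b.th b.phi b.lab)
    (LW_uw a.th a.phi a.lab q) (LW_uw b.th b.phi b.lab r)
    (fun _ hp => Nat.prime_of_mem_primeFactors hp) (fun _ hp => Nat.prime_of_mem_primeFactors hp)
    hgp hxp hyp hxy (fun p hp => by rw [hgx]; exact Nat.dvd_of_mem_primeFactors hp)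
    (fun p hp => by rw [hgy]; exact Nat.dvd_of_mem_primeFactors hp) θ θ' R R' hR.le hR'.le
    (fun n => n * bA x y) (fun n => n * bB x y) (bez hxy) α β α' β' hα hα' hdis
    (win (x * b.th - y * a.th) (y * a.psi + x * b.psi))
  rw [hgx, hgy] at key
  have h1 := key (by
    intro e he m n t h1 h2
    have h3 := hW e he m n t h1 h2
    rw [mem_win, ha, hb]
    have e3 : (q : ℝ) = g * x := by rw [← hgx]; push_cast; ring
    have e4 : (r : ℝ) = g * y := by rw [← hgy]; push_cast; ring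
    have h4 : |(a.th + m) / q - (b.th + n) / r| ≤ η * (R / q) :=
      h3.trans (mul_le_mul_of_nonneg_left (min_le_left _ _) hη.le)
    have h5 : ((m * (y : ℤ) - n * (x : ℤ) : ℤ) : ℝ) - (x * b.th - y * a.th) =
        (g * x * y) * ((a.th + m) / q - (b.th + n) / r) := by
      rw [e3, e4]; push_cast; field_simp; ring
    rw [h5, abs_mul, abs_of_pos (by positivity : (0 : ℝ) < g * x * y)]
    calc (g * x * y : ℝ) * |(a.th + m) / q - (b.th + n) / r|
        ≤ (g * x * y) * (η * (R / q)) := mul_le_mul_of_nonneg_left h4 (by positivity)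
      _ = y * (η * R) := by rw [e3]; field_simp
      _ < y * (η * R) + x * (η * R') := by
          have : 0 < (x : ℝ) * (η * R') := by positivity
          linarith)
  refine h1.trans (le_of_eq ?_)
  have e5 : min (a.psi / (q : ℝ)) (b.psi / (r : ℝ)) = η * min (R / q) (R' / r) := by
    rw [ha, hb, mul_min_of_nonneg _ _ hη.le]
    congr 1 <;> ring
  rw [e5]
  field_simp

/-- **in-world energy of a leaf with one snapped target `σ`** (true target `θ`): classes =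
canonical labels of radius `η ψ` at `σ`, worlds `rr` such that two overlapping pieces of one world
have centres (at `σ`) closer than `η min (ψ_q/q, ψ_r/r)`. Energy over all worlds `≤ C · mass`. -/
theorem leafIn : ∃ c0 C : ℝ, 0 < c0 ∧ 1 ≤ C ∧ ∀ c1 : ℝ, 0 < c1 → c1 ≤ c0 → ∃ T0 : ℝ, 2^50 ≤ T0 ∧
    ∀ (σ θ T η X : ℝ) (S : Finset ℕ) (ψ : ℕ → ℝ) (lab : ℕ → Option ℚ) (G : ℕ)
      (ι ω : Type) [DecidableEq ω] (Ks : Finset ι) (α β : ℕ → ι → ℝ) (rr : ℕ → ι → ω),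
    T0 ≤ T → X ≤ Real.exp (T^c1) → 0 < η → η * (∑ q ∈ S, wt ψ q) * T ≤ 1 →
    Leaf 1 σ S (fun q => η * ψ q) (fun q => η * ψ q) lab → 0 < G → XTame X G S →
    (∀ q ∈ S, ∀ k ∈ Ks, -ψ q ≤ α q k ∧ β q k ≤ ψ q) →
    (∀ q ∈ S, ∀ k ∈ Ks, ∀ k' ∈ Ks, ∀ s : ℝ, α q k ≤ s → s < β q k → α q k' ≤ s → s < β q k' →
      k = k') →
    (∀ q ∈ S, ∀ r ∈ S, ∀ k ∈ Ks, ∀ k' ∈ Ks, rr q k = rr r k' → ∀ (m n : ℤ) (t : ℝ),
      (α q k ≤ (q : ℝ) * t - θ - m ∧ (q : ℝ) * t - θ - m < β q k) →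
      (α r k' ≤ (r : ℝ) * t - θ - n ∧ (r : ℝ) * t - θ - n < β r k') →
      |(σ + m) / q - (σ + n) / r| ≤ η * min (ψ q / q) (ψ r / r)) →
    ∑ q ∈ S, ∑ r ∈ S, ∑ e ∈ (Ks ×ˢ Ks).filter (fun e => rr q e.1 = rr r e.2), I (fun t =>
        pc θ (α q e.1) (β q e.1) q (nw q.primeFactors (uw σ (η * ψ q) (lab q))) t *
        pc θ (α r e.2) (β r e.2) r (nw r.primeFactors (uw σ (η * ψ r) (lab r))) t) ≤
      C * ∑ q ∈ S, wt ψ q := by
  obtain ⟨c0, C, hc0, hC, hH⟩ := cellT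
  refine ⟨c0, C, hc0, hC, fun c1 h1 h2 => ?_⟩
  obtain ⟨T0, hT0, hT⟩ := hH c1 h1 h2
  refine ⟨T0, hT0, ?_⟩
  intro σ θ T η X S ψ lab G ι ω _ Ks α β rr hT1 hX hη hηM hL hG htame hα hdis hW
  have key := hT σ T η X S ψ lab G hT1 hX hη hηM hL hG htame
  have hψ : ∀ q ∈ S, 0 < ψ q := fun q hq => by
    have := hL.ψ0 q hq
    exact (pos_iff_pos_of_mul_pos this).1 hη
  have hpair : ∀ q ∈ S, ∀ r ∈ S,
      ∑ e ∈ (Ks ×ˢ Ks).filter (fun e => rr q e.1 = rr r e.2), I (fun t =>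
        pc θ (α q e.1) (β q e.1) q (nw q.primeFactors (uw σ (η * ψ q) (lab q))) t *
        pc θ (α r e.2) (β r e.2) r (nw r.primeFactors (uw σ (η * ψ r) (lab r))) t) ≤
      η⁻¹ * (T02 σ (fun q => η * ψ q) (fun q => η * ψ q) lab q r +
        T12 σ (fun q => η * ψ q) (fun q => η * ψ q) lab q r) := by
    intro q hq r hr
    refine world_pair_T _ (a := ⟨σ, η * ψ q, η * ψ q, lab q⟩) (b := ⟨σ, η * ψ r, η * ψ r, lab r⟩)
      hη (hL.pos q hq) (hL.pos r hr) (hψ q hq) (hψ r hr) rfl rfl (α q) (β q) (α r) (β r)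
      (fun e he => ?_) (fun e he => ?_) (fun s s' e he f hf h1 h2 h3 h4 => ?_)
      (fun e he m n t h1 h2 => ?_)
    · exact hα q hq e.1 (Finset.mem_product.1 (Finset.mem_filter.1 he).1).1
    · exact hα r hr e.2 (Finset.mem_product.1 (Finset.mem_filter.1 he).1).2
    · have he' := Finset.mem_product.1 (Finset.mem_filter.1 he).1
      have hf' := Finset.mem_product.1 (Finset.mem_filter.1 hf).1
      exact Prod.ext (hdis q hq _ he'.1 _ hf'.1 s h1.1 h1.2 h3.1 h3.2)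
        (hdis r hr _ he'.2 _ hf'.2 s' h2.1 h2.2 h4.1 h4.2)
    · have he' := Finset.mem_product.1 (Finset.mem_filter.1 he).1
      exact hW q hq r hr e.1 he'.1 e.2 he'.2 (Finset.mem_filter.1 he).2 m n t h1 h2
  calc _ ≤ ∑ q ∈ S, ∑ r ∈ S, η⁻¹ * (T02 σ (fun q => η * ψ q) (fun q => η * ψ q) lab q r +
        T12 σ (fun q => η * ψ q) (fun q => η * ψ q) lab q r) :=
        Finset.sum_le_sum fun q hq => Finset.sum_le_sum fun r hr => hpair q hq r hr
    _ = η⁻¹ * (∑ q ∈ S, ∑ r ∈ S, T02 σ (fun q => η * ψ q) (fun q => η * ψ q) lab q r +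
        ∑ q ∈ S, ∑ r ∈ S, T12 σ (fun q => η * ψ q) (fun q => η * ψ q) lab q r) := by
        rw [← Finset.sum_add_distrib, Finset.mul_sum]
        refine Finset.sum_congr rfl fun q _ => ?_
        rw [← Finset.sum_add_distrib, Finset.mul_sum]
    _ ≤ η⁻¹ * (C * (η * ∑ q ∈ S, wt ψ q)) := mul_le_mul_of_nonneg_left key (by positivity)
    _ = C * ∑ q ∈ S, wt ψ q := by field_simp

end leaf

end Crest.Agent.R4.AnnLeaf368
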