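import Crest.Agent.R4.StepUV189

/-!
R4 (S0004), helper464: **the closed exclusion at the `up` primes** (`chi`).

At an `up` prime `b` of the item `q` the leaf numerators excluded by the classes `Tc r b` of all the
mates `r` (same node of the tree cut at the level `y`, same rough part) are removed for `q` too:

* `Bd` : the closed set, on the (fully raised) circle of the cut node.
* `zp` : the position of the leaf numerator `a` of `q` with the offset `o`.
* `Bd_shift`, `Bd_zp_per` : the status depends on `a` modulo `b` only.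
* `Bd_base` : the classes of `q` itself are in `Bd`.
* `flx`, `bx`, `Bd_const` : the status is constant on pieces adapted to the breakpoints `bx`.
* `Cl`, `Tz`, `cls_Tz` : the new classes as labels (`Om532.cls`).
-/

set_option autoImplicit false
set_option linter.unusedSectionVars false
set_option linter.unusedVariables false

namespace Crest.Agent.R4.Chi464

open Crest.Agent.R4.Cnt588 Crest.Agent.R4.Item758 Crest.Agent.R4.Step588 Crest.Agent.R4.Om532


/-! ### breakpoints of floors -/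

lemma floor_const {k e R z z' o : ℝ} (hk : 0 < k) (hz : -R ≤ z) (hz' : z' ≤ R) (h1 : z ≤ o)
    (h2 : o < z') (h : ∀ β ∈ flx k e R, z < β → β < z' → False) :
    ⌊k * o + e⌋ = ⌊k * z + e⌋ := by
  by_contra hne
  have h3 : ⌊k * z + e⌋ ≤ ⌊k * o + e⌋ := Int.floor_le_floor (by nlinarith)
  have h4 : ⌊k * z + e⌋ < ⌊k * o + e⌋ := lt_of_le_of_ne h3 (Ne.symm hne)
  set n := ⌊k * o + e⌋ with hn
  have h5 : k * z + e < n := Int.floor_lt.1 h4
  have h6 : (n : ℝ) ≤ k * o + e := Int.floor_le _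
  have h7 : |e| ≤ |e| := le_rfl
  have h8 : (n : ℝ) ≤ k * R + |e| := by nlinarith [le_abs_self e]
  have h9 : -(k * R + |e|) ≤ (n : ℝ) := by nlinarith [neg_abs_le e]
  have h10 : k * R + |e| ≤ (⌈k * R + |e|⌉ : ℝ) := Int.le_ceil _
  refine h (((n : ℝ) - e) / k) ?_ ?_ ?_
  · refine Finset.mem_image.2 ⟨n, Finset.mem_Icc.2 ⟨?_, ?_⟩, rfl⟩
    · have : -((⌈k * R + |e|⌉ : ℝ) + 1) ≤ (n : ℝ) := by linarith
      exact_mod_cast this
    · have : (n : ℝ) ≤ (⌈k * R + |e|⌉ : ℝ) + 1 := by linarith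
      exact_mod_cast this
  · rw [lt_div_iff₀ hk]; linarith
  · refine lt_of_le_of_lt ?_ h2
    rw [div_le_iff₀ hk]; linarith

/-! ### arithmetic of one cut node -/

/-- facts about the cut node of `q` at the level `y` -/
structure CutOk (T : IT) (y q : ℕ) : Prop where
  mem : q ∈ T.items
  sq : ∀ r ∈ (subt y T q).items, Squarefree (r / ppc y T q)
  co : ∀ r ∈ (subt y T q).items, Nat.Coprime (mp (subt y T q) r) (r / ppc y T q)
  mdvd : ∀ r ∈ (subt y T q).items, mp (subt y T q) r ∣ pml y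
  cut : ∀ r ∈ (subt y T q).items, mp T r = mpc y T q * mp (subt y T q) r
  mpos : 0 < mpc y T q

section
variable {γ : ℝ} {R : ℕ → ℝ} {S' : Finset ℕ} {Tc : ℕ → ℕ → Finset ℚ} {T : IT} {y b q : ℕ}

lemma CutOk.pos (h : CutOk T y q) {r : ℕ} (hr : r ∈ (subt y T q).items) : 0 < r / ppc y T q :=
  Nat.pos_of_ne_zero (h.sq r hr).ne_zero

lemma CutOk.mp_pos (h : CutOk T y q) {r : ℕ} (hr : r ∈ (subt y T q).items) :
    0 < mp (subt y T q) r := Nat.pos_of_dvd_of_pos (h.mdvd r hr) (pml_pos y)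

lemma CutOk.self (h : CutOk T y q) : q ∈ (subt y T q).items := mem_subt y T h.mem

lemma CutOk.dvd_pml (h : CutOk T y q) : smt y (q / ppc y T q) * mp (subt y T q) q ∣ pml y := by
  refine Nat.Coprime.mul_dvd_of_dvd_of_dvd ?_ (smt_dvd_pml _ _) (h.mdvd q h.self)
  have h1 := h.co q h.self
  refine (Nat.Coprime.coprime_dvd_right ?_ h1).symm
  have h2 := rgh_mul_smt (h.sq q h.self) y
  exact Dvd.intro_left _ h2

lemma CutOk.kN_pos (h : CutOk T y q) (r : ℕ) : 0 < kN T y q r := by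
  unfold kN
  refine Nat.mul_pos (Nat.div_pos (Nat.le_of_dvd (pml_pos y) h.dvd_pml) ?_) (smt_pos _ _)
  exact Nat.mul_pos (smt_pos _ _) (h.mp_pos h.self)

/-- position of a leaf numerator of `q` on the circle of the mate `r` -/
lemma CutOk.zp_mul (h : CutOk T y q) {r : ℕ} (hr : r ∈ (subt y T q).items)
    (hrg : rgh y (r / ppc y T q) = rgh y (q / ppc y T q)) (o : ℝ) (a : ℤ) :
    ((r / ppc y T q : ℕ) : ℝ) * zp γ T y q o a =
      (kN T y q r : ℝ) / (pml y : ℕ) * ((a : ℝ) + (mp T q : ℝ) * (γ + o)) := by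
  have e1 := rgh_mul_smt (h.sq q h.self) y
  have e2 := rgh_mul_smt (h.sq r hr) y
  have p1 : (0 : ℝ) < smt y (q / ppc y T q) := by exact_mod_cast smt_pos _ _
  have p2 : (0 : ℝ) < mp (subt y T q) q := by exact_mod_cast h.mp_pos h.self
  have p3 : (0 : ℝ) < rgh y (q / ppc y T q) := by exact_mod_cast rgh_pos _ _
  have p4 : (0 : ℝ) < (pml y : ℕ) := by exact_mod_cast pml_pos y
  have e3 : ((kN T y q r : ℕ) : ℝ) = (pml y : ℕ) / (smt y (q / ppc y T q) * mp (subt y T q) q) *
      smt y (r / ppc y T q) := by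
    unfold kN
    rw [Nat.cast_mul, Nat.cast_div h.dvd_pml
      (by rw [Nat.cast_mul]; exact (mul_pos p1 p2).ne')]
    push_cast
    ring
  have e4 : ((q / ppc y T q : ℕ) : ℝ) = rgh y (q / ppc y T q) * smt y (q / ppc y T q) := by
    exact_mod_cast e1.symm
  have e5 : ((r / ppc y T q : ℕ) : ℝ) = rgh y (q / ppc y T q) * smt y (r / ppc y T q) := by
    rw [← hrg]
    exact_mod_cast e2.symm
  unfold zp
  rw [e3, e4, e5]
  field_simp

/-- invariance of the closed set -/
lemma CutOk.Bd_shift (h : CutOk T y q) {g : ℕ} (hg0 : 0 < g) (hg : b * g = rgh y (q / ppc y T q))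
    {z : ℝ} (j : ℤ) (hz : Bd γ R S' Tc T y b q z) :
    Bd γ R S' Tc T y b q (z + (j : ℝ) / (g * (pml y : ℕ))) := by
  obtain ⟨r, hr, hrS, hrg, M, ρ, hρ, h1, h2, h3⟩ := hz
  have p4 : (0 : ℝ) < (pml y : ℕ) := by exact_mod_cast pml_pos y
  have pg : (0 : ℝ) < (g : ℝ) := by exact_mod_cast hg0
  have e5 : ((r / ppc y T q : ℕ) : ℝ) = b * g * smt y (r / ppc y T q) := by
    have e2 := rgh_mul_smt (h.sq r hr) y
    rw [hrg, ← hg] at e2
    exact_mod_cast e2.symm
  have key : ((r / ppc y T q : ℕ) : ℝ) * (z + (j : ℝ) / (g * (pml y : ℕ))) -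
      (mpc y T q : ℝ) * γ - ((M + b * (smt y (r / ppc y T q) : ℕ) * j : ℤ) : ℝ) / (pml y : ℕ) =
      ((r / ppc y T q : ℕ) : ℝ) * z - (mpc y T q : ℝ) * γ - (M : ℝ) / (pml y : ℕ) := by
    rw [e5]
    push_cast
    field_simp
    ring
  refine ⟨r, hr, hrS, hrg, M + b * (smt y (r / ppc y T q) : ℕ) * j, ρ, hρ, ?_, ?_, ?_⟩
  · rw [key]; exact h1
  · rw [key]; exact h2
  · have e : (ρ.den : ℤ) * (M + b * (smt y (r / ppc y T q) : ℕ) * j) +
        ((pml y / mp (subt y T q) r : ℕ) : ℤ) * ρ.num =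
        ((ρ.den : ℤ) * M + ((pml y / mp (subt y T q) r : ℕ) : ℤ) * ρ.num) +
        b * (ρ.den * (smt y (r / ppc y T q) : ℕ) * j) := by ring
    rw [e]
    exact dvd_add h3 (Dvd.intro _ rfl)

lemma CutOk.Bd_shift_iff (h : CutOk T y q) {g : ℕ} (hg0 : 0 < g)
    (hg : b * g = rgh y (q / ppc y T q)) {z : ℝ} (j : ℤ) :
    Bd γ R S' Tc T y b q (z + (j : ℝ) / (g * (pml y : ℕ))) ↔ Bd γ R S' Tc T y b q z := by
  refine ⟨fun hz => ?_, h.Bd_shift hg0 hg j⟩
  have := h.Bd_shift hg0 hg (-j) hz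
  have e : z + (j : ℝ) / (g * (pml y : ℕ)) + ((-j : ℤ) : ℝ) / (g * (pml y : ℕ)) = z := by
    push_cast; ring
  rwa [e] at this

/-- **the status depends on the numerator modulo `b` only** -/
lemma CutOk.Bd_zp_per (h : CutOk T y q) {g : ℕ} (hg0 : 0 < g) (hb0 : 0 < b)
    (hg : b * g = rgh y (q / ppc y T q)) (o : ℝ) (a m : ℤ) :
    Bd γ R S' Tc T y b q (zp γ T y q o (a + b * m)) ↔ Bd γ R S' Tc T y b q (zp γ T y q o a) := by
  obtain ⟨k, hk⟩ := h.dvd_pml
  have p1 : (0 : ℝ) < smt y (q / ppc y T q) := by exact_mod_cast smt_pos _ _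
  have p2 : (0 : ℝ) < mp (subt y T q) q := by exact_mod_cast h.mp_pos h.self
  have p4 : (0 : ℝ) < (pml y : ℕ) := by exact_mod_cast pml_pos y
  have pg : (0 : ℝ) < (g : ℝ) := by exact_mod_cast hg0
  have pb : (0 : ℝ) < (b : ℝ) := by exact_mod_cast hb0
  have hk' : ((pml y : ℕ) : ℝ) = smt y (q / ppc y T q) * mp (subt y T q) q * k := by
    exact_mod_cast hk
  have hk0 : (0 : ℝ) < k := by
    rw [hk'] at p4
    exact (pos_iff_pos_of_mul_pos p4).1 (by positivity)
  have e4 : ((q / ppc y T q : ℕ) : ℝ) = b * g * smt y (q / ppc y T q) := by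
    have e1 := rgh_mul_smt (h.sq q h.self) y
    rw [← hg] at e1
    exact_mod_cast e1.symm
  have e : zp γ T y q o (a + b * m) = zp γ T y q o a + ((m * k : ℤ) : ℝ) / (g * (pml y : ℕ)) := by
    unfold zp
    rw [e4, hk']
    push_cast
    field_simp
    ring
  rw [e]
  exact h.Bd_shift_iff hg0 hg _

/-- the classes of `q` itself are in the closed set -/
lemma CutOk.Bd_base (h : CutOk T y q) (hqS : q ∈ S') {o : ℝ} {a : ℤ} (h1 : -R q ≤ o)
    (h2 : o < R q) {ρ : ℚ} (hρ : ρ ∈ Tc q b) (hd : (b : ℤ) ∣ ρ.den * a + ρ.num) :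
    Bd γ R S' Tc T y b q (zp γ T y q o a) := by
  have hm := h.mdvd q h.self
  have p1 : (0 : ℝ) < ((q / ppc y T q : ℕ) : ℝ) := by exact_mod_cast h.pos h.self
  have p2 : (0 : ℝ) < mp (subt y T q) q := by exact_mod_cast h.mp_pos h.self
  have p4 : (0 : ℝ) < (pml y : ℕ) := by exact_mod_cast pml_pos y
  have p5 : (0 : ℝ) < (mpc y T q : ℝ) := by exact_mod_cast h.mpos
  obtain ⟨k, hk⟩ := hm
  have hk' : ((pml y : ℕ) : ℝ) = mp (subt y T q) q * k := by exact_mod_cast hk
  have hk0 : (0 : ℝ) < k := by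
    rw [hk'] at p4
    exact (pos_iff_pos_of_mul_pos p4).1 (by positivity)
  have hdiv : pml y / mp (subt y T q) q = k := by
    rw [hk]; exact Nat.mul_div_cancel_left k (h.mp_pos h.self)
  have hcut : (mp T q : ℝ) = mpc y T q * mp (subt y T q) q := by
    exact_mod_cast h.cut q h.self
  have key : ((q / ppc y T q : ℕ) : ℝ) * zp γ T y q o a - (mpc y T q : ℝ) * γ -
      ((k * a : ℤ) : ℝ) / (pml y : ℕ) = mpc y T q * o := by
    unfold zp
    rw [hcut, hk']
    push_cast
    field_simp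
    ring
  refine ⟨q, h.self, hqS, rfl, k * a, ρ, hρ, ?_, ?_, ?_⟩
  · rw [key]; nlinarith
  · rw [key]; nlinarith
  · rw [hdiv]
    have e : (ρ.den : ℤ) * (k * a) + (k : ℤ) * ρ.num = k * (ρ.den * a + ρ.num) := by ring
    rw [e]
    exact Dvd.dvd.mul_left hd _

/-! ### constancy on pieces -/

lemma win_floor {L k N g m Rr o a M : ℝ} (hL : 0 < L) {X : ℝ}
    (hX : X = k / L * (a + N * (g + o))) :
    (-(m * Rr) ≤ X - m * g - M / L ↔
      M - k * a ≤ k * N * o + (k * (N * g) - L * (m * g) + L * (m * Rr))) ∧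
    (X - m * g - M / L < m * Rr ↔
      k * N * o + (k * (N * g) - L * (m * g) - L * (m * Rr)) < M - k * a) := by
  subst hX
  constructor
  · constructor
    · intro h
      have := mul_le_mul_of_nonneg_left h hL.le
      have e : L * (k / L * (a + N * (g + o)) - m * g - M / L) =
          k * (a + N * (g + o)) - L * (m * g) - M := by field_simp
      rw [e] at this
      linarith
    · intro h
      have e : L * (k / L * (a + N * (g + o)) - m * g - M / L) =
          k * (a + N * (g + o)) - L * (m * g) - M := by field_simp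
      refine le_of_mul_le_mul_left ?_ hL
      rw [e]
      linarith
  · constructor
    · intro h
      have := mul_lt_mul_of_pos_left h hL
      have e : L * (k / L * (a + N * (g + o)) - m * g - M / L) =
          k * (a + N * (g + o)) - L * (m * g) - M := by field_simp
      rw [e] at this
      linarith
    · intro h
      have e : L * (k / L * (a + N * (g + o)) - m * g - M / L) =
          k * (a + N * (g + o)) - L * (m * g) - M := by field_simp
      refine lt_of_mul_lt_mul_left ?_ hL.le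
      rw [e]
      linarith

/-- **the status is constant on adapted pieces** -/
theorem CutOk.Bd_const (h : CutOk T y q) {z z' o : ℝ} (hz : -R q ≤ z) (hz' : z' ≤ R q)
    (h1 : z ≤ o) (h2 : o < z') (hx : ∀ β ∈ bx1 γ R T y q, z < β → β < z' → False) (a : ℤ) :
    Bd γ R S' Tc T y b q (zp γ T y q o a) ↔ Bd γ R S' Tc T y b q (zp γ T y q z a) := by
  have pN : (0 : ℝ) < mp T q := by
    have := h.cut q h.self
    rw [this]
    exact_mod_cast Nat.mul_pos h.mpos (h.mp_pos h.self)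
  have p4 : (0 : ℝ) < (pml y : ℕ) := by exact_mod_cast pml_pos y
  unfold Bd
  refine exists_congr fun r => ?_
  constructor
  all_goals
    rintro ⟨hr, hrS, hrg, M, ρ, hρ, w1, w2, w3⟩
    have pk : (0 : ℝ) < kN T y q r := by exact_mod_cast h.kN_pos r
    have f1 := floor_const (k := (kN T y q r : ℝ) * mp T q)
      (e := (kN T y q r : ℝ) * (mp T q * γ) - (pml y : ℕ) * (mpc y T q * γ) +
        (pml y : ℕ) * (mpc y T q * R r)) (mul_pos pk pN) hz hz' h1 h2
      (fun β hβ => hx β (Finset.mem_biUnion.2 ⟨r, hr, Finset.mem_union_left _ hβ⟩))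
    have f2 := floor_const (k := (kN T y q r : ℝ) * mp T q)
      (e := (kN T y q r : ℝ) * (mp T q * γ) - (pml y : ℕ) * (mpc y T q * γ) -
        (pml y : ℕ) * (mpc y T q * R r)) (mul_pos pk pN) hz hz' h1 h2
      (fun β hβ => hx β (Finset.mem_biUnion.2 ⟨r, hr, Finset.mem_union_right _ hβ⟩))
    have g1 := win_floor (M := (M : ℝ)) (m := (mpc y T q : ℝ)) (Rr := R r) p4
      (h.zp_mul hr hrg (γ := γ) o a)
    have g2 := win_floor (M := (M : ℝ)) (m := (mpc y T q : ℝ)) (Rr := R r) p4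
      (h.zp_mul hr hrg (γ := γ) z a)
    have c1 : ((M : ℝ) - (kN T y q r : ℝ) * a) = ((M - (kN T y q r : ℕ) * a : ℤ) : ℝ) := by
      push_cast; ring
    rw [c1, ← Int.le_floor, ← Int.floor_lt] at g1 g2
    rw [f1, f2] at g1
  · exact ⟨hr, hrS, hrg, M, ρ, hρ, g2.1.2 (g1.1.1 w1), g2.2.2 (g1.2.1 w2), w3⟩
  · exact ⟨hr, hrS, hrg, M, ρ, hρ, g1.1.2 (g2.1.1 w1), g1.2.2 (g2.2.1 w2), w3⟩

/-! ### the classes -/

/-- **the class condition at an `up` prime** is membership in the closed set -/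
theorem CutOk.cls_Tz (h : CutOk T y q) (hb : b.Prime) (hyb : y ≤ b) (hbq : b ∣ q / ppc y T q)
    (PP : ℕ → ℕ) (hPP : PP b = y) (huq : b ∈ T.uq q) (hqS : q ∈ S') {o : ℝ}
    (h1 : -R q ≤ o) (h2 : o < R q) (a : ℤ) :
    (cls (Tz γ R S' Tc T PP o q b) b a = 0 ↔ Bd γ R S' Tc T y b q (zp γ T y q o a)) ∧
    (¬ Bd γ R S' Tc T y b q (zp γ T y q o a) → cls (Tz γ R S' Tc T PP o q b) b a = 1) := by
  classical
  have hbr : b ∣ rgh y (q / ppc y T q) := by
    unfold rgh
    refine Finset.dvd_prod_of_mem (fun l => l) ?_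
    rw [Finset.mem_filter, Nat.mem_primeFactors]
    exact ⟨⟨hb, hbq, (h.sq q h.self).ne_zero⟩, hyb⟩
  obtain ⟨g, hg⟩ := hbr
  have hg0 : 0 < g := Nat.pos_of_ne_zero (by
    rintro rfl
    have := rgh_pos y (q / ppc y T q)
    rw [hg] at this; simp at this)
  have key : (∃ ρ ∈ Tz γ R S' Tc T PP o q b, (b : ℤ) ∣ ρ.den * a + ρ.num) ↔
      Bd γ R S' Tc T y b q (zp γ T y q o a) := by
    unfold Tz
    rw [if_pos huq, hPP]
    constructor
    · rintro ⟨ρ, hρ, hd⟩
      rcases Finset.mem_union.1 hρ with hρ | hρ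
      · exact h.Bd_base hqS h1 h2 hρ hd
      · obtain ⟨a0, ha0, rfl⟩ := Finset.mem_image.1 hρ
        obtain ⟨ha1, ha2⟩ := Finset.mem_filter.1 ha0
        have e1 : (-(a0 : ℚ)).den = 1 := by simp
        have e2 : (-(a0 : ℚ)).num = -(a0 : ℤ) := by simp
        rw [e1, e2] at hd
        obtain ⟨m, hm⟩ := hd
        have e3 : a = (a0 : ℤ) + b * m := by push_cast at hm; linarith
        rw [e3]
        exact (h.Bd_zp_per hg0 hb.pos hg.symm o a0 m).2 ha2
    · intro hB
      have hbz : (b : ℤ) ≠ 0 := by exact_mod_cast hb.ne_zero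
      have e0 : 0 ≤ a % b := Int.emod_nonneg a hbz
      have e1 : a % b < b := Int.emod_lt_of_pos a (by exact_mod_cast hb.pos)
      obtain ⟨a0, ha0⟩ := Int.eq_ofNat_of_zero_le e0
      have e2 : a = (a0 : ℤ) + b * (a / b) := by
        rw [← ha0]; exact (Int.emod_add_mul_ediv a b).symm
      refine ⟨-(a0 : ℚ), Finset.mem_union_right _ (Finset.mem_image.2 ⟨a0,
        Finset.mem_filter.2 ⟨?_, ?_⟩, rfl⟩), ?_⟩
      · rw [Finset.mem_range]; omega
      · have := hB
        rw [e2] at this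
        exact (h.Bd_zp_per hg0 hb.pos hg.symm o a0 _).1 this
      · have e3 : (-(a0 : ℚ)).den = 1 := by simp
        have e4 : (-(a0 : ℚ)).num = -(a0 : ℤ) := by simp
        rw [e3, e4]
        refine ⟨a / b, ?_⟩
        push_cast
        linarith
  unfold cls
  constructor
  · constructor
    · intro h0
      by_contra hB
      rw [if_neg (fun hh => hB (key.1 hh))] at h0
      norm_num at h0
    · intro hB
      rw [if_pos (key.2 hB)]
  · intro hB
    rw [if_neg (fun hh => hB (key.1 hh))]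

end

end Crest.Agent.R4.Chi464
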