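import Crest.Agent.R4.Chi464d
import Crest.Agent.R4.OmData532
import Crest.Agent.R4.StepFlat588

/-!
R4 (S0004), helper464: closed exclusion, part 5: **the weights of the pieces**.

* `omX` : the weights `omT` with the classes `Tz`.
* `omT_cond4` : all conditions on the weights from `card ≤ b^(1/4)` at the `up` primes, no class at the
  other retained primes; `mean2` : half of the mean of any other choice of classes.
* `omX_le` : `omX ≤ omT`.
-/

set_option autoImplicit false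
set_option linter.unusedSectionVars false
set_option linter.unusedVariables false

namespace Crest.Agent.R4.Chi464

open Crest.Agent.R4.W363 Crest.Agent.R4.Om532 Crest.Agent.R4.OmSt532 Crest.Agent.R4.Item758
open Crest.Agent.R4.Cnt588 Crest.Agent.R4.Max709 Crest.Agent.R4.Tour104 Crest.Agent.R4.Step588
open Crest.Agent.R4.Item464 Crest.Agent.R4.Piece464 Crest.Agent.R4.Ovl560
open Crest.Agent.R4.Bld532 Crest.Agent.R4.PrunePar33 Crest.Agent.R4.LF363 Crest.Agent.R4.Data758
open Crest.Agent.R4.Soft104 Crest.Agent.R4.PruneSep532 Crest.Agent.R4.OmData532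

/-- **all the conditions on the weights**, `card ≤ b^(1/4)` at the `up` primes -/
theorem omT_cond4 (B C1 c2 : ℝ) (hC1 : 0 ≤ C1) (hc2 : 0 ≤ c2) (hB : 2 * (C1 + c2) + 5 ≤ B) :
    ∃ p₁ : ℕ, ∀ p0 ≥ p₁, ∀ (ψ : ℕ → ℝ) (S : Finset ℕ), (∀ q ∈ S, Squarefree q) →
      ∀ P₀ : ℕ, 2 ≤ P₀ → SysM P₀ ψ S → ∀ n : ℕ, ∀ S' ⊆ S,
        (∀ q ∈ S', Pr (bld (par B C1 c2 p0) (w ψ) n 1 S) p0 (C1 + c2) B q) →
        ∀ (T : ℕ → ℕ → Finset ℚ) (th ph : ℕ → ℝ) (lab : ℕ → Option ℚ),
          (∀ q ∈ S', ∀ b ∈ rt (bld (par B C1 c2 p0) (w ψ) n 1 S) q,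
            b ∉ (bld (par B C1 c2 p0) (w ψ) n 1 S).uq q → T q b = ∅) →
          (∀ q ∈ S', ∀ b ∈ (bld (par B C1 c2 p0) (w ψ) n 1 S).uq q,
            ((T q b).card : ℝ) ≤ (b : ℝ) ^ (1 / 4 : ℝ)) →
          (∀ q ∈ S, Wt (q / pp (bld (par B C1 c2 p0) (w ψ) n 1 S) q)
            (omT (bld (par B C1 c2 p0) (w ψ) n 1 S) S' T th ph lab q)) ∧
          (∀ q ∈ S, ∀ a, omT (bld (par B C1 c2 p0) (w ψ) n 1 S) S' T th ph lab q a ≤ 1) ∧
          (∀ q ∈ S, pp (bld (par B C1 c2 p0) (w ψ) n 1 S) q = 1 →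
            TopW q (omT (bld (par B C1 c2 p0) (w ψ) n 1 S) S' T th ph lab q)) ∧
          (∀ q ∈ S', 1 / 2 * (((q / pp (bld (par B C1 c2 p0) (w ψ) n 1 S) q).totient : ℝ) /
            ((q / pp (bld (par B C1 c2 p0) (w ψ) n 1 S) q : ℕ) : ℝ)) ≤
            mnw (q / pp (bld (par B C1 c2 p0) (w ψ) n 1 S) q)
              (omT (bld (par B C1 c2 p0) (w ψ) n 1 S) S' T th ph lab q)) ∧
          (∀ q ∈ S', ∀ T' : ℕ → ℕ → Finset ℚ,
            mnw (q / pp (bld (par B C1 c2 p0) (w ψ) n 1 S) q)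
              (omT (bld (par B C1 c2 p0) (w ψ) n 1 S) S' T' th ph lab q) ≤
            2 * mnw (q / pp (bld (par B C1 c2 p0) (w ψ) n 1 S) q)
              (omT (bld (par B C1 c2 p0) (w ψ) n 1 S) S' T th ph lab q)) ∧
          (∀ q ∈ S', ∑ l ∈ (q / pp (bld (par B C1 c2 p0) (w ψ) n 1 S) q).primeFactors.filter
            (· ∈ rt (bld (par B C1 c2 p0) (w ψ) n 1 S) q), ((T q l).card : ℝ) / l ≤ 1 / 2) := by
  classical
  set C := C1 + c2 with hC
  have hC0 : 0 ≤ C := by positivity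
  obtain ⟨p2, h2⟩ := Pr_tails B C 0 0 (3 / 4) (by norm_num) le_rfl le_rfl (by linarith)
  refine ⟨p2 + 16, fun p0 hp0 ψ S hsq P₀ hP₀ hS n S' hsub hPr' => ?_⟩
  set t := bld (par B C1 c2 p0) (w ψ) n 1 S with ht
  have hgt : ∀ q b, b ∈ rt t q → b.Prime ∧ p0 < b := by
    intro q b hb
    have hb' : b ∈ t.sp q ∨ b ∈ t.uq q := Finset.mem_union.1 hb
    have := bld_gt (par B C1 c2 p0) (w ψ) n 1 S q b (Or.inr hb')
    exact ⟨this.1, this.2.1⟩
  have hw1 : ∀ q ∈ S, 0 < q / pp t q := by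
    intro q hq
    have h4 := (bld_pp (par B C1 c2 p0) (w ψ) n S hq).1
    have hq0 := hS.pos q hq
    exact Nat.div_pos (Nat.le_of_dvd hq0 h4) (Nat.pos_of_dvd_of_pos h4 hq0)
  intro T th ph lab hT0 hT
  have hLW : ∀ q, LW (q / pp t q).primeFactors (uw (th q) (ph q) (lab q)) := fun q =>
    LW_uw _ _ _ _
  have hle : ∀ q, ∀ l ∈ (q / pp t q).primeFactors, ∀ a, uw (th q) (ph q) (lab q) l a ≤ 1 :=
    fun q l _ a => uw_le_one _ _ _ _ _
  have hmn : ∀ q, ∀ l ∈ (q / pp t q).primeFactors, l ∉ rt t q →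
      1 - 1 / (l : ℝ) ≤ mn (uw (th q) (ph q) (lab q)) l := fun q l hl _ =>
    (mn_uw _ _ _ (Nat.prime_of_mem_primeFactors hl)).ge
  have hsqrt : ∀ q ∈ S', ∀ l ∈ rt t q, ((T q l).card : ℝ) ≤ Real.sqrt l := by
    intro q hq l hl
    by_cases hu : l ∈ t.uq q
    · refine (hT q hq l hu).trans ?_
      rw [Real.sqrt_eq_rpow]
      have h1 : (1 : ℝ) ≤ l := by exact_mod_cast (hgt q l hl).1.one_lt.le
      exact Real.rpow_le_rpow_of_exponent_le h1 (by norm_num)
    · rw [hT0 q hq l hl hu]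
      simp
  have hsum : ∀ q ∈ S', ∑ l ∈ (q / pp t q).primeFactors.filter (· ∈ rt t q),
      ((T q l).card : ℝ) / l ≤ 1 / 2 := by
    intro q hq
    have h5 := (h2 p0 (by omega) t q (hPr' q hq) p0 le_rfl).2.1
    have h6 : (t.uq q).filter (fun b => p0 < b) = t.uq q :=
      Finset.filter_true_of_mem fun b hb => (hgt q b (Finset.mem_union_right _ hb)).2
    rw [h6] at h5
    have h7 : (p0 : ℝ) ^ (-((3 / 4 : ℝ) / 2)) ≤ 1 / 2 := by
      have h8 : (16 : ℝ) ≤ p0 := by
        have : 16 ≤ p0 := by omega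
        exact_mod_cast this
      have h9 : (p0 : ℝ) ^ (-((3 / 4 : ℝ) / 2)) ≤ (16 : ℝ) ^ (-((3 / 4 : ℝ) / 2)) :=
        Real.rpow_le_rpow_of_nonpos (by norm_num) h8 (by norm_num)
      refine h9.trans ?_
      have h10 : (16 : ℝ) ^ (-((3 / 4 : ℝ) / 2)) ≤ (16 : ℝ) ^ (-(1 / 4 : ℝ)) :=
        Real.rpow_le_rpow_of_exponent_le (by norm_num) (by norm_num)
      refine h10.trans ?_
      rw [Real.rpow_neg (by norm_num)]
      have h11 : (16 : ℝ) ^ (1 / 4 : ℝ) = 2 := by
        rw [show (16 : ℝ) = 2 ^ (4 : ℝ) by norm_num, ← Real.rpow_mul (by norm_num)]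
        norm_num
      rw [h11]; norm_num
    refine le_trans ?_ (h5.trans h7)
    have h12 : ∑ l ∈ (q / pp t q).primeFactors.filter (· ∈ rt t q), ((T q l).card : ℝ) / l ≤
        ∑ l ∈ (rt t q), if l ∈ t.uq q then (l : ℝ) ^ (-(3 / 4 : ℝ)) else 0 := by
      refine le_trans (Finset.sum_le_sum_of_subset_of_nonneg (t := rt t q) ?_
        (fun i _ _ => by positivity)) (Finset.sum_le_sum fun l hl => ?_)
      · intro l hl
        exact (Finset.mem_filter.1 hl).2
      · split_ifs with hu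
        · have h13 := hT q hq l hu
          have hl0 : (0 : ℝ) < l := by exact_mod_cast (hgt q l hl).1.pos
          have h14 : (l : ℝ) ^ (-(3 / 4 : ℝ)) = (l : ℝ) ^ (1 / 4 : ℝ) / l := by
            rw [show (-(3 / 4 : ℝ)) = 1 / 4 - 1 by norm_num, Real.rpow_sub hl0, Real.rpow_one]
          rw [h14]
          exact div_le_div_of_nonneg_right h13 hl0.le
        · rw [hT0 q hq l hl hu]; simp
    refine h12.trans (le_of_eq ?_)
    rw [← Finset.sum_filter]
    refine Finset.sum_congr ?_ fun _ _ => rfl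
    ext l
    rw [Finset.mem_filter]
    exact ⟨fun h => h.2, fun h => ⟨Finset.mem_union_right _ h, h⟩⟩
  refine ⟨fun q _ => omw_Wt (hLW q), fun q _ a => omw_le_one (hLW q) (hle q) a, ?_, ?_, ?_, hsum⟩
  · intro q hq hpp
    have hq1 : q ≠ 1 := by
      have := hS.large q hq
      omega
    have e : q / pp t q = q := by rw [hpp, Nat.div_one]
    have key := omw_TopW (good := q ∈ S') (ret := rt t q) (T := T q)
      (u := uw (th q) (ph q) (lab q)) (w := q / pp t q)
      (by rw [e]; exact hsq q hq) (by rw [e]; exact hq1) (hLW q) (hle q) (hmn q)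
      (fun hg l hl hr => hsqrt q hg l hr)
    unfold omT
    rw [e] at key ⊢
    exact key
  · intro q hq
    exact omw_mean hq (hw1 q (hsub hq)) (hLW q) (hmn q) (hsum q hq)
  · intro q hq T'
    have hw := hw1 q (hsub hq)
    have k1 := flw_mean_le (good := q ∈ S') (ret := rt t q) (T := T q)
      (u := uw (th q) (ph q) (lab q)) (w := q / pp t q) (sel := fun l => l ∉ rt t q) hw (hLW q)
      (hmn q) (by
        refine le_trans (le_of_eq ?_) (hsum q hq)
        refine Finset.sum_congr ?_ fun _ _ => rfl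
        ext l
        simp only [Finset.mem_filter, not_not]
        tauto) (lam := 1) zero_le_one (by
        refine le_of_eq (Eq.symm (Finset.prod_eq_one fun l hl => ?_))
        simp only [Finset.mem_filter] at hl
        exact absurd hl.2.2 hl.2.1)
    rw [one_mul] at k1
    refine le_trans ?_ k1
    have k2 : flw (q ∈ S') (rt t q) (T q) (uw (th q) (ph q) (lab q)) (q / pp t q)
        (fun l => l ∉ rt t q) = flw (q ∈ S') (rt t q) (T' q) (uw (th q) (ph q) (lab q))
        (q / pp t q) (fun l => l ∉ rt t q) := by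
      funext a
      unfold flw
      split_ifs
      · unfold nw
        refine Finset.prod_congr rfl fun l hl => ?_
        have h3 : l ∉ rt t q := by
          simp only [Finset.mem_filter] at hl
          exact hl.2
        unfold locw
        rw [if_neg h3, if_neg h3]
    rw [k2]
    unfold mnw
    refine div_le_div_of_nonneg_right ?_ (Nat.cast_nonneg _)
    refine Finset.sum_le_sum fun a _ => ?_
    exact omw_le_flw (hLW q) (hle q) _

end Crest.Agent.R4.Chi464
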