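import Crest.Agent.R4.StepData189
import Crest.Agent.R4.StepFlat588

/-!
R4 (S0004), helper189: **(H1) of T9'**: the decomposition `r / A = u * v` of the moduli.

* `sel T y E r l` : the selected primes of the item `r`: `l < y`, or `l` is an `up` prime with `E l`.
* `vN`, `uN` : products of the selected / other primes of `r / A`; `uN_mul_vN`, `vN_le`.
* `NDt.uN_eq` : mates have the same `uN`; `NDt.uv` : `r / A2 = uN q * vN r` for the mates of `q`.
* `flw_Wt_vN` : the flat weights are periodic modulo `vN`.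
-/

set_option autoImplicit false
set_option linter.unusedSectionVars false
set_option linter.unusedVariables false
open MeasureTheory Filter

namespace Crest.Agent.R4.Step588

open Crest.Agent.R4.Cnt588 Crest.Agent.R4.Item758 Crest.Agent.R4.Data758
open Crest.Agent.R4.Piece464 Crest.Agent.R4.Om532 Crest.Agent.R4.Ovl560
open Crest.Agent.R4.Bld532 (NS All NodeOk Bk)

/-- selected primes of the item `r` -/
def sel (T : IT) (y : ℕ) (E : ℕ → Prop) (r l : ℕ) : Prop := l < y ∨ (l ∈ T.uq r ∧ E l)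

open Classical in
/-- product of the selected primes of `r / A` -/
noncomputable def vN (T : IT) (y : ℕ) (E : ℕ → Prop) (A r : ℕ) : ℕ :=
  ∏ l ∈ (r / A).primeFactors.filter (sel T y E r), l

open Classical in
/-- product of the other primes of `r / A` -/
noncomputable def uN (T : IT) (y : ℕ) (E : ℕ → Prop) (A r : ℕ) : ℕ :=
  ∏ l ∈ (r / A).primeFactors.filter (fun l => ¬ sel T y E r l), l

section
variable {T : IT} {y : ℕ} {E : ℕ → Prop} {A r : ℕ}

lemma vN_pos : 0 < vN T y E A r := by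
  classical
  unfold vN
  exact Finset.prod_pos fun _ hl => (Nat.prime_of_mem_primeFactors (Finset.mem_filter.1 hl).1).pos

lemma uN_pos : 0 < uN T y E A r := by
  classical
  unfold uN
  exact Finset.prod_pos fun _ hl => (Nat.prime_of_mem_primeFactors (Finset.mem_filter.1 hl).1).pos

/-- **the decomposition** -/
lemma uN_mul_vN (h : Squarefree (r / A)) : uN T y E A r * vN T y E A r = r / A := by
  classical
  have h1 := Nat.prod_primeFactors_of_squarefree h
  conv_rhs => rw [← h1]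
  unfold uN vN
  rw [mul_comm]
  exact Finset.prod_filter_mul_prod_filter_not (r / A).primeFactors (sel T y E r) _

lemma vN_dvd (h : Squarefree (r / A)) : vN T y E A r ∣ r / A :=
  Dvd.intro_left _ (uN_mul_vN (T := T) (y := y) (E := E) h)

lemma uN_dvd (h : Squarefree (r / A)) : uN T y E A r ∣ r / A :=
  Dvd.intro _ (uN_mul_vN (T := T) (y := y) (E := E) h)

/-- a selected prime divides `vN` -/
lemma dvd_vN {l : ℕ} (h0 : r / A ≠ 0) (hl : l.Prime) (hd : l ∣ r / A) (hs : sel T y E r l) :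
    l ∣ vN T y E A r := by
  classical
  exact Finset.dvd_prod_of_mem _
    (Finset.mem_filter.2 ⟨Nat.mem_primeFactors.2 ⟨hl, hd, h0⟩, hs⟩)

/-- the primes of `vN` -/
lemma prime_dvd_vN {l : ℕ} (hl : l.Prime) (h : l ∣ vN T y E A r) :
    l ∣ r / A ∧ sel T y E r l := by
  classical
  unfold vN at h
  obtain ⟨c, hc, hlc⟩ := (hl.prime.dvd_finsetProd_iff _).1 h
  obtain ⟨h1, h2⟩ := Finset.mem_filter.1 hc
  have h3 := Nat.mem_primeFactors.1 h1
  have := (Nat.prime_dvd_prime_iff_eq hl h3.1).1 hlc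
  subst this
  exact ⟨h3.2.1, h2⟩

lemma prime_dvd_uN {l : ℕ} (hl : l.Prime) (h : l ∣ uN T y E A r) :
    l ∣ r / A ∧ ¬ sel T y E r l := by
  classical
  unfold uN at h
  obtain ⟨c, hc, hlc⟩ := (hl.prime.dvd_finsetProd_iff _).1 h
  obtain ⟨h1, h2⟩ := Finset.mem_filter.1 hc
  have h3 := Nat.mem_primeFactors.1 h1
  have := (Nat.prime_dvd_prime_iff_eq hl h3.1).1 hlc
  subst this
  exact ⟨h3.2.1, h2⟩

open Classical in
/-- **size of `vN`** -/
lemma vN_le {n : ℕ} (hO : T.Ok n) :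
    vN T y E A r ≤ pml y * ∏ l ∈ (T.uq r).filter E, l := by
  have hp1 : ∀ l ∈ (Finset.range y).filter Nat.Prime, 1 ≤ l := fun l hl =>
    (Finset.mem_filter.1 hl).2.pos
  have hp2 : ∀ l ∈ (T.uq r).filter E, 1 ≤ l := fun l hl =>
    (uq_lt hO (Finset.mem_filter.1 hl).1).1.pos
  unfold vN pml
  have h1 : (r / A).primeFactors.filter (sel T y E r) ⊆
      (Finset.range y).filter Nat.Prime ∪ (((T.uq r).filter E) \ (Finset.range y).filter Nat.Prime) := by
    intro l hl
    obtain ⟨h2, h3⟩ := Finset.mem_filter.1 hl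
    by_cases h4 : l < y
    · exact Finset.mem_union_left _ (Finset.mem_filter.2 ⟨Finset.mem_range.2 h4,
        Nat.prime_of_mem_primeFactors h2⟩)
    · refine Finset.mem_union_right _ (Finset.mem_sdiff.2 ⟨Finset.mem_filter.2
        (h3.resolve_left h4), fun h5 => h4 (Finset.mem_range.1 (Finset.mem_filter.1 h5).1)⟩)
  refine (Finset.prod_le_prod_of_subset_of_one_le' h1 fun l hl _ => ?_).trans ?_
  · rcases Finset.mem_union.1 hl with h2 | h2
    · exact hp1 l h2
    · exact hp2 l (Finset.mem_sdiff.1 h2).1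
  · rw [Finset.prod_union Finset.disjoint_sdiff]
    refine Nat.mul_le_mul_left _ ?_
    exact Finset.prod_le_prod_of_subset_of_one_le' Finset.sdiff_subset fun l hl _ => hp2 l hl

/-- **the flat weights are periodic modulo `vN`** -/
lemma flw_Wt_vN {good : Prop} {ret : Finset ℕ} {Tc : ℕ → Finset ℚ} {u : ℕ → ℤ → ℝ} {w : ℕ}
    (hw : w ∣ r / A) (h0 : r / A ≠ 0) (hu : LW w.primeFactors u) :
    Wt (vN T y E A r) (flw good ret Tc u w (sel T y E r)) := by
  classical
  refine flw_Wt hu fun l hl => ?_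
  obtain ⟨h1, h2⟩ := Finset.mem_filter.1 hl
  exact dvd_vN h0 (Nat.prime_of_mem_primeFactors h1)
    ((Nat.dvd_of_mem_primeFactors h1).trans hw) h2

end

/-! ### mates -/

section
variable {P : Bld532.Par} {W : ℕ → ℝ} {t' : IT} {u : NS} {τ : IT}

/-- equal rough parts: the same primes `≥ y` -/
lemma dvd_iff_of_rgh {y w w' : ℕ} (hw : w ≠ 0) (hw' : w' ≠ 0) (e : rgh y w = rgh y w') {l : ℕ}
    (hl : l.Prime) (hy : y ≤ l) : l ∣ w ↔ l ∣ w' := by
  have key : ∀ a b : ℕ, a ≠ 0 → rgh y a = rgh y b → l ∣ a → l ∣ b := by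
    intro a b ha e hd
    have h4 : l ∣ rgh y a := Finset.dvd_prod_of_mem _
      (Finset.mem_filter.2 ⟨Nat.mem_primeFactors.2 ⟨hl, hd, ha⟩, hy⟩)
    rw [e] at h4
    unfold rgh at h4
    obtain ⟨c, hc, hlc⟩ := (hl.prime.dvd_finsetProd_iff _).1 h4
    have h5 := Nat.mem_primeFactors.1 (Finset.mem_filter.1 hc).1
    have h6 := (Nat.prime_dvd_prime_iff_eq hl h5.1).1 hlc
    subst h6
    exact h5.2.1
  exact ⟨key w w' hw e, key w' w hw' e.symm⟩

/-- `pp t' r` is divisible by the product of the present ties of the cut node -/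
theorem NDt.A2_dvd (h : NDt P W t' u τ) {y : ℕ} (hyn : y ≤ u.n) {q r : ℕ}
    (hr : r ∈ (Step588.subt y τ q).items) : u.A * ppc y τ q ∣ pp t' r := by
  obtain ⟨m, c', -, h2⟩ := h.subt hyn q
  rw [h2.self.pp r hr]
  exact Dvd.intro _ rfl

/-- the leaf modulus divides `r / A2` -/
theorem NDt.w_dvd (h : NDt P W t' u τ) {y : ℕ} (hyn : y ≤ u.n) {q r : ℕ}
    (hr : r ∈ (Step588.subt y τ q).items) : r / pp t' r ∣ r / (u.A * ppc y τ q) := by
  obtain ⟨m, c', -, h2⟩ := h.subt hyn q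
  have h3 := h2.self.sub hr
  have e1 := h2.self.pp r hr
  have hr0 : 0 < r := Nat.pos_of_ne_zero (h.sq r h3).ne_zero
  have hpp0 : 0 < pp t' r := Nat.pos_of_dvd_of_pos (h.dvd r h3) hr0
  have e1' : pp t' r = (u.A * ppc y τ q) * pp (Step588.subt y τ q) r := e1
  have hA0 : 0 < u.A * ppc y τ q :=
    Nat.pos_of_ne_zero (by rintro h0; rw [e1', h0, zero_mul] at hpp0; omega)
  obtain ⟨k, hk⟩ := h.dvd r h3
  have e2 : r / pp t' r = k := Nat.div_eq_of_eq_mul_right hpp0 hk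
  have e4 : pp t' r * k = (u.A * ppc y τ q) * (pp (Step588.subt y τ q) r * k) := by rw [e1']; ring
  have e3 : r / (u.A * ppc y τ q) = pp (Step588.subt y τ q) r * k :=
    Nat.div_eq_of_eq_mul_right hA0 (hk.trans e4)
  rw [e2, e3]
  exact Dvd.intro_left _ rfl

/-- moduli of the cut node -/
theorem NDt.cut_ne (h : NDt P W t' u τ) {y : ℕ} (hyn : y ≤ u.n) {q r : ℕ}
    (hr : r ∈ (Step588.subt y τ q).items) : r / (u.A * ppc y τ q) ≠ 0 := by
  obtain ⟨m, c', -, h2⟩ := h.subt hyn q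
  exact h2.div_ne hr

theorem NDt.cut_sq (h : NDt P W t' u τ) {y : ℕ} (hyn : y ≤ u.n) {q r : ℕ}
    (hr : r ∈ (Step588.subt y τ q).items) : Squarefree (r / (u.A * ppc y τ q)) := by
  obtain ⟨m, c', -, h2⟩ := h.subt hyn q
  exact h2.sq_div hr

/-- **mates have the same `uN`** -/
theorem NDt.uN_eq (h : NDt P W t' u τ) {n : ℕ} (hO : t'.Ok n) {y : ℕ} (hyn : y ≤ u.n)
    (E : ℕ → Prop) {q r r' : ℕ} (hr : r ∈ (Step588.subt y τ q).items)
    (hr' : r' ∈ (Step588.subt y τ q).items)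
    (e : rgh y (r / (u.A * ppc y τ q)) = rgh y (r' / (u.A * ppc y τ q))) :
    uN t' y E (u.A * ppc y τ q) r = uN t' y E (u.A * ppc y τ q) r' := by
  classical
  have h1 := h.cut_ne hyn hr
  have h2 := h.cut_ne hyn hr'
  unfold uN
  refine Finset.prod_congr ?_ fun _ _ => rfl
  ext l
  simp only [Finset.mem_filter, Nat.mem_primeFactors, sel, not_or, not_lt]
  constructor
  · rintro ⟨⟨a1, a2, -⟩, a3, a4⟩
    exact ⟨⟨a1, (dvd_iff_of_rgh h1 h2 e a1 a3).1 a2, h2⟩, a3,
      fun h5 => a4 ⟨(h.uq_iff hO hyn hr hr' e a3).2 h5.1, h5.2⟩⟩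
  · rintro ⟨⟨a1, a2, -⟩, a3, a4⟩
    exact ⟨⟨a1, (dvd_iff_of_rgh h1 h2 e a1 a3).2 a2, h1⟩, a3,
      fun h5 => a4 ⟨(h.uq_iff hO hyn hr hr' e a3).1 h5.1, h5.2⟩⟩

/-- **hv of `item_step`**: `r / A2 = uN q * vN r` for the mates `r` of `q` -/
theorem NDt.uv (h : NDt P W t' u τ) {n : ℕ} (hO : t'.Ok n) {y : ℕ} (hyn : y ≤ u.n)
    (E : ℕ → Prop) {q r : ℕ} (hq : q ∈ τ.items) (hr : r ∈ (Step588.subt y τ q).items)
    (e : rgh y (r / (u.A * ppc y τ q)) = rgh y (q / (u.A * ppc y τ q))) :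
    r / (u.A * ppc y τ q) =
      uN t' y E (u.A * ppc y τ q) q * vN t' y E (u.A * ppc y τ q) r := by
  rw [← h.uN_eq hO hyn E hr (mem_subt y τ hq) e]
  exact (uN_mul_vN (h.cut_sq hyn hr)).symm

/-- **hNR of `item_step`** -/
theorem NDt.card_mates (h : NDt P W t' u τ) {y : ℕ} (hyn : y ≤ u.n) (q g : ℕ) :
    ((Step588.subt y τ q).items.filter fun r => rgh y (r / (u.A * ppc y τ q)) = g).card ≤ 2 ^ y := by
  obtain ⟨m, c', -, h2⟩ := h.subt hyn q
  exact h2.card_rel y g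

end

end Crest.Agent.R4.Step588
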