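import Crest.Agent.R4.ItemDT758
import Crest.Agent.R4.BldFit532
import Crest.Agent.R4.WalkS560
import Crest.Agent.R4.ClsB_944

/-!
R4 (S0004), helper579: item form of the states of the pair walk, and the common divisor `G` which
makes both sides of every state tame.
-/

set_option autoImplicit false
set_option linter.unusedSectionVars false
set_option linter.unusedVariables false

namespace Crest.Agent.R4.WalkIT579

open Crest.Agent.R4.Tour104 Crest.Agent.R4.Tour758 Crest.Agent.R4.Avg758 Crest.Agent.R4.Clos758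
open Crest.Agent.R4.ClosL758 Crest.Agent.R4.ClosG758 Crest.Agent.R4.ClosR758
open Crest.Agent.R4.Cnt588 Crest.Agent.R4.Walk560 Crest.Agent.R4.Item758
open Crest.Agent.R4.Bld532 (NS All NodeOk Bk)
open Crest.Agent.R4

/-! ### node facts -/

/-- node facts: builder facts, squarefree items, `up` primes of the node are among `U` -/
def NQ (P : Bld532.Par) (W : ℕ → ℝ) (U : ℕ → Finset ℕ) (u : NS) (τ : IT) : Prop :=
  Bld532.NodeOk P W u τ ∧ ∀ q ∈ τ.items, Squarefree q ∧ τ.uq q ⊆ U q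

/-- the retained primes of a node: a common set and `up` primes -/
def NG (U : ℕ → Finset ℕ) (u : NS) (τ : IT) : Prop :=
  ∃ SP : Finset ℕ, (∀ l ∈ SP, l.Prime ∧ u.n ≤ l) ∧
    (∀ l ∈ SP, ∀ q ∈ τ.items, l ∣ q / u.A) ∧
    ∀ q ∈ τ.items, ∀ l : ℕ, l.Prime → u.n ≤ l → l ∣ q / u.A → l ∈ SP ∨ l ∈ U q

lemma bk_of_nodeOk {P : Bld532.Par} {W : ℕ → ℝ} {u : NS} {τ : IT} (h : Bld532.NodeOk P W u τ) :
    Bk τ.items u := by
  cases τ with
  | leaf S => exact h.1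
  | br p t₁ t₀ => exact h.2.2.2.2.1
  | add b t₁ t₀ => exact h.2.2.2.2.1
  | up b Sp t => exact h.2.2.2.2.1

/-- top column of an item tree -/
def tp : IT → ℕ
  | .leaf _ => 0
  | .br p _ _ => p
  | .add b _ _ => b
  | .up b _ _ => b

def isL : IT → Prop
  | .leaf _ => True
  | _ => False

/-- the top column is the largest prime below the level -/
lemma top_of_nodeOk {P : Bld532.Par} {W : ℕ → ℝ} {u : NS} {τ : IT} (h : Bld532.NodeOk P W u τ)
    (hl : ¬ isL τ) : (tp τ).Prime ∧ tp τ < u.n ∧ ∀ r : ℕ, r.Prime → r < u.n → r ≤ tp τ := by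
  cases τ with
  | leaf S => exact absurd trivial hl
  | br p t₁ t₀ => exact ⟨h.1, h.2.1, h.2.2.2.1⟩
  | add b t₁ t₀ => exact ⟨h.1, h.2.1, h.2.2.2.1⟩
  | up b Sp t => exact ⟨h.1, h.2.1, h.2.2.2.1⟩

lemma tp_eq {P : Bld532.Par} {W : ℕ → ℝ} {u u' : NS} {τ τ' : IT} (h : Bld532.NodeOk P W u τ)
    (h' : Bld532.NodeOk P W u' τ') (hl : ¬ isL τ) (hl' : ¬ isL τ') (hn : u.n = u'.n) :
    tp τ = tp τ' := by
  obtain ⟨a1, a2, a3⟩ := top_of_nodeOk h hl
  obtain ⟨b1, b2, b3⟩ := top_of_nodeOk h' hl'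
  exact le_antisymm (b3 _ a1 (hn ▸ a2)) (a3 _ b1 (hn ▸ b2))

/-- a prime at least the top column is the top column or at least the level -/
lemma prime_ge {P : Bld532.Par} {W : ℕ → ℝ} {u : NS} {τ : IT} (h : Bld532.NodeOk P W u τ)
    (hl : ¬ isL τ) {l : ℕ} (hl' : l.Prime) (hp : tp τ ≤ l) : l = tp τ ∨ u.n ≤ l := by
  obtain ⟨a1, a2, a3⟩ := top_of_nodeOk h hl
  rcases lt_or_ge l u.n with h1 | h1
  · exact Or.inl (le_antisymm (a3 _ hl' h1) hp)
  · exact Or.inr h1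

/-- `q / (A p)` when `p ∣ q` -/
lemma div_mul_p {q A p : ℕ} (hA : A * p ∣ q) (hq : 0 < q) : q / A = p * (q / (A * p)) := by
  obtain ⟨k, rfl⟩ := hA
  have hAp : 0 < A * p := Nat.pos_of_ne_zero fun h => by simp [h] at hq
  have hA0 : 0 < A := Nat.pos_of_mul_pos_right hAp
  rw [Nat.mul_div_cancel_left k hAp, mul_assoc, Nat.mul_div_cancel_left _ hA0]

lemma dvd_div_of {l q A : ℕ} (hA : A ∣ q) (hc : Nat.Coprime l A) (h : l ∣ q) : l ∣ q / A := by
  obtain ⟨k, rfl⟩ := hA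
  rcases Nat.eq_zero_or_pos A with h0 | h0
  · subst h0; simp
  · rw [Nat.mul_div_cancel_left k h0]
    exact hc.dvd_of_dvd_mul_left h

lemma dvd_of_div {l q A : ℕ} (hA : A ∣ q) (h : l ∣ q / A) : l ∣ q := by
  exact h.trans (Nat.div_dvd_of_dvd hA)

/-- present child: new quotients -/
lemma child_dvd {q A p l : ℕ} (hA : A * p ∣ q) (hq : Squarefree q) (hl : l.Prime) (hp : p.Prime)
    (hne : l ≠ p) : l ∣ q / A ↔ l ∣ q / (A * p) := by
  have hq0 : 0 < q := Nat.pos_of_ne_zero hq.ne_zero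
  rw [div_mul_p hA hq0]
  constructor
  · intro h
    rcases (Nat.Prime.dvd_mul hl).1 h with h1 | h1
    · exact absurd ((Nat.prime_dvd_prime_iff_eq hl hp).1 h1) hne
    · exact h1
  · intro h; exact Dvd.dvd.mul_left h _

lemma child_not {q A p : ℕ} (hA : A * p ∣ q) (hq : Squarefree q) (hp : p.Prime) :
    ¬ p ∣ q / (A * p) := by
  have hq0 : 0 < q := Nat.pos_of_ne_zero hq.ne_zero
  intro h
  obtain ⟨k, hk⟩ := h
  have e := div_mul_p hA hq0
  have h2 : p * p ∣ q := by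
    have h3 : p * p ∣ q / A := by rw [e, hk]; exact ⟨k, by ring⟩
    exact h3.trans (Nat.div_dvd_of_dvd ((Dvd.intro _ rfl).trans hA))
  have := hq p h2
  exact hp.one_lt.ne' (Nat.isUnit_iff.1 this)

/-! ### retained primes of a node -/

/-- step: present child of a tie -/
lemma NG_present {U : ℕ → Finset ℕ} {P : Bld532.Par} {W : ℕ → ℝ} {u : NS} {p : ℕ} {t₁ t₀ : IT}
    (h : Bld532.NodeOk P W u (.br p t₁ t₀)) (hs : ∀ q ∈ (IT.br p t₁ t₀).items, Squarefree q)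
    (hG : NG U u (.br p t₁ t₀)) {c : ℝ} : NG U ⟨p, c, u.A * p, u.B⟩ t₁ := by
  obtain ⟨SP, h1, h2, h3⟩ := hG
  have hk := bk_of_nodeOk h
  obtain ⟨hp, hn, -, hmax, -, hi1, hi0, -⟩ := h
  have hd : ∀ q ∈ t₁.items, u.A * p ∣ q ∧ Squarefree q ∧ q ∈ (IT.br p t₁ t₀).items := by
    intro q hq
    have hm : q ∈ (IT.br p t₁ t₀).items := Finset.mem_union_left _ hq
    refine ⟨?_, hs q hm, hm⟩
    have h4 : q ∈ Bld532.pr p (t₁.items ∪ t₀.items) := hi1 ▸ hq
    exact Nat.Coprime.mul_dvd_of_dvd_of_dvd (hk.copA hp hn).symm (hk.dvd q hm)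
      (Bld532.mem_pr.1 h4).2
  refine ⟨SP, fun l hl => ⟨(h1 l hl).1, hn.le.trans (h1 l hl).2⟩, fun l hl q hq => ?_,
    fun q hq l hl hle hlq => ?_⟩
  · obtain ⟨a1, a2, a3⟩ := hd q hq
    have hne : l ≠ p := fun e => absurd (h1 l hl).2 (not_le.2 (e ▸ hn))
    exact (child_dvd a1 a2 (h1 l hl).1 hp hne).1 (h2 l hl q a3)
  · obtain ⟨a1, a2, a3⟩ := hd q hq
    have hne : l ≠ p := fun e => child_not a1 a2 hp (e ▸ hlq)
    have hge : u.n ≤ l := by
      rcases lt_or_ge l u.n with h5 | h5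
      · exact absurd (le_antisymm (hmax l hl h5) hle) hne
      · exact h5
    exact h3 q a3 l hl hge ((child_dvd a1 a2 hl hp hne).2 hlq)

/-- step: missing child of a tie -/
lemma NG_missing {U : ℕ → Finset ℕ} {P : Bld532.Par} {W : ℕ → ℝ} {u : NS} {p : ℕ} {t₁ t₀ : IT}
    (h : Bld532.NodeOk P W u (.br p t₁ t₀)) 
    (hG : NG U u (.br p t₁ t₀)) {c : ℝ} : NG U ⟨p, c, u.A, u.B * p⟩ t₀ := by
  obtain ⟨SP, h1, h2, h3⟩ := hG
  have hk := bk_of_nodeOk h
  obtain ⟨hp, hn, -, hmax, -, hi1, hi0, -⟩ := h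
  have hd : ∀ q ∈ t₀.items, ¬ p ∣ q ∧ q ∈ (IT.br p t₁ t₀).items := by
    intro q hq
    have hm : q ∈ (IT.br p t₁ t₀).items := Finset.mem_union_right _ hq
    have h4 : q ∈ Bld532.ms p (t₁.items ∪ t₀.items) := hi0 ▸ hq
    exact ⟨(Bld532.mem_ms.1 h4).2, hm⟩
  refine ⟨SP, fun l hl => ⟨(h1 l hl).1, hn.le.trans (h1 l hl).2⟩,
    fun l hl q hq => h2 l hl q (hd q hq).2, fun q hq l hl hle hlq => ?_⟩
  obtain ⟨a1, a3⟩ := hd q hq
  have hne : l ≠ p := fun e => a1 (e ▸ dvd_of_div (hk.dvd q a3) hlq)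
  have hge : u.n ≤ l := by
    rcases lt_or_ge l u.n with h5 | h5
    · exact absurd (le_antisymm (hmax l hl h5) hle) hne
    · exact h5
  exact h3 q a3 l hl hge hlq

/-- step: children of a SEP node -/
lemma NG_add {U : ℕ → Finset ℕ} {P : Bld532.Par} {W : ℕ → ℝ} {u : NS} {p : ℕ} {t₁ t₀ : IT}
    (h : Bld532.NodeOk P W u (.add p t₁ t₀)) 
    (hG : NG U u (.add p t₁ t₀)) {c : ℝ} :
    NG U ⟨p, c, u.A, u.B⟩ t₁ ∧ NG U ⟨p, c, u.A, u.B⟩ t₀ := by
  obtain ⟨SP, h1, h2, h3⟩ := hG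
  have hk := bk_of_nodeOk h
  obtain ⟨hp, hn, -, hmax, -, hi1, hi0, -⟩ := h
  constructor
  · have hd : ∀ q ∈ t₁.items, p ∣ q / u.A ∧ q ∈ (IT.add p t₁ t₀).items := by
      intro q hq
      have hm : q ∈ (IT.add p t₁ t₀).items := Finset.mem_union_left _ hq
      have h4 : q ∈ Bld532.pr p (t₁.items ∪ t₀.items) := hi1 ▸ hq
      exact ⟨dvd_div_of (hk.dvd q hm) (hk.copA hp hn) (Bld532.mem_pr.1 h4).2, hm⟩
    refine ⟨insert p SP, fun l hl => ?_, fun l hl q hq => ?_, fun q hq l hl hle hlq => ?_⟩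
    · rcases Finset.mem_insert.1 hl with rfl | hl
      · exact ⟨hp, le_rfl⟩
      · exact ⟨(h1 l hl).1, hn.le.trans (h1 l hl).2⟩
    · rcases Finset.mem_insert.1 hl with rfl | hl
      · exact (hd q hq).1
      · exact h2 l hl q (hd q hq).2
    · rcases lt_or_ge l u.n with h5 | h5
      · exact Or.inl (Finset.mem_insert.2 (Or.inl (le_antisymm (hmax l hl h5) hle)))
      · rcases h3 q (hd q hq).2 l hl h5 hlq with h6 | h6
        · exact Or.inl (Finset.mem_insert_of_mem h6)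
        · exact Or.inr h6
  · have hd : ∀ q ∈ t₀.items, ¬ p ∣ q ∧ q ∈ (IT.add p t₁ t₀).items := by
      intro q hq
      have hm : q ∈ (IT.add p t₁ t₀).items := Finset.mem_union_right _ hq
      have h4 : q ∈ Bld532.ms p (t₁.items ∪ t₀.items) := hi0 ▸ hq
      exact ⟨(Bld532.mem_ms.1 h4).2, hm⟩
    refine ⟨SP, fun l hl => ⟨(h1 l hl).1, hn.le.trans (h1 l hl).2⟩,
      fun l hl q hq => h2 l hl q (hd q hq).2, fun q hq l hl hle hlq => ?_⟩
    obtain ⟨a1, a3⟩ := hd q hq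
    have hne : l ≠ p := fun e => a1 (e ▸ dvd_of_div (hk.dvd q a3) hlq)
    have hge : u.n ≤ l := by
      rcases lt_or_ge l u.n with h5 | h5
      · exact absurd (le_antisymm (hmax l hl h5) hle) hne
      · exact h5
    exact h3 q a3 l hl hge hlq

/-- an `up` node: the prime of an item is an `up` prime -/
lemma up_mem {U : ℕ → Finset ℕ} {P : Bld532.Par} {W : ℕ → ℝ} {u : NS} {p : ℕ} {Sp : Finset ℕ}
    {t : IT} (h : NQ P W U u (.up p Sp t)) {q : ℕ} (hq : q ∈ t.items) (hd : p ∣ q) : p ∈ U q := by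
  obtain ⟨⟨hp, hn, -, hmax, -, hSp, -⟩, h2⟩ := h
  have h3 : q ∈ Sp := by rw [hSp]; exact Bld532.mem_pr.2 ⟨hq, hd⟩
  apply (h2 q hq).2
  show p ∈ if q ∈ Sp then insert p (t.uq q) else t.uq q
  rw [if_pos h3]
  exact Finset.mem_insert_self _ _

/-- step: `up` node -/
lemma NG_up {U : ℕ → Finset ℕ} {P : Bld532.Par} {W : ℕ → ℝ} {u : NS} {p : ℕ} {Sp : Finset ℕ}
    {t : IT} (h : NQ P W U u (.up p Sp t)) (hG : NG U u (.up p Sp t)) {c : ℝ} :
    NG U ⟨p, c, u.A, u.B⟩ t := by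
  obtain ⟨SP, h1, h2, h3⟩ := hG
  have hk := bk_of_nodeOk h.1
  have hmax := h.1.2.2.2.1
  have hn := h.1.2.1
  refine ⟨SP, fun l hl => ⟨(h1 l hl).1, hn.le.trans (h1 l hl).2⟩,
    fun l hl q hq => h2 l hl q hq, fun q hq l hl hle hlq => ?_⟩
  rcases lt_or_ge l u.n with h5 | h5
  · have e : l = p := le_antisymm (hmax l hl h5) hle
    refine Or.inr ?_
    rw [e]
    exact up_mem h hq (e ▸ dvd_of_div (hk.dvd q hq) hlq)
  · exact h3 q hq l hl h5 hlq

/-- **retained primes at every node** -/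
theorem All_NG {P : Bld532.Par} {W : ℕ → ℝ} {U : ℕ → Finset ℕ} (τ : IT) : ∀ u : NS,
    All (NQ P W U) u τ → NG U u τ → All (fun u τ => NQ P W U u τ ∧ NG U u τ) u τ := by
  induction τ with
  | leaf S => intro u h hG; exact ⟨h, hG⟩
  | br p t₁ t₀ ih₁ ih₀ =>
    intro u h hG
    exact ⟨⟨h.1, hG⟩, ih₁ _ h.2.1 (NG_present h.1.1 (fun q hq => (h.1.2 q hq).1) hG),
      ih₀ _ h.2.2 (NG_missing h.1.1 hG)⟩
  | add b t₁ t₀ ih₁ ih₀ =>
    intro u h hG
    exact ⟨⟨h.1, hG⟩, ih₁ _ h.2.1 (NG_add h.1.1 hG).1, ih₀ _ h.2.2 (NG_add h.1.1 hG).2⟩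
  | up b Sp t ih =>
    intro u h hG
    exact ⟨⟨h.1, hG⟩, ih _ h.2 (NG_up h.1 hG)⟩

/-- `up` primes of a subnode are `up` primes of the tree -/
theorem All_uq {P : Bld532.Par} {W : ℕ → ℝ} {U : ℕ → Finset ℕ} (τ : IT) : ∀ u : NS,
    All (Bld532.NodeOk P W) u τ → (∀ q ∈ τ.items, Squarefree q) → (∀ q ∈ τ.items, τ.uq q ⊆ U q) →
    All (NQ P W U) u τ := by
  induction τ with
  | leaf S => intro u h hs hU; exact ⟨h, fun q hq => ⟨hs q hq, hU q hq⟩⟩
  | br p t₁ t₀ ih₁ ih₀ =>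
    intro u h hs hU
    have hh := h.1
    obtain ⟨hp, hn, -, hmax, -, hi1, hi0, -⟩ := hh
    have hd : Disjoint t₁.items t₀.items := by
      have := Bld532.disj_pr_ms p (t₁.items ∪ t₀.items)
      rwa [← hi1, ← hi0] at this
    refine ⟨⟨h.1, fun q hq => ⟨hs q hq, hU q hq⟩⟩,
      ih₁ _ h.2.1 (fun q hq => hs q (Finset.mem_union_left _ hq)) (fun q hq => ?_),
      ih₀ _ h.2.2 (fun q hq => hs q (Finset.mem_union_right _ hq)) (fun q hq => ?_)⟩
    · have h1 := hU q (Finset.mem_union_left _ hq)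
      have h2 : q ∉ t₀.items := Finset.disjoint_left.1 hd hq
      have e : (IT.br p t₁ t₀).uq q = t₁.uq q := if_neg h2
      rwa [e] at h1
    · have h1 := hU q (Finset.mem_union_right _ hq)
      have e : (IT.br p t₁ t₀).uq q = t₀.uq q := if_pos hq
      rwa [e] at h1
  | add p t₁ t₀ ih₁ ih₀ =>
    intro u h hs hU
    have hh := h.1
    obtain ⟨hp, hn, -, hmax, -, hi1, hi0, -⟩ := hh
    have hd : Disjoint t₁.items t₀.items := by
      have := Bld532.disj_pr_ms p (t₁.items ∪ t₀.items)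
      rwa [← hi1, ← hi0] at this
    refine ⟨⟨h.1, fun q hq => ⟨hs q hq, hU q hq⟩⟩,
      ih₁ _ h.2.1 (fun q hq => hs q (Finset.mem_union_left _ hq)) (fun q hq => ?_),
      ih₀ _ h.2.2 (fun q hq => hs q (Finset.mem_union_right _ hq)) (fun q hq => ?_)⟩
    · have h1 := hU q (Finset.mem_union_left _ hq)
      have h2 : q ∉ t₀.items := Finset.disjoint_left.1 hd hq
      have e : (IT.add p t₁ t₀).uq q = t₁.uq q := if_neg h2
      rwa [e] at h1
    · have h1 := hU q (Finset.mem_union_right _ hq)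
      have e : (IT.add p t₁ t₀).uq q = t₀.uq q := if_pos hq
      rwa [e] at h1
  | up p Sp t ih =>
    intro u h hs hU
    refine ⟨⟨h.1, fun q hq => ⟨hs q hq, hU q hq⟩⟩, ih _ h.2 hs (fun q hq => ?_)⟩
    have h1 := hU q hq
    refine Finset.Subset.trans ?_ h1
    show t.uq q ⊆ if q ∈ Sp then insert p (t.uq q) else t.uq q
    split_ifs
    · exact Finset.subset_insert _ _
    · exact Finset.Subset.refl _

/-! ### one side of a state -/

section side
variable {Λ κ : Type*} [Fintype Λ] [DecidableEq Λ] [Fintype κ] [DecidableEq κ] [WRel κ]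

/-- retained primes of one side of a state: `S` items, `a` = present ties, `M` = averaging modulus -/
structure GS (D : Par Λ κ) (U : ℕ → Finset ℕ) (n a : ℕ) (S : Finset ℕ) (M : ℕ) (A : Finset Λ)
    (SP : Finset ℕ) : Prop where
  c : ∀ l ∈ SP, ∀ j ∈ A, D.it j ∈ S → l ∣ D.it j / a
  r : ∀ j ∈ A, D.it j ∈ S → ∀ l : ℕ, l.Prime → n ≤ l → l ∣ D.it j / a →
    l ∈ SP ∨ l ∣ M ∨ l ∈ U (D.it j)

variable {D : Par Λ κ} {U : ℕ → Finset ℕ} {P : Bld532.Par} {W : ℕ → ℝ} {u : NS} {p : ℕ}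
  {t₁ t₀ t : IT} {M : ℕ} {A : Finset Λ} {SP : Finset ℕ}

lemma GS.monoA {n a : ℕ} {S : Finset ℕ} (h : GS D U n a S M A SP) {A' : Finset Λ} (hA : A' ⊆ A) :
    GS D U n a S M A' SP :=
  ⟨fun l hl j hj => h.c l hl j (hA hj), fun j hj => h.r j (hA hj)⟩

lemma GS.monoM {n a : ℕ} {S : Finset ℕ} (h : GS D U n a S M A SP) {M' : ℕ} (hM : M ∣ M') :
    GS D U n a S M' A SP :=
  ⟨h.c, fun j hj hjS l hl hn hd => by
    rcases h.r j hj hjS l hl hn hd with h1 | h1 | h1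
    · exact Or.inl h1
    · exact Or.inr (Or.inl (h1.trans hM))
    · exact Or.inr (Or.inr h1)⟩

lemma GS.present (h : GS D U u.n u.A (IT.br p t₁ t₀).items M A SP)
    (hq : NQ P W U u (.br p t₁ t₀)) (hSP : ∀ l ∈ SP, l.Prime ∧ u.n ≤ l) :
    GS D U p (u.A * p) t₁.items M A SP := by
  have hk := bk_of_nodeOk hq.1
  obtain ⟨⟨hp, hn, -, hmax, -, hi1, hi0, -⟩, hs⟩ := hq
  have hd : ∀ q ∈ t₁.items, u.A * p ∣ q ∧ Squarefree q ∧ q ∈ (IT.br p t₁ t₀).items := by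
    intro q hq
    have hm : q ∈ (IT.br p t₁ t₀).items := Finset.mem_union_left _ hq
    refine ⟨?_, (hs q hm).1, hm⟩
    have h4 : q ∈ Bld532.pr p (t₁.items ∪ t₀.items) := hi1 ▸ hq
    exact Nat.Coprime.mul_dvd_of_dvd_of_dvd (hk.copA hp hn).symm (hk.dvd q hm)
      (Bld532.mem_pr.1 h4).2
  refine ⟨fun l hl j hj hjS => ?_, fun j hj hjS l hl hle hlq => ?_⟩
  · obtain ⟨a1, a2, a3⟩ := hd _ hjS
    have hne : l ≠ p := fun e => absurd (hSP l hl).2 (not_le.2 (e ▸ hn))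
    exact (child_dvd a1 a2 (hSP l hl).1 hp hne).1 (h.c l hl j hj a3)
  · obtain ⟨a1, a2, a3⟩ := hd _ hjS
    have hne : l ≠ p := fun e => child_not a1 a2 hp (e ▸ hlq)
    have hge : u.n ≤ l := by
      rcases lt_or_ge l u.n with h5 | h5
      · exact absurd (le_antisymm (hmax l hl h5) hle) hne
      · exact h5
    exact h.r j hj a3 l hl hge ((child_dvd a1 a2 hl hp hne).2 hlq)

lemma GS.missing (h : GS D U u.n u.A (IT.br p t₁ t₀).items M A SP)
    (hq : NQ P W U u (.br p t₁ t₀)) : GS D U p u.A t₀.items M A SP := by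
  have hk := bk_of_nodeOk hq.1
  obtain ⟨⟨hp, hn, -, hmax, -, hi1, hi0, -⟩, hs⟩ := hq
  have hd : ∀ q ∈ t₀.items, ¬ p ∣ q ∧ q ∈ (IT.br p t₁ t₀).items := by
    intro q hq
    have h4 : q ∈ Bld532.ms p (t₁.items ∪ t₀.items) := hi0 ▸ hq
    exact ⟨(Bld532.mem_ms.1 h4).2, Finset.mem_union_right _ hq⟩
  refine ⟨fun l hl j hj hjS => h.c l hl j hj (hd _ hjS).2, fun j hj hjS l hl hle hlq => ?_⟩
  obtain ⟨a1, a3⟩ := hd _ hjS
  have hne : l ≠ p := fun e => a1 (e ▸ dvd_of_div (hk.dvd _ a3) hlq)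
  have hge : u.n ≤ l := by
    rcases lt_or_ge l u.n with h5 | h5
    · exact absurd (le_antisymm (hmax l hl h5) hle) hne
    · exact h5
  exact h.r j hj a3 l hl hge hlq

lemma GS.add1M (h : GS D U u.n u.A (IT.add p t₁ t₀).items M A SP)
    (hq : NQ P W U u (.add p t₁ t₀)) : GS D U p u.A t₁.items (p * M) A SP := by
  have hmax := hq.1.2.2.2.1
  refine ⟨fun l hl j hj hjS => h.c l hl j hj (Finset.mem_union_left _ hjS),
    fun j hj hjS l hl hle hlq => ?_⟩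
  rcases lt_or_ge l u.n with h5 | h5
  · have e : l = p := le_antisymm (hmax l hl h5) hle
    exact Or.inr (Or.inl (e ▸ Dvd.intro _ rfl))
  · rcases h.r j hj (Finset.mem_union_left _ hjS) l hl h5 hlq with h1 | h1 | h1
    · exact Or.inl h1
    · exact Or.inr (Or.inl (Dvd.dvd.mul_left h1 _))
    · exact Or.inr (Or.inr h1)

lemma GS.add1 (h : GS D U u.n u.A (IT.add p t₁ t₀).items M A SP)
    (hq : NQ P W U u (.add p t₁ t₀)) : GS D U p u.A t₁.items M A (insert p SP) := by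
  have hk := bk_of_nodeOk hq.1
  obtain ⟨⟨hp, hn, -, hmax, -, hi1, hi0, -⟩, hs⟩ := hq
  have hd : ∀ q ∈ t₁.items, p ∣ q / u.A := by
    intro q hq
    have hm : q ∈ (IT.add p t₁ t₀).items := Finset.mem_union_left _ hq
    have h4 : q ∈ Bld532.pr p (t₁.items ∪ t₀.items) := hi1 ▸ hq
    exact dvd_div_of (hk.dvd q hm) (hk.copA hp hn) (Bld532.mem_pr.1 h4).2
  refine ⟨fun l hl j hj hjS => ?_, fun j hj hjS l hl hle hlq => ?_⟩
  · rcases Finset.mem_insert.1 hl with rfl | hl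
    · exact hd _ hjS
    · exact h.c l hl j hj (Finset.mem_union_left _ hjS)
  · rcases lt_or_ge l u.n with h5 | h5
    · exact Or.inl (Finset.mem_insert.2 (Or.inl (le_antisymm (hmax l hl h5) hle)))
    · rcases h.r j hj (Finset.mem_union_left _ hjS) l hl h5 hlq with h1 | h1 | h1
      · exact Or.inl (Finset.mem_insert_of_mem h1)
      · exact Or.inr (Or.inl h1)
      · exact Or.inr (Or.inr h1)

lemma GS.add0 (h : GS D U u.n u.A (IT.add p t₁ t₀).items M A SP)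
    (hq : NQ P W U u (.add p t₁ t₀)) : GS D U p u.A t₀.items M A SP := by
  have hk := bk_of_nodeOk hq.1
  obtain ⟨⟨hp, hn, -, hmax, -, hi1, hi0, -⟩, hs⟩ := hq
  refine ⟨fun l hl j hj hjS => h.c l hl j hj (Finset.mem_union_right _ hjS),
    fun j hj hjS l hl hle hlq => ?_⟩
  have hm : D.it j ∈ (IT.add p t₁ t₀).items := Finset.mem_union_right _ hjS
  have h4 : D.it j ∈ Bld532.ms p (t₁.items ∪ t₀.items) := hi0 ▸ hjS
  have hne : l ≠ p := fun e => (Bld532.mem_ms.1 h4).2 (e ▸ dvd_of_div (hk.dvd _ hm) hlq)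
  have hge : u.n ≤ l := by
    rcases lt_or_ge l u.n with h5 | h5
    · exact absurd (le_antisymm (hmax l hl h5) hle) hne
    · exact h5
  exact h.r j hj hm l hl hge hlq

lemma GS.up {Sp : Finset ℕ} (h : GS D U u.n u.A (IT.up p Sp t).items M A SP)
    (hq : NQ P W U u (.up p Sp t)) : GS D U p u.A t.items M A SP := by
  have hk := bk_of_nodeOk hq.1
  have hmax := hq.1.2.2.2.1
  refine ⟨fun l hl j hj hjS => h.c l hl j hj hjS, fun j hj hjS l hl hle hlq => ?_⟩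
  rcases lt_or_ge l u.n with h5 | h5
  · have e : l = p := le_antisymm (hmax l hl h5) hle
    refine Or.inr (Or.inr ?_)
    rw [e]
    exact up_mem hq hjS (e ▸ dvd_of_div (hk.dvd _ hjS) hlq)
  · exact h.r j hj hjS l hl h5 hlq

lemma GS.upI {Sp : Finset ℕ} (h : GS D U u.n u.A (IT.up p Sp t).items M A SP)
    (hq : NQ P W U u (.up p Sp t)) {B : Finset Λ} (hB : ∀ j ∈ B, p ∣ D.it j) :
    GS D U p u.A t.items M (A ∩ B) (insert p SP) := by
  have hk := bk_of_nodeOk hq.1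
  have hp := hq.1.1
  have hn := hq.1.2.1
  have h1 := h.up hq
  refine ⟨fun l hl j hj hjS => ?_, fun j hj hjS l hl hle hlq => ?_⟩
  · rcases Finset.mem_insert.1 hl with rfl | hl
    · exact dvd_div_of (hk.dvd _ hjS) (hk.copA hp hn) (hB j (Finset.mem_inter.1 hj).2)
    · exact h1.c l hl j (Finset.mem_inter.1 hj).1 hjS
  · rcases h1.r j (Finset.mem_inter.1 hj).1 hjS l hl hle hlq with h2 | h2 | h2
    · exact Or.inl (Finset.mem_insert_of_mem h2)
    · exact Or.inr (Or.inl h2)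
    · exact Or.inr (Or.inr h2)

/-! ### states -/

lemma toDT_top (D : Par Λ κ) (sp : ℕ → Finset Λ) (b pr : ℕ) (τ : IT) :
    (D.toDT sp b pr τ).top = tp τ := by
  cases τ <;> rfl

lemma toDT_leaf (D : Par Λ κ) (sp : ℕ → Finset Λ) (b pr : ℕ) (τ : IT) :
    (D.toDT sp b pr τ).isLeaf ↔ isL τ := by
  cases τ <;> exact Iff.rfl

/-- **item form of a state** -/
structure IS (D : Par Λ κ) (sp : ℕ → Finset Λ) (P : Bld532.Par) (W : ℕ → ℝ) (U : ℕ → Finset ℕ)
    (s : St Λ κ) (u u' : NS) (τ τ' : IT) : Prop where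
  n_eq : u.n = u'.n
  tL : s.t = D.toDT sp u.B u.A τ
  tR : s.t' = D.toDT sp u'.B u'.A τ'
  qL : All (NQ P W U) u τ
  qR : All (NQ P W U) u' τ'
  circ : u.A * u.B * s.M = u'.A * u'.B * s.M'
  geM : ∀ l : ℕ, l.Prime → l ∣ s.M → u.n ≤ l
  geM' : ∀ l : ℕ, l.Prime → l ∣ s.M' → u.n ≤ l
  G : ∃ SP : Finset ℕ, (∀ l ∈ SP, l.Prime ∧ u.n ≤ l ∧ ¬ l ∣ s.M ∧ ¬ l ∣ s.M') ∧
    GS D U u.n u.A τ.items s.M s.A SP ∧ GS D U u'.n u'.A τ'.items s.M' s.A' SP

/-- the self states -/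
theorem IS_self {sp : ℕ → Finset Λ} {τ : IT} (h : All (NQ P W U) u τ) (hG : NG U u τ)
    (A : Finset Λ) : IS D sp P W U (selfSt (D.toDT sp u.B u.A τ) A) u u τ τ where
  n_eq := rfl
  tL := rfl
  tR := rfl
  qL := h
  qR := h
  circ := rfl
  geM := fun l hl h1 => absurd (Nat.dvd_one.1 h1) hl.one_lt.ne'
  geM' := fun l hl h1 => absurd (Nat.dvd_one.1 h1) hl.one_lt.ne'
  G := by
    obtain ⟨SP, h1, h2, h3⟩ := hG
    refine ⟨SP, fun l hl => ⟨(h1 l hl).1, (h1 l hl).2, fun h => (h1 l hl).1.one_lt.ne' (Nat.dvd_one.1 h),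
      fun h => (h1 l hl).1.one_lt.ne' (Nat.dvd_one.1 h)⟩, ?_, ?_⟩ <;>
    exact ⟨fun l hl j hj hjS => h2 l hl _ hjS, fun j hj hjS l hl hn hd => by
      rcases h3 _ hjS l hl hn hd with h4 | h4
      · exact Or.inl h4
      · exact Or.inr (Or.inr h4)⟩

lemma max_self' (p : ℕ) : max p p = p := max_self p

section nx
variable {stp : St Λ κ → Prop}

lemma nxt_br_br {M M' : ℕ} {O O' : Finset ℕ} {R : Finset (Λ × Λ)} {A A' : Finset Λ} {p : ℕ}
    {w w' : ℝ} {r r' : Λ → κ} {t₁ t₀ t₁' t₀' : DT Λ κ} {v v' : Λ → ℝ → ℝ} {B G B' G' : κ → ℝ → ℝ}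
    {q : ℝ × St Λ κ}
    (hq : q ∈ nxt stp ⟨M, M', O, O', R, .br p w r t₁ t₀ v B G, A, .br p w' r' t₁' t₀' v' B' G', A'⟩) :
    q.2 = ⟨M, M', O, O', Ro r, t₁, A, t₁', A'⟩ ∨ q.2 = ⟨M, M', O, O', Ro r, t₁, A, t₀', A'⟩ ∨
    q.2 = ⟨M, M', O, O', Ro r, t₀, A, t₁', A'⟩ ∨ q.2 = ⟨M, M', O, O', Ro r, t₀, A, t₀', A'⟩ := by
  unfold nxt at hq
  split_ifs at hq with h1 h2
  · simp at hq
  · simp at hq
  simp only [St.p, DT.top, max_self, vw, if_true, List.mem_cons, List.not_mem_nil, or_false] at hq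
  rcases hq with rfl | rfl | rfl | rfl <;> simp

lemma nxt_br_up {M M' : ℕ} {O O' : Finset ℕ} {R : Finset (Λ × Λ)} {A A' : Finset Λ} {p : ℕ}
    {w : ℝ} {r : Λ → κ} {t₁ t₀ t' : DT Λ κ} {v : Λ → ℝ → ℝ} {B G : κ → ℝ → ℝ} {Sp : Finset Λ}
    {q : ℝ × St Λ κ}
    (hq : q ∈ nxt stp ⟨M, M', O, O', R, .br p w r t₁ t₀ v B G, A, .up p Sp t', A'⟩) :
    q.2 = ⟨M, p * M', insert p O, O', Ro r, t₁, A, t', A'⟩ ∨
    q.2 = ⟨M, p * M', insert p O, O', Ro r, t₀, A, t', A'⟩ := by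
  unfold nxt at hq
  split_ifs at hq with h1 h2
  · simp at hq
  · simp at hq
  simp only [St.p, DT.top, max_self, vw, if_true, List.mem_cons, List.not_mem_nil, or_false] at hq
  rcases hq with rfl | rfl <;> simp

lemma nxt_up_br {M M' : ℕ} {O O' : Finset ℕ} {R : Finset (Λ × Λ)} {A A' : Finset Λ} {p : ℕ}
    {w : ℝ} {r : Λ → κ} {t₁ t₀ t' : DT Λ κ} {v : Λ → ℝ → ℝ} {B G : κ → ℝ → ℝ} {Sp : Finset Λ}
    {q : ℝ × St Λ κ}
    (hq : q ∈ nxt stp ⟨M, M', O, O', R, .up p Sp t', A, .br p w r t₁ t₀ v B G, A'⟩) :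
    q.2 = ⟨p * M, M', O, insert p O', Ro r, t', A, t₁, A'⟩ ∨
    q.2 = ⟨p * M, M', O, insert p O', Ro r, t', A, t₀, A'⟩ := by
  unfold nxt at hq
  split_ifs at hq with h1 h2
  · simp at hq
  · simp at hq
  simp only [St.p, DT.top, max_self, vw, if_true, List.mem_cons, List.not_mem_nil, or_false] at hq
  rcases hq with rfl | rfl <;> simp

lemma nxt_br_add {M M' : ℕ} {O O' : Finset ℕ} {R : Finset (Λ × Λ)} {A A' : Finset Λ} {p : ℕ}
    {w : ℝ} {r r' : Λ → κ} {t₁ t₀ t₁' t₀' : DT Λ κ} {v : Λ → ℝ → ℝ} {B G : κ → ℝ → ℝ}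
    {q : ℝ × St Λ κ}
    (hq : q ∈ nxt stp ⟨M, M', O, O', R, .br p w r t₁ t₀ v B G, A, .add p r' t₁' t₀', A'⟩) :
    q.2 = ⟨M, p * M', O, O', Ro r, t₁, A, t₁', A'⟩ ∨
    q.2 = ⟨M, p * M', O, O', Ro r, t₀, A, t₁', A'⟩ := by
  unfold nxt at hq
  split_ifs at hq with h1 h2
  · simp at hq
  · simp at hq
  simp only [St.p, DT.top, max_self, vw, if_true, List.mem_cons, List.not_mem_nil, or_false] at hq
  rcases hq with rfl | rfl <;> simp

lemma nxt_add_br {M M' : ℕ} {O O' : Finset ℕ} {R : Finset (Λ × Λ)} {A A' : Finset Λ} {p : ℕ}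
    {w : ℝ} {r r' : Λ → κ} {t₁ t₀ t₁' t₀' : DT Λ κ} {v : Λ → ℝ → ℝ} {B G : κ → ℝ → ℝ}
    {q : ℝ × St Λ κ}
    (hq : q ∈ nxt stp ⟨M, M', O, O', R, .add p r' t₁' t₀', A, .br p w r t₁ t₀ v B G, A'⟩) :
    q.2 = ⟨p * M, M', O, O', Ro r, t₁', A, t₁, A'⟩ ∨
    q.2 = ⟨p * M, M', O, O', Ro r, t₁', A, t₀, A'⟩ := by
  unfold nxt at hq
  split_ifs at hq with h1 h2
  · simp at hq
  · simp at hq
  simp only [St.p, DT.top, max_self, vw, if_true, List.mem_cons, List.not_mem_nil, or_false] at hq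
  rcases hq with rfl | rfl <;> simp

lemma nxt_add_add {M M' : ℕ} {O O' : Finset ℕ} {R : Finset (Λ × Λ)} {A A' : Finset Λ} {p : ℕ}
    {r r' : Λ → κ} {t₁ t₀ t₁' t₀' : DT Λ κ} {q : ℝ × St Λ κ}
    (hq : q ∈ nxt stp ⟨M, M', O, O', R, .add p r t₁ t₀, A, .add p r' t₁' t₀', A'⟩) :
    q.2 = ⟨M, M', O, O', R, t₁, A, t₁', A'⟩ ∨ q.2 = ⟨M, M', O, O', R, t₀, A, t₀', A'⟩ := by
  unfold nxt at hq
  split_ifs at hq with h1 h2
  · simp at hq
  · simp at hq
  simp only [St.p, DT.top, max_self, vw, if_true, List.mem_cons, List.not_mem_nil, or_false] at hq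
  rcases hq with rfl | rfl <;> simp

lemma nxt_add_up {M M' : ℕ} {O O' : Finset ℕ} {R : Finset (Λ × Λ)} {A A' : Finset Λ} {p : ℕ}
    {r : Λ → κ} {t₁ t₀ t' : DT Λ κ} {Sp : Finset Λ} {q : ℝ × St Λ κ}
    (hq : q ∈ nxt stp ⟨M, M', O, O', R, .add p r t₁ t₀, A, .up p Sp t', A'⟩) :
    q.2 = ⟨M, M', O, O', R, t₁, A, t', A' ∩ Sp⟩ ∨ q.2 = ⟨M, M', O, O', R, t₀, A, t', A' \ Sp⟩ := by
  unfold nxt at hq
  split_ifs at hq with h1 h2
  · simp at hq
  · simp at hq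
  simp only [St.p, DT.top, max_self, vw, if_true, List.mem_cons, List.not_mem_nil, or_false] at hq
  rcases hq with rfl | rfl <;> simp

lemma nxt_up_add {M M' : ℕ} {O O' : Finset ℕ} {R : Finset (Λ × Λ)} {A A' : Finset Λ} {p : ℕ}
    {r : Λ → κ} {t₁ t₀ t' : DT Λ κ} {Sp : Finset Λ} {q : ℝ × St Λ κ}
    (hq : q ∈ nxt stp ⟨M, M', O, O', R, .up p Sp t', A, .add p r t₁ t₀, A'⟩) :
    q.2 = ⟨M, M', O, O', R, t', A ∩ Sp, t₁, A'⟩ ∨ q.2 = ⟨M, M', O, O', R, t', A \ Sp, t₀, A'⟩ := by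
  unfold nxt at hq
  split_ifs at hq with h1 h2
  · simp at hq
  · simp at hq
  simp only [St.p, DT.top, max_self, vw, if_true, List.mem_cons, List.not_mem_nil, or_false] at hq
  rcases hq with rfl | rfl <;> simp

lemma nxt_up_up {M M' : ℕ} {O O' : Finset ℕ} {R : Finset (Λ × Λ)} {A A' : Finset Λ} {p : ℕ}
    {t t' : DT Λ κ} {Sp Sp' : Finset Λ} {q : ℝ × St Λ κ}
    (hq : q ∈ nxt stp ⟨M, M', O, O', R, .up p Sp t, A, .up p Sp' t', A'⟩) :
    q.2 = ⟨M, M', O, O', R, t, A, t', A'⟩ := by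
  unfold nxt at hq
  split_ifs at hq with h1 h2
  · simp at hq
  · simp at hq
  simp only [St.p, DT.top, max_self, vw, if_true, List.mem_cons, List.not_mem_nil, or_false] at hq
  subst hq; simp

end nx

/-- side conditions on the common retained primes -/
def Cnd (n : ℕ) (SP : Finset ℕ) (M M' : ℕ) : Prop :=
  ∀ l ∈ SP, l.Prime ∧ n ≤ l ∧ ¬ l ∣ M ∧ ¬ l ∣ M'

lemma Cnd.down {n M M' : ℕ} (h : Cnd n SP M M') (hp : p < n) : Cnd p SP M M' :=
  fun l hl => ⟨(h l hl).1, hp.le.trans (h l hl).2.1, (h l hl).2.2⟩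

lemma not_dvd_mul {n l M : ℕ} (hl : l.Prime) (hp : p.Prime) (hpn : p < n) (hn : n ≤ l)
    (h : ¬ l ∣ M) : ¬ l ∣ p * M := by
  intro h1
  rcases (Nat.Prime.dvd_mul hl).1 h1 with h2 | h2
  · have := (Nat.prime_dvd_prime_iff_eq hl hp).1 h2
    omega
  · exact h h2

lemma Cnd.mulL {n M M' : ℕ} (h : Cnd n SP M M') (hp : p < n) (hpp : p.Prime) :
    Cnd p SP (p * M) M' :=
  fun l hl => ⟨(h l hl).1, hp.le.trans (h l hl).2.1,
    not_dvd_mul (h l hl).1 hpp hp (h l hl).2.1 (h l hl).2.2.1, (h l hl).2.2.2⟩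

lemma Cnd.mulR {n M M' : ℕ} (h : Cnd n SP M M') (hp : p < n) (hpp : p.Prime) :
    Cnd p SP M (p * M') :=
  fun l hl => ⟨(h l hl).1, hp.le.trans (h l hl).2.1, (h l hl).2.2.1,
    not_dvd_mul (h l hl).1 hpp hp (h l hl).2.1 (h l hl).2.2.2⟩

lemma Cnd.ins {n M M' : ℕ} (h : Cnd n SP M M') (hp : p < n) (hpp : p.Prime)
    (hM : ∀ l : ℕ, l.Prime → l ∣ M → n ≤ l) (hM' : ∀ l : ℕ, l.Prime → l ∣ M' → n ≤ l) :
    Cnd p (insert p SP) M M' := by
  intro l hl
  rcases Finset.mem_insert.1 hl with rfl | hl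
  · exact ⟨hpp, le_rfl, fun h => absurd (hM _ hpp h) (not_le.2 hp),
      fun h => absurd (hM' _ hpp h) (not_le.2 hp)⟩
  · exact ⟨(h l hl).1, hp.le.trans (h l hl).2.1, (h l hl).2.2⟩

lemma geM_mul {n M : ℕ} (hM : ∀ l : ℕ, l.Prime → l ∣ M → n ≤ l) (hp : p < n) (hpp : p.Prime) :
    ∀ l : ℕ, l.Prime → l ∣ p * M → p ≤ l := by
  intro l hl h
  rcases (Nat.Prime.dvd_mul hl).1 h with h2 | h2
  · exact ((Nat.prime_dvd_prime_iff_eq hl hpp).1 h2).ge
  · exact hp.le.trans (hM l hl h2)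

/-- states of the children -/
noncomputable abbrev nP (u : NS) (p : ℕ) : NS := ⟨p, u.c / (1 - 1 / (p : ℝ)), u.A * p, u.B⟩
noncomputable abbrev nM (u : NS) (p : ℕ) : NS := ⟨p, u.c * p, u.A, u.B * p⟩
noncomputable abbrev nS (u : NS) (p : ℕ) : NS := ⟨p, u.c, u.A, u.B⟩

set_option maxHeartbeats 1000000 in
/-- **item form is preserved by the walk** -/
theorem IS.next {stp : St Λ κ → Prop} {sp : ℕ → Finset Λ} (hsp : ∀ b, ∀ j ∈ sp b, b ∣ D.it j)
    {s : St Λ κ} {u u' : NS} {τ τ' : IT} (h : IS D sp P W U s u u' τ τ') :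
    ∀ q ∈ nxt stp s, ∃ (v v' : NS) (σ σ' : IT), IS D sp P W U q.2 v v' σ σ' ∧ v.n = s.p := by
  intro q hq
  obtain ⟨M, M', O, O', R, t, A, t', A'⟩ := s
  obtain ⟨hn, tL, tR, qL, qR, circ, geM, geM', SP, hSP, gL, gR⟩ := h
  simp only at tL tR circ geM geM' hSP gL gR
  subst tL tR
  have hc : Cnd u.n SP M M' := hSP
  cases τ with
  | leaf S =>
    exfalso
    have : nxt stp ⟨M, M', O, O', R, D.toDT sp u.B u.A (.leaf S), A, D.toDT sp u'.B u'.A τ', A'⟩
      = [] := by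
      unfold nxt; rw [if_pos]; exact Or.inl trivial
    rw [this] at hq; simp at hq
  | br p t₁ t₀ =>
    have n1 := qL.1
    obtain ⟨hp, hpn, hmax⟩ := top_of_nodeOk n1.1 (id : ¬ isL (.br p t₁ t₀))
    change p.Prime at hp; change p < u.n at hpn
    cases τ' with
    | leaf S =>
      exfalso
      have : nxt stp ⟨M, M', O, O', R, D.toDT sp u.B u.A (.br p t₁ t₀), A,
        D.toDT sp u'.B u'.A (.leaf S), A'⟩ = [] := by
        unfold nxt; rw [if_pos]; exact Or.inr trivial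
      rw [this] at hq; simp at hq
    | br p' t₁' t₀' =>
      have n2 := qR.1
      have e : p = p' := tp_eq n1.1 n2.1 id id hn
      subst e
      have es : St.p (⟨M, M', O, O', R, D.toDT sp u.B u.A (.br p t₁ t₀), A,
        D.toDT sp u'.B u'.A (.br p t₁' t₀'), A'⟩ : St Λ κ) = p := max_self p
      rw [es]
      have hpn' : p < u'.n := hn ▸ hpn
      have hge : ∀ l : ℕ, l.Prime → l ∣ M → p ≤ l := fun l hl h => hpn.le.trans (geM l hl h)
      have hge' : ∀ l : ℕ, l.Prime → l ∣ M' → p ≤ l := fun l hl h => hpn.le.trans (geM' l hl h)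
      have hcL := hc
      have g1 := gL.present n1 (fun l hl => ⟨(hc l hl).1, (hc l hl).2.1⟩)
      have g0 := gL.missing n1
      have g1' := gR.present n2 (fun l hl => ⟨(hc l hl).1, hn ▸ (hc l hl).2.1⟩)
      have g0' := gR.missing n2
      rcases nxt_br_br hq with h | h | h | h <;> rw [h]
      · exact ⟨nP u p, nP u' p, t₁, t₁', ⟨rfl, rfl, rfl, qL.2.1, qR.2.1,
          by show u.A * p * u.B * M = u'.A * p * u'.B * M'
             calc u.A * p * u.B * M = (u.A * u.B * M) * p := by ring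
               _ = (u'.A * u'.B * M') * p := by rw [circ]
               _ = _ := by ring, hge, hge', SP, hc.down hpn, g1, g1'⟩, rfl⟩
      · exact ⟨nP u p, nM u' p, t₁, t₀', ⟨rfl, rfl, rfl, qL.2.1, qR.2.2,
          by show u.A * p * u.B * M = u'.A * (u'.B * p) * M'
             calc u.A * p * u.B * M = (u.A * u.B * M) * p := by ring
               _ = (u'.A * u'.B * M') * p := by rw [circ]
               _ = _ := by ring, hge, hge', SP, hc.down hpn, g1, g0'⟩, rfl⟩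
      · exact ⟨nM u p, nP u' p, t₀, t₁', ⟨rfl, rfl, rfl, qL.2.2, qR.2.1,
          by show u.A * (u.B * p) * M = u'.A * p * u'.B * M'
             calc u.A * (u.B * p) * M = (u.A * u.B * M) * p := by ring
               _ = (u'.A * u'.B * M') * p := by rw [circ]
               _ = _ := by ring, hge, hge', SP, hc.down hpn, g0, g1'⟩, rfl⟩
      · exact ⟨nM u p, nM u' p, t₀, t₀', ⟨rfl, rfl, rfl, qL.2.2, qR.2.2,
          by show u.A * (u.B * p) * M = u'.A * (u'.B * p) * M'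
             calc u.A * (u.B * p) * M = (u.A * u.B * M) * p := by ring
               _ = (u'.A * u'.B * M') * p := by rw [circ]
               _ = _ := by ring, hge, hge', SP, hc.down hpn, g0, g0'⟩, rfl⟩
    | add p' t₁' t₀' =>
      have n2 := qR.1
      have e : p = p' := tp_eq n1.1 n2.1 id id hn
      subst e
      have es : St.p (⟨M, M', O, O', R, D.toDT sp u.B u.A (.br p t₁ t₀), A,
        D.toDT sp u'.B u'.A (.add p t₁' t₀'), A'⟩ : St Λ κ) = p := max_self p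
      rw [es]
      have hge : ∀ l : ℕ, l.Prime → l ∣ M → p ≤ l := fun l hl h => hpn.le.trans (geM l hl h)
      have g1 := gL.present n1 (fun l hl => ⟨(hc l hl).1, (hc l hl).2.1⟩)
      have g0 := gL.missing n1
      have g1' := gR.add1M n2
      rcases nxt_br_add hq with h | h <;> rw [h]
      · exact ⟨nP u p, nS u' p, t₁, t₁', ⟨rfl, rfl, rfl, qL.2.1, qR.2.1,
          by show u.A * p * u.B * M = u'.A * u'.B * (p * M')
             calc u.A * p * u.B * M = (u.A * u.B * M) * p := by ring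
               _ = (u'.A * u'.B * M') * p := by rw [circ]
               _ = _ := by ring, hge, geM_mul geM' hpn hp, SP, hc.mulR hpn hp, g1, g1'⟩, rfl⟩
      · exact ⟨nM u p, nS u' p, t₀, t₁', ⟨rfl, rfl, rfl, qL.2.2, qR.2.1,
          by show u.A * (u.B * p) * M = u'.A * u'.B * (p * M')
             calc u.A * (u.B * p) * M = (u.A * u.B * M) * p := by ring
               _ = (u'.A * u'.B * M') * p := by rw [circ]
               _ = _ := by ring, hge, geM_mul geM' hpn hp, SP, hc.mulR hpn hp, g0, g1'⟩, rfl⟩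
    | up p' Sp' t' =>
      have n2 := qR.1
      have e : p = p' := tp_eq n1.1 n2.1 id id hn
      subst e
      have es : St.p (⟨M, M', O, O', R, D.toDT sp u.B u.A (.br p t₁ t₀), A,
        D.toDT sp u'.B u'.A (.up p Sp' t'), A'⟩ : St Λ κ) = p := max_self p
      rw [es]
      have hge : ∀ l : ℕ, l.Prime → l ∣ M → p ≤ l := fun l hl h => hpn.le.trans (geM l hl h)
      have g1 := gL.present n1 (fun l hl => ⟨(hc l hl).1, (hc l hl).2.1⟩)
      have g0 := gL.missing n1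
      have g1' := (gR.up n2).monoM (Dvd.intro_left p rfl)
      rcases nxt_br_up hq with h | h <;> rw [h]
      · exact ⟨nP u p, nS u' p, t₁, t', ⟨rfl, rfl, rfl, qL.2.1, qR.2,
          by show u.A * p * u.B * M = u'.A * u'.B * (p * M')
             calc u.A * p * u.B * M = (u.A * u.B * M) * p := by ring
               _ = (u'.A * u'.B * M') * p := by rw [circ]
               _ = _ := by ring, hge, geM_mul geM' hpn hp, SP, hc.mulR hpn hp, g1, g1'⟩, rfl⟩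
      · exact ⟨nM u p, nS u' p, t₀, t', ⟨rfl, rfl, rfl, qL.2.2, qR.2,
          by show u.A * (u.B * p) * M = u'.A * u'.B * (p * M')
             calc u.A * (u.B * p) * M = (u.A * u.B * M) * p := by ring
               _ = (u'.A * u'.B * M') * p := by rw [circ]
               _ = _ := by ring, hge, geM_mul geM' hpn hp, SP, hc.mulR hpn hp, g0, g1'⟩, rfl⟩
  | add p t₁ t₀ =>
    have n1 := qL.1
    obtain ⟨hp, hpn, hmax⟩ := top_of_nodeOk n1.1 (id : ¬ isL (.add p t₁ t₀))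
    change p.Prime at hp; change p < u.n at hpn
    cases τ' with
    | leaf S =>
      exfalso
      have : nxt stp ⟨M, M', O, O', R, D.toDT sp u.B u.A (.add p t₁ t₀), A,
        D.toDT sp u'.B u'.A (.leaf S), A'⟩ = [] := by
        unfold nxt; rw [if_pos]; exact Or.inr trivial
      rw [this] at hq; simp at hq
    | br p' t₁' t₀' =>
      have n2 := qR.1
      have e : p = p' := tp_eq n1.1 n2.1 id id hn
      subst e
      have es : St.p (⟨M, M', O, O', R, D.toDT sp u.B u.A (.add p t₁ t₀), A,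
        D.toDT sp u'.B u'.A (.br p t₁' t₀'), A'⟩ : St Λ κ) = p := max_self p
      rw [es]
      have hge' : ∀ l : ℕ, l.Prime → l ∣ M' → p ≤ l := fun l hl h => hpn.le.trans (geM' l hl h)
      have g1 := gL.add1M n1
      have g1' := gR.present n2 (fun l hl => ⟨(hc l hl).1, hn ▸ (hc l hl).2.1⟩)
      have g0' := gR.missing n2
      rcases nxt_add_br hq with h | h <;> rw [h]
      · exact ⟨nS u p, nP u' p, t₁, t₁', ⟨rfl, rfl, rfl, qL.2.1, qR.2.1,
          by show u.A * u.B * (p * M) = u'.A * p * u'.B * M'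
             calc u.A * u.B * (p * M) = (u.A * u.B * M) * p := by ring
               _ = (u'.A * u'.B * M') * p := by rw [circ]
               _ = _ := by ring, geM_mul geM hpn hp, hge', SP, hc.mulL hpn hp, g1, g1'⟩, rfl⟩
      · exact ⟨nS u p, nM u' p, t₁, t₀', ⟨rfl, rfl, rfl, qL.2.1, qR.2.2,
          by show u.A * u.B * (p * M) = u'.A * (u'.B * p) * M'
             calc u.A * u.B * (p * M) = (u.A * u.B * M) * p := by ring
               _ = (u'.A * u'.B * M') * p := by rw [circ]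
               _ = _ := by ring, geM_mul geM hpn hp, hge', SP, hc.mulL hpn hp, g1, g0'⟩, rfl⟩
    | add p' t₁' t₀' =>
      have n2 := qR.1
      have e : p = p' := tp_eq n1.1 n2.1 id id hn
      subst e
      have es : St.p (⟨M, M', O, O', R, D.toDT sp u.B u.A (.add p t₁ t₀), A,
        D.toDT sp u'.B u'.A (.add p t₁' t₀'), A'⟩ : St Λ κ) = p := max_self p
      rw [es]
      have hge : ∀ l : ℕ, l.Prime → l ∣ M → p ≤ l := fun l hl h => hpn.le.trans (geM l hl h)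
      have hge' : ∀ l : ℕ, l.Prime → l ∣ M' → p ≤ l := fun l hl h => hpn.le.trans (geM' l hl h)
      rcases nxt_add_add hq with h | h <;> rw [h]
      · exact ⟨nS u p, nS u' p, t₁, t₁', ⟨rfl, rfl, rfl, qL.2.1, qR.2.1, circ, hge, hge', insert p SP,
          hc.ins hpn hp geM geM', gL.add1 n1, gR.add1 n2⟩, rfl⟩
      · exact ⟨nS u p, nS u' p, t₀, t₀', ⟨rfl, rfl, rfl, qL.2.2, qR.2.2, circ, hge, hge', SP,
          hc.down hpn, gL.add0 n1, gR.add0 n2⟩, rfl⟩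
    | up p' Sp' t' =>
      have n2 := qR.1
      have e : p = p' := tp_eq n1.1 n2.1 id id hn
      subst e
      have es : St.p (⟨M, M', O, O', R, D.toDT sp u.B u.A (.add p t₁ t₀), A,
        D.toDT sp u'.B u'.A (.up p Sp' t'), A'⟩ : St Λ κ) = p := max_self p
      rw [es]
      have hge : ∀ l : ℕ, l.Prime → l ∣ M → p ≤ l := fun l hl h => hpn.le.trans (geM l hl h)
      have hge' : ∀ l : ℕ, l.Prime → l ∣ M' → p ≤ l := fun l hl h => hpn.le.trans (geM' l hl h)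
      rcases nxt_add_up hq with h | h <;> rw [h]
      · exact ⟨nS u p, nS u' p, t₁, t', ⟨rfl, rfl, rfl, qL.2.1, qR.2, circ, hge, hge', insert p SP,
          hc.ins hpn hp geM geM', gL.add1 n1, gR.upI n2 (hsp p)⟩, rfl⟩
      · exact ⟨nS u p, nS u' p, t₀, t', ⟨rfl, rfl, rfl, qL.2.2, qR.2, circ, hge, hge', SP,
          hc.down hpn, gL.add0 n1, (gR.up n2).monoA Finset.sdiff_subset⟩, rfl⟩
  | up p Sp t =>
    have n1 := qL.1
    obtain ⟨hp, hpn, hmax⟩ := top_of_nodeOk n1.1 (id : ¬ isL (.up p Sp t))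
    change p.Prime at hp; change p < u.n at hpn
    cases τ' with
    | leaf S =>
      exfalso
      have : nxt stp ⟨M, M', O, O', R, D.toDT sp u.B u.A (.up p Sp t), A,
        D.toDT sp u'.B u'.A (.leaf S), A'⟩ = [] := by
        unfold nxt; rw [if_pos]; exact Or.inr trivial
      rw [this] at hq; simp at hq
    | br p' t₁' t₀' =>
      have n2 := qR.1
      have e : p = p' := tp_eq n1.1 n2.1 id id hn
      subst e
      have es : St.p (⟨M, M', O, O', R, D.toDT sp u.B u.A (.up p Sp t), A,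
        D.toDT sp u'.B u'.A (.br p t₁' t₀'), A'⟩ : St Λ κ) = p := max_self p
      rw [es]
      have hge' : ∀ l : ℕ, l.Prime → l ∣ M' → p ≤ l := fun l hl h => hpn.le.trans (geM' l hl h)
      have g1 := (gL.up n1).monoM (Dvd.intro_left p rfl)
      have g1' := gR.present n2 (fun l hl => ⟨(hc l hl).1, hn ▸ (hc l hl).2.1⟩)
      have g0' := gR.missing n2
      rcases nxt_up_br hq with h | h <;> rw [h]
      · exact ⟨nS u p, nP u' p, t, t₁', ⟨rfl, rfl, rfl, qL.2, qR.2.1,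
          by show u.A * u.B * (p * M) = u'.A * p * u'.B * M'
             calc u.A * u.B * (p * M) = (u.A * u.B * M) * p := by ring
               _ = (u'.A * u'.B * M') * p := by rw [circ]
               _ = _ := by ring, geM_mul geM hpn hp, hge', SP, hc.mulL hpn hp, g1, g1'⟩, rfl⟩
      · exact ⟨nS u p, nM u' p, t, t₀', ⟨rfl, rfl, rfl, qL.2, qR.2.2,
          by show u.A * u.B * (p * M) = u'.A * (u'.B * p) * M'
             calc u.A * u.B * (p * M) = (u.A * u.B * M) * p := by ring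
               _ = (u'.A * u'.B * M') * p := by rw [circ]
               _ = _ := by ring, geM_mul geM hpn hp, hge', SP, hc.mulL hpn hp, g1, g0'⟩, rfl⟩
    | add p' t₁' t₀' =>
      have n2 := qR.1
      have e : p = p' := tp_eq n1.1 n2.1 id id hn
      subst e
      have es : St.p (⟨M, M', O, O', R, D.toDT sp u.B u.A (.up p Sp t), A,
        D.toDT sp u'.B u'.A (.add p t₁' t₀'), A'⟩ : St Λ κ) = p := max_self p
      rw [es]
      have hge : ∀ l : ℕ, l.Prime → l ∣ M → p ≤ l := fun l hl h => hpn.le.trans (geM l hl h)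
      have hge' : ∀ l : ℕ, l.Prime → l ∣ M' → p ≤ l := fun l hl h => hpn.le.trans (geM' l hl h)
      rcases nxt_up_add hq with h | h <;> rw [h]
      · exact ⟨nS u p, nS u' p, t, t₁', ⟨rfl, rfl, rfl, qL.2, qR.2.1, circ, hge, hge', insert p SP,
          hc.ins hpn hp geM geM', gL.upI n1 (hsp p), gR.add1 n2⟩, rfl⟩
      · exact ⟨nS u p, nS u' p, t, t₀', ⟨rfl, rfl, rfl, qL.2, qR.2.2, circ, hge, hge', SP,
          hc.down hpn, (gL.up n1).monoA Finset.sdiff_subset, gR.add0 n2⟩, rfl⟩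
    | up p' Sp' t' =>
      have n2 := qR.1
      have e : p = p' := tp_eq n1.1 n2.1 id id hn
      subst e
      have es : St.p (⟨M, M', O, O', R, D.toDT sp u.B u.A (.up p Sp t), A,
        D.toDT sp u'.B u'.A (.up p Sp' t'), A'⟩ : St Λ κ) = p := max_self p
      rw [es]
      have hge : ∀ l : ℕ, l.Prime → l ∣ M → p ≤ l := fun l hl h => hpn.le.trans (geM l hl h)
      have hge' : ∀ l : ℕ, l.Prime → l ∣ M' → p ≤ l := fun l hl h => hpn.le.trans (geM' l hl h)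
      have h := nxt_up_up hq
      rw [h]
      exact ⟨nS u p, nS u' p, t, t', ⟨rfl, rfl, rfl, qL.2, qR.2, circ, hge, hge', SP,
        hc.down hpn, gL.up n1, gR.up n2⟩, rfl⟩

/-! ### tameness -/

/-- one side -/
lemma GS.tame {n : ℕ} {M' : ℕ} {τ : IT} (hq : NQ P W U u τ) (hA : ∀ q ∈ τ.items, u.A ∣ q)
    (h : GS D U n u.A τ.items M A SP) (hSP : ∀ l ∈ SP, l.Prime ∧ ¬ l ∣ M) {j : Λ} (hj : j ∈ A)
    (hjS : D.it j ∈ τ.items) (hM : 0 < M) {y : ℝ} (hy : ∀ l : ℕ, l.Prime → y < l → n ≤ l)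
    (hU : ∑ l ∈ (U (D.it j)).filter (fun l : ℕ => y < (l : ℝ)), (1 : ℝ) / l ≤ y ^ (-(1 / 2 : ℝ))) :
    ClsB.Tame y (∏ l ∈ SP, l) (D.it j / u.A / M.gcd (D.it j / u.A)) := by
  classical
  set w : ℕ := D.it j / u.A with hw
  set z : ℕ := M.gcd w with hz
  set G : ℕ := ∏ l ∈ SP, l with hG
  have hsq : Squarefree (D.it j) := (hq.2 _ hjS).1
  have hwd : w ∣ D.it j := Nat.div_dvd_of_dvd (hA _ hjS)
  have hws : Squarefree w := hsq.squarefree_of_dvd hwd
  have hw0 : w ≠ 0 := hws.ne_zero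
  have hzw : z ∣ w := Nat.gcd_dvd_right _ _
  have hz0 : 0 < z := Nat.gcd_pos_of_pos_left _ hM
  have hGw : G ∣ w := Finset.prod_primes_dvd _ (fun l hl => (hSP l hl).1.prime)
    (fun l hl => h.c l hl j hj hjS)
  have hcop : Nat.Coprime G z := by
    apply Nat.Coprime.prod_left
    intro l hl
    exact (Nat.Prime.coprime_iff_not_dvd (hSP l hl).1).2 fun h1 =>
      (hSP l hl).2 (h1.trans (Nat.gcd_dvd_left _ _))
  have hwz : z * (w / z) = w := Nat.mul_div_cancel' hzw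
  have hGd : G ∣ w / z := by
    have : G ∣ z * (w / z) := by rw [hwz]; exact hGw
    exact hcop.dvd_of_dvd_mul_left this
  refine ⟨hGd, le_trans ?_ hU⟩
  apply Finset.sum_le_sum_of_subset_of_nonneg
  · intro l hl
    rw [Finset.mem_filter, Nat.mem_primeFactors] at hl
    obtain ⟨⟨hlp, hld, hl0⟩, hyl⟩ := hl
    rw [Finset.mem_filter]
    refine ⟨?_, hyl⟩
    have hGz : G * (w / z / G) = w / z := Nat.mul_div_cancel' hGd
    have hlwz : l ∣ w / z := hld.trans (Nat.div_dvd_of_dvd hGd)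
    have hlw : l ∣ w := hlwz.trans (Nat.div_dvd_of_dvd hzw)
    rcases h.r j hj hjS l hlp (hy l hlp hyl) hlw with h1 | h1 | h1
    · exfalso
      have h2 : l ∣ G := Finset.dvd_prod_of_mem _ h1
      have h3 : l * l ∣ w := by
        have : l * l ∣ G * (w / z / G) := mul_dvd_mul h2 hld
        rw [hGz] at this
        exact this.trans (Nat.div_dvd_of_dvd hzw)
      exact hlp.one_lt.ne' (Nat.isUnit_iff.1 (hws l h3))
    · exfalso
      have h2 : l ∣ z := Nat.dvd_gcd h1 hlw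
      have h3 : l * l ∣ w := by
        have : l * l ∣ z * (w / z) := mul_dvd_mul h2 hlwz
        rwa [hwz] at this
      exact hlp.one_lt.ne' (Nat.isUnit_iff.1 (hws l h3))
    · exact h1
  · intro _ _ _; positivity

/-- **common-`G` tameness of a state** (on the averaged circle) -/
theorem IS.tame {sp : ℕ → Finset Λ} {s : St Λ κ} {u u' : NS} {τ τ' : IT}
    (h : IS D sp P W U s u u' τ τ') (hM : 0 < s.M) (hM' : 0 < s.M') :
    ∃ G : ℕ, 0 < G ∧
      (∀ j ∈ s.A, D.it j ∈ τ.items → ∀ y : ℝ, (∀ l : ℕ, l.Prime → y < l → u.n ≤ l) →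
        ∑ l ∈ (U (D.it j)).filter (fun l : ℕ => y < (l : ℝ)), (1 : ℝ) / l ≤ y ^ (-(1 / 2 : ℝ)) →
        ClsB.Tame y G (D.it j / u.A / s.M.gcd (D.it j / u.A))) ∧
      (∀ j ∈ s.A', D.it j ∈ τ'.items → ∀ y : ℝ, (∀ l : ℕ, l.Prime → y < l → u.n ≤ l) →
        ∑ l ∈ (U (D.it j)).filter (fun l : ℕ => y < (l : ℝ)), (1 : ℝ) / l ≤ y ^ (-(1 / 2 : ℝ)) →
        ClsB.Tame y G (D.it j / u'.A / s.M'.gcd (D.it j / u'.A))) := by
  obtain ⟨SP, hSP, gL, gR⟩ := h.G
  have bL := bk_of_nodeOk h.qL.self.1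
  have bR := bk_of_nodeOk h.qR.self.1
  refine ⟨∏ l ∈ SP, l, Finset.prod_pos fun l hl => (hSP l hl).1.pos, ?_, ?_⟩
  · intro j hj hjS y hy hU
    exact gL.tame (M' := 0) h.qL.self bL.dvd (fun l hl => ⟨(hSP l hl).1, (hSP l hl).2.2.1⟩) hj hjS hM hy hU
  · intro j hj hjS y hy hU
    exact gR.tame (M' := 0) h.qR.self bR.dvd (fun l hl => ⟨(hSP l hl).1, (hSP l hl).2.2.2⟩) hj hjS hM'
      (fun l h1 h2 => h.n_eq ▸ hy l h1 h2) hU

/-- above the column of the state every prime is above the level -/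
lemma IS.level {sp : ℕ → Finset Λ} {s : St Λ κ} {u u' : NS} {τ τ' : IT}
    (h : IS D sp P W U s u u' τ τ') (hl : ¬ s.t.isLeaf) {y : ℝ} (hy : (s.p : ℝ) ≤ y) :
    ∀ l : ℕ, l.Prime → y < l → u.n ≤ l := by
  intro l hlp hyl
  have h1 : ¬ isL τ := by
    intro h2
    apply hl
    rw [h.tL]
    exact (toDT_leaf D sp _ _ τ).2 h2
  obtain ⟨-, -, h2⟩ := top_of_nodeOk h.qL.self.1 h1
  by_contra hc
  push Not at hc
  have h3 := h2 l hlp hc
  have h4 : tp τ ≤ s.p := by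
    rw [← toDT_top D sp u.B u.A τ, ← h.tL]
    exact le_max_left _ _
  have h5 : (l : ℝ) ≤ s.p := by exact_mod_cast h3.trans h4
  linarith

/-! ### walk sums with the item form as invariant -/

section ws
variable {wr : ℕ → Λ → κ} {Ad : TrG Λ κ → Finset Λ → Prop}
  {μ : TrG Λ κ → Finset Λ → ℝ} {ν : TrG Λ κ → ℝ} {stp : St Λ κ → Prop} {sp : ℕ → Finset Λ}

/-- invariant: 560's invariant and the item form -/
def II (D : Par Λ κ) (P : Bld532.Par) (W : ℕ → ℝ) (U : ℕ → Finset ℕ) (wr : ℕ → Λ → κ)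
    (Ad : TrG Λ κ → Finset Λ → Prop) (μ : TrG Λ κ → Finset Λ → ℝ) (ν : TrG Λ κ → ℝ)
    (sp : ℕ → Finset Λ) (s : St Λ κ) : Prop :=
  InvE wr Ad μ ν s ∧ ∃ (u u' : NS) (τ τ' : IT), IS D sp P W U s u u' τ τ'

lemma II.next (hsp : ∀ b, ∀ j ∈ sp b, b ∣ D.it j) {s : St Λ κ}
    (h : II D P W U wr Ad μ ν sp s) :
    ∀ q ∈ nxt stp s, II D P W U wr Ad μ ν sp q.2 ∧ 0 ≤ q.1 := by
  obtain ⟨h1, u, u', τ, τ', h2⟩ := h
  intro q hq
  obtain ⟨v, v', σ, σ', h3, -⟩ := h2.next hsp q hq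
  exact ⟨⟨(h1.next q hq).1, v, v', σ, σ', h3⟩, (h1.next q hq).2⟩

theorem WS_monoI (hsp : ∀ b, ∀ j ∈ sp b, b ∣ D.it j) {f g : St Λ κ → ℝ}
    (hfg : ∀ s, II D P W U wr Ad μ ν sp s → f s ≤ g s) {s : St Λ κ}
    (hs : II D P W U wr Ad μ ν sp s) : WS stp f s ≤ WS stp g s :=
  W_mono (Inv := II D P W U wr Ad μ ν sp) (fun s => nxt_rank stp s) (fun s hs => hs.next hsp)
    hfg s hs

theorem WS_le_superI (hsp : ∀ b, ∀ j ∈ sp b, b ∣ D.it j) {loc Φ : St Λ κ → ℝ}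
    (hΦ : ∀ s, II D P W U wr Ad μ ν sp s →
      loc s + ((nxt stp s).map fun q => q.1 * Φ q.2).sum ≤ Φ s)
    {s : St Λ κ} (hs : II D P W U wr Ad μ ν sp s) : WS stp loc s ≤ Φ s :=
  W_le_super (Inv := II D P W U wr Ad μ ν sp) (fun s => nxt_rank stp s)
    (fun s hs => hs.next hsp) hΦ s hs

theorem WS_levelI (hsp : ∀ b, ∀ j ∈ sp b, b ∣ D.it j) {loc Ψ : St Λ κ → ℝ} {ε : ℕ → ℝ}
    (hε : ∀ n, 0 ≤ ε n)
    (hΨ0 : ∀ s, II D P W U wr Ad μ ν sp s → 0 ≤ Ψ s)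
    (hΨ : ∀ s, II D P W U wr Ad μ ν sp s → ((nxt stp s).map fun q => q.1 * Ψ q.2).sum ≤ Ψ s)
    (hl : ∀ s, II D P W U wr Ad μ ν sp s → loc s ≤ ε s.p * Ψ s) {s : St Λ κ}
    (hs : II D P W U wr Ad μ ν sp s) :
    WS stp loc s ≤ (∑ k ∈ Finset.range (s.p + 1), ε k) * Ψ s :=
  W_level (Inv := II D P W U wr Ad μ ν sp) (P := St.p) (fun s => nxt_rank stp s)
    (fun s hs => hs.next hsp) hε hΨ0 hΨ (fun s ⟨⟨n, hs⟩, _⟩ => nxt_p hs) hl s hs

theorem WS_budgetI (hsp : ∀ b, ∀ j ∈ sp b, b ∣ D.it j) {loc Ψ a g : St Λ κ → ℝ}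
    (hΨ0 : ∀ s, II D P W U wr Ad μ ν sp s → 0 ≤ Ψ s)
    (hΨ : ∀ s, II D P W U wr Ad μ ν sp s → ((nxt stp s).map fun q => q.1 * Ψ q.2).sum ≤ Ψ s)
    (hl : ∀ s, II D P W U wr Ad μ ν sp s → loc s ≤ a s * Ψ s)
    (hg : ∀ s, II D P W U wr Ad μ ν sp s → ∀ q ∈ nxt stp s, a s + g q.2 ≤ g s)
    (hga : ∀ s, II D P W U wr Ad μ ν sp s → a s ≤ g s) {s : St Λ κ}
    (hs : II D P W U wr Ad μ ν sp s) : WS stp loc s ≤ g s * Ψ s :=
  W_budget (Inv := II D P W U wr Ad μ ν sp) (fun s => nxt_rank stp s)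
    (fun s hs => hs.next hsp) hΨ0 hΨ hl hg hga s hs

end ws

/-- the built tree satisfies all node facts -/
theorem bld_all (P : Bld532.Par) (W : ℕ → ℝ) (n : ℕ) (S : Finset ℕ) (hS : ∀ q ∈ S, Squarefree q)
    (hn : ∀ q ∈ S, ∀ l : ℕ, l.Prime → l ∣ q → l < n) :
    All (fun u τ => NQ P W (Bld532.bld P W n 1 S).uq u τ ∧
      NG (Bld532.bld P W n 1 S).uq u τ) ⟨n, 1, 1, 1⟩ (Bld532.bld P W n 1 S) := by
  have hit : (Bld532.bld P W n 1 S).items = S := Bld532.bld_items P W n 1 S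
  apply All_NG
  · exact All_uq _ _ (Bld532.bld_All_root P W n S) (by rw [hit]; exact hS)
      (fun q _ => Finset.Subset.refl _)
  · refine ⟨∅, by simp, by simp, fun q hq l hl hle hd => ?_⟩
    rw [hit] at hq
    have h1 : l ∣ q := hd.trans (Nat.div_dvd_of_dvd (one_dvd _))
    have h2 : n ≤ l := hle
    exact absurd (hn q hq l hl h1) (not_lt.2 h2)

end side

end Crest.Agent.R4.WalkIT579
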