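import Crest.Agent.R4.OmData532
import Crest.Agent.R4.WalkIT579

/-!
R4 (S0004), helper734: **shared leaf data** (modules J1, J2, OM).

* `lv`: level of the leaf of an item, `etaL`: width of the leaf cells,
* `stL`, `thL`, `phL`, `labL`: state, target, label radius, class label of an item at its leaf,
* `omL`: the leaf weights,
* `LeafF`: facts about a leaf of the built tree.
-/

set_option autoImplicit false
set_option linter.unusedSectionVars false

namespace Crest.Agent.R4.LfDat734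

open Crest.Agent.R4.Cnt588 Crest.Agent.R4.Item758 Crest.Agent.R4.W363 Crest.Agent.R4.LF363
open Crest.Agent.R4.Bld532 (NS All NodeOk Bk)
open Crest.Agent.R4.Data758 Crest.Agent.R4.OmData532 Crest.Agent.R4.Om532
open Crest.Agent.R4.Frame758 (LeafAll)
open Crest.Agent.R4.WalkIT579 (NQ NG)
open Crest.Agent.R4.Ovl560 (nw)
open Crest.Agent.R4.Piece464 (Wt)
open Crest.Agent.R4

/-! ### definitions -/

/-- level of the leaf of `q`: below all its columns -/
noncomputable def lv (t : IT) (n : ℕ) (q : ℕ) : ℕ := (Bld532.lst t ⟨n, 1, 1, 1⟩ q).n - 1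

/-- relative width of the cells at level `p` -/
noncomputable def etaL (P : WP) (p : ℕ) : ℝ := 2 / 2 ^ (P.dep p)

lemma etaL_pos (P : WP) (p : ℕ) : 0 < etaL P p := by unfold etaL; positivity

lemma exp_le_etaL (P : WP) (p : ℕ) : Real.exp (1 / 2 ^ (P.dep p)) - 1 ≤ etaL P p := by
  have h : (1 : ℝ) / 2 ^ (P.dep p) ≤ 1 := by
    rw [div_le_one (by positivity)]; exact one_le_pow₀ (by norm_num)
  have h0 : (0 : ℝ) ≤ 1 / 2 ^ (P.dep p) := by positivity
  set x : ℝ := 1 / 2 ^ (P.dep p) with hx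
  have e : etaL P p = 2 * x := by unfold etaL; rw [hx]; ring
  rw [e]
  have := Real.abs_exp_sub_one_le (x := x) (by rw [abs_of_nonneg h0]; exact h)
  rw [abs_of_nonneg h0] at this
  exact (le_abs_self _).trans this

open Classical in
/-- the label of the target `θ` at the radius `φ` (`none` if there is none) -/
noncomputable def lcl (θ φ : ℝ) : Option ℚ :=
  if h : ∃ ρ : ℚ, Lab θ φ ρ then some h.choose else none

lemma lcl_iff {θ φ : ℝ} {ρ : ℚ} : lcl θ φ = some ρ ↔ Lab θ φ ρ := by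
  classical
  unfold lcl
  constructor
  · intro h
    split_ifs at h with hex
    have := hex.choose_spec
    rwa [Option.some.inj h] at this
  · intro h
    have hex : ∃ ρ : ℚ, Lab θ φ ρ := ⟨ρ, h⟩
    rw [dif_pos hex, lab_unique hex.choose_spec h]

section
variable (P : WP) (γ : ℝ) (r : ℕ → ℝ) (t : IT) (l : ℕ → ℕ)

/-- state of an item at its leaf -/
noncomputable def stL (q : ℕ) : Option ℚ := P.st γ r t (l q) q

/-- target on the leaf circle -/
noncomputable def thL (q : ℕ) : ℝ := mp t q * γ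

open Classical in
/-- radius of the class label on the leaf circle -/
noncomputable def phL (q : ℕ) : ℝ :=
  if (stL P γ r t l q).isSome then mp t q * r q else etaL P (l q) * (mp t q * r q)

/-- class label on the leaf circle -/
noncomputable def labL (q : ℕ) : Option ℚ :=
  match stL P γ r t l q with
  | some σ => some (mp t q * σ)
  | none => lcl (mp t q * γ) (etaL P (l q) * (mp t q * r q))

variable {P γ r t l}

lemma phL_some {q : ℕ} {σ : ℚ} (h : stL P γ r t l q = some σ) :
    phL P γ r t l q = mp t q * r q := by unfold phL; rw [h]; simp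

lemma phL_none {q : ℕ} (h : stL P γ r t l q = none) :
    phL P γ r t l q = etaL P (l q) * (mp t q * r q) := by unfold phL; rw [h]; simp

lemma labL_some {q : ℕ} {σ : ℚ} (h : stL P γ r t l q = some σ) :
    labL P γ r t l q = some (mp t q * σ) := by unfold labL; rw [h]

lemma labL_none {q : ℕ} (h : stL P γ r t l q = none) :
    labL P γ r t l q = lcl (mp t q * γ) (etaL P (l q) * (mp t q * r q)) := by
  unfold labL; rw [h]

end

/-- **the leaf weights**: classes of the states at the columns (`wp`) and of the leaf label at the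
`up` primes, leaf rule at the leaf primes -/
noncomputable def omL (wp wpL : WP) (γ : ℝ) (r : ℕ → ℝ) (t : IT) (l : ℕ → ℕ) (S' : Finset ℕ) :
    ℕ → ℤ → ℝ :=
  omT t S' (TE wp γ r t t.uq (labL wpL γ r t l)) (thL γ t) (phL wpL γ r t l) (labL wpL γ r t l)

lemma card_omL (wp wpL : WP) (γ : ℝ) (r : ℕ → ℝ) (t : IT) (l : ℕ → ℕ) (q b : ℕ) :
    (TE wp γ r t t.uq (labL wpL γ r t l) q b).card ≤ 7 + ((t.mt q).filter (· ≤ b)).card :=
  (card_TE _ _ _ _ _ _ _ _).trans (by omega)

/-! ### the weights are below the leaf rule at the uncommon primes -/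

lemma cls_le_uw {l : ℕ} (hl : l.Prime) {T : Finset ℚ} {θ φ : ℝ} {lab : Option ℚ}
    (h : ∀ ρ, lab = some ρ → ρ ∈ T) (a : ℤ) :
    cls T l a ≤ uw θ φ lab l a * (1 - 1 / (l : ℝ))⁻¹ := by
  have h0 : 0 < 1 - 1 / (l : ℝ) := Crest.Agent.R4.Ovl560.one_sub_pos hl
  have h1 : 1 ≤ (1 - 1 / (l : ℝ))⁻¹ := by
    rw [one_le_inv₀ h0]; exact one_sub_le_one l
  cases lab with
  | none =>
    rw [uw_none, mul_inv_cancel₀ h0.ne']
    exact cls_le_one _ _ _
  | some ρ =>
    by_cases hA : Act θ φ ρ l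
    · rw [uw_act hA]
      split_ifs with hd
      · rw [zero_mul]
        exact (cls_eq_zero (h ρ rfl) hd).le
      · rw [one_mul]; exact (cls_le_one _ _ _).trans h1
    · rw [uw_not_act hA, mul_inv_cancel₀ h0.ne']
      exact cls_le_one _ _ _

/-- **the classes of the label are excluded at all the primes of `w1 = w / G`** -/
theorem omw_le_uw {good : Prop} {ret : Finset ℕ} {T : ℕ → Finset ℚ} {θ φ : ℝ} {lab : Option ℚ}
    {w G : ℕ} (hw : 0 < w) (hG : G ∣ w) (hGc : Nat.Coprime G (w / G))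
    (h : ∀ l ∈ (w / G).primeFactors, l ∈ ret → ∀ ρ, lab = some ρ → ρ ∈ T l)
    (hs : ∑ l ∈ (w / G).primeFactors.filter (· ∈ ret), (1 : ℝ) / l ≤ 1 / 2) (a : ℤ) :
    omw good ret T (uw θ φ lab) w a ≤ 2 * nw (w / G).primeFactors (uw θ φ lab) a := by
  classical
  have hLW : ∀ v : ℕ, Crest.Agent.R4.Ovl560.LW v.primeFactors (uw θ φ lab) := fun v => LW_uw _ _ _ _
  have hnn : 0 ≤ nw (w / G).primeFactors (uw θ φ lab) a :=
    Finset.prod_nonneg fun l hl => uw_nonneg _ _ _ (Nat.prime_of_mem_primeFactors hl) a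
  unfold omw
  split_ifs with hg
  swap
  · linarith
  have hG0 : 0 < G := Nat.pos_of_dvd_of_pos hG hw
  have hw1 : 0 < w / G := Nat.div_pos (Nat.le_of_dvd hw hG) hG0
  have e : w.primeFactors = G.primeFactors ∪ (w / G).primeFactors := by
    conv_lhs => rw [← Nat.mul_div_cancel' hG]
    exact Nat.primeFactors_mul hG0.ne' hw1.ne'
  have hd : Disjoint G.primeFactors (w / G).primeFactors := hGc.disjoint_primeFactors
  have hl0 : ∀ l ∈ w.primeFactors, 0 ≤ locw ret T (uw θ φ lab) l a := fun l hl =>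
    ((LW_locw (hLW w)) l hl).1 a
  have hl1 : ∀ l ∈ w.primeFactors, locw ret T (uw θ φ lab) l a ≤ 1 := fun l hl =>
    locw_le_one (fun l _ a => uw_le_one _ _ _ l a) l hl a
  have s1 : nw w.primeFactors (locw ret T (uw θ φ lab)) a ≤
      nw (w / G).primeFactors (locw ret T (uw θ φ lab)) a := by
    unfold nw
    rw [e, Finset.prod_union hd]
    refine mul_le_of_le_one_left ?_ ?_
    · exact Finset.prod_nonneg fun l hl => hl0 l (by rw [e]; exact Finset.mem_union_right _ hl)
    · exact Finset.prod_le_one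
        (fun l hl => hl0 l (by rw [e]; exact Finset.mem_union_left _ hl))
        fun l hl => hl1 l (by rw [e]; exact Finset.mem_union_left _ hl)
  refine s1.trans ?_
  set cc : ℕ → ℝ := fun l => if l ∈ ret then (1 - 1 / (l : ℝ))⁻¹ else 1 with hcc
  have s2 : nw (w / G).primeFactors (locw ret T (uw θ φ lab)) a ≤
      ∏ l ∈ (w / G).primeFactors, uw θ φ lab l a * cc l := by
    unfold nw
    refine Finset.prod_le_prod
      (fun l hl => hl0 l (by rw [e]; exact Finset.mem_union_right _ hl)) fun l hl => ?_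
    have hlp := Nat.prime_of_mem_primeFactors hl
    unfold locw
    simp only [hcc]
    split_ifs with hr
    · exact cls_le_uw hlp (h l hl hr) a
    · rw [mul_one]
  refine s2.trans ?_
  rw [Finset.prod_mul_distrib, mul_comm]
  refine mul_le_mul_of_nonneg_right ?_ hnn
  have e2 : ∏ l ∈ (w / G).primeFactors, cc l =
      (∏ l ∈ (w / G).primeFactors.filter (· ∈ ret), (1 - 1 / (l : ℝ)))⁻¹ := by
    rw [← Finset.prod_inv_distrib, Finset.prod_filter]
  rw [e2]
  have h3 : (1 : ℝ) / 2 ≤ ∏ l ∈ (w / G).primeFactors.filter (· ∈ ret), (1 - 1 / (l : ℝ)) := by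
    have := prod_one_sub_ge ((w / G).primeFactors.filter (· ∈ ret)) (fun l : ℕ => 1 / (l : ℝ))
      (fun l _ => by positivity) (fun l hl => by
        have hlp := Nat.prime_of_mem_primeFactors (Finset.mem_filter.1 hl).1
        have : (1 : ℝ) < l := by exact_mod_cast hlp.one_lt
        rw [div_le_one (by linarith)]; exact this.le)
    linarith
  rw [inv_le_comm₀ (by linarith) (by norm_num)]
  linarith

/-! ### leaves -/

theorem leafAll_of {F : ℕ → ℕ → Finset ℕ → Prop} {Q : NS → IT → Prop}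
    (h : ∀ u S, Q u (.leaf S) → F u.B u.A S) : ∀ (t : IT) (u : NS), All Q u t →
    LeafAll F u.B u.A t := by
  intro t
  induction t with
  | leaf S => intro u hu; exact h u S hu
  | br p t₁ t₀ ih₁ ih₀ => intro u hu; exact ⟨ih₁ _ hu.2.1, ih₀ _ hu.2.2⟩
  | add b t₁ t₀ ih₁ ih₀ =>
    intro u hu; exact ⟨ih₁ ⟨b, u.c, u.A, u.B⟩ hu.2.1, ih₀ ⟨b, u.c, u.A, u.B⟩ hu.2.2⟩
  | up b Sp t ih => intro u hu; exact ih ⟨b, u.c, u.A, u.B⟩ hu.2

/-- the node of an item -/
theorem All_lst {t' : IT} {s₀ : NS} : ∀ (t : IT) (n : ℕ) (u : NS), t.Ok n →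
    (∀ q ∈ t.items, q ∈ t'.items ∧ Bld532.lst t' s₀ q = Bld532.lst t u q) →
    All (fun u τ => ∀ q ∈ τ.items, q ∈ t'.items ∧ Bld532.lst t' s₀ q = Bld532.lst τ u q) u t := by
  intro t
  induction t with
  | leaf S => intro n u _ h; exact h
  | br p t₁ t₀ ih₁ ih₀ =>
    intro n u hO h
    obtain ⟨h1, h2, h3, h4, h5⟩ := hO
    refine ⟨h, ih₁ _ _ h4 fun q hq => ?_, ih₀ _ _ h5 fun q hq => ?_⟩
    · have := h q (Finset.mem_union_left _ hq)
      have hn : q ∉ t₀.items := Finset.disjoint_left.1 h3 hq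
      simp only [Bld532.lst, if_neg hn] at this
      exact this
    · have := h q (Finset.mem_union_right _ hq)
      simp only [Bld532.lst, if_pos hq] at this
      exact this
  | add b t₁ t₀ ih₁ ih₀ =>
    intro n u hO h
    obtain ⟨h1, h2, h3, h4, h5⟩ := hO
    refine ⟨h, ih₁ _ _ h4 fun q hq => ?_, ih₀ _ _ h5 fun q hq => ?_⟩
    · have := h q (Finset.mem_union_left _ hq)
      have hn : q ∉ t₀.items := Finset.disjoint_left.1 h3 hq
      simp only [Bld532.lst, if_neg hn] at this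
      exact this
    · have := h q (Finset.mem_union_right _ hq)
      simp only [Bld532.lst, if_pos hq] at this
      exact this
  | up b Sp t ih =>
    intro n u hO h
    obtain ⟨h1, h2, h3, h4⟩ := hO
    refine ⟨h, ih _ _ h4 fun q hq => ?_⟩
    have := h q hq
    simpa only [Bld532.lst] using this

/-- retained primes of an item are at least the level of the node, or retained inside -/
theorem All_rt {t' : IT} : ∀ (t : IT) (n : ℕ) (u : NS), t.Ok n → t.items ⊆ t'.items → n ≤ u.n →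
    (∀ q ∈ t.items, ∀ l ∈ rt t' q, u.n ≤ l ∨ l ∈ rt t q) →
    All (fun u τ => ∀ q ∈ τ.items, ∀ l ∈ rt t' q, u.n ≤ l ∨ l ∈ rt τ q) u t := by
  intro t
  induction t with
  | leaf S => intro n u _ _ _ h; exact h
  | br p t₁ t₀ ih₁ ih₀ =>
    intro n u hO hs hn h
    obtain ⟨h1, h2, h3, h4, h5⟩ := hO
    refine ⟨h, ih₁ _ _ h4 (fun q hq => hs (Finset.mem_union_left _ hq)) le_rfl fun q hq l hl => ?_,
      ih₀ _ _ h5 (fun q hq => hs (Finset.mem_union_right _ hq)) le_rfl fun q hq l hl => ?_⟩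
    · have hn' : q ∉ t₀.items := Finset.disjoint_left.1 h3 hq
      rcases h q (Finset.mem_union_left _ hq) l hl with h6 | h6
      · left; show p ≤ l; omega
      · right
        unfold rt at h6 ⊢
        simpa only [IT.sp, IT.uq, if_neg hn'] using h6
    · rcases h q (Finset.mem_union_right _ hq) l hl with h6 | h6
      · left; show p ≤ l; omega
      · right
        unfold rt at h6 ⊢
        simpa only [IT.sp, IT.uq, if_pos hq] using h6
  | add b t₁ t₀ ih₁ ih₀ =>
    intro n u hO hs hn h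
    obtain ⟨h1, h2, h3, h4, h5⟩ := hO
    refine ⟨h, ih₁ _ _ h4 (fun q hq => hs (Finset.mem_union_left _ hq)) le_rfl fun q hq l hl => ?_,
      ih₀ _ _ h5 (fun q hq => hs (Finset.mem_union_right _ hq)) le_rfl fun q hq l hl => ?_⟩
    · have hn' : q ∉ t₀.items := Finset.disjoint_left.1 h3 hq
      rcases h q (Finset.mem_union_left _ hq) l hl with h6 | h6
      · left; show b ≤ l; omega
      · unfold rt at h6 ⊢
        simp only [IT.sp, IT.uq, if_neg hn', Finset.insert_union, Finset.mem_insert] at h6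
        rcases h6 with h6 | h6
        · left; exact h6.ge
        · right; exact h6
    · rcases h q (Finset.mem_union_right _ hq) l hl with h6 | h6
      · left; show b ≤ l; omega
      · right
        unfold rt at h6 ⊢
        simpa only [IT.sp, IT.uq, if_pos hq] using h6
  | up b Sp t ih =>
    intro n u hO hs hn h
    obtain ⟨h1, h2, h3, h4⟩ := hO
    refine ⟨h, ih _ _ h4 hs le_rfl fun q hq l hl => ?_⟩
    rcases h q hq l hl with h6 | h6
    · left; show b ≤ l; omega
    · unfold rt at h6 ⊢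
      simp only [IT.sp, IT.uq] at h6
      by_cases hS : q ∈ Sp
      · rw [if_pos hS, Finset.union_insert, Finset.mem_insert] at h6
        rcases h6 with h6 | h6
        · left; exact h6.ge
        · right; exact h6
      · rw [if_neg hS] at h6
        right; exact h6

/-- the primes of an item above the level of a node are retained -/
theorem All_ge {t' : IT} {P : Bld532.Par} {W : ℕ → ℝ} : ∀ (t : IT) (u : NS),
    All (NodeOk P W) u t → (∀ q ∈ t.items, Squarefree q) → (∀ q ∈ t.items, rt t q ⊆ rt t' q) →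
    (∀ q ∈ t.items, ∀ l : ℕ, l.Prime → u.n ≤ l → l ∣ q / u.A → l ∈ rt t' q) →
    All (fun u τ => ∀ q ∈ τ.items, ∀ l : ℕ, l.Prime → u.n ≤ l → l ∣ q / u.A → l ∈ rt t' q) u t := by
  intro t
  induction t with
  | leaf S => intro u _ _ _ h; exact h
  | br p t₁ t₀ ih₁ ih₀ =>
    intro u hN hsq hs h
    obtain ⟨⟨a1, a2, a3, a4, a5, a6, a7, -⟩, hN1, hN0⟩ := hN
    have key : ∀ l : ℕ, l.Prime → p ≤ l → l ≠ p → u.n ≤ l := by
      intro l hl h1 h2
      by_contra hc
      have := a4 l hl (not_le.1 hc)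
      omega
    refine ⟨h, ih₁ _ hN1 (fun q hq => hsq q (Finset.mem_union_left _ hq))
      (fun q hq => ?_) (fun q hq l hl h1 h2 => ?_),
      ih₀ _ hN0 (fun q hq => hsq q (Finset.mem_union_right _ hq))
      (fun q hq => ?_) (fun q hq l hl h1 h2 => ?_)⟩
    · have hq' := Finset.mem_union_left t₀.items hq
      have h0 : q ∉ t₀.items := by
        intro h0
        rw [a7] at h0; rw [a6] at hq
        exact (Bld532.mem_ms.1 h0).2 (Bld532.mem_pr.1 hq).2
      refine subset_trans ?_ (hs q hq')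
      unfold rt
      simp only [IT.sp, IT.uq, if_neg h0]
      exact Finset.Subset.refl _
    · have hq' := Finset.mem_union_left t₀.items hq
      have hpq : p ∣ q := by rw [a6] at hq; exact (Bld532.mem_pr.1 hq).2
      have hAq := a5.dvd q hq'
      have hAp : u.A * p ∣ q := Nat.Coprime.mul_dvd_of_dvd_of_dvd (a5.copA a1 a2).symm hAq hpq
      have hq0 : 0 < q := Nat.pos_of_ne_zero (hsq q hq').ne_zero
      have e := WalkIT579.div_mul_p hAp hq0
      have h2' : l ∣ q / (u.A * p) := h2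
      have hlA : l ∣ q / u.A := by rw [e]; exact h2'.mul_left _
      refine h q hq' l hl (key l hl h1 ?_) hlA
      rintro rfl
      exact WalkIT579.child_not hAp (hsq q hq') a1 h2'
    · have hq' := Finset.mem_union_right t₁.items hq
      refine subset_trans ?_ (hs q hq')
      unfold rt
      simp only [IT.sp, IT.uq, if_pos hq]
      exact Finset.Subset.refl _
    · have hq' := Finset.mem_union_right t₁.items hq
      have hpq : ¬ p ∣ q := by rw [a7] at hq; exact (Bld532.mem_ms.1 hq).2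
      have h2' : l ∣ q / u.A := h2
      refine h q hq' l hl (key l hl h1 ?_) h2'
      rintro rfl
      exact hpq (WalkIT579.dvd_of_div (a5.dvd q hq') h2')
  | add b t₁ t₀ ih₁ ih₀ =>
    intro u hN hsq hs h
    obtain ⟨⟨a1, a2, a3, a4, a5, a6, a7, -⟩, hN1, hN0⟩ := hN
    have key : ∀ l : ℕ, l.Prime → b ≤ l → l ≠ b → u.n ≤ l := by
      intro l hl h1 h2
      by_contra hc
      have := a4 l hl (not_le.1 hc)
      omega
    refine ⟨h, ih₁ _ hN1 (fun q hq => hsq q (Finset.mem_union_left _ hq))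
      (fun q hq => ?_) (fun q hq l hl h1 h2 => ?_),
      ih₀ _ hN0 (fun q hq => hsq q (Finset.mem_union_right _ hq))
      (fun q hq => ?_) (fun q hq l hl h1 h2 => ?_)⟩
    · have hq' := Finset.mem_union_left t₀.items hq
      have h0 : q ∉ t₀.items := by
        intro h0
        rw [a7] at h0; rw [a6] at hq
        exact (Bld532.mem_ms.1 h0).2 (Bld532.mem_pr.1 hq).2
      refine subset_trans ?_ (hs q hq')
      unfold rt
      simp only [IT.sp, IT.uq, if_neg h0, Finset.insert_union]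
      exact Finset.subset_insert _ _
    · have hq' := Finset.mem_union_left t₀.items hq
      have h0 : q ∉ t₀.items := by
        intro h0
        rw [a7] at h0; rw [a6] at hq
        exact (Bld532.mem_ms.1 h0).2 (Bld532.mem_pr.1 hq).2
      by_cases hlb : l = b
      · subst hlb
        apply hs q hq'
        unfold rt
        simp only [IT.sp, IT.uq, if_neg h0, Finset.insert_union]
        exact Finset.mem_insert_self _ _
      · exact h q hq' l hl (key l hl h1 hlb) h2
    · have hq' := Finset.mem_union_right t₁.items hq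
      refine subset_trans ?_ (hs q hq')
      unfold rt
      simp only [IT.sp, IT.uq, if_pos hq]
      exact Finset.Subset.refl _
    · have hq' := Finset.mem_union_right t₁.items hq
      have hpq : ¬ b ∣ q := by rw [a7] at hq; exact (Bld532.mem_ms.1 hq).2
      have h2' : l ∣ q / u.A := h2
      refine h q hq' l hl (key l hl h1 ?_) h2'
      rintro rfl
      exact hpq (WalkIT579.dvd_of_div (a5.dvd q hq') h2')
  | up b Sp t ih =>
    intro u hN hsq hs h
    obtain ⟨⟨a1, a2, a3, a4, a5, a6, -⟩, hN1⟩ := hN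
    have key : ∀ l : ℕ, l.Prime → b ≤ l → l ≠ b → u.n ≤ l := by
      intro l hl h1 h2
      by_contra hc
      have := a4 l hl (not_le.1 hc)
      omega
    refine ⟨h, ih _ hN1 hsq (fun q hq => ?_) (fun q hq l hl h1 h2 => ?_)⟩
    · refine subset_trans ?_ (hs q hq)
      unfold rt
      simp only [IT.sp, IT.uq]
      split_ifs
      · rw [Finset.union_insert]; exact Finset.subset_insert _ _
      · exact Finset.Subset.refl _
    · have h2' : l ∣ q / u.A := h2
      by_cases hlb : l = b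
      · subst hlb
        have hqS : q ∈ Sp := by
          rw [a6]
          exact Bld532.mem_pr.2 ⟨hq, WalkIT579.dvd_of_div (a5.dvd q hq) h2'⟩
        apply hs q hq
        unfold rt
        simp only [IT.sp, IT.uq, if_pos hqS, Finset.union_insert]
        exact Finset.mem_insert_self _ _
      · exact h q hq l hl (key l hl h1 hlb) h2'

/-- **facts about a leaf** `(u.B, u.A, Sl)` of the tree `t` of level `n`; `G` = product of the common
SEP primes -/
structure LeafF (P : Bld532.Par) (W : ℕ → ℝ) (t : IT) (n : ℕ) (u : NS) (Sl : Finset ℕ) (G : ℕ) :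
    Prop where
  node : NodeOk P W u (.leaf Sl)
  sq : ∀ q ∈ Sl, Squarefree q
  it : ∀ q ∈ Sl, q ∈ t.items
  A : ∀ q ∈ Sl, pp t q = u.A
  B : ∀ q ∈ Sl, mp t q = u.B
  lvl : ∀ q ∈ Sl, LfDat734.lv t n q = u.n - 1
  mt : ∀ q ∈ Sl, t.mt q = u.B.primeFactors
  G0 : 0 < G
  Gd : ∀ q ∈ Sl, G ∣ q / u.A
  Gc : ∀ q ∈ Sl, Nat.Coprime G (q / u.A / G)
  Gr : ∀ q ∈ Sl, ∀ l ∈ G.primeFactors, l ∈ rt t q
  Gu : ∀ q ∈ Sl, ∀ l : ℕ, l.Prime → l ∣ q / u.A / G → u.n ≤ l → l ∈ t.uq q
  rtn : ∀ q ∈ Sl, ∀ l ∈ rt t q, u.n ≤ l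

lemma LeafF.bk {P : Bld532.Par} {W : ℕ → ℝ} {t : IT} {n : ℕ} {u : NS} {Sl : Finset ℕ} {G : ℕ}
    (h : LeafF P W t n u Sl G) : Bk Sl u := h.node.1

/-- **every leaf of the built tree has all the facts** (and any further node fact `Q`) -/
theorem bld_leafF' (P : Bld532.Par) (W : ℕ → ℝ) (n : ℕ) (S : Finset ℕ)
    (hS : ∀ q ∈ S, Squarefree q) (hn : ∀ q ∈ S, ∀ l : ℕ, l.Prime → l ∣ q → l < n)
    {Q : NS → IT → Prop} (hQ0 : All Q ⟨n, 1, 1, 1⟩ (Bld532.bld P W n 1 S))
    {F : ℕ → ℕ → Finset ℕ → Prop}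
    (H : ∀ u Sl G, LeafF P W (Bld532.bld P W n 1 S) n u Sl G → Q u (.leaf Sl) → F u.B u.A Sl) :
    LeafAll F 1 1 (Bld532.bld P W n 1 S) := by
  set t := Bld532.bld P W n 1 S with ht
  have hit : t.items = S := Bld532.bld_items P W n 1 S
  have hO : t.Ok n := Bld532.bld_Ok P W n 1 S
  have h1 := WalkIT579.bld_all P W n S hS hn
  have h2 := All_lst (t' := t) (s₀ := ⟨n, 1, 1, 1⟩) t n ⟨n, 1, 1, 1⟩ hO (fun q hq => ⟨hq, rfl⟩)
  have h3 := All_rt (t' := t) t n ⟨n, 1, 1, 1⟩ hO (Finset.Subset.refl _) le_rfl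
    (fun q hq l hl => Or.inr hl)
  have h4 := All_ge (t' := t) t ⟨n, 1, 1, 1⟩ (Bld532.bld_All_root P W n S)
    (by rw [hit]; exact hS) (fun q _ => Finset.Subset.refl _) (fun q hq l hl h5 h6 => by
      rw [hit] at hq
      have h7 : l ∣ q := h6.trans (Nat.div_dvd_of_dvd (one_dvd _))
      have h8 : n ≤ l := h5
      exact absurd (hn q hq l hl h7) (not_lt.2 h8))
  have h := (((h1.and h2).and h3).and h4).and hQ0
  have key := leafAll_of (F := F) (h := fun u Sl hQ => ?_) t ⟨n, 1, 1, 1⟩ h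
  · exact key
  obtain ⟨⟨⟨⟨⟨⟨hnode, hsq⟩, SP, hSP1, hSP2, hSP3⟩, hl⟩, hr⟩, hg⟩, hQu⟩ := hQ
  have hAq : ∀ q ∈ Sl, Bld532.lst t ⟨n, 1, 1, 1⟩ q = u := fun q hq => by
    have := (hl q hq).2
    simpa only [Bld532.lst] using this
  have hA : ∀ q ∈ Sl, pp t q = u.A := fun q hq => by
    have := Bld532.lst_A t ⟨n, 1, 1, 1⟩ q
    rw [hAq q hq] at this
    simpa using this.symm
  have hB : ∀ q ∈ Sl, mp t q = u.B := fun q hq => by
    have := Bld532.lst_Bmp t ⟨n, 1, 1, 1⟩ q
    rw [hAq q hq] at this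
    simpa using this.symm
  have bk : Bk Sl u := hnode.1
  have hSPp : ∀ l ∈ SP, Prime l := fun l hl => (hSP1 l hl).1.prime
  have hGd : ∀ q ∈ Sl, (∏ l ∈ SP, l) ∣ q / u.A := fun q hq =>
    Finset.prod_primes_dvd _ hSPp fun l hl => hSP2 l hl q hq
  have hsqw : ∀ q ∈ Sl, Squarefree (q / u.A) := fun q hq =>
    (hsq q hq).1.squarefree_of_dvd (Nat.div_dvd_of_dvd (bk.dvd q hq))
  have hGc : ∀ q ∈ Sl, Nat.Coprime (∏ l ∈ SP, l) (q / u.A / ∏ l ∈ SP, l) := fun q hq => by
    have e : (∏ l ∈ SP, l) * (q / u.A / ∏ l ∈ SP, l) = q / u.A := Nat.mul_div_cancel' (hGd q hq)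
    have := hsqw q hq
    rw [← e] at this
    exact Nat.coprime_of_squarefree_mul this
  have hG0 : 0 < ∏ l ∈ SP, l := Finset.prod_pos fun l hl => (hSP1 l hl).1.pos
  have hmem : ∀ l : ℕ, l.Prime → l ∣ ∏ l ∈ SP, l → l ∈ SP := by
    intro l hl hd
    obtain ⟨c, hc, hlc⟩ := (hl.prime.dvd_finsetProd_iff _).1 hd
    have := (Nat.prime_dvd_prime_iff_eq hl (hSP1 c hc).1).1 hlc
    rw [this]; exact hc
  refine H u Sl (∏ l ∈ SP, l) ?_ hQu
  refine
    { node := hnode
      sq := fun q hq => (hsq q hq).1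
      it := fun q hq => (hl q hq).1
      A := hA
      B := hB
      lvl := fun q hq => by unfold lv; rw [hAq q hq]
      mt := fun q hq => ?_
      G0 := hG0
      Gd := hGd
      Gc := hGc
      Gr := fun q hq l hlG => ?_
      Gu := fun q hq l hlp hld hln => ?_
      rtn := fun q hq l hlr => ?_ }
  · have h5 := Bld532.mp_eq_prod t n hO q
    rw [hB q hq] at h5
    rw [h5]
    exact (Nat.primeFactors_prod fun p hp => (Bld532.mt_lt t n hO q p hp).1).symm
  · have hlp := Nat.prime_of_mem_primeFactors hlG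
    have hlS := hmem l hlp (Nat.dvd_of_mem_primeFactors hlG)
    exact hg q hq l hlp (hSP1 l hlS).2 (hSP2 l hlS q hq)
  · have h5 : l ∣ q / u.A := hld.trans (Nat.div_dvd_of_dvd (hGd q hq))
    rcases hSP3 q hq l hlp hln h5 with h6 | h6
    · exfalso
      have h7 : l ∣ ∏ l ∈ SP, l := Finset.dvd_prod_of_mem _ h6
      have h8 := Nat.dvd_gcd h7 hld
      rw [hGc q hq] at h8
      exact hlp.one_lt.ne' (Nat.dvd_one.1 h8)
    · exact h6
  · rcases hr q hq l hlr with h5 | h5
    · exact h5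
    · exfalso
      unfold rt at h5
      simp [IT.sp, IT.uq] at h5

/-- **every leaf of the built tree has all the facts** -/
theorem bld_leafF (P : Bld532.Par) (W : ℕ → ℝ) (n : ℕ) (S : Finset ℕ)
    (hS : ∀ q ∈ S, Squarefree q) (hn : ∀ q ∈ S, ∀ l : ℕ, l.Prime → l ∣ q → l < n)
    {F : ℕ → ℕ → Finset ℕ → Prop}
    (H : ∀ u Sl G, LeafF P W (Bld532.bld P W n 1 S) n u Sl G → F u.B u.A Sl) :
    LeafAll F 1 1 (Bld532.bld P W n 1 S) :=
  bld_leafF' P W n S hS hn (Bld532.bld_All_root P W n S) fun u Sl G h _ => H u Sl G h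

section
variable {P : Bld532.Par} {W : ℕ → ℝ} {t : IT} {n : ℕ} {u : NS} {Sl : Finset ℕ} {G : ℕ}

/-- **the leaf weights at a leaf** (`w1 = q / u.A / G`) -/
theorem LeafF.omL_le (h : LeafF P W t n u Sl G) (wp wpL : WP) (γ : ℝ) (r : ℕ → ℝ) (l : ℕ → ℕ)
    (S' : Finset ℕ) {q : ℕ} (hq : q ∈ Sl) (hs : ∑ b ∈ rt t q, (1 : ℝ) / b ≤ 1 / 2) (a : ℤ) :
    omL wp wpL γ r t l S' q a ≤
      2 * nw (q / u.A / G).primeFactors
        (uw (u.B * γ) (phL wpL γ r t l q) (labL wpL γ r t l q)) a := by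
  classical
  have hq0 : 0 < q := Nat.pos_of_ne_zero (h.sq q hq).ne_zero
  have hAq := h.bk.dvd q hq
  have hw : 0 < q / u.A := Nat.div_pos (Nat.le_of_dvd hq0 hAq) (Nat.pos_of_dvd_of_pos hAq hq0)
  have e : thL γ t q = u.B * γ := by unfold thL; rw [h.B q hq]
  unfold omL omT
  rw [e, h.A q hq]
  refine omw_le_uw hw (h.Gd q hq) (h.Gc q hq) (fun b hb hr ρ hρ => ?_) ?_ a
  · refine lab_mem_TE ?_ hρ
    exact h.Gu q hq b (Nat.prime_of_mem_primeFactors hb) (Nat.dvd_of_mem_primeFactors hb)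
      (h.rtn q hq b hr)
  · refine le_trans (Finset.sum_le_sum_of_subset_of_nonneg ?_ fun i _ _ => by positivity) hs
    intro b hb
    exact (Finset.mem_filter.1 hb).2

/-- the common SEP part is harmless -/
theorem LeafF.G_le (h : LeafF P W t n u Sl G) {q : ℕ} (hq : q ∈ Sl)
    (hs : ∑ b ∈ rt t q, (1 : ℝ) / b ≤ 1 / 2) : (1 : ℝ) / 2 ≤ (G.totient : ℝ) / G := by
  rw [phi_prod h.G0]
  have h1 : ∑ b ∈ G.primeFactors, (1 : ℝ) / b ≤ 1 / 2 :=
    le_trans (Finset.sum_le_sum_of_subset_of_nonneg (fun b hb => h.Gr q hq b hb)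
      fun i _ _ => by positivity) hs
  have := prod_one_sub_ge G.primeFactors (fun l : ℕ => 1 / (l : ℝ))
    (fun l _ => by positivity) (fun l hl => by
      have hlp := Nat.prime_of_mem_primeFactors hl
      have : (1 : ℝ) < l := by exact_mod_cast hlp.one_lt
      rw [div_le_one (by linarith)]; exact this.le)
  linarith

/-- the list of the missing ties at the leaf -/
theorem LeafF.lst_eq (h : LeafF P W t n u Sl G) {q q' : ℕ} (hq : q ∈ Sl) (hq' : q' ∈ Sl) :
    W363.lst (t.mt q) (LfDat734.lv t n q) = W363.lst (t.mt q') (LfDat734.lv t n q') := by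
  rw [h.mt q hq, h.mt q' hq', h.lvl q hq, h.lvl q' hq']

/-- the product of the list is `u.B` -/
theorem LeafF.lst_prod (h : LeafF P W t n u Sl G) :
    (W363.lst u.B.primeFactors (u.n - 1)).prod = u.B := by
  classical
  have bk := h.bk
  have e1 : u.B.primeFactors.filter (u.n - 1 < ·) = u.B.primeFactors := by
    apply Finset.filter_true_of_mem
    intro p hp
    have hpp := Nat.prime_of_mem_primeFactors hp
    have h1 := bk.geB p hpp (Nat.dvd_of_mem_primeFactors hp)
    have h2 := hpp.pos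
    omega
  unfold W363.lst
  rw [e1]
  have h2 : (u.B.primeFactors.sort (· ≤ ·)).prod = ∏ p ∈ u.B.primeFactors, p := by
    rw [Finset.prod_eq_multiset_prod, ← Finset.sort_eq u.B.primeFactors (· ≤ ·), Multiset.map_coe,
      Multiset.prod_coe, List.map_id']
  rw [h2]
  exact Nat.prod_primeFactors_of_squarefree bk.sfB

/-- entries of the list -/
theorem LeafF.lst_mem {s : ℕ} (hs : s ∈ W363.lst u.B.primeFactors (u.n - 1)) :
    s.Prime ∧ s ∣ u.B := by
  unfold W363.lst at hs
  have h1 : s ∈ u.B.primeFactors.filter (u.n - 1 < ·) := (Finset.mem_sort _).1 hs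
  have h2 := (Finset.mem_filter.1 h1).1
  exact ⟨Nat.prime_of_mem_primeFactors h2, Nat.dvd_of_mem_primeFactors h2⟩

/-- the state of an item at its leaf -/
theorem LeafF.stL_eq (h : LeafF P W t n u Sl G) (wpL : WP) (γ : ℝ) (r : ℕ → ℝ) {q : ℕ}
    (hq : q ∈ Sl) : stL wpL γ r t (LfDat734.lv t n) q =
      sta wpL.thr γ (r q) (W363.lst u.B.primeFactors (u.n - 1)) (u.n - 1) := by
  unfold stL WP.st
  rw [h.mt q hq, h.lvl q hq]

end

end Crest.Agent.R4.LfDat734
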