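import Mathlib
import Crest.Agent.R4.ClsB_944

/-!
R4 (S0004), helper944: LEAF TEXT, the classes (U), (S), (B) together: the energy of all non-exact
related pairs at one scale `D ~ 1/t`, for a system which is tame at `exp (t^{c1})`.
-/

set_option autoImplicit false
open Finset

namespace Crest.Agent.R4.ClsAll

open Crest.Agent.R4.HVW560 Crest.Agent.R4.LF765 Crest.Agent.R4.ClsS Crest.Agent.R4.ClsU
open Crest.Agent.R4.ClsB

/-- non-exact related pair at scale `t`: unbalanced or unstructured -/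
structure Gen (θ t : ℝ) (x y : ℕ) (r r' : ℝ) : Prop where
  hx : 0 < x
  hy : 0 < y
  hxy : x ≠ y
  rel : ∃ n : ℤ, |(n:ℝ) - θ * ((x:ℝ) - y)| ≤ 2 / t
  alt : ((x:ℝ) * r' ≤ t^(-(51/50):ℝ) ∨ (y:ℝ) * r ≤ t^(-(51/50):ℝ)) ∨
    ∀ Y : ℝ, 0 < Y → Y < ((max x y : ℕ):ℝ) → ((max x y : ℕ):ℝ) ≤ 2 * Y → ¬ Struct (t^(1/10:ℝ)) θ t Y

/-- **energy at one scale** -/
theorem scale_energy : ∃ C c0 : ℝ, 1 ≤ C ∧ 0 < c0 ∧
    ∀ c1 : ℝ, 0 < c1 → c1 ≤ c0 → ∃ T0 : ℝ, ∀ (θ t : ℝ) (V W : Finset ℕ) (E : Finset (ℕ × ℕ))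
    (ψ ψ' : ℕ → ℝ) (G : ℕ), T0 ≤ t → Sys V W E ψ ψ' (1/t) → 0 < G →
    (∀ q ∈ V, Tame (Real.exp (t^c1)) G q) → (∀ q ∈ W, Tame (Real.exp (t^c1)) G q) →
    (∀ e ∈ E, Gen θ t (cof e.1 e.2) (cof e.2 e.1) (ψ e.1) (ψ' e.2)) →
    ∑ e ∈ E, wt ψ e.1 * wt ψ' e.2 * (Af (cof e.1 e.2) * Af (cof e.2 e.1))
      ≤ C * t^(-(1006/1000):ℝ) * ((∑ v ∈ V, wt ψ v) * (∑ w ∈ W, wt ψ' w))^(1/2+eps1) := by
  classical
  obtain ⟨CU, hCU1, hU⟩ := classU
  obtain ⟨CS, cS, hCS1, hcS, -, hS⟩ := classS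
  obtain ⟨CB, cB, hCB1, hcB, hB⟩ := classB
  refine ⟨CU + CS + CB, min (cS/3) cB, by linarith, lt_min (by positivity) hcB, ?_⟩
  intro c1 hc1 hc10
  have hc1S : 3 * c1 ≤ cS := by
    have := hc10.trans (min_le_left _ _); linarith
  have hc1B : c1 ≤ cB := hc10.trans (min_le_right _ _)
  obtain ⟨T0, hT0⟩ := hB c1 hc1 hc1B
  refine ⟨max T0 (2^10), ?_⟩
  intro θ t V W E ψ ψ' G ht hs hG hVt hWt hE
  have htT0 : T0 ≤ t := (le_max_left _ _).trans ht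
  have ht10 : (2:ℝ)^10 ≤ t := (le_max_right _ _).trans ht
  have ht0 : 0 < t := by linarith
  have ht1 : 1 ≤ t := by linarith
  set f : ℕ × ℕ → ℝ := fun e => wt ψ e.1 * wt ψ' e.2 * (Af (cof e.1 e.2) * Af (cof e.2 e.1)) with hf
  set M := (∑ v ∈ V, wt ψ v) * (∑ w ∈ W, wt ψ' w) with hM
  have hM0 : 0 ≤ M :=
    mul_nonneg (Finset.sum_nonneg fun v hv => wt_nonneg (hs.hψ v hv))
      (Finset.sum_nonneg fun v hv => wt_nonneg (hs.hθ v hv))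
  have hMs : 0 ≤ M^(1/2+eps1) := by positivity
  have hsub : ∀ E' ⊆ E, Sys V W E' ψ ψ' (1/t) := fun E' hE' =>
    { hδ := hs.hδ, hV := hs.hV, hW := hs.hW, hψ := hs.hψ, hθ := hs.hθ
      hE := hE'.trans hs.hE
      h1 := fun e he => hs.h1 e (hE' he)
      h2 := fun e he => hs.h2 e (hE' he) }
  set PU : ℕ × ℕ → Prop := fun e => (cof e.1 e.2 : ℝ) * ψ' e.2 ≤ t^(-(51/50):ℝ) ∨
    (cof e.2 e.1 : ℝ) * ψ e.1 ≤ t^(-(51/50):ℝ) with hPU
  set PS : ℕ × ℕ → Prop := fun e => ((max (cof e.1 e.2) (cof e.2 e.1) : ℕ):ℝ) ≤ Real.exp (t^(3*c1)) with hPS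
  set EU := E.filter PU with hEU
  set EN := E.filter (fun e => ¬ PU e) with hEN
  set ES := EN.filter PS with hES
  set EB := EN.filter (fun e => ¬ PS e) with hEB
  have hsplit : ∑ e ∈ E, f e = ∑ e ∈ EU, f e + (∑ e ∈ ES, f e + ∑ e ∈ EB, f e) := by
    rw [hES, hEB, Finset.sum_filter_add_sum_filter_not, hEU, hEN, Finset.sum_filter_add_sum_filter_not]
  have hESsub : ES ⊆ E := (Finset.filter_subset _ _).trans (Finset.filter_subset _ _)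
  have hEBsub : EB ⊆ E := (Finset.filter_subset _ _).trans (Finset.filter_subset _ _)
  have bU := hU t V W EU ψ ψ' ht1 (hsub _ (Finset.filter_subset _ _))
    (fun e he => (Finset.mem_filter.1 he).2)
  have bS := hS θ t (Real.exp (t^(3*c1))) V W ES ψ ψ' ht10
    (Real.exp_le_exp.2 (Real.rpow_le_rpow_of_exponent_le ht1 hc1S)) (hsub _ hESsub) (by
      intro e he
      rw [hES, Finset.mem_filter, hEN, Finset.mem_filter] at he
      have h := hE e he.1.1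
      exact ⟨h.hx, h.hy, h.hxy, he.2, h.rel, h.alt.resolve_left he.1.2⟩)
  have bB := hT0 θ t V W EB ψ ψ' G htT0 (hsub _ hEBsub) hG hVt hWt (by
      intro e he
      rw [hEB, Finset.mem_filter, hEN, Finset.mem_filter] at he
      have h := hE e he.1.1
      exact ⟨h.hx, h.hy, h.hxy, not_le.1 he.2, h.rel, h.alt.resolve_left he.1.2⟩)
  rw [hsplit]
  have k1 : t^(-(1007/1000):ℝ) ≤ t^(-(1006/1000):ℝ) :=
    Real.rpow_le_rpow_of_exponent_le ht1 (by norm_num)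
  have k2 : t^(-(101/100):ℝ) ≤ t^(-(1006/1000):ℝ) :=
    Real.rpow_le_rpow_of_exponent_le ht1 (by norm_num)
  have bU' : ∑ e ∈ EU, f e ≤ CU * t^(-(1006/1000):ℝ) * M^(1/2+eps1) := by
    refine bU.trans ?_
    apply mul_le_mul_of_nonneg_right _ hMs
    exact mul_le_mul_of_nonneg_left k1 (by linarith)
  have bS' : ∑ e ∈ ES, f e ≤ CS * t^(-(1006/1000):ℝ) * M^(1/2+eps1) := by
    refine bS.trans ?_
    apply mul_le_mul_of_nonneg_right _ hMs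
    exact mul_le_mul_of_nonneg_left k2 (by linarith)
  calc ∑ e ∈ EU, f e + (∑ e ∈ ES, f e + ∑ e ∈ EB, f e)
      ≤ CU * t^(-(1006/1000):ℝ) * M^(1/2+eps1) + (CS * t^(-(1006/1000):ℝ) * M^(1/2+eps1) +
        CB * t^(-(1006/1000):ℝ) * M^(1/2+eps1)) := add_le_add bU' (add_le_add bS' bB)
    _ = _ := by ring

end Crest.Agent.R4.ClsAll
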