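import Mathlib
import Crest.Agent.R4.LF4P793
import Crest.Agent.R4.LFDef2_363

/-!
R4 (S0004), helper793: LF3/LF4 in the notation of `LFDef2_363`, and the overlap bound of two items
with different targets.
-/

set_option autoImplicit false
open MeasureTheory
open Finset hiding dens

namespace Crest.Agent.R4.LF4

open Crest.Agent.R4.HVW560 Crest.Agent.R4.Ovl560 Crest.Agent.R4.Tour104 Crest.Agent.R4.Item464
open Crest.Agent.R4.LF363 hiding cof_pos cof_coprime one_sub_nonneg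

/-- item of the system `(ψ, φ, lab)` on the circle `θ` -/
def itmOf (θ : ℝ) (ψ φ : ℕ → ℝ) (lab : ℕ → Option ℚ) (q : ℕ) : Itm := ⟨θ, ψ q, φ q, lab q⟩

lemma T12_eq (θ : ℝ) (ψ φ : ℕ → ℝ) (lab : ℕ → Option ℚ) (q r : ℕ) :
    T12 θ ψ φ lab q r = T1I (itmOf θ ψ φ lab q) (itmOf θ ψ φ lab r) q r := rfl

lemma T02_eq (θ : ℝ) (ψ φ : ℕ → ℝ) (lab : ℕ → Option ℚ) (q r : ℕ) :
    T02 θ ψ φ lab q r = T0I (itmOf θ ψ φ lab q) (itmOf θ ψ φ lab r) q r := rfl

lemma DI_eq (θ : ℝ) (ψ φ : ℕ → ℝ) (lab : ℕ → Option ℚ) (q r : ℕ) :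
    DI (itmOf θ ψ φ lab q) (itmOf θ ψ φ lab r) q r = Dq ψ q r := rfl

/-- **LF4** in the notation of `LFDef2_363` -/
theorem lf4_T12 {ε : ℝ} (hε : 0 < ε) (hε4 : ε ≤ 1 / 4) (θ : ℝ) {S : Finset ℕ} {ψ φ : ℕ → ℝ}
    (lab : ℕ → Option ℚ) (hS : ∀ q ∈ S, 0 < q) (hφ : ∀ q ∈ S, 0 < φ q)
    (hφψ : ∀ q ∈ S, φ q ≤ ψ q) {E : Finset (ℕ × ℕ)} (hE : E ⊆ S ×ˢ S) (J : ℕ)
    (hD : ∀ e ∈ E, ((2 : ℝ) ^ J)⁻¹ ≤ Dq ψ e.1 e.2) :
    ∑ e ∈ E, T12 θ ψ φ lab e.1 e.2 ≤
      CP * (8 * ((∑ q ∈ S, ψ q * ((Nat.totient q : ℝ) / q)) *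
          (∑ q ∈ S, ψ q * ((Nat.totient q : ℝ) / q))) +
        CE ε * ((2 : ℝ) ^ J) ^ (2 * ε) *
          ((∑ q ∈ S, ψ q * ((Nat.totient q : ℝ) / q)) *
            (∑ q ∈ S, ψ q * ((Nat.totient q : ℝ) / q))) ^ (1 / 2 + ε)) :=
  lf4 hε hε4 (itmOf θ ψ φ lab) (itmOf θ ψ φ lab) (fun q hq => ⟨hS q hq, hφ q hq, hφψ q hq⟩)
    (fun q hq => ⟨hS q hq, hφ q hq, hφψ q hq⟩) hE J hD

/-- **(P3)** at small scale in the notation of `LFDef2_363` -/
theorem T12_le_small {θ : ℝ} {ψ φ : ℕ → ℝ} (lab : ℕ → Option ℚ) {q r : ℕ} (hq : 0 < q)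
    (hr : 0 < r) (h1 : 0 < φ q) (h2 : φ q ≤ ψ q) (h3 : 0 < φ r) (h4 : φ r ≤ ψ r)
    {t : ℝ} (ht : 1 ≤ t) (hD : 1 / (2 * t) ≤ Dq ψ q r) :
    T12 θ ψ φ lab q r ≤ (2 * CP) * (t * (ψ q * ((Nat.totient q : ℝ) / q) *
      (ψ r * ((Nat.totient r : ℝ) / r))) * Axy (cof q r) (cof r q)) :=
  T1I_le_small (a := itmOf θ ψ φ lab q) (b := itmOf θ ψ φ lab r) ⟨h1, h2⟩ ⟨h3, h4⟩ hq hr ht hD

lemma exists_of_T12_ne {θ : ℝ} {ψ φ : ℕ → ℝ} {lab : ℕ → Option ℚ} {q r : ℕ}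
    (h : T12 θ ψ φ lab q r ≠ 0) :
    ∃ n : ℤ, n ∈ Wn θ ψ q r ∧ ¬ ExN lab q r n := by
  classical
  unfold T12 at h
  obtain ⟨n, hn, -⟩ := Finset.exists_ne_zero_of_sum_ne_zero h
  rw [mem_filter] at hn
  exact ⟨n, hn.1, hn.2⟩

/-- the diagonal -/
theorem T12_diag_le {θ : ℝ} {ψ φ : ℕ → ℝ} (lab : ℕ → Option ℚ) {q : ℕ} (hq : 0 < q)
    (h1 : 0 < φ q) (h2 : φ q ≤ ψ q) (h3 : ψ q ≤ 1) :
    T12 θ ψ φ lab q q ≤ CP * (ψ q * ((Nat.totient q : ℝ) / q)) :=
  T1I_diag_le (a := itmOf θ ψ φ lab q) ⟨h1, h2⟩ hq h3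

/-! ### two items with different targets -/

/-- the function of an item -/
noncomputable def fI (a : Itm) (q : ℕ) : ℝ → ℝ :=
  itm a.th a.psi q q.primeFactors (uw a.th a.phi a.lab)

lemma fI_eq (θ : ℝ) (ψ φ : ℕ → ℝ) (lab : ℕ → Option ℚ) (q : ℕ) :
    fI (itmOf θ ψ φ lab q) q = fq2 θ ψ φ lab q := rfl

lemma PB_fI (a : Itm) (q : ℕ) : PB (fI a q) :=
  PB_itm (LW_uw _ _ _ _) (fun _ hp => (Nat.prime_of_mem_primeFactors hp).pos)
    fun _ hp => Nat.dvd_of_mem_primeFactors hp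

theorem I_fI {a : Itm} {q : ℕ} (hq : 0 < q) (h : 0 ≤ a.psi) : I (fI a q) = 2 * mI a q := by
  unfold fI mI
  rw [I_itm h hq (LW_uw _ _ _ _) (fun _ hp => Nat.prime_of_mem_primeFactors hp)
    (fun _ hp => Nat.dvd_of_mem_primeFactors hp), ← prod_one_sub q hq]
  rw [Finset.prod_congr rfl fun p hp => mn_uw a.th a.phi a.lab (Nat.prime_of_mem_primeFactors hp)]
  ring

/-- **overlap of two items with different targets** -/
theorem pair_leI {a b : Itm} {q r : ℕ} (hq : 0 < q) (hr : 0 < r) (ha : 0 < a.psi)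
    (hb : 0 < b.psi) : I (fun t => fI a q t * fI b r t) ≤ T0I a b q r + T1I a b q r := by
  classical
  set x := cof q r with hx
  set y := cof r q with hy
  set g := Nat.gcd q r with hg
  have hxp : 0 < x := HVW560.cof_pos hq
  have hyp : 0 < y := HVW560.cof_pos hr
  have hgp : 0 < g := Nat.gcd_pos_of_pos_left _ hq
  have hxy : Nat.Coprime x y := HVW560.cof_coprime hq
  have hgx : g * x = q := gcd_mul_cof q r
  have hgy : g * y = r := gcd_mul_cof' q r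
  have hxr : (0 : ℝ) < x := by exact_mod_cast hxp
  have hyr : (0 : ℝ) < y := by exact_mod_cast hyp
  have hgr : (0 : ℝ) < g := by exact_mod_cast hgp
  have hD : 0 < DI a b q r := lt_max_of_lt_left (mul_pos hyr ha)
  have h1 := lintegral_cw_mul (LW_uw a.th a.phi a.lab q) (LW_uw b.th b.phi b.lab r)
    (fun _ hp => Nat.prime_of_mem_primeFactors hp) (fun _ hp => Nat.prime_of_mem_primeFactors hp)
    hgp hxp hyp hxy (fun p hp => by rw [hgx]; exact Nat.dvd_of_mem_primeFactors hp)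
    (fun p hp => by rw [hgy]; exact Nat.dvd_of_mem_primeFactors hp) a.th b.th a.psi b.psi ha.le hb.le
    (fun n => n * bA x y) (fun n => n * bB x y) (bez hxy)
  rw [hgx, hgy] at h1
  have h2 : T0I a b q r + T1I a b q r = 2 * min (a.psi / (q : ℝ)) (b.psi / (r : ℝ)) *
      ∑ n ∈ win (x * b.th - y * a.th) (y * a.psi + x * b.psi), ((g : ℝ) *
        ∏ p ∈ q.primeFactors ∪ r.primeFactors,
          lf q.primeFactors r.primeFactors (uw a.th a.phi a.lab) (uw b.th b.phi b.lab) x y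
            (n * bA x y) (n * bB x y) p) := by
    unfold T0I T1I
    rw [Finset.sum_filter_add_sum_filter_not, ← Finset.mul_sum, ← mul_assoc]
    have e1 : 2 * min (a.psi / (q : ℝ)) (b.psi / (r : ℝ)) * g = 2 * a.psi * b.psi / DI a b q r := by
      have e2 := Crest.Agent.R4.Ovl560.min_mul_max (r := a.psi) (r' := b.psi) hgr hxr hyr (by
        rw [max_comm]; exact hD)
      have e3 : (q : ℝ) = g * x := by rw [← hgx]; push_cast; ring
      have e4 : (r : ℝ) = g * y := by rw [← hgy]; push_cast; ring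
      rw [e3, e4, e2]
      unfold DI
      rw [max_comm]
    rw [e1, Finset.mul_sum]
    exact Finset.sum_congr rfl fun n _ => rfl
  have h3 : I (fun t => fI a q t * fI b r t) =
      (∫⁻ t in Set.Ico (0 : ℝ) 1, cw a.th a.psi q q.primeFactors (uw a.th a.phi a.lab) t *
        cw b.th b.psi r r.primeFactors (uw b.th b.phi b.lab) t).toReal := by
    unfold I
    have hp1 := PB_fI a q
    have hp2 := PB_fI b r
    rw [integral_eq_lintegral_of_nonneg_ae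
      (Filter.Eventually.of_forall fun t => mul_nonneg (hp1.nonneg t) (hp2.nonneg t))
      (hp1.meas.mul hp2.meas).aestronglyMeasurable]
    congr 1
    refine lintegral_congr fun t => ?_
    rw [cw_eq (LW_uw _ _ _ _), cw_eq (LW_uw _ _ _ _),
      ← ENNReal.ofReal_mul (itm_nonneg (LW_uw _ _ _ _) t)]
    rfl
  have hnn : 0 ≤ T0I a b q r + T1I a b q r := by
    unfold T0I T1I
    rw [Finset.sum_filter_add_sum_filter_not]
    refine Finset.sum_nonneg fun n _ => mul_nonneg (by positivity) (Finset.prod_nonneg fun p hp => ?_)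
    have hpp : p.Prime := by
      rcases Finset.mem_union.1 hp with h | h <;> exact Nat.prime_of_mem_primeFactors h
    unfold lf
    refine div_nonneg (Finset.sum_nonneg fun k _ => mul_nonneg ?_ ?_) (Nat.cast_nonneg p)
    · split_ifs
      · exact uw_nonneg _ _ _ hpp _
      · exact zero_le_one
    · split_ifs
      · exact uw_nonneg _ _ _ hpp _
      · exact zero_le_one
  rw [h3]
  refine ENNReal.toReal_le_of_le_ofReal hnn ?_
  rw [h2]
  exact h1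

/-- determinants killed by an excluded class contribute `0` -/
lemma tmI_eq_zero {a b : Itm} {q r : ℕ} (hq : 0 < q) {n : ℤ}
    (hS : ¬ Surv (actS a.th a.phi a.lab q.primeFactors) (actS b.th b.phi b.lab r.primeFactors)
      (cls a.lab) (cls b.lab) (cof q r) (cof r q) n) (hnn : 0 ≤ 2 * a.psi * b.psi / DI a b q r) :
    tmI a b q r n ≤ 0 := by
  classical
  have h := prod_lf_le (θ := a.th) (θ' := b.th) (φ := a.phi) (φ' := b.phi) (l := a.lab)
    (l' := b.lab) (fun p hp => Nat.prime_of_mem_primeFactors (n := q) hp)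
    (fun p hp => Nat.prime_of_mem_primeFactors (n := r) hp) (HVW560.cof_coprime (w := r) hq)
    (bez (HVW560.cof_coprime hq) n)
  rw [if_neg hS, mul_zero] at h
  unfold tmI
  exact mul_nonpos_of_nonneg_of_nonpos hnn h

end Crest.Agent.R4.LF4
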