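import Mathlib
import Crest.Agent.R4.ClsAll_944
import Crest.Agent.R4.LF4R793
import Crest.Agent.R4.LF7eta765

/-!
R4 (S0004), helper944: LEAF TEXT LF11, the small-`D` half: all pairs with `D < 1/T` of a tame system,
non-exact determinants, cost `≤ C T^{-6/1000} M^{1+2ε₁} + C M`.
-/

set_option autoImplicit false
open MeasureTheory
open Finset hiding dens

namespace Crest.Agent.R4.LF11s

open Crest.Agent.R4.HVW560 Crest.Agent.R4.LF765 Crest.Agent.R4.ClsS Crest.Agent.R4.ClsU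
open Crest.Agent.R4.ClsB Crest.Agent.R4.ClsAll
open Crest.Agent.R4.LF4 (CP CP_nonneg Axy Axy_eq T12_le_small exists_of_T12_ne T12_diag_le)
open Crest.Agent.R4.LF363 (Lab Dq Wn T12 ExN T12_nonneg Dq_pos gcd_mul_cof gcd_mul_cof')

theorem Axy_eq_Af {x y : ℕ} (hxy : Nat.Coprime x y) : Axy x y = Af x * Af y := by
  have h : ∀ n : ℕ, (Crest.Agent.R4.Ovl560.dens n.primeFactors)⁻¹ = Af n := by
    intro n
    unfold Crest.Agent.R4.Ovl560.dens Af
    rw [← Finset.prod_inv_distrib]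
  rw [Axy_eq hxy, h, h]

/-- mass of a system -/
noncomputable def mass (ψ : ℕ → ℝ) (S : Finset ℕ) : ℝ := ∑ q ∈ S, ψ q * ((Nat.totient q : ℝ) / q)

theorem mass_eq (ψ : ℕ → ℝ) (S : Finset ℕ) : mass ψ S = ∑ q ∈ S, wt ψ q := rfl

/-- the data of a leaf: system `S`, radii `ψ`, label radii `η ψ`, canonical labels -/
structure Leaf (θ η : ℝ) (S : Finset ℕ) (ψ : ℕ → ℝ) (lab : ℕ → Option ℚ) : Prop where
  hη : 0 < η
  hη1 : η ≤ 1
  hS : ∀ q ∈ S, 0 < q
  hψ : ∀ q ∈ S, 0 < ψ q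
  hlab : ∀ q ∈ S, ∀ ρ, Lab θ (η * ψ q) ρ → lab q = some ρ

/-- pairs at scale `t` with a nonzero non-exact term are generic -/
theorem gen_of_ne {θ η t : ℝ} {S : Finset ℕ} {ψ : ℕ → ℝ} {lab : ℕ → Option ℚ}
    (h : Leaf θ η S ψ lab) {q r : ℕ} (hq : q ∈ S) (hr : r ∈ S) (hqr : q ≠ r)
    (ht : (2^5/η)^10 ≤ t) (hD1 : 1 / (2 * t) < Dq ψ q r) (hD2 : Dq ψ q r ≤ 1 / t)
    (hne : T12 θ ψ (fun q => η * ψ q) lab q r ≠ 0) :
    Gen θ t (cof q r) (cof r q) (ψ q) (ψ r) := by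
  have hη := h.hη
  have hη1 := h.hη1
  have h32 : (1:ℝ) ≤ 2^5/η := by
    rw [le_div_iff₀ hη]; linarith
  have ht1 : 1 ≤ t := (one_le_pow₀ h32).trans ht
  have ht0 : 0 < t := by linarith
  have hq0 := h.hS q hq
  have hr0 := h.hS r hr
  have hx := cof_pos (w := r) hq0
  have hy := cof_pos (w := q) hr0
  obtain ⟨n, hn, hnE⟩ := exists_of_T12_ne hne
  have hψq := h.hψ q hq
  have hψr := h.hψ r hr
  have hle1 : (cof r q : ℝ) * ψ q ≤ Dq ψ q r := le_max_left _ _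
  have hle2 : (cof q r : ℝ) * ψ r ≤ Dq ψ q r := le_max_right _ _
  refine ⟨hx, hy, ?_, ⟨n, ?_⟩, ?_⟩
  · intro heq
    have hc : Nat.Coprime (cof q r) (cof r q) := cof_coprime hq0
    rw [← heq] at hc
    have h1 : cof q r = 1 := (Nat.coprime_self _).1 hc
    have h2 : cof r q = 1 := heq ▸ h1
    have e1 := gcd_mul_cof q r
    have e2 := gcd_mul_cof' q r
    rw [h1, mul_one] at e1
    rw [h2, mul_one] at e2
    exact hqr (e1.symm.trans e2)
  · have h1 := Crest.Agent.R4.Ovl560.mem_win.1 hn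
    have e : θ * ((cof q r : ℝ) - cof r q) = cof q r * θ - cof r q * θ := by ring
    rw [e]
    refine h1.le.trans ?_
    have : 2 / t = 1/t + 1/t := by ring
    rw [this]
    exact add_le_add (hle1.trans hD2) (hle2.trans hD2)
  · by_cases hb1 : Dq ψ q r ≤ t^(1/50:ℝ) * (cof r q * ψ q)
    · by_cases hb2 : Dq ψ q r ≤ t^(1/50:ℝ) * (cof q r * ψ r)
      · right
        intro Y hY _ hmax hst
        apply hnE
        have h1 : (cof q r : ℝ) ≤ 2 * Y := le_trans (by exact_mod_cast le_max_left _ _) hmax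
        have h2 : (cof r q : ℝ) ≤ 2 * Y := le_trans (by exact_mod_cast le_max_right _ _) hmax
        exact exN_of_struct hη hη1 ht (h.hlab q hq) (h.hlab r hr) hq0 hr0 hψq hψr hD1 hD2 hb1 hb2
          hn hY h1 h2 hst
      · left; left
        push Not at hb2
        have h3 : t^(1/50:ℝ) * (cof q r * ψ r) < 1/t := hb2.trans_le hD2
        have e : t^(-(51/50):ℝ) = t^(-(1/50):ℝ) * (1/t) := by
          have h9 : 1/t = t^(-1:ℝ) := by rw [Real.rpow_neg_one, one_div]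
          rw [h9, ← Real.rpow_add ht0]; norm_num
        rw [e]
        calc (cof q r : ℝ) * ψ r = t^(-(1/50):ℝ) * (t^(1/50:ℝ) * (cof q r * ψ r)) := by
              rw [← mul_assoc, ← Real.rpow_add ht0]; norm_num
          _ ≤ t^(-(1/50):ℝ) * (1/t) := mul_le_mul_of_nonneg_left h3.le (by positivity)
    · left; right
      push Not at hb1
      have h3 : t^(1/50:ℝ) * (cof r q * ψ q) < 1/t := hb1.trans_le hD2
      have e : t^(-(51/50):ℝ) = t^(-(1/50):ℝ) * (1/t) := by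
        have h9 : 1/t = t^(-1:ℝ) := by rw [Real.rpow_neg_one, one_div]
        rw [h9, ← Real.rpow_add ht0]; norm_num
      rw [e]
      calc (cof r q : ℝ) * ψ q = t^(-(1/50):ℝ) * (t^(1/50:ℝ) * (cof r q * ψ q)) := by
            rw [← mul_assoc, ← Real.rpow_add ht0]; norm_num
        _ ≤ t^(-(1/50):ℝ) * (1/t) := mul_le_mul_of_nonneg_left h3.le (by positivity)

/-- one dyadic scale -/
theorem one_scale : ∃ C c0 : ℝ, 1 ≤ C ∧ 0 < c0 ∧ ∀ c1 : ℝ, 0 < c1 → c1 ≤ c0 → ∃ T0 : ℝ,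
    ∀ (θ η t : ℝ) (S : Finset ℕ) (ψ : ℕ → ℝ) (lab : ℕ → Option ℚ) (E : Finset (ℕ × ℕ)) (G : ℕ),
    T0 ≤ t → (2^5/η)^10 ≤ t → Leaf θ η S ψ lab → 0 < G →
    (∀ q ∈ S, Tame (Real.exp (t^c1)) G q) → E ⊆ S ×ˢ S → (∀ e ∈ E, e.1 ≠ e.2) →
    (∀ e ∈ E, 1 / (2 * t) < Dq ψ e.1 e.2 ∧ Dq ψ e.1 e.2 ≤ 1 / t) →
    ∑ e ∈ E, T12 θ ψ (fun q => η * ψ q) lab e.1 e.2
      ≤ C * t^(-(6/1000):ℝ) * (mass ψ S * mass ψ S)^(1/2+eps1) := by
  classical
  obtain ⟨C, c0, hC1, hc0, hC⟩ := scale_energy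
  have hCP := CP_nonneg
  refine ⟨(2 * CP + 1) * C, c0, by nlinarith, hc0, ?_⟩
  intro c1 hc1 hc10
  obtain ⟨T0, hT0⟩ := hC c1 hc1 hc10
  refine ⟨T0, ?_⟩
  intro θ η t S ψ lab E G hT hηt hL hG hTame hE hne hD
  have hη := hL.hη
  have hη1 := hL.hη1
  have h32 : (1:ℝ) ≤ 2^5/η := by
    rw [le_div_iff₀ hη]; linarith
  have ht1 : 1 ≤ t := (one_le_pow₀ h32).trans hηt
  have ht0 : 0 < t := by linarith
  set φ : ℕ → ℝ := fun q => η * ψ q with hφ
  set E1 := E.filter (fun e => T12 θ ψ φ lab e.1 e.2 ≠ 0) with hE1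
  have hsum : ∑ e ∈ E, T12 θ ψ φ lab e.1 e.2 = ∑ e ∈ E1, T12 θ ψ φ lab e.1 e.2 := by
    rw [hE1, Finset.sum_filter_ne_zero]
  have hE1S : E1 ⊆ S ×ˢ S := (Finset.filter_subset _ _).trans hE
  have hsys : Sys S S E1 ψ ψ (1/t) :=
    { hδ := by positivity
      hV := hL.hS
      hW := hL.hS
      hψ := fun q hq => (hL.hψ q hq).le
      hθ := fun q hq => (hL.hψ q hq).le
      hE := hE1S
      h1 := fun e he => (le_max_right _ _ : _ ≤ Dq ψ e.1 e.2).trans (hD e (Finset.mem_filter.1 he).1).2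
      h2 := fun e he => (le_max_left _ _ : _ ≤ Dq ψ e.1 e.2).trans (hD e (Finset.mem_filter.1 he).1).2 }
  have key := hT0 θ t S S E1 ψ ψ G hT hsys hG hTame hTame (by
    intro e he
    rw [hE1, Finset.mem_filter] at he
    have hm := Finset.mem_product.1 (hE he.1)
    exact gen_of_ne hL hm.1 hm.2 (hne e he.1) hηt (hD e he.1).1 (hD e he.1).2 he.2)
  rw [hsum]
  have hterm : ∀ e ∈ E1, T12 θ ψ φ lab e.1 e.2 ≤
      (2 * CP * t) * (wt ψ e.1 * wt ψ e.2 * (Af (cof e.1 e.2) * Af (cof e.2 e.1))) := by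
    intro e he
    have hm := Finset.mem_product.1 (hE1S he)
    have h1 := hL.hψ _ hm.1
    have h2 := hL.hψ _ hm.2
    have hq := hL.hS _ hm.1
    have hr := hL.hS _ hm.2
    have := T12_le_small (θ := θ) (ψ := ψ) (φ := φ) lab hq hr (mul_pos hη h1)
      (by simp only [hφ]; nlinarith) (mul_pos hη h2) (by simp only [hφ]; nlinarith) ht1
      (hD e (Finset.mem_filter.1 he).1).1.le
    rw [Axy_eq_Af (cof_coprime hq)] at this
    refine this.trans (le_of_eq ?_)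
    unfold wt
    ring
  refine (Finset.sum_le_sum hterm).trans ?_
  rw [← Finset.mul_sum]
  have hM0 : 0 ≤ mass ψ S := Finset.sum_nonneg fun q hq => mul_nonneg (hL.hψ q hq).le (by positivity)
  rw [← mass_eq] at key
  have hMs : 0 ≤ (mass ψ S * mass ψ S)^(1/2+eps1) := by positivity
  calc (2 * CP * t) * ∑ e ∈ E1, wt ψ e.1 * wt ψ e.2 * (Af (cof e.1 e.2) * Af (cof e.2 e.1))
      ≤ (2 * CP * t) * (C * t^(-(1006/1000):ℝ) * (mass ψ S * mass ψ S)^(1/2+eps1)) :=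
        mul_le_mul_of_nonneg_left key (by positivity)
    _ = (2 * CP) * C * (t^(1:ℝ) * t^(-(1006/1000):ℝ)) * (mass ψ S * mass ψ S)^(1/2+eps1) := by
        rw [Real.rpow_one]; ring
    _ = (2 * CP) * C * t^(-(6/1000):ℝ) * (mass ψ S * mass ψ S)^(1/2+eps1) := by
        rw [← Real.rpow_add ht0]; norm_num
    _ ≤ (2 * CP + 1) * C * t^(-(6/1000):ℝ) * (mass ψ S * mass ψ S)^(1/2+eps1) := by
        apply mul_le_mul_of_nonneg_right _ hMs
        apply mul_le_mul_of_nonneg_right _ (by positivity)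
        apply mul_le_mul_of_nonneg_right _ (by linarith)
        linarith

/-- tameness above `X` -/
def XTame (X : ℝ) (G : ℕ) (S : Finset ℕ) : Prop := ∀ z : ℝ, X ≤ z → ∀ q ∈ S, Tame z G q

/-- **the small-`D` half of LF11** -/
theorem small_D : ∃ C c0 : ℝ, 1 ≤ C ∧ 0 < c0 ∧ ∀ c1 : ℝ, 0 < c1 → c1 ≤ c0 → ∃ T0 : ℝ, 1 ≤ T0 ∧
    ∀ (θ η T X : ℝ) (S : Finset ℕ) (ψ : ℕ → ℝ) (lab : ℕ → Option ℚ) (E : Finset (ℕ × ℕ)) (G : ℕ),
    T0 ≤ T → (2^5/η)^10 ≤ T → X ≤ Real.exp (T^c1) → Leaf θ η S ψ lab → 0 < G →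
    XTame X G S → E ⊆ S ×ˢ S → (∀ e ∈ E, Dq ψ e.1 e.2 ≤ 1 / T) →
    ∑ e ∈ E, T12 θ ψ (fun q => η * ψ q) lab e.1 e.2
      ≤ C * T^(-(6/1000):ℝ) * (mass ψ S * mass ψ S)^(1/2+eps1) + C * mass ψ S := by
  classical
  obtain ⟨C, c0, hC1, hc0, hC⟩ := one_scale
  have hCP := CP_nonneg
  set ρ : ℝ := (2:ℝ)^(-(6/1000):ℝ) with hρ
  have hρ0 : 0 < ρ := by positivity
  have hρ1 : ρ < 1 := Real.rpow_lt_one_of_one_lt_of_neg (by norm_num) (by norm_num)
  set Cg : ℝ := 1/(1-ρ) with hCg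
  have hCg0 : 0 < Cg := by
    have : 0 < 1 - ρ := by linarith
    positivity
  refine ⟨max C (max (C * Cg) CP), c0, le_trans hC1 (le_max_left _ _), hc0, ?_⟩
  intro c1 hc1 hc10
  obtain ⟨T0, hT0⟩ := hC c1 hc1 hc10
  refine ⟨max T0 1, le_max_right _ _, ?_⟩
  intro θ η T X S ψ lab E G hT hηT hX hL hG hTame hE hD
  have hT01 : T0 ≤ T := (le_max_left _ _).trans hT
  have hT1 : 1 ≤ T := (le_max_right _ _).trans hT
  have hTp : 0 < T := by linarith
  have hη := hL.hη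
  have hη1 := hL.hη1
  set φ : ℕ → ℝ := fun q => η * ψ q with hφ
  set M := mass ψ S with hM
  have hM0 : 0 ≤ M := Finset.sum_nonneg fun q hq => mul_nonneg (hL.hψ q hq).le (by positivity)
  have hMs : 0 ≤ (M * M)^(1/2+eps1) := by positivity
  set f : ℕ × ℕ → ℝ := fun e => T12 θ ψ φ lab e.1 e.2 with hf
  set Ed := E.filter (fun e => e.1 = e.2) with hEd
  set En := E.filter (fun e => ¬ e.1 = e.2) with hEn
  have hsplit : ∑ e ∈ E, f e = ∑ e ∈ Ed, f e + ∑ e ∈ En, f e := by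
    rw [hEd, hEn, Finset.sum_filter_add_sum_filter_not]
  -- diagonal
  have hdiag : ∑ e ∈ Ed, f e ≤ CP * M := by
    have h1 : ∑ e ∈ Ed, f e ≤ ∑ e ∈ Ed, CP * (ψ e.1 * ((Nat.totient e.1 : ℝ) / e.1)) := by
      apply Finset.sum_le_sum
      intro e he
      rw [hEd, Finset.mem_filter] at he
      have hm := Finset.mem_product.1 (hE he.1)
      have hψq := hL.hψ _ hm.1
      have hq := hL.hS _ hm.1
      simp only [hf]
      rw [← he.2]
      apply T12_diag_le lab hq (mul_pos hη hψq) (by simp only [hφ]; nlinarith)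
      have h2 : (cof e.2 e.1 : ℝ) * ψ e.1 ≤ Dq ψ e.1 e.2 := le_max_left _ _
      have h3 := h2.trans (hD e he.1)
      have h4 : (1:ℝ) ≤ cof e.2 e.1 := by
        exact_mod_cast cof_pos (w := e.1) (hL.hS _ hm.2)
      have h5 : 1/T ≤ 1 := by rw [div_le_one hTp]; exact hT1
      nlinarith
    refine h1.trans ?_
    rw [← Finset.mul_sum]
    apply mul_le_mul_of_nonneg_left _ hCP
    have hinj : Set.InjOn Prod.fst (Ed : Set (ℕ × ℕ)) := by
      intro a ha b hb hab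
      have ha' := (Finset.mem_filter.1 ha).2
      have hb' := (Finset.mem_filter.1 hb).2
      exact Prod.ext hab (by rw [← ha', ← hb']; exact hab)
    rw [← Finset.sum_image (f := fun q => ψ q * ((Nat.totient q : ℝ) / q)) hinj, hM]
    unfold mass
    apply Finset.sum_le_sum_of_subset_of_nonneg
    · intro q hq
      obtain ⟨e, he, rfl⟩ := Finset.mem_image.1 hq
      exact (Finset.mem_product.1 (hE (Finset.mem_filter.1 he).1)).1
    · intro q hq _
      exact mul_nonneg (hL.hψ q hq).le (by positivity)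
  -- off diagonal, dyadic scales
  set Di : ℕ × ℕ → ℝ := fun e => Dq ψ e.1 e.2 with hDi
  have hDpos : ∀ e ∈ E, 0 < Di e := by
    intro e he
    have hm := Finset.mem_product.1 (hE he)
    exact Dq_pos (hL.hS _ hm.2) (hL.hψ _ hm.1)
  set ix : ℕ × ℕ → ℕ := fun e => Nat.log 2 ⌊1/(T * Di e)⌋₊ with hix
  have hixp : ∀ e ∈ E, 1 / (2 * (2^(ix e) * T)) < Di e ∧ Di e ≤ 1 / (2^(ix e) * T) := by
    intro e he
    have h0 := hDpos e he
    have h1 : 1 ≤ 1/(T * Di e) := by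
      rw [le_div_iff₀ (by positivity), one_mul]
      have := hD e he
      rw [le_div_iff₀ hTp] at this
      simp only [hDi]; linarith
    have hfl : 1 ≤ ⌊1/(T * Di e)⌋₊ := Nat.le_floor (by simpa using h1)
    have h2 : 2^(ix e) ≤ ⌊1/(T * Di e)⌋₊ := Nat.pow_log_le_self 2 (by omega)
    have h3 : ⌊1/(T * Di e)⌋₊ < 2^(ix e + 1) := Nat.lt_pow_succ_log_self (by norm_num) _
    have h2' : (2:ℝ)^(ix e) ≤ 1/(T * Di e) := by
      calc (2:ℝ)^(ix e) ≤ (⌊1/(T * Di e)⌋₊ : ℝ) := by exact_mod_cast h2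
        _ ≤ _ := Nat.floor_le (by positivity)
    have h3' : 1/(T * Di e) < (2:ℝ)^(ix e + 1) := by
      have := Nat.lt_of_floor_lt h3
      push_cast at this; exact this
    have hp : (0:ℝ) < 2^(ix e) := by positivity
    rw [le_div_iff₀ (by positivity)] at h2'
    rw [div_lt_iff₀ (by positivity), pow_succ] at h3'
    constructor
    · rw [div_lt_iff₀ (by positivity)]; nlinarith
    · rw [le_div_iff₀ (by positivity)]; nlinarith
  set J : ℕ := En.sup ix + 1 with hJ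
  have hmaps : ∀ e ∈ En, ix e ∈ range J := by
    intro e he
    rw [Finset.mem_range]
    have : ix e ≤ En.sup ix := Finset.le_sup (f := ix) he
    omega
  have hscale : ∀ j ∈ range J, ∑ e ∈ En.filter (fun e => ix e = j), f e
      ≤ C * T^(-(6/1000):ℝ) * (M * M)^(1/2+eps1) * ρ^j := by
    intro j _
    set t : ℝ := 2^j * T with ht
    have h2j : (1:ℝ) ≤ 2^j := one_le_pow₀ (by norm_num)
    have htT : T ≤ t := by rw [ht]; nlinarith
    have ht0 : 0 < t := by linarith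
    have hXt : X ≤ Real.exp (t^c1) :=
      hX.trans (Real.exp_le_exp.2 (Real.rpow_le_rpow hTp.le htT hc1.le))
    have h5 := hT0 θ η t S ψ lab (En.filter (fun e => ix e = j)) G (hT01.trans htT) (hηT.trans htT) hL hG
      (hTame _ hXt) (((Finset.filter_subset _ _).trans (Finset.filter_subset _ _)).trans hE)
      (fun e he => (Finset.mem_filter.1 (Finset.mem_filter.1 he).1).2)
      (by
        intro e he
        rw [Finset.mem_filter] at he
        have h6 := hixp e (Finset.mem_filter.1 he.1).1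
        rw [he.2] at h6
        exact h6)
    refine h5.trans (le_of_eq ?_)
    have e1 : t^(-(6/1000):ℝ) = T^(-(6/1000):ℝ) * ρ^j := by
      rw [ht, Real.mul_rpow (by positivity) hTp.le, hρ, ← Real.rpow_natCast, ← Real.rpow_natCast,
        ← Real.rpow_mul (by norm_num), ← Real.rpow_mul (by norm_num), mul_comm (j:ℝ)]
      ring
    rw [e1, ← hM]; ring
  have hoff : ∑ e ∈ En, f e ≤ C * Cg * T^(-(6/1000):ℝ) * (M * M)^(1/2+eps1) := by
    rw [← Finset.sum_fiberwise_of_maps_to hmaps]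
    refine (Finset.sum_le_sum hscale).trans ?_
    rw [← Finset.mul_sum]
    have hgeo : ∑ j ∈ range J, ρ^j ≤ Cg := by
      rw [geom_sum_eq (by linarith), hCg]
      have h1 : 0 ≤ ρ^J := by positivity
      rw [show (ρ^J - 1)/(ρ - 1) = (1 - ρ^J)/(1-ρ) by
        rw [← neg_div_neg_eq]; congr 1 <;> ring]
      apply div_le_div_of_nonneg_right _ (by linarith)
      linarith
    calc C * T^(-(6/1000):ℝ) * (M * M)^(1/2+eps1) * ∑ j ∈ range J, ρ^j
        ≤ C * T^(-(6/1000):ℝ) * (M * M)^(1/2+eps1) * Cg :=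
          mul_le_mul_of_nonneg_left hgeo (by positivity)
      _ = _ := by ring
  rw [hsplit]
  calc ∑ e ∈ Ed, f e + ∑ e ∈ En, f e
      ≤ CP * M + C * Cg * T^(-(6/1000):ℝ) * (M * M)^(1/2+eps1) := add_le_add hdiag hoff
    _ ≤ max C (max (C * Cg) CP) * M + max C (max (C * Cg) CP) * T^(-(6/1000):ℝ) * (M * M)^(1/2+eps1) := by
        apply add_le_add
        · exact mul_le_mul_of_nonneg_right ((le_max_right _ _).trans (le_max_right _ _)) hM0
        · apply mul_le_mul_of_nonneg_right _ hMs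
          apply mul_le_mul_of_nonneg_right _ (by positivity)
          exact (le_max_left _ _).trans (le_max_right _ _)
    _ = _ := by ring

end Crest.Agent.R4.LF11s
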