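import Mathlib
import Crest.Agent.R4.ClsAll_944
import Crest.Agent.R4.LF11s_944
import Crest.Agent.R4.LF11_579

/-!
R4 (S0004), helper223: TWO-TARGET version of helper944's classes (U), (S), (B): the energy of the
related pairs at one scale `D ~ 1/t` for two targets `θ'` (multiplied by `x`) and `θ` (multiplied by
`y`); cofactors arbitrary (not smooth), systems tame at `exp (t^{c1})`.  Adapted from
`ClsS_944`, `ClsB_944`, `ClsAll_944`.
-/

set_option autoImplicit false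
open Finset

namespace Crest.Agent.R4.ClsT223

open Crest.Agent.R4.HVW560 Crest.Agent.R4.Smo944 Crest.Agent.R4.LF10 Crest.Agent.R016
open Crest.Agent.R4.LF765 Crest.Agent.R4.ClsS Crest.Agent.R4.ClsU Crest.Agent.R4.LF9
open Crest.Agent.R4.ClsB Crest.Agent.R4.LF8

/-- an unstructured related pair of class (S), targets `θ'` (for `x`) and `θ` (for `y`) -/
structure PairST (θ θ' t N Yb : ℝ) (x y : ℕ) : Prop where
  hx : 0 < x
  hxy : x < y
  hN : N < y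
  hyY : (y:ℝ) ≤ Yb
  rel : ∃ n : ℤ, |(n:ℝ) - (θ' * x - θ * y)| ≤ 2 / t
  uns : ∀ Y : ℝ, 0 < Y → Y < y → (y:ℝ) ≤ 2 * Y → ¬ Struct N θ t Y

/-- the number of partners in a dyadic block -/
theorem count_blockT {θ θ' t N Yb : ℝ} (hN : 1 ≤ N) (ht : 200 * N ≤ t) (R : Finset (ℕ × ℕ))
    (hR : ∀ e ∈ R, PairST θ θ' t N Yb e.1 e.2) (x j : ℕ) :
    ((R.filter (fun e => e.1 = x ∧ 2^j < e.2 ∧ e.2 ≤ 2^(j+1))).card : ℝ) ≤ 4 / N * 2^j := by
  classical
  have ht0 : 0 < t := by linarith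
  have hN0 : 0 < N := by linarith
  set F := R.filter (fun e => e.1 = x ∧ 2^j < e.2 ∧ e.2 ≤ 2^(j+1)) with hF
  rcases F.eq_empty_or_nonempty with hem | ⟨e0, he0⟩
  · rw [hem]; simp; positivity
  rw [hF, Finset.mem_filter] at he0
  obtain ⟨he0R, he0x, he0l, he0u⟩ := he0
  have hP0 := hR e0 he0R
  have h0l : ((2:ℝ)^j) < e0.2 := by exact_mod_cast he0l
  have h0u : (e0.2:ℝ) ≤ 2 * 2^j := by
    have : (e0.2:ℝ) ≤ 2^(j+1) := by exact_mod_cast he0u
    rw [pow_succ] at this; linarith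
  have hns := hP0.uns (2^j) (by positivity) h0l h0u
  have hcard : F.card = (F.image Prod.snd).card := by
    rw [Finset.card_image_of_injOn]
    intro a ha b hb hab
    have ha' := (Finset.mem_filter.1 ha).2
    have hb' := (Finset.mem_filter.1 hb).2
    exact Prod.ext (ha'.1.trans hb'.1.symm) hab
  have h1 := LF6 (N := N) (θ := θ) (t := t) (Y := 2^j) hN (by positivity) ht hns (θ' * x)
    (F.image Prod.snd) (by
      intro y hy
      obtain ⟨e, he, rfl⟩ := Finset.mem_image.1 hy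
      rw [hF, Finset.mem_filter] at he
      obtain ⟨_, _, h2, h3⟩ := he
      have h3' : (e.2:ℝ) ≤ 2^(j+1) := by exact_mod_cast h3
      rw [pow_succ] at h3'
      exact ⟨by exact_mod_cast h2, by linarith⟩) (by
      intro y hy
      obtain ⟨e, he, rfl⟩ := Finset.mem_image.1 hy
      rw [hF, Finset.mem_filter] at he
      obtain ⟨heR, hex, _, _⟩ := he
      obtain ⟨n, hn⟩ := (hR e heR).rel
      refine ⟨-n, ?_⟩
      rw [hex] at hn
      have e4 : θ * (e.2:ℝ) - θ' * x - ((-n : ℤ):ℝ) = (n:ℝ) - (θ' * x - θ * e.2) := by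
        push_cast; ring
      rw [e4]; exact hn)
  rw [← hcard] at h1
  have h2 := hP0.hN
  have h3 : 1 ≤ 2 * 2^j / N := by
    rw [le_div_iff₀ hN0]; linarith
  calc (F.card:ℝ) ≤ 2 * 2^j / N + 1 := h1.le
    _ ≤ 2 * 2^j / N + 2 * 2^j / N := by linarith
    _ = 4 / N * 2^j := by ring

/-- sum over the relation of class (S) -/
theorem exists_sum_RT {κ : ℝ} (hκ : 0 ≤ κ) : ∃ C c0 : ℝ, 1 ≤ C ∧ 0 < c0 ∧ c0 ≤ 1/40 ∧
    ∀ (θ θ' t Yb : ℝ) (R : Finset (ℕ × ℕ)), 2^10 ≤ t → Yb ≤ Real.exp (t^c0) →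
    (∀ e ∈ R, PairST θ θ' t (t^(1/10:ℝ)) Yb e.1 e.2) →
    ∑ e ∈ R, wn κ e.1 * wn κ e.2 ≤ C * t^(-(1/40):ℝ) := by
  classical
  set K : ℝ := κ * Sm 6 + κ^2 * Sm 12 with hK
  have hS6 := (Sm_pos 6).le
  have hS12 := (Sm_pos 12).le
  have hK0 : 0 ≤ K := by positivity
  set c0 : ℝ := 1/(40*(K+1)) with hc0
  have hc0p : 0 < c0 := by positivity
  have hc40 : c0 ≤ 1/40 := by
    rw [hc0]
    apply one_div_le_one_div_of_le (by norm_num)
    linarith
  refine ⟨4 * Real.exp (6*K), c0, ?_, hc0p, hc40, ?_⟩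
  · have : 1 ≤ Real.exp (6*K) := Real.one_le_exp (by positivity)
    linarith
  intro θ θ' t Yb R ht hYb hR
  have ht0 : 0 < t := by linarith
  have ht1 : 1 ≤ t := by linarith
  rcases R.eq_empty_or_nonempty with rfl | hne
  · rw [Finset.sum_empty]; positivity
  set N : ℝ := t^(1/10:ℝ) with hN
  have hN1 : 1 ≤ N := Real.one_le_rpow ht1 (by norm_num)
  have hN200 : 200 * N ≤ t := by
    have e1 : t = N * t^(9/10:ℝ) := by
      rw [hN, ← Real.rpow_add ht0]; norm_num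
    have e2 : (200:ℝ) ≤ t^(9/10:ℝ) := by
      calc (200:ℝ) ≤ (2^10:ℝ)^(9/10:ℝ) := by
            rw [← Real.rpow_natCast, ← Real.rpow_mul (by norm_num)]
            norm_num
        _ ≤ _ := Real.rpow_le_rpow (by norm_num) ht (by norm_num)
    calc 200 * N ≤ t^(9/10:ℝ) * N := mul_le_mul_of_nonneg_right e2 (by linarith)
      _ = t := by rw [mul_comm]; exact e1.symm
  set z : ℕ := max 2 ⌊Yb⌋₊ with hz
  have hz2 : 2 ≤ z := le_max_left _ _
  have hzY : ∀ n : ℕ, (n:ℝ) ≤ Yb → n ≤ z := fun n hn => (Nat.le_floor hn).trans (le_max_right _ _)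
  have hsm : ∀ n : ℕ, 0 < n → (n:ℝ) ≤ Yb → ∀ p, p.Prime → p ∣ n → p ≤ z := fun n hn hnY p _ hpn =>
    (Nat.le_of_dvd hn hpn).trans (hzY n hnY)
  have hX : Smooth z (R.image Prod.fst) := by
    intro b hb
    obtain ⟨e, he, rfl⟩ := Finset.mem_image.1 hb
    have h := hR e he
    refine ⟨h.hx, hsm _ h.hx ?_⟩
    have : (e.1:ℝ) ≤ e.2 := by exact_mod_cast h.hxy.le
    exact this.trans h.hyY
  have hY : Smooth z (R.image Prod.snd) := by
    intro b hb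
    obtain ⟨e, he, rfl⟩ := Finset.mem_image.1 hb
    have h := hR e he
    have h0 : 0 < e.2 := lt_trans h.hx h.hxy
    exact ⟨h0, hsm _ h0 h.hyY⟩
  set L : ℕ := Nat.clog 2 z with hL
  have hLle : ∀ e ∈ R, e.2 ≤ 2^L := by
    intro e he
    exact (hzY _ (hR e he).hyY).trans (Nat.le_pow_clog (by norm_num) _)
  have h1R : ∀ e ∈ R, 1 < e.2 := by
    intro e he
    have h := hR e he
    have := h.hx; have := h.hxy; omega
  have key := sum_R_le hκ hz2 (ρ := 4/N) (by positivity) L R hX hY h1R hLle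
    (count_blockT hN1 hN200 R hR)
  rw [← hK] at key
  refine key.trans ?_
  -- numerics
  set Z : ℝ := t^c0 with hZ
  have hZ1 : 1 ≤ Z := Real.one_le_rpow ht1 hc0p.le
  have hz0 : (0:ℝ) < z := by positivity
  have hlogz : Real.log z ≤ Z := by
    have h1 : (z:ℝ) ≤ Real.exp Z := by
      rw [hz]
      push_cast
      apply max_le
      · have := Real.add_one_le_exp Z
        linarith
      · have hYpos : 0 ≤ Yb := by
          obtain ⟨e, he⟩ := hne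
          exact le_trans (by positivity) (hR e he).hyY
        exact (Nat.floor_le hYpos).trans hYb
    calc Real.log z ≤ Real.log (Real.exp Z) := Real.log_le_log hz0 h1
      _ = Z := Real.log_exp Z
  have hlogz0 : 0 < Real.log z := Real.log_pos (by
    have : (2:ℝ) ≤ z := by exact_mod_cast hz2
    linarith)
  have hLr : (L:ℝ) ≤ 4 * Z := by
    have := clog_le hz2
    rw [← hL] at this
    nlinarith
  have hexp : Real.exp (K * (Real.log (Real.log z) + 6)) ≤ Real.exp (6*K) * Z^K := by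
    have h2 : Real.log (Real.log z) ≤ Real.log Z := Real.log_le_log hlogz0 hlogz
    have h3 : Z^K = Real.exp (K * Real.log Z) := by
      rw [Real.rpow_def_of_pos (by linarith), mul_comm]
    rw [h3, ← Real.exp_add]
    apply Real.exp_le_exp.2
    nlinarith
  have hρL : (4/N * (L:ℝ))^(1/2:ℝ) ≤ 4 * (N^(-(1/2):ℝ) * Z^(1/2:ℝ)) := by
    have h1 : 4/N * (L:ℝ) ≤ 16 * (N⁻¹ * Z) := by
      have : 4/N * (L:ℝ) ≤ 4/N * (4*Z) := mul_le_mul_of_nonneg_left hLr (by positivity)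
      refine this.trans (le_of_eq ?_)
      rw [div_eq_mul_inv]; ring
    calc (4/N * (L:ℝ))^(1/2:ℝ) ≤ (16 * (N⁻¹ * Z))^(1/2:ℝ) :=
          Real.rpow_le_rpow (by positivity) h1 (by norm_num)
      _ = 4 * (N^(-(1/2):ℝ) * Z^(1/2:ℝ)) := by
          rw [Real.mul_rpow (by norm_num) (by positivity), Real.mul_rpow (by positivity) (by positivity)]
          congr 1
          · rw [show (16:ℝ) = 4^(2:ℝ) by norm_num, ← Real.rpow_mul (by norm_num)]; norm_num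
          · congr 1
            rw [← Real.rpow_neg_one, ← Real.rpow_mul (by linarith)]; norm_num
  calc (4/N * (L:ℝ))^(1/2:ℝ) * Real.exp (K * (Real.log (Real.log z) + 6))
      ≤ (4 * (N^(-(1/2):ℝ) * Z^(1/2:ℝ))) * (Real.exp (6*K) * Z^K) :=
        mul_le_mul hρL hexp (by positivity) (by positivity)
    _ = 4 * Real.exp (6*K) * (N^(-(1/2):ℝ) * (Z^(1/2:ℝ) * Z^K)) := by ring
    _ ≤ 4 * Real.exp (6*K) * t^(-(1/40):ℝ) := by
        apply mul_le_mul_of_nonneg_left _ (by positivity)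
        rw [← Real.rpow_add (by linarith), hN, hZ, ← Real.rpow_mul ht0.le, ← Real.rpow_mul ht0.le,
          ← Real.rpow_add ht0]
        apply Real.rpow_le_rpow_of_exponent_le ht1
        have : c0 * (1/2 + K) ≤ 1/40 := by
          rw [hc0, div_mul_eq_mul_div, div_le_div_iff₀ (by positivity) (by norm_num)]
          nlinarith
        linarith

/-- **class (S)**, one orientation -/
theorem classST_half : ∃ C c0 : ℝ, 1 ≤ C ∧ 0 < c0 ∧ c0 ≤ 1/40 ∧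
    ∀ (θ θ' t Yb : ℝ) (V W : Finset ℕ) (E : Finset (ℕ × ℕ)) (ψ ψ' : ℕ → ℝ), 2^10 ≤ t →
    Yb ≤ Real.exp (t^c0) → Sys V W E ψ ψ' (1/t) →
    (∀ e ∈ E, PairST θ θ' t (t^(1/10:ℝ)) Yb (cof e.1 e.2) (cof e.2 e.1)) →
    ∑ e ∈ E, wt ψ e.1 * wt ψ' e.2 * (Af (cof e.1 e.2) * Af (cof e.2 e.1))
      ≤ C * t^(-(101/100):ℝ) * ((∑ v ∈ V, wt ψ v) * (∑ w ∈ W, wt ψ' w))^(1/2+eps1) := by
  classical
  have hε : (0:ℝ) < eps1 := by unfold eps1; norm_num
  have hε4 : eps1 ≤ 1/4 := by unfold eps1; norm_num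
  obtain ⟨C, c0, hC1, hc0, hc40, hC⟩ := exists_sum_RT (κ := 16*(72/eps1)^3) (by positivity)
  refine ⟨C, c0, hC1, hc0, hc40, ?_⟩
  intro θ θ' t Yb V W E ψ ψ' ht hYb hs hE
  have ht0 : 0 < t := by linarith
  have ht1 : 1 ≤ t := by linarith
  have key := energy_R hε hε4 hs
  have hR := hC θ θ' t Yb (E.image (fun e => (cof e.1 e.2, cof e.2 e.1))) ht hYb (by
    intro e he
    obtain ⟨e', he', rfl⟩ := Finset.mem_image.1 he
    exact hE e' he')
  refine key.trans ?_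
  have hM : 0 ≤ (∑ v ∈ V, wt ψ v) * (∑ w ∈ W, wt ψ' w) :=
    mul_nonneg (Finset.sum_nonneg fun v hv => wt_nonneg (hs.hψ v hv))
      (Finset.sum_nonneg fun v hv => wt_nonneg (hs.hθ v hv))
  rw [← mul_assoc]
  apply mul_le_mul_of_nonneg_right _ (by positivity)
  have hR0 : 0 ≤ ∑ x ∈ E.image (fun e => (cof e.1 e.2, cof e.2 e.1)),
      wn (16*(72/eps1)^3) x.1 * wn (16*(72/eps1)^3) x.2 :=
    Finset.sum_nonneg fun x _ => mul_nonneg (wn_nonneg (by positivity) _) (wn_nonneg (by positivity) _)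
  have h1 : (∑ x ∈ E.image (fun e => (cof e.1 e.2, cof e.2 e.1)),
      wn (16*(72/eps1)^3) x.1 * wn (16*(72/eps1)^3) x.2)^(1/2-eps1) ≤ C * t^(-(1/40)*(1/2-eps1)) := by
    calc _ ≤ (C * t^(-(1/40):ℝ))^(1/2-eps1) :=
          Real.rpow_le_rpow hR0 hR (by unfold eps1; norm_num)
      _ = C^(1/2-eps1) * t^(-(1/40)*(1/2-eps1)) := by
          rw [Real.mul_rpow (by positivity) (by positivity), ← Real.rpow_mul ht0.le]
      _ ≤ C * t^(-(1/40)*(1/2-eps1)) := by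
          apply mul_le_mul_of_nonneg_right _ (by positivity)
          calc C^(1/2-eps1) ≤ C^(1:ℝ) :=
                Real.rpow_le_rpow_of_exponent_le hC1 (by unfold eps1; norm_num)
            _ = C := Real.rpow_one C
  have h2 : (1/t)^(1-2*eps1) = t^(-(1-2*eps1)) := by
    rw [one_div, Real.inv_rpow ht0.le, Real.rpow_neg ht0.le]
  rw [h2]
  calc t^(-(1-2*eps1)) * _ ≤ t^(-(1-2*eps1)) * (C * t^(-(1/40)*(1/2-eps1))) :=
        mul_le_mul_of_nonneg_left h1 (by positivity)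
    _ = C * (t^(-(1-2*eps1)) * t^(-(1/40)*(1/2-eps1))) := by ring
    _ ≤ C * t^(-(101/100):ℝ) := by
        apply mul_le_mul_of_nonneg_left _ (by linarith)
        rw [← Real.rpow_add ht0]
        apply Real.rpow_le_rpow_of_exponent_le ht1
        unfold eps1; norm_num

/-- an unstructured related pair with `N < max x y ≤ Yb` -/
structure PairST2 (θ θ' t N Yb : ℝ) (x y : ℕ) : Prop where
  hx : 0 < x
  hy : 0 < y
  hxy : x ≠ y
  hN : N < ((max x y : ℕ):ℝ)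
  hmY : ((max x y : ℕ):ℝ) ≤ Yb
  rel : ∃ n : ℤ, |(n:ℝ) - (θ' * x - θ * y)| ≤ 2 / t
  uns : ∀ Y : ℝ, 0 < Y → Y < ((max x y : ℕ):ℝ) → ((max x y : ℕ):ℝ) ≤ 2 * Y →
    (x < y → ¬ Struct N θ t Y) ∧ (y < x → ¬ Struct N θ' t Y)

/-- **class (S)**: all unstructured related pairs with cofactors at most `Yb ≤ exp (t^{c0})`. -/
theorem classST : ∃ C c0 : ℝ, 1 ≤ C ∧ 0 < c0 ∧ c0 ≤ 1/40 ∧
    ∀ (θ θ' t Yb : ℝ) (V W : Finset ℕ) (E : Finset (ℕ × ℕ)) (ψ ψ' : ℕ → ℝ), 2^10 ≤ t →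
    Yb ≤ Real.exp (t^c0) → Sys V W E ψ ψ' (1/t) →
    (∀ e ∈ E, PairST2 θ θ' t (t^(1/10:ℝ)) Yb (cof e.1 e.2) (cof e.2 e.1)) →
    ∑ e ∈ E, wt ψ e.1 * wt ψ' e.2 * (Af (cof e.1 e.2) * Af (cof e.2 e.1))
      ≤ C * t^(-(101/100):ℝ) * ((∑ v ∈ V, wt ψ v) * (∑ w ∈ W, wt ψ' w))^(1/2+eps1) := by
  classical
  obtain ⟨C, c0, hC1, hc0, hc40, hC⟩ := classST_half
  refine ⟨2*C, c0, by linarith, hc0, hc40, ?_⟩
  intro θ θ' t Yb V W E ψ ψ' ht hYb hs hE
  set f : ℕ × ℕ → ℝ := fun e => wt ψ e.1 * wt ψ' e.2 * (Af (cof e.1 e.2) * Af (cof e.2 e.1)) with hf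
  set E1 := E.filter (fun e => cof e.1 e.2 < cof e.2 e.1) with hE1
  set E2 := E.filter (fun e => ¬ cof e.1 e.2 < cof e.2 e.1) with hE2
  have hsplit : ∑ e ∈ E, f e = ∑ e ∈ E1, f e + ∑ e ∈ E2, f e := by
    rw [hE1, hE2, Finset.sum_filter_add_sum_filter_not]
  have hs1 : Sys V W E1 ψ ψ' (1/t) :=
    { hδ := hs.hδ, hV := hs.hV, hW := hs.hW, hψ := hs.hψ, hθ := hs.hθ
      hE := (Finset.filter_subset _ _).trans hs.hE
      h1 := fun e he => hs.h1 e (Finset.mem_filter.1 he).1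
      h2 := fun e he => hs.h2 e (Finset.mem_filter.1 he).1 }
  have b1 := hC θ θ' t Yb V W E1 ψ ψ' ht hYb hs1 (by
    intro e he
    rw [hE1, Finset.mem_filter] at he
    have h := hE e he.1
    have hmax : max (cof e.1 e.2) (cof e.2 e.1) = cof e.2 e.1 := max_eq_right he.2.le
    exact ⟨h.hx, he.2, by rw [← hmax]; exact h.hN, by rw [← hmax]; exact h.hmY, h.rel,
      fun Y k1 k2 k3 => (h.uns Y k1 (by rw [hmax]; exact k2) (by rw [hmax]; exact k3)).1 he.2⟩)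
  set E2' := E2.image Prod.swap with hE2'
  have hinj : Set.InjOn (Prod.swap : ℕ × ℕ → ℕ × ℕ) (E2 : Set (ℕ × ℕ)) :=
    Prod.swap_injective.injOn
  have hs2 : Sys W V E2' ψ' ψ (1/t) :=
    { hδ := hs.hδ, hV := hs.hW, hW := hs.hV, hψ := hs.hθ, hθ := hs.hψ
      hE := by
        intro e he
        obtain ⟨e', he', rfl⟩ := Finset.mem_image.1 he
        have := Finset.mem_product.1 (hs.hE (Finset.mem_filter.1 he').1)
        exact Finset.mem_product.2 ⟨this.2, this.1⟩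
      h1 := by
        intro e he
        obtain ⟨e', he', rfl⟩ := Finset.mem_image.1 he
        exact hs.h2 e' (Finset.mem_filter.1 he').1
      h2 := by
        intro e he
        obtain ⟨e', he', rfl⟩ := Finset.mem_image.1 he
        exact hs.h1 e' (Finset.mem_filter.1 he').1 }
  have b2 := hC θ' θ t Yb W V E2' ψ' ψ ht hYb hs2 (by
    intro e he
    obtain ⟨e', he', rfl⟩ := Finset.mem_image.1 he
    rw [hE2, Finset.mem_filter] at he'
    have h := hE e' he'.1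
    have hlt : cof e'.2 e'.1 < cof e'.1 e'.2 := lt_of_le_of_ne (not_lt.1 he'.2) (Ne.symm h.hxy)
    have hmax : max (cof e'.1 e'.2) (cof e'.2 e'.1) = cof e'.1 e'.2 := max_eq_left hlt.le
    refine ⟨h.hy, hlt, by simp only [Prod.fst_swap, Prod.snd_swap]; rw [← hmax]; exact h.hN,
      by simp only [Prod.fst_swap, Prod.snd_swap]; rw [← hmax]; exact h.hmY, ?_, by
      simp only [Prod.fst_swap, Prod.snd_swap]
      exact fun Y k1 k2 k3 => (h.uns Y k1 (by rw [hmax]; exact k2) (by rw [hmax]; exact k3)).2 hlt⟩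
    obtain ⟨n, hn⟩ := h.rel
    refine ⟨-n, ?_⟩
    simp only [Prod.fst_swap, Prod.snd_swap]
    rw [← abs_neg]
    have e5 : -(((-n : ℤ):ℝ) - (θ * (cof e'.2 e'.1 : ℝ) - θ' * cof e'.1 e'.2))
        = (n:ℝ) - (θ' * (cof e'.1 e'.2 : ℝ) - θ * cof e'.2 e'.1) := by push_cast; ring
    rw [e5]; exact hn)
  have hb2 : ∑ e ∈ E2', wt ψ' e.1 * wt ψ e.2 * (Af (cof e.1 e.2) * Af (cof e.2 e.1)) = ∑ e ∈ E2, f e := by
    rw [hE2', Finset.sum_image hinj]
    apply Finset.sum_congr rfl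
    intro e _
    simp only [hf, Prod.fst_swap, Prod.snd_swap]
    ring
  rw [hb2, mul_comm (∑ w ∈ W, wt ψ' w)] at b2
  have : ∑ e ∈ E, f e ≤ C * t^(-(101/100):ℝ) * ((∑ v ∈ V, wt ψ v) * (∑ w ∈ W, wt ψ' w))^(1/2+eps1)
      + C * t^(-(101/100):ℝ) * ((∑ v ∈ V, wt ψ v) * (∑ w ∈ W, wt ψ' w))^(1/2+eps1) := by
    rw [hsplit]; exact add_le_add b1 b2
  refine this.trans (le_of_eq ?_)
  ring

/-- relation of class (B) -/
structure PairBT (θ θ' t N2 Yb : ℝ) (x y : ℕ) : Prop where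
  hx : 0 < x
  hxy : x < y
  hyY : Yb < y
  rel : ∃ n : ℤ, |(n:ℝ) - (θ' * x - θ * y)| ≤ 2 / t
  uns : ∀ Y : ℝ, 0 < Y → Y < y → (y:ℝ) ≤ 2 * Y → ¬ Struct N2 θ t Y

/-- the `β`-hypothesis -/
theorem betaHypT {θ θ' t N B1 Yb z : ℝ} {a b : ℕ} (hN : 1 ≤ N) (ht : 200 * N ≤ t) (hB1 : 1 ≤ B1)
    (hbig : N ≤ Yb / (2*B1)) (hb : 0 < b) (hbB : (b:ℝ) ≤ B1) :
    BetaHyp z (fun x y => Nat.Coprime x y ∧ PairBT θ θ' t (2*N^5) Yb (a*x) (b*y)) (bet θ t N B1 Yb b) := by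
  classical
  intro v Y _
  have ht0 : 0 < t := by linarith
  have hN0 : 0 < N := by linarith
  have hbr : (0:ℝ) < b := by exact_mod_cast hb
  set S := (range (Y+1)).filter (fun w => ZR z w ∧ Nat.Coprime v w ∧ PairBT θ θ' t (2*N^5) Yb (a*v) (b*w)) with hS
  refine le_trans (le_of_eq (Finset.sum_congr (s₂ := S) ?_ fun _ _ => rfl)) ?_
  · ext w
    simp only [hS, Finset.mem_filter]
  have hS1 : ∀ w ∈ S, 0 < w ∧ w ≤ Y := by
    intro w hw
    rw [hS, Finset.mem_filter, Finset.mem_range] at hw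
    exact ⟨hw.2.1.1, by omega⟩
  by_cases hBB : BBp θ t N B1 Yb b
  · have : bet θ t N B1 Yb b = 6 := by unfold bet; rw [if_pos hBB]
    rw [this]
    exact dyadic_triv hS1
  · have hbet : bet θ t N B1 Yb b = 3 * (3 / N) := by unfold bet; rw [if_neg hBB]; ring
    rw [hbet]
    apply dyadic_sum (by positivity) hS1
    intro i
    set W0 : ℝ := (Y:ℝ)/2^(i+1) with hW0
    set F := S.filter (fun w : ℕ => W0 < (w:ℝ) ∧ (w:ℝ) ≤ 2 * W0) with hF
    rcases F.eq_empty_or_nonempty with hem | ⟨w0, hw0⟩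
    · rw [hem]; simp; positivity
    rw [hF, Finset.mem_filter, hS, Finset.mem_filter] at hw0
    obtain ⟨⟨_, _, _, hP⟩, hlo, hhi⟩ := hw0
    have hYpos : 0 < W0 := by
      have h1 := hP.hxy
      have : 0 < w0 := by
        rcases Nat.eq_zero_or_pos w0 with h | h
        · subst h; simp at h1
        · exact h
      have h2 : (0:ℝ) < w0 := by exact_mod_cast this
      linarith
    have h1 : Yb / (2*B1) ≤ W0 := by
      rw [div_le_iff₀ (by positivity)]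
      have h2 := hP.hyY
      push_cast at h2
      have h3 : (b:ℝ) * w0 ≤ B1 * (2*W0) := mul_le_mul hbB hhi (by positivity) (by linarith)
      linarith
    have hns2 : ¬ NStr θ t (2*b*W0) (2*N^5) := by
      intro hcon
      have h4 : ¬ Struct (2*N^5) θ t (b*W0) := hP.uns (b*W0) (by positivity)
        (by push_cast; exact mul_lt_mul_of_pos_left hlo hbr)
        (by
          push_cast
          calc (b:ℝ) * w0 ≤ b * (2*W0) := mul_le_mul_of_nonneg_left hhi hbr.le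
            _ = 2 * (b*W0) := by ring)
      apply h4
      exact NStr.mono ht0 (by positivity) (by nlinarith [mul_pos hbr hYpos]) hcon
    have hns : ¬ Struct N (b*θ) t W0 := fun hcon => hBB ⟨W0, h1, hcon, hns2⟩
    have hlf := LF6 hN hYpos ht hns (θ' * (a*v)) F (by
      intro w hw
      rw [hF, Finset.mem_filter] at hw
      exact hw.2) (by
      intro w hw
      rw [hF, Finset.mem_filter, hS, Finset.mem_filter] at hw
      obtain ⟨n, hn⟩ := hw.1.2.2.2.rel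
      refine ⟨-n, ?_⟩
      push_cast at hn ⊢
      have e : (b:ℝ) * θ * w - θ' * (a * v) - -(n:ℝ) = n - (θ' * (a * v) - θ * (b * w)) := by ring
      rw [e]; exact hn)
    have h5 : N ≤ W0 := hbig.trans h1
    have h6 : 1 ≤ W0 / N := by rw [le_div_iff₀ hN0]; linarith
    calc (F.card:ℝ) ≤ 2 * W0 / N + 1 := hlf.le
      _ ≤ 2 * W0 / N + W0 / N := by linarith
      _ = 3 / N * W0 := by ring

/-- part 1: the smooth part of `y` is at most `B1` -/
theorem part1T {ε : ℝ} (hε : 0 < ε) (hε4 : ε ≤ 1/4) : ∃ C K : ℝ, 1 ≤ C ∧ 0 ≤ K ∧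
    ∀ (c1 θ θ' t : ℝ) (V W : Finset ℕ) (E : Finset (ℕ × ℕ)) (ψ ψ' : ℕ → ℝ) (G : ℕ), 0 < c1 →
    NumB ε c1 t → Sys V W E ψ ψ' (1/t) → 0 < G →
    (∀ q ∈ V, Tame (Real.exp (t^c1)) G q) → (∀ q ∈ W, Tame (Real.exp (t^c1)) G q) →
    (∀ e ∈ E, PairBT θ θ' t (t^(1/10:ℝ)) (Real.exp (t^(3*c1))) (cof e.1 e.2) (cof e.2 e.1)) →
    (∀ e ∈ E, ((sp (fun p : ℕ => (p:ℝ) ≤ Real.exp (t^c1)) (cof e.2 e.1) : ℕ) : ℝ) ≤ Real.exp (t^(2*c1))) →
    ∑ e ∈ E, wt ψ e.1 * wt ψ' e.2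
      ≤ C * ((1/t)^(1-2*ε) * (t^(c1*K - 1/50))^(1/2-ε) *
        ((∑ v ∈ V, wt ψ v) * (∑ w ∈ W, wt ψ' w))^(1/2+ε)) := by
  classical
  set κ : ℝ := (72/ε)^3 with hκd
  have hκ : 0 ≤ κ := by positivity
  obtain ⟨CT, hCT1, hCT⟩ := exists_sumT hκ
  have hSm := (Sm_pos 6).le
  set K0 : ℝ := κ * Sm 6 with hK0
  have hK00 : 0 ≤ K0 := by positivity
  have hu : 0 < 1/2 - ε := by linarith
  set C0 : ℝ := Real.exp (2 + 2/ε) with hC0
  have hC01 : 1 ≤ C0 := Real.one_le_exp (by positivity)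
  set C1 : ℝ := CT * (Real.exp (12*K0)) * 2 with hC1
  have hC11 : 1 ≤ C1 := by
    have : 1 ≤ Real.exp (12*K0) := Real.one_le_exp (by positivity)
    nlinarith
  refine ⟨C0 * C1, 2*K0, by nlinarith, by positivity, ?_⟩
  intro c1 θ θ' t V W E ψ ψ' G hc1 hnum hs hG hVt hWt hP hB
  have ht := hnum.ht
  have ht0 : (0:ℝ) < t := lt_of_lt_of_le (by norm_num) ht
  have ht1 : (1:ℝ) ≤ t := le_trans (by norm_num) ht
  set z : ℝ := Real.exp (t^c1) with hz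
  set B1 : ℝ := Real.exp (t^(2*c1)) with hB1
  set Yb : ℝ := Real.exp (t^(3*c1)) with hYb
  set N : ℝ := Nt t with hN
  have hN1 : 1 ≤ N := one_le_Nt ht
  have hN0 : 0 < N := by linarith
  have hz1 : 1 ≤ z := Real.one_le_exp (by positivity)
  have hz2 : 2 ≤ z := by
    have := Real.add_one_le_exp (t^c1)
    have := hnum.h16
    linarith
  have hB11 : 1 ≤ B1 := Real.one_le_exp (by positivity)
  have hYb0 : 0 < Yb := Real.exp_pos _
  have hwnn : ∀ v ∈ V, 0 ≤ wt ψ v := fun v hv => wt_nonneg (hs.hψ v hv)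
  have hwnn' : ∀ v ∈ W, 0 ≤ wt ψ' v := fun v hv => wt_nonneg (hs.hθ v hv)
  have hdivV : ∀ q ∈ V, q = G * (q / G) := fun q hq => (Nat.mul_div_cancel' (hVt q hq).1).symm
  have hdivW : ∀ q ∈ W, q = G * (q / G) := fun q hq => (Nat.mul_div_cancel' (hWt q hq).1).symm
  have hcof : ∀ e ∈ E, cof (e.1/G) (e.2/G) = cof e.1 e.2 ∧ cof (e.2/G) (e.1/G) = cof e.2 e.1 := by
    intro e he
    have hm := Finset.mem_product.1 (hs.hE he)
    have h1 := hdivV _ hm.1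
    have h2 := hdivW _ hm.2
    constructor
    · conv_rhs => rw [h1, h2, cof_mul_left hG]
    · conv_rhs => rw [h1, h2, cof_mul_left hG]
  have hposV : ∀ q ∈ V, 0 < q / G := fun q hq =>
    Nat.div_pos (Nat.le_of_dvd (hs.hV q hq) (hVt q hq).1) hG
  have hposW : ∀ q ∈ W, 0 < q / G := fun q hq =>
    Nat.div_pos (Nat.le_of_dvd (hs.hW q hq) (hWt q hq).1) hG
  set β : ℕ → ℕ → ℝ := fun _ b => bet θ t N B1 Yb b with hβ
  have key := lf9_full hε hε4 (Real.exp_pos (2+2/ε)).le (by positivity : (0:ℝ) ≤ ε/16)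
    (thmR hε hε4) hnum.hz0 hz1 V W E (fun q => q/G) (fun q => q/G) (wt ψ) (wt ψ') (1/t)
    (PairBT θ θ' t (2*N^5) Yb) β (by positivity) hposV hposW
    (by
      intro a ha b hb hab
      rw [hdivV a ha, hdivV b hb]
      simp only at hab
      rw [hab])
    (by
      intro a ha b hb hab
      rw [hdivW a ha, hdivW b hb]
      simp only at hab
      rw [hab])
    hwnn hwnn' hs.hE (fun q hq => (hVt q hq).2) (fun q hq => (hWt q hq).2)
    (by
      intro e he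
      have hm := Finset.mem_product.1 (hs.hE he)
      rw [(hcof e he).1]
      refine le_trans ?_ (hs.h1 e he)
      apply mul_le_mul_of_nonneg_left _ (by positivity)
      unfold wt
      have := totient_ratio_le_one e.2
      have h2 := hs.hθ _ hm.2
      nlinarith)
    (by
      intro e he
      have hm := Finset.mem_product.1 (hs.hE he)
      rw [(hcof e he).2]
      refine le_trans ?_ (hs.h2 e he)
      apply mul_le_mul_of_nonneg_left _ (by positivity)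
      unfold wt
      have := totient_ratio_le_one e.1
      have h2 := hs.hψ _ hm.1
      nlinarith)
    (by
      intro e he
      rw [(hcof e he).1, (hcof e he).2, hN, two_Nt ht0]
      exact hP e he)
    (fun a b => bet_nonneg hN0 b)
    (by
      intro a b _ hb0 _ _ hbS himg
      apply betaHypT hN1 (twohundred_Nt ht) hB11 hnum.hN hb0
      obtain ⟨_, _, _, _, hxS, e, he, _, _, hdvd, _, _⟩ := mem_image_sp (fun p : ℕ => (p:ℝ) ≤ z)
        hposV hposW hs.hE himg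
      rw [(hcof e he).2] at hdvd
      have hm := Finset.mem_product.1 (hs.hE he)
      have hy := cof_pos (w := e.1) (hs.hW _ hm.2)
      have h1 := dvd_sp (fun p : ℕ => (p:ℝ) ≤ z) hy hxS hdvd
      have h2 := Nat.le_of_dvd (sp_pos _ hy) h1
      exact le_trans (by exact_mod_cast h2) (hB e he))
  refine key.trans ?_
  set img := E.image (fun e => (cof (sp (fun p : ℕ => (p:ℝ) ≤ z) (e.1/G)) (sp (fun p : ℕ => (p:ℝ) ≤ z) (e.2/G)),
            cof (sp (fun p : ℕ => (p:ℝ) ≤ z) (e.2/G)) (sp (fun p : ℕ => (p:ℝ) ≤ z) (e.1/G)))) with himg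
  have hzf2 : 2 ≤ ⌊z⌋₊ := Nat.le_floor (by exact_mod_cast hz2)
  have hprops : ∀ x ∈ img, 0 < x.1 ∧ 0 < x.2 ∧ (∀ p, p.Prime → p ∣ x.1 → p ≤ ⌊z⌋₊) ∧
      (∀ p, p.Prime → p ∣ x.2 → p ≤ ⌊z⌋₊) ∧ (x.2:ℝ) ≤ B1 := by
    intro x hx
    obtain ⟨h1, h2, _, h4, h5, e, he, _, _, hdvd, _, _⟩ := mem_image_sp (fun p : ℕ => (p:ℝ) ≤ z)
      hposV hposW hs.hE hx
    refine ⟨h1, h2, fun p hp hd => Nat.le_floor (h4 p hp hd), fun p hp hd => Nat.le_floor (h5 p hp hd), ?_⟩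
    rw [(hcof e he).2] at hdvd
    have hm := Finset.mem_product.1 (hs.hE he)
    have hy := cof_pos (w := e.1) (hs.hW _ hm.2)
    have h6 := dvd_sp (fun p : ℕ => (p:ℝ) ≤ z) hy h5 hdvd
    have h7 := Nat.le_of_dvd (sp_pos _ hy) h6
    exact le_trans (by exact_mod_cast h7) (hB e he)
  have hT := hCT θ t N B1 Yb (z^(-(2*(ε/16)))) ⌊z⌋₊ img hzf2 ht0 hN1 hB11 hYb0 hnum.big (by positivity)
    hnum.hη
    (by
      intro b hb
      obtain ⟨x, hx, rfl⟩ := Finset.mem_image.1 hb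
      exact ⟨(hprops x hx).1, (hprops x hx).2.2.1⟩)
    (by
      intro b hb
      obtain ⟨x, hx, rfl⟩ := Finset.mem_image.1 hb
      exact ⟨(hprops x hx).2.1, (hprops x hx).2.2.2.1⟩)
    (fun x hx => (hprops x hx).2.2.2.2)
  -- numerics
  have hlogz : Real.log ⌊z⌋₊ ≤ t^c1 := by
    have h0 : (0:ℝ) < (⌊z⌋₊:ℝ) := by positivity
    calc Real.log ⌊z⌋₊ ≤ Real.log z := Real.log_le_log h0 (Nat.floor_le (by linarith))
      _ = t^c1 := by rw [hz, Real.log_exp]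
  have hlogz0 : 0 < Real.log ⌊z⌋₊ := Real.log_pos (by
    have : (2:ℝ) ≤ (⌊z⌋₊:ℝ) := by exact_mod_cast hzf2
    linarith)
  have hX : Real.exp (K0 * (Real.log (Real.log ⌊z⌋₊) + 6)) ≤ Real.exp (6*K0) * t^(c1*K0) := by
    have h2 : Real.log (Real.log ⌊z⌋₊) ≤ c1 * Real.log t := by
      calc Real.log (Real.log ⌊z⌋₊) ≤ Real.log (t^c1) := Real.log_le_log hlogz0 hlogz
        _ = c1 * Real.log t := Real.log_rpow ht0 _
    have h3 : t^(c1*K0) = Real.exp (K0 * (c1 * Real.log t)) := by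
      rw [Real.rpow_def_of_pos ht0]; congr 1; ring
    rw [h3, ← Real.exp_add]
    apply Real.exp_le_exp.2
    nlinarith
  have hT2 : ∑ x ∈ img, wn κ x.1 * wn κ x.2 * (β x.1 x.2 + z^(-(2*(ε/16)))) ≤ C1 * t^(c1*(2*K0) - 1/50) := by
    refine hT.trans ?_
    have h1 : (Real.exp (κ * Sm 6 * (Real.log (Real.log ⌊z⌋₊) + 6)))^2 ≤ Real.exp (12*K0) * t^(c1*(2*K0)) := by
      calc (Real.exp (κ * Sm 6 * (Real.log (Real.log ⌊z⌋₊) + 6)))^2 ≤ (Real.exp (6*K0) * t^(c1*K0))^2 :=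
            pow_le_pow_left₀ (Real.exp_pos _).le hX 2
        _ = Real.exp (12*K0) * t^(c1*(2*K0)) := by
            rw [mul_pow, ← Real.exp_nat_mul, ← Real.rpow_natCast, ← Real.rpow_mul ht0.le]
            congr 1
            · congr 1; push_cast; ring
            · congr 1; push_cast; ring
    calc CT * (Real.exp (κ * Sm 6 * (Real.log (Real.log ⌊z⌋₊) + 6)))^2 / N
        = CT * (Real.exp (κ * Sm 6 * (Real.log (Real.log ⌊z⌋₊) + 6)))^2 * (1/N) := by ring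
      _ ≤ CT * (Real.exp (12*K0) * t^(c1*(2*K0))) * (2 * t^(-(1/50):ℝ)) := by
          apply mul_le_mul _ (inv_Nt_le ht) (by positivity) (by positivity)
          exact mul_le_mul_of_nonneg_left h1 (by linarith)
      _ = C1 * (t^(c1*(2*K0)) * t^(-(1/50):ℝ)) := by rw [hC1]; ring
      _ = C1 * t^(c1*(2*K0) - 1/50) := by rw [← Real.rpow_add ht0]; rfl
  have hT0 : 0 ≤ ∑ x ∈ img, wn κ x.1 * wn κ x.2 * (β x.1 x.2 + z^(-(2*(ε/16)))) := by
    apply Finset.sum_nonneg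
    intro x _
    exact mul_nonneg (mul_nonneg (wn_nonneg hκ _) (wn_nonneg hκ _))
      (add_nonneg (bet_nonneg hN0 _) (by positivity))
  have hT3 : (∑ x ∈ img, wn κ x.1 * wn κ x.2 * (β x.1 x.2 + z^(-(2*(ε/16)))))^(1/2-ε)
      ≤ C1 * (t^(c1*(2*K0) - 1/50))^(1/2-ε) := by
    calc _ ≤ (C1 * t^(c1*(2*K0) - 1/50))^(1/2-ε) := Real.rpow_le_rpow hT0 hT2 hu.le
      _ = C1^(1/2-ε) * (t^(c1*(2*K0) - 1/50))^(1/2-ε) := Real.mul_rpow (by linarith) (by positivity)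
      _ ≤ C1 * (t^(c1*(2*K0) - 1/50))^(1/2-ε) := by
          apply mul_le_mul_of_nonneg_right _ (by positivity)
          calc C1^(1/2-ε) ≤ C1^(1:ℝ) := Real.rpow_le_rpow_of_exponent_le hC11 (by linarith)
            _ = C1 := Real.rpow_one C1
  have hM : 0 ≤ (∑ v ∈ V, wt ψ v) * (∑ w ∈ W, wt ψ' w) :=
    mul_nonneg (Finset.sum_nonneg hwnn) (Finset.sum_nonneg hwnn')
  have hMs : 0 ≤ ((∑ v ∈ V, wt ψ v) * (∑ w ∈ W, wt ψ' w))^(1/2+ε) := by positivity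
  calc C0 * ((1/t)^(1-2*ε) * ((∑ x ∈ img, wn κ x.1 * wn κ x.2 * (β x.1 x.2 + z^(-(2*(ε/16)))))^(1/2-ε) *
        ((∑ v ∈ V, wt ψ v) * (∑ w ∈ W, wt ψ' w))^(1/2+ε)))
      ≤ C0 * ((1/t)^(1-2*ε) * ((C1 * (t^(c1*(2*K0) - 1/50))^(1/2-ε)) *
        ((∑ v ∈ V, wt ψ v) * (∑ w ∈ W, wt ψ' w))^(1/2+ε))) := by
        apply mul_le_mul_of_nonneg_left _ (by positivity)
        apply mul_le_mul_of_nonneg_left _ (by positivity)
        exact mul_le_mul_of_nonneg_right hT3 hMs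
    _ = _ := by ring

/-- **class (B)**, one orientation -/
theorem classBT_half : ∃ C K : ℝ, 1 ≤ C ∧ 0 ≤ K ∧
    ∀ c1 : ℝ, 0 < c1 → c1 * (4 + K) ≤ 1/1000 →
    ∀ (θ θ' t : ℝ) (V W : Finset ℕ) (E : Finset (ℕ × ℕ)) (ψ ψ' : ℕ → ℝ) (G : ℕ),
    NumB eps1 c1 t → Sys V W E ψ ψ' (1/t) → 0 < G →
    (∀ q ∈ V, Tame (Real.exp (t^c1)) G q) → (∀ q ∈ W, Tame (Real.exp (t^c1)) G q) →
    (∀ e ∈ E, PairBT θ θ' t (t^(1/10:ℝ)) (Real.exp (t^(3*c1))) (cof e.1 e.2) (cof e.2 e.1)) →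
    ∑ e ∈ E, wt ψ e.1 * wt ψ' e.2 * (Af (cof e.1 e.2) * Af (cof e.2 e.1))
      ≤ C * t^(-(1006/1000):ℝ) * ((∑ v ∈ V, wt ψ v) * (∑ w ∈ W, wt ψ' w))^(1/2+eps1) := by
  classical
  have hε : (0:ℝ) < eps1 := by unfold eps1; norm_num
  have hε4 : eps1 ≤ 1/4 := by unfold eps1; norm_num
  obtain ⟨C1, K, hC1, hK, h1⟩ := part1T hε hε4
  obtain ⟨C2, hC2, h2⟩ := part2 hε hε4
  refine ⟨Real.exp 28 * (C1 + C2), K, ?_, hK, ?_⟩
  · have : 1 ≤ Real.exp 28 := Real.one_le_exp (by norm_num)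
    nlinarith
  intro c1 hc1 hc1K θ θ' t V W E ψ ψ' G hnum hs hG hVt hWt hP
  have ht := hnum.ht
  have ht0 : (0:ℝ) < t := lt_of_lt_of_le (by norm_num) ht
  have ht1 : (1:ℝ) ≤ t := le_trans (by norm_num) ht
  set z : ℝ := Real.exp (t^c1) with hz
  have h16 := hnum.h16
  have hz2 : 2 ≤ z := by
    have := Real.add_one_le_exp (t^c1)
    linarith
  have hzf2 : 2 ≤ ⌊z⌋₊ := Nat.le_floor (by exact_mod_cast hz2)
  have hlogz : Real.log ⌊z⌋₊ ≤ t^c1 := by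
    have h0 : (0:ℝ) < (⌊z⌋₊:ℝ) := by positivity
    calc Real.log ⌊z⌋₊ ≤ Real.log z := Real.log_le_log h0 (Nat.floor_le (by linarith))
      _ = t^c1 := by rw [hz, Real.log_exp]
  have hlogz0 : 0 < Real.log ⌊z⌋₊ := Real.log_pos (by
    have : (2:ℝ) ≤ (⌊z⌋₊:ℝ) := by exact_mod_cast hzf2
    linarith)
  have hA1 : Real.exp (2 * (Real.log (Real.log ⌊z⌋₊) + 6) + 2) ≤ Real.exp 14 * t^(2*c1) := by
    have h2 : Real.log (Real.log ⌊z⌋₊) ≤ c1 * Real.log t := by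
      calc Real.log (Real.log ⌊z⌋₊) ≤ Real.log (t^c1) := Real.log_le_log hlogz0 hlogz
        _ = c1 * Real.log t := Real.log_rpow ht0 _
    rw [Real.rpow_def_of_pos ht0, ← Real.exp_add]
    apply Real.exp_le_exp.2
    linarith
  have hzhalf : z^(-(1/2:ℝ)) ≤ 1 := Real.rpow_le_one_of_one_le_of_nonpos (by linarith) (by norm_num)
  -- the weights
  have hAf : ∀ e ∈ E, Af (cof e.1 e.2) * Af (cof e.2 e.1) ≤ Real.exp 28 * t^(4*c1) := by
    intro e he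
    have hm := Finset.mem_product.1 (hs.hE he)
    have hd1 : e.1 = G * (e.1 / G) := (Nat.mul_div_cancel' (hVt _ hm.1).1).symm
    have hd2 : e.2 = G * (e.2 / G) := (Nat.mul_div_cancel' (hWt _ hm.2).1).symm
    have hp1 : 0 < e.1 / G := Nat.div_pos (Nat.le_of_dvd (hs.hV _ hm.1) (hVt _ hm.1).1) hG
    have hp2 : 0 < e.2 / G := Nat.div_pos (Nat.le_of_dvd (hs.hW _ hm.2) (hWt _ hm.2).1) hG
    have hc1' : cof e.1 e.2 = cof (e.1/G) (e.2/G) := by
      conv_lhs => rw [hd1, hd2, cof_mul_left hG]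
    have hc2' : cof e.2 e.1 = cof (e.2/G) (e.1/G) := by
      conv_lhs => rw [hd1, hd2, cof_mul_left hG]
    have hdv1 : cof e.1 e.2 ∣ e.1 / G := by rw [hc1']; exact Dvd.intro _ (cof_mul_gcd _ _)
    have hdv2 : cof e.2 e.1 ∣ e.2 / G := by rw [hc2']; exact Dvd.intro _ (cof_mul_gcd _ _)
    have hb : ∀ (n q : ℕ), n ∣ q → 0 < q →
        ∑ p ∈ q.primeFactors.filter (fun p : ℕ => z < (p:ℝ)), (1:ℝ)/p ≤ z^(-(1/2:ℝ)) →
        Af n ≤ Real.exp 14 * t^(2*c1) := by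
      intro n q hnq hq hbud
      refine le_trans (Af_tame hz2 ?_) hA1
      refine le_trans ?_ (hbud.trans hzhalf)
      apply Finset.sum_le_sum_of_subset_of_nonneg
      · intro p hp
        rw [Finset.mem_filter] at hp ⊢
        exact ⟨Nat.primeFactors_mono hnq hq.ne' hp.1, hp.2⟩
      · intro p _ _; positivity
    have a1 := hb _ _ hdv1 hp1 (hVt _ hm.1).2
    have a2 := hb _ _ hdv2 hp2 (hWt _ hm.2).2
    calc Af (cof e.1 e.2) * Af (cof e.2 e.1) ≤ (Real.exp 14 * t^(2*c1)) * (Real.exp 14 * t^(2*c1)) :=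
          mul_le_mul a1 a2 (Af_pos _).le (by positivity)
      _ = (Real.exp 14 * Real.exp 14) * (t^(2*c1) * t^(2*c1)) := by ring
      _ = Real.exp 28 * t^(4*c1) := by
          rw [← Real.exp_add, ← Real.rpow_add ht0]
          congr 2
          · norm_num
          · ring
  have hw0 : ∀ e ∈ E, 0 ≤ wt ψ e.1 * wt ψ' e.2 := by
    intro e he
    have hm := Finset.mem_product.1 (hs.hE he)
    exact mul_nonneg (wt_nonneg (hs.hψ _ hm.1)) (wt_nonneg (hs.hθ _ hm.2))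
  have hstep : ∑ e ∈ E, wt ψ e.1 * wt ψ' e.2 * (Af (cof e.1 e.2) * Af (cof e.2 e.1))
      ≤ (Real.exp 28 * t^(4*c1)) * ∑ e ∈ E, wt ψ e.1 * wt ψ' e.2 := by
    rw [Finset.mul_sum]
    apply Finset.sum_le_sum
    intro e he
    rw [mul_comm]
    exact mul_le_mul_of_nonneg_right (hAf e he) (hw0 e he)
  refine hstep.trans ?_
  set M := (∑ v ∈ V, wt ψ v) * (∑ w ∈ W, wt ψ' w) with hM
  have hM0 : 0 ≤ M :=
    mul_nonneg (Finset.sum_nonneg fun v hv => wt_nonneg (hs.hψ v hv))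
      (Finset.sum_nonneg fun v hv => wt_nonneg (hs.hθ v hv))
  set E1 := E.filter (fun e => ((sp (fun p : ℕ => (p:ℝ) ≤ z) (cof e.2 e.1) : ℕ) : ℝ) ≤ Real.exp (t^(2*c1))) with hE1
  set E2 := E.filter (fun e => ¬ ((sp (fun p : ℕ => (p:ℝ) ≤ z) (cof e.2 e.1) : ℕ) : ℝ) ≤ Real.exp (t^(2*c1))) with hE2
  have hsub : ∀ E' ⊆ E, Sys V W E' ψ ψ' (1/t) := fun E' hE' =>
    { hδ := hs.hδ, hV := hs.hV, hW := hs.hW, hψ := hs.hψ, hθ := hs.hθ
      hE := hE'.trans hs.hE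
      h1 := fun e he => hs.h1 e (hE' he)
      h2 := fun e he => hs.h2 e (hE' he) }
  have b1 := h1 c1 θ θ' t V W E1 ψ ψ' G hc1 hnum (hsub _ (Finset.filter_subset _ _)) hG hVt hWt
    (fun e he => hP e (Finset.mem_filter.1 he).1) (fun e he => (Finset.mem_filter.1 he).2)
  have b2 := h2 c1 t V W E2 ψ ψ' hc1 hnum (hsub _ (Finset.filter_subset _ _))
    (fun e he => not_le.1 (Finset.mem_filter.1 he).2)
  have hsplit : ∑ e ∈ E, wt ψ e.1 * wt ψ' e.2 = ∑ e ∈ E1, wt ψ e.1 * wt ψ' e.2 + ∑ e ∈ E2, wt ψ e.1 * wt ψ' e.2 := by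
    rw [hE1, hE2, Finset.sum_filter_add_sum_filter_not]
  have hMs : 0 ≤ M^(1/2+eps1) := by positivity
  have et : (1/t)^(1-2*eps1) = t^(-(1-2*eps1)) := by
    rw [one_div, Real.inv_rpow ht0.le, Real.rpow_neg ht0.le]
  have n1 : t^(4*c1) * ((1/t)^(1-2*eps1) * (t^(c1*K - 1/50))^(1/2-eps1)) ≤ t^(-(1006/1000):ℝ) := by
    rw [et, ← Real.rpow_mul ht0.le, ← Real.rpow_add ht0, ← Real.rpow_add ht0]
    apply Real.rpow_le_rpow_of_exponent_le ht1
    unfold eps1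
    have : 0 ≤ c1 * K := by positivity
    nlinarith
  have n2 : t^(4*c1) * ((1/t)^(1-2*eps1) * Real.exp (-(t^c1))) ≤ t^(-(1006/1000):ℝ) := by
    calc t^(4*c1) * ((1/t)^(1-2*eps1) * Real.exp (-(t^c1)))
        ≤ t^(4*c1) * ((1/t)^(1-2*eps1) * t^(-1:ℝ)) := by
          apply mul_le_mul_of_nonneg_left _ (by positivity)
          exact mul_le_mul_of_nonneg_left hnum.hexp (by positivity)
      _ = t^(4*c1 + (-(1-2*eps1) + (-1))) := by
          rw [et, ← Real.rpow_add ht0, ← Real.rpow_add ht0]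
      _ ≤ t^(-(1006/1000):ℝ) := by
          apply Real.rpow_le_rpow_of_exponent_le ht1
          unfold eps1
          have : 0 ≤ c1 * K := by positivity
          nlinarith
  calc Real.exp 28 * t^(4*c1) * ∑ e ∈ E, wt ψ e.1 * wt ψ' e.2
      ≤ Real.exp 28 * t^(4*c1) * (C1 * ((1/t)^(1-2*eps1) * (t^(c1*K - 1/50))^(1/2-eps1) * M^(1/2+eps1)) +
        C2 * ((1/t)^(1-2*eps1) * Real.exp (-(t^c1)) * M^(1/2+eps1))) := by
        rw [hsplit]
        exact mul_le_mul_of_nonneg_left (add_le_add b1 b2) (by positivity)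
    _ = Real.exp 28 * (C1 * (t^(4*c1) * ((1/t)^(1-2*eps1) * (t^(c1*K - 1/50))^(1/2-eps1))) * M^(1/2+eps1) +
        C2 * (t^(4*c1) * ((1/t)^(1-2*eps1) * Real.exp (-(t^c1)))) * M^(1/2+eps1)) := by ring
    _ ≤ Real.exp 28 * (C1 * t^(-(1006/1000):ℝ) * M^(1/2+eps1) + C2 * t^(-(1006/1000):ℝ) * M^(1/2+eps1)) := by
        apply mul_le_mul_of_nonneg_left _ (by positivity)
        apply add_le_add
        · apply mul_le_mul_of_nonneg_right _ hMs
          exact mul_le_mul_of_nonneg_left n1 (by linarith)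
        · apply mul_le_mul_of_nonneg_right _ hMs
          exact mul_le_mul_of_nonneg_left n2 (by linarith)
    _ = _ := by ring

/-- an unstructured related pair with `Yb < max x y` -/
structure PairBT2 (θ θ' t N Yb : ℝ) (x y : ℕ) : Prop where
  hx : 0 < x
  hy : 0 < y
  hxy : x ≠ y
  hmY : Yb < ((max x y : ℕ):ℝ)
  rel : ∃ n : ℤ, |(n:ℝ) - (θ' * x - θ * y)| ≤ 2 / t
  uns : ∀ Y : ℝ, 0 < Y → Y < ((max x y : ℕ):ℝ) → ((max x y : ℕ):ℝ) ≤ 2 * Y →
    (x < y → ¬ Struct N θ t Y) ∧ (y < x → ¬ Struct N θ' t Y)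

/-- **class (B)**: all unstructured related pairs with a cofactor larger than `exp (t^{3 c1})`, for
systems which are tame at `z = exp (t^{c1})`. -/
theorem classBT : ∃ C c0 : ℝ, 1 ≤ C ∧ 0 < c0 ∧
    ∀ c1 : ℝ, 0 < c1 → c1 ≤ c0 → ∃ T0 : ℝ, ∀ (θ θ' t : ℝ) (V W : Finset ℕ) (E : Finset (ℕ × ℕ))
    (ψ ψ' : ℕ → ℝ) (G : ℕ), T0 ≤ t → Sys V W E ψ ψ' (1/t) → 0 < G →
    (∀ q ∈ V, Tame (Real.exp (t^c1)) G q) → (∀ q ∈ W, Tame (Real.exp (t^c1)) G q) →
    (∀ e ∈ E, PairBT2 θ θ' t (t^(1/10:ℝ)) (Real.exp (t^(3*c1))) (cof e.1 e.2) (cof e.2 e.1)) →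
    ∑ e ∈ E, wt ψ e.1 * wt ψ' e.2 * (Af (cof e.1 e.2) * Af (cof e.2 e.1))
      ≤ C * t^(-(1006/1000):ℝ) * ((∑ v ∈ V, wt ψ v) * (∑ w ∈ W, wt ψ' w))^(1/2+eps1) := by
  classical
  obtain ⟨C, K, hC1, hK, hC⟩ := classBT_half
  refine ⟨2*C, 1/(1000*(4+K)), by linarith, by positivity, ?_⟩
  intro c1 hc1 hc1K
  have hε : (0:ℝ) < eps1 := by unfold eps1; norm_num
  have hε4 : eps1 ≤ 1/4 := by unfold eps1; norm_num
  obtain ⟨T0, hT0⟩ := exists_NumB hε hε4 hc1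
  have hcK : c1 * (4 + K) ≤ 1/1000 := by
    rw [le_div_iff₀ (by positivity)] at hc1K
    linarith
  refine ⟨T0, ?_⟩
  intro θ θ' t V W E ψ ψ' G ht hs hG hVt hWt hE
  have hnum := hT0 t ht
  set f : ℕ × ℕ → ℝ := fun e => wt ψ e.1 * wt ψ' e.2 * (Af (cof e.1 e.2) * Af (cof e.2 e.1)) with hf
  set E1 := E.filter (fun e => cof e.1 e.2 < cof e.2 e.1) with hE1
  set E2 := E.filter (fun e => ¬ cof e.1 e.2 < cof e.2 e.1) with hE2
  have hsplit : ∑ e ∈ E, f e = ∑ e ∈ E1, f e + ∑ e ∈ E2, f e := by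
    rw [hE1, hE2, Finset.sum_filter_add_sum_filter_not]
  have hs1 : Sys V W E1 ψ ψ' (1/t) :=
    { hδ := hs.hδ, hV := hs.hV, hW := hs.hW, hψ := hs.hψ, hθ := hs.hθ
      hE := (Finset.filter_subset _ _).trans hs.hE
      h1 := fun e he => hs.h1 e (Finset.mem_filter.1 he).1
      h2 := fun e he => hs.h2 e (Finset.mem_filter.1 he).1 }
  have b1 := hC c1 hc1 hcK θ θ' t V W E1 ψ ψ' G hnum hs1 hG hVt hWt (by
    intro e he
    rw [hE1, Finset.mem_filter] at he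
    have h := hE e he.1
    have hmax : max (cof e.1 e.2) (cof e.2 e.1) = cof e.2 e.1 := max_eq_right he.2.le
    exact ⟨h.hx, he.2, by rw [← hmax]; exact h.hmY, h.rel,
      fun Y k1 k2 k3 => (h.uns Y k1 (by rw [hmax]; exact k2) (by rw [hmax]; exact k3)).1 he.2⟩)
  set E2' := E2.image Prod.swap with hE2'
  have hinj : Set.InjOn (Prod.swap : ℕ × ℕ → ℕ × ℕ) (E2 : Set (ℕ × ℕ)) :=
    Prod.swap_injective.injOn
  have hs2 : Sys W V E2' ψ' ψ (1/t) :=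
    { hδ := hs.hδ, hV := hs.hW, hW := hs.hV, hψ := hs.hθ, hθ := hs.hψ
      hE := by
        intro e he
        obtain ⟨e', he', rfl⟩ := Finset.mem_image.1 he
        have := Finset.mem_product.1 (hs.hE (Finset.mem_filter.1 he').1)
        exact Finset.mem_product.2 ⟨this.2, this.1⟩
      h1 := by
        intro e he
        obtain ⟨e', he', rfl⟩ := Finset.mem_image.1 he
        exact hs.h2 e' (Finset.mem_filter.1 he').1
      h2 := by
        intro e he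
        obtain ⟨e', he', rfl⟩ := Finset.mem_image.1 he
        exact hs.h1 e' (Finset.mem_filter.1 he').1 }
  have b2 := hC c1 hc1 hcK θ' θ t W V E2' ψ' ψ G hnum hs2 hG hWt hVt (by
    intro e he
    obtain ⟨e', he', rfl⟩ := Finset.mem_image.1 he
    rw [hE2, Finset.mem_filter] at he'
    have h := hE e' he'.1
    have hlt : cof e'.2 e'.1 < cof e'.1 e'.2 := lt_of_le_of_ne (not_lt.1 he'.2) (Ne.symm h.hxy)
    have hmax : max (cof e'.1 e'.2) (cof e'.2 e'.1) = cof e'.1 e'.2 := max_eq_left hlt.le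
    refine ⟨h.hy, hlt, by simp only [Prod.fst_swap, Prod.snd_swap]; rw [← hmax]; exact h.hmY, ?_, by
      simp only [Prod.fst_swap, Prod.snd_swap]
      exact fun Y k1 k2 k3 => (h.uns Y k1 (by rw [hmax]; exact k2) (by rw [hmax]; exact k3)).2 hlt⟩
    obtain ⟨n, hn⟩ := h.rel
    refine ⟨-n, ?_⟩
    simp only [Prod.fst_swap, Prod.snd_swap]
    rw [← abs_neg]
    have e5 : -(((-n : ℤ):ℝ) - (θ * (cof e'.2 e'.1 : ℝ) - θ' * cof e'.1 e'.2))
        = (n:ℝ) - (θ' * (cof e'.1 e'.2 : ℝ) - θ * cof e'.2 e'.1) := by push_cast; ring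
    rw [e5]; exact hn)
  have hb2 : ∑ e ∈ E2', wt ψ' e.1 * wt ψ e.2 * (Af (cof e.1 e.2) * Af (cof e.2 e.1)) = ∑ e ∈ E2, f e := by
    rw [hE2', Finset.sum_image hinj]
    apply Finset.sum_congr rfl
    intro e _
    simp only [hf, Prod.fst_swap, Prod.snd_swap]
    ring
  rw [hb2, mul_comm (∑ w ∈ W, wt ψ' w)] at b2
  have : ∑ e ∈ E, f e ≤ C * t^(-(1006/1000):ℝ) * ((∑ v ∈ V, wt ψ v) * (∑ w ∈ W, wt ψ' w))^(1/2+eps1)
      + C * t^(-(1006/1000):ℝ) * ((∑ v ∈ V, wt ψ v) * (∑ w ∈ W, wt ψ' w))^(1/2+eps1) := by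
    rw [hsplit]; exact add_le_add b1 b2
  refine this.trans (le_of_eq ?_)
  ring

/-- two-target related pair at scale `t`: unbalanced, or large and unstructured -/
structure Gen2 (θ θ' t : ℝ) (x y : ℕ) (r r' : ℝ) : Prop where
  hx : 0 < x
  hy : 0 < y
  hxy : x ≠ y
  rel : ∃ n : ℤ, |(n:ℝ) - (θ' * x - θ * y)| ≤ 2 / t
  alt : ((x:ℝ) * r' ≤ t^(-(51/50):ℝ) ∨ (y:ℝ) * r ≤ t^(-(51/50):ℝ)) ∨
    (t^(1/10:ℝ) < ((max x y : ℕ):ℝ) ∧
    ∀ Y : ℝ, 0 < Y → Y < ((max x y : ℕ):ℝ) → ((max x y : ℕ):ℝ) ≤ 2 * Y →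
      (x < y → ¬ Struct (t^(1/10:ℝ)) θ t Y) ∧ (y < x → ¬ Struct (t^(1/10:ℝ)) θ' t Y))

/-- **energy at one scale** -/
theorem scale_energyT : ∃ C c0 : ℝ, 1 ≤ C ∧ 0 < c0 ∧
    ∀ c1 : ℝ, 0 < c1 → c1 ≤ c0 → ∃ T0 : ℝ, ∀ (θ θ' t : ℝ) (V W : Finset ℕ) (E : Finset (ℕ × ℕ))
    (ψ ψ' : ℕ → ℝ) (G : ℕ), T0 ≤ t → Sys V W E ψ ψ' (1/t) → 0 < G →
    (∀ q ∈ V, Tame (Real.exp (t^c1)) G q) → (∀ q ∈ W, Tame (Real.exp (t^c1)) G q) →
    (∀ e ∈ E, Gen2 θ θ' t (cof e.1 e.2) (cof e.2 e.1) (ψ e.1) (ψ' e.2)) →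
    ∑ e ∈ E, wt ψ e.1 * wt ψ' e.2 * (Af (cof e.1 e.2) * Af (cof e.2 e.1))
      ≤ C * t^(-(1006/1000):ℝ) * ((∑ v ∈ V, wt ψ v) * (∑ w ∈ W, wt ψ' w))^(1/2+eps1) := by
  classical
  obtain ⟨CU, hCU1, hU⟩ := classU
  obtain ⟨CS, cS, hCS1, hcS, -, hS⟩ := classST
  obtain ⟨CB, cB, hCB1, hcB, hB⟩ := classBT
  refine ⟨CU + CS + CB, min (cS/3) cB, by linarith, lt_min (by positivity) hcB, ?_⟩
  intro c1 hc1 hc10
  have hc1S : 3 * c1 ≤ cS := by
    have := hc10.trans (min_le_left _ _); linarith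
  have hc1B : c1 ≤ cB := hc10.trans (min_le_right _ _)
  obtain ⟨T0, hT0⟩ := hB c1 hc1 hc1B
  refine ⟨max T0 (2^10), ?_⟩
  intro θ θ' t V W E ψ ψ' G ht hs hG hVt hWt hE
  have htT0 : T0 ≤ t := (le_max_left _ _).trans ht
  have ht10 : (2:ℝ)^10 ≤ t := (le_max_right _ _).trans ht
  have ht0 : 0 < t := by linarith
  have ht1 : 1 ≤ t := by linarith
  set f : ℕ × ℕ → ℝ := fun e => wt ψ e.1 * wt ψ' e.2 * (Af (cof e.1 e.2) * Af (cof e.2 e.1)) with hf
  set M := (∑ v ∈ V, wt ψ v) * (∑ w ∈ W, wt ψ' w) with hM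
  have hM0 : 0 ≤ M :=
    mul_nonneg (Finset.sum_nonneg fun v hv => wt_nonneg (hs.hψ v hv))
      (Finset.sum_nonneg fun v hv => wt_nonneg (hs.hθ v hv))
  have hMs : 0 ≤ M^(1/2+eps1) := by positivity
  have hsub : ∀ E' ⊆ E, Sys V W E' ψ ψ' (1/t) := fun E' hE' =>
    { hδ := hs.hδ, hV := hs.hV, hW := hs.hW, hψ := hs.hψ, hθ := hs.hθ
      hE := hE'.trans hs.hE
      h1 := fun e he => hs.h1 e (hE' he)
      h2 := fun e he => hs.h2 e (hE' he) }
  set PU : ℕ × ℕ → Prop := fun e => (cof e.1 e.2 : ℝ) * ψ' e.2 ≤ t^(-(51/50):ℝ) ∨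
    (cof e.2 e.1 : ℝ) * ψ e.1 ≤ t^(-(51/50):ℝ) with hPU
  set PS : ℕ × ℕ → Prop := fun e => ((max (cof e.1 e.2) (cof e.2 e.1) : ℕ):ℝ) ≤ Real.exp (t^(3*c1)) with hPS
  set EU := E.filter PU with hEU
  set EN := E.filter (fun e => ¬ PU e) with hEN
  set ES := EN.filter PS with hES
  set EB := EN.filter (fun e => ¬ PS e) with hEB
  have hsplit : ∑ e ∈ E, f e = ∑ e ∈ EU, f e + (∑ e ∈ ES, f e + ∑ e ∈ EB, f e) := by
    rw [hES, hEB, Finset.sum_filter_add_sum_filter_not, hEU, hEN, Finset.sum_filter_add_sum_filter_not]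
  have hESsub : ES ⊆ E := (Finset.filter_subset _ _).trans (Finset.filter_subset _ _)
  have hEBsub : EB ⊆ E := (Finset.filter_subset _ _).trans (Finset.filter_subset _ _)
  have bU := hU t V W EU ψ ψ' ht1 (hsub _ (Finset.filter_subset _ _))
    (fun e he => (Finset.mem_filter.1 he).2)
  have bS := hS θ θ' t (Real.exp (t^(3*c1))) V W ES ψ ψ' ht10
    (Real.exp_le_exp.2 (Real.rpow_le_rpow_of_exponent_le ht1 hc1S)) (hsub _ hESsub) (by
      intro e he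
      rw [hES, Finset.mem_filter, hEN, Finset.mem_filter] at he
      have h := hE e he.1.1
      have h' := h.alt.resolve_left he.1.2
      exact ⟨h.hx, h.hy, h.hxy, h'.1, he.2, h.rel, h'.2⟩)
  have bB := hT0 θ θ' t V W EB ψ ψ' G htT0 (hsub _ hEBsub) hG hVt hWt (by
      intro e he
      rw [hEB, Finset.mem_filter, hEN, Finset.mem_filter] at he
      have h := hE e he.1.1
      have h' := h.alt.resolve_left he.1.2
      exact ⟨h.hx, h.hy, h.hxy, not_le.1 he.2, h.rel, h'.2⟩)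
  rw [hsplit]
  have k1 : t^(-(1007/1000):ℝ) ≤ t^(-(1006/1000):ℝ) :=
    Real.rpow_le_rpow_of_exponent_le ht1 (by norm_num)
  have k2 : t^(-(101/100):ℝ) ≤ t^(-(1006/1000):ℝ) :=
    Real.rpow_le_rpow_of_exponent_le ht1 (by norm_num)
  have bU' : ∑ e ∈ EU, f e ≤ CU * t^(-(1006/1000):ℝ) * M^(1/2+eps1) := by
    refine bU.trans ?_
    apply mul_le_mul_of_nonneg_right _ hMs
    exact mul_le_mul_of_nonneg_left k1 (by linarith)
  have bS' : ∑ e ∈ ES, f e ≤ CS * t^(-(1006/1000):ℝ) * M^(1/2+eps1) := by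
    refine bS.trans ?_
    apply mul_le_mul_of_nonneg_right _ hMs
    exact mul_le_mul_of_nonneg_left k2 (by linarith)
  calc ∑ e ∈ EU, f e + (∑ e ∈ ES, f e + ∑ e ∈ EB, f e)
      ≤ CU * t^(-(1006/1000):ℝ) * M^(1/2+eps1) + (CS * t^(-(1006/1000):ℝ) * M^(1/2+eps1) +
        CB * t^(-(1006/1000):ℝ) * M^(1/2+eps1)) := add_le_add bU' (add_le_add bS' bB)
    _ = _ := by ring

/-! ### all scales -/

open Crest.Agent.R4.LF11 Crest.Agent.R4.LF11s

/-- **deep pairs, two targets**: all pairs with `D ≤ 1/T`. -/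
theorem deepT : ∃ C c0 : ℝ, 1 ≤ C ∧ 0 < c0 ∧ ∀ c1 : ℝ, 0 < c1 → c1 ≤ c0 → ∃ T0 : ℝ, 1 ≤ T0 ∧
    ∀ (θ θ' T X K : ℝ) (V W : Finset ℕ) (E : Finset (ℕ × ℕ)) (ψ ψ' : ℕ → ℝ) (T1 : ℕ × ℕ → ℝ) (G : ℕ),
    T0 ≤ T → X ≤ Real.exp (T^c1) → 0 ≤ K → 0 < G →
    (∀ v ∈ V, 0 < v ∧ 0 < ψ v) → (∀ w ∈ W, 0 < w ∧ 0 < ψ' w) → XTame X G V → XTame X G W →
    E ⊆ V ×ˢ W → (∀ e ∈ E, DD ψ ψ' e ≤ 1/T) →
    (∀ e ∈ E, T1 e ≤ K * (ew ψ ψ' e / DD ψ ψ' e)) →
    (∀ e ∈ E, ∀ t : ℝ, T ≤ t → 1/(2*t) < DD ψ ψ' e → DD ψ ψ' e ≤ 1/t → 0 < T1 e →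
      Gen2 θ θ' t (cof e.1 e.2) (cof e.2 e.1) (ψ e.1) (ψ' e.2)) →
    ∑ e ∈ E, T1 e ≤ C * K * T^(-(6/1000):ℝ) *
      ((∑ v ∈ V, wt ψ v) * (∑ w ∈ W, wt ψ' w))^(1/2+eps1) := by
  classical
  obtain ⟨C, c0, hC1, hc0, hC⟩ := scale_energyT
  set ρ : ℝ := (2:ℝ)^(-(6/1000):ℝ) with hρ
  have hρ0 : 0 < ρ := by positivity
  have hρ1 : ρ < 1 := Real.rpow_lt_one_of_one_lt_of_neg (by norm_num) (by norm_num)
  set Cg : ℝ := 1/(1-ρ) with hCg
  have hd : 0 < 1 - ρ := by linarith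
  have hCg0 : 0 < Cg := by positivity
  have hCg1 : 1 ≤ Cg := by rw [hCg, le_div_iff₀ hd]; linarith
  refine ⟨2 * C * Cg, c0, by nlinarith, hc0, ?_⟩
  intro c1 hc1 hc10
  obtain ⟨T0, hT0⟩ := hC c1 hc1 hc10
  refine ⟨max T0 1, le_max_right _ _, ?_⟩
  intro θ θ' T X K V W E ψ ψ' T1 G hT hX hK hG hV hW hVt hWt hE hD hT1 hgen
  have hT01 : T0 ≤ T := (le_max_left _ _).trans hT
  have hT1' : 1 ≤ T := (le_max_right _ _).trans hT
  have hTp : 0 < T := by linarith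
  set M := (∑ v ∈ V, wt ψ v) * (∑ w ∈ W, wt ψ' w) with hM
  have hM0 : 0 ≤ M :=
    mul_nonneg (Finset.sum_nonneg fun v hv => wt_nonneg (hV v hv).2.le)
      (Finset.sum_nonneg fun v hv => wt_nonneg (hW v hv).2.le)
  have hMs : 0 ≤ M^(1/2+eps1) := by positivity
  set E' := E.filter (fun e => 0 < T1 e) with hE'
  have hstep0 : ∑ e ∈ E, T1 e ≤ ∑ e ∈ E', T1 e := by
    rw [hE', ← Finset.sum_filter_add_sum_filter_not E (fun e => 0 < T1 e)]
    have : ∑ e ∈ E.filter (fun e => ¬ 0 < T1 e), T1 e ≤ 0 :=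
      Finset.sum_nonpos fun e he => not_lt.1 (Finset.mem_filter.1 he).2
    linarith
  refine hstep0.trans ?_
  set Di : ℕ × ℕ → ℝ := fun e => DD ψ ψ' e with hDi
  have hE'E : ∀ e ∈ E', e ∈ E := fun e he => (Finset.mem_filter.1 he).1
  have hDpos : ∀ e ∈ E', 0 < Di e := by
    intro e he
    have hm := Finset.mem_product.1 (hE (hE'E e he))
    exact DD_pos (hW _ hm.2).1 (hV _ hm.1).2
  set ix : ℕ × ℕ → ℕ := fun e => Nat.log 2 ⌊1/(T * Di e)⌋₊ with hix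
  have hixp : ∀ e ∈ E', 1 / (2 * (2^(ix e) * T)) < Di e ∧ Di e ≤ 1 / (2^(ix e) * T) := by
    intro e he
    have h0 := hDpos e he
    have h1 : 1 ≤ 1/(T * Di e) := by
      rw [le_div_iff₀ (by positivity), one_mul]
      have := hD e (hE'E e he)
      rw [le_div_iff₀ hTp] at this
      simp only [hDi]; linarith
    have hfl : 1 ≤ ⌊1/(T * Di e)⌋₊ := Nat.le_floor (by simpa using h1)
    have h2 : 2^(ix e) ≤ ⌊1/(T * Di e)⌋₊ := Nat.pow_log_le_self 2 (by omega)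
    have h3 : ⌊1/(T * Di e)⌋₊ < 2^(ix e + 1) := Nat.lt_pow_succ_log_self (by norm_num) _
    have h2' : (2:ℝ)^(ix e) ≤ 1/(T * Di e) := by
      calc (2:ℝ)^(ix e) ≤ (⌊1/(T * Di e)⌋₊ : ℝ) := by exact_mod_cast h2
        _ ≤ _ := Nat.floor_le (by positivity)
    have h3' : 1/(T * Di e) < (2:ℝ)^(ix e + 1) := by
      have := Nat.lt_of_floor_lt h3
      push_cast at this; exact this
    have hp : (0:ℝ) < 2^(ix e) := by positivity
    rw [le_div_iff₀ (by positivity)] at h2'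
    rw [div_lt_iff₀ (by positivity), pow_succ] at h3'
    constructor
    · rw [div_lt_iff₀ (by positivity)]; nlinarith
    · rw [le_div_iff₀ (by positivity)]; nlinarith
  set J : ℕ := E'.sup ix + 1 with hJ
  have hmaps : ∀ e ∈ E', ix e ∈ range J := by
    intro e he
    rw [Finset.mem_range]
    have : ix e ≤ E'.sup ix := Finset.le_sup (f := ix) he
    omega
  have hscale : ∀ j ∈ range J, ∑ e ∈ E'.filter (fun e => ix e = j), T1 e
      ≤ 2 * C * K * T^(-(6/1000):ℝ) * M^(1/2+eps1) * ρ^j := by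
    intro j _
    set t : ℝ := 2^j * T with ht
    have h2j : (1:ℝ) ≤ 2^j := one_le_pow₀ (by norm_num)
    have htT : T ≤ t := by rw [ht]; nlinarith
    have ht0 : 0 < t := by linarith
    have hXt : X ≤ Real.exp (t^c1) :=
      hX.trans (Real.exp_le_exp.2 (Real.rpow_le_rpow hTp.le htT hc1.le))
    set F := E'.filter (fun e => ix e = j) with hF
    have hFE : ∀ e ∈ F, e ∈ E' := fun e he => (Finset.mem_filter.1 he).1
    have hFD : ∀ e ∈ F, 1/(2*t) < DD ψ ψ' e ∧ DD ψ ψ' e ≤ 1/t := by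
      intro e he
      have h := hixp e (hFE e he)
      rw [(Finset.mem_filter.1 he).2] at h
      exact h
    have h5 := hT0 θ θ' t V W F ψ ψ' G (hT01.trans htT)
      { hδ := by positivity
        hV := fun v hv => (hV v hv).1
        hW := fun v hv => (hW v hv).1
        hψ := fun v hv => (hV v hv).2.le
        hθ := fun v hv => (hW v hv).2.le
        hE := fun e he => hE (hE'E e (hFE e he))
        h1 := fun e he => (le_max_right _ _).trans (hFD e he).2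
        h2 := fun e he => (le_max_left _ _).trans (hFD e he).2 } hG
      (hVt _ hXt) (hWt _ hXt)
      (fun e he => hgen e (hE'E e (hFE e he)) t htT (hFD e he).1 (hFD e he).2
        (Finset.mem_filter.1 (hFE e he)).2)
    have h6 : ∑ e ∈ F, T1 e ≤ K * (2*t) * ∑ e ∈ F, ew ψ ψ' e := by
      rw [Finset.mul_sum]
      apply Finset.sum_le_sum
      intro e he
      have hm := Finset.mem_product.1 (hE (hE'E e (hFE e he)))
      have hew : 0 ≤ ew ψ ψ' e := ew_nonneg (hV _ hm.1).2.le (hW _ hm.2).2.le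
      have hDe := hDpos e (hFE e he)
      refine (hT1 e (hE'E e (hFE e he))).trans ?_
      rw [mul_assoc]
      apply mul_le_mul_of_nonneg_left _ hK
      rw [div_le_iff₀ hDe]
      have h7 : 1 ≤ 2 * t * Di e := by
        have := (hFD e he).1
        rw [div_lt_iff₀ (by positivity)] at this
        simp only [hDi]; linarith
      nlinarith
    have h8 : ∑ e ∈ F, ew ψ ψ' e ≤ C * t^(-(1006/1000):ℝ) * M^(1/2+eps1) := h5
    have e1 : t^(-(6/1000):ℝ) = T^(-(6/1000):ℝ) * ρ^j := by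
      rw [ht, Real.mul_rpow (by positivity) hTp.le, hρ, ← Real.rpow_natCast, ← Real.rpow_natCast,
        ← Real.rpow_mul (by norm_num), ← Real.rpow_mul (by norm_num), mul_comm (j:ℝ)]
      ring
    have e2 : t * t^(-(1006/1000):ℝ) = t^(-(6/1000):ℝ) := by
      nth_rw 1 [← Real.rpow_one t]
      rw [← Real.rpow_add ht0]; norm_num
    calc ∑ e ∈ F, T1 e ≤ K * (2*t) * (C * t^(-(1006/1000):ℝ) * M^(1/2+eps1)) :=
          h6.trans (mul_le_mul_of_nonneg_left h8 (by positivity))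
      _ = 2 * C * K * (t * t^(-(1006/1000):ℝ)) * M^(1/2+eps1) := by ring
      _ = _ := by rw [e2, e1]; ring
  rw [← Finset.sum_fiberwise_of_maps_to hmaps]
  refine (Finset.sum_le_sum hscale).trans ?_
  rw [← Finset.mul_sum]
  have hgeo : ∑ j ∈ range J, ρ^j ≤ Cg := by
    rw [geom_sum_eq (by linarith), hCg]
    have h1 : 0 ≤ ρ^J := by positivity
    rw [show (ρ^J - 1)/(ρ - 1) = (1 - ρ^J)/(1-ρ) by
      rw [← neg_div_neg_eq]; congr 1 <;> ring]
    apply div_le_div_of_nonneg_right _ (by linarith)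
    linarith
  calc 2 * C * K * T^(-(6/1000):ℝ) * M^(1/2+eps1) * ∑ j ∈ range J, ρ^j
      ≤ 2 * C * K * T^(-(6/1000):ℝ) * M^(1/2+eps1) * Cg :=
        mul_le_mul_of_nonneg_left hgeo (by positivity)
    _ = _ := by ring

end Crest.Agent.R4.ClsT223
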