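import Mathlib
import Crest.Agent.R4.ClsB_944

/-!
R4 (S0004), helper944: class (B), TWO TARGETS, `N = t^{7/200}` (module F of #13673).
-/

set_option autoImplicit false
open Finset

namespace Crest.Agent.R4.ClsTBs

open Crest.Agent.R4.HVW560 Crest.Agent.R4.Smo944 Crest.Agent.R4.LF10 Crest.Agent.R016
open Crest.Agent.R4.LF765 Crest.Agent.R4.ClsS Crest.Agent.R4.LF9 Crest.Agent.R4.LF8
open Crest.Agent.R4.ClsB (dyadic_sum dyadic_triv BBp bet bet_nonneg exists_sumT Af_tame dvd_sp log_sp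
  Nt one_le_Nt Nt_le twohundred_Nt NumB Tame exists_NumB part2)

/-- relation of class (B), two targets: `θ` is the target of the first item (multiplied by `y`),
`θ'` the one of the second item -/
structure PairBT (θ θ' t N2 Yb : ℝ) (x y : ℕ) : Prop where
  hx : 0 < x
  hy : 0 < y
  hyY : Yb < y
  rel : ∃ n : ℤ, |(n:ℝ) - (θ' * x - θ * y)| ≤ 2 / t
  uns : ∀ Y : ℝ, 0 < Y → Y < y → (y:ℝ) ≤ 2 * Y → ¬ Struct N2 θ t Y

/-- `N(t)`, with `2 N^5 = t^{7/200}` -/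
noncomputable def Ns (t : ℝ) : ℝ := (t^(7/200:ℝ)/2)^(1/5:ℝ)

theorem two_Ns {t : ℝ} (ht : 0 < t) : 2 * (Ns t)^5 = t^(7/200:ℝ) := by
  unfold Ns
  rw [← Real.rpow_natCast, ← Real.rpow_mul (by positivity)]
  norm_num
  ring

theorem one_le_Ns {t : ℝ} (ht : 2^50 ≤ t) : 1 ≤ Ns t := by
  have ht0 : (0:ℝ) < t := lt_of_lt_of_le (by norm_num) ht
  unfold Ns
  apply Real.one_le_rpow _ (by norm_num)
  rw [le_div_iff₀ (by norm_num)]
  calc (1 * 2 : ℝ) ≤ ((2:ℝ)^50)^(7/200:ℝ) := by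
        rw [← Real.rpow_natCast, ← Real.rpow_mul (by norm_num)]
        calc (1*2:ℝ) = (2:ℝ)^(1:ℝ) := by norm_num
          _ ≤ _ := Real.rpow_le_rpow_of_exponent_le (by norm_num) (by norm_num)
    _ ≤ _ := Real.rpow_le_rpow (by norm_num) ht (by norm_num)

theorem Ns_le_Nt {t : ℝ} (ht : 2^50 ≤ t) : Ns t ≤ Nt t := by
  have ht0 : (0:ℝ) < t := lt_of_lt_of_le (by norm_num) ht
  have ht1 : (1:ℝ) ≤ t := le_trans (by norm_num) ht
  unfold Ns Nt
  apply Real.rpow_le_rpow (by positivity) _ (by norm_num)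
  apply div_le_div_of_nonneg_right _ (by norm_num)
  exact Real.rpow_le_rpow_of_exponent_le ht1 (by norm_num)

theorem inv_Ns_le {t : ℝ} (ht : 2^50 ≤ t) : 1 / Ns t ≤ 2 * t^(-(7/1000):ℝ) := by
  have ht0 : (0:ℝ) < t := lt_of_lt_of_le (by norm_num) ht
  have e : Ns t = t^(7/1000:ℝ) / 2^(1/5:ℝ) := by
    unfold Ns
    rw [Real.div_rpow (by positivity) (by norm_num), ← Real.rpow_mul ht0.le]; norm_num
  rw [e, one_div_div, Real.rpow_neg ht0.le, ← div_eq_mul_inv]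
  apply div_le_div_of_nonneg_right _ (by positivity)
  calc (2:ℝ)^(1/5:ℝ) ≤ (2:ℝ)^(1:ℝ) := Real.rpow_le_rpow_of_exponent_le (by norm_num) (by norm_num)
    _ = 2 := by norm_num

/-- the `β`-hypothesis -/
theorem betaHyp {θ θ' t N B1 Yb z : ℝ} {a b : ℕ} (hN : 1 ≤ N) (ht : 200 * N ≤ t) (hB1 : 1 ≤ B1)
    (hbig : N ≤ Yb / (2*B1)) (hb : 0 < b) (hbB : (b:ℝ) ≤ B1) :
    BetaHyp z (fun x y => Nat.Coprime x y ∧ PairBT θ θ' t (2*N^5) Yb (a*x) (b*y)) (bet θ t N B1 Yb b) := by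
  classical
  intro v Y _
  have ht0 : 0 < t := by linarith
  have hN0 : 0 < N := by linarith
  have hbr : (0:ℝ) < b := by exact_mod_cast hb
  set S := (range (Y+1)).filter (fun w => ZR z w ∧ Nat.Coprime v w ∧ PairBT θ θ' t (2*N^5) Yb (a*v) (b*w)) with hS
  refine le_trans (le_of_eq (Finset.sum_congr (s₂ := S) ?_ fun _ _ => rfl)) ?_
  · ext w
    simp only [hS, Finset.mem_filter]
  have hS1 : ∀ w ∈ S, 0 < w ∧ w ≤ Y := by
    intro w hw
    rw [hS, Finset.mem_filter, Finset.mem_range] at hw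
    exact ⟨hw.2.1.1, by omega⟩
  by_cases hBB : BBp θ t N B1 Yb b
  · have : bet θ t N B1 Yb b = 6 := by unfold bet; rw [if_pos hBB]
    rw [this]
    exact dyadic_triv hS1
  · have hbet : bet θ t N B1 Yb b = 3 * (3 / N) := by unfold bet; rw [if_neg hBB]; ring
    rw [hbet]
    apply dyadic_sum (by positivity) hS1
    intro i
    set W0 : ℝ := (Y:ℝ)/2^(i+1) with hW0
    set F := S.filter (fun w : ℕ => W0 < (w:ℝ) ∧ (w:ℝ) ≤ 2 * W0) with hF
    rcases F.eq_empty_or_nonempty with hem | ⟨w0, hw0⟩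
    · rw [hem]; simp; positivity
    rw [hF, Finset.mem_filter, hS, Finset.mem_filter] at hw0
    obtain ⟨⟨_, _, _, hP⟩, hlo, hhi⟩ := hw0
    have hYpos : 0 < W0 := by
      have h1 := hP.hy
      have : 0 < w0 := by
        rcases Nat.eq_zero_or_pos w0 with h | h
        · subst h; simp at h1
        · exact h
      have h2 : (0:ℝ) < w0 := by exact_mod_cast this
      linarith
    have h1 : Yb / (2*B1) ≤ W0 := by
      rw [div_le_iff₀ (by positivity)]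
      have h2 := hP.hyY
      push_cast at h2
      have h3 : (b:ℝ) * w0 ≤ B1 * (2*W0) := mul_le_mul hbB hhi (by positivity) (by linarith)
      linarith
    have hns2 : ¬ NStr θ t (2*b*W0) (2*N^5) := by
      intro hcon
      have h4 : ¬ Struct (2*N^5) θ t (b*W0) := hP.uns (b*W0) (by positivity)
        (by push_cast; exact mul_lt_mul_of_pos_left hlo hbr)
        (by
          push_cast
          calc (b:ℝ) * w0 ≤ b * (2*W0) := mul_le_mul_of_nonneg_left hhi hbr.le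
            _ = 2 * (b*W0) := by ring)
      apply h4
      exact NStr.mono ht0 (by positivity) (by nlinarith [mul_pos hbr hYpos]) hcon
    have hns : ¬ Struct N (b*θ) t W0 := fun hcon => hBB ⟨W0, h1, hcon, hns2⟩
    have hlf := LF6 hN hYpos ht hns (θ' * (a*v)) F (by
      intro w hw
      rw [hF, Finset.mem_filter] at hw
      exact hw.2) (by
      intro w hw
      rw [hF, Finset.mem_filter, hS, Finset.mem_filter] at hw
      obtain ⟨n, hn⟩ := hw.1.2.2.2.rel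
      refine ⟨-n, ?_⟩
      push_cast at hn ⊢
      have e : (b:ℝ) * θ * w - θ' * (a * v) - -(n:ℝ) = n - (θ' * (a * v) - θ * (b * w)) := by ring
      rw [e]; exact hn)
    have h5 : N ≤ W0 := hbig.trans h1
    have h6 : 1 ≤ W0 / N := by rw [le_div_iff₀ hN0]; linarith
    calc (F.card:ℝ) ≤ 2 * W0 / N + 1 := hlf.le
      _ ≤ 2 * W0 / N + W0 / N := by linarith
      _ = 3 / N * W0 := by ring

/-- part 1: the smooth part of `y` is at most `B1` -/
theorem part1 {ε : ℝ} (hε : 0 < ε) (hε4 : ε ≤ 1/4) : ∃ C K : ℝ, 1 ≤ C ∧ 0 ≤ K ∧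
    ∀ (c1 θ θ' t : ℝ) (V W : Finset ℕ) (E : Finset (ℕ × ℕ)) (ψ ψ' : ℕ → ℝ) (G : ℕ), 0 < c1 →
    NumB ε c1 t → Sys V W E ψ ψ' (1/t) → 0 < G →
    (∀ q ∈ V, Tame (Real.exp (t^c1)) G q) → (∀ q ∈ W, Tame (Real.exp (t^c1)) G q) →
    (∀ e ∈ E, PairBT θ θ' t (t^(7/200:ℝ)) (Real.exp (t^(3*c1))) (cof e.1 e.2) (cof e.2 e.1)) →
    (∀ e ∈ E, ((sp (fun p : ℕ => (p:ℝ) ≤ Real.exp (t^c1)) (cof e.2 e.1) : ℕ) : ℝ) ≤ Real.exp (t^(2*c1))) →
    ∑ e ∈ E, wt ψ e.1 * wt ψ' e.2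
      ≤ C * ((1/t)^(1-2*ε) * (t^(c1*K - 7/1000))^(1/2-ε) *
        ((∑ v ∈ V, wt ψ v) * (∑ w ∈ W, wt ψ' w))^(1/2+ε)) := by
  classical
  set κ : ℝ := (72/ε)^3 with hκd
  have hκ : 0 ≤ κ := by positivity
  obtain ⟨CT, hCT1, hCT⟩ := exists_sumT hκ
  have hSm := (Sm_pos 6).le
  set K0 : ℝ := κ * Sm 6 with hK0
  have hK00 : 0 ≤ K0 := by positivity
  have hu : 0 < 1/2 - ε := by linarith
  set C0 : ℝ := Real.exp (2 + 2/ε) with hC0
  have hC01 : 1 ≤ C0 := Real.one_le_exp (by positivity)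
  set C1 : ℝ := CT * (Real.exp (12*K0)) * 2 with hC1
  have hC11 : 1 ≤ C1 := by
    have : 1 ≤ Real.exp (12*K0) := Real.one_le_exp (by positivity)
    nlinarith
  refine ⟨C0 * C1, 2*K0, by nlinarith, by positivity, ?_⟩
  intro c1 θ θ' t V W E ψ ψ' G hc1 hnum hs hG hVt hWt hP hB
  have ht := hnum.ht
  have ht0 : (0:ℝ) < t := lt_of_lt_of_le (by norm_num) ht
  have ht1 : (1:ℝ) ≤ t := le_trans (by norm_num) ht
  set z : ℝ := Real.exp (t^c1) with hz
  set B1 : ℝ := Real.exp (t^(2*c1)) with hB1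
  set Yb : ℝ := Real.exp (t^(3*c1)) with hYb
  set N : ℝ := Ns t with hN
  have hN1 : 1 ≤ N := one_le_Ns ht
  have hNN : N ≤ Nt t := Ns_le_Nt ht
  have hN0 : 0 < N := by linarith
  have hz1 : 1 ≤ z := Real.one_le_exp (by positivity)
  have hz2 : 2 ≤ z := by
    have := Real.add_one_le_exp (t^c1)
    have := hnum.h16
    linarith
  have hB11 : 1 ≤ B1 := Real.one_le_exp (by positivity)
  have hYb0 : 0 < Yb := Real.exp_pos _
  have hwnn : ∀ v ∈ V, 0 ≤ wt ψ v := fun v hv => wt_nonneg (hs.hψ v hv)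
  have hwnn' : ∀ v ∈ W, 0 ≤ wt ψ' v := fun v hv => wt_nonneg (hs.hθ v hv)
  have hdivV : ∀ q ∈ V, q = G * (q / G) := fun q hq => (Nat.mul_div_cancel' (hVt q hq).1).symm
  have hdivW : ∀ q ∈ W, q = G * (q / G) := fun q hq => (Nat.mul_div_cancel' (hWt q hq).1).symm
  have hcof : ∀ e ∈ E, cof (e.1/G) (e.2/G) = cof e.1 e.2 ∧ cof (e.2/G) (e.1/G) = cof e.2 e.1 := by
    intro e he
    have hm := Finset.mem_product.1 (hs.hE he)
    have h1 := hdivV _ hm.1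
    have h2 := hdivW _ hm.2
    constructor
    · conv_rhs => rw [h1, h2, cof_mul_left hG]
    · conv_rhs => rw [h1, h2, cof_mul_left hG]
  have hposV : ∀ q ∈ V, 0 < q / G := fun q hq =>
    Nat.div_pos (Nat.le_of_dvd (hs.hV q hq) (hVt q hq).1) hG
  have hposW : ∀ q ∈ W, 0 < q / G := fun q hq =>
    Nat.div_pos (Nat.le_of_dvd (hs.hW q hq) (hWt q hq).1) hG
  set β : ℕ → ℕ → ℝ := fun _ b => bet θ t N B1 Yb b with hβ
  have key := lf9_full hε hε4 (Real.exp_pos (2+2/ε)).le (by positivity : (0:ℝ) ≤ ε/16)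
    (thmR hε hε4) hnum.hz0 hz1 V W E (fun q => q/G) (fun q => q/G) (wt ψ) (wt ψ') (1/t)
    (PairBT θ θ' t (2*N^5) Yb) β (by positivity) hposV hposW
    (by
      intro a ha b hb hab
      rw [hdivV a ha, hdivV b hb]
      simp only at hab
      rw [hab])
    (by
      intro a ha b hb hab
      rw [hdivW a ha, hdivW b hb]
      simp only at hab
      rw [hab])
    hwnn hwnn' hs.hE (fun q hq => (hVt q hq).2) (fun q hq => (hWt q hq).2)
    (by
      intro e he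
      have hm := Finset.mem_product.1 (hs.hE he)
      rw [(hcof e he).1]
      refine le_trans ?_ (hs.h1 e he)
      apply mul_le_mul_of_nonneg_left _ (by positivity)
      unfold wt
      have := totient_ratio_le_one e.2
      have h2 := hs.hθ _ hm.2
      nlinarith)
    (by
      intro e he
      have hm := Finset.mem_product.1 (hs.hE he)
      rw [(hcof e he).2]
      refine le_trans ?_ (hs.h2 e he)
      apply mul_le_mul_of_nonneg_left _ (by positivity)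
      unfold wt
      have := totient_ratio_le_one e.1
      have h2 := hs.hψ _ hm.1
      nlinarith)
    (by
      intro e he
      rw [(hcof e he).1, (hcof e he).2, hN, two_Ns ht0]
      exact hP e he)
    (fun a b => bet_nonneg hN0 b)
    (by
      intro a b _ hb0 _ _ hbS himg
      apply betaHyp hN1 (by have := twohundred_Nt ht; linarith) hB11 (hNN.trans hnum.hN) hb0
      obtain ⟨_, _, _, _, hxS, e, he, _, _, hdvd, _, _⟩ := mem_image_sp (fun p : ℕ => (p:ℝ) ≤ z)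
        hposV hposW hs.hE himg
      rw [(hcof e he).2] at hdvd
      have hm := Finset.mem_product.1 (hs.hE he)
      have hy := cof_pos (w := e.1) (hs.hW _ hm.2)
      have h1 := dvd_sp (fun p : ℕ => (p:ℝ) ≤ z) hy hxS hdvd
      have h2 := Nat.le_of_dvd (sp_pos _ hy) h1
      exact le_trans (by exact_mod_cast h2) (hB e he))
  refine key.trans ?_
  set img := E.image (fun e => (cof (sp (fun p : ℕ => (p:ℝ) ≤ z) (e.1/G)) (sp (fun p : ℕ => (p:ℝ) ≤ z) (e.2/G)),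
            cof (sp (fun p : ℕ => (p:ℝ) ≤ z) (e.2/G)) (sp (fun p : ℕ => (p:ℝ) ≤ z) (e.1/G)))) with himg
  have hzf2 : 2 ≤ ⌊z⌋₊ := Nat.le_floor (by exact_mod_cast hz2)
  have hprops : ∀ x ∈ img, 0 < x.1 ∧ 0 < x.2 ∧ (∀ p, p.Prime → p ∣ x.1 → p ≤ ⌊z⌋₊) ∧
      (∀ p, p.Prime → p ∣ x.2 → p ≤ ⌊z⌋₊) ∧ (x.2:ℝ) ≤ B1 := by
    intro x hx
    obtain ⟨h1, h2, _, h4, h5, e, he, _, _, hdvd, _, _⟩ := mem_image_sp (fun p : ℕ => (p:ℝ) ≤ z)
      hposV hposW hs.hE hx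
    refine ⟨h1, h2, fun p hp hd => Nat.le_floor (h4 p hp hd), fun p hp hd => Nat.le_floor (h5 p hp hd), ?_⟩
    rw [(hcof e he).2] at hdvd
    have hm := Finset.mem_product.1 (hs.hE he)
    have hy := cof_pos (w := e.1) (hs.hW _ hm.2)
    have h6 := dvd_sp (fun p : ℕ => (p:ℝ) ≤ z) hy h5 hdvd
    have h7 := Nat.le_of_dvd (sp_pos _ hy) h6
    exact le_trans (by exact_mod_cast h7) (hB e he)
  have hT := hCT θ t N B1 Yb (z^(-(2*(ε/16)))) ⌊z⌋₊ img hzf2 ht0 hN1 hB11 hYb0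
    (lt_of_le_of_lt (by gcongr) hnum.big) (by positivity)
    (hnum.hη.trans (one_div_le_one_div_of_le hN0 hNN))
    (by
      intro b hb
      obtain ⟨x, hx, rfl⟩ := Finset.mem_image.1 hb
      exact ⟨(hprops x hx).1, (hprops x hx).2.2.1⟩)
    (by
      intro b hb
      obtain ⟨x, hx, rfl⟩ := Finset.mem_image.1 hb
      exact ⟨(hprops x hx).2.1, (hprops x hx).2.2.2.1⟩)
    (fun x hx => (hprops x hx).2.2.2.2)
  -- numerics
  have hlogz : Real.log ⌊z⌋₊ ≤ t^c1 := by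
    have h0 : (0:ℝ) < (⌊z⌋₊:ℝ) := by positivity
    calc Real.log ⌊z⌋₊ ≤ Real.log z := Real.log_le_log h0 (Nat.floor_le (by linarith))
      _ = t^c1 := by rw [hz, Real.log_exp]
  have hlogz0 : 0 < Real.log ⌊z⌋₊ := Real.log_pos (by
    have : (2:ℝ) ≤ (⌊z⌋₊:ℝ) := by exact_mod_cast hzf2
    linarith)
  have hX : Real.exp (K0 * (Real.log (Real.log ⌊z⌋₊) + 6)) ≤ Real.exp (6*K0) * t^(c1*K0) := by
    have h2 : Real.log (Real.log ⌊z⌋₊) ≤ c1 * Real.log t := by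
      calc Real.log (Real.log ⌊z⌋₊) ≤ Real.log (t^c1) := Real.log_le_log hlogz0 hlogz
        _ = c1 * Real.log t := Real.log_rpow ht0 _
    have h3 : t^(c1*K0) = Real.exp (K0 * (c1 * Real.log t)) := by
      rw [Real.rpow_def_of_pos ht0]; congr 1; ring
    rw [h3, ← Real.exp_add]
    apply Real.exp_le_exp.2
    nlinarith
  have hT2 : ∑ x ∈ img, wn κ x.1 * wn κ x.2 * (β x.1 x.2 + z^(-(2*(ε/16)))) ≤ C1 * t^(c1*(2*K0) - 7/1000) := by
    refine hT.trans ?_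
    have h1 : (Real.exp (κ * Sm 6 * (Real.log (Real.log ⌊z⌋₊) + 6)))^2 ≤ Real.exp (12*K0) * t^(c1*(2*K0)) := by
      calc (Real.exp (κ * Sm 6 * (Real.log (Real.log ⌊z⌋₊) + 6)))^2 ≤ (Real.exp (6*K0) * t^(c1*K0))^2 :=
            pow_le_pow_left₀ (Real.exp_pos _).le hX 2
        _ = Real.exp (12*K0) * t^(c1*(2*K0)) := by
            rw [mul_pow, ← Real.exp_nat_mul, ← Real.rpow_natCast, ← Real.rpow_mul ht0.le]
            congr 1
            · congr 1; push_cast; ring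
            · congr 1; push_cast; ring
    calc CT * (Real.exp (κ * Sm 6 * (Real.log (Real.log ⌊z⌋₊) + 6)))^2 / N
        = CT * (Real.exp (κ * Sm 6 * (Real.log (Real.log ⌊z⌋₊) + 6)))^2 * (1/N) := by ring
      _ ≤ CT * (Real.exp (12*K0) * t^(c1*(2*K0))) * (2 * t^(-(7/1000):ℝ)) := by
          apply mul_le_mul _ (inv_Ns_le ht) (by positivity) (by positivity)
          exact mul_le_mul_of_nonneg_left h1 (by linarith)
      _ = C1 * (t^(c1*(2*K0)) * t^(-(7/1000):ℝ)) := by rw [hC1]; ring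
      _ = C1 * t^(c1*(2*K0) - 7/1000) := by rw [← Real.rpow_add ht0]; rfl
  have hT0 : 0 ≤ ∑ x ∈ img, wn κ x.1 * wn κ x.2 * (β x.1 x.2 + z^(-(2*(ε/16)))) := by
    apply Finset.sum_nonneg
    intro x _
    exact mul_nonneg (mul_nonneg (wn_nonneg hκ _) (wn_nonneg hκ _))
      (add_nonneg (bet_nonneg hN0 _) (by positivity))
  have hT3 : (∑ x ∈ img, wn κ x.1 * wn κ x.2 * (β x.1 x.2 + z^(-(2*(ε/16)))))^(1/2-ε)
      ≤ C1 * (t^(c1*(2*K0) - 7/1000))^(1/2-ε) := by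
    calc _ ≤ (C1 * t^(c1*(2*K0) - 7/1000))^(1/2-ε) := Real.rpow_le_rpow hT0 hT2 hu.le
      _ = C1^(1/2-ε) * (t^(c1*(2*K0) - 7/1000))^(1/2-ε) := Real.mul_rpow (by linarith) (by positivity)
      _ ≤ C1 * (t^(c1*(2*K0) - 7/1000))^(1/2-ε) := by
          apply mul_le_mul_of_nonneg_right _ (by positivity)
          calc C1^(1/2-ε) ≤ C1^(1:ℝ) := Real.rpow_le_rpow_of_exponent_le hC11 (by linarith)
            _ = C1 := Real.rpow_one C1
  have hM : 0 ≤ (∑ v ∈ V, wt ψ v) * (∑ w ∈ W, wt ψ' w) :=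
    mul_nonneg (Finset.sum_nonneg hwnn) (Finset.sum_nonneg hwnn')
  have hMs : 0 ≤ ((∑ v ∈ V, wt ψ v) * (∑ w ∈ W, wt ψ' w))^(1/2+ε) := by positivity
  calc C0 * ((1/t)^(1-2*ε) * ((∑ x ∈ img, wn κ x.1 * wn κ x.2 * (β x.1 x.2 + z^(-(2*(ε/16)))))^(1/2-ε) *
        ((∑ v ∈ V, wt ψ v) * (∑ w ∈ W, wt ψ' w))^(1/2+ε)))
      ≤ C0 * ((1/t)^(1-2*ε) * ((C1 * (t^(c1*(2*K0) - 7/1000))^(1/2-ε)) *
        ((∑ v ∈ V, wt ψ v) * (∑ w ∈ W, wt ψ' w))^(1/2+ε))) := by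
        apply mul_le_mul_of_nonneg_left _ (by positivity)
        apply mul_le_mul_of_nonneg_left _ (by positivity)
        exact mul_le_mul_of_nonneg_right hT3 hMs
    _ = _ := by ring

/-- **class (B)**, one orientation -/
theorem classBT_half : ∃ C K : ℝ, 1 ≤ C ∧ 0 ≤ K ∧
    ∀ c1 : ℝ, 0 < c1 → c1 * (4 + K) ≤ 1/3000 →
    ∀ (θ θ' t : ℝ) (V W : Finset ℕ) (E : Finset (ℕ × ℕ)) (ψ ψ' : ℕ → ℝ) (G : ℕ),
    NumB eps1 c1 t → Sys V W E ψ ψ' (1/t) → 0 < G →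
    (∀ q ∈ V, Tame (Real.exp (t^c1)) G q) → (∀ q ∈ W, Tame (Real.exp (t^c1)) G q) →
    (∀ e ∈ E, PairBT θ θ' t (t^(7/200:ℝ)) (Real.exp (t^(3*c1))) (cof e.1 e.2) (cof e.2 e.1)) →
    ∑ e ∈ E, wt ψ e.1 * wt ψ' e.2 * (Af (cof e.1 e.2) * Af (cof e.2 e.1))
      ≤ C * t^(-(1001/1000):ℝ) * ((∑ v ∈ V, wt ψ v) * (∑ w ∈ W, wt ψ' w))^(1/2+eps1) := by
  classical
  have hε : (0:ℝ) < eps1 := by unfold eps1; norm_num
  have hε4 : eps1 ≤ 1/4 := by unfold eps1; norm_num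
  obtain ⟨C1, K, hC1, hK, h1⟩ := part1 hε hε4
  obtain ⟨C2, hC2, h2⟩ := part2 hε hε4
  refine ⟨Real.exp 28 * (C1 + C2), K, ?_, hK, ?_⟩
  · have : 1 ≤ Real.exp 28 := Real.one_le_exp (by norm_num)
    nlinarith
  intro c1 hc1 hc1K θ θ' t V W E ψ ψ' G hnum hs hG hVt hWt hP
  have ht := hnum.ht
  have ht0 : (0:ℝ) < t := lt_of_lt_of_le (by norm_num) ht
  have ht1 : (1:ℝ) ≤ t := le_trans (by norm_num) ht
  set z : ℝ := Real.exp (t^c1) with hz
  have h16 := hnum.h16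
  have hz2 : 2 ≤ z := by
    have := Real.add_one_le_exp (t^c1)
    linarith
  have hzf2 : 2 ≤ ⌊z⌋₊ := Nat.le_floor (by exact_mod_cast hz2)
  have hlogz : Real.log ⌊z⌋₊ ≤ t^c1 := by
    have h0 : (0:ℝ) < (⌊z⌋₊:ℝ) := by positivity
    calc Real.log ⌊z⌋₊ ≤ Real.log z := Real.log_le_log h0 (Nat.floor_le (by linarith))
      _ = t^c1 := by rw [hz, Real.log_exp]
  have hlogz0 : 0 < Real.log ⌊z⌋₊ := Real.log_pos (by
    have : (2:ℝ) ≤ (⌊z⌋₊:ℝ) := by exact_mod_cast hzf2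
    linarith)
  have hA1 : Real.exp (2 * (Real.log (Real.log ⌊z⌋₊) + 6) + 2) ≤ Real.exp 14 * t^(2*c1) := by
    have h2 : Real.log (Real.log ⌊z⌋₊) ≤ c1 * Real.log t := by
      calc Real.log (Real.log ⌊z⌋₊) ≤ Real.log (t^c1) := Real.log_le_log hlogz0 hlogz
        _ = c1 * Real.log t := Real.log_rpow ht0 _
    rw [Real.rpow_def_of_pos ht0, ← Real.exp_add]
    apply Real.exp_le_exp.2
    linarith
  have hzhalf : z^(-(1/2:ℝ)) ≤ 1 := Real.rpow_le_one_of_one_le_of_nonpos (by linarith) (by norm_num)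
  -- the weights
  have hAf : ∀ e ∈ E, Af (cof e.1 e.2) * Af (cof e.2 e.1) ≤ Real.exp 28 * t^(4*c1) := by
    intro e he
    have hm := Finset.mem_product.1 (hs.hE he)
    have hd1 : e.1 = G * (e.1 / G) := (Nat.mul_div_cancel' (hVt _ hm.1).1).symm
    have hd2 : e.2 = G * (e.2 / G) := (Nat.mul_div_cancel' (hWt _ hm.2).1).symm
    have hp1 : 0 < e.1 / G := Nat.div_pos (Nat.le_of_dvd (hs.hV _ hm.1) (hVt _ hm.1).1) hG
    have hp2 : 0 < e.2 / G := Nat.div_pos (Nat.le_of_dvd (hs.hW _ hm.2) (hWt _ hm.2).1) hG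
    have hc1' : cof e.1 e.2 = cof (e.1/G) (e.2/G) := by
      conv_lhs => rw [hd1, hd2, cof_mul_left hG]
    have hc2' : cof e.2 e.1 = cof (e.2/G) (e.1/G) := by
      conv_lhs => rw [hd1, hd2, cof_mul_left hG]
    have hdv1 : cof e.1 e.2 ∣ e.1 / G := by rw [hc1']; exact Dvd.intro _ (cof_mul_gcd _ _)
    have hdv2 : cof e.2 e.1 ∣ e.2 / G := by rw [hc2']; exact Dvd.intro _ (cof_mul_gcd _ _)
    have hb : ∀ (n q : ℕ), n ∣ q → 0 < q →
        ∑ p ∈ q.primeFactors.filter (fun p : ℕ => z < (p:ℝ)), (1:ℝ)/p ≤ z^(-(1/2:ℝ)) →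
        Af n ≤ Real.exp 14 * t^(2*c1) := by
      intro n q hnq hq hbud
      refine le_trans (Af_tame hz2 ?_) hA1
      refine le_trans ?_ (hbud.trans hzhalf)
      apply Finset.sum_le_sum_of_subset_of_nonneg
      · intro p hp
        rw [Finset.mem_filter] at hp ⊢
        exact ⟨Nat.primeFactors_mono hnq hq.ne' hp.1, hp.2⟩
      · intro p _ _; positivity
    have a1 := hb _ _ hdv1 hp1 (hVt _ hm.1).2
    have a2 := hb _ _ hdv2 hp2 (hWt _ hm.2).2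
    calc Af (cof e.1 e.2) * Af (cof e.2 e.1) ≤ (Real.exp 14 * t^(2*c1)) * (Real.exp 14 * t^(2*c1)) :=
          mul_le_mul a1 a2 (Af_pos _).le (by positivity)
      _ = (Real.exp 14 * Real.exp 14) * (t^(2*c1) * t^(2*c1)) := by ring
      _ = Real.exp 28 * t^(4*c1) := by
          rw [← Real.exp_add, ← Real.rpow_add ht0]
          congr 2
          · norm_num
          · ring
  have hw0 : ∀ e ∈ E, 0 ≤ wt ψ e.1 * wt ψ' e.2 := by
    intro e he
    have hm := Finset.mem_product.1 (hs.hE he)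
    exact mul_nonneg (wt_nonneg (hs.hψ _ hm.1)) (wt_nonneg (hs.hθ _ hm.2))
  have hstep : ∑ e ∈ E, wt ψ e.1 * wt ψ' e.2 * (Af (cof e.1 e.2) * Af (cof e.2 e.1))
      ≤ (Real.exp 28 * t^(4*c1)) * ∑ e ∈ E, wt ψ e.1 * wt ψ' e.2 := by
    rw [Finset.mul_sum]
    apply Finset.sum_le_sum
    intro e he
    rw [mul_comm]
    exact mul_le_mul_of_nonneg_right (hAf e he) (hw0 e he)
  refine hstep.trans ?_
  set M := (∑ v ∈ V, wt ψ v) * (∑ w ∈ W, wt ψ' w) with hM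
  have hM0 : 0 ≤ M :=
    mul_nonneg (Finset.sum_nonneg fun v hv => wt_nonneg (hs.hψ v hv))
      (Finset.sum_nonneg fun v hv => wt_nonneg (hs.hθ v hv))
  set E1 := E.filter (fun e => ((sp (fun p : ℕ => (p:ℝ) ≤ z) (cof e.2 e.1) : ℕ) : ℝ) ≤ Real.exp (t^(2*c1))) with hE1
  set E2 := E.filter (fun e => ¬ ((sp (fun p : ℕ => (p:ℝ) ≤ z) (cof e.2 e.1) : ℕ) : ℝ) ≤ Real.exp (t^(2*c1))) with hE2
  have hsub : ∀ E' ⊆ E, Sys V W E' ψ ψ' (1/t) := fun E' hE' =>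
    { hδ := hs.hδ, hV := hs.hV, hW := hs.hW, hψ := hs.hψ, hθ := hs.hθ
      hE := hE'.trans hs.hE
      h1 := fun e he => hs.h1 e (hE' he)
      h2 := fun e he => hs.h2 e (hE' he) }
  have b1 := h1 c1 θ θ' t V W E1 ψ ψ' G hc1 hnum (hsub _ (Finset.filter_subset _ _)) hG hVt hWt
    (fun e he => hP e (Finset.mem_filter.1 he).1) (fun e he => (Finset.mem_filter.1 he).2)
  have b2 := h2 c1 t V W E2 ψ ψ' hc1 hnum (hsub _ (Finset.filter_subset _ _))
    (fun e he => not_le.1 (Finset.mem_filter.1 he).2)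
  have hsplit : ∑ e ∈ E, wt ψ e.1 * wt ψ' e.2 = ∑ e ∈ E1, wt ψ e.1 * wt ψ' e.2 + ∑ e ∈ E2, wt ψ e.1 * wt ψ' e.2 := by
    rw [hE1, hE2, Finset.sum_filter_add_sum_filter_not]
  have hMs : 0 ≤ M^(1/2+eps1) := by positivity
  have et : (1/t)^(1-2*eps1) = t^(-(1-2*eps1)) := by
    rw [one_div, Real.inv_rpow ht0.le, Real.rpow_neg ht0.le]
  have n1 : t^(4*c1) * ((1/t)^(1-2*eps1) * (t^(c1*K - 7/1000))^(1/2-eps1)) ≤ t^(-(1001/1000):ℝ) := by
    rw [et, ← Real.rpow_mul ht0.le, ← Real.rpow_add ht0, ← Real.rpow_add ht0]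
    apply Real.rpow_le_rpow_of_exponent_le ht1
    unfold eps1
    have : 0 ≤ c1 * K := by positivity
    nlinarith
  have n2 : t^(4*c1) * ((1/t)^(1-2*eps1) * Real.exp (-(t^c1))) ≤ t^(-(1001/1000):ℝ) := by
    calc t^(4*c1) * ((1/t)^(1-2*eps1) * Real.exp (-(t^c1)))
        ≤ t^(4*c1) * ((1/t)^(1-2*eps1) * t^(-1:ℝ)) := by
          apply mul_le_mul_of_nonneg_left _ (by positivity)
          exact mul_le_mul_of_nonneg_left hnum.hexp (by positivity)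
      _ = t^(4*c1 + (-(1-2*eps1) + (-1))) := by
          rw [et, ← Real.rpow_add ht0, ← Real.rpow_add ht0]
      _ ≤ t^(-(1001/1000):ℝ) := by
          apply Real.rpow_le_rpow_of_exponent_le ht1
          unfold eps1
          have : 0 ≤ c1 * K := by positivity
          nlinarith
  calc Real.exp 28 * t^(4*c1) * ∑ e ∈ E, wt ψ e.1 * wt ψ' e.2
      ≤ Real.exp 28 * t^(4*c1) * (C1 * ((1/t)^(1-2*eps1) * (t^(c1*K - 7/1000))^(1/2-eps1) * M^(1/2+eps1)) +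
        C2 * ((1/t)^(1-2*eps1) * Real.exp (-(t^c1)) * M^(1/2+eps1))) := by
        rw [hsplit]
        exact mul_le_mul_of_nonneg_left (add_le_add b1 b2) (by positivity)
    _ = Real.exp 28 * (C1 * (t^(4*c1) * ((1/t)^(1-2*eps1) * (t^(c1*K - 7/1000))^(1/2-eps1))) * M^(1/2+eps1) +
        C2 * (t^(4*c1) * ((1/t)^(1-2*eps1) * Real.exp (-(t^c1)))) * M^(1/2+eps1)) := by ring
    _ ≤ Real.exp 28 * (C1 * t^(-(1001/1000):ℝ) * M^(1/2+eps1) + C2 * t^(-(1001/1000):ℝ) * M^(1/2+eps1)) := by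
        apply mul_le_mul_of_nonneg_left _ (by positivity)
        apply add_le_add
        · apply mul_le_mul_of_nonneg_right _ hMs
          exact mul_le_mul_of_nonneg_left n1 (by linarith)
        · apply mul_le_mul_of_nonneg_right _ hMs
          exact mul_le_mul_of_nonneg_left n2 (by linarith)
    _ = _ := by ring

/-- **class (B), two targets, `N = t^{7/200}`**: all related pairs whose first (or second) cofactor
is larger than `exp (t^{3 c1})` with an unstructured target, systems tame at `exp (t^{c1})`. -/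
theorem classBT : ∃ C c0 : ℝ, 1 ≤ C ∧ 0 < c0 ∧
    ∀ c1 : ℝ, 0 < c1 → c1 ≤ c0 → ∃ T0 : ℝ, ∀ (θ θ' t : ℝ) (V W : Finset ℕ) (E : Finset (ℕ × ℕ))
    (ψ ψ' : ℕ → ℝ) (G : ℕ), T0 ≤ t → Sys V W E ψ ψ' (1/t) → 0 < G →
    (∀ q ∈ V, Tame (Real.exp (t^c1)) G q) → (∀ q ∈ W, Tame (Real.exp (t^c1)) G q) →
    (∀ e ∈ E, PairBT θ θ' t (t^(7/200:ℝ)) (Real.exp (t^(3*c1))) (cof e.1 e.2) (cof e.2 e.1) ∨
      PairBT θ' θ t (t^(7/200:ℝ)) (Real.exp (t^(3*c1))) (cof e.2 e.1) (cof e.1 e.2)) →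
    ∑ e ∈ E, wt ψ e.1 * wt ψ' e.2 * (Af (cof e.1 e.2) * Af (cof e.2 e.1))
      ≤ C * t^(-(1001/1000):ℝ) * ((∑ v ∈ V, wt ψ v) * (∑ w ∈ W, wt ψ' w))^(1/2+eps1) := by
  classical
  obtain ⟨C, K, hC1, hK, hC⟩ := classBT_half
  refine ⟨2*C, 1/(3000*(4+K)), by linarith, by positivity, ?_⟩
  intro c1 hc1 hc1K
  have hε : (0:ℝ) < eps1 := by unfold eps1; norm_num
  have hε4 : eps1 ≤ 1/4 := by unfold eps1; norm_num
  obtain ⟨T0, hT0⟩ := exists_NumB hε hε4 hc1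
  have hcK : c1 * (4 + K) ≤ 1/3000 := by
    rw [le_div_iff₀ (by positivity)] at hc1K
    linarith
  refine ⟨T0, ?_⟩
  intro θ θ' t V W E ψ ψ' G ht hs hG hVt hWt hE
  have hnum := hT0 t ht
  set f : ℕ × ℕ → ℝ := fun e => wt ψ e.1 * wt ψ' e.2 * (Af (cof e.1 e.2) * Af (cof e.2 e.1)) with hf
  set P : ℕ × ℕ → Prop := fun e =>
    PairBT θ θ' t (t^(7/200:ℝ)) (Real.exp (t^(3*c1))) (cof e.1 e.2) (cof e.2 e.1) with hP
  set E1 := E.filter P with hE1
  set E2 := E.filter (fun e => ¬ P e) with hE2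
  have hsplit : ∑ e ∈ E, f e = ∑ e ∈ E1, f e + ∑ e ∈ E2, f e := by
    rw [hE1, hE2, Finset.sum_filter_add_sum_filter_not]
  have hs1 : Sys V W E1 ψ ψ' (1/t) :=
    { hδ := hs.hδ, hV := hs.hV, hW := hs.hW, hψ := hs.hψ, hθ := hs.hθ
      hE := (Finset.filter_subset _ _).trans hs.hE
      h1 := fun e he => hs.h1 e (Finset.mem_filter.1 he).1
      h2 := fun e he => hs.h2 e (Finset.mem_filter.1 he).1 }
  have b1 := hC c1 hc1 hcK θ θ' t V W E1 ψ ψ' G hnum hs1 hG hVt hWt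
    (fun e he => (Finset.mem_filter.1 he).2)
  set E2' := E2.image Prod.swap with hE2'
  have hinj : Set.InjOn (Prod.swap : ℕ × ℕ → ℕ × ℕ) (E2 : Set (ℕ × ℕ)) :=
    Prod.swap_injective.injOn
  have hs2 : Sys W V E2' ψ' ψ (1/t) :=
    { hδ := hs.hδ, hV := hs.hW, hW := hs.hV, hψ := hs.hθ, hθ := hs.hψ
      hE := by
        intro e he
        obtain ⟨e', he', rfl⟩ := Finset.mem_image.1 he
        have := Finset.mem_product.1 (hs.hE (Finset.mem_filter.1 he').1)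
        exact Finset.mem_product.2 ⟨this.2, this.1⟩
      h1 := by
        intro e he
        obtain ⟨e', he', rfl⟩ := Finset.mem_image.1 he
        exact hs.h2 e' (Finset.mem_filter.1 he').1
      h2 := by
        intro e he
        obtain ⟨e', he', rfl⟩ := Finset.mem_image.1 he
        exact hs.h1 e' (Finset.mem_filter.1 he').1 }
  have b2 := hC c1 hc1 hcK θ' θ t W V E2' ψ' ψ G hnum hs2 hG hWt hVt (by
    intro e he
    obtain ⟨e', he', rfl⟩ := Finset.mem_image.1 he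
    rw [hE2, Finset.mem_filter] at he'
    exact (hE e' he'.1).resolve_left he'.2)
  have hb2 : ∑ e ∈ E2', wt ψ' e.1 * wt ψ e.2 * (Af (cof e.1 e.2) * Af (cof e.2 e.1)) = ∑ e ∈ E2, f e := by
    rw [hE2', Finset.sum_image hinj]
    apply Finset.sum_congr rfl
    intro e _
    simp only [hf, Prod.fst_swap, Prod.snd_swap]
    ring
  rw [hb2, mul_comm (∑ w ∈ W, wt ψ' w)] at b2
  have : ∑ e ∈ E, f e ≤ C * t^(-(1001/1000):ℝ) * ((∑ v ∈ V, wt ψ v) * (∑ w ∈ W, wt ψ' w))^(1/2+eps1)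
      + C * t^(-(1001/1000):ℝ) * ((∑ v ∈ V, wt ψ v) * (∑ w ∈ W, wt ψ' w))^(1/2+eps1) := by
    rw [hsplit]; exact add_le_add b1 b2
  refine this.trans (le_of_eq ?_)
  ring

end Crest.Agent.R4.ClsTBs
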