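import Mathlib
import Crest.Agent.R4.Lab709
import Crest.Agent.R4.LF67_765
import Crest.Agent.R4.ClsS_944

/-!
R4 (S0004), helper579: DICH, the dichotomy for related pairs (helper4 #13607 (2)).

Conventions of `ClsT223`: the pair has cofactors `x` (multiplies `θ'`, radius `r'`) and `y`
(multiplies `θ`, radius `r`); it is related at scale `1/t`.
-/

set_option autoImplicit false

namespace Crest.Agent.R4.Dich579

open Crest.Agent.R4.LF363 Crest.Agent.R4.Lab709 Crest.Agent.R4.LF765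

/-- the alternative of the two-target class theorem -/
def Alt (N θ θ' t : ℝ) (x y : ℕ) (r r' : ℝ) : Prop :=
  ((x:ℝ) * r' ≤ t^(-(51/50):ℝ) ∨ (y:ℝ) * r ≤ t^(-(51/50):ℝ)) ∨
  (N < y ∧ ∀ Y : ℝ, 0 < Y → Y < y → (y:ℝ) ≤ 2 * Y → ¬ Struct N θ t Y) ∨
  (N < x ∧ ∀ X : ℝ, 0 < X → X < x → (x:ℝ) ≤ 2 * X → ¬ Struct N θ' t X)

/-- [F]: both targets carry canonical labels of small height, and the pair is exact for them -/
structure FF (θ θ' t r r' : ℝ) (x y : ℕ) (ρ ρ' : ℚ) : Prop where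
  lab : Lab θ r ρ
  lab' : Lab θ' r' ρ'
  den : (ρ.den:ℝ) ≤ t^(21/200:ℝ)
  den' : (ρ'.den:ℝ) ≤ t^(21/200:ℝ)
  near : |θ - ρ| ≤ t^(39/200:ℝ) * r
  near' : |θ' - ρ'| ≤ t^(39/200:ℝ) * r'
  pow : |θ - ρ| * (ρ.den:ℝ)^8 ≤ 1
  pow' : |θ' - ρ'| * (ρ'.den:ℝ)^8 ≤ 1
  exact : ∀ n n' : ℤ, |(n + θ) * y - (n' + θ') * x| ≤ 2 / t → ((n:ℝ) + ρ) * y = (n' + ρ') * x

lemma four_le {t : ℝ} (ht : (2:ℝ)^400 ≤ t) : 4 ≤ t^(1/200:ℝ) := by
  calc (4:ℝ) = ((2:ℝ)^400)^(1/200:ℝ) := by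
        rw [← Real.rpow_natCast, ← Real.rpow_mul (by norm_num)]; norm_num
    _ ≤ _ := Real.rpow_le_rpow (by positivity) ht (by norm_num)

lemma t_pos {t : ℝ} (ht : (2:ℝ)^400 ≤ t) : 0 < t := lt_of_lt_of_le (by positivity) ht

lemma one_le_t {t : ℝ} (ht : (2:ℝ)^400 ≤ t) : 1 ≤ t := le_trans (one_le_pow₀ (by norm_num)) ht

lemma ten_le {t : ℝ} (ht : (2:ℝ)^400 ≤ t) : 10 ≤ t := by
  have h : (2:ℝ)^4 ≤ (2:ℝ)^400 := pow_le_pow_right₀ (by norm_num) (by norm_num)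
  exact le_trans (by norm_num) (h.trans ht)

lemma one_div_eq {t : ℝ} (_ : 0 < t) : 1 / t = t^(-1:ℝ) := by
  rw [Real.rpow_neg_one, one_div]

/-- assembling one side of `FF` -/
lemma side {θ t r : ℝ} {ρ : ℚ} (ht : (2:ℝ)^400 ≤ t) (hr : 0 < r) (hr1 : r ≤ 1/t)
    (hd : (ρ.den:ℝ) ≤ t^(21/200:ℝ)) (hn' : |θ - ρ| ≤ t^(39/200:ℝ) * r) (hp : |θ - ρ| ≤ t^(-(87/100):ℝ)) :
    Lab θ r ρ ∧ |θ - ρ| * (ρ.den:ℝ)^8 ≤ 1 := by
  have ht0 := t_pos ht
  have ht1 := one_le_t ht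
  have hk : (0:ℝ) ≤ ρ.den := Nat.cast_nonneg _
  have htr : t * r ≤ 1 := by
    have := mul_le_mul_of_nonneg_left hr1 ht0.le
    rwa [mul_one_div_cancel ht0.ne'] at this
  have hn : |θ - ρ| ≤ t^(1/5:ℝ) * r := hn'.trans (mul_le_mul_of_nonneg_right
    (Real.rpow_le_rpow_of_exponent_le ht1 (by norm_num)) hr.le)
  refine ⟨⟨hr, ?_, ?_, ?_⟩, ?_⟩
  · have h10 : (10:ℝ) ≤ t := ten_le ht
    exact hr1.trans (one_div_le_one_div_of_le (by norm_num) h10)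
  · have h1 : (ρ.den:ℝ)^5 ≤ t := by
      calc (ρ.den:ℝ)^5 ≤ (t^(21/200:ℝ))^5 := pow_le_pow_left₀ hk hd 5
        _ = t^(105/200:ℝ) := by
            rw [← Real.rpow_natCast, ← Real.rpow_mul ht0.le]; norm_num
        _ ≤ t^(1:ℝ) := Real.rpow_le_rpow_of_exponent_le ht1 (by norm_num)
        _ = t := Real.rpow_one t
    calc (ρ.den:ℝ)^5 * r ≤ t * r := mul_le_mul_of_nonneg_right h1 hr.le
      _ ≤ 1 := htr
  · calc |θ - ρ|^5 ≤ (t^(1/5:ℝ) * r)^5 := pow_le_pow_left₀ (abs_nonneg _) hn 5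
      _ = (t * r) * r^4 := by
          have : (t^(1/5:ℝ))^5 = t := by
            rw [← Real.rpow_natCast, ← Real.rpow_mul ht0.le]; norm_num
          rw [mul_pow, this]; ring
      _ ≤ 1 * r^4 := mul_le_mul_of_nonneg_right htr (by positivity)
      _ = r^4 := one_mul _
  · have h1 : (ρ.den:ℝ)^8 ≤ t^(84/100:ℝ) := by
      calc (ρ.den:ℝ)^8 ≤ (t^(21/200:ℝ))^8 := pow_le_pow_left₀ hk hd 8
        _ = t^(84/100:ℝ) := by
            rw [← Real.rpow_natCast, ← Real.rpow_mul ht0.le]; norm_num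
    calc |θ - ρ| * (ρ.den:ℝ)^8 ≤ t^(-(87/100):ℝ) * t^(84/100:ℝ) :=
          mul_le_mul hp h1 (by positivity) (by positivity)
      _ = t^(-(3/100):ℝ) := by rw [← Real.rpow_add ht0]; norm_num
      _ ≤ t^(0:ℝ) := Real.rpow_le_rpow_of_exponent_le ht1 (by norm_num)
      _ = 1 := Real.rpow_zero t

/-- assembling `FF` -/
lemma mkFF {θ θ' t r r' : ℝ} {x y : ℕ} {ρ ρ' : ℚ} (ht : (2:ℝ)^400 ≤ t) (hx : 0 < x) (hy : 0 < y)
    (hr : 0 < r) (hr' : 0 < r') (hxr : (x:ℝ) * r' ≤ 1/t) (hyr : (y:ℝ) * r ≤ 1/t)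
    (hd : (ρ.den:ℝ) ≤ t^(21/200:ℝ)) (hd' : (ρ'.den:ℝ) ≤ t^(21/200:ℝ))
    (hn : |θ - ρ| ≤ t^(39/200:ℝ) * r) (hn' : |θ' - ρ'| ≤ t^(39/200:ℝ) * r')
    (hp : |θ - ρ| ≤ t^(-(87/100):ℝ)) (hp' : |θ' - ρ'| ≤ t^(-(87/100):ℝ)) :
    FF θ θ' t r r' x y ρ ρ' := by
  have ht0 := t_pos ht
  have ht1 := one_le_t ht
  have hx1 : (1:ℝ) ≤ x := by exact_mod_cast hx
  have hy1 : (1:ℝ) ≤ y := by exact_mod_cast hy
  have hr1 : r ≤ 1/t := le_trans (le_mul_of_one_le_left hr.le hy1) hyr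
  have hr1' : r' ≤ 1/t := le_trans (le_mul_of_one_le_left hr'.le hx1) hxr
  obtain ⟨l1, p1⟩ := side ht hr hr1 hd hn hp
  obtain ⟨l2, p2⟩ := side ht hr' hr1' hd' hn' hp'
  refine ⟨l1, l2, hd, hd', hn, hn', p1, p2, ?_⟩
  intro n n' h
  have hB : (0:ℝ) ≤ t^(39/200:ℝ) := by positivity
  refine same_centre_of_labels (D := 1/t) (B := t^(39/200:ℝ)) (K := t^(21/200:ℝ)) hB hyr hxr ?_ hn hn' hd hd' ?_
  · rw [mul_one_div]; exact h
  · have h1 : (1:ℝ) ≤ t^(39/200:ℝ) := Real.one_le_rpow ht1 (by norm_num)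
    have h4 := four_le ht
    have e1 : (t^(21/200:ℝ))^2 = t^(42/200:ℝ) := by
      rw [← Real.rpow_natCast, ← Real.rpow_mul ht0.le]; norm_num
    rw [e1, one_div_eq ht0]
    calc (2 + 2 * t^(39/200:ℝ)) * t^(-1:ℝ) * t^(42/200:ℝ)
        ≤ (t^(1/200:ℝ) * t^(39/200:ℝ)) * t^(-1:ℝ) * t^(42/200:ℝ) := by
          have : 2 + 2 * t^(39/200:ℝ) ≤ t^(1/200:ℝ) * t^(39/200:ℝ) := by nlinarith
          gcongr
      _ = t^(-(118/200):ℝ) := by
          rw [← Real.rpow_add ht0, ← Real.rpow_add ht0, ← Real.rpow_add ht0]; norm_num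
      _ < t^(0:ℝ) := Real.rpow_lt_rpow_of_exponent_lt (lt_of_lt_of_le (by norm_num) (ten_le ht)) (by norm_num)
      _ = 1 := Real.rpow_zero t

/-- a structured scale gives a rational -/
lemma struct_rat {N θ t Y : ℝ} {y : ℕ} (hN : 0 ≤ N) (ht : 0 < t) (hY : 0 < Y) (hy : (y:ℝ) ≤ 2 * Y)
    (h : Struct N θ t Y) : ∃ ρ : ℚ, (ρ.den:ℝ) ≤ N ∧ |θ - ρ| * y ≤ 4 * N / t := by
  obtain ⟨k, hk1, hkN, m, hm⟩ := h
  have hk0 : (0:ℝ) < k := by exact_mod_cast hk1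
  have hk0' : (k:ℝ) ≠ 0 := hk0.ne'
  refine ⟨(m:ℚ) / (k:ℚ), ?_, ?_⟩
  · have h1 := Rat.den_dvd m (k:ℤ)
    rw [Rat.divInt_eq_div] at h1
    have h2 : (((m:ℚ) / (k:ℚ)).den : ℤ) ∣ (k:ℤ) := by simpa using h1
    have h3 : ((m:ℚ) / (k:ℚ)).den ∣ k := by exact_mod_cast h2
    have h4 := Nat.le_of_dvd hk1 h3
    have h5 : ((((m:ℚ) / (k:ℚ)).den : ℕ):ℝ) ≤ k := by exact_mod_cast h4
    exact h5.trans hkN
  · have e : |θ - (((m:ℚ) / (k:ℚ) : ℚ):ℝ)| = |θ * k - m| / k := by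
      push_cast
      rw [← abs_of_pos hk0, ← abs_div, abs_of_pos hk0]
      congr 1
      field_simp
    rw [e]
    have h1 : |θ * k - m| / k ≤ 2 * N / (t * Y) := by
      have hk1' : (1:ℝ) ≤ k := by exact_mod_cast hk1
      exact (div_le_self (abs_nonneg _) hk1').trans hm
    have h0 : 0 ≤ 2 * N / (t * Y) := by positivity
    calc |θ * k - m| / k * y ≤ 2 * N / (t * Y) * (2 * Y) :=
          mul_le_mul h1 hy (Nat.cast_nonneg _) h0
      _ = 4 * N / t := by field_simp; ring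

/-- numerics: `c N t^a ≤ t^b` -/
lemma rp_le {t c : ℝ} (ht : (2:ℝ)^400 ≤ t) {a b : ℝ} (hc : c ≤ 16) (hab : a + 1/100 ≤ b) :
    c * t^a ≤ t^b := by
  have ht0 := t_pos ht
  have ht1 := one_le_t ht
  have h4 := four_le ht
  have h16 : (16:ℝ) ≤ t^(1/100:ℝ) := by
    calc (16:ℝ) = 4^2 := by norm_num
      _ ≤ (t^(1/200:ℝ))^2 := pow_le_pow_left₀ (by norm_num) h4 2
      _ = t^(1/100:ℝ) := by rw [← Real.rpow_natCast, ← Real.rpow_mul ht0.le]; norm_num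
  calc c * t^a ≤ t^(1/100:ℝ) * t^a := mul_le_mul_of_nonneg_right (hc.trans h16) (by positivity)
    _ = t^(1/100 + a) := by rw [← Real.rpow_add ht0]
    _ ≤ t^b := Real.rpow_le_rpow_of_exponent_le ht1 (by linarith)

/-- from a balanced side: `1/(t y)` against the radius -/
lemma bal {t r c : ℝ} {y : ℕ} (ht : (2:ℝ)^400 ≤ t) (hy : 0 < y)
    (hb : t^(-(51/50):ℝ) < (y:ℝ) * r) {e N : ℝ} (hN : N ≤ t^(1/20:ℝ)) (hc0 : 0 ≤ c) (hc : c ≤ 16)
    (he : e * y ≤ c * N / t) : e ≤ t^(39/200:ℝ) * r := by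
  have ht0 := t_pos ht
  have hy0 : (0:ℝ) < y := by exact_mod_cast hy
  have h1 : c * N / t ≤ t^(39/200:ℝ) * t^(-(51/50):ℝ) := by
    rw [← Real.rpow_add ht0]
    have : c * N / t = c * (N * t^(-1:ℝ)) := by rw [Real.rpow_neg_one]; field_simp
    rw [this]
    calc c * (N * t^(-1:ℝ)) ≤ c * (t^(1/20:ℝ) * t^(-1:ℝ)) := by gcongr
      _ = c * t^(1/20 + -1:ℝ) := by rw [← Real.rpow_add ht0]
      _ ≤ _ := rp_le ht hc (by norm_num)
  have h2 : e * y ≤ (t^(39/200:ℝ) * r) * y := by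
    calc e * y ≤ t^(39/200:ℝ) * t^(-(51/50):ℝ) := he.trans h1
      _ ≤ t^(39/200:ℝ) * ((y:ℝ) * r) := mul_le_mul_of_nonneg_left hb.le (by positivity)
      _ = _ := by ring
  exact le_of_mul_le_mul_right h2 hy0

lemma small {t c e N : ℝ} {y : ℕ} (ht : (2:ℝ)^400 ≤ t) (hy : 0 < y) (he0 : 0 ≤ e)
    (hN : N ≤ t^(1/20:ℝ)) (hc0 : 0 ≤ c) (hc : c ≤ 16) (he : e * y ≤ c * N / t) :
    e ≤ t^(-(87/100):ℝ) := by
  have ht0 := t_pos ht
  have hy1 : (1:ℝ) ≤ y := by exact_mod_cast hy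
  calc e ≤ e * y := le_mul_of_one_le_right he0 hy1
    _ ≤ c * N / t := he
    _ = c * (N * t^(-1:ℝ)) := by rw [Real.rpow_neg_one]; field_simp
    _ ≤ c * (t^(1/20:ℝ) * t^(-1:ℝ)) := by gcongr
    _ = c * t^(1/20 + -1:ℝ) := by rw [← Real.rpow_add ht0]
    _ ≤ _ := rp_le ht hc (by norm_num)

/-- **DICH**: a related pair for which the alternative fails is exact for canonical labels, or has
small cofactors. -/
theorem dich {N θ θ' t r r' : ℝ} {x y : ℕ} (ht : (2:ℝ)^400 ≤ t) (hN1 : 1 ≤ N)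
    (hN : N ≤ t^(1/20:ℝ)) (hx : 0 < x) (hy : 0 < y) (hr : 0 < r) (hr' : 0 < r')
    (hxr : (x:ℝ) * r' ≤ 1/t) (hyr : (y:ℝ) * r ≤ 1/t) {n₀ n₀' : ℤ}
    (hrel : |(n₀ + θ) * y - (n₀' + θ') * x| ≤ 2 / t) (hA : ¬ Alt N θ θ' t x y r r') :
    (∃ ρ ρ' : ℚ, FF θ θ' t r r' x y ρ ρ') ∨ ((x:ℝ) ≤ N ∧ (y:ℝ) ≤ N) := by
  have ht0 := t_pos ht
  have ht1 := one_le_t ht
  unfold Alt at hA
  push Not at hA
  obtain ⟨⟨hb', hb⟩, hY, hX⟩ := hA
  have hN0 : 0 ≤ N := by linarith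
  have hN20 : N * N ≤ t^(21/200:ℝ) := by
    calc N * N ≤ t^(1/20:ℝ) * t^(1/20:ℝ) := mul_le_mul hN hN hN0 (by positivity)
      _ = t^(1/20+1/20:ℝ) := by rw [← Real.rpow_add ht0]
      _ ≤ _ := Real.rpow_le_rpow_of_exponent_le ht1 (by norm_num)
  have hNd : N ≤ t^(21/200:ℝ) := le_trans (by nlinarith) hN20
  by_cases hyN : (y:ℝ) ≤ N
  · by_cases hxN : (x:ℝ) ≤ N
    · exact Or.inr ⟨hxN, hyN⟩
    · -- `y ≤ N < x`
      left
      obtain ⟨X, hX0, hX1, hX2, hX3⟩ := hX (not_le.1 hxN)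
      obtain ⟨ρ', hd', he'⟩ := struct_rat hN0 ht0 hX0 hX2 hX3
      have hrel' : |(n₀' + θ') * x - (n₀ + θ) * y| ≤ 2 / t := by rw [abs_sub_comm]; exact hrel
      obtain ⟨ρ, hd, he, -⟩ := transfer ρ' hy hrel'
      have hd2 : (ρ.den:ℝ) ≤ N * N := by
        have h1 : (ρ.den:ℝ) ≤ ρ'.den * y := by exact_mod_cast hd
        exact h1.trans (mul_le_mul hd' hyN (Nat.cast_nonneg _) hN0)
      have he2 : |θ - ρ| * y ≤ 6 * N / t := by
        refine he.trans ?_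
        have : 2 / t ≤ 2 * N / t := by
          apply div_le_div_of_nonneg_right _ ht0.le; linarith
        calc |θ' - ρ'| * x + 2 / t ≤ 4 * N / t + 2 * N / t := add_le_add he' this
          _ = 6 * N / t := by ring
      exact ⟨ρ, ρ', mkFF ht hx hy hr hr' hxr hyr (hd2.trans hN20) (hd'.trans hNd)
        (bal ht hy hb hN (by norm_num) (by norm_num) he2)
        (bal ht hx hb' hN (by norm_num) (by norm_num) he')
        (small ht hy (abs_nonneg _) hN (by norm_num) (by norm_num) he2)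
        (small ht hx (abs_nonneg _) hN (by norm_num) (by norm_num) he')⟩
  · left
    obtain ⟨Y, hY0, hY1, hY2, hY3⟩ := hY (not_le.1 hyN)
    obtain ⟨ρ, hd, he⟩ := struct_rat hN0 ht0 hY0 hY2 hY3
    by_cases hxN : (x:ℝ) ≤ N
    · -- `x ≤ N < y`
      obtain ⟨ρ', hd', he', -⟩ := transfer ρ hx hrel
      have hd2 : (ρ'.den:ℝ) ≤ N * N := by
        have h1 : (ρ'.den:ℝ) ≤ ρ.den * x := by exact_mod_cast hd'
        exact h1.trans (mul_le_mul hd hxN (Nat.cast_nonneg _) hN0)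
      have he2 : |θ' - ρ'| * x ≤ 6 * N / t := by
        refine he'.trans ?_
        have : 2 / t ≤ 2 * N / t := by
          apply div_le_div_of_nonneg_right _ ht0.le; linarith
        calc |θ - ρ| * y + 2 / t ≤ 4 * N / t + 2 * N / t := add_le_add he this
          _ = 6 * N / t := by ring
      exact ⟨ρ, ρ', mkFF ht hx hy hr hr' hxr hyr (hd.trans hNd) (hd2.trans hN20)
        (bal ht hy hb hN (by norm_num) (by norm_num) he)
        (bal ht hx hb' hN (by norm_num) (by norm_num) he2)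
        (small ht hy (abs_nonneg _) hN (by norm_num) (by norm_num) he)
        (small ht hx (abs_nonneg _) hN (by norm_num) (by norm_num) he2)⟩
    · obtain ⟨X, hX0, hX1, hX2, hX3⟩ := hX (not_le.1 hxN)
      obtain ⟨ρ', hd', he'⟩ := struct_rat hN0 ht0 hX0 hX2 hX3
      exact ⟨ρ, ρ', mkFF ht hx hy hr hr' hxr hyr (hd.trans hNd) (hd'.trans hNd)
        (bal ht hy hb hN (by norm_num) (by norm_num) he)
        (bal ht hx hb' hN (by norm_num) (by norm_num) he')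
        (small ht hy (abs_nonneg _) hN (by norm_num) (by norm_num) he)
        (small ht hx (abs_nonneg _) hN (by norm_num) (by norm_num) he')⟩

/-! ### one partner over all scales -/

/-- the data of a pair in class `[E]` at its own scale -/
structure Small (N θ θ' t : ℝ) (x y : ℕ) (r r' : ℝ) (n n' : ℤ) : Prop where
  ht : (2:ℝ)^400 ≤ t
  hN1 : 1 ≤ N
  hN : N ≤ t^(1/20:ℝ)
  hx : 0 < x
  hy : 0 < y
  hr : 0 < r
  hr' : 0 < r'
  hxr : (x:ℝ) * r' ≤ 1/t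
  hyr : (y:ℝ) * r ≤ 1/t
  rel : |(n + θ) * y - (n' + θ') * x| ≤ 2 / t
  bal' : t^(-(51/50):ℝ) < (x:ℝ) * r'
  bal : t^(-(51/50):ℝ) < (y:ℝ) * r
  hxN : (x:ℝ) ≤ N
  hyN : (y:ℝ) ≤ N

/-- mirror image -/
lemma Small.swap {N θ θ' t r r' : ℝ} {x y : ℕ} {n n' : ℤ} (h : Small N θ θ' t x y r r' n n') :
    Small N θ' θ t y x r' r n' n :=
  ⟨h.ht, h.hN1, h.hN, h.hy, h.hx, h.hr', h.hr, h.hyr, h.hxr, by rw [abs_sub_comm]; exact h.rel,
    h.bal, h.bal', h.hyN, h.hxN⟩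

lemma Small.of_not_alt {N θ θ' t r r' : ℝ} {x y : ℕ} {n n' : ℤ} (ht : (2:ℝ)^400 ≤ t) (hN1 : 1 ≤ N)
    (hN : N ≤ t^(1/20:ℝ)) (hx : 0 < x) (hy : 0 < y) (hr : 0 < r) (hr' : 0 < r')
    (hxr : (x:ℝ) * r' ≤ 1/t) (hyr : (y:ℝ) * r ≤ 1/t)
    (hrel : |(n + θ) * y - (n' + θ') * x| ≤ 2 / t) (hA : ¬ Alt N θ θ' t x y r r')
    (hxN : (x:ℝ) ≤ N) (hyN : (y:ℝ) ≤ N) : Small N θ θ' t x y r r' n n' := by
  unfold Alt at hA
  push Not at hA
  exact ⟨ht, hN1, hN, hx, hy, hr, hr', hxr, hyr, hrel, hA.1.1, hA.1.2, hxN, hyN⟩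

/-- lower bound for the radius -/
lemma Small.r_gt {N θ θ' t r r' : ℝ} {x y : ℕ} {n n' : ℤ} (h : Small N θ θ' t x y r r' n n') :
    t^(-(107/100):ℝ) < r := by
  have ht0 := t_pos h.ht
  have hy0 : (0:ℝ) < y := by exact_mod_cast h.hy
  have h1 : (y:ℝ) ≤ t^(1/20:ℝ) := h.hyN.trans h.hN
  have h2 : t^(-(51/50):ℝ) < t^(1/20:ℝ) * r := lt_of_lt_of_le h.bal (mul_le_mul_of_nonneg_right h1 h.hr.le)
  have h3 : t^(-(51/50):ℝ) = t^(1/20:ℝ) * t^(-(107/100):ℝ) := by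
    rw [← Real.rpow_add ht0]; norm_num
  rw [h3] at h2
  exact lt_of_mul_lt_mul_left h2 (by positivity)

lemma Small.r_le {N θ θ' t r r' : ℝ} {x y : ℕ} {n n' : ℤ} (h : Small N θ θ' t x y r r' n n') :
    r ≤ 1 / t := by
  have hy1 : (1:ℝ) ≤ y := by exact_mod_cast h.hy
  exact le_trans (le_mul_of_one_le_left h.hr.le hy1) h.hyr

/-- comparison of the two scales -/
lemma scale_lt {N M θ θ' σ t s r r' q' : ℝ} {x y u v : ℕ} {n n' m m' : ℤ}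
    (h : Small N θ θ' t x y r r' n n') (g : Small M θ σ s u v r q' m m') : t^(934/1000:ℝ) ≤ s := by
  have ht0 := t_pos h.ht
  have hs0 := t_pos g.ht
  have h1 : s^(-(107/100):ℝ) < 1 / t := lt_of_lt_of_le g.r_gt h.r_le
  have h2 : t < s^(107/100:ℝ) := by
    rw [Real.rpow_neg hs0.le, ← one_div] at h1
    exact lt_of_one_div_lt_one_div (by positivity) h1
  calc t^(934/1000:ℝ) ≤ (s^(107/100:ℝ))^(934/1000:ℝ) := Real.rpow_le_rpow ht0.le h2.le (by norm_num)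
    _ = s^(99938/100000:ℝ) := by rw [← Real.rpow_mul hs0.le]; norm_num
    _ ≤ s^(1:ℝ) := Real.rpow_le_rpow_of_exponent_le (one_le_t g.ht) (by norm_num)
    _ = s := Real.rpow_one s

/-- the numerical heart: what Cramer gives at one of the two scales -/
lemma heart {N M θ θ' t s r r' q q' : ℝ} {x y u v : ℕ} {n n' m m' : ℤ} {ρ ρ' : ℚ}
    (h : Small N θ θ' t x y r r' n n') (g : Small M θ θ' s u v q q' m m')
    (hts : t^(934/1000:ℝ) ≤ s) (hst : s^(934/1000:ℝ) ≤ t)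
    (hd : (ρ.den:ℝ) ≤ t^(1/20:ℝ) * s^(1/20:ℝ)) (hd' : (ρ'.den:ℝ) ≤ t^(1/20:ℝ) * s^(1/20:ℝ))
    (he : |θ - ρ| ≤ max (2/t) (2/s) * (x + u)) (he' : |θ' - ρ'| ≤ max (2/t) (2/s) * (y + v)) :
    FF θ θ' t r r' x y ρ ρ' := by
  have ht0 := t_pos h.ht
  have hs0 := t_pos g.ht
  have ht1 := one_le_t h.ht
  -- `s^(1/20) ≤ t^(54/1000)`
  have hs20 : s^(1/20:ℝ) ≤ t^(54/1000:ℝ) := by
    calc s^(1/20:ℝ) = (s^(934/1000:ℝ))^(50/934:ℝ) := by rw [← Real.rpow_mul hs0.le]; norm_num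
      _ ≤ t^(50/934:ℝ) := Real.rpow_le_rpow (by positivity) hst (by norm_num)
      _ ≤ t^(54/1000:ℝ) := Real.rpow_le_rpow_of_exponent_le ht1 (by norm_num)
  have hden : t^(1/20:ℝ) * s^(1/20:ℝ) ≤ t^(21/200:ℝ) := by
    calc t^(1/20:ℝ) * s^(1/20:ℝ) ≤ t^(1/20:ℝ) * t^(54/1000:ℝ) := by gcongr
      _ = t^(104/1000:ℝ) := by rw [← Real.rpow_add ht0]; norm_num
      _ ≤ t^(21/200:ℝ) := Real.rpow_le_rpow_of_exponent_le ht1 (by norm_num)
  have hE : max (2/t) (2/s) ≤ 2 * t^(-(934/1000):ℝ) := by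
    refine max_le ?_ ?_
    · calc 2/t = 2 * t^(-1:ℝ) := by rw [Real.rpow_neg_one]; ring
        _ ≤ _ := mul_le_mul_of_nonneg_left (Real.rpow_le_rpow_of_exponent_le ht1 (by norm_num)) (by norm_num)
    · have h1 : 1/s ≤ 1/(t^(934/1000:ℝ)) := one_div_le_one_div_of_le (by positivity) hts
      calc 2/s = 2 * (1/s) := by ring
        _ ≤ 2 * (1/(t^(934/1000:ℝ))) := by linarith
        _ = _ := by rw [Real.rpow_neg ht0.le, one_div]
  have hN' : N ≤ t^(54/1000:ℝ) := h.hN.trans (Real.rpow_le_rpow_of_exponent_le ht1 (by norm_num))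
  have hM' : M ≤ t^(54/1000:ℝ) := g.hN.trans hs20
  have err : ∀ {e : ℝ} {a b : ℕ}, e ≤ max (2/t) (2/s) * (a + b) → (a:ℝ) ≤ N → (b:ℝ) ≤ M →
      e ≤ 4 * t^(-(880/1000):ℝ) := by
    intro e a b he ha hb
    have h0 : (0:ℝ) ≤ (a:ℝ) + b := by positivity
    calc e ≤ max (2/t) (2/s) * (a + b) := he
      _ ≤ (2 * t^(-(934/1000):ℝ)) * (t^(54/1000:ℝ) + t^(54/1000:ℝ)) := by
          apply mul_le_mul hE _ h0 (by positivity)
          exact add_le_add (ha.trans hN') (hb.trans hM')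
      _ = 4 * (t^(-(934/1000):ℝ) * t^(54/1000:ℝ)) := by ring
      _ = 4 * t^(-(880/1000):ℝ) := by rw [← Real.rpow_add ht0]; norm_num
  have fin1 : 4 * t^(-(880/1000):ℝ) ≤ t^(-(875/1000):ℝ) := by
    have h4 := four_le h.ht
    calc 4 * t^(-(880/1000):ℝ) ≤ t^(1/200:ℝ) * t^(-(880/1000):ℝ) := by gcongr
      _ = t^(-(875/1000):ℝ) := by rw [← Real.rpow_add ht0]; norm_num
  have fin3 : t^(-(875/1000):ℝ) ≤ t^(-(87/100):ℝ) :=
    Real.rpow_le_rpow_of_exponent_le ht1 (by norm_num)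
  have fin2 : ∀ {w : ℝ}, t^(-(107/100):ℝ) < w → t^(-(875/1000):ℝ) ≤ t^(39/200:ℝ) * w := by
    intro w hw
    calc t^(-(875/1000):ℝ) = t^(39/200:ℝ) * t^(-(107/100):ℝ) := by rw [← Real.rpow_add ht0]; norm_num
      _ ≤ _ := mul_le_mul_of_nonneg_left hw.le (by positivity)
  have e1 := (err he h.hxN g.hxN).trans fin1
  have e2 := (err he' h.hyN g.hyN).trans fin1
  exact mkFF h.ht h.hx h.hy h.hr h.hr' h.hxr h.hyr (hd.trans hden) (hd'.trans hden)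
    (e1.trans (fin2 h.r_gt)) (e2.trans (fin2 h.swap.r_gt)) (e1.trans fin3) (e2.trans fin3)

/-- **uniqueness of the partner**: two pairs of class `[E]` with the same targets and the same
first radius and different ratios are both exact for canonical labels. -/
theorem uniq {N M θ θ' t s r r' q' : ℝ} {x y u v : ℕ} {n n' m m' : ℤ}
    (h : Small N θ θ' t x y r r' n n') (g : Small M θ θ' s u v r q' m m')
    (hne : x * v ≠ u * y) :
    (∃ ρ ρ' : ℚ, FF θ θ' t r r' x y ρ ρ') ∧ (∃ ρ ρ' : ℚ, FF θ θ' s r q' u v ρ ρ') := by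
  have ht0 := t_pos h.ht
  have hs0 := t_pos g.ht
  have hts := scale_lt h g
  have hst := scale_lt g h
  have hne' : y * u ≠ v * x := by
    intro h1; apply hne; rw [mul_comm x v, mul_comm u y]; exact h1.symm
  have rel1 : |θ * y - θ' * x - ((n' * x - n * y : ℤ):ℝ)| ≤ max (2/t) (2/s) := by
    have := h.rel.trans (le_max_left (2/t) (2/s))
    rwa [rel_form] at this
  have rel2 : |θ * v - θ' * u - ((m' * u - m * v : ℤ):ℝ)| ≤ max (2/t) (2/s) := by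
    have := g.rel.trans (le_max_right (2/t) (2/s))
    rwa [rel_form] at this
  obtain ⟨ρ, ρ', hd, hd', he, he', -, -⟩ := cramer hne' rel1 rel2
  have hΔ : ((((y:ℤ) * u - v * x).natAbs : ℕ) : ℝ) ≤ t^(1/20:ℝ) * s^(1/20:ℝ) := by
    have e : ((((y:ℤ) * u - v * x).natAbs : ℕ) : ℝ) = |(y:ℝ) * u - v * x| := by
      rw [Nat.cast_natAbs]; push_cast; rfl
    have a1 := h.hyN.trans h.hN
    have a2 := h.hxN.trans h.hN
    have b1 := g.hyN.trans g.hN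
    have b2 := g.hxN.trans g.hN
    have h1 : (y:ℝ) * u ≤ t^(1/20:ℝ) * s^(1/20:ℝ) := mul_le_mul a1 b2 (Nat.cast_nonneg _) (by positivity)
    have h2 : (v:ℝ) * x ≤ t^(1/20:ℝ) * s^(1/20:ℝ) := by
      rw [mul_comm]; exact mul_le_mul a2 b1 (Nat.cast_nonneg _) (by positivity)
    have h3 : (0:ℝ) ≤ (y:ℝ) * u := by positivity
    have h4 : (0:ℝ) ≤ (v:ℝ) * x := by positivity
    rw [e, abs_le]
    constructor <;> linarith
  have d1 : (ρ.den:ℝ) ≤ t^(1/20:ℝ) * s^(1/20:ℝ) := le_trans (by exact_mod_cast hd) hΔ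
  have d2 : (ρ'.den:ℝ) ≤ t^(1/20:ℝ) * s^(1/20:ℝ) := le_trans (by exact_mod_cast hd') hΔ
  refine ⟨⟨ρ, ρ', heart h g hts hst d1 d2 he he'⟩, ⟨ρ, ρ', heart g h hst hts ?_ ?_ ?_ ?_⟩⟩
  · rw [mul_comm]; exact d1
  · rw [mul_comm]; exact d2
  · rw [max_comm, add_comm]; exact he
  · rw [max_comm, add_comm]; exact he'

/-- mirror image of `uniq`: the same second radius -/
theorem uniq' {N M θ θ' t s r r' q : ℝ} {x y u v : ℕ} {n n' m m' : ℤ}
    (h : Small N θ θ' t x y r r' n n') (g : Small M θ θ' s u v q r' m m')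
    (hne : x * v ≠ u * y) :
    (∃ ρ ρ' : ℚ, FF θ θ' t r r' x y ρ ρ') ∧ (∃ ρ ρ' : ℚ, FF θ θ' s q r' u v ρ ρ') := by
  have sw : ∀ {t r r' : ℝ} {x y : ℕ}, (∃ ρ ρ' : ℚ, FF θ' θ t r' r y x ρ ρ') →
      ∃ ρ ρ' : ℚ, FF θ θ' t r r' x y ρ ρ' := by
    rintro t r r' x y ⟨ρ, ρ', hF⟩
    refine ⟨ρ', ρ, hF.lab', hF.lab, hF.den', hF.den, hF.near', hF.near, hF.pow', hF.pow, ?_⟩
    intro n n' h
    exact (hF.exact n' n (by rw [abs_sub_comm]; exact h)).symm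
  have hne' : y * u ≠ v * x := by
    intro h1; apply hne; rw [mul_comm x v, mul_comm u y]; exact h1.symm
  obtain ⟨a, b⟩ := uniq h.swap g.swap hne'
  exact ⟨sw a, sw b⟩

/-- swapping the two sides of `FF` -/
lemma FF.swap {θ θ' t r r' : ℝ} {x y : ℕ} {ρ ρ' : ℚ} (h : FF θ θ' t r r' x y ρ ρ') :
    FF θ' θ t r' r y x ρ' ρ := by
  refine ⟨h.lab', h.lab, h.den', h.den, h.near', h.near, h.pow', h.pow, ?_⟩
  intro n n' hc
  exact (h.exact n' n (by rw [abs_sub_comm]; exact hc)).symm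

/-- `FF` labels are canonical even for the radius `η r`, `t^(-1/160) ≤ η ≤ 1` -/
lemma FF.lab_eta {θ θ' t r r' : ℝ} {x y : ℕ} {ρ ρ' : ℚ} (h : FF θ θ' t r r' x y ρ ρ')
    (ht : (2:ℝ)^400 ≤ t) (hy : 0 < y) (hyr : (y:ℝ) * r ≤ 1/t) {η : ℝ}
    (hη : t^(-(1/160):ℝ) ≤ η) (hη1 : η ≤ 1) : Lab θ (η * r) ρ := by
  have ht0 := t_pos ht
  have hη0 : 0 < η := lt_of_lt_of_le (by positivity) hη
  have hr := h.lab.pos
  have hy1 : (1:ℝ) ≤ y := by exact_mod_cast hy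
  have hr1 : r ≤ 1/t := le_trans (le_mul_of_one_le_left hr.le hy1) hyr
  have htr : t * r ≤ 1 := by
    have := mul_le_mul_of_nonneg_left hr1 ht0.le
    rwa [mul_one_div_cancel ht0.ne'] at this
  have hηr : η * r ≤ r := mul_le_of_le_one_left hr.le hη1
  refine ⟨mul_pos hη0 hr, hηr.trans h.lab.le, ?_, ?_⟩
  · exact (mul_le_mul_of_nonneg_left hηr (by positivity)).trans h.lab.den
  · have e1 : (t^(39/200:ℝ))^5 = t * t^(-(1/40):ℝ) := by
      rw [← Real.rpow_natCast, ← Real.rpow_mul ht0.le]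
      nth_rewrite 2 [← Real.rpow_one t]
      rw [← Real.rpow_add ht0]; norm_num
    have e2 : t^(-(1/40):ℝ) ≤ η^4 := by
      calc t^(-(1/40):ℝ) = (t^(-(1/160):ℝ))^4 := by
            rw [← Real.rpow_natCast, ← Real.rpow_mul ht0.le]; norm_num
        _ ≤ η^4 := pow_le_pow_left₀ (by positivity) hη 4
    calc |θ - ρ|^5 ≤ (t^(39/200:ℝ) * r)^5 := pow_le_pow_left₀ (abs_nonneg _) h.near 5
      _ = (t * r) * (t^(-(1/40):ℝ) * r^4) := by rw [mul_pow, e1]; ring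
      _ ≤ 1 * (t^(-(1/40):ℝ) * r^4) := mul_le_mul_of_nonneg_right htr (by positivity)
      _ ≤ η^4 * r^4 := by rw [one_mul]; exact mul_le_mul_of_nonneg_right e2 (by positivity)
      _ = (η * r)^4 := by ring

/-! ### set version -/

open Crest.Agent.R4.HVW560

/-- a pair of items of class `[E]`: related at some scale, alternative fails, cofactors small, not
exact for canonical labels. `R`, `R'` = radii of the items of the two systems. -/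
def EPair (N : ℝ → ℝ) (θ θ' : ℝ) (R R' : ℕ → ℝ) (q r : ℕ) : Prop :=
  ∃ (t : ℝ) (n n' : ℤ), Small (N t) θ θ' t (cof q r) (cof r q) (R q) (R' r) n n' ∧
    ¬ ∃ ρ ρ' : ℚ, FF θ θ' t (R q) (R' r) (cof q r) (cof r q) ρ ρ'

/-- every related deep pair is in the alternative, or exact for canonical labels, or in `[E]` -/
theorem classify {N : ℝ → ℝ} {θ θ' t : ℝ} {R R' : ℕ → ℝ} {q r : ℕ} (ht : (2:ℝ)^400 ≤ t)
    (hN1 : 1 ≤ N t) (hN : N t ≤ t^(1/20:ℝ)) (hq : 0 < q) (hr : 0 < r) (hRq : 0 < R q)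
    (hRr : 0 < R' r) (hxr : (cof q r:ℝ) * R' r ≤ 1/t) (hyr : (cof r q:ℝ) * R q ≤ 1/t) {n n' : ℤ}
    (hrel : |(n + θ) * cof r q - (n' + θ') * cof q r| ≤ 2 / t) :
    Alt (N t) θ θ' t (cof q r) (cof r q) (R q) (R' r) ∨
    (∃ ρ ρ' : ℚ, FF θ θ' t (R q) (R' r) (cof q r) (cof r q) ρ ρ') ∨ EPair N θ θ' R R' q r := by
  have hx : 0 < cof q r := cof_pos hq
  have hy : 0 < cof r q := cof_pos hr
  by_cases hA : Alt (N t) θ θ' t (cof q r) (cof r q) (R q) (R' r)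
  · exact Or.inl hA
  right
  by_cases hF : ∃ ρ ρ' : ℚ, FF θ θ' t (R q) (R' r) (cof q r) (cof r q) ρ ρ'
  · exact Or.inl hF
  right
  rcases dich ht hN1 hN hx hy hRq hRr hxr hyr hrel hA with h | ⟨h1, h2⟩
  · exact absurd h hF
  · exact ⟨t, n, n', Small.of_not_alt ht hN1 hN hx hy hRq hRr hxr hyr hrel hA h1 h2, hF⟩

/-- **one partner** over all scales -/
theorem partner {N : ℝ → ℝ} {θ θ' : ℝ} {R R' : ℕ → ℝ} {q r₁ r₂ : ℕ}
    (h₁ : EPair N θ θ' R R' q r₁) (h₂ : EPair N θ θ' R R' q r₂) : r₁ = r₂ := by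
  obtain ⟨t, n, n', s1, f1⟩ := h₁
  obtain ⟨s, m, m', s2, f2⟩ := h₂
  by_contra hne
  have key : cof q r₁ * cof r₂ q ≠ cof q r₂ * cof r₁ q := by
    intro h
    apply hne
    have a1 : cof q r₁ * Nat.gcd q r₁ = q := cof_mul_gcd q r₁
    have a2 : cof r₁ q * Nat.gcd r₁ q = r₁ := cof_mul_gcd r₁ q
    have a3 : cof q r₂ * Nat.gcd q r₂ = q := cof_mul_gcd q r₂
    have a4 : cof r₂ q * Nat.gcd r₂ q = r₂ := cof_mul_gcd r₂ q
    rw [Nat.gcd_comm] at a2 a4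
    have b1 : r₁ * cof q r₁ = cof r₁ q * q := by
      calc r₁ * cof q r₁ = (cof r₁ q * Nat.gcd q r₁) * cof q r₁ := by rw [a2]
        _ = cof r₁ q * (cof q r₁ * Nat.gcd q r₁) := by ring
        _ = cof r₁ q * q := by rw [a1]
    have b2 : r₂ * cof q r₂ = cof r₂ q * q := by
      calc r₂ * cof q r₂ = (cof r₂ q * Nat.gcd q r₂) * cof q r₂ := by rw [a4]
        _ = cof r₂ q * (cof q r₂ * Nat.gcd q r₂) := by ring
        _ = cof r₂ q * q := by rw [a3]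
    have b3 : r₁ * (cof q r₁ * cof q r₂) = r₂ * (cof q r₁ * cof q r₂) := by
      calc r₁ * (cof q r₁ * cof q r₂) = (r₁ * cof q r₁) * cof q r₂ := by ring
        _ = (cof r₁ q * q) * cof q r₂ := by rw [b1]
        _ = q * (cof q r₂ * cof r₁ q) := by ring
        _ = q * (cof q r₁ * cof r₂ q) := by rw [h]
        _ = (cof r₂ q * q) * cof q r₁ := by ring
        _ = (r₂ * cof q r₂) * cof q r₁ := by rw [b2]
        _ = _ := by ring
    exact Nat.eq_of_mul_eq_mul_right (Nat.mul_pos s1.hx s2.hx) b3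
  exact f1 (uniq s1 s2 key).1

/-- mirror image -/
theorem partner' {N : ℝ → ℝ} {θ θ' : ℝ} {R R' : ℕ → ℝ} {q₁ q₂ r : ℕ}
    (h₁ : EPair N θ θ' R R' q₁ r) (h₂ : EPair N θ θ' R R' q₂ r) : q₁ = q₂ := by
  have sw : ∀ {q : ℕ}, EPair N θ θ' R R' q r → EPair N θ' θ R' R r q := by
    rintro q ⟨t, n, n', s1, f1⟩
    refine ⟨t, n', n, s1.swap, ?_⟩
    rintro ⟨ρ, ρ', hF⟩
    refine f1 ⟨ρ', ρ, hF.lab', hF.lab, hF.den', hF.den, hF.near', hF.near, hF.pow', hF.pow, ?_⟩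
    intro k k' h
    exact (hF.exact k' k (by rw [abs_sub_comm]; exact h)).symm
  exact partner (sw h₁) (sw h₂)

/-- energy of class `[E]`: bounded by the mass of either side -/
theorem sum_E_le {N : ℝ → ℝ} {θ θ' : ℝ} {R R' : ℕ → ℝ} {V W : Finset ℕ} {E : Finset (ℕ × ℕ)}
    (hE : E ⊆ V ×ˢ W) (hall : ∀ e ∈ E, EPair N θ θ' R R' e.1 e.2) (f : ℕ × ℕ → ℝ) (m : ℕ → ℝ)
    (hf : ∀ e ∈ E, f e ≤ m e.1) (hm : ∀ q ∈ V, 0 ≤ m q) : ∑ e ∈ E, f e ≤ ∑ q ∈ V, m q := by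
  classical
  have hinj : Set.InjOn Prod.fst (E : Set (ℕ × ℕ)) := by
    intro a ha b hb hab
    have h1 := hall a ha
    have h2 := hall b hb
    rw [← hab] at h2
    exact Prod.ext hab (partner h1 h2)
  calc ∑ e ∈ E, f e ≤ ∑ e ∈ E, m e.1 := Finset.sum_le_sum hf
    _ = ∑ q ∈ E.image Prod.fst, m q := (Finset.sum_image hinj).symm
    _ ≤ ∑ q ∈ V, m q := by
        apply Finset.sum_le_sum_of_subset_of_nonneg
        · intro q hq
          obtain ⟨e, he, rfl⟩ := Finset.mem_image.1 hq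
          exact (Finset.mem_product.1 (hE he)).1
        · intro q hq _
          exact hm q hq

theorem sum_E_le' {N : ℝ → ℝ} {θ θ' : ℝ} {R R' : ℕ → ℝ} {V W : Finset ℕ} {E : Finset (ℕ × ℕ)}
    (hE : E ⊆ V ×ˢ W) (hall : ∀ e ∈ E, EPair N θ θ' R R' e.1 e.2) (f : ℕ × ℕ → ℝ) (m : ℕ → ℝ)
    (hf : ∀ e ∈ E, f e ≤ m e.2) (hm : ∀ r ∈ W, 0 ≤ m r) : ∑ e ∈ E, f e ≤ ∑ r ∈ W, m r := by
  classical
  have hinj : Set.InjOn Prod.snd (E : Set (ℕ × ℕ)) := by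
    intro a ha b hb hab
    have h1 := hall a ha
    have h2 := hall b hb
    rw [← hab] at h2
    exact Prod.ext (partner' h1 h2) hab
  calc ∑ e ∈ E, f e ≤ ∑ e ∈ E, m e.2 := Finset.sum_le_sum hf
    _ = ∑ r ∈ E.image Prod.snd, m r := (Finset.sum_image hinj).symm
    _ ≤ ∑ r ∈ W, m r := by
        apply Finset.sum_le_sum_of_subset_of_nonneg
        · intro q hq
          obtain ⟨e, he, rfl⟩ := Finset.mem_image.1 hq
          exact (Finset.mem_product.1 (hE he)).2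
        · intro q hq _
          exact hm q hq

end Crest.Agent.R4.Dich579
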