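import Mathlib
import Crest.Agent.R4.ClsTBs_944
import Crest.Agent.R4.ClsAll_944
import Crest.Agent.R4.LF11s_944
import Crest.Agent.R4.LF11_579
import Crest.Agent.R4.Dich579

/-!
R4 (S0004), helper944: two-target classes, symmetric form, `N = t^{1/20}`, with the THIRD CASE
(small unstructured cofactor against a huge structured one) and the assembly over all scales
(module F of #13673, #13821 (2), #13833 (3)).
-/

set_option autoImplicit false
open Finset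

namespace Crest.Agent.R4.ClsT2

open Crest.Agent.R4.HVW560 Crest.Agent.R4.Smo944 Crest.Agent.R4.LF10 Crest.Agent.R016
open Crest.Agent.R4.LF765 Crest.Agent.R4.ClsS Crest.Agent.R4.ClsU Crest.Agent.R4.LF9
open Crest.Agent.R4.LF8 Crest.Agent.R4.ClsTBs
open Crest.Agent.R4.ClsB (dyadic_sum dyadic_triv Af_tame dvd_sp log_sp
  Nt one_le_Nt Nt_le inv_Nt_le twohundred_Nt NumB Tame exists_NumB)

theorem Struct.monoN {N N' θ t Y : ℝ} (ht : 0 < t) (hY : 0 < Y) (hN : N ≤ N')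
    (h : Struct N θ t Y) : Struct N' θ t Y := by
  obtain ⟨k, h1, h2, m, h3⟩ := h
  refine ⟨k, h1, h2.trans hN, m, h3.trans ?_⟩
  apply div_le_div_of_nonneg_right _ (by positivity)
  linarith

/-! ### class (S), symmetric -/

/-- an unstructured related pair of class (S) -/
structure PairSS (θ θ' t N Yb : ℝ) (x y : ℕ) : Prop where
  hx : 0 < x
  hxY : (x:ℝ) ≤ Yb
  hN : N < y
  hyY : (y:ℝ) ≤ Yb
  rel : ∃ n : ℤ, |(n:ℝ) - (θ' * x - θ * y)| ≤ 2 / t
  uns : ∀ Y : ℝ, 0 < Y → Y < y → (y:ℝ) ≤ 2 * Y → ¬ Struct N θ t Y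

/-- the number of partners in a dyadic block -/
theorem count_blockS {θ θ' t N Yb : ℝ} (hN : 1 ≤ N) (ht : 200 * N ≤ t) (R : Finset (ℕ × ℕ))
    (hR : ∀ e ∈ R, PairSS θ θ' t N Yb e.1 e.2) (x j : ℕ) :
    ((R.filter (fun e => e.1 = x ∧ 2^j < e.2 ∧ e.2 ≤ 2^(j+1))).card : ℝ) ≤ 4 / N * 2^j := by
  classical
  have ht0 : 0 < t := by linarith
  have hN0 : 0 < N := by linarith
  set F := R.filter (fun e => e.1 = x ∧ 2^j < e.2 ∧ e.2 ≤ 2^(j+1)) with hF
  rcases F.eq_empty_or_nonempty with hem | ⟨e0, he0⟩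
  · rw [hem]; simp; positivity
  rw [hF, Finset.mem_filter] at he0
  obtain ⟨he0R, he0x, he0l, he0u⟩ := he0
  have hP0 := hR e0 he0R
  have h0l : ((2:ℝ)^j) < e0.2 := by exact_mod_cast he0l
  have h0u : (e0.2:ℝ) ≤ 2 * 2^j := by
    have : (e0.2:ℝ) ≤ 2^(j+1) := by exact_mod_cast he0u
    rw [pow_succ] at this; linarith
  have hns := hP0.uns (2^j) (by positivity) h0l h0u
  have hcard : F.card = (F.image Prod.snd).card := by
    rw [Finset.card_image_of_injOn]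
    intro a ha b hb hab
    have ha' := (Finset.mem_filter.1 ha).2
    have hb' := (Finset.mem_filter.1 hb).2
    exact Prod.ext (ha'.1.trans hb'.1.symm) hab
  have h1 := LF6 (N := N) (θ := θ) (t := t) (Y := 2^j) hN (by positivity) ht hns (θ' * x)
    (F.image Prod.snd) (by
      intro y hy
      obtain ⟨e, he, rfl⟩ := Finset.mem_image.1 hy
      rw [hF, Finset.mem_filter] at he
      obtain ⟨_, _, h2, h3⟩ := he
      constructor
      · exact_mod_cast h2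
      · have : (e.2:ℝ) ≤ 2^(j+1) := by exact_mod_cast h3
        rw [pow_succ] at this; linarith)
    (by
      intro y hy
      obtain ⟨e, he, rfl⟩ := Finset.mem_image.1 hy
      rw [hF, Finset.mem_filter] at he
      obtain ⟨heR, h1, _, _⟩ := he
      obtain ⟨n, hn⟩ := (hR e heR).rel
      refine ⟨-n, ?_⟩
      rw [h1] at hn
      push_cast
      have e5 : θ * (e.2:ℝ) - θ' * x - -(n:ℝ) = n - (θ' * x - θ * e.2) := by ring
      rw [e5]; exact hn)
  have h2 : 1 ≤ 2 * 2^j / N := by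
    rw [le_div_iff₀ hN0]
    have := hP0.hN
    linarith
  rw [hcard]
  calc ((F.image Prod.snd).card : ℝ) ≤ 2 * 2^j / N + 1 := h1.le
    _ ≤ 2 * 2^j / N + 2 * 2^j / N := by linarith
    _ = 4 / N * 2^j := by ring

/-- numerics shared by the class (S) sums -/
theorem numS {K t c L0 Yb : ℝ} (hK0 : 0 ≤ K) (hc : 0 < c) (ht1 : 1 ≤ t)
    (hYb : Yb ≤ Real.exp (t^c)) (hYb0 : 0 ≤ Yb) (hL0 : 1 ≤ L0) :
    (4/L0 * ((Nat.clog 2 (max 2 ⌊Yb⌋₊) : ℕ):ℝ))^(1/2:ℝ) *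
      Real.exp (K * (Real.log (Real.log ((max 2 ⌊Yb⌋₊ : ℕ):ℝ)) + 6))
      ≤ 4 * Real.exp (6*K) * (L0^(-(1/2):ℝ) * t^(c*(1/2+K))) := by
  have ht0 : 0 < t := by linarith
  set z : ℕ := max 2 ⌊Yb⌋₊ with hz
  have hz2 : 2 ≤ z := le_max_left _ _
  set L : ℕ := Nat.clog 2 z with hL
  set Z : ℝ := t^c with hZ
  have hZ1 : 1 ≤ Z := Real.one_le_rpow ht1 hc.le
  have hz0 : (0:ℝ) < z := by positivity
  have hlogz : Real.log z ≤ Z := by
    have h1 : (z:ℝ) ≤ Real.exp Z := by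
      rw [hz]
      push_cast
      apply max_le
      · have := Real.add_one_le_exp Z
        linarith
      · exact (Nat.floor_le hYb0).trans hYb
    calc Real.log z ≤ Real.log (Real.exp Z) := Real.log_le_log hz0 h1
      _ = Z := Real.log_exp Z
  have hlogz0 : 0 < Real.log z := Real.log_pos (by
    have : (2:ℝ) ≤ z := by exact_mod_cast hz2
    linarith)
  have hLr : (L:ℝ) ≤ 4 * Z := by
    have := clog_le hz2
    rw [← hL] at this
    nlinarith
  have hexp : Real.exp (K * (Real.log (Real.log z) + 6)) ≤ Real.exp (6*K) * Z^K := by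
    have h2 : Real.log (Real.log z) ≤ Real.log Z := Real.log_le_log hlogz0 hlogz
    have h3 : Z^K = Real.exp (K * Real.log Z) := by
      rw [Real.rpow_def_of_pos (by linarith), mul_comm]
    rw [h3, ← Real.exp_add]
    apply Real.exp_le_exp.2
    nlinarith
  have hρL : (4/L0 * (L:ℝ))^(1/2:ℝ) ≤ 4 * (L0^(-(1/2):ℝ) * Z^(1/2:ℝ)) := by
    have h1 : 4/L0 * (L:ℝ) ≤ 16 * (L0⁻¹ * Z) := by
      have : 4/L0 * (L:ℝ) ≤ 4/L0 * (4*Z) := mul_le_mul_of_nonneg_left hLr (by positivity)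
      refine this.trans (le_of_eq ?_)
      rw [div_eq_mul_inv]; ring
    calc (4/L0 * (L:ℝ))^(1/2:ℝ) ≤ (16 * (L0⁻¹ * Z))^(1/2:ℝ) :=
          Real.rpow_le_rpow (by positivity) h1 (by norm_num)
      _ = 4 * (L0^(-(1/2):ℝ) * Z^(1/2:ℝ)) := by
          rw [Real.mul_rpow (by norm_num) (by positivity), Real.mul_rpow (by positivity) (by positivity)]
          congr 1
          · rw [show (16:ℝ) = 4^(2:ℝ) by norm_num, ← Real.rpow_mul (by norm_num)]; norm_num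
          · congr 1
            rw [← Real.rpow_neg_one, ← Real.rpow_mul (by linarith)]; norm_num
  calc (4/L0 * (L:ℝ))^(1/2:ℝ) * Real.exp (K * (Real.log (Real.log z) + 6))
      ≤ (4 * (L0^(-(1/2):ℝ) * Z^(1/2:ℝ))) * (Real.exp (6*K) * Z^K) :=
        mul_le_mul hρL hexp (by positivity) (by positivity)
    _ = 4 * Real.exp (6*K) * (L0^(-(1/2):ℝ) * (Z^(1/2:ℝ) * Z^K)) := by ring
    _ = 4 * Real.exp (6*K) * (L0^(-(1/2):ℝ) * t^(c*(1/2+K))) := by
        rw [← Real.rpow_add (by linarith), hZ, ← Real.rpow_mul ht0.le]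

theorem twohundred_rpow {t ν : ℝ} (ht : 2^10 ≤ t) (hν : ν ≤ 1/10) : 200 * t^ν ≤ t := by
  have ht0 : 0 < t := by linarith
  have ht1 : 1 ≤ t := by linarith
  have e1 : t = t^(1/10:ℝ) * t^(9/10:ℝ) := by
    rw [← Real.rpow_add ht0]; norm_num
  have e2 : (200:ℝ) ≤ t^(9/10:ℝ) := by
    calc (200:ℝ) ≤ (2^10:ℝ)^(9/10:ℝ) := by
          rw [← Real.rpow_natCast, ← Real.rpow_mul (by norm_num)]
          norm_num
      _ ≤ _ := Real.rpow_le_rpow (by norm_num) ht (by norm_num)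
  have e3 : t^ν ≤ t^(1/10:ℝ) := Real.rpow_le_rpow_of_exponent_le ht1 hν
  calc 200 * t^ν ≤ t^(9/10:ℝ) * t^(1/10:ℝ) := mul_le_mul e2 e3 (by positivity) (by positivity)
    _ = t := by rw [mul_comm]; exact e1.symm

/-- sum over the relation of class (S) -/
theorem exists_sum_RS {κ : ℝ} (hκ : 0 ≤ κ) : ∃ C c0 : ℝ, 1 ≤ C ∧ 0 < c0 ∧
    ∀ (θ θ' t Yb : ℝ) (R : Finset (ℕ × ℕ)), 2^10 ≤ t → Yb ≤ Real.exp (t^c0) →
    (∀ e ∈ R, PairSS θ θ' t (t^(1/20:ℝ)) Yb e.1 e.2) →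
    ∑ e ∈ R, wn κ e.1 * wn κ e.2 ≤ C * t^(-(1/80):ℝ) := by
  classical
  set K : ℝ := κ * Sm 6 + κ^2 * Sm 12 with hK
  have hS6 := (Sm_pos 6).le
  have hS12 := (Sm_pos 12).le
  have hK0 : 0 ≤ K := by positivity
  set c0 : ℝ := 1/(80*(K+1)) with hc0
  have hc0p : 0 < c0 := by positivity
  refine ⟨4 * Real.exp (6*K), c0, ?_, hc0p, ?_⟩
  · have : 1 ≤ Real.exp (6*K) := Real.one_le_exp (by positivity)
    linarith
  intro θ θ' t Yb R ht hYb hR
  have ht0 : 0 < t := by linarith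
  have ht1 : 1 ≤ t := by linarith
  rcases R.eq_empty_or_nonempty with rfl | hne
  · rw [Finset.sum_empty]; positivity
  set N : ℝ := t^(1/20:ℝ) with hN
  have hN1 : 1 ≤ N := Real.one_le_rpow ht1 (by norm_num)
  have hN200 : 200 * N ≤ t := twohundred_rpow ht (by norm_num)
  have hYb0 : 0 ≤ Yb := by
    obtain ⟨e, he⟩ := hne
    exact le_trans (by positivity) (hR e he).hyY
  set z : ℕ := max 2 ⌊Yb⌋₊ with hz
  have hz2 : 2 ≤ z := le_max_left _ _
  have hzY : ∀ n : ℕ, (n:ℝ) ≤ Yb → n ≤ z := fun n hn => (Nat.le_floor hn).trans (le_max_right _ _)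
  have hsm : ∀ n : ℕ, 0 < n → (n:ℝ) ≤ Yb → ∀ p, p.Prime → p ∣ n → p ≤ z := fun n hn hnY p _ hpn =>
    (Nat.le_of_dvd hn hpn).trans (hzY n hnY)
  have hy0 : ∀ e ∈ R, 1 < e.2 := by
    intro e he
    have h := (hR e he).hN
    have : (1:ℝ) < e.2 := by linarith
    exact_mod_cast this
  have hX : Smooth z (R.image Prod.fst) := by
    intro b hb
    obtain ⟨e, he, rfl⟩ := Finset.mem_image.1 hb
    have h := hR e he
    exact ⟨h.hx, hsm _ h.hx h.hxY⟩
  have hY : Smooth z (R.image Prod.snd) := by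
    intro b hb
    obtain ⟨e, he, rfl⟩ := Finset.mem_image.1 hb
    have h := hR e he
    have h0 : 0 < e.2 := by have := hy0 e he; omega
    exact ⟨h0, hsm _ h0 h.hyY⟩
  have hLle : ∀ e ∈ R, e.2 ≤ 2^(Nat.clog 2 z) := by
    intro e he
    exact (hzY _ (hR e he).hyY).trans (Nat.le_pow_clog (by norm_num) _)
  have key := sum_R_le hκ hz2 (ρ := 4/N) (by positivity) (Nat.clog 2 z) R hX hY hy0 hLle
    (count_blockS hN1 hN200 R hR)
  rw [← hK] at key
  refine key.trans ((numS hK0 hc0p ht1 hYb hYb0 hN1).trans ?_)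
  apply mul_le_mul_of_nonneg_left _ (by positivity)
  rw [hN, ← Real.rpow_mul ht0.le, ← Real.rpow_add ht0]
  apply Real.rpow_le_rpow_of_exponent_le ht1
  have : c0 * (1/2 + K) ≤ 1/80 := by
    rw [hc0, div_mul_eq_mul_div, div_le_div_iff₀ (by positivity) (by norm_num)]
    nlinarith
  linarith

/-- **class (S)**, one orientation -/
theorem classSS : ∃ C c0 : ℝ, 1 ≤ C ∧ 0 < c0 ∧
    ∀ (θ θ' t Yb : ℝ) (V W : Finset ℕ) (E : Finset (ℕ × ℕ)) (ψ ψ' : ℕ → ℝ), 2^10 ≤ t →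
    Yb ≤ Real.exp (t^c0) → Sys V W E ψ ψ' (1/t) →
    (∀ e ∈ E, PairSS θ θ' t (t^(1/20:ℝ)) Yb (cof e.1 e.2) (cof e.2 e.1)) →
    ∑ e ∈ E, wt ψ e.1 * wt ψ' e.2 * (Af (cof e.1 e.2) * Af (cof e.2 e.1))
      ≤ C * t^(-(1001/1000):ℝ) * ((∑ v ∈ V, wt ψ v) * (∑ w ∈ W, wt ψ' w))^(1/2+eps1) := by
  classical
  have hε : (0:ℝ) < eps1 := by unfold eps1; norm_num
  have hε4 : eps1 ≤ 1/4 := by unfold eps1; norm_num
  obtain ⟨C, c0, hC1, hc0, hC⟩ := exists_sum_RS (κ := 16*(72/eps1)^3) (by positivity)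
  refine ⟨C, c0, hC1, hc0, ?_⟩
  intro θ θ' t Yb V W E ψ ψ' ht hYb hs hE
  have ht0 : 0 < t := by linarith
  have ht1 : 1 ≤ t := by linarith
  have key := energy_R hε hε4 hs
  have hR := hC θ θ' t Yb (E.image (fun e => (cof e.1 e.2, cof e.2 e.1))) ht hYb (by
    intro e he
    obtain ⟨e', he', rfl⟩ := Finset.mem_image.1 he
    exact hE e' he')
  refine key.trans ?_
  have hM : 0 ≤ (∑ v ∈ V, wt ψ v) * (∑ w ∈ W, wt ψ' w) :=
    mul_nonneg (Finset.sum_nonneg fun v hv => wt_nonneg (hs.hψ v hv))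
      (Finset.sum_nonneg fun v hv => wt_nonneg (hs.hθ v hv))
  rw [← mul_assoc]
  apply mul_le_mul_of_nonneg_right _ (by positivity)
  have hR0 : 0 ≤ ∑ x ∈ E.image (fun e => (cof e.1 e.2, cof e.2 e.1)),
      wn (16*(72/eps1)^3) x.1 * wn (16*(72/eps1)^3) x.2 :=
    Finset.sum_nonneg fun x _ => mul_nonneg (wn_nonneg (by positivity) _) (wn_nonneg (by positivity) _)
  have h1 : (∑ x ∈ E.image (fun e => (cof e.1 e.2, cof e.2 e.1)),
      wn (16*(72/eps1)^3) x.1 * wn (16*(72/eps1)^3) x.2)^(1/2-eps1) ≤ C * t^(-(1/80)*(1/2-eps1)) := by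
    calc _ ≤ (C * t^(-(1/80):ℝ))^(1/2-eps1) :=
          Real.rpow_le_rpow hR0 hR (by unfold eps1; norm_num)
      _ = C^(1/2-eps1) * t^(-(1/80)*(1/2-eps1)) := by
          rw [Real.mul_rpow (by positivity) (by positivity), ← Real.rpow_mul ht0.le]
      _ ≤ C * t^(-(1/80)*(1/2-eps1)) := by
          apply mul_le_mul_of_nonneg_right _ (by positivity)
          calc C^(1/2-eps1) ≤ C^(1:ℝ) :=
                Real.rpow_le_rpow_of_exponent_le hC1 (by unfold eps1; norm_num)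
            _ = C := Real.rpow_one C
  have h2 : (1/t)^(1-2*eps1) = t^(-(1-2*eps1)) := by
    rw [one_div, Real.inv_rpow ht0.le, Real.rpow_neg ht0.le]
  rw [h2]
  calc t^(-(1-2*eps1)) * _ ≤ t^(-(1-2*eps1)) * (C * t^(-(1/80)*(1/2-eps1))) :=
        mul_le_mul_of_nonneg_left h1 (by positivity)
    _ = C * (t^(-(1-2*eps1)) * t^(-(1/80)*(1/2-eps1))) := by ring
    _ ≤ C * t^(-(1001/1000):ℝ) := by
        apply mul_le_mul_of_nonneg_left _ (by linarith)
        rw [← Real.rpow_add ht0]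
        apply Real.rpow_le_rpow_of_exponent_le ht1
        unfold eps1; norm_num

/-! ### the third case -/

/-- relation of the third case: `x` small and unstructured, `y` huge and structured -/
structure PairTC (θ θ' t N Ns Yb : ℝ) (x y : ℕ) : Prop where
  hN : N < x
  hxY : (x:ℝ) ≤ Yb
  hyY : Yb < y
  rel : ∃ n : ℤ, |(n:ℝ) - (θ' * x - θ * y)| ≤ 2 / t
  uns : ∀ X : ℝ, 0 < X → X < x → (x:ℝ) ≤ 2 * X → ¬ Struct N θ' t X
  str : ∃ Y : ℝ, 0 < Y ∧ Y < y ∧ (y:ℝ) ≤ 2 * Y ∧ Struct Ns θ t Y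

/-- the set of possible small cofactors -/
structure InX (θ' t N Ns Yb : ℝ) (k0 : ℕ) (a : ℕ) : Prop where
  hN : N < a
  hY : (a:ℝ) ≤ Yb
  rel : ∃ n : ℤ, |((k0:ℝ) * θ') * a - n| ≤ 2 / (t / (3 * Ns))
  uns : ∀ X : ℝ, 0 < X → X < a → (a:ℝ) ≤ 2 * X → ¬ Struct N θ' t X

/-- the structure of `θ` seen by a huge cofactor is one rational -/
theorem inX_of_pair {θ θ' t N Ns Yb : ℝ} (ht : 0 < t) (hNs : 1 ≤ Ns) (hYb : 1 ≤ Yb)
    (hbig : 8 * Ns^3 < t * Yb) {ρ : ℚ} (hden : (ρ.den:ℝ) ≤ Ns)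
    (hρ : |θ - ρ| ≤ 4 * Ns / (t * Yb)) {x y : ℕ} (h : PairTC θ θ' t N Ns Yb x y) :
    InX θ' t N Ns Yb ρ.den x := by
  obtain ⟨Y, hY0, hYy, hyY, k, hk1, hkN, m, hm⟩ := h.str
  have hy0 : (0:ℝ) < y := lt_of_lt_of_le (by linarith) h.hyY.le
  have hk0 : (0:ℝ) < k := by exact_mod_cast hk1
  have hd0 : (0:ℝ) < ρ.den := by exact_mod_cast ρ.pos
  have hNs0 : 0 < Ns := by linarith
  have hYb0 : 0 < Yb := by linarith
  have hm2 : |θ * k - m| ≤ 4 * Ns / (t * y) := by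
    refine hm.trans ?_
    rw [div_le_div_iff₀ (by positivity) (by positivity)]
    have : 2 * Ns * t * y ≤ 2 * Ns * t * (2 * Y) := mul_le_mul_of_nonneg_left hyY (by positivity)
    nlinarith
  have hm3 : |θ - m / k| ≤ 4 * Ns / (t * y) / k := by
    have e : θ - m / k = (θ * k - m) / k := by field_simp
    rw [e, abs_div, abs_of_pos hk0]
    exact div_le_div_of_nonneg_right hm2 hk0.le
  -- the two rationals are equal
  have heq : (m:ℝ) / k = (ρ:ℝ) := by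
    by_contra hne
    have h1 : |(m:ℝ) / k - ρ| ≤ 8 * Ns / (t * Yb) := by
      have h2 : |θ - m / k| ≤ 4 * Ns / (t * Yb) := by
        refine hm3.trans ?_
        rw [div_div]
        apply div_le_div_of_nonneg_left (by positivity) (by positivity)
        have hk1' : (1:ℝ) ≤ k := by exact_mod_cast hk1
        have := h.hyY
        calc t * Yb ≤ t * y := mul_le_mul_of_nonneg_left this.le ht.le
          _ = t * y * 1 := by ring
          _ ≤ t * y * k := mul_le_mul_of_nonneg_left hk1' (by positivity)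
      have e : (m:ℝ)/k - ρ = (θ - ρ) - (θ - m/k) := by ring
      rw [e]
      calc |(θ - ρ) - (θ - m/k)| ≤ |θ - ρ| + |θ - m/k| := abs_sub _ _
        _ ≤ 4 * Ns / (t * Yb) + 4 * Ns / (t * Yb) := add_le_add hρ h2
        _ = 8 * Ns / (t * Yb) := by ring
    have h2 : 1 / ((k:ℝ) * ρ.den) ≤ |(m:ℝ) / k - ρ| := by
      have e : (m:ℝ)/k - ρ = ((m * ρ.den - ρ.num * k : ℤ):ℝ) / ((k:ℝ) * ρ.den) := by
        have hρe : (ρ:ℝ) = (ρ.num:ℝ) / ρ.den := by exact_mod_cast (Rat.num_div_den ρ).symm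
        rw [hρe]; push_cast; field_simp
      rw [e, abs_div, abs_of_pos (by positivity : (0:ℝ) < (k:ℝ) * ρ.den)]
      apply div_le_div_of_nonneg_right _ (by positivity)
      have hne0 : (m * ρ.den - ρ.num * k : ℤ) ≠ 0 := by
        intro h0
        apply hne
        have : (m:ℝ)/k - ρ = 0 := by rw [e, h0]; simp
        linarith
      have := Int.one_le_abs hne0
      have h3 : (1:ℝ) ≤ (|(m * ρ.den - ρ.num * k : ℤ)| : ℤ) := by exact_mod_cast this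
      rw [Int.cast_abs] at h3
      exact h3
    have h3 : 1 / (Ns * Ns) ≤ 1 / ((k:ℝ) * ρ.den) := by
      apply one_div_le_one_div_of_le (by positivity)
      exact mul_le_mul hkN hden hd0.le hNs0.le
    have h4 : 1 / (Ns * Ns) ≤ 8 * Ns / (t * Yb) := h3.trans (h2.trans h1)
    rw [div_le_div_iff₀ (by positivity) (by positivity)] at h4
    nlinarith
  -- denominators
  have hdk : (ρ.den:ℝ) ≤ k := by
    have h1 : ρ = (m:ℚ) / k := by exact_mod_cast heq.symm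
    have h2 : (ρ.den : ℤ) ∣ (k:ℤ) := by
      have h4 := Rat.den_dvd m (k:ℤ)
      rw [h1]
      rw [Rat.divInt_eq_div] at h4
      push_cast at h4
      exact h4
    have h3 := Int.le_of_dvd (by exact_mod_cast hk1) h2
    exact_mod_cast h3
  obtain ⟨n, hn⟩ := h.rel
  refine ⟨h.hN, h.hxY, ?_, h.uns⟩
  refine ⟨ρ.den * n + ρ.num * y, ?_⟩
  have hθρ : |θ - ρ| ≤ 4 * Ns / (t * y) / k := by rw [← heq]; exact hm3
  have e : ((ρ.den:ℝ) * θ') * x - ((ρ.den * n + ρ.num * y : ℤ):ℝ)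
      = -((ρ.den:ℝ) * ((n:ℝ) - (θ' * x - θ * y))) + (ρ.den:ℝ) * y * (θ - ρ) := by
    have hρe : (ρ:ℝ) = (ρ.num:ℝ) / ρ.den := by exact_mod_cast (Rat.num_div_den ρ).symm
    rw [hρe]; push_cast; field_simp; ring
  rw [e]
  calc |-((ρ.den:ℝ) * ((n:ℝ) - (θ' * x - θ * y))) + (ρ.den:ℝ) * y * (θ - ρ)|
      ≤ |-((ρ.den:ℝ) * ((n:ℝ) - (θ' * x - θ * y)))| + |(ρ.den:ℝ) * y * (θ - ρ)| := abs_add_le _ _
    _ = ρ.den * |(n:ℝ) - (θ' * x - θ * y)| + ρ.den * y * |θ - ρ| := by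
        rw [abs_neg, abs_mul, abs_mul, abs_mul, abs_of_pos hd0, abs_of_pos hy0]
    _ ≤ Ns * (2 / t) + ρ.den * y * (4 * Ns / (t * y) / k) := by
        apply add_le_add
        · exact mul_le_mul hden hn (abs_nonneg _) hNs0.le
        · exact mul_le_mul_of_nonneg_left hθρ (by positivity)
    _ ≤ Ns * (2 / t) + 4 * Ns / t := by
        have : (ρ.den:ℝ) * y * (4 * Ns / (t * y) / k) = (ρ.den / k) * (4 * Ns / t) := by
          field_simp
        rw [this]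
        have h5 : (ρ.den:ℝ) / k ≤ 1 := by rw [div_le_one hk0]; exact hdk
        have h6 : 0 ≤ 4 * Ns / t := by positivity
        nlinarith
    _ = 2 / (t / (3 * Ns)) := by field_simp; ring

/-- the sum over the small cofactors of the third case -/
theorem exists_sum_X {κ : ℝ} (hκ : 0 ≤ κ) : ∃ C K : ℝ, 1 ≤ C ∧ 0 ≤ K ∧
    ∀ (θ' t Yb c : ℝ) (k0 : ℕ) (A : Finset ℕ), 2^2000 ≤ t → 0 < c → Yb ≤ Real.exp (t^c) →
    1 ≤ k0 → (k0:ℝ) ≤ t^(7/200:ℝ) →
    (∀ a ∈ A, InX θ' t (t^(1/20:ℝ)) (t^(7/200:ℝ)) Yb k0 a) →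
    ∑ a ∈ A, wn κ a ≤ C * t^(c*K - 7/1000) := by
  classical
  set K : ℝ := κ * Sm 6 + κ^2 * Sm 12 with hK
  have hS6 := (Sm_pos 6).le
  have hS12 := (Sm_pos 12).le
  have hK0 : 0 ≤ K := by positivity
  refine ⟨4 * Real.exp (6*K), 1/2+K, ?_, by positivity, ?_⟩
  · have : 1 ≤ Real.exp (6*K) := Real.one_le_exp (by positivity)
    linarith
  intro θ' t Yb c k0 A ht hc hYb hk1 hk2 hA
  have ht10 : (2:ℝ)^10 ≤ t := le_trans (pow_le_pow_right₀ (by norm_num) (by norm_num)) ht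
  have ht0 : 0 < t := lt_of_lt_of_le (by norm_num) ht10
  have ht1 : 1 ≤ t := le_trans (by norm_num) ht10
  rcases A.eq_empty_or_nonempty with rfl | hne
  · rw [Finset.sum_empty]; positivity
  set N : ℝ := t^(1/20:ℝ) with hN
  set Ns : ℝ := t^(7/200:ℝ) with hNs
  set L : ℝ := t^(14/1000:ℝ) with hL
  have hN1 : 1 ≤ N := Real.one_le_rpow ht1 (by norm_num)
  have hNs1 : 1 ≤ Ns := Real.one_le_rpow ht1 (by norm_num)
  have hL1 : 1 ≤ L := Real.one_le_rpow ht1 (by norm_num)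
  have hNL : 3 * Ns * L ≤ N := by
    have h3 : (3:ℝ) ≤ t^(1/1000:ℝ) := by
      calc (3:ℝ) ≤ ((2:ℝ)^2000)^(1/1000:ℝ) := by
            rw [← Real.rpow_natCast, ← Real.rpow_mul (by norm_num)]
            norm_num
        _ ≤ _ := Real.rpow_le_rpow (by norm_num) ht (by norm_num)
    calc 3 * Ns * L ≤ t^(1/1000:ℝ) * Ns * L := by gcongr
      _ = N := by
          rw [hNs, hL, hN, ← Real.rpow_add ht0, ← Real.rpow_add ht0]; norm_num
  have hLN : L ≤ N := by nlinarith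
  have ht'200 : 200 * L ≤ t / (3 * Ns) := by
    rw [le_div_iff₀ (by positivity)]
    have := twohundred_rpow (ν := 1/20) ht10 (by norm_num)
    rw [← hN] at this
    nlinarith
  have ht'0 : 0 < t / (3 * Ns) := by positivity
  have hYb0 : 0 ≤ Yb := by
    obtain ⟨e, he⟩ := hne
    exact le_trans (by positivity) (hA e he).hY
  set z : ℕ := max 2 ⌊Yb⌋₊ with hz
  have hz2 : 2 ≤ z := le_max_left _ _
  have hzY : ∀ n : ℕ, (n:ℝ) ≤ Yb → n ≤ z := fun n hn => (Nat.le_floor hn).trans (le_max_right _ _)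
  have hsm : ∀ n : ℕ, 0 < n → (n:ℝ) ≤ Yb → ∀ p, p.Prime → p ∣ n → p ≤ z := fun n hn hnY p _ hpn =>
    (Nat.le_of_dvd hn hpn).trans (hzY n hnY)
  have ha1 : ∀ a ∈ A, 1 < a := by
    intro a ha
    have h := (hA a ha).hN
    have : (1:ℝ) < a := by linarith
    exact_mod_cast this
  set R : Finset (ℕ × ℕ) := A.image (fun a => ((1:ℕ), a)) with hR
  have hRsum : ∑ e ∈ R, wn κ e.1 * wn κ e.2 = ∑ a ∈ A, wn κ 1 * wn κ a := by
    rw [hR, Finset.sum_image]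
    intro a _ b _ hab
    exact (Prod.ext_iff.1 hab).2
  have hwn1 : wn κ 1 = 1 := by simp [wn]
  have hX : Smooth z (R.image Prod.fst) := by
    intro b hb
    obtain ⟨e, he, rfl⟩ := Finset.mem_image.1 hb
    obtain ⟨a, _, rfl⟩ := Finset.mem_image.1 he
    refine ⟨by norm_num, ?_⟩
    intro p hp hd
    have := Nat.le_of_dvd (by norm_num) hd
    omega
  have hY : Smooth z (R.image Prod.snd) := by
    intro b hb
    obtain ⟨e, he, rfl⟩ := Finset.mem_image.1 hb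
    obtain ⟨a, ha, rfl⟩ := Finset.mem_image.1 he
    have h0 : 0 < a := by have := ha1 a ha; omega
    exact ⟨h0, hsm _ h0 (hA a ha).hY⟩
  have h1 : ∀ e ∈ R, 1 < e.2 := by
    intro e he
    obtain ⟨a, ha, rfl⟩ := Finset.mem_image.1 he
    exact ha1 a ha
  have hLle : ∀ e ∈ R, e.2 ≤ 2^(Nat.clog 2 z) := by
    intro e he
    obtain ⟨a, ha, rfl⟩ := Finset.mem_image.1 he
    exact (hzY _ (hA a ha).hY).trans (Nat.le_pow_clog (by norm_num) _)
  have hcount : ∀ (x j : ℕ), ((R.filter (fun e => e.1 = x ∧ 2^j < e.2 ∧ e.2 ≤ 2^(j+1))).card : ℝ)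
      ≤ 4 / L * 2^j := by
    intro x j
    set F := A.filter (fun a => 2^j < a ∧ a ≤ 2^(j+1)) with hF
    have hcard : (R.filter (fun e => e.1 = x ∧ 2^j < e.2 ∧ e.2 ≤ 2^(j+1))).card ≤ F.card := by
      apply Finset.card_le_card_of_injOn Prod.snd
      · intro e he
        have he' := Finset.mem_filter.1 (Finset.mem_coe.1 he)
        obtain ⟨a, ha, rfl⟩ := Finset.mem_image.1 he'.1
        exact Finset.mem_coe.2 (Finset.mem_filter.2 ⟨ha, he'.2.2⟩)
      · intro a ha b hb hab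
        have ha' := (Finset.mem_filter.1 (Finset.mem_coe.1 ha)).2
        have hb' := (Finset.mem_filter.1 (Finset.mem_coe.1 hb)).2
        exact Prod.ext (ha'.1.trans hb'.1.symm) hab
    have hcr : ((R.filter (fun e => e.1 = x ∧ 2^j < e.2 ∧ e.2 ≤ 2^(j+1))).card : ℝ) ≤ F.card := by
      exact_mod_cast hcard
    refine hcr.trans ?_
    rcases F.eq_empty_or_nonempty with hem | ⟨a0, ha0⟩
    · rw [hem]; simp; positivity
    rw [hF, Finset.mem_filter] at ha0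
    obtain ⟨ha0A, ha0l, ha0u⟩ := ha0
    have hP0 := hA a0 ha0A
    have h0l : ((2:ℝ)^j) < a0 := by exact_mod_cast ha0l
    have h0u : (a0:ℝ) ≤ 2 * 2^j := by
      have : (a0:ℝ) ≤ 2^(j+1) := by exact_mod_cast ha0u
      rw [pow_succ] at this; linarith
    have h2j : (0:ℝ) < 2^j := by positivity
    have hns : ¬ Struct L ((k0:ℝ) * θ') (t / (3*Ns)) (2^j) := by
      rintro ⟨d, hd1, hd2, m, hm⟩
      apply hP0.uns (2^j) (by positivity) h0l h0u
      refine ⟨k0 * d, Nat.mul_pos hk1 hd1, ?_, m, ?_⟩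
      · push_cast
        calc (k0:ℝ) * d ≤ Ns * L := mul_le_mul hk2 hd2 (by positivity) (by linarith)
          _ ≤ N := by nlinarith
      · push_cast
        have e : θ' * ((k0:ℝ) * d) - m = (k0:ℝ) * θ' * d - m := by ring
        rw [e]
        refine hm.trans ?_
        rw [div_le_div_iff₀ (by positivity) (by positivity)]
        have e2 : 2 * L * (t * 2^j) = (2 * (3 * Ns * L)) * (t / (3*Ns) * 2^j) := by
          field_simp
        rw [e2]
        apply mul_le_mul_of_nonneg_right _ (by positivity)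
        linarith
    have hlf := LF6 (N := L) (θ := (k0:ℝ) * θ') (t := t / (3*Ns)) (Y := 2^j) hL1 (by positivity)
      ht'200 hns 0 F (by
        intro a ha
        rw [hF, Finset.mem_filter] at ha
        constructor
        · exact_mod_cast ha.2.1
        · have : (a:ℝ) ≤ 2^(j+1) := by exact_mod_cast ha.2.2
          rw [pow_succ] at this; linarith) (by
        intro a ha
        rw [hF, Finset.mem_filter] at ha
        obtain ⟨n, hn⟩ := (hA a ha.1).rel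
        exact ⟨n, by rw [sub_zero]; exact hn⟩)
    have h2 : 1 ≤ 2 * 2^j / L := by
      rw [le_div_iff₀ (by positivity)]
      have := hP0.hN
      linarith
    calc (F.card : ℝ) ≤ 2 * 2^j / L + 1 := hlf.le
      _ ≤ 2 * 2^j / L + 2 * 2^j / L := by linarith
      _ = 4 / L * 2^j := by ring
  have key := sum_R_le hκ hz2 (ρ := 4/L) (by positivity) (Nat.clog 2 z) R hX hY h1 hLle hcount
  rw [← hK, hRsum, ← Finset.mul_sum, hwn1, one_mul] at key
  refine key.trans ((numS hK0 hc ht1 hYb hYb0 hL1).trans (le_of_eq ?_))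
  congr 1
  rw [hL, ← Real.rpow_mul ht0.le, ← Real.rpow_add ht0]
  congr 1
  ring

open Classical in
/-- the value of `β` in the third case -/
noncomputable def betC (θ' t N Ns Yb : ℝ) (k0 a : ℕ) : ℝ :=
  if InX θ' t N Ns Yb k0 a then 6 else 0

theorem betC_nonneg (θ' t N Ns Yb : ℝ) (k0 a : ℕ) : 0 ≤ betC θ' t N Ns Yb k0 a := by
  unfold betC; split_ifs <;> norm_num

/-- the `β`-hypothesis in the third case -/
theorem betaHypC {θ θ' t N Ns Yb : ℝ} (ht : 0 < t) (hNs : 1 ≤ Ns) (hYb : 1 ≤ Yb)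
    (hbig : 8 * Ns^3 < t * Yb) {ρ : ℚ} (hden : (ρ.den:ℝ) ≤ Ns)
    (hρ : |θ - ρ| ≤ 4 * Ns / (t * Yb)) {a b : ℕ} (ha : 0 < a) :
    BetaHyp Yb (fun x y => Nat.Coprime x y ∧ PairTC θ θ' t N Ns Yb (a*x) (b*y))
      (betC θ' t N Ns Yb ρ.den a) := by
  classical
  intro v Y hv
  set S := (range (Y+1)).filter (fun w => ZR Yb w ∧ Nat.Coprime v w ∧
    PairTC θ θ' t N Ns Yb (a*v) (b*w)) with hS
  refine le_trans (le_of_eq (Finset.sum_congr (s₂ := S) ?_ fun _ _ => rfl)) ?_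
  · ext w
    simp only [hS, Finset.mem_filter]
  rcases S.eq_empty_or_nonempty with hem | ⟨w0, hw0⟩
  · rw [hem, Finset.sum_empty]; exact betC_nonneg _ _ _ _ _ _ _
  rw [hS, Finset.mem_filter] at hw0
  have hP := hw0.2.2.2
  have hv1 : v = 1 := by
    by_contra hne
    have hv0 : 0 < v := hv.1
    obtain ⟨p, hp, hpd⟩ := Nat.exists_prime_and_dvd hne
    have h1 := hv.2 p hp hpd
    have h2 : p ≤ a * v := (Nat.le_of_dvd hv0 hpd).trans (Nat.le_mul_of_pos_left v ha)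
    have h3 : (p:ℝ) ≤ ((a * v : ℕ):ℝ) := by exact_mod_cast h2
    have h4 := hP.hxY
    linarith
  subst hv1
  rw [mul_one] at hP
  have hin := inX_of_pair ht hNs hYb hbig hden hρ hP
  have hb : betC θ' t N Ns Yb ρ.den a = 6 := by unfold betC; rw [if_pos hin]
  rw [hb]
  exact dyadic_triv (fun w hw => by
    rw [hS, Finset.mem_filter, Finset.mem_range] at hw
    exact ⟨hw.2.1.1, by omega⟩)

/-- numerics of the third case -/
theorem numC {t c K : ℝ} (ht1 : 1 ≤ t) (hc : 0 < c) (hK : 0 ≤ K) (hcK : c * (4 + K) ≤ 1/3000) :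
    t^(4*c) * ((1/t)^(1-2*eps1) * (t^(c*K - 7/1000))^(1/2-eps1)) ≤ t^(-(1001/1000):ℝ) := by
  have ht0 : 0 < t := by linarith
  have et : (1/t)^(1-2*eps1) = t^(-(1-2*eps1)) := by
    rw [one_div, Real.inv_rpow ht0.le, Real.rpow_neg ht0.le]
  rw [et, ← Real.rpow_mul ht0.le, ← Real.rpow_add ht0, ← Real.rpow_add ht0]
  apply Real.rpow_le_rpow_of_exponent_le ht1
  unfold eps1
  have : 0 ≤ c * K := by positivity
  nlinarith

/-- the sum over the smooth reduced pairs, third case -/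
theorem exists_sumC {κ ε0 : ℝ} (hκ : 0 ≤ κ) : ∃ C K : ℝ, 1 ≤ C ∧ 0 ≤ K ∧
    ∀ (θ' t c : ℝ) (k0 : ℕ) (R : Finset (ℕ × ℕ)), 2^2000 ≤ t → 0 < c → 20 ≤ t^c →
    1 ≤ k0 → (k0:ℝ) ≤ t^(7/200:ℝ) →
    (Real.exp (t^c))^(-ε0) ≤ 2 * t^(-(1/50):ℝ) →
    Smooth ⌊Real.exp (t^c)⌋₊ (R.image Prod.fst) → Smooth ⌊Real.exp (t^c)⌋₊ (R.image Prod.snd) →
    ∑ x ∈ R, wn κ x.1 * wn κ x.2 *
      (betC θ' t (t^(1/20:ℝ)) (t^(7/200:ℝ)) (Real.exp (t^c)) k0 x.1 + (Real.exp (t^c))^(-ε0))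
      ≤ C * t^(c*K - 7/1000) := by
  classical
  obtain ⟨CX, KX, hCX1, hKX, hCX⟩ := exists_sum_X hκ
  have hSm := (Sm_pos 6).le
  set K0 : ℝ := κ * Sm 6 with hK0
  have hK00 : 0 ≤ K0 := by positivity
  set E6 : ℝ := Real.exp (6*K0) with hE6
  have hE61 : 1 ≤ E6 := Real.one_le_exp (by positivity)
  refine ⟨E6 * (6*CX) + 2 * E6^2, KX + 2*K0, by nlinarith, by positivity, ?_⟩
  intro θ' t c k0 img ht2000 hc h16 hk1 hk2 hηle hSmA hSmB
  have ht10 : (2:ℝ)^10 ≤ t := le_trans (pow_le_pow_right₀ (by norm_num) (by norm_num)) ht2000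
  have ht0 : 0 < t := lt_of_lt_of_le (by norm_num) ht10
  have ht1 : 1 ≤ t := le_trans (by norm_num) ht10
  set z : ℝ := Real.exp (t^c) with hz
  have hz2 : 2 ≤ z := by
    have := Real.add_one_le_exp (t^c)
    linarith
  have hzf2 : 2 ≤ ⌊z⌋₊ := Nat.le_floor (by exact_mod_cast hz2)
  have hlogz : Real.log ⌊z⌋₊ ≤ t^c := by
    have h0 : (0:ℝ) < (⌊z⌋₊:ℝ) := by positivity
    calc Real.log ⌊z⌋₊ ≤ Real.log z := Real.log_le_log h0 (Nat.floor_le (by linarith))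
      _ = t^c := by rw [hz, Real.log_exp]
  have hlogz0 : 0 < Real.log ⌊z⌋₊ := Real.log_pos (by
    have : (2:ℝ) ≤ (⌊z⌋₊:ℝ) := by exact_mod_cast hzf2
    linarith)
  have hll : Real.log (Real.log ⌊z⌋₊) ≤ c * Real.log t := by
    calc Real.log (Real.log ⌊z⌋₊) ≤ Real.log (t^c) := Real.log_le_log hlogz0 hlogz
      _ = c * Real.log t := Real.log_rpow ht0 _
  set N : ℝ := t^(1/20:ℝ) with hN
  set Ns : ℝ := t^(7/200:ℝ) with hNs
  set X : ℝ := Real.exp (K0 * (Real.log (Real.log ⌊z⌋₊) + 6)) with hXd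
  have hX0 : 0 < X := Real.exp_pos _
  have hX : X ≤ E6 * t^(c*K0) := by
    have h3 : t^(c*K0) = Real.exp (K0 * (c * Real.log t)) := by
      rw [Real.rpow_def_of_pos ht0]; congr 1; ring
    rw [hXd, h3, hE6, ← Real.exp_add]
    apply Real.exp_le_exp.2
    nlinarith
  set A := img.image Prod.fst with hAd
  set B := img.image Prod.snd with hBd
  have hSA : ∑ a ∈ A, wn κ a ≤ X := sum_wn_le hκ hzf2 hSmA
  have hSB : ∑ b ∈ B, wn κ b ≤ X := sum_wn_le hκ hzf2 hSmB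
  set η : ℝ := z^(-ε0) with hη
  have hη0 : 0 ≤ η := by positivity
  have hXin : ∑ a ∈ A.filter (fun a => InX θ' t N Ns z k0 a), wn κ a ≤ CX * t^(c*KX - 7/1000) :=
    hCX θ' t z c k0 _ ht2000 hc le_rfl hk1 hk2 (fun a ha => (Finset.mem_filter.1 ha).2)
  have hsumA : ∑ a ∈ A, wn κ a * (betC θ' t N Ns z k0 a + η)
      ≤ 6 * (CX * t^(c*KX - 7/1000)) + η * X := by
    have e1 : ∀ a ∈ A, wn κ a * (betC θ' t N Ns z k0 a + η)
        = 6 * (if InX θ' t N Ns z k0 a then wn κ a else 0) + η * wn κ a := by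
      intro a _
      unfold betC
      split_ifs <;> ring
    rw [Finset.sum_congr rfl e1, Finset.sum_add_distrib, ← Finset.mul_sum, ← Finset.mul_sum,
      ← Finset.sum_filter]
    exact add_le_add (mul_le_mul_of_nonneg_left hXin (by norm_num))
      (mul_le_mul_of_nonneg_left hSA hη0)
  have h1 : ∑ x ∈ img, wn κ x.1 * wn κ x.2 * (betC θ' t N Ns z k0 x.1 + η)
      ≤ ∑ x ∈ A ×ˢ B, wn κ x.1 * wn κ x.2 * (betC θ' t N Ns z k0 x.1 + η) := by
    apply Finset.sum_le_sum_of_subset_of_nonneg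
    · intro x hx
      exact Finset.mem_product.2 ⟨Finset.mem_image_of_mem _ hx, Finset.mem_image_of_mem _ hx⟩
    · intro x _ _
      exact mul_nonneg (mul_nonneg (wn_nonneg hκ _) (wn_nonneg hκ _))
        (add_nonneg (betC_nonneg _ _ _ _ _ _ _) hη0)
  have h2 : ∑ x ∈ A ×ˢ B, wn κ x.1 * wn κ x.2 * (betC θ' t N Ns z k0 x.1 + η)
      = (∑ a ∈ A, wn κ a * (betC θ' t N Ns z k0 a + η)) * ∑ b ∈ B, wn κ b := by
    rw [Finset.sum_product, Finset.sum_mul]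
    apply Finset.sum_congr rfl
    intro a _
    rw [Finset.mul_sum]
    apply Finset.sum_congr rfl
    intro b _
    ring
  have hSB0 : 0 ≤ ∑ b ∈ B, wn κ b := Finset.sum_nonneg fun b _ => wn_nonneg hκ _
  have h3 : (∑ a ∈ A, wn κ a * (betC θ' t N Ns z k0 a + η)) * ∑ b ∈ B, wn κ b
      ≤ (6 * (CX * t^(c*KX - 7/1000)) + η * X) * X :=
    mul_le_mul hsumA hSB hSB0 (by positivity)
  refine h1.trans ((le_of_eq h2).trans (h3.trans ?_))
  have hcK0 : 0 ≤ c * K0 := mul_nonneg hc.le hK00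
  have hcKX : 0 ≤ c * KX := mul_nonneg hc.le hKX
  have e3 : t^(c*KX - 7/1000) * t^(c*K0) ≤ t^(c*(KX + 2*K0) - 7/1000) := by
    rw [← Real.rpow_add ht0]
    apply Real.rpow_le_rpow_of_exponent_le ht1
    linarith
  have e4 : t^(-(1/50):ℝ) * (t^(c*K0) * t^(c*K0)) ≤ t^(c*(KX + 2*K0) - 7/1000) := by
    rw [← Real.rpow_add ht0, ← Real.rpow_add ht0]
    apply Real.rpow_le_rpow_of_exponent_le ht1
    linarith
  have hp0 : 0 < t^(c*K0) := by positivity
  calc (6 * (CX * t^(c*KX - 7/1000)) + η * X) * X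
      ≤ (6 * (CX * t^(c*KX - 7/1000)) + (2 * t^(-(1/50):ℝ)) * (E6 * t^(c*K0))) * (E6 * t^(c*K0)) := by
        apply mul_le_mul _ hX hX0.le (by positivity)
        exact add_le_add le_rfl (mul_le_mul hηle hX hX0.le (by positivity))
    _ = E6 * (6*CX) * (t^(c*KX - 7/1000) * t^(c*K0)) +
        2 * E6^2 * (t^(-(1/50):ℝ) * (t^(c*K0) * t^(c*K0))) := by ring
    _ ≤ E6 * (6*CX) * t^(c*(KX + 2*K0) - 7/1000) + 2 * E6^2 * t^(c*(KX + 2*K0) - 7/1000) := by
        exact add_le_add (mul_le_mul_of_nonneg_left e3 (by positivity))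
          (mul_le_mul_of_nonneg_left e4 (by positivity))
    _ = (E6 * (6*CX) + 2 * E6^2) * t^(c*(KX + 2*K0) - 7/1000) := by ring

/-- the `Af`-weights of tame systems -/
theorem Af_pair_tame {V W : Finset ℕ} {E : Finset (ℕ × ℕ)} {ψ ψ' : ℕ → ℝ} {G : ℕ} {t c : ℝ}
    (ht0 : 0 < t) (h16 : 20 ≤ t^c) (hs : Sys V W E ψ ψ' (1/t)) (hG : 0 < G)
    (hVt : ∀ q ∈ V, Tame (Real.exp (t^c)) G q) (hWt : ∀ q ∈ W, Tame (Real.exp (t^c)) G q) :
    ∑ e ∈ E, wt ψ e.1 * wt ψ' e.2 * (Af (cof e.1 e.2) * Af (cof e.2 e.1))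
      ≤ (Real.exp 28 * t^(4*c)) * ∑ e ∈ E, wt ψ e.1 * wt ψ' e.2 := by
  classical
  set z : ℝ := Real.exp (t^c) with hz
  have hz2 : 2 ≤ z := by
    have := Real.add_one_le_exp (t^c)
    linarith
  have hzf2 : 2 ≤ ⌊z⌋₊ := Nat.le_floor (by exact_mod_cast hz2)
  have hlogz : Real.log ⌊z⌋₊ ≤ t^c := by
    have h0 : (0:ℝ) < (⌊z⌋₊:ℝ) := by positivity
    calc Real.log ⌊z⌋₊ ≤ Real.log z := Real.log_le_log h0 (Nat.floor_le (by linarith))
      _ = t^c := by rw [hz, Real.log_exp]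
  have hlogz0 : 0 < Real.log ⌊z⌋₊ := Real.log_pos (by
    have : (2:ℝ) ≤ (⌊z⌋₊:ℝ) := by exact_mod_cast hzf2
    linarith)
  have hA1 : Real.exp (2 * (Real.log (Real.log ⌊z⌋₊) + 6) + 2) ≤ Real.exp 14 * t^(2*c) := by
    have h2 : Real.log (Real.log ⌊z⌋₊) ≤ c * Real.log t := by
      calc Real.log (Real.log ⌊z⌋₊) ≤ Real.log (t^c) := Real.log_le_log hlogz0 hlogz
        _ = c * Real.log t := Real.log_rpow ht0 _
    rw [Real.rpow_def_of_pos ht0, ← Real.exp_add]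
    apply Real.exp_le_exp.2
    linarith
  have hzhalf : z^(-(1/2:ℝ)) ≤ 1 := Real.rpow_le_one_of_one_le_of_nonpos (by linarith) (by norm_num)
  have hAf : ∀ e ∈ E, Af (cof e.1 e.2) * Af (cof e.2 e.1) ≤ Real.exp 28 * t^(4*c) := by
    intro e he
    have hm := Finset.mem_product.1 (hs.hE he)
    have hd1 : e.1 = G * (e.1 / G) := (Nat.mul_div_cancel' (hVt _ hm.1).1).symm
    have hd2 : e.2 = G * (e.2 / G) := (Nat.mul_div_cancel' (hWt _ hm.2).1).symm
    have hp1 : 0 < e.1 / G := Nat.div_pos (Nat.le_of_dvd (hs.hV _ hm.1) (hVt _ hm.1).1) hG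
    have hp2 : 0 < e.2 / G := Nat.div_pos (Nat.le_of_dvd (hs.hW _ hm.2) (hWt _ hm.2).1) hG
    have hc1' : cof e.1 e.2 = cof (e.1/G) (e.2/G) := by
      conv_lhs => rw [hd1, hd2, cof_mul_left hG]
    have hc2' : cof e.2 e.1 = cof (e.2/G) (e.1/G) := by
      conv_lhs => rw [hd1, hd2, cof_mul_left hG]
    have hdv1 : cof e.1 e.2 ∣ e.1 / G := by rw [hc1']; exact Dvd.intro _ (cof_mul_gcd _ _)
    have hdv2 : cof e.2 e.1 ∣ e.2 / G := by rw [hc2']; exact Dvd.intro _ (cof_mul_gcd _ _)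
    have hb : ∀ (n q : ℕ), n ∣ q → 0 < q →
        ∑ p ∈ q.primeFactors.filter (fun p : ℕ => z < (p:ℝ)), (1:ℝ)/p ≤ z^(-(1/2:ℝ)) →
        Af n ≤ Real.exp 14 * t^(2*c) := by
      intro n q hnq hq hbud
      refine le_trans (Af_tame hz2 ?_) hA1
      refine le_trans ?_ (hbud.trans hzhalf)
      apply Finset.sum_le_sum_of_subset_of_nonneg
      · intro p hp
        rw [Finset.mem_filter] at hp ⊢
        exact ⟨Nat.primeFactors_mono hnq hq.ne' hp.1, hp.2⟩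
      · intro p _ _; positivity
    have a1 := hb _ _ hdv1 hp1 (hVt _ hm.1).2
    have a2 := hb _ _ hdv2 hp2 (hWt _ hm.2).2
    calc Af (cof e.1 e.2) * Af (cof e.2 e.1) ≤ (Real.exp 14 * t^(2*c)) * (Real.exp 14 * t^(2*c)) :=
          mul_le_mul a1 a2 (Af_pos _).le (by positivity)
      _ = (Real.exp 14 * Real.exp 14) * (t^(2*c) * t^(2*c)) := by ring
      _ = Real.exp 28 * t^(4*c) := by
          rw [← Real.exp_add, ← Real.rpow_add ht0]
          congr 2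
          · norm_num
          · ring
  rw [Finset.mul_sum]
  apply Finset.sum_le_sum
  intro e he
  have hm := Finset.mem_product.1 (hs.hE he)
  rw [mul_comm]
  exact mul_le_mul_of_nonneg_right (hAf e he)
    (mul_nonneg (wt_nonneg (hs.hψ _ hm.1)) (wt_nonneg (hs.hθ _ hm.2)))

/-- the rational seen by the huge cofactors -/
theorem exists_rho {θ θ' t N Ns z : ℝ} (ht0 : 0 < t) (hNs : 1 ≤ Ns) (hz : 0 < z) {x y : ℕ}
    (h : PairTC θ θ' t N Ns z x y) :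
    ∃ ρ : ℚ, (ρ.den:ℝ) ≤ Ns ∧ |θ - ρ| ≤ 4 * Ns / (t * z) := by
  obtain ⟨Y, hY0, hYy, hyY, k, hk1, hkN, m, hm⟩ := h.str
  have hk0 : (0:ℝ) < k := by exact_mod_cast hk1
  have hk1' : (1:ℝ) ≤ k := by exact_mod_cast hk1
  refine ⟨(m:ℚ)/k, ?_, ?_⟩
  · have h4 := Rat.den_dvd m (k:ℤ)
    rw [Rat.divInt_eq_div] at h4
    push_cast at h4
    have h5 := Int.le_of_dvd (by exact_mod_cast hk1) h4
    have h6 : ((((m:ℚ)/k).den : ℕ):ℝ) ≤ k := by exact_mod_cast h5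
    exact h6.trans hkN
  · have e : θ - (((m:ℚ)/k : ℚ):ℝ) = (θ * k - m) / k := by push_cast; field_simp
    rw [e, abs_div, abs_of_pos hk0]
    have hyz : z < y := h.hyY
    calc |θ * k - m| / k ≤ |θ * k - m| := div_le_self (abs_nonneg _) hk1'
      _ ≤ 2 * Ns / (t * Y) := hm
      _ ≤ 4 * Ns / (t * z) := by
          rw [div_le_div_iff₀ (by positivity) (by positivity)]
          have h7 : z ≤ 2 * Y := by linarith
          have h8 : 2 * Ns * (t * z) ≤ 2 * Ns * (t * (2 * Y)) := by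
            apply mul_le_mul_of_nonneg_left _ (by positivity)
            exact mul_le_mul_of_nonneg_left h7 ht0.le
          linarith

/-- the sieve step of the third case -/
theorem siftC : ∃ C K : ℝ, 1 ≤ C ∧ 0 ≤ K ∧
    ∀ c : ℝ, 0 < c →
    ∀ (θ θ' t : ℝ) (V W : Finset ℕ) (E : Finset (ℕ × ℕ)) (ψ ψ' : ℕ → ℝ) (G : ℕ),
    NumB eps1 c t → 2^2000 ≤ t → 8 * (t^(7/200:ℝ))^3 < t * Real.exp (t^c) →
    Sys V W E ψ ψ' (1/t) → 0 < G →
    (∀ q ∈ V, Tame (Real.exp (t^c)) G q) → (∀ q ∈ W, Tame (Real.exp (t^c)) G q) →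
    (∀ e ∈ E, PairTC θ θ' t (t^(1/20:ℝ)) (t^(7/200:ℝ)) (Real.exp (t^c)) (cof e.1 e.2) (cof e.2 e.1)) →
    ∑ e ∈ E, wt ψ e.1 * wt ψ' e.2
      ≤ C * ((1/t)^(1-2*eps1) * (t^(c*K - 7/1000))^(1/2-eps1) *
        ((∑ v ∈ V, wt ψ v) * (∑ w ∈ W, wt ψ' w))^(1/2+eps1)) := by
  classical
  have hε : (0:ℝ) < eps1 := by unfold eps1; norm_num
  have hε4 : eps1 ≤ 1/4 := by unfold eps1; norm_num
  have hκ : (0:ℝ) ≤ (72/eps1)^3 := by positivity
  obtain ⟨C1, K, hC11, hK, hsum⟩ := exists_sumC (κ := (72/eps1)^3) (ε0 := 2*(eps1/16)) hκ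
  have hu : 0 < 1/2 - eps1 := by linarith
  have hC01 : 1 ≤ Real.exp (2 + 2/eps1) := Real.one_le_exp (by positivity)
  refine ⟨Real.exp (2 + 2/eps1) * C1, K, by nlinarith, hK, ?_⟩
  intro c hc θ θ' t V W E ψ ψ' G hnum ht2000 hbig hs hG hVt hWt hP
  have ht := hnum.ht
  have ht0 : (0:ℝ) < t := lt_of_lt_of_le (by norm_num) ht
  have ht1 : (1:ℝ) ≤ t := le_trans (by norm_num) ht
  have h16 := hnum.h16
  have hM0 : 0 ≤ (∑ v ∈ V, wt ψ v) * (∑ w ∈ W, wt ψ' w) :=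
    mul_nonneg (Finset.sum_nonneg fun v hv => wt_nonneg (hs.hψ v hv))
      (Finset.sum_nonneg fun v hv => wt_nonneg (hs.hθ v hv))
  rcases E.eq_empty_or_nonempty with hem | ⟨e0, he0⟩
  · rw [hem, Finset.sum_empty]; positivity
  have hNs1 : 1 ≤ t^(7/200:ℝ) := Real.one_le_rpow ht1 (by norm_num)
  obtain ⟨ρ, hden, hρ⟩ := exists_rho ht0 hNs1 (Real.exp_pos _) (hP e0 he0)
  have hdpos : 1 ≤ ρ.den := ρ.pos
  have hz1 : 1 ≤ Real.exp (t^c) := Real.one_le_exp (by positivity)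
  have hwnn : ∀ v ∈ V, 0 ≤ wt ψ v := fun v hv => wt_nonneg (hs.hψ v hv)
  have hwnn' : ∀ v ∈ W, 0 ≤ wt ψ' v := fun v hv => wt_nonneg (hs.hθ v hv)
  have hdivV : ∀ q ∈ V, q = G * (q / G) := fun q hq => (Nat.mul_div_cancel' (hVt q hq).1).symm
  have hdivW : ∀ q ∈ W, q = G * (q / G) := fun q hq => (Nat.mul_div_cancel' (hWt q hq).1).symm
  have hcof : ∀ e ∈ E, cof (e.1/G) (e.2/G) = cof e.1 e.2 ∧ cof (e.2/G) (e.1/G) = cof e.2 e.1 := by
    intro e he
    have hm := Finset.mem_product.1 (hs.hE he)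
    have h1 := hdivV _ hm.1
    have h2 := hdivW _ hm.2
    constructor
    · conv_rhs => rw [h1, h2, cof_mul_left hG]
    · conv_rhs => rw [h1, h2, cof_mul_left hG]
  have hposV : ∀ q ∈ V, 0 < q / G := fun q hq =>
    Nat.div_pos (Nat.le_of_dvd (hs.hV q hq) (hVt q hq).1) hG
  have hposW : ∀ q ∈ W, 0 < q / G := fun q hq =>
    Nat.div_pos (Nat.le_of_dvd (hs.hW q hq) (hWt q hq).1) hG
  have key := lf9_full hε hε4 (Real.exp_pos (2+2/eps1)).le (by positivity : (0:ℝ) ≤ eps1/16)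
    (thmR hε hε4) hnum.hz0 hz1 V W E (fun q => q/G) (fun q => q/G) (wt ψ) (wt ψ') (1/t)
    (PairTC θ θ' t (t^(1/20:ℝ)) (t^(7/200:ℝ)) (Real.exp (t^c)))
    (fun a _ => betC θ' t (t^(1/20:ℝ)) (t^(7/200:ℝ)) (Real.exp (t^c)) ρ.den a) (by positivity) hposV hposW
    (by
      intro a ha b hb hab
      rw [hdivV a ha, hdivV b hb]
      simp only at hab
      rw [hab])
    (by
      intro a ha b hb hab
      rw [hdivW a ha, hdivW b hb]
      simp only at hab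
      rw [hab])
    hwnn hwnn' hs.hE (fun q hq => (hVt q hq).2) (fun q hq => (hWt q hq).2)
    (by
      intro e he
      have hm := Finset.mem_product.1 (hs.hE he)
      rw [(hcof e he).1]
      refine le_trans ?_ (hs.h1 e he)
      apply mul_le_mul_of_nonneg_left _ (by positivity)
      unfold wt
      have := totient_ratio_le_one e.2
      have h2 := hs.hθ _ hm.2
      exact mul_le_of_le_one_right h2 this)
    (by
      intro e he
      have hm := Finset.mem_product.1 (hs.hE he)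
      rw [(hcof e he).2]
      refine le_trans ?_ (hs.h2 e he)
      apply mul_le_mul_of_nonneg_left _ (by positivity)
      unfold wt
      have := totient_ratio_le_one e.1
      have h2 := hs.hψ _ hm.1
      exact mul_le_of_le_one_right h2 this)
    (by
      intro e he
      rw [(hcof e he).1, (hcof e he).2]
      exact hP e he)
    (fun a b => betC_nonneg _ _ _ _ _ _ _)
    (by
      intro a b ha0 _ _ _ _ _
      exact betaHypC ht0 hNs1 hz1 hbig hden hρ ha0)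
  have hT2 := hsum θ' t c ρ.den (E.image (fun e => (cof (sp (fun p : ℕ => (p:ℝ) ≤ Real.exp (t^c)) (e.1/G))
      (sp (fun p : ℕ => (p:ℝ) ≤ Real.exp (t^c)) (e.2/G)),
      cof (sp (fun p : ℕ => (p:ℝ) ≤ Real.exp (t^c)) (e.2/G))
      (sp (fun p : ℕ => (p:ℝ) ≤ Real.exp (t^c)) (e.1/G))))) ht2000 hc h16 hdpos hden
    (hnum.hη.trans (inv_Nt_le ht))
    (by
      intro b hb
      obtain ⟨x, hx, rfl⟩ := Finset.mem_image.1 hb
      obtain ⟨h1, h2, _, h4, h5, _⟩ := mem_image_sp (fun p : ℕ => (p:ℝ) ≤ Real.exp (t^c))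
        hposV hposW hs.hE hx
      exact ⟨h1, fun p hp hd => Nat.le_floor (h4 p hp hd)⟩)
    (by
      intro b hb
      obtain ⟨x, hx, rfl⟩ := Finset.mem_image.1 hb
      obtain ⟨h1, h2, _, h4, h5, _⟩ := mem_image_sp (fun p : ℕ => (p:ℝ) ≤ Real.exp (t^c))
        hposV hposW hs.hE hx
      exact ⟨h2, fun p hp hd => Nat.le_floor (h5 p hp hd)⟩)
  refine key.trans ?_
  set T := ∑ x ∈ E.image (fun e => (cof (sp (fun p : ℕ => (p:ℝ) ≤ Real.exp (t^c)) (e.1/G))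
      (sp (fun p : ℕ => (p:ℝ) ≤ Real.exp (t^c)) (e.2/G)),
      cof (sp (fun p : ℕ => (p:ℝ) ≤ Real.exp (t^c)) (e.2/G))
      (sp (fun p : ℕ => (p:ℝ) ≤ Real.exp (t^c)) (e.1/G)))),
      wn ((72/eps1)^3) x.1 * wn ((72/eps1)^3) x.2 *
      (betC θ' t (t^(1/20:ℝ)) (t^(7/200:ℝ)) (Real.exp (t^c)) ρ.den x.1 +
        (Real.exp (t^c))^(-(2*(eps1/16)))) with hT
  have hT0 : 0 ≤ T := by
    rw [hT]
    apply Finset.sum_nonneg
    intro x _
    exact mul_nonneg (mul_nonneg (wn_nonneg hκ _) (wn_nonneg hκ _))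
      (add_nonneg (betC_nonneg _ _ _ _ _ _ _) (by positivity))
  have hT3 : T^(1/2-eps1) ≤ C1 * (t^(c*K - 7/1000))^(1/2-eps1) := by
    calc T^(1/2-eps1) ≤ (C1 * t^(c*K - 7/1000))^(1/2-eps1) := Real.rpow_le_rpow hT0 hT2 hu.le
      _ = C1^(1/2-eps1) * (t^(c*K - 7/1000))^(1/2-eps1) := Real.mul_rpow (by linarith) (by positivity)
      _ ≤ C1 * (t^(c*K - 7/1000))^(1/2-eps1) := by
          apply mul_le_mul_of_nonneg_right _ (by positivity)
          calc C1^(1/2-eps1) ≤ C1^(1:ℝ) := Real.rpow_le_rpow_of_exponent_le hC11 (by linarith)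
            _ = C1 := Real.rpow_one C1
  have hMs : 0 ≤ ((∑ v ∈ V, wt ψ v) * (∑ w ∈ W, wt ψ' w))^(1/2+eps1) := by positivity
  calc Real.exp (2+2/eps1) * ((1/t)^(1-2*eps1) * (T^(1/2-eps1) *
        ((∑ v ∈ V, wt ψ v) * (∑ w ∈ W, wt ψ' w))^(1/2+eps1)))
      ≤ Real.exp (2+2/eps1) * ((1/t)^(1-2*eps1) * ((C1 * (t^(c*K - 7/1000))^(1/2-eps1)) *
        ((∑ v ∈ V, wt ψ v) * (∑ w ∈ W, wt ψ' w))^(1/2+eps1))) := by
        apply mul_le_mul_of_nonneg_left _ (by positivity)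
        apply mul_le_mul_of_nonneg_left _ (by positivity)
        exact mul_le_mul_of_nonneg_right hT3 hMs
    _ = _ := by ring

/-- **third case**, one orientation: sieve parameter `z = exp (t^c)` = bound of the small cofactor -/
theorem classTC_half : ∃ C K : ℝ, 1 ≤ C ∧ 0 ≤ K ∧
    ∀ c : ℝ, 0 < c → c * (4 + K) ≤ 1/3000 →
    ∀ (θ θ' t : ℝ) (V W : Finset ℕ) (E : Finset (ℕ × ℕ)) (ψ ψ' : ℕ → ℝ) (G : ℕ),
    NumB eps1 c t → 2^2000 ≤ t → 8 * (t^(7/200:ℝ))^3 < t * Real.exp (t^c) →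
    Sys V W E ψ ψ' (1/t) → 0 < G →
    (∀ q ∈ V, Tame (Real.exp (t^c)) G q) → (∀ q ∈ W, Tame (Real.exp (t^c)) G q) →
    (∀ e ∈ E, PairTC θ θ' t (t^(1/20:ℝ)) (t^(7/200:ℝ)) (Real.exp (t^c)) (cof e.1 e.2) (cof e.2 e.1)) →
    ∑ e ∈ E, wt ψ e.1 * wt ψ' e.2 * (Af (cof e.1 e.2) * Af (cof e.2 e.1))
      ≤ C * t^(-(1001/1000):ℝ) * ((∑ v ∈ V, wt ψ v) * (∑ w ∈ W, wt ψ' w))^(1/2+eps1) := by
  classical
  obtain ⟨C, K, hC1, hK, hC⟩ := siftC
  refine ⟨Real.exp 28 * C, K, ?_, hK, ?_⟩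
  · have : 1 ≤ Real.exp 28 := Real.one_le_exp (by positivity)
    nlinarith
  intro c hc hcK θ θ' t V W E ψ ψ' G hnum ht2000 hbig hs hG hVt hWt hP
  have ht := hnum.ht
  have ht0 : (0:ℝ) < t := lt_of_lt_of_le (by norm_num) ht
  have ht1 : (1:ℝ) ≤ t := le_trans (by norm_num) ht
  refine (Af_pair_tame ht0 hnum.h16 hs hG hVt hWt).trans ?_
  set M := (∑ v ∈ V, wt ψ v) * (∑ w ∈ W, wt ψ' w) with hM
  have hM0 : 0 ≤ M :=
    mul_nonneg (Finset.sum_nonneg fun v hv => wt_nonneg (hs.hψ v hv))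
      (Finset.sum_nonneg fun v hv => wt_nonneg (hs.hθ v hv))
  have hMs : 0 ≤ M^(1/2+eps1) := by positivity
  have h1 := hC c hc θ θ' t V W E ψ ψ' G hnum ht2000 hbig hs hG hVt hWt hP
  rw [← hM] at h1
  have n1 := numC ht1 hc hK hcK
  calc Real.exp 28 * t^(4*c) * ∑ e ∈ E, wt ψ e.1 * wt ψ' e.2
      ≤ Real.exp 28 * t^(4*c) * (C * ((1/t)^(1-2*eps1) * (t^(c*K - 7/1000))^(1/2-eps1) *
        M^(1/2+eps1))) := mul_le_mul_of_nonneg_left h1 (by positivity)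
    _ = Real.exp 28 * C * (t^(4*c) * ((1/t)^(1-2*eps1) * (t^(c*K - 7/1000))^(1/2-eps1))) *
        M^(1/2+eps1) := by ring
    _ ≤ Real.exp 28 * C * t^(-(1001/1000):ℝ) * M^(1/2+eps1) := by
        apply mul_le_mul_of_nonneg_right _ hMs
        exact mul_le_mul_of_nonneg_left n1 (by positivity)

/-! ### one scale -/

theorem swap_sys {V W : Finset ℕ} {E : Finset (ℕ × ℕ)} {ψ ψ' : ℕ → ℝ} {δ : ℝ}
    (hs : Sys V W E ψ ψ' δ) : Sys W V (E.image Prod.swap) ψ' ψ δ :=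
  { hδ := hs.hδ, hV := hs.hW, hW := hs.hV, hψ := hs.hθ, hθ := hs.hψ
    hE := by
      intro e he
      obtain ⟨e', he', rfl⟩ := Finset.mem_image.1 he
      have := Finset.mem_product.1 (hs.hE he')
      exact Finset.mem_product.2 ⟨this.2, this.1⟩
    h1 := by
      intro e he
      obtain ⟨e', he', rfl⟩ := Finset.mem_image.1 he
      exact hs.h2 e' he'
    h2 := by
      intro e he
      obtain ⟨e', he', rfl⟩ := Finset.mem_image.1 he
      exact hs.h1 e' he' }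

theorem swap_sum {E : Finset (ℕ × ℕ)} {ψ ψ' : ℕ → ℝ} :
    ∑ e ∈ E.image Prod.swap, wt ψ' e.1 * wt ψ e.2 * (Af (cof e.1 e.2) * Af (cof e.2 e.1))
      = ∑ e ∈ E, wt ψ e.1 * wt ψ' e.2 * (Af (cof e.1 e.2) * Af (cof e.2 e.1)) := by
  classical
  rw [Finset.sum_image (Prod.swap_injective.injOn)]
  apply Finset.sum_congr rfl
  intro e _
  simp only [Prod.fst_swap, Prod.snd_swap]
  ring

theorem rel_swap {θ θ' t : ℝ} {x y : ℕ} (h : ∃ n : ℤ, |(n:ℝ) - (θ' * x - θ * y)| ≤ 2 / t) :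
    ∃ n : ℤ, |(n:ℝ) - (θ * y - θ' * x)| ≤ 2 / t := by
  obtain ⟨n, hn⟩ := h
  refine ⟨-n, ?_⟩
  rw [← abs_neg]
  have e5 : -(((-n : ℤ):ℝ) - (θ * y - θ' * x)) = (n:ℝ) - (θ' * x - θ * y) := by push_cast; ring
  rw [e5]; exact hn

/-- two-target related pair at scale `t` satisfying the alternative of `Dich579` -/
structure Gen3 (θ θ' t : ℝ) (x y : ℕ) (r r' : ℝ) : Prop where
  rel : ∃ n : ℤ, |(n:ℝ) - (θ' * x - θ * y)| ≤ 2 / t
  alt : Dich579.Alt (t^(1/20:ℝ)) θ θ' t x y r r'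

/-- classification of a balanced pair -/
theorem classify {θ θ' t Yb : ℝ} {x y : ℕ} (ht1 : 1 ≤ t) (hx : 0 < x) (hy : 0 < y)
    (rel : ∃ n : ℤ, |(n:ℝ) - (θ' * x - θ * y)| ≤ 2 / t)
    (hN : t^(1/20:ℝ) < y)
    (uns : ∀ Y : ℝ, 0 < Y → Y < y → (y:ℝ) ≤ 2 * Y → ¬ Struct (t^(1/20:ℝ)) θ t Y) :
    (PairBT θ θ' t (t^(7/200:ℝ)) Yb x y ∨ PairBT θ' θ t (t^(7/200:ℝ)) Yb y x) ∨
    PairSS θ θ' t (t^(1/20:ℝ)) Yb x y ∨
    PairTC θ' θ t (t^(1/20:ℝ)) (t^(7/200:ℝ)) Yb y x := by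
  have ht0 : 0 < t := by linarith
  have hNs : t^(7/200:ℝ) ≤ t^(1/20:ℝ) := Real.rpow_le_rpow_of_exponent_le ht1 (by norm_num)
  by_cases h1 : Yb < y
  · left; left
    exact ⟨hx, hy, h1, rel, fun Y k1 k2 k3 hcon => uns Y k1 k2 k3 (Struct.monoN ht0 k1 hNs hcon)⟩
  rw [not_lt] at h1
  by_cases h2 : (x:ℝ) ≤ Yb
  · right; left
    exact ⟨hx, h2, hN, h1, rel, uns⟩
  rw [not_le] at h2
  by_cases h3 : ∃ X : ℝ, 0 < X ∧ X < x ∧ (x:ℝ) ≤ 2 * X ∧ Struct (t^(7/200:ℝ)) θ' t X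
  · right; right
    exact ⟨hN, h1, h2, rel_swap rel, uns, h3⟩
  · left; right
    exact ⟨hy, hx, h2, rel_swap rel, fun X k1 k2 k3 hcon => h3 ⟨X, k1, k2, k3, hcon⟩⟩

/-- **energy at one scale** -/
theorem scale_energy2 : ∃ C c0 : ℝ, 1 ≤ C ∧ 0 < c0 ∧
    ∀ c1 : ℝ, 0 < c1 → c1 ≤ c0 → ∃ T0 : ℝ, ∀ (θ θ' t : ℝ) (V W : Finset ℕ) (E : Finset (ℕ × ℕ))
    (ψ ψ' : ℕ → ℝ) (G : ℕ), T0 ≤ t → Sys V W E ψ ψ' (1/t) → 0 < G →
    (∀ z, Real.exp (t^c1) ≤ z → ∀ q ∈ V, Tame z G q) →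
    (∀ z, Real.exp (t^c1) ≤ z → ∀ q ∈ W, Tame z G q) →
    (∀ e ∈ E, Gen3 θ θ' t (cof e.1 e.2) (cof e.2 e.1) (ψ e.1) (ψ' e.2)) →
    ∑ e ∈ E, wt ψ e.1 * wt ψ' e.2 * (Af (cof e.1 e.2) * Af (cof e.2 e.1))
      ≤ C * t^(-(1001/1000):ℝ) * ((∑ v ∈ V, wt ψ v) * (∑ w ∈ W, wt ψ' w))^(1/2+eps1) := by
  classical
  have hε : (0:ℝ) < eps1 := by unfold eps1; norm_num
  have hε4 : eps1 ≤ 1/4 := by unfold eps1; norm_num
  obtain ⟨CU, hCU1, hU⟩ := classU
  obtain ⟨CS, cS, hCS1, hcS, hS⟩ := classSS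
  obtain ⟨CB, cB, hCB1, hcB, hB⟩ := classBT
  obtain ⟨CT, KT, hCT1, hKT, hT⟩ := classTC_half
  refine ⟨CU + CB + 2*CS + 2*CT, min (min (cS/3) cB) (1/(9000*(4+KT))), by linarith,
    lt_min (lt_min (by positivity) hcB) (by positivity), ?_⟩
  intro c1 hc1 hc10
  have hc1S : 3 * c1 ≤ cS := by
    have := hc10.trans ((min_le_left _ _).trans (min_le_left _ _)); linarith
  have hc1B : c1 ≤ cB := hc10.trans ((min_le_left _ _).trans (min_le_right _ _))
  have hc1T : (3*c1) * (4 + KT) ≤ 1/3000 := by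
    have h := hc10.trans (min_le_right _ _)
    rw [le_div_iff₀ (by positivity)] at h
    linarith
  obtain ⟨T0, hT0⟩ := hB c1 hc1 hc1B
  obtain ⟨T1, hT1⟩ := exists_NumB hε hε4 (c1 := 3*c1) (by positivity)
  refine ⟨max (max T0 T1) (2^2000), ?_⟩
  intro θ θ' t V W E ψ ψ' G ht hs hG hVt hWt hE
  have htT0 : T0 ≤ t := (le_max_left _ _).trans ((le_max_left _ _).trans ht)
  have htT1 : T1 ≤ t := (le_max_right _ _).trans ((le_max_left _ _).trans ht)
  have ht2000 : (2:ℝ)^2000 ≤ t := (le_max_right _ _).trans ht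
  have hnum := hT1 t htT1
  have ht10 : (2:ℝ)^10 ≤ t := le_trans (pow_le_pow_right₀ (by norm_num) (by norm_num)) ht2000
  have ht0 : 0 < t := lt_of_lt_of_le (by norm_num) ht10
  have ht1 : 1 ≤ t := le_trans (by norm_num) ht10
  set Yb : ℝ := Real.exp (t^(3*c1)) with hYb
  have hYbz : Real.exp (t^c1) ≤ Yb :=
    Real.exp_le_exp.2 (Real.rpow_le_rpow_of_exponent_le ht1 (by linarith))
  have hbig : 8 * (t^(7/200:ℝ))^3 < t * Yb := by
    have h1 : 1 ≤ Yb := Real.one_le_exp (by positivity)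
    have h2 := twohundred_rpow (ν := 1/10) ht10 le_rfl
    have h3 : (t^(7/200:ℝ))^3 = t^(21/200:ℝ) := by
      rw [← Real.rpow_natCast, ← Real.rpow_mul ht0.le]; norm_num
    have h4 : t = t^(21/200:ℝ) * t^(179/200:ℝ) := by rw [← Real.rpow_add ht0]; norm_num
    have h5 : (8:ℝ) < t^(179/200:ℝ) := by
      calc (8:ℝ) < ((2:ℝ)^10)^(1/2:ℝ) := by
            rw [← Real.rpow_natCast, ← Real.rpow_mul (by norm_num)]; norm_num
        _ ≤ t^(1/2:ℝ) := Real.rpow_le_rpow (by norm_num) ht10 (by norm_num)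
        _ ≤ t^(179/200:ℝ) := Real.rpow_le_rpow_of_exponent_le ht1 (by norm_num)
    have h6 : 0 < t^(21/200:ℝ) := by positivity
    rw [h3]
    calc 8 * t^(21/200:ℝ) < t^(179/200:ℝ) * t^(21/200:ℝ) := mul_lt_mul_of_pos_right h5 h6
      _ = t := by rw [mul_comm]; exact h4.symm
      _ = t * 1 := (mul_one t).symm
      _ ≤ t * Yb := mul_le_mul_of_nonneg_left h1 ht0.le
  set f : ℕ × ℕ → ℝ := fun e => wt ψ e.1 * wt ψ' e.2 * (Af (cof e.1 e.2) * Af (cof e.2 e.1)) with hf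
  have hf0 : ∀ e ∈ E, 0 ≤ f e := by
    intro e he
    have hm := Finset.mem_product.1 (hs.hE he)
    exact mul_nonneg (mul_nonneg (wt_nonneg (hs.hψ _ hm.1)) (wt_nonneg (hs.hθ _ hm.2)))
      (mul_nonneg (Af_pos _).le (Af_pos _).le)
  set M := (∑ v ∈ V, wt ψ v) * (∑ w ∈ W, wt ψ' w) with hM
  have hM0 : 0 ≤ M :=
    mul_nonneg (Finset.sum_nonneg fun v hv => wt_nonneg (hs.hψ v hv))
      (Finset.sum_nonneg fun v hv => wt_nonneg (hs.hθ v hv))
  have hMs : 0 ≤ M^(1/2+eps1) := by positivity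
  have hsub : ∀ E' ⊆ E, Sys V W E' ψ ψ' (1/t) := fun E' hE' =>
    { hδ := hs.hδ, hV := hs.hV, hW := hs.hW, hψ := hs.hψ, hθ := hs.hθ
      hE := hE'.trans hs.hE
      h1 := fun e he => hs.h1 e (hE' he)
      h2 := fun e he => hs.h2 e (hE' he) }
  set PU : ℕ × ℕ → Prop := fun e => (cof e.1 e.2 : ℝ) * ψ' e.2 ≤ t^(-(51/50):ℝ) ∨
    (cof e.2 e.1 : ℝ) * ψ e.1 ≤ t^(-(51/50):ℝ) with hPU
  set PB : ℕ × ℕ → Prop := fun e =>
    PairBT θ θ' t (t^(7/200:ℝ)) Yb (cof e.1 e.2) (cof e.2 e.1) ∨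
    PairBT θ' θ t (t^(7/200:ℝ)) Yb (cof e.2 e.1) (cof e.1 e.2) with hPB
  set P1 : ℕ × ℕ → Prop := fun e =>
    PairSS θ θ' t (t^(1/20:ℝ)) Yb (cof e.1 e.2) (cof e.2 e.1) with hP1
  set P2 : ℕ × ℕ → Prop := fun e =>
    PairSS θ' θ t (t^(1/20:ℝ)) Yb (cof e.2 e.1) (cof e.1 e.2) with hP2
  set P3 : ℕ × ℕ → Prop := fun e =>
    PairTC θ θ' t (t^(1/20:ℝ)) (t^(7/200:ℝ)) Yb (cof e.1 e.2) (cof e.2 e.1) with hP3
  set P4 : ℕ × ℕ → Prop := fun e =>
    PairTC θ' θ t (t^(1/20:ℝ)) (t^(7/200:ℝ)) Yb (cof e.2 e.1) (cof e.1 e.2) with hP4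
  have hcover : ∀ e ∈ E, PU e ∨ PB e ∨ P1 e ∨ P2 e ∨ P3 e ∨ P4 e := by
    intro e he
    have h := hE e he
    have hm := Finset.mem_product.1 (hs.hE he)
    have hx : 0 < cof e.1 e.2 := cof_pos (hs.hV _ hm.1)
    have hy : 0 < cof e.2 e.1 := cof_pos (hs.hW _ hm.2)
    rcases h.alt with hu | ⟨hN, hun⟩ | ⟨hN, hun⟩
    · left; exact hu
    · rcases classify (Yb := Yb) ht1 hx hy h.rel hN hun with h1 | h1 | h1
      · right; left; exact h1
      · right; right; left; exact h1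
      · right; right; right; right; right; exact h1
    · rcases classify (Yb := Yb) ht1 hy hx (rel_swap h.rel) hN hun with h1 | h1 | h1
      · right; left; exact h1.symm
      · right; right; right; left; exact h1
      · right; right; right; right; left; exact h1
  -- sum over the union
  have hsum : ∑ e ∈ E, f e ≤ ∑ e ∈ E.filter PU, f e + ∑ e ∈ E.filter PB, f e +
      ∑ e ∈ E.filter P1, f e + ∑ e ∈ E.filter P2, f e + ∑ e ∈ E.filter P3, f e +
      ∑ e ∈ E.filter P4, f e := by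
    rw [Finset.sum_filter, Finset.sum_filter, Finset.sum_filter, Finset.sum_filter,
      Finset.sum_filter, Finset.sum_filter, ← Finset.sum_add_distrib, ← Finset.sum_add_distrib,
      ← Finset.sum_add_distrib, ← Finset.sum_add_distrib, ← Finset.sum_add_distrib]
    apply Finset.sum_le_sum
    intro e he
    have h0 := hf0 e he
    have hi : ∀ P : Prop, [Decidable P] → 0 ≤ (if P then f e else 0) := by
      intro P _; split_ifs <;> simp [h0]
    have i0 := hi (PU e)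
    have i1 := hi (PB e)
    have i2 := hi (P1 e)
    have i3 := hi (P2 e)
    have i4 := hi (P3 e)
    have i5 := hi (P4 e)
    rcases hcover e he with h | h | h | h | h | h
    · have : (if PU e then f e else 0) = f e := if_pos h
      linarith
    · have : (if PB e then f e else 0) = f e := if_pos h
      linarith
    · have : (if P1 e then f e else 0) = f e := if_pos h
      linarith
    · have : (if P2 e then f e else 0) = f e := if_pos h
      linarith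
    · have : (if P3 e then f e else 0) = f e := if_pos h
      linarith
    · have : (if P4 e then f e else 0) = f e := if_pos h
      linarith
  have hYbS : Yb ≤ Real.exp (t^cS) :=
    Real.exp_le_exp.2 (Real.rpow_le_rpow_of_exponent_le ht1 hc1S)
  have bU := hU t V W (E.filter PU) ψ ψ' ht1 (hsub _ (Finset.filter_subset _ _))
    (fun e he => (Finset.mem_filter.1 he).2)
  have bB := hT0 θ θ' t V W (E.filter PB) ψ ψ' G htT0 (hsub _ (Finset.filter_subset _ _)) hG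
    (hVt _ le_rfl) (hWt _ le_rfl) (fun e he => (Finset.mem_filter.1 he).2)
  have b1 := hS θ θ' t Yb V W (E.filter P1) ψ ψ' ht10 hYbS (hsub _ (Finset.filter_subset _ _))
    (fun e he => (Finset.mem_filter.1 he).2)
  have b2 := hS θ' θ t Yb W V ((E.filter P2).image Prod.swap) ψ' ψ ht10 hYbS
    (swap_sys (hsub _ (Finset.filter_subset _ _)))
    (by
      intro e he
      obtain ⟨e', he', rfl⟩ := Finset.mem_image.1 he
      exact (Finset.mem_filter.1 he').2)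
  have b3 := hT (3*c1) (by positivity) hc1T θ θ' t V W (E.filter P3) ψ ψ' G hnum ht2000 hbig
    (hsub _ (Finset.filter_subset _ _)) hG (hVt _ hYbz) (hWt _ hYbz)
    (fun e he => (Finset.mem_filter.1 he).2)
  have b4 := hT (3*c1) (by positivity) hc1T θ' θ t W V ((E.filter P4).image Prod.swap) ψ' ψ G hnum
    ht2000 hbig (swap_sys (hsub _ (Finset.filter_subset _ _))) hG (hWt _ hYbz) (hVt _ hYbz)
    (by
      intro e he
      obtain ⟨e', he', rfl⟩ := Finset.mem_image.1 he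
      exact (Finset.mem_filter.1 he').2)
  rw [swap_sum, mul_comm (∑ w ∈ W, wt ψ' w), ← hM] at b2 b4
  have k1 : t^(-(1007/1000):ℝ) ≤ t^(-(1001/1000):ℝ) :=
    Real.rpow_le_rpow_of_exponent_le ht1 (by norm_num)
  have bU' : ∑ e ∈ E.filter PU, f e ≤ CU * t^(-(1001/1000):ℝ) * M^(1/2+eps1) := by
    refine bU.trans ?_
    apply mul_le_mul_of_nonneg_right _ hMs
    exact mul_le_mul_of_nonneg_left k1 (by linarith)
  refine hsum.trans ?_
  have e : (CU + CB + 2*CS + 2*CT) * t^(-(1001/1000):ℝ) * M^(1/2+eps1)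
      = CU * t^(-(1001/1000):ℝ) * M^(1/2+eps1) + CB * t^(-(1001/1000):ℝ) * M^(1/2+eps1)
        + CS * t^(-(1001/1000):ℝ) * M^(1/2+eps1) + CS * t^(-(1001/1000):ℝ) * M^(1/2+eps1)
        + CT * t^(-(1001/1000):ℝ) * M^(1/2+eps1) + CT * t^(-(1001/1000):ℝ) * M^(1/2+eps1) := by ring
  rw [e]
  exact add_le_add (add_le_add (add_le_add (add_le_add (add_le_add bU' bB) b1) b2) b3) b4

/-! ### all scales -/

open Crest.Agent.R4.LF11 Crest.Agent.R4.LF11s

/-- **deep pairs, two targets**: all pairs with `D ≤ 1/T`. -/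
theorem deepT2 : ∃ C c0 : ℝ, 1 ≤ C ∧ 0 < c0 ∧ ∀ c1 : ℝ, 0 < c1 → c1 ≤ c0 → ∃ T0 : ℝ, 1 ≤ T0 ∧
    ∀ (θ θ' T X K : ℝ) (V W : Finset ℕ) (E : Finset (ℕ × ℕ)) (ψ ψ' : ℕ → ℝ) (T1 : ℕ × ℕ → ℝ) (G : ℕ),
    T0 ≤ T → X ≤ Real.exp (T^c1) → 0 ≤ K → 0 < G →
    (∀ v ∈ V, 0 < v ∧ 0 < ψ v) → (∀ w ∈ W, 0 < w ∧ 0 < ψ' w) → XTame X G V → XTame X G W →
    E ⊆ V ×ˢ W → (∀ e ∈ E, DD ψ ψ' e ≤ 1/T) →
    (∀ e ∈ E, T1 e ≤ K * (ew ψ ψ' e / DD ψ ψ' e)) →
    (∀ e ∈ E, ∀ t : ℝ, T ≤ t → 1/(2*t) < DD ψ ψ' e → DD ψ ψ' e ≤ 1/t → 0 < T1 e →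
      Gen3 θ θ' t (cof e.1 e.2) (cof e.2 e.1) (ψ e.1) (ψ' e.2)) →
    ∑ e ∈ E, T1 e ≤ C * K * T^(-(1/1000):ℝ) *
      ((∑ v ∈ V, wt ψ v) * (∑ w ∈ W, wt ψ' w))^(1/2+eps1) := by
  classical
  obtain ⟨C, c0, hC1, hc0, hC⟩ := scale_energy2
  set ρ : ℝ := (2:ℝ)^(-(1/1000):ℝ) with hρ
  have hρ0 : 0 < ρ := by positivity
  have hρ1 : ρ < 1 := Real.rpow_lt_one_of_one_lt_of_neg (by norm_num) (by norm_num)
  set Cg : ℝ := 1/(1-ρ) with hCg
  have hd : 0 < 1 - ρ := by linarith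
  have hCg0 : 0 < Cg := by positivity
  have hCg1 : 1 ≤ Cg := by rw [hCg, le_div_iff₀ hd]; linarith
  refine ⟨2 * C * Cg, c0, by nlinarith, hc0, ?_⟩
  intro c1 hc1 hc10
  obtain ⟨T0, hT0⟩ := hC c1 hc1 hc10
  refine ⟨max T0 1, le_max_right _ _, ?_⟩
  intro θ θ' T X K V W E ψ ψ' T1 G hT hX hK hG hV hW hVt hWt hE hD hT1 hgen
  have hT01 : T0 ≤ T := (le_max_left _ _).trans hT
  have hT1' : 1 ≤ T := (le_max_right _ _).trans hT
  have hTp : 0 < T := by linarith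
  set M := (∑ v ∈ V, wt ψ v) * (∑ w ∈ W, wt ψ' w) with hM
  have hM0 : 0 ≤ M :=
    mul_nonneg (Finset.sum_nonneg fun v hv => wt_nonneg (hV v hv).2.le)
      (Finset.sum_nonneg fun v hv => wt_nonneg (hW v hv).2.le)
  have hMs : 0 ≤ M^(1/2+eps1) := by positivity
  set E' := E.filter (fun e => 0 < T1 e) with hE'
  have hstep0 : ∑ e ∈ E, T1 e ≤ ∑ e ∈ E', T1 e := by
    rw [hE', ← Finset.sum_filter_add_sum_filter_not E (fun e => 0 < T1 e)]
    have : ∑ e ∈ E.filter (fun e => ¬ 0 < T1 e), T1 e ≤ 0 :=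
      Finset.sum_nonpos fun e he => not_lt.1 (Finset.mem_filter.1 he).2
    linarith
  refine hstep0.trans ?_
  set Di : ℕ × ℕ → ℝ := fun e => DD ψ ψ' e with hDi
  have hE'E : ∀ e ∈ E', e ∈ E := fun e he => (Finset.mem_filter.1 he).1
  have hDpos : ∀ e ∈ E', 0 < Di e := by
    intro e he
    have hm := Finset.mem_product.1 (hE (hE'E e he))
    exact DD_pos (hW _ hm.2).1 (hV _ hm.1).2
  set ix : ℕ × ℕ → ℕ := fun e => Nat.log 2 ⌊1/(T * Di e)⌋₊ with hix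
  have hixp : ∀ e ∈ E', 1 / (2 * (2^(ix e) * T)) < Di e ∧ Di e ≤ 1 / (2^(ix e) * T) := by
    intro e he
    have h0 := hDpos e he
    have h1 : 1 ≤ 1/(T * Di e) := by
      rw [le_div_iff₀ (by positivity), one_mul]
      have := hD e (hE'E e he)
      rw [le_div_iff₀ hTp] at this
      simp only [hDi]; linarith
    have hfl : 1 ≤ ⌊1/(T * Di e)⌋₊ := Nat.le_floor (by simpa using h1)
    have h2 : 2^(ix e) ≤ ⌊1/(T * Di e)⌋₊ := Nat.pow_log_le_self 2 (by omega)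
    have h3 : ⌊1/(T * Di e)⌋₊ < 2^(ix e + 1) := Nat.lt_pow_succ_log_self (by norm_num) _
    have h2' : (2:ℝ)^(ix e) ≤ 1/(T * Di e) := by
      calc (2:ℝ)^(ix e) ≤ (⌊1/(T * Di e)⌋₊ : ℝ) := by exact_mod_cast h2
        _ ≤ _ := Nat.floor_le (by positivity)
    have h3' : 1/(T * Di e) < (2:ℝ)^(ix e + 1) := by
      have := Nat.lt_of_floor_lt h3
      push_cast at this; exact this
    have hp : (0:ℝ) < 2^(ix e) := by positivity
    rw [le_div_iff₀ (by positivity)] at h2'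
    rw [div_lt_iff₀ (by positivity), pow_succ] at h3'
    constructor
    · rw [div_lt_iff₀ (by positivity)]; nlinarith
    · rw [le_div_iff₀ (by positivity)]; nlinarith
  set J : ℕ := E'.sup ix + 1 with hJ
  have hmaps : ∀ e ∈ E', ix e ∈ range J := by
    intro e he
    rw [Finset.mem_range]
    have : ix e ≤ E'.sup ix := Finset.le_sup (f := ix) he
    omega
  have hscale : ∀ j ∈ range J, ∑ e ∈ E'.filter (fun e => ix e = j), T1 e
      ≤ 2 * C * K * T^(-(1/1000):ℝ) * M^(1/2+eps1) * ρ^j := by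
    intro j _
    set t : ℝ := 2^j * T with ht
    have h2j : (1:ℝ) ≤ 2^j := one_le_pow₀ (by norm_num)
    have htT : T ≤ t := by rw [ht]; nlinarith
    have ht0 : 0 < t := by linarith
    have hXt : X ≤ Real.exp (t^c1) :=
      hX.trans (Real.exp_le_exp.2 (Real.rpow_le_rpow hTp.le htT hc1.le))
    set F := E'.filter (fun e => ix e = j) with hF
    have hFE : ∀ e ∈ F, e ∈ E' := fun e he => (Finset.mem_filter.1 he).1
    have hFD : ∀ e ∈ F, 1/(2*t) < DD ψ ψ' e ∧ DD ψ ψ' e ≤ 1/t := by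
      intro e he
      have h := hixp e (hFE e he)
      rw [(Finset.mem_filter.1 he).2] at h
      exact h
    have h5 := hT0 θ θ' t V W F ψ ψ' G (hT01.trans htT)
      { hδ := by positivity
        hV := fun v hv => (hV v hv).1
        hW := fun v hv => (hW v hv).1
        hψ := fun v hv => (hV v hv).2.le
        hθ := fun v hv => (hW v hv).2.le
        hE := fun e he => hE (hE'E e (hFE e he))
        h1 := fun e he => (le_max_right _ _).trans (hFD e he).2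
        h2 := fun e he => (le_max_left _ _).trans (hFD e he).2 } hG
      (fun z hz => hVt z (hXt.trans hz)) (fun z hz => hWt z (hXt.trans hz))
      (fun e he => hgen e (hE'E e (hFE e he)) t htT (hFD e he).1 (hFD e he).2
        (Finset.mem_filter.1 (hFE e he)).2)
    have h6 : ∑ e ∈ F, T1 e ≤ K * (2*t) * ∑ e ∈ F, ew ψ ψ' e := by
      rw [Finset.mul_sum]
      apply Finset.sum_le_sum
      intro e he
      have hm := Finset.mem_product.1 (hE (hE'E e (hFE e he)))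
      have hew : 0 ≤ ew ψ ψ' e := ew_nonneg (hV _ hm.1).2.le (hW _ hm.2).2.le
      have hDe := hDpos e (hFE e he)
      refine (hT1 e (hE'E e (hFE e he))).trans ?_
      rw [mul_assoc]
      apply mul_le_mul_of_nonneg_left _ hK
      rw [div_le_iff₀ hDe]
      have h7 : 1 ≤ 2 * t * Di e := by
        have := (hFD e he).1
        rw [div_lt_iff₀ (by positivity)] at this
        simp only [hDi]; linarith
      nlinarith
    have h8 : ∑ e ∈ F, ew ψ ψ' e ≤ C * t^(-(1001/1000):ℝ) * M^(1/2+eps1) := h5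
    have e1 : t^(-(1/1000):ℝ) = T^(-(1/1000):ℝ) * ρ^j := by
      rw [ht, Real.mul_rpow (by positivity) hTp.le, hρ, ← Real.rpow_natCast, ← Real.rpow_natCast,
        ← Real.rpow_mul (by norm_num), ← Real.rpow_mul (by norm_num), mul_comm (j:ℝ)]
      ring
    have e2 : t * t^(-(1001/1000):ℝ) = t^(-(1/1000):ℝ) := by
      nth_rw 1 [← Real.rpow_one t]
      rw [← Real.rpow_add ht0]; norm_num
    calc ∑ e ∈ F, T1 e ≤ K * (2*t) * (C * t^(-(1001/1000):ℝ) * M^(1/2+eps1)) :=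
          h6.trans (mul_le_mul_of_nonneg_left h8 (by positivity))
      _ = 2 * C * K * (t * t^(-(1001/1000):ℝ)) * M^(1/2+eps1) := by ring
      _ = _ := by rw [e2, e1]; ring
  rw [← Finset.sum_fiberwise_of_maps_to hmaps]
  refine (Finset.sum_le_sum hscale).trans ?_
  rw [← Finset.mul_sum]
  have hgeo : ∑ j ∈ range J, ρ^j ≤ Cg := by
    rw [geom_sum_eq (by linarith), hCg]
    have h1 : 0 ≤ ρ^J := by positivity
    rw [show (ρ^J - 1)/(ρ - 1) = (1 - ρ^J)/(1-ρ) by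
      rw [← neg_div_neg_eq]; congr 1 <;> ring]
    apply div_le_div_of_nonneg_right _ (by linarith)
    linarith
  calc 2 * C * K * T^(-(1/1000):ℝ) * M^(1/2+eps1) * ∑ j ∈ range J, ρ^j
      ≤ 2 * C * K * T^(-(1/1000):ℝ) * M^(1/2+eps1) * Cg :=
        mul_le_mul_of_nonneg_left hgeo (by positivity)
    _ = _ := by ring


end Crest.Agent.R4.ClsT2
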