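import Crest.Agent.R4.GSt927

/-!
# R4 (S0004), module G, helper927: history states with 579's item form

* `JS` : the fields of 579's `IS` (without the node facts) and squarefree moduli;
* `HJ.next` : `HI` and `JS` (same nodes) are preserved by the steps; `HJ.self`, `HJ.is`.
-/

set_option autoImplicit false
set_option linter.unusedSectionVars false
set_option linter.unusedVariables false
set_option linter.unusedSimpArgs false

namespace Crest.Agent.R4.GStJ927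

open Crest.Agent.R4.Tour104 Crest.Agent.R4.Tour758 Crest.Agent.R4.Avg758 Crest.Agent.R4.Clos758
open Crest.Agent.R4.ClosL758 Crest.Agent.R4.ClosG758 Crest.Agent.R4.ClosR758
open Crest.Agent.R4.Cnt588 Crest.Agent.R4.Walk560 Crest.Agent.R4.Item758 Crest.Agent.R4.AvgItem710
open Crest.Agent.R4.Bld532 (NS All NodeOk Bk)
open Crest.Agent.R4.Res927 Crest.Agent.R4.GInst194 Crest.Agent.R4.WalkIT579 Crest.Agent.R4.GSt927
open Crest.Agent.R4

variable {Λ κ : Type*} [Fintype Λ] [DecidableEq Λ] [Fintype κ] [DecidableEq κ] [WRel κ]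
  {D : Par Λ κ} {sp : ℕ → Finset Λ} {P : Bld532.Par} {W : ℕ → ℝ} {Qp : NS → IT → Prop}
  {U : ℕ → Finset ℕ}

/-- fields of `IS` without the node facts, squarefree moduli -/
structure JS (D : Par Λ κ) (U : ℕ → Finset ℕ) (s : St Λ κ) (u u' : NS) (τ τ' : IT) : Prop where
  circ : u.A * u.B * s.M = u'.A * u'.B * s.M'
  geM : ∀ l : ℕ, l.Prime → l ∣ s.M → u.n ≤ l
  geM' : ∀ l : ℕ, l.Prime → l ∣ s.M' → u.n ≤ l
  sq : Squarefree s.M
  sq' : Squarefree s.M'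
  G : ∃ SP : Finset ℕ, Cnd u.n SP s.M s.M' ∧ GS D U u.n u.A τ.items s.M s.A SP ∧
    GS D U u'.n u'.A τ'.items s.M' s.A' SP

/-- 579's item form -/
lemma HJ.is {B₀ B₀' : ℕ} {x : XSt Λ κ} {u u' : NS} {τ τ' : IT}
    (hQ : ∀ u τ, Qp u τ → NQ P W U u τ) (h : HI D sp Qp B₀ B₀' x u u' τ τ')
    (hj : JS D U x.s u u' τ τ') : IS D sp P W U x.s u u' τ τ' where
  n_eq := h.nL.trans h.nR.symm
  tL := h.L.eq
  tR := h.R.eq
  qL := h.qL.mono hQ
  qR := h.qR.mono hQ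
  circ := hj.circ
  geM := hj.geM
  geM' := hj.geM'
  G := hj.G

lemma sq_mul {n p M : ℕ} (h : Squarefree M) (hM : ∀ l : ℕ, l.Prime → l ∣ M → n ≤ l) (hp : p < n)
    (hpp : p.Prime) : Squarefree (p * M) := by
  rw [Nat.squarefree_mul ((Nat.Prime.coprime_iff_not_dvd hpp).2 fun hd =>
    absurd (hM p hpp hd) (not_le.2 hp))]
  exact ⟨hpp.prime.squarefree, h⟩

/-- the self states -/
lemma HJ.self {u : NS} {τ : IT} {A : Finset Λ} (hq : All (NQ P W U) u τ) (hG : NG U u τ) :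
    JS D U (selfSt (D.toDT sp u.B u.A τ) A) u u τ τ := by
  have h := IS_self (D := D) (sp := sp) hq hG A
  exact ⟨h.circ, h.geM, h.geM', squarefree_one, squarefree_one, h.G⟩

set_option maxHeartbeats 4000000 in
/-- **item form with history is preserved by the steps** -/
theorem HJ.next (hsp : D.SpOk sp) (hil : ∀ b, IL D.it (sp b)) (hspd : ∀ b, ∀ j ∈ sp b, b ∣ D.it j)
    (hQ : ∀ u τ, Qp u τ → NQ P W U u τ) {stp : St Λ κ → Prop} {dv : ℕ → Λ → Prop}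
    {B₀ B₀' : ℕ} {x : XSt Λ κ} (hx : XI x.n x) {u u' : NS} {τ τ' : IT}
    (h : HI D sp Qp B₀ B₀' x u u' τ τ') (hj : JS D U x.s u u' τ τ') :
    ∀ e ∈ steps stp dv x, ∃ v v' σ σ', HI D sp Qp B₀ B₀' e.y v v' σ σ' ∧
      JS D U e.y.s v v' σ σ' := by
  intro e he
  by_cases h1 : x.s.t.isLeaf ∨ x.s.t'.isLeaf
  · simp [steps, h1] at he
  by_cases h2 : stp x.s
  · simp [steps, h1, h2] at he
  have hl : ¬ x.s.t.isLeaf := fun h => h1 (Or.inl h)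
  have hl' : ¬ x.s.t'.isLeaf := fun h => h1 (Or.inr h)
  obtain ⟨e1, e2, hpp, hpn⟩ := h.tops (fun u τ hq => (hQ u τ hq).1) hl hl'
  have hu : x.s.p ∉ x.u := fun hm => absurd (hx.u _ hm) (not_le.2 hpn)
  have hu' : x.s.p ∉ x.u' := fun hm => absurd (hx.u' _ hm) (not_le.2 hpn)
  have n1 := hQ _ _ h.qL.self
  have n2 := hQ _ _ h.qR.self
  have hpL : x.s.p < u.n := h.nL ▸ hpn
  have hpR : x.s.p < u'.n := h.nR ▸ hpn
  obtain ⟨circ, geM, geM', sq, sq', SP, hc, gL, gR⟩ := hj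
  have cp : u.A * u.B * x.s.M * x.s.p = u'.A * u'.B * x.s.M' * x.s.p := by rw [circ]
  have hge : ∀ l : ℕ, l.Prime → l ∣ x.s.M → x.s.p ≤ l := fun l hl h => hpL.le.trans (geM l hl h)
  have hge' : ∀ l : ℕ, l.Prime → l ∣ x.s.M' → x.s.p ≤ l := fun l hl h =>
    hpL.le.trans (geM' l hl h)
  have hgm := geM_mul geM hpL hpp
  have hgm' := geM_mul geM' hpL hpp
  have sqm := sq_mul sq geM hpL hpp
  have sqm' := sq_mul sq' geM' hpL hpp
  have hcd := hc.down hpL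
  have hcL := hc.mulL hpL hpp
  have hcR := hc.mulR hpL hpp
  have hcI := hc.ins hpL hpp geM geM'
  have cL : ∀ l ∈ SP, l.Prime ∧ u.n ≤ l := fun l hl => ⟨(hc l hl).1, (hc l hl).2.1⟩
  have cR : ∀ l ∈ SP, l.Prime ∧ u'.n ≤ l := fun l hl =>
    ⟨(hc l hl).1, (h.nR.trans h.nL.symm) ▸ (hc l hl).2.1⟩
  rcases hv : vw x.s.p x.s.t with ⟨w, r, t₁, t₀, v, B₁, G⟩ | ⟨r, t₁, t₀⟩ | ⟨Sp, d⟩ <;>
  rcases hv' : vw x.s.p x.s.t' with ⟨w', r', t₁', t₀', v', B', G'⟩ | ⟨r', t₁', t₀'⟩ | ⟨Sp', d'⟩ <;>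
  simp only [steps, h1, h2, hv, hv', if_false, List.mem_cons, List.not_mem_nil, or_false] at he
  · -- br, br
    obtain ⟨τ₁, τ₀, rfl, rfl, rfl, rfl, -, -⟩ := AvgItem710.toDT_br (h.L.eq.symm.trans (vw_br hv))
    obtain ⟨τ₁', τ₀', rfl, -, rfl, rfl, -, -⟩ := AvgItem710.toDT_br (h.R.eq.symm.trans (vw_br hv'))
    have d1 := NodeOk.br_dvd n1.1 h.L.hF
    have d1' := NodeOk.br_dvd n2.1 h.R.hF
    have mL1 := h.mL.pres Finset.subset_union_left hpn hpp d1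
    have mL0 := h.mL.sub (Finset.subset_union_right : τ₀.items ⊆ _) hpn
    have mR1 := h.mR.pres Finset.subset_union_left hpn hpp d1'
    have mR0 := h.mR.sub (Finset.subset_union_right : τ₀'.items ⊆ _) hpn
    have g1 := gL.present n1 cL
    have g0 := gL.missing n1
    have g1' := gR.present n2 cR
    have g0' := gR.missing n2
    rcases he with rfl | rfl | rfl | rfl
    · refine ⟨nP u x.s.p, nP u' x.s.p, τ₁, τ₁', ⟨h.L.br₁, h.R.br₁, rfl, rfl, h.qL.2.1, h.qR.2.1,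
        h.bL, h.bR, h.ilL, h.ilR, mL1, mR1⟩, ?_, hge, hge', sq, sq', SP, hcd, g1, g1'⟩
      change u.A * x.s.p * u.B * x.s.M = u'.A * x.s.p * u'.B * x.s.M'
      linarith [cp]
    · refine ⟨nP u x.s.p, nM u' x.s.p, τ₁, τ₀', ⟨h.L.br₁, h.R.br₀, rfl, rfl, h.qL.2.1, h.qR.2.2,
        h.bL, prod_ins h.bR hu', h.ilL, h.ilR, mL1, mR0⟩, ?_, hge, hge', sq, sq', SP, hcd, g1, g0'⟩
      change u.A * x.s.p * u.B * x.s.M = u'.A * (u'.B * x.s.p) * x.s.M'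
      linarith [cp]
    · refine ⟨nM u x.s.p, nP u' x.s.p, τ₀, τ₁', ⟨h.L.br₀, h.R.br₁, rfl, rfl, h.qL.2.2, h.qR.2.1,
        prod_ins h.bL hu, h.bR, h.ilL, h.ilR, mL0, mR1⟩, ?_, hge, hge', sq, sq', SP, hcd, g0, g1'⟩
      change u.A * (u.B * x.s.p) * x.s.M = u'.A * x.s.p * u'.B * x.s.M'
      linarith [cp]
    · refine ⟨nM u x.s.p, nM u' x.s.p, τ₀, τ₀', ⟨h.L.br₀, h.R.br₀, rfl, rfl, h.qL.2.2, h.qR.2.2,
        prod_ins h.bL hu, prod_ins h.bR hu', h.ilL, h.ilR, mL0, mR0⟩, ?_, hge, hge', sq, sq', SP,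
        hcd, g0, g0'⟩
      change u.A * (u.B * x.s.p) * x.s.M = u'.A * (u'.B * x.s.p) * x.s.M'
      linarith [cp]
  · -- br, add
    obtain ⟨τ₁, τ₀, rfl, rfl, rfl, rfl, -, -⟩ := AvgItem710.toDT_br (h.L.eq.symm.trans (vw_br hv))
    obtain ⟨τ₁', τ₀', rfl, -, rfl, rfl⟩ := AvgItem710.toDT_add (h.R.eq.symm.trans (vw_add hv'))
    have d1 := NodeOk.br_dvd n1.1 h.L.hF
    have mL1 := h.mL.pres Finset.subset_union_left hpn hpp d1
    have mL0 := h.mL.sub (Finset.subset_union_right : τ₀.items ⊆ _) hpn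
    have mR1 := h.mR.sep Finset.subset_union_left hpn hpp (NodeOk.add_dvd n2.1)
    have g1 := gL.present n1 cL
    have g0 := gL.missing n1
    have g1' := gR.add1M n2
    rcases he with rfl | rfl
    · refine ⟨nP u x.s.p, nS u' x.s.p, τ₁, τ₁', ⟨h.L.br₁, h.R.add₁, rfl, rfl, h.qL.2.1, h.qR.2.1,
        h.bL, h.bR, h.ilL, h.ilR, mL1, mR1⟩, ?_, hge, hgm', sq, sqm', SP, hcR, g1, g1'⟩
      change u.A * x.s.p * u.B * x.s.M = u'.A * u'.B * (x.s.p * x.s.M')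
      linarith [cp]
    · refine ⟨nM u x.s.p, nS u' x.s.p, τ₀, τ₁', ⟨h.L.br₀, h.R.add₁, rfl, rfl, h.qL.2.2, h.qR.2.1,
        prod_ins h.bL hu, h.bR, h.ilL, h.ilR, mL0, mR1⟩, ?_, hge, hgm', sq, sqm', SP, hcR, g0, g1'⟩
      change u.A * (u.B * x.s.p) * x.s.M = u'.A * u'.B * (x.s.p * x.s.M')
      linarith [cp]
  · -- br, up
    obtain ⟨τ₁, τ₀, rfl, rfl, rfl, rfl, -, -⟩ := AvgItem710.toDT_br (h.L.eq.symm.trans (vw_br hv))
    obtain ⟨S', σ', rfl, rfl, rfl⟩ := side_up h.R hl' e2 hv'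
    have d1 := NodeOk.br_dvd n1.1 h.L.hF
    have mL1 := h.mL.pres Finset.subset_union_left hpn hpp d1
    have mL0 := h.mL.sub (Finset.subset_union_right : τ₀.items ⊆ _) hpn
    have mR1 := h.mR.up (Finset.Subset.refl _ : σ'.items ⊆ _) hpn hpp
    have g1 := gL.present n1 cL
    have g0 := gL.missing n1
    have g1' := (gR.up n2).monoM (Dvd.intro_left x.s.p rfl)
    rcases he with rfl | rfl
    · refine ⟨nP u x.s.p, nS u' x.s.p, τ₁, σ', ⟨h.L.br₁, h.R.up, rfl, rfl, h.qL.2.1, h.qR.2,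
        h.bL, h.bR, h.ilL, h.ilR, mL1, mR1⟩, ?_, hge, hgm', sq, sqm', SP, hcR, g1, g1'⟩
      change u.A * x.s.p * u.B * x.s.M = u'.A * u'.B * (x.s.p * x.s.M')
      linarith [cp]
    · refine ⟨nM u x.s.p, nS u' x.s.p, τ₀, σ', ⟨h.L.br₀, h.R.up, rfl, rfl, h.qL.2.2, h.qR.2,
        prod_ins h.bL hu, h.bR, h.ilL, h.ilR, mL0, mR1⟩, ?_, hge, hgm', sq, sqm', SP, hcR, g0, g1'⟩
      change u.A * (u.B * x.s.p) * x.s.M = u'.A * u'.B * (x.s.p * x.s.M')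
      linarith [cp]
  · -- add, br
    obtain ⟨τ₁, τ₀, rfl, -, rfl, rfl⟩ := AvgItem710.toDT_add (h.L.eq.symm.trans (vw_add hv))
    obtain ⟨τ₁', τ₀', rfl, -, rfl, rfl, -, -⟩ := AvgItem710.toDT_br (h.R.eq.symm.trans (vw_br hv'))
    have d1' := NodeOk.br_dvd n2.1 h.R.hF
    have mR1 := h.mR.pres Finset.subset_union_left hpn hpp d1'
    have mR0 := h.mR.sub (Finset.subset_union_right : τ₀'.items ⊆ _) hpn
    have mL1 := h.mL.sep Finset.subset_union_left hpn hpp (NodeOk.add_dvd n1.1)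
    have g1 := gL.add1M n1
    have g1' := gR.present n2 cR
    have g0' := gR.missing n2
    rcases he with rfl | rfl
    · refine ⟨nS u x.s.p, nP u' x.s.p, τ₁, τ₁', ⟨h.L.add₁, h.R.br₁, rfl, rfl, h.qL.2.1, h.qR.2.1,
        h.bL, h.bR, h.ilL, h.ilR, mL1, mR1⟩, ?_, hgm, hge', sqm, sq', SP, hcL, g1, g1'⟩
      change u.A * u.B * (x.s.p * x.s.M) = u'.A * x.s.p * u'.B * x.s.M'
      linarith [cp]
    · refine ⟨nS u x.s.p, nM u' x.s.p, τ₁, τ₀', ⟨h.L.add₁, h.R.br₀, rfl, rfl, h.qL.2.1, h.qR.2.2,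
        h.bL, prod_ins h.bR hu', h.ilL, h.ilR, mL1, mR0⟩, ?_, hgm, hge', sqm, sq', SP, hcL, g1, g0'⟩
      change u.A * u.B * (x.s.p * x.s.M) = u'.A * (u'.B * x.s.p) * x.s.M'
      linarith [cp]
  · -- add, add
    obtain ⟨τ₁, τ₀, rfl, -, rfl, rfl⟩ := AvgItem710.toDT_add (h.L.eq.symm.trans (vw_add hv))
    obtain ⟨τ₁', τ₀', rfl, -, rfl, rfl⟩ := AvgItem710.toDT_add (h.R.eq.symm.trans (vw_add hv'))
    rcases he with rfl | rfl
    · exact ⟨nS u x.s.p, nS u' x.s.p, τ₁, τ₁', ⟨h.L.add₁, h.R.add₁, rfl, rfl, h.qL.2.1, h.qR.2.1,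
        h.bL, h.bR, h.ilL, h.ilR, h.mL.sub Finset.subset_union_left hpn,
        h.mR.sub Finset.subset_union_left hpn⟩, circ, hge, hge', sq, sq', insert x.s.p SP,
        hcI, gL.add1 n1, gR.add1 n2⟩
    · exact ⟨nS u x.s.p, nS u' x.s.p, τ₀, τ₀', ⟨h.L.add₀, h.R.add₀, rfl, rfl, h.qL.2.2, h.qR.2.2,
        h.bL, h.bR, h.ilL, h.ilR, h.mL.sub Finset.subset_union_right hpn,
        h.mR.sub Finset.subset_union_right hpn⟩, circ, hge, hge', sq, sq', SP,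
        hcd, gL.add0 n1, gR.add0 n2⟩
  · -- add, up
    obtain ⟨τ₁, τ₀, rfl, -, rfl, rfl⟩ := AvgItem710.toDT_add (h.L.eq.symm.trans (vw_add hv))
    obtain ⟨S', σ', rfl, rfl, rfl⟩ := side_up h.R hl' e2 hv'
    rcases he with rfl | rfl
    · exact ⟨nS u x.s.p, nS u' x.s.p, τ₁, σ', ⟨h.L.add₁, (h.R.spl hsp).1, rfl, rfl, h.qL.2.1,
        h.qR.2, h.bL, h.bR, h.ilL, IL_inter h.ilR (hil _), h.mL.sub Finset.subset_union_left hpn,
        h.mR.sub (Finset.Subset.refl _) hpn⟩, circ, hge, hge', sq, sq', insert x.s.p SP,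
        hcI, gL.add1 n1, gR.upI n2 (hspd x.s.p)⟩
    · exact ⟨nS u x.s.p, nS u' x.s.p, τ₀, σ', ⟨h.L.add₀, (h.R.spl hsp).2, rfl, rfl, h.qL.2.2,
        h.qR.2, h.bL, h.bR, h.ilL, IL_sdiff h.ilR (hil _), h.mL.sub Finset.subset_union_right hpn,
        h.mR.sub (Finset.Subset.refl _) hpn⟩, circ, hge, hge', sq, sq', SP,
        hcd, gL.add0 n1, (gR.up n2).monoA Finset.sdiff_subset⟩
  · -- up, br
    obtain ⟨τ₁', τ₀', rfl, -, rfl, rfl, -, -⟩ := AvgItem710.toDT_br (h.R.eq.symm.trans (vw_br hv'))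
    obtain ⟨S, σ, rfl, rfl, rfl⟩ := side_up h.L hl e1 hv
    have d1' := NodeOk.br_dvd n2.1 h.R.hF
    have mR1 := h.mR.pres Finset.subset_union_left hpn hpp d1'
    have mR0 := h.mR.sub (Finset.subset_union_right : τ₀'.items ⊆ _) hpn
    have mL1 := h.mL.up (Finset.Subset.refl _ : σ.items ⊆ _) hpn hpp
    have g1 := (gL.up n1).monoM (Dvd.intro_left x.s.p rfl)
    have g1' := gR.present n2 cR
    have g0' := gR.missing n2
    rcases he with rfl | rfl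
    · refine ⟨nS u x.s.p, nP u' x.s.p, σ, τ₁', ⟨h.L.up, h.R.br₁, rfl, rfl, h.qL.2, h.qR.2.1,
        h.bL, h.bR, h.ilL, h.ilR, mL1, mR1⟩, ?_, hgm, hge', sqm, sq', SP, hcL, g1, g1'⟩
      change u.A * u.B * (x.s.p * x.s.M) = u'.A * x.s.p * u'.B * x.s.M'
      linarith [cp]
    · refine ⟨nS u x.s.p, nM u' x.s.p, σ, τ₀', ⟨h.L.up, h.R.br₀, rfl, rfl, h.qL.2, h.qR.2.2,
        h.bL, prod_ins h.bR hu', h.ilL, h.ilR, mL1, mR0⟩, ?_, hgm, hge', sqm, sq', SP, hcL, g1, g0'⟩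
      change u.A * u.B * (x.s.p * x.s.M) = u'.A * (u'.B * x.s.p) * x.s.M'
      linarith [cp]
  · -- up, add
    obtain ⟨τ₁', τ₀', rfl, -, rfl, rfl⟩ := AvgItem710.toDT_add (h.R.eq.symm.trans (vw_add hv'))
    obtain ⟨S, σ, rfl, rfl, rfl⟩ := side_up h.L hl e1 hv
    rcases he with rfl | rfl
    · exact ⟨nS u x.s.p, nS u' x.s.p, σ, τ₁', ⟨(h.L.spl hsp).1, h.R.add₁, rfl, rfl, h.qL.2,
        h.qR.2.1, h.bL, h.bR, IL_inter h.ilL (hil _), h.ilR, h.mL.sub (Finset.Subset.refl _) hpn,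
        h.mR.sub Finset.subset_union_left hpn⟩, circ, hge, hge', sq, sq', insert x.s.p SP,
        hcI, gL.upI n1 (hspd x.s.p), gR.add1 n2⟩
    · exact ⟨nS u x.s.p, nS u' x.s.p, σ, τ₀', ⟨(h.L.spl hsp).2, h.R.add₀, rfl, rfl, h.qL.2,
        h.qR.2.2, h.bL, h.bR, IL_sdiff h.ilL (hil _), h.ilR, h.mL.sub (Finset.Subset.refl _) hpn,
        h.mR.sub Finset.subset_union_right hpn⟩, circ, hge, hge', sq, sq', SP,
        hcd, (gL.up n1).monoA Finset.sdiff_subset, gR.add0 n2⟩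
  · -- up, up
    obtain ⟨S, σ, rfl, rfl, rfl⟩ := side_up h.L hl e1 hv
    obtain ⟨S', σ', rfl, rfl, rfl⟩ := side_up h.R hl' e2 hv'
    subst he
    exact ⟨nS u x.s.p, nS u' x.s.p, σ, σ', ⟨h.L.up, h.R.up, rfl, rfl, h.qL.2,
      h.qR.2, h.bL, h.bR, h.ilL, h.ilR, h.mL.sub (Finset.Subset.refl _) hpn,
      h.mR.sub (Finset.Subset.refl _) hpn⟩, circ, hge, hge', sq, sq', SP, hcd, gL.up n1, gR.up n2⟩

end Crest.Agent.R4.GStJ927
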