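import Mathlib
import Crest.Agent.R4.LF8a153

/-!
R4 (S0004), helper734: Theorem X' (multi-scale HVW inequality for rough integers), one-prime
inequality.  `ff ε δ x y = min (x y^{2ε}) (x^{2ε} y) + δ (x y)^{1/2+ε}`.
-/

set_option autoImplicit false
open Finset

namespace Crest.Agent.R4.X734
open Crest.Agent.R4.HVW560 Crest.Agent.R4.LF8

noncomputable def f0 (ε x y : ℝ) : ℝ := min (x * y^(2*ε)) (x^(2*ε) * y)
noncomputable def fs (ε x y : ℝ) : ℝ := (x*y)^(1/2+ε)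
noncomputable def ff (ε δ x y : ℝ) : ℝ := f0 ε x y + δ * fs ε x y

variable {ε δ : ℝ}

lemma f0_nonneg {x y : ℝ} (hx : 0 ≤ x) (hy : 0 ≤ y) : 0 ≤ f0 ε x y :=
  le_min (by positivity) (by positivity)

lemma fs_nonneg {x y : ℝ} (hx : 0 ≤ x) (hy : 0 ≤ y) : 0 ≤ fs ε x y := by
  unfold fs; positivity

lemma ff_nonneg (hδ : 0 ≤ δ) {x y : ℝ} (hx : 0 ≤ x) (hy : 0 ≤ y) : 0 ≤ ff ε δ x y :=
  add_nonneg (f0_nonneg hx hy) (mul_nonneg hδ (fs_nonneg hx hy))

lemma f0_le_fs (hε : 0 < ε) {x y : ℝ} (hx : 0 ≤ x) (hy : 0 ≤ y) : f0 ε x y ≤ fs ε x y := by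
  have h1 : f0 ε x y ^ 2 ≤ fs ε x y ^ 2 := by
    have ha : f0 ε x y ≤ x * y^(2*ε) := min_le_left _ _
    have hb : f0 ε x y ≤ x^(2*ε) * y := min_le_right _ _
    have h0 := f0_nonneg (ε := ε) hx hy
    have e : fs ε x y ^ 2 = (x * y^(2*ε)) * (x^(2*ε) * y) := by
      unfold fs
      rw [← Real.rpow_natCast, ← Real.rpow_mul (mul_nonneg hx hy)]
      have : (1/2+ε) * ((2:ℕ):ℝ) = 1 + 2*ε := by push_cast; ring
      rw [this, Real.mul_rpow hx hy, Real.rpow_add' hx (by linarith), Real.rpow_add' hy (by linarith),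
        Real.rpow_one, Real.rpow_one]
      ring
    rw [e, sq]
    exact mul_le_mul ha hb h0 (by positivity)
  exact (pow_le_pow_iff_left₀ (f0_nonneg hx hy) (fs_nonneg hx hy) (by norm_num)).1 h1

lemma ff_le (hε : 0 < ε) (hδ1 : δ ≤ 1) {x y : ℝ} (hx : 0 ≤ x) (hy : 0 ≤ y) :
    ff ε δ x y ≤ 2 * fs ε x y := by
  have h1 := f0_le_fs hε hx hy
  have h2 := fs_nonneg (ε := ε) hx hy
  unfold ff
  nlinarith

lemma f0_mono (hε : 0 < ε) {x y x' y' : ℝ} (hx : 0 ≤ x) (hy : 0 ≤ y) (hxx : x ≤ x') (hyy : y ≤ y') :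
    f0 ε x y ≤ f0 ε x' y' := by
  unfold f0
  apply min_le_min
  · exact mul_le_mul hxx (Real.rpow_le_rpow hy hyy (by linarith)) (by positivity) (hx.trans hxx)
  · exact mul_le_mul (Real.rpow_le_rpow hx hxx (by linarith)) hyy hy
      (Real.rpow_nonneg (hx.trans hxx) _)

lemma fs_mono (hε : 0 < ε) {x y x' y' : ℝ} (hx : 0 ≤ x) (hy : 0 ≤ y) (hxx : x ≤ x') (hyy : y ≤ y') :
    fs ε x y ≤ fs ε x' y' := by
  unfold fs
  exact Real.rpow_le_rpow (mul_nonneg hx hy) (mul_le_mul hxx hyy hy (hx.trans hxx)) (by linarith)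

lemma ff_mono (hε : 0 < ε) (hδ : 0 ≤ δ) {x y x' y' : ℝ} (hx : 0 ≤ x) (hy : 0 ≤ y) (hxx : x ≤ x')
    (hyy : y ≤ y') : ff ε δ x y ≤ ff ε δ x' y' :=
  add_le_add (f0_mono hε hx hy hxx hyy) (mul_le_mul_of_nonneg_left (fs_mono hε hx hy hxx hyy) hδ)

lemma fs_mul (x y : ℝ) {M N : ℝ} (hx : 0 ≤ x) (hy : 0 ≤ y) (hM : 0 ≤ M) (hN : 0 ≤ N) :
    fs ε (x*M) (y*N) = (x*y)^(1/2+ε) * fs ε M N := by
  unfold fs
  rw [← Real.mul_rpow (mul_nonneg hx hy) (mul_nonneg hM hN)]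
  congr 1; ring

/-- homogeneity -/
lemma ff_hom {c x y : ℝ} (hc : 0 < c) (hx : 0 ≤ x) (hy : 0 ≤ y) :
    ff ε δ (c*x) (c*y) = c^(1+2*ε) * ff ε δ x y := by
  have e1 : f0 ε (c*x) (c*y) = c^(1+2*ε) * f0 ε x y := by
    unfold f0
    rw [mul_min_of_nonneg _ _ (by positivity : (0:ℝ) ≤ c^(1+2*ε)), Real.mul_rpow hc.le hx,
      Real.mul_rpow hc.le hy, Real.rpow_add hc, Real.rpow_one]
    congr 1 <;> ring
  have e2 : fs ε (c*x) (c*y) = c^(1+2*ε) * fs ε x y := by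
    rw [fs_mul c c hc.le hc.le hx hy]
    congr 1
    rw [← sq, ← Real.rpow_natCast, ← Real.rpow_mul hc.le]
    congr 1; push_cast; ring
  unfold ff
  rw [e1, e2]; ring

/-- the active product type -/
lemma types {M N : ℝ} (hM : 0 ≤ M) (hN : 0 ≤ N) :
    ∃ α β : ℝ, ((α = 1 ∧ β = 2*ε) ∨ (α = 2*ε ∧ β = 1)) ∧
      ∀ x y : ℝ, 0 ≤ x → 0 ≤ y → f0 ε (x*M) (y*N) ≤ x^α * y^β * f0 ε M N := by
  rcases le_total (M * N^(2*ε)) (M^(2*ε) * N) with h | h
  · refine ⟨1, 2*ε, Or.inl ⟨rfl, rfl⟩, fun x y hx hy => ?_⟩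
    have e : f0 ε M N = M * N^(2*ε) := min_eq_left h
    rw [e, Real.rpow_one]
    refine (min_le_left _ _).trans (le_of_eq ?_)
    rw [Real.mul_rpow hy hN]; ring
  · refine ⟨2*ε, 1, Or.inr ⟨rfl, rfl⟩, fun x y hx hy => ?_⟩
    have e : f0 ε M N = M^(2*ε) * N := min_eq_right h
    rw [e, Real.rpow_one]
    refine (min_le_right _ _).trans (le_of_eq ?_)
    rw [Real.mul_rpow hx hM]; ring

/-- Bernoulli -/
lemma rpow_le_lin {t α : ℝ} (ht : 0 ≤ t) (h0 : 0 ≤ α) (h1 : α ≤ 1) : t^α ≤ 1 + α * (t - 1) := by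
  have := _root_.rpow_one_add_le_one_add_mul_self (s := t - 1) (by linarith) h0 h1
  rwa [add_sub_cancel] at this

/-- `(P x)^α / P ≤ α x + (1-α)/P` -/
lemma amgm {P x α : ℝ} (hP : 0 < P) (hx : 0 ≤ x) (h0 : 0 ≤ α) (h1 : α ≤ 1) :
    (P * x)^α / P ≤ α * x + (1 - α) / P := by
  have h := rpow_le_lin (mul_nonneg hP.le hx) h0 h1
  rw [div_le_iff₀ hP]
  have e : (α * x + (1 - α) / P) * P = α * x * P + (1 - α) := by field_simp
  rw [e]; linarith

/-- the term of the exact piece `(k,l)` -/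
noncomputable def Tk (p : ℕ) (ε δ M N : ℝ) (a b : ℕ → ℝ) (k l : ℕ) : ℝ :=
  ff ε δ ((p:ℝ)^(l-k) * (a k * M)) ((p:ℝ)^(k-l) * (b l * N)) / (p:ℝ)^(dst k l)

lemma Tk_nonneg {p : ℕ} (hδ : 0 ≤ δ) {M N : ℝ} (hM : 0 ≤ M) (hN : 0 ≤ N) {a b : ℕ → ℝ}
    (ha : ∀ k, 0 ≤ a k) (hb : ∀ k, 0 ≤ b k) (k l : ℕ) : 0 ≤ Tk p ε δ M N a b k l := by
  unfold Tk
  have := ha k; have := hb l
  exact div_nonneg (ff_nonneg hδ (by positivity) (by positivity)) (by positivity)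

lemma pow_dst (p : ℕ) (k l : ℕ) (x y : ℝ) :
    ((p:ℝ)^(l-k) * x) * ((p:ℝ)^(k-l) * y) = (p:ℝ)^(dst k l) * (x*y) := by
  unfold dst; rw [pow_add]; ring

/-- generic bound of a piece -/
lemma Tk_le (hε : 0 < ε) (hδ1 : δ ≤ 1) {p : ℕ} (hp : 0 < p) {M N : ℝ} (hM : 0 ≤ M) (hN : 0 ≤ N)
    {a b : ℕ → ℝ} (ha : ∀ k, 0 ≤ a k) (hb : ∀ k, 0 ≤ b k) (k l : ℕ) :
    Tk p ε δ M N a b k l ≤
      2 * ((((p:ℝ)^(-(1/2-ε)))^(dst k l) * (a k * b l)^(1/2+ε)) * fs ε M N) := by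
  have hp0 : (0:ℝ) < p := by exact_mod_cast hp
  have hak := ha k; have hbl := hb l
  unfold Tk
  have hP : (0:ℝ) < (p:ℝ)^(dst k l) := by positivity
  rw [div_le_iff₀ hP]
  refine (ff_le hε hδ1 (by positivity) (by positivity)).trans (le_of_eq ?_)
  unfold fs
  rw [pow_dst, Real.mul_rpow hP.le (by positivity),
    show a k * M * (b l * N) = (a k * b l) * (M*N) by ring,
    Real.mul_rpow (mul_nonneg hak hbl) (mul_nonneg hM hN)]
  have e2 : ((p:ℝ)^(dst k l))^(1/2+ε) = (p:ℝ)^(dst k l) * ((p:ℝ)^(-(1/2-ε)))^(dst k l) := by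
    rw [← Real.rpow_natCast, ← Real.rpow_natCast, ← Real.rpow_mul hp0.le, ← Real.rpow_mul hp0.le,
      ← Real.rpow_add hp0]
    congr 1; ring
  rw [e2]; ring

/-- the type inequality in the concentrated case -/
lemma type_ineq {p : ℝ} (hp : 2 ≤ p) {α β u u' : ℝ} (hε : 0 < ε) (hε1 : 2*ε ≤ 1)
    (hα0 : 0 ≤ α) (hα1 : α ≤ 1) (hβ0 : 0 ≤ β) (hβ1 : β ≤ 1) (hαβ : α + β = 1 + 2*ε)
    (hu : 0 ≤ u) (hu1 : u ≤ 1) (hu' : 0 ≤ u') (hu1' : u' ≤ 1) :
    (1 - 1/p)^(1-2*ε) * ((1-u)^α * (1-u')^β) + (α * u + (1-α)/(p-1)) + (β * u' + (1-β)/(p-1))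
      ≤ 1 + u*u' + (u+u')/p + 2/p^2 := by
  have hp0 : (0:ℝ) < p := by linarith
  have h1p : (0:ℝ) ≤ 1 - 1/p := by
    rw [sub_nonneg, div_le_one hp0]; linarith
  have a1 : (1 - 1/p)^(1-2*ε) ≤ 1 - (1-2*ε)/p := by
    have := rpow_le_lin h1p (show 0 ≤ 1-2*ε by linarith) (by linarith)
    refine this.trans (le_of_eq ?_)
    field_simp; ring
  have a2 : (1-u)^α ≤ 1 - α*u := by
    have := rpow_le_lin (show 0 ≤ 1-u by linarith) hα0 hα1
    linarith
  have a3 : (1-u')^β ≤ 1 - β*u' := by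
    have := rpow_le_lin (show 0 ≤ 1-u' by linarith) hβ0 hβ1
    linarith
  have b1 : 0 ≤ (1 - 1/p)^(1-2*ε) := Real.rpow_nonneg h1p _
  have b2 : 0 ≤ (1-u)^α := Real.rpow_nonneg (by linarith) _
  have b3 : 0 ≤ (1-u')^β := Real.rpow_nonneg (by linarith) _
  have hαu : α * u ≤ 1 := by nlinarith
  have hβu : β * u' ≤ 1 := by nlinarith
  have c1 : (1-u)^α * (1-u')^β ≤ (1-α*u) * (1-β*u') :=
    mul_le_mul a2 a3 b3 (by linarith)
  have c0 : 0 ≤ (1-α*u) * (1-β*u') := mul_nonneg (by linarith) (by linarith)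
  have r0 : 0 ≤ 1 - (1-2*ε)/p := b1.trans a1
  have c2 : (1 - 1/p)^(1-2*ε) * ((1-u)^α * (1-u')^β) ≤
      (1 - (1-2*ε)/p) * ((1-α*u) * (1-β*u')) :=
    mul_le_mul a1 c1 (mul_nonneg b2 b3) r0
  have huu : 0 ≤ u*u' := mul_nonneg hu hu'
  have hαβ' : α * β ≤ 1 := by nlinarith
  have c3 : (1-α*u) * (1-β*u') ≤ 1 - α*u - β*u' + u*u' := by nlinarith
  have hr : 0 ≤ (1-2*ε)/p := div_nonneg (by linarith) hp0.le
  have hr1 : (1-2*ε)/p ≤ 1/p := div_le_div_of_nonneg_right (by linarith) hp0.le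
  have c4 : (1 - (1-2*ε)/p) * ((1-α*u) * (1-β*u')) ≤
      1 - α*u - β*u' + u*u' - (1-2*ε)/p + (u+u')/p := by
    have d1 : (1-2*ε)/p * (α*u+β*u') ≤ 1/p * (u+u') := by
      apply mul_le_mul hr1 _ (by positivity) (by positivity)
      nlinarith
    have d2 : (1-2*ε)/p * ((1-α*u) * (1-β*u')) ≥ (1-2*ε)/p * (1 - α*u - β*u') := by
      apply mul_le_mul_of_nonneg_left _ hr
      have : 0 ≤ α*β*(u*u') := by positivity
      nlinarith
    have d3 : (u+u')/p = 1/p*(u+u') := by ring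
    rw [d3]
    nlinarith
  have e1 : (1-α)/(p-1) + (1-β)/(p-1) = (1-2*ε)/(p-1) := by
    rw [← add_div]; congr 1; linarith
  have hp1 : 0 < p - 1 := by linarith
  have e2 : (1-2*ε)/(p-1) ≤ (1-2*ε)/p + 2/p^2 := by
    have : (1-2*ε)/(p-1) - (1-2*ε)/p = (1-2*ε)/(p*(p-1)) := by field_simp; ring
    have h3 : (1-2*ε)/(p*(p-1)) ≤ 2/p^2 := by
      rw [div_le_div_iff₀ (by positivity) (by positivity)]
      nlinarith
    linarith
  linarith

lemma share_le_one {n : ℕ} {b : ℕ → ℝ} (hb : ∀ k, 0 ≤ b k) (hSb : ∑ k ∈ range n, b k = 1) {k : ℕ}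
    (hk : k ∈ range n) : b k ≤ 1 := by
  rw [← hSb]; exact Finset.single_le_sum (fun k _ => hb k) hk

/-- the diagonal pieces: superadditivity of `f0` -/
lemma diag_f0 (hε : 0 < ε) {M N : ℝ} (hM : 0 ≤ M) (hN : 0 ≤ N) (n : ℕ) (a b : ℕ → ℝ)
    (ha : ∀ k, 0 ≤ a k) (hb : ∀ k, 0 ≤ b k) (hSa : ∑ k ∈ range n, a k = 1)
    (hSb : ∑ k ∈ range n, b k = 1) :
    ∑ k ∈ range n, f0 ε (a k * M) (b k * N) ≤ f0 ε M N := by
  obtain ⟨α, β, hαβ, ht⟩ := types (ε := ε) hM hN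
  have h0 := f0_nonneg (ε := ε) hM hN
  calc ∑ k ∈ range n, f0 ε (a k * M) (b k * N) ≤ ∑ k ∈ range n, a k^α * b k^β * f0 ε M N :=
        Finset.sum_le_sum fun k _ => ht _ _ (ha k) (hb k)
    _ = (∑ k ∈ range n, a k^α * b k^β) * f0 ε M N := by rw [Finset.sum_mul]
    _ ≤ 1 * f0 ε M N := by
        apply mul_le_mul_of_nonneg_right _ h0
        rcases hαβ with ⟨rfl, rfl⟩ | ⟨rfl, rfl⟩
        · refine le_trans ?_ hSa.le
          apply Finset.sum_le_sum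
          intro k hk
          rw [Real.rpow_one]
          exact mul_le_of_le_one_right (ha k)
            (Real.rpow_le_one (hb k) (share_le_one hb hSb hk) (by linarith))
        · refine le_trans ?_ hSb.le
          apply Finset.sum_le_sum
          intro k hk
          rw [Real.rpow_one]
          exact mul_le_of_le_one_left (hb k)
            (Real.rpow_le_one (ha k) (share_le_one ha hSa hk) (by linarith))
    _ = f0 ε M N := one_mul _

/-- everything split -/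
lemma sumTk_le (hε : 0 < ε) (hδ : 0 < δ) (hδ1 : δ ≤ 1) {p : ℕ} (hp : 0 < p) {M N : ℝ} (hM : 0 ≤ M)
    (hN : 0 ≤ N) (n : ℕ) (a b : ℕ → ℝ)
    (ha : ∀ k, 0 ≤ a k) (hb : ∀ k, 0 ≤ b k) (hSa : ∑ k ∈ range n, a k = 1)
    (hSb : ∑ k ∈ range n, b k = 1) :
    ∑ x ∈ range n ×ˢ range n, Tk p ε δ M N a b x.1 x.2 ≤
      f0 ε M N + δ * fs ε M N * TA 1 (2/δ) ((p:ℝ)^(-(1/2-ε))) (1/2+ε) n a b := by
  have hfs := fs_nonneg (ε := ε) hM hN
  have key : ∀ k l, Tk p ε δ M N a b k l ≤ (if k = l then f0 ε (a k * M) (b l * N) else 0) +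
      δ * fs ε M N * (cc 1 (2/δ) ((p:ℝ)^(-(1/2-ε))) k l * (a k * b l)^(1/2+ε)) := by
    intro k l
    have hak := ha k; have hbl := hb l
    by_cases h : k = l
    · subst h
      rw [if_pos rfl]
      unfold Tk cc
      rw [if_pos rfl, dst_self, pow_zero, div_one, Nat.sub_self, pow_zero, one_mul, one_mul, ite_self,
        one_mul]
      unfold ff
      rw [fs_mul _ _ hak hbl hM hN]
      apply le_of_eq; ring
    · rw [if_neg h, zero_add]
      refine (Tk_le hε hδ1 hp hM hN ha hb k l).trans (le_of_eq ?_)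
      unfold cc
      rw [if_neg h]
      field_simp
  rw [Finset.sum_product]
  calc ∑ k ∈ range n, ∑ l ∈ range n, Tk p ε δ M N a b k l
      ≤ ∑ k ∈ range n, ∑ l ∈ range n, ((if k = l then f0 ε (a k * M) (b l * N) else 0) +
      δ * fs ε M N * (cc 1 (2/δ) ((p:ℝ)^(-(1/2-ε))) k l * (a k * b l)^(1/2+ε))) :=
        Finset.sum_le_sum fun k _ => Finset.sum_le_sum fun l _ => key k l
    _ = ∑ k ∈ range n, f0 ε (a k * M) (b k * N) +
        δ * fs ε M N * TA 1 (2/δ) ((p:ℝ)^(-(1/2-ε))) (1/2+ε) n a b := by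
        unfold TA
        rw [Finset.mul_sum, ← Finset.sum_add_distrib]
        apply Finset.sum_congr rfl
        intro k hk
        rw [Finset.sum_add_distrib, Finset.sum_ite_eq, if_pos hk, Finset.mul_sum]
    _ ≤ _ := by
        have := diag_f0 hε hM hN n a b ha hb hSa hSb
        linarith

/-- consequences of the size condition on `p` -/
lemma p_conds (hε : 0 < ε) (hε8 : ε ≤ 1/8) (hδ : 0 < δ) (hδ1 : δ ≤ 1) {p : ℕ} (hp : 2 ≤ p)
    (hpε : 200/(δ*ε) ≤ (p:ℝ)^(ε/4)) :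
    (p:ℝ)^(-(1/2-ε)) ≤ δ*ε/200 ∧
    (200/(δ*ε)) * (p:ℝ)^(-(1/2-ε)) ≤ ((p:ℝ)^(-(1-ε)))^(1/2-ε) ∧
    38 * ((p:ℝ)^(-(1-ε)))^(1+2*ε) ≤ δ * (p:ℝ)^(-(1+ε/2)) ∧
    ((p:ℝ)^(-(1-ε)))^2 ≤ (p:ℝ)^(-(1+ε/2)) ∧ (p:ℝ)^(-(1-ε)) ≤ 1/4 := by
  have hp0 : (0:ℝ) < p := by positivity
  have hp2 : (2:ℝ) ≤ p := by exact_mod_cast hp
  have hp1 : (1:ℝ) ≤ p := by linarith
  have hδε : 0 < δ*ε := mul_pos hδ hε
  have hmono : ∀ {x y : ℝ}, x ≤ y → (p:ℝ)^x ≤ (p:ℝ)^y := fun h => Real.rpow_le_rpow_of_exponent_le hp1 h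
  have hδε1 : δ * ε ≤ 1/8 := by nlinarith
  have h1600 : (1600:ℝ) ≤ 200/(δ*ε) := by
    rw [le_div_iff₀ hδε]; linarith
  have c1 : (p:ℝ)^(-(ε/4)) ≤ δ*ε/200 := by
    rw [Real.rpow_neg hp0.le]
    rw [show δ*ε/200 = (200/(δ*ε))⁻¹ by rw [inv_div]]
    exact inv_anti₀ (by positivity) hpε
  refine ⟨(hmono (by linarith)).trans c1, ?_, ?_, ?_, ?_⟩
  · calc (200/(δ*ε)) * (p:ℝ)^(-(1/2-ε)) ≤ (p:ℝ)^(ε/4) * (p:ℝ)^(-(1/2-ε)) :=
          mul_le_mul_of_nonneg_right hpε (by positivity)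
      _ = (p:ℝ)^(ε/4 + -(1/2-ε)) := (Real.rpow_add hp0 _ _).symm
      _ ≤ (p:ℝ)^((-(1-ε)) * (1/2-ε)) := hmono (by nlinarith)
      _ = ((p:ℝ)^(-(1-ε)))^(1/2-ε) := Real.rpow_mul hp0.le _ _
  · have e1 : ((p:ℝ)^(-(1-ε)))^(1+2*ε) = (p:ℝ)^((-(1-ε)) * (1+2*ε)) := (Real.rpow_mul hp0.le _ _).symm
    rw [e1]
    calc 38 * (p:ℝ)^((-(1-ε)) * (1+2*ε)) ≤ 38 * (p:ℝ)^(-(ε/4) + -(1+ε/2)) := by
          apply mul_le_mul_of_nonneg_left (hmono (by nlinarith)) (by norm_num)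
      _ = 38 * ((p:ℝ)^(-(ε/4)) * (p:ℝ)^(-(1+ε/2))) := by rw [Real.rpow_add hp0]
      _ ≤ 38 * (δ*ε/200 * (p:ℝ)^(-(1+ε/2))) := by
          apply mul_le_mul_of_nonneg_left _ (by norm_num)
          exact mul_le_mul_of_nonneg_right c1 (by positivity)
      _ ≤ δ * (p:ℝ)^(-(1+ε/2)) := by
          have : 0 < (p:ℝ)^(-(1+ε/2)) := by positivity
          have h2 : 38 * (δ*ε/200) ≤ δ := by nlinarith
          calc 38 * (δ*ε/200 * (p:ℝ)^(-(1+ε/2))) = 38 * (δ*ε/200) * (p:ℝ)^(-(1+ε/2)) := by ring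
            _ ≤ _ := mul_le_mul_of_nonneg_right h2 this.le
  · rw [← Real.rpow_natCast, ← Real.rpow_mul hp0.le]
    apply hmono; push_cast; linarith
  · calc (p:ℝ)^(-(1-ε)) ≤ (p:ℝ)^(-(ε/4)) := hmono (by linarith)
      _ ≤ δ*ε/200 := c1
      _ ≤ 1/4 := by linarith

/-- the non concentrated case -/
lemma case_spread (hε : 0 < ε) (hε8 : ε ≤ 1/8) (hδ : 0 < δ) (hδ1 : δ ≤ 1) {p : ℕ} (hp : 2 ≤ p)
    (hpε : 200/(δ*ε) ≤ (p:ℝ)^(ε/4)) (n : ℕ) (a b : ℕ → ℝ)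
    (ha : ∀ k, 0 ≤ a k) (hb : ∀ k, 0 ≤ b k) (hSa : ∑ k ∈ range n, a k = 1)
    (hSb : ∑ k ∈ range n, b k = 1)
    (hsp : ∀ K ∈ range n, (p:ℝ)^(-(1-ε)) < 1 - a K ∨ (p:ℝ)^(-(1-ε)) < 1 - b K) :
    TA 1 (2/δ) ((p:ℝ)^(-(1/2-ε))) (1/2+ε) n a b ≤ 1 := by
  obtain ⟨c1, c2, c3, c4, c5⟩ := p_conds hε hε8 hδ hδ1 hp hpε
  have hp0 : (0:ℝ) < p := by positivity
  set q : ℝ := (p:ℝ)^(-(1/2-ε)) with hq
  set η : ℝ := (p:ℝ)^(-(1-ε)) with hη
  have hq0 : 0 < q := by positivity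
  have hη0 : 0 < η := by positivity
  have hδε : 0 < δ*ε := mul_pos hδ hε
  have hδε1 : δ * ε ≤ 1/8 := by nlinarith
  have hq1 : q ≤ 8/9 := by linarith
  have hτ0 : 0 ≤ 2/δ := by positivity
  have hτq : (2/δ) * q ≤ ε/100 := by
    calc (2/δ) * q ≤ (2/δ) * (δ*ε/200) := mul_le_mul_of_nonneg_left c1 hτ0
      _ = ε/100 := by field_simp; ring
  by_cases h4 : ∀ k ∈ range n, a k * b k ≤ 1/4
  · have hd := diag_case1 hε (by linarith) n a b ha hb hSa hSb h4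
    have ho := oc_all hq0.le hq1 (s := 1/2+ε) (by linarith) n (range n) (range n) (le_refl _)
      (le_refl _) a b ha hb
    rw [hSa, hSb, one_mul, Real.one_rpow, mul_one] at ho
    rw [TA_eq]
    have hd' : ∑ k ∈ range n, (if k = 0 then 1 else (1:ℝ)) * (a k * b k)^(1/2+ε) ≤ 1 - 3*ε/4 := by
      simpa using hd
    have ho' := mul_le_mul_of_nonneg_left ho hτ0
    have e : (2/δ) * (18*q) = 18 * ((2/δ) * q) := by ring
    rw [e] at ho'
    linarith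
  · push Not at h4
    obtain ⟨K, hK, hK4⟩ := h4
    set z : ℝ := 1 - (a K + b K)/2 with hzdef
    have hz : a K + b K = 2 - 2*z := by rw [hzdef]; ring
    have haK := ha K
    have hbK := hb K
    have haK1 := share_le_one ha hSa hK
    have hbK1 := share_le_one hb hSb hK
    have hz2 : z ≤ 1/2 := by
      rw [hzdef]
      have : 1 ≤ a K + b K := by
        by_contra hcon
        push Not at hcon
        nlinarith [sq_nonneg (a K - b K)]
      linarith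
    have hT2 := TA_case2 (γ := 1) (τ := 2/δ) hq0 hq1 hε (by linarith) (by norm_num) le_rfl hτ0 n K hK a b
      ha hb hSa hSb hz hz2
    have hz1 : η/2 < z := by
      rcases hsp K hK with h | h <;> rw [hzdef] <;> linarith
    have hz0 : 0 < z := lt_trans (by positivity) hz1
    rw [ite_self, one_mul] at hT2
    refine hT2.trans ?_
    have r5 : z^(2*(1/2+ε)) ≤ z * (1 - 3*ε/4) := by
      have e : z^(2*(1/2+ε)) = z * (z^2)^ε := by
        rw [show 2*(1/2+ε) = 1 + 2*ε by ring, Real.rpow_add hz0, Real.rpow_one, Real.rpow_mul hz0.le,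
          Real.rpow_two]
      rw [e]
      apply mul_le_mul_of_nonneg_left _ hz0.le
      calc (z^2)^ε ≤ (1/4:ℝ)^ε := by
            apply Real.rpow_le_rpow (by positivity) _ hε.le
            nlinarith
        _ ≤ _ := quarter_pow hε.le (by linarith)
    have r6 : 28 * (2/δ) * q * z^(1/2+ε) ≤ z * (3*ε/4) := by
      have e : z = z^(1/2+ε) * z^(1/2-ε) := by
        rw [← Real.rpow_add hz0]; norm_num
      have hzs : 0 < z^(1/2+ε) := by positivity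
      have hzu : (η/2)^(1/2-ε) ≤ z^(1/2-ε) := Real.rpow_le_rpow (by positivity) hz1.le (by linarith)
      have h2 : (1/2:ℝ) ≤ (1/2:ℝ)^(1/2-ε) := by
        calc (1/2:ℝ) = (1/2:ℝ)^(1:ℝ) := (Real.rpow_one _).symm
          _ ≤ _ := Real.rpow_le_rpow_of_exponent_ge (by norm_num) (by norm_num) (by linarith)
      have h3 : (1/2) * η^(1/2-ε) ≤ (η/2)^(1/2-ε) := by
        rw [show η/2 = (1/2)*η by ring, Real.mul_rpow (by norm_num) hη0.le]
        exact mul_le_mul_of_nonneg_right h2 (by positivity)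
      have h4 : 100/(δ*ε) * q ≤ z^(1/2-ε) := by
        calc 100/(δ*ε) * q = (1/2) * (200/(δ*ε) * q) := by ring
          _ ≤ (1/2) * η^(1/2-ε) := mul_le_mul_of_nonneg_left c2 (by norm_num)
          _ ≤ _ := h3.trans hzu
      have h5 : 28 * (2/δ) * q ≤ (3*ε/4) * z^(1/2-ε) := by
        calc 28 * (2/δ) * q = (3*ε/4) * ((224/3)/(δ*ε) * q) := by field_simp; ring
          _ ≤ (3*ε/4) * (100/(δ*ε) * q) := by
              apply mul_le_mul_of_nonneg_left _ (by positivity)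
              apply mul_le_mul_of_nonneg_right _ hq0.le
              apply div_le_div_of_nonneg_right (by norm_num) hδε.le
          _ ≤ _ := mul_le_mul_of_nonneg_left h4 (by positivity)
      calc 28 * (2/δ) * q * z^(1/2+ε) ≤ ((3*ε/4) * z^(1/2-ε)) * z^(1/2+ε) :=
            mul_le_mul_of_nonneg_right h5 hzs.le
        _ = (z^(1/2+ε) * z^(1/2-ε)) * (3*ε/4) := by ring
        _ = z * (3*ε/4) := by rw [← e]
    linarith

lemma sum_union_le' {ι : Type*} [DecidableEq ι] (s t : Finset ι) (f : ι → ℝ) (hf : ∀ i, 0 ≤ f i) :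
    ∑ i ∈ s ∪ t, f i ≤ ∑ i ∈ s, f i + ∑ i ∈ t, f i := by
  rw [← Finset.sum_union_inter]
  have := Finset.sum_nonneg (s := s ∩ t) (fun i _ => hf i)
  linarith

lemma geom_inv {p : ℝ} (hp : 2 ≤ p) (K : ℕ) : ∑ k ∈ range K, 1/p^(K-k) ≤ 1/(p-1) := by
  have hp0 : 0 < p := by linarith
  have hp1 : 0 < p - 1 := by linarith
  have h : ∀ K : ℕ, ∑ k ∈ range K, 1/p^(K-k) = (1 - 1/p^K)/(p-1) := by
    intro K
    induction K with
    | zero => simp
    | succ K ih =>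
      rw [Finset.sum_range_succ, Nat.succ_sub (le_refl K), Nat.sub_self]
      have e : ∑ k ∈ range K, 1/p^(K+1-k) = (1/p) * ∑ k ∈ range K, 1/p^(K-k) := by
        rw [Finset.mul_sum]
        apply Finset.sum_congr rfl
        intro k hk
        have hk' := Finset.mem_range.1 hk
        have : K + 1 - k = (K - k) + 1 := by omega
        rw [this, pow_succ]; field_simp
      rw [e, ih]
      have : p^K ≠ 0 := by positivity
      have h1 : p - 1 ≠ 0 := hp1.ne'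
      rw [pow_succ]
      field_simp
      ring
  rw [h K]
  apply div_le_div_of_nonneg_right _ hp1.le
  have : 0 ≤ 1/p^K := by positivity
  linarith

/-- concentrated case, for one product type -/
lemma conc_type (hε : 0 < ε) (hε1 : 2*ε ≤ 1) {p : ℕ} (hp : 2 ≤ p) {M N G α β : ℝ} (g : ℝ → ℝ → ℝ)
    (hG : 0 ≤ G) (hα0 : 0 ≤ α) (hα1 : α ≤ 1) (hβ0 : 0 ≤ β) (hβ1 : β ≤ 1) (hαβ : α + β = 1 + 2*ε)
    (hg : ∀ x y : ℝ, 0 ≤ x → 0 ≤ y → g (x*M) (y*N) ≤ x^α * y^β * G)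
    (n K : ℕ) (hK : K < n) (a b : ℕ → ℝ)
    (ha : ∀ k, 0 ≤ a k) (hb : ∀ k, 0 ≤ b k) (hSa : ∑ k ∈ range n, a k = 1)
    (hSb : ∑ k ∈ range n, b k = 1) {η : ℝ} (hη1 : 1/(p:ℝ) ≤ η) (hKa : 1 - a K ≤ η)
    (hKb : 1 - b K ≤ η) :
    (if K = 0 then 1 else (1-1/(p:ℝ))^(1-2*ε)) *
        g ((∑ k ∈ (range n).filter (fun k => K ≤ k), a k) * M)
          ((∑ l ∈ (range n).filter (fun l => K ≤ l), b l) * N)
      + ∑ k ∈ range K, g ((p:ℝ)^(K-k) * (a k * M)) (b K * N) / (p:ℝ)^(K-k)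
      + ∑ l ∈ range K, g (a K * M) ((p:ℝ)^(K-l) * (b l * N)) / (p:ℝ)^(K-l)
      ≤ (1 + 5*η^2) * G := by
  have hp0 : (0:ℝ) < p := by positivity
  have hp2 : (2:ℝ) ≤ p := by exact_mod_cast hp
  have hpi : 0 < 1/(p:ℝ) := by positivity
  have hη0 : 0 < η := by linarith
  have hKn : K ∈ range n := mem_range.2 hK
  have haK1 := share_le_one ha hSa hKn
  have hbK1 := share_le_one hb hSb hKn
  have haK := ha K
  have hbK := hb K
  by_cases hK0 : K = 0
  · subst hK0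
    have f0' : (range n).filter (fun k => 0 ≤ k) = range n := by
      apply Finset.filter_true_of_mem; intro i _; exact Nat.zero_le _
    rw [if_pos rfl, f0', hSa, hSb]
    simp only [Finset.range_zero, Finset.sum_empty, add_zero, one_mul]
    have h1 := hg 1 1 zero_le_one zero_le_one
    rw [one_mul, one_mul, Real.one_rpow, Real.one_rpow, one_mul, one_mul] at h1
    have : 0 ≤ 5*η^2*G := by positivity
    linarith
  · rw [if_neg hK0]
    set u : ℝ := ∑ k ∈ range K, a k with hu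
    set u' : ℝ := ∑ k ∈ range K, b k with hu'
    have hu0 : 0 ≤ u := Finset.sum_nonneg fun k _ => ha k
    have hu0' : 0 ≤ u' := Finset.sum_nonneg fun k _ => hb k
    have split : ∀ c : ℕ → ℝ, ∑ k ∈ range n, c k = 1 →
        ∑ k ∈ (range n).filter (fun k => K ≤ k), c k = 1 - ∑ k ∈ range K, c k := by
      intro c hc
      have h1 := Finset.sum_filter_add_sum_filter_not (range n) (fun k => K ≤ k) c
      have h2 : (range n).filter (fun k => ¬ K ≤ k) = range K := by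
        ext k; simp only [mem_filter, mem_range]; omega
      rw [h2, hc] at h1
      linarith
    have off : ∀ c : ℕ → ℝ, (∀ k, 0 ≤ c k) → ∑ k ∈ range n, c k = 1 → ∑ k ∈ range K, c k ≤ 1 - c K := by
      intro c hc0 hc
      have h1 := Finset.sum_erase_add (range n) c hKn
      rw [hc] at h1
      have h2 : ∑ k ∈ range K, c k ≤ ∑ k ∈ (range n).erase K, c k := by
        apply Finset.sum_le_sum_of_subset_of_nonneg _ (fun k _ _ => hc0 k)
        intro k hk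
        simp only [mem_range, mem_erase] at hk ⊢
        omega
      linarith
    have hua : u ≤ 1 - a K := off a ha hSa
    have hub : u' ≤ 1 - b K := off b hb hSb
    rw [split a hSa, split b hSb, ← hu, ← hu']
    have hu1 : u ≤ 1 := by linarith
    have hu1' : u' ≤ 1 := by linarith
    have c0 : 0 ≤ (1-1/(p:ℝ))^(1-2*ε) := by
      apply Real.rpow_nonneg
      rw [sub_nonneg, div_le_one hp0]; linarith
    have m1 : (1-1/(p:ℝ))^(1-2*ε) * g ((1-u) * M) ((1-u') * N) ≤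
        (1-1/(p:ℝ))^(1-2*ε) * ((1-u)^α * (1-u')^β) * G := by
      rw [mul_assoc ((1-1/(p:ℝ))^(1-2*ε))]
      exact mul_le_mul_of_nonneg_left (hg _ _ (by linarith) (by linarith)) c0
    have gi := geom_inv hp2 K
    have m2 : ∑ k ∈ range K, g ((p:ℝ)^(K-k) * (a k * M)) (b K * N) / (p:ℝ)^(K-k) ≤
        (α*u + (1-α)/((p:ℝ)-1)) * G := by
      have t : ∀ k ∈ range K, g ((p:ℝ)^(K-k) * (a k * M)) (b K * N) / (p:ℝ)^(K-k) ≤
          (α * a k + (1-α) * (1/(p:ℝ)^(K-k))) * G := by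
        intro k _
        have hP : (0:ℝ) < (p:ℝ)^(K-k) := by positivity
        have h1 := hg ((p:ℝ)^(K-k) * a k) (b K) (mul_nonneg hP.le (ha k)) hbK
        have h2 : (b K)^β ≤ 1 := Real.rpow_le_one hbK hbK1 hβ0
        have h3 : ((p:ℝ)^(K-k) * a k)^α / (p:ℝ)^(K-k) ≤ α * a k + (1-α)/(p:ℝ)^(K-k) :=
          amgm hP (ha k) hα0 hα1
        have h4 : 0 ≤ ((p:ℝ)^(K-k) * a k)^α := Real.rpow_nonneg (mul_nonneg hP.le (ha k)) _
        calc g ((p:ℝ)^(K-k) * (a k * M)) (b K * N) / (p:ℝ)^(K-k)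
            ≤ (((p:ℝ)^(K-k) * a k)^α * (b K)^β * G) / (p:ℝ)^(K-k) := by
              apply div_le_div_of_nonneg_right _ hP.le
              rw [← mul_assoc]; exact h1
          _ = ((p:ℝ)^(K-k) * a k)^α / (p:ℝ)^(K-k) * (b K)^β * G := by ring
          _ ≤ ((p:ℝ)^(K-k) * a k)^α / (p:ℝ)^(K-k) * 1 * G := by
              apply mul_le_mul_of_nonneg_right _ hG
              exact mul_le_mul_of_nonneg_left h2 (div_nonneg h4 hP.le)
          _ ≤ (α * a k + (1-α) * (1/(p:ℝ)^(K-k))) * G := by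
              apply mul_le_mul_of_nonneg_right _ hG
              rw [mul_one, mul_one_div]; exact h3
      refine (Finset.sum_le_sum t).trans ?_
      rw [← Finset.sum_mul, Finset.sum_add_distrib, ← Finset.mul_sum, ← Finset.mul_sum]
      apply mul_le_mul_of_nonneg_right _ hG
      have := mul_le_mul_of_nonneg_left gi (show 0 ≤ 1 - α by linarith)
      rw [mul_one_div] at this
      linarith
    have m3 : ∑ l ∈ range K, g (a K * M) ((p:ℝ)^(K-l) * (b l * N)) / (p:ℝ)^(K-l) ≤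
        (β*u' + (1-β)/((p:ℝ)-1)) * G := by
      have t : ∀ k ∈ range K, g (a K * M) ((p:ℝ)^(K-k) * (b k * N)) / (p:ℝ)^(K-k) ≤
          (β * b k + (1-β) * (1/(p:ℝ)^(K-k))) * G := by
        intro k _
        have hP : (0:ℝ) < (p:ℝ)^(K-k) := by positivity
        have h1 := hg (a K) ((p:ℝ)^(K-k) * b k) haK (mul_nonneg hP.le (hb k))
        have h2 : (a K)^α ≤ 1 := Real.rpow_le_one haK haK1 hα0
        have h3 : ((p:ℝ)^(K-k) * b k)^β / (p:ℝ)^(K-k) ≤ β * b k + (1-β)/(p:ℝ)^(K-k) :=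
          amgm hP (hb k) hβ0 hβ1
        have h4 : 0 ≤ ((p:ℝ)^(K-k) * b k)^β := Real.rpow_nonneg (mul_nonneg hP.le (hb k)) _
        calc g (a K * M) ((p:ℝ)^(K-k) * (b k * N)) / (p:ℝ)^(K-k)
            ≤ ((a K)^α * ((p:ℝ)^(K-k) * b k)^β * G) / (p:ℝ)^(K-k) := by
              apply div_le_div_of_nonneg_right _ hP.le
              rw [← mul_assoc ((p:ℝ)^(K-k))]; exact h1
          _ = ((p:ℝ)^(K-k) * b k)^β / (p:ℝ)^(K-k) * (a K)^α * G := by ring
          _ ≤ ((p:ℝ)^(K-k) * b k)^β / (p:ℝ)^(K-k) * 1 * G := by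
              apply mul_le_mul_of_nonneg_right _ hG
              exact mul_le_mul_of_nonneg_left h2 (div_nonneg h4 hP.le)
          _ ≤ (β * b k + (1-β) * (1/(p:ℝ)^(K-k))) * G := by
              apply mul_le_mul_of_nonneg_right _ hG
              rw [mul_one, mul_one_div]; exact h3
      refine (Finset.sum_le_sum t).trans ?_
      rw [← Finset.sum_mul, Finset.sum_add_distrib, ← Finset.mul_sum, ← Finset.mul_sum]
      apply mul_le_mul_of_nonneg_right _ hG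
      have := mul_le_mul_of_nonneg_left gi (show 0 ≤ 1 - β by linarith)
      rw [mul_one_div] at this
      linarith
    have ti := type_ineq (p := (p:ℝ)) hp2 hε hε1 hα0 hα1 hβ0 hβ1 hαβ hu0 hu1 hu0' hu1'
    have hpe : (1/(p:ℝ)) * (1/(p:ℝ)) ≤ η*η := mul_le_mul hη1 hη1 hpi.le hη0.le
    have fin : 1 + u*u' + (u+u')/(p:ℝ) + 2/(p:ℝ)^2 ≤ 1 + 5*η^2 := by
      have h1 : u*u' ≤ η*η := mul_le_mul (by linarith) (by linarith) hu0' hη0.le
      have h2 : (u+u')/(p:ℝ) ≤ (2*η)*η := by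
        rw [div_eq_mul_one_div]
        exact mul_le_mul (by linarith) hη1 hpi.le (by positivity)
      have h3 : 2/(p:ℝ)^2 = 2*((1/(p:ℝ)) * (1/(p:ℝ))) := by field_simp
      rw [h3, sq]
      linarith
    have tot := mul_le_mul_of_nonneg_right (ti.trans fin) hG
    refine le_trans ?_ tot
    rw [add_mul, add_mul]
    linarith

/-- pieces with both levels off `K` -/
lemma off_pieces (hε : 0 < ε) (hε8 : ε ≤ 1/8) (hδ : 0 < δ) (hδ1 : δ ≤ 1) {p : ℕ} (hp : 2 ≤ p)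
    (hpε : 200/(δ*ε) ≤ (p:ℝ)^(ε/4)) {M N : ℝ} (hM : 0 ≤ M) (hN : 0 ≤ N) (n K : ℕ) (hK : K < n)
    (a b : ℕ → ℝ)
    (ha : ∀ k, 0 ≤ a k) (hb : ∀ k, 0 ≤ b k) (hSa : ∑ k ∈ range n, a k = 1)
    (hSb : ∑ k ∈ range n, b k = 1) (hKa : 1 - a K ≤ (p:ℝ)^(-(1-ε))) (hKb : 1 - b K ≤ (p:ℝ)^(-(1-ε))) :
    ∑ k ∈ (range n).erase K, ∑ l ∈ (range n).erase K, Tk p ε δ M N a b k l ≤
      (p:ℝ)^(-(1+ε/2)) * (δ * fs ε M N) := by
  obtain ⟨c1, c2, c3, c4, c5⟩ := p_conds hε hε8 hδ hδ1 hp hpε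
  have hp0 : (0:ℝ) < p := by positivity
  set q : ℝ := (p:ℝ)^(-(1/2-ε)) with hq
  set η : ℝ := (p:ℝ)^(-(1-ε)) with hη
  have hq0 : 0 < q := by positivity
  have hη0 : 0 < η := by positivity
  have hδε : 0 < δ*ε := mul_pos hδ hε
  have hδε1 : δ * ε ≤ 1/8 := by nlinarith
  have hq1 : q ≤ 8/9 := by linarith
  have hKn : K ∈ range n := mem_range.2 hK
  have hfs := fs_nonneg (ε := ε) hM hN
  have ea : ∑ k ∈ (range n).erase K, a k = 1 - a K := by
    have := Finset.sum_erase_add (range n) a hKn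
    linarith
  have eb : ∑ k ∈ (range n).erase K, b k = 1 - b K := by
    have := Finset.sum_erase_add (range n) b hKn
    linarith
  have h1 := all_pairs hq0.le hq1 (s := 1/2+ε) (by linarith) n ((range n).erase K) ((range n).erase K)
    (Finset.erase_subset _ _) (Finset.erase_subset _ _) a b ha hb
  rw [ea, eb] at h1
  have haK1 := share_le_one ha hSa hKn
  have hbK1 := share_le_one hb hSb hKn
  have h2 : ((1 - a K) * (1 - b K))^(1/2+ε) ≤ η^(1+2*ε) := by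
    have e : η^(1+2*ε) = (η*η)^(1/2+ε) := by
      rw [← sq, ← Real.rpow_natCast, ← Real.rpow_mul hη0.le]
      congr 1; push_cast; ring
    rw [e]
    apply Real.rpow_le_rpow (mul_nonneg (by linarith) (by linarith)) _ (by linarith)
    exact mul_le_mul hKa hKb (by linarith) hη0.le
  calc ∑ k ∈ (range n).erase K, ∑ l ∈ (range n).erase K, Tk p ε δ M N a b k l
      ≤ ∑ k ∈ (range n).erase K, ∑ l ∈ (range n).erase K,
          2 * ((q^(dst k l) * (a k * b l)^(1/2+ε)) * fs ε M N) :=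
        Finset.sum_le_sum fun k _ => Finset.sum_le_sum fun l _ =>
          Tk_le hε hδ1 (by omega) hM hN ha hb k l
    _ = 2 * ((∑ k ∈ (range n).erase K, ∑ l ∈ (range n).erase K, q^(dst k l) * (a k * b l)^(1/2+ε)) *
          fs ε M N) := by
        rw [Finset.sum_mul, Finset.mul_sum]
        apply Finset.sum_congr rfl
        intro k _
        rw [Finset.sum_mul, Finset.mul_sum]
    _ ≤ 2 * ((19 * η^(1+2*ε)) * fs ε M N) := by
        apply mul_le_mul_of_nonneg_left _ (by norm_num)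
        apply mul_le_mul_of_nonneg_right _ hfs
        refine h1.trans ?_
        have : 0 ≤ ((1 - a K) * (1 - b K))^(1/2+ε) :=
          Real.rpow_nonneg (mul_nonneg (by linarith) (by linarith)) _
        exact mul_le_mul (by linarith) h2 this (by norm_num)
    _ = (38 * η^(1+2*ε)) * fs ε M N := by ring
    _ ≤ (δ * (p:ℝ)^(-(1+ε/2))) * fs ε M N := mul_le_mul_of_nonneg_right c3 hfs
    _ = _ := by ring

/-- the one-prime inequality for Theorem X' -/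
theorem one_prime (hε : 0 < ε) (hε8 : ε ≤ 1/8) (hδ : 0 < δ) (hδ1 : δ ≤ 1) {p : ℕ} (hp : 2 ≤ p)
    (hpε : 200/(δ*ε) ≤ (p:ℝ)^(ε/4)) {M N : ℝ} (hM : 0 ≤ M) (hN : 0 ≤ N) (n : ℕ)
    (a b : ℕ → ℝ)
    (ha : ∀ k, 0 ≤ a k) (hb : ∀ k, 0 ≤ b k) (hSa : ∑ k ∈ range n, a k = 1)
    (hSb : ∑ k ∈ range n, b k = 1) :
    (∑ x ∈ range n ×ˢ range n, Tk p ε δ M N a b x.1 x.2 ≤ (1 + 6*(p:ℝ)^(-(1+ε/2))) * ff ε δ M N) ∨
    ∃ K, K < n ∧ (if K = 0 then 1 else (1-1/(p:ℝ))^(1-2*ε)) *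
        ff ε δ ((∑ k ∈ (range n).filter (fun k => K ≤ k), a k) * M)
          ((∑ l ∈ (range n).filter (fun l => K ≤ l), b l) * N)
      + ∑ x ∈ (range n ×ˢ range n).filter (fun x => min x.1 x.2 ≠ K), Tk p ε δ M N a b x.1 x.2
      ≤ (1 + 6*(p:ℝ)^(-(1+ε/2))) * ff ε δ M N := by
  have hp0 : (0:ℝ) < p := by positivity
  have hff := ff_nonneg (ε := ε) hδ.le hM hN
  have hfs := fs_nonneg (ε := ε) hM hN
  have hf0 := f0_nonneg (ε := ε) hM hN
  have hP : 0 ≤ (p:ℝ)^(-(1+ε/2)) := by positivity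
  obtain ⟨c1, c2, c3, c4, c5⟩ := p_conds hε hε8 hδ hδ1 hp hpε
  by_cases hsp : ∀ K ∈ range n, (p:ℝ)^(-(1-ε)) < 1 - a K ∨ (p:ℝ)^(-(1-ε)) < 1 - b K
  · left
    have h1 := sumTk_le hε hδ hδ1 (by omega : 0 < p) hM hN n a b ha hb hSa hSb
    have h2 := case_spread hε hε8 hδ hδ1 hp hpε n a b ha hb hSa hSb hsp
    have h3 : δ * fs ε M N * TA 1 (2/δ) ((p:ℝ)^(-(1/2-ε))) (1/2+ε) n a b ≤ δ * fs ε M N * 1 :=
      mul_le_mul_of_nonneg_left h2 (mul_nonneg hδ.le hfs)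
    have h4 : 0 ≤ 6*(p:ℝ)^(-(1+ε/2)) * ff ε δ M N := by positivity
    have h5 : ff ε δ M N = f0 ε M N + δ * fs ε M N := rfl
    linarith
  · right
    push Not at hsp
    obtain ⟨K, hKn, hKa, hKb⟩ := hsp
    have hK := mem_range.1 hKn
    refine ⟨K, hK, ?_⟩
    have hη1 : 1/(p:ℝ) ≤ (p:ℝ)^(-(1-ε)) := by
      have e : 1/(p:ℝ) = (p:ℝ)^(-(1:ℝ)) := by rw [Real.rpow_neg hp0.le, Real.rpow_one, one_div]
      rw [e]
      exact Real.rpow_le_rpow_of_exponent_le (by exact_mod_cast (by omega : 1 ≤ p)) (by linarith)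
    obtain ⟨α, β, hαβ, ht⟩ := types (ε := ε) hM hN
    have A0 : (if K = 0 then 1 else (1-1/(p:ℝ))^(1-2*ε)) *
        f0 ε ((∑ k ∈ (range n).filter (fun k => K ≤ k), a k) * M)
          ((∑ l ∈ (range n).filter (fun l => K ≤ l), b l) * N)
      + ∑ k ∈ range K, f0 ε ((p:ℝ)^(K-k) * (a k * M)) (b K * N) / (p:ℝ)^(K-k)
      + ∑ l ∈ range K, f0 ε (a K * M) ((p:ℝ)^(K-l) * (b l * N)) / (p:ℝ)^(K-l)
      ≤ (1 + 5*((p:ℝ)^(-(1-ε)))^2) * f0 ε M N := by
      rcases hαβ with ⟨rfl, rfl⟩ | ⟨rfl, rfl⟩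
      · exact conc_type hε (by linarith) hp (f0 ε) hf0 zero_le_one le_rfl (by linarith) (by linarith)
          rfl ht n K hK a b ha hb hSa hSb hη1 hKa hKb
      · exact conc_type hε (by linarith) hp (f0 ε) hf0 (by linarith) (by linarith) zero_le_one le_rfl
          (by ring) ht n K hK a b ha hb hSa hSb hη1 hKa hKb
    have A1 : (if K = 0 then 1 else (1-1/(p:ℝ))^(1-2*ε)) *
        fs ε ((∑ k ∈ (range n).filter (fun k => K ≤ k), a k) * M)
          ((∑ l ∈ (range n).filter (fun l => K ≤ l), b l) * N)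
      + ∑ k ∈ range K, fs ε ((p:ℝ)^(K-k) * (a k * M)) (b K * N) / (p:ℝ)^(K-k)
      + ∑ l ∈ range K, fs ε (a K * M) ((p:ℝ)^(K-l) * (b l * N)) / (p:ℝ)^(K-l)
      ≤ (1 + 5*((p:ℝ)^(-(1-ε)))^2) * fs ε M N :=
      conc_type (α := 1/2+ε) (β := 1/2+ε) hε (by linarith) hp (fs ε) hfs (by linarith) (by linarith)
        (by linarith) (by linarith) (by ring)
        (fun x y hx hy => by rw [fs_mul x y hx hy hM hN, Real.mul_rpow hx hy])
        n K hK a b ha hb hSa hSb hη1 hKa hKb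
    have off := off_pieces hε hε8 hδ hδ1 hp hpε hM hN n K hK a b ha hb hSa hSb hKa hKb
    -- splitting the sum
    have Tn : ∀ x : ℕ × ℕ, 0 ≤ Tk p ε δ M N a b x.1 x.2 := fun x => Tk_nonneg hδ.le hM hN ha hb _ _
    have hsub : (range n ×ˢ range n).filter (fun x => min x.1 x.2 ≠ K) ⊆
        ((range K ×ˢ {K}) ∪ ({K} ×ˢ range K)) ∪ ((range n).erase K ×ˢ (range n).erase K) := by
      intro x hx
      simp only [mem_filter, mem_product, mem_range, mem_union, mem_erase, mem_singleton] at hx ⊢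
      rcases hx with ⟨⟨h1, h2⟩, h3⟩
      by_cases e1 : x.1 = K
      · by_cases e2 : x.2 = K
        · exfalso; apply h3; rw [e1, e2]; exact min_self _
        · left; right
          refine ⟨e1, ?_⟩
          rcases lt_trichotomy x.2 K with h | h | h
          · exact h
          · exact absurd h e2
          · exfalso; apply h3; rw [e1]; exact min_eq_left h.le
      · by_cases e2 : x.2 = K
        · left; left
          refine ⟨?_, e2⟩
          rcases lt_trichotomy x.1 K with h | h | h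
          · exact h
          · exact absurd h e1
          · exfalso; apply h3; rw [e2]; exact min_eq_right h.le
        · right; exact ⟨⟨e1, h1⟩, ⟨e2, h2⟩⟩
    have hsum : ∑ x ∈ (range n ×ˢ range n).filter (fun x => min x.1 x.2 ≠ K), Tk p ε δ M N a b x.1 x.2 ≤
        (∑ k ∈ range K, Tk p ε δ M N a b k K + ∑ l ∈ range K, Tk p ε δ M N a b K l) +
        ∑ k ∈ (range n).erase K, ∑ l ∈ (range n).erase K, Tk p ε δ M N a b k l := by
      refine (Finset.sum_le_sum_of_subset_of_nonneg hsub (fun x _ _ => Tn x)).trans ?_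
      refine (sum_union_le' _ _ _ Tn).trans ?_
      rw [Finset.sum_product ((range n).erase K)]
      refine add_le_add_left ((sum_union_le' _ _ _ Tn).trans (le_of_eq ?_)) _
      rw [Finset.sum_product, Finset.sum_product, Finset.sum_singleton]
      congr 1
      apply Finset.sum_congr rfl
      intro k _
      rw [Finset.sum_singleton]
    have T1 : ∑ k ∈ range K, Tk p ε δ M N a b k K =
        ∑ k ∈ range K, f0 ε ((p:ℝ)^(K-k) * (a k * M)) (b K * N) / (p:ℝ)^(K-k) +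
        δ * ∑ k ∈ range K, fs ε ((p:ℝ)^(K-k) * (a k * M)) (b K * N) / (p:ℝ)^(K-k) := by
      rw [Finset.mul_sum, ← Finset.sum_add_distrib]
      apply Finset.sum_congr rfl
      intro k hk
      have hk' := Finset.mem_range.1 hk
      unfold Tk ff
      have e1 : k - K = 0 := by omega
      have e2 : dst k K = K - k := by unfold dst; omega
      rw [e1, e2, pow_zero, one_mul]
      ring
    have T2 : ∑ l ∈ range K, Tk p ε δ M N a b K l =
        ∑ l ∈ range K, f0 ε (a K * M) ((p:ℝ)^(K-l) * (b l * N)) / (p:ℝ)^(K-l) +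
        δ * ∑ l ∈ range K, fs ε (a K * M) ((p:ℝ)^(K-l) * (b l * N)) / (p:ℝ)^(K-l) := by
      rw [Finset.mul_sum, ← Finset.sum_add_distrib]
      apply Finset.sum_congr rfl
      intro k hk
      have hk' := Finset.mem_range.1 hk
      unfold Tk ff
      have e1 : k - K = 0 := by omega
      have e2 : dst K k = K - k := by unfold dst; omega
      rw [e1, e2, pow_zero, one_mul]
      ring
    rw [T1, T2] at hsum
    have A1' := mul_le_mul_of_nonneg_left A1 hδ.le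
    set cK : ℝ := if K = 0 then 1 else (1-1/(p:ℝ))^(1-2*ε)
    set X1 := (∑ k ∈ (range n).filter (fun k => K ≤ k), a k) * M
    set X2 := (∑ l ∈ (range n).filter (fun l => K ≤ l), b l) * N
    set η2 := ((p:ℝ)^(-(1-ε)))^2
    have e5 : ff ε δ M N = f0 ε M N + δ * fs ε M N := rfl
    have e6 : ff ε δ X1 X2 = f0 ε X1 X2 + δ * fs ε X1 X2 := rfl
    have f1 : 5*η2 * f0 ε M N ≤ 5*(p:ℝ)^(-(1+ε/2)) * f0 ε M N :=
      mul_le_mul_of_nonneg_right (by linarith) hf0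
    have f2 : 5*η2 * (δ*fs ε M N) ≤ 5*(p:ℝ)^(-(1+ε/2)) * (δ*fs ε M N) :=
      mul_le_mul_of_nonneg_right (by linarith) (mul_nonneg hδ.le hfs)
    have f3 : 0 ≤ (p:ℝ)^(-(1+ε/2)) * f0 ε M N := mul_nonneg hP hf0
    rw [e5, e6]
    nlinarith

end Crest.Agent.R4.X734
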