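import Mathlib
import Crest.Agent.R4.HVWStep560
import Crest.Agent.R4.X734a

/-!
R4 (S0004), helper734: Theorem X', the induction step over primes.
Systems carry radii `ψ, θ` (they enter only through `D`) and masses `0 ≤ μ ≤ ψ`, `0 ≤ ν ≤ θ`.
The energy kernel is `H (D e)` with `H ≥ 0` arbitrary.
-/

set_option autoImplicit false
open Finset

namespace Crest.Agent.R4.X734
open Crest.Agent.R4.HVW560

/-- `D(v,w) = max(ψ(v) w, θ(w) v)/gcd(v,w)` -/
noncomputable def DD (v w : ℕ) (x y : ℝ) : ℝ := max ((cof w v : ℝ) * x) ((cof v w : ℝ) * y)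

lemma DD_nonneg {v w : ℕ} {x y : ℝ} (hx : 0 ≤ x) : 0 ≤ DD v w x y :=
  le_trans (by positivity) (le_max_left _ _)

/-- `X`-rough -/
def Rough (X : ℝ) (n : ℕ) : Prop := 0 < n ∧ ∀ p : ℕ, p.Prime → p ∣ n → X ≤ p

/-- a system -/
structure Sys (X : ℝ) (Q : Finset ℕ) (I J : Finset ℕ) (E : Finset (ℕ × ℕ)) (v w : ℕ → ℕ)
    (ψ θ μ ν : ℕ → ℝ) : Prop where
  rv : ∀ i ∈ I, Rough X (v i)
  rw : ∀ j ∈ J, Rough X (w j)
  iv : Set.InjOn v I
  iw : Set.InjOn w J
  μ0 : ∀ i ∈ I, 0 ≤ μ i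
  ν0 : ∀ j ∈ J, 0 ≤ ν j
  μψ : ∀ i ∈ I, μ i ≤ ψ i
  νθ : ∀ j ∈ J, ν j ≤ θ j
  hE : E ⊆ I ×ˢ J
  hQ : ∀ e ∈ E, ∀ p : ℕ, p.Prime → p ∣ v e.1 → p ∣ w e.2 → p ∈ Q

/-- energy -/
noncomputable def En (H : ℝ → ℝ) (Q : Finset ℕ) (E : Finset (ℕ × ℕ)) (v w : ℕ → ℕ)
    (ψ θ μ ν : ℕ → ℝ) : ℝ :=
  ∑ e ∈ E, (μ e.1 * fac Q (v e.1)) * (ν e.2 * fac Q (w e.2)) * H (DD (v e.1) (w e.2) (ψ e.1) (θ e.2))

/-- mass -/
noncomputable def mass (Q : Finset ℕ) (I : Finset ℕ) (v : ℕ → ℕ) (μ : ℕ → ℝ) : ℝ :=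
  ∑ i ∈ I, μ i * fac Q (v i)

/-- the bilinear bound with constant `B`, for pairs whose gcd has all its primes in `Q` -/
def XB (H : ℝ → ℝ) (ε δ X : ℝ) (Q : Finset ℕ) (B : ℝ) : Prop :=
  ∀ (I J : Finset ℕ) (E : Finset (ℕ × ℕ)) (v w : ℕ → ℕ) (ψ θ μ ν : ℕ → ℝ),
    Sys X Q I J E v w ψ θ μ ν →
    En H Q E v w ψ θ μ ν ≤ B * ff ε δ (mass Q I v μ) (mass Q J w ν)

lemma mass_nonneg {Q : Finset ℕ} (hQ : ∀ q ∈ Q, q.Prime) {I : Finset ℕ} {v : ℕ → ℕ} {μ : ℕ → ℝ}
    (hμ : ∀ i ∈ I, 0 ≤ μ i) : 0 ≤ mass Q I v μ :=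
  Finset.sum_nonneg fun i hi => mul_nonneg (hμ i hi) (fac_nonneg hQ _)

lemma insert_prime {Q : Finset ℕ} (hQ : ∀ q ∈ Q, q.Prime) {p : ℕ} (hp : p.Prime) :
    ∀ q ∈ insert p Q, q.Prime := by
  intro q hq
  rcases Finset.mem_insert.1 hq with h | h
  · exact h ▸ hp
  · exact hQ q h

lemma Rough.of_dvd {X : ℝ} {m n : ℕ} (h : Rough X n) (hd : m ∣ n) : Rough X m :=
  ⟨Nat.pos_of_dvd_of_pos hd h.1, fun p hp hpm => h.2 p hp (hpm.trans hd)⟩

/-- restriction to sub-systems -/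
lemma Sys.restrict {X : ℝ} {Q : Finset ℕ} {I J : Finset ℕ} {E : Finset (ℕ × ℕ)} {v w : ℕ → ℕ}
    {ψ θ μ ν : ℕ → ℝ} (S : Sys X Q I J E v w ψ θ μ ν) {I' J' : Finset ℕ} {E' : Finset (ℕ × ℕ)}
    (hI : I' ⊆ I) (hJ : J' ⊆ J) (hE : E' ⊆ E) (hE' : E' ⊆ I' ×ˢ J') :
    Sys X Q I' J' E' v w ψ θ μ ν where
  rv := fun i hi => S.rv i (hI hi)
  rw := fun i hi => S.rw i (hJ hi)
  iv := S.iv.mono (by exact_mod_cast hI)
  iw := S.iw.mono (by exact_mod_cast hJ)
  μ0 := fun i hi => S.μ0 i (hI hi)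
  ν0 := fun i hi => S.ν0 i (hJ hi)
  μψ := fun i hi => S.μψ i (hI hi)
  νθ := fun i hi => S.νθ i (hJ hi)
  hE := hE'
  hQ := fun e he => S.hQ e (hE he)

/-- exact piece `(k,l)` -/
theorem exact_part {H : ℝ → ℝ} {ε δ X : ℝ} {Q : Finset ℕ} {B : ℝ} (hB : XB H ε δ X Q B)
    (hQ : ∀ q ∈ Q, q.Prime) {p : ℕ} (hp : p.Prime) (hpQ : p ∉ Q) (k l : ℕ)
    {I J : Finset ℕ} {E : Finset (ℕ × ℕ)} {v w : ℕ → ℕ} {ψ θ μ ν : ℕ → ℝ}
    (S : Sys X (insert p Q) I J E v w ψ θ μ ν)
    (hvk : ∀ i ∈ I, (v i).factorization p = k) (hwl : ∀ j ∈ J, (w j).factorization p = l) :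
    En H (insert p Q) E v w ψ θ μ ν ≤
      B * (ff ε δ ((p:ℝ)^(l-k) * mass (insert p Q) I v μ) ((p:ℝ)^(k-l) * mass (insert p Q) J w ν)
        / (p:ℝ)^(dst k l)) := by
  classical
  have hp0 : (0:ℝ) < p := by exact_mod_cast hp.pos
  have hp1 : (1:ℝ) ≤ p := by exact_mod_cast hp.one_le
  set c : ℕ → ℝ := fun m => if m = 0 then 1 else 1 - 1/(p:ℝ) with hc
  have hpinv : 1/(p:ℝ) ≤ 1 := by rw [div_le_one hp0]; exact hp1
  have hpinv0 : 0 ≤ 1/(p:ℝ) := by positivity
  have hc0 : ∀ m, 0 ≤ c m := by intro m; simp only [hc]; split_ifs <;> linarith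
  have hc1 : ∀ m, c m ≤ 1 := by intro m; simp only [hc]; split_ifs <;> linarith
  set v1 : ℕ → ℕ := fun i => v i / p^k with hv1
  set w1 : ℕ → ℕ := fun j => w j / p^l with hw1
  have ev : ∀ i ∈ I, v i = p^k * v1 i := by
    intro i hi
    have := @eq_ord p (v i)
    rw [hvk i hi] at this; exact this
  have ew : ∀ j ∈ J, w j = p^l * w1 j := by
    intro j hj
    have := @eq_ord p (w j)
    rw [hwl j hj] at this; exact this
  have nv : ∀ i ∈ I, ¬ p ∣ v1 i := by
    intro i hi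
    have := not_dvd_ordCompl' hp (S.rv i hi).1
    rw [hvk i hi] at this; exact this
  have nw : ∀ j ∈ J, ¬ p ∣ w1 j := by
    intro j hj
    have := not_dvd_ordCompl' hp (S.rw j hj).1
    rw [hwl j hj] at this; exact this
  have fv : ∀ i ∈ I, fac (insert p Q) (v i) = c k * fac Q (v1 i) := by
    intro i hi
    rw [fac_insert hpQ]
    have e1 : fac Q (v i) = fac Q (v1 i) := by
      conv_lhs => rw [ev i hi]
      exact fac_div hQ hp hpQ k _
    rw [e1]
    congr 1
    simp only [hc]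
    have := dvd_iff_fact hp (S.rv i hi).1
    rw [hvk i hi] at this
    by_cases hk : k = 0
    · rw [if_pos hk, if_neg (fun h => this.1 h hk)]
    · rw [if_neg hk, if_pos (this.2 hk)]
  have fw : ∀ j ∈ J, fac (insert p Q) (w j) = c l * fac Q (w1 j) := by
    intro j hj
    rw [fac_insert hpQ]
    have e1 : fac Q (w j) = fac Q (w1 j) := by
      conv_lhs => rw [ew j hj]
      exact fac_div hQ hp hpQ l _
    rw [e1]
    congr 1
    simp only [hc]
    have := dvd_iff_fact hp (S.rw j hj).1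
    rw [hwl j hj] at this
    by_cases hk : l = 0
    · rw [if_pos hk, if_neg (fun h => this.1 h hk)]
    · rw [if_neg hk, if_pos (this.2 hk)]
  have ec1 : ∀ e ∈ E, cof (v e.1) (w e.2) = p^(k-l) * cof (v1 e.1) (w1 e.2) := by
    intro e he
    have hm := Finset.mem_product.1 (S.hE he)
    conv_lhs => rw [ev _ hm.1, ew _ hm.2]
    exact cof_pow_mul hp (nv _ hm.1) (nw _ hm.2) k l
  have ec2 : ∀ e ∈ E, cof (w e.2) (v e.1) = p^(l-k) * cof (w1 e.2) (v1 e.1) := by
    intro e he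
    have hm := Finset.mem_product.1 (S.hE he)
    conv_lhs => rw [ev _ hm.1, ew _ hm.2]
    exact cof_pow_mul hp (nw _ hm.2) (nv _ hm.1) l k
  have eD : ∀ e ∈ E, DD (v e.1) (w e.2) (ψ e.1) (θ e.2) =
      DD (v1 e.1) (w1 e.2) ((p:ℝ)^(l-k) * ψ e.1) ((p:ℝ)^(k-l) * θ e.2) := by
    intro e he
    unfold DD
    rw [ec1 e he, ec2 e he]
    push_cast
    congr 1 <;> ring
  have key := hB I J E v1 w1 (fun i => (p:ℝ)^(l-k) * ψ i) (fun j => (p:ℝ)^(k-l) * θ j)
    (fun i => (p:ℝ)^(l-k) * (c k * μ i)) (fun j => (p:ℝ)^(k-l) * (c l * ν j))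
    { rv := fun i hi => (S.rv i hi).of_dvd (by rw [ev i hi]; exact dvd_mul_left _ _)
      rw := fun i hi => (S.rw i hi).of_dvd (by rw [ew i hi]; exact dvd_mul_left _ _)
      iv := by
        intro i hi i' hi' h
        apply S.iv hi hi'
        rw [ev i hi, ev i' hi', h]
      iw := by
        intro i hi i' hi' h
        apply S.iw hi hi'
        rw [ew i hi, ew i' hi', h]
      μ0 := fun i hi => by have := S.μ0 i hi; have := hc0 k; positivity
      ν0 := fun i hi => by have := S.ν0 i hi; have := hc0 l; positivity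
      μψ := fun i hi => by
        have h1 := S.μ0 i hi
        apply mul_le_mul_of_nonneg_left _ (by positivity)
        calc c k * μ i ≤ 1 * μ i := mul_le_mul_of_nonneg_right (hc1 k) h1
          _ = μ i := one_mul _
          _ ≤ ψ i := S.μψ i hi
      νθ := fun i hi => by
        have h1 := S.ν0 i hi
        apply mul_le_mul_of_nonneg_left _ (by positivity)
        calc c l * ν i ≤ 1 * ν i := mul_le_mul_of_nonneg_right (hc1 l) h1
          _ = ν i := one_mul _
          _ ≤ θ i := S.νθ i hi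
      hE := S.hE
      hQ := by
        intro e he q hq hqv hqw
        have hm := Finset.mem_product.1 (S.hE he)
        have h4 := S.hQ e he q hq (by rw [ev _ hm.1]; exact Dvd.dvd.mul_left hqv _)
          (by rw [ew _ hm.2]; exact Dvd.dvd.mul_left hqw _)
        rcases Finset.mem_insert.1 h4 with h5 | h5
        · exact absurd (h5 ▸ hqv) (nv _ hm.1)
        · exact h5 }
  have ha' : mass Q I v1 (fun i => (p:ℝ)^(l-k) * (c k * μ i)) = (p:ℝ)^(l-k) * mass (insert p Q) I v μ := by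
    unfold mass
    rw [Finset.mul_sum]
    apply Finset.sum_congr rfl
    intro i hi
    rw [fv i hi]; ring
  have hb' : mass Q J w1 (fun j => (p:ℝ)^(k-l) * (c l * ν j)) = (p:ℝ)^(k-l) * mass (insert p Q) J w ν := by
    unfold mass
    rw [Finset.mul_sum]
    apply Finset.sum_congr rfl
    intro i hi
    rw [fw i hi]; ring
  rw [ha', hb'] at key
  have hL : En H Q E v1 w1 (fun i => (p:ℝ)^(l-k) * ψ i) (fun j => (p:ℝ)^(k-l) * θ j)
    (fun i => (p:ℝ)^(l-k) * (c k * μ i)) (fun j => (p:ℝ)^(k-l) * (c l * ν j)) =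
      (p:ℝ)^(dst k l) * En H (insert p Q) E v w ψ θ μ ν := by
    unfold En
    rw [Finset.mul_sum]
    apply Finset.sum_congr rfl
    intro e he
    have hm := Finset.mem_product.1 (S.hE he)
    rw [fv _ hm.1, fw _ hm.2, eD e he]
    unfold dst
    rw [pow_add]
    ring
  rw [hL] at key
  have hD0 : (0:ℝ) < (p:ℝ)^(dst k l) := by positivity
  rw [← mul_div_assoc, le_div_iff₀ hD0, mul_comm]
  exact key

/-- the piece with `p ∤ gcd` -/
theorem unsplit0 {H : ℝ → ℝ} {ε δ X : ℝ} {Q : Finset ℕ} {B : ℝ} (hB : XB H ε δ X Q B)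
    {p : ℕ} (hp : p.Prime) (hpQ : p ∉ Q)
    {I J : Finset ℕ} {E : Finset (ℕ × ℕ)} {v w : ℕ → ℕ} {ψ θ μ ν : ℕ → ℝ}
    (S : Sys X (insert p Q) I J E v w ψ θ μ ν)
    (hnot : ∀ e ∈ E, ¬ (p ∣ v e.1 ∧ p ∣ w e.2)) :
    En H (insert p Q) E v w ψ θ μ ν ≤
      B * ff ε δ (mass (insert p Q) I v μ) (mass (insert p Q) J w ν) := by
  classical
  have hp0 : (0:ℝ) < p := by exact_mod_cast hp.pos
  have hp1 : (1:ℝ) ≤ p := by exact_mod_cast hp.one_le
  set c : ℕ → ℝ := fun m => if p ∣ m then 1 - 1/(p:ℝ) else 1 with hc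
  have hpinv : 1/(p:ℝ) ≤ 1 := by rw [div_le_one hp0]; exact hp1
  have hpinv0 : 0 ≤ 1/(p:ℝ) := by positivity
  have hc0 : ∀ m, 0 ≤ c m := by intro m; simp only [hc]; split_ifs <;> linarith
  have hc1 : ∀ m, c m ≤ 1 := by intro m; simp only [hc]; split_ifs <;> linarith
  have fv : ∀ m, fac (insert p Q) m = c m * fac Q m := fun m => fac_insert hpQ m
  have key := hB I J E v w ψ θ (fun i => c (v i) * μ i) (fun j => c (w j) * ν j)
    { rv := S.rv
      rw := S.rw
      iv := S.iv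
      iw := S.iw
      μ0 := fun i hi => mul_nonneg (hc0 _) (S.μ0 i hi)
      ν0 := fun i hi => mul_nonneg (hc0 _) (S.ν0 i hi)
      μψ := fun i hi => (mul_le_of_le_one_left (S.μ0 i hi) (hc1 _)).trans (S.μψ i hi)
      νθ := fun i hi => (mul_le_of_le_one_left (S.ν0 i hi) (hc1 _)).trans (S.νθ i hi)
      hE := S.hE
      hQ := by
        intro e he q hq hqv hqw
        rcases Finset.mem_insert.1 (S.hQ e he q hq hqv hqw) with h5 | h5
        · exact absurd ⟨h5 ▸ hqv, h5 ▸ hqw⟩ (hnot e he)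
        · exact h5 }
  have em : ∀ (I : Finset ℕ) (u : ℕ → ℕ) (μ : ℕ → ℝ),
      mass Q I u (fun i => c (u i) * μ i) = mass (insert p Q) I u μ := by
    intro I u μ
    unfold mass
    apply Finset.sum_congr rfl
    intro i _
    rw [fv]; ring
  have eE : En H Q E v w ψ θ (fun i => c (v i) * μ i) (fun j => c (w j) * ν j) =
      En H (insert p Q) E v w ψ θ μ ν := by
    unfold En
    apply Finset.sum_congr rfl
    intro e _
    rw [fv, fv]; ring
  rw [em, em, eE] at key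
  exact key

/-- the piece with `min = K ≥ 1`, kept in one piece -/
theorem unsplitK {H : ℝ → ℝ} {ε δ X : ℝ} {Q : Finset ℕ} {B : ℝ} (hB : XB H ε δ X Q B)
    (hQ : ∀ q ∈ Q, q.Prime) {p : ℕ} (hp : p.Prime) (hpQ : p ∉ Q) (K : ℕ) (hK : K ≠ 0)
    {I J : Finset ℕ} {E : Finset (ℕ × ℕ)} {v w : ℕ → ℕ} {ψ θ μ ν : ℕ → ℝ}
    (S : Sys X (insert p Q) I J E v w ψ θ μ ν)
    (hvK : ∀ i ∈ I, K ≤ (v i).factorization p) (hwK : ∀ j ∈ J, K ≤ (w j).factorization p)
    (hmin : ∀ e ∈ E, min ((v e.1).factorization p) ((w e.2).factorization p) = K) :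
    En H (insert p Q) E v w ψ θ μ ν ≤
      B * ((1 - 1/(p:ℝ))^(1-2*ε) *
        ff ε δ (mass (insert p Q) I v μ) (mass (insert p Q) J w ν)) := by
  classical
  have hp0 : (0:ℝ) < p := by exact_mod_cast hp.pos
  have hp1 : (1:ℝ) < p := by exact_mod_cast hp.one_lt
  set c : ℝ := 1 - 1/(p:ℝ) with hc
  have hc0 : 0 < c := by
    have : 1/(p:ℝ) < 1 := by rw [div_lt_one hp0]; exact hp1
    rw [hc]; linarith
  have hpK : 0 < p^K := pow_pos hp.pos K
  set v1 : ℕ → ℕ := fun i => v i / p^K with hv1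
  set w1 : ℕ → ℕ := fun j => w j / p^K with hw1
  have dv : ∀ i ∈ I, p^K ∣ v i := fun i hi =>
    (hp.pow_dvd_iff_le_factorization (S.rv i hi).1.ne').2 (hvK i hi)
  have dw : ∀ j ∈ J, p^K ∣ w j := fun j hj =>
    (hp.pow_dvd_iff_le_factorization (S.rw j hj).1.ne').2 (hwK j hj)
  have ev : ∀ i ∈ I, v i = p^K * v1 i := fun i hi => (Nat.mul_div_cancel' (dv i hi)).symm
  have ew : ∀ j ∈ J, w j = p^K * w1 j := fun j hj => (Nat.mul_div_cancel' (dw j hj)).symm
  have pv : ∀ i ∈ I, p ∣ v i := fun i hi => dvd_trans (dvd_pow_self p hK) (dv i hi)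
  have pw : ∀ j ∈ J, p ∣ w j := fun j hj => dvd_trans (dvd_pow_self p hK) (dw j hj)
  have fv : ∀ i ∈ I, fac (insert p Q) (v i) = c * fac Q (v1 i) := by
    intro i hi
    rw [fac_insert hpQ, if_pos (pv i hi)]
    congr 1
    conv_lhs => rw [ev i hi]
    exact fac_div hQ hp hpQ K _
  have fw : ∀ j ∈ J, fac (insert p Q) (w j) = c * fac Q (w1 j) := by
    intro i hi
    rw [fac_insert hpQ, if_pos (pw i hi)]
    congr 1
    conv_lhs => rw [ew i hi]
    exact fac_div hQ hp hpQ K _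
  have eD : ∀ e ∈ E, DD (v e.1) (w e.2) (ψ e.1) (θ e.2) =
      DD (v1 e.1) (w1 e.2) (ψ e.1) (θ e.2) := by
    intro e he
    have hm := Finset.mem_product.1 (S.hE he)
    have e1 : cof (v e.1) (w e.2) = cof (v1 e.1) (w1 e.2) := by
      conv_lhs => rw [ev _ hm.1, ew _ hm.2]
      exact cof_mul_left hpK _ _
    have e2 : cof (w e.2) (v e.1) = cof (w1 e.2) (v1 e.1) := by
      conv_lhs => rw [ev _ hm.1, ew _ hm.2]
      exact cof_mul_left hpK _ _
    unfold DD
    rw [e1, e2]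
  have key := hB I J E v1 w1 ψ θ μ ν
    { rv := fun i hi => (S.rv i hi).of_dvd (by rw [ev i hi]; exact dvd_mul_left _ _)
      rw := fun i hi => (S.rw i hi).of_dvd (by rw [ew i hi]; exact dvd_mul_left _ _)
      iv := by
        intro i hi i' hi' h
        apply S.iv hi hi'
        rw [ev i hi, ev i' hi', h]
      iw := by
        intro i hi i' hi' h
        apply S.iw hi hi'
        rw [ew i hi, ew i' hi', h]
      μ0 := S.μ0
      ν0 := S.ν0
      μψ := S.μψ
      νθ := S.νθ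
      hE := S.hE
      hQ := by
        intro e he q hq hqv hqw
        have hm := Finset.mem_product.1 (S.hE he)
        have h4 := S.hQ e he q hq (by rw [ev _ hm.1]; exact Dvd.dvd.mul_left hqv _)
          (by rw [ew _ hm.2]; exact Dvd.dvd.mul_left hqw _)
        rcases Finset.mem_insert.1 h4 with h5 | h5
        · exfalso
          subst h5
          have m1 : K + 1 ≤ (v e.1).factorization q := by
            rw [← hp.pow_dvd_iff_le_factorization (S.rv _ hm.1).1.ne', ev _ hm.1, pow_succ]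
            exact mul_dvd_mul_left _ hqv
          have m2 : K + 1 ≤ (w e.2).factorization q := by
            rw [← hp.pow_dvd_iff_le_factorization (S.rw _ hm.2).1.ne', ew _ hm.2, pow_succ]
            exact mul_dvd_mul_left _ hqw
          have := hmin e he
          omega
        · exact h5 }
  have ha' : mass (insert p Q) I v μ = c * mass Q I v1 μ := by
    unfold mass
    rw [Finset.mul_sum]
    apply Finset.sum_congr rfl
    intro i hi
    rw [fv i hi]; ring
  have hb' : mass (insert p Q) J w ν = c * mass Q J w1 ν := by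
    unfold mass
    rw [Finset.mul_sum]
    apply Finset.sum_congr rfl
    intro i hi
    rw [fw i hi]; ring
  have ha0 : 0 ≤ mass Q I v1 μ := mass_nonneg hQ S.μ0
  have hb0 : 0 ≤ mass Q J w1 ν := mass_nonneg hQ S.ν0
  have hL : En H (insert p Q) E v w ψ θ μ ν = c^2 * En H Q E v1 w1 ψ θ μ ν := by
    unfold En
    rw [Finset.mul_sum]
    apply Finset.sum_congr rfl
    intro e he
    have hm := Finset.mem_product.1 (S.hE he)
    rw [fv _ hm.1, fw _ hm.2, eD e he]
    ring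
  rw [hL, ha', hb', ff_hom hc0 ha0 hb0]
  refine (mul_le_mul_of_nonneg_left key (sq_nonneg c)).trans (le_of_eq ?_)
  have e3 : c^(1-2*ε) * c^(1+2*ε) = c^2 := by
    rw [← Real.rpow_add hc0, ← Real.rpow_two]
    congr 1; ring
  calc c^2 * (B * ff ε δ (mass Q I v1 μ) (mass Q J w1 ν))
      = B * (c^2 * ff ε δ (mass Q I v1 μ) (mass Q J w1 ν)) := by ring
    _ = B * ((c^(1-2*ε) * c^(1+2*ε)) * ff ε δ (mass Q I v1 μ) (mass Q J w1 ν)) := by rw [e3]
    _ = _ := by ring

set_option maxHeartbeats 1000000 in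
theorem step {H : ℝ → ℝ} {ε δ X : ℝ} {Q : Finset ℕ} {B : ℝ}
    (hB : XB H ε δ X Q B) (hB0 : 0 ≤ B)
    (hε : 0 < ε) (hε8 : ε ≤ 1/8) (hδ : 0 < δ) (hδ1 : δ ≤ 1)
    (hQ : ∀ q ∈ Q, q.Prime) {p : ℕ} (hp : p.Prime) (hpQ : p ∉ Q)
    (hpε : 200/(δ*ε) ≤ (p:ℝ)^(ε/4)) :
    XB H ε δ X (insert p Q) (B*(1 + 6*(p:ℝ)^(-(1+ε/2)))) := by
  classical
  intro I J E v w ψ θ μ ν S
  have hI' := insert_prime hQ hp
  have hp0 : (0:ℝ) < p := by exact_mod_cast hp.pos
  set F : ℝ := 1 + 6*(p:ℝ)^(-(1+ε/2)) with hF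
  have hF0 : 0 ≤ F := by positivity
  set gI : ℕ → ℝ := fun i => μ i * fac (insert p Q) (v i) with hgI
  set gJ : ℕ → ℝ := fun j => ν j * fac (insert p Q) (w j) with hgJ
  have hgI0 : ∀ i ∈ I, 0 ≤ gI i := fun i hi => mul_nonneg (S.μ0 i hi) (fac_nonneg hI' _)
  have hgJ0 : ∀ i ∈ J, 0 ≤ gJ i := fun i hi => mul_nonneg (S.ν0 i hi) (fac_nonneg hI' _)
  set M : ℝ := ∑ i ∈ I, gI i with hM
  set N : ℝ := ∑ j ∈ J, gJ j with hN
  have hM0 : 0 ≤ M := Finset.sum_nonneg hgI0
  have hN0 : 0 ≤ N := Finset.sum_nonneg hgJ0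
  set f : ℕ × ℕ → ℝ := fun e => gI e.1 * gJ e.2 * H (DD (v e.1) (w e.2) (ψ e.1) (θ e.2)) with hf
  have hff0 : 0 ≤ ff ε δ M N := ff_nonneg hδ.le hM0 hN0
  have hRHS : 0 ≤ B * F * ff ε δ M N := by positivity
  show ∑ e ∈ E, f e ≤ B * F * ff ε δ M N
  rcases hM0.eq_or_lt with hMz | hMp
  · have hz := (Finset.sum_eq_zero_iff_of_nonneg hgI0).1 hMz.symm
    have : ∑ e ∈ E, f e = 0 := by
      apply Finset.sum_eq_zero
      intro e he
      have hm := Finset.mem_product.1 (S.hE he)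
      simp only [hf]
      rw [hz _ hm.1]; ring
    rw [this]; exact hRHS
  rcases hN0.eq_or_lt with hNz | hNp
  · have hz := (Finset.sum_eq_zero_iff_of_nonneg hgJ0).1 hNz.symm
    have : ∑ e ∈ E, f e = 0 := by
      apply Finset.sum_eq_zero
      intro e he
      have hm := Finset.mem_product.1 (S.hE he)
      simp only [hf]
      rw [hz _ hm.2]; ring
    rw [this]; exact hRHS
  set fv : ℕ → ℕ := fun i => (v i).factorization p with hfv
  set fw : ℕ → ℕ := fun i => (w i).factorization p with hfw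
  set n : ℕ := max (I.sup fv) (J.sup fw) + 1 with hn
  have hnI : ∀ i ∈ I, fv i < n := by
    intro i hi
    have : fv i ≤ I.sup fv := Finset.le_sup hi
    omega
  have hnJ : ∀ i ∈ J, fw i < n := by
    intro i hi
    have : fw i ≤ J.sup fw := Finset.le_sup hi
    omega
  set a : ℕ → ℝ := fun k => (∑ i ∈ I.filter (fun i => fv i = k), gI i) / M with ha
  set b : ℕ → ℝ := fun k => (∑ i ∈ J.filter (fun i => fw i = k), gJ i) / N with hb
  have ha0 : ∀ k, 0 ≤ a k := fun k => div_nonneg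
    (Finset.sum_nonneg fun i hi => hgI0 i (Finset.mem_filter.1 hi).1) hM0
  have hb0 : ∀ k, 0 ≤ b k := fun k => div_nonneg
    (Finset.sum_nonneg fun i hi => hgJ0 i (Finset.mem_filter.1 hi).1) hN0
  have hgeI : ∀ K, ∑ i ∈ I.filter (fun i => K ≤ fv i), gI i
      = (∑ k ∈ (range n).filter (fun k => K ≤ k), a k) * M := by
    intro K
    rw [fibre_sum I fv gI n hnI K, Finset.sum_mul]
    apply Finset.sum_congr rfl
    intro k _
    simp only [ha]
    field_simp
  have hgeJ : ∀ K, ∑ i ∈ J.filter (fun i => K ≤ fw i), gJ i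
      = (∑ k ∈ (range n).filter (fun k => K ≤ k), b k) * N := by
    intro K
    rw [fibre_sum J fw gJ n hnJ K, Finset.sum_mul]
    apply Finset.sum_congr rfl
    intro k _
    simp only [hb]
    field_simp
  have f0 : ∀ S : Finset ℕ, ∀ g : ℕ → ℕ, S.filter (fun k => 0 ≤ g k) = S := by
    intro S g; apply Finset.filter_true_of_mem; intro i _; exact Nat.zero_le _
  have hSa : ∑ k ∈ range n, a k = 1 := by
    have := hgeI 0
    rw [f0 I fv, f0 (range n) (fun k => k), ← hM] at this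
    have h5 : 1 * M = (∑ k ∈ range n, a k) * M := by rw [one_mul]; exact this
    exact (mul_right_cancel₀ hMp.ne' h5).symm
  have hSb : ∑ k ∈ range n, b k = 1 := by
    have := hgeJ 0
    rw [f0 J fw, f0 (range n) (fun k => k), ← hN] at this
    have h5 : 1 * N = (∑ k ∈ range n, b k) * N := by rw [one_mul]; exact this
    exact (mul_right_cancel₀ hNp.ne' h5).symm
  -- exact pieces
  have piece : ∀ (k l : ℕ) (E'' : Finset (ℕ × ℕ)), E'' ⊆ E → (∀ e ∈ E'', fv e.1 = k ∧ fw e.2 = l) →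
      ∑ e ∈ E'', f e ≤ B * Tk p ε δ M N a b k l := by
    intro k l E'' hE'' hkl
    have hsub : E'' ⊆ (I.filter (fun i => fv i = k)) ×ˢ (J.filter (fun i => fw i = l)) := by
      intro e he
      have hm := Finset.mem_product.1 (S.hE (hE'' he))
      rw [Finset.mem_product, Finset.mem_filter, Finset.mem_filter]
      exact ⟨⟨hm.1, (hkl e he).1⟩, ⟨hm.2, (hkl e he).2⟩⟩
    have sub1 : I.filter (fun i => fv i = k) ⊆ I := Finset.filter_subset _ _
    have sub2 : J.filter (fun i => fw i = l) ⊆ J := Finset.filter_subset _ _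
    have := exact_part hB hQ hp hpQ k l (S.restrict sub1 sub2 hE'' hsub)
      (fun i hi => (Finset.mem_filter.1 hi).2) (fun i hi => (Finset.mem_filter.1 hi).2)
    have e1 : mass (insert p Q) (I.filter (fun i => fv i = k)) v μ = a k * M := by
      simp only [ha]; rw [div_mul_cancel₀ _ hMp.ne']; rfl
    have e2 : mass (insert p Q) (J.filter (fun i => fw i = l)) w ν = b l * N := by
      simp only [hb]; rw [div_mul_cancel₀ _ hNp.ne']; rfl
    rw [e1, e2] at this
    exact this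
  have hmaps : ∀ e ∈ E, (fv e.1, fw e.2) ∈ range n ×ˢ range n := by
    intro e he
    have hm := Finset.mem_product.1 (S.hE he)
    rw [Finset.mem_product]
    exact ⟨mem_range.2 (hnI _ hm.1), mem_range.2 (hnJ _ hm.2)⟩
  rcases one_prime hε hε8 hδ hδ1 hp.two_le hpε hM0 hN0 n a b ha0 hb0 hSa hSb with hA | ⟨K, hKn, hK⟩
  · calc ∑ e ∈ E, f e = ∑ x ∈ range n ×ˢ range n, ∑ e ∈ E.filter (fun e => (fv e.1, fw e.2) = x), f e :=
          (Finset.sum_fiberwise_of_maps_to hmaps f).symm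
      _ ≤ ∑ x ∈ range n ×ˢ range n, B * Tk p ε δ M N a b x.1 x.2 := by
          apply Finset.sum_le_sum
          intro x _
          apply piece x.1 x.2 _ (Finset.filter_subset _ _)
          intro e he
          have := (Finset.mem_filter.1 he).2
          rw [← this]; exact ⟨rfl, rfl⟩
      _ = B * ∑ x ∈ range n ×ˢ range n, Tk p ε δ M N a b x.1 x.2 := by rw [Finset.mul_sum]
      _ ≤ B * (F * ff ε δ M N) := mul_le_mul_of_nonneg_left hA hB0
      _ = _ := by ring
  · -- unsplit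
    have hun : ∑ e ∈ E.filter (fun e => min (fv e.1) (fw e.2) = K), f e
        ≤ B * ((if K = 0 then 1 else (1-1/(p:ℝ))^(1-2*ε)) *
        ff ε δ ((∑ k ∈ (range n).filter (fun k => K ≤ k), a k) * M)
          ((∑ l ∈ (range n).filter (fun l => K ≤ l), b l) * N)) := by
      by_cases hK0 : K = 0
      · rw [if_pos hK0, hK0, f0 (range n) (fun k => k), hSa, hSb, one_mul, one_mul, one_mul]
        have sub3 : E.filter (fun e => min (fv e.1) (fw e.2) = 0) ⊆ E := Finset.filter_subset _ _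
        have S0 := S.restrict (le_refl I) (le_refl J) sub3 (sub3.trans S.hE)
        have hn0 : ∀ e ∈ E.filter (fun e => min (fv e.1) (fw e.2) = 0), ¬ (p ∣ v e.1 ∧ p ∣ w e.2) := by
          intro e he hcon
          have hm := Finset.mem_product.1 (S.hE (Finset.mem_filter.1 he).1)
          have h5 := (dvd_iff_fact hp (S.rv _ hm.1).1).1 hcon.1
          have h6 := (dvd_iff_fact hp (S.rw _ hm.2).1).1 hcon.2
          have h7 := (Finset.mem_filter.1 he).2
          simp only [hfv, hfw] at h7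
          omega
        exact unsplit0 hB hp hpQ S0 hn0
      · rw [if_neg hK0]
        have hsub : E.filter (fun e => min (fv e.1) (fw e.2) = K) ⊆
            (I.filter (fun i => K ≤ fv i)) ×ˢ (J.filter (fun i => K ≤ fw i)) := by
          intro e he
          have hm := Finset.mem_product.1 (S.hE (Finset.mem_filter.1 he).1)
          have h7 := (Finset.mem_filter.1 he).2
          rw [Finset.mem_product, Finset.mem_filter, Finset.mem_filter]
          refine ⟨⟨hm.1, ?_⟩, ⟨hm.2, ?_⟩⟩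
          · rw [← h7]; exact min_le_left _ _
          · rw [← h7]; exact min_le_right _ _
        have sub1 : I.filter (fun i => K ≤ fv i) ⊆ I := Finset.filter_subset _ _
        have sub2 : J.filter (fun i => K ≤ fw i) ⊆ J := Finset.filter_subset _ _
        have sub3 : E.filter (fun e => min (fv e.1) (fw e.2) = K) ⊆ E := Finset.filter_subset _ _
        have SK := S.restrict sub1 sub2 sub3 hsub
        have hvK : ∀ i ∈ I.filter (fun i => K ≤ fv i), K ≤ (v i).factorization p :=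
          fun i hi => (Finset.mem_filter.1 hi).2
        have hwK : ∀ i ∈ J.filter (fun i => K ≤ fw i), K ≤ (w i).factorization p :=
          fun i hi => (Finset.mem_filter.1 hi).2
        have hmK : ∀ e ∈ E.filter (fun e => min (fv e.1) (fw e.2) = K),
            min ((v e.1).factorization p) ((w e.2).factorization p) = K :=
          fun i hi => (Finset.mem_filter.1 hi).2
        have := unsplitK hB hQ hp hpQ K hK0 SK hvK hwK hmK
        have e1 : mass (insert p Q) (I.filter (fun i => K ≤ fv i)) v μ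
          = (∑ k ∈ (range n).filter (fun k => K ≤ k), a k) * M := by
          unfold mass; exact hgeI K
        have e2 : mass (insert p Q) (J.filter (fun i => K ≤ fw i)) w ν
          = (∑ k ∈ (range n).filter (fun k => K ≤ k), b k) * N := by
          unfold mass; exact hgeJ K
        rw [e1, e2] at this
        exact this
    have hsp : ∑ e ∈ E.filter (fun e => ¬ min (fv e.1) (fw e.2) = K), f e
        ≤ ∑ x ∈ (range n ×ˢ range n).filter (fun x => min x.1 x.2 ≠ K),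
          B * Tk p ε δ M N a b x.1 x.2 := by
      rw [← Finset.sum_fiberwise_of_maps_to (s := E.filter (fun e => ¬ min (fv e.1) (fw e.2) = K))
        (t := (range n ×ˢ range n).filter (fun x => min x.1 x.2 ≠ K)) (g := fun e => (fv e.1, fw e.2))]
      · apply Finset.sum_le_sum
        intro x _
        apply piece x.1 x.2 _ ((Finset.filter_subset _ _).trans (Finset.filter_subset _ _))
        intro e he
        have := (Finset.mem_filter.1 he).2
        rw [← this]; exact ⟨rfl, rfl⟩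
      · intro e he
        rw [Finset.mem_filter] at he ⊢
        exact ⟨hmaps e he.1, he.2⟩
    rw [← Finset.mul_sum] at hsp
    calc ∑ e ∈ E, f e = ∑ e ∈ E.filter (fun e => min (fv e.1) (fw e.2) = K), f e +
          ∑ e ∈ E.filter (fun e => ¬ min (fv e.1) (fw e.2) = K), f e :=
          (Finset.sum_filter_add_sum_filter_not E _ f).symm
      _ ≤ _ := add_le_add hun hsp
      _ = B * ((if K = 0 then 1 else (1-1/(p:ℝ))^(1-2*ε)) *
        ff ε δ ((∑ k ∈ (range n).filter (fun k => K ≤ k), a k) * M)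
          ((∑ l ∈ (range n).filter (fun l => K ≤ l), b l) * N)
          + ∑ x ∈ (range n ×ˢ range n).filter (fun x => min x.1 x.2 ≠ K), Tk p ε δ M N a b x.1 x.2) := by
          ring
      _ ≤ B * (F * ff ε δ M N) := mul_le_mul_of_nonneg_left hK hB0
      _ = _ := by ring

/-- product over the primes of `Q` -/
theorem induct {H : ℝ → ℝ} {ε δ X : ℝ} {B : ℝ}
    (hB : XB H ε δ X ∅ B) (hB0 : 0 ≤ B)
    (hε : 0 < ε) (hε8 : ε ≤ 1/8) (hδ : 0 < δ) (hδ1 : δ ≤ 1) (Q : Finset ℕ)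
    (hQ : ∀ q ∈ Q, q.Prime) (hQε : ∀ q ∈ Q, 200/(δ*ε) ≤ (q:ℝ)^(ε/4)) :
    XB H ε δ X Q (B*∏ q ∈ Q, (1 + 6*(q:ℝ)^(-(1+ε/2)))) := by
  classical
  induction Q using Finset.induction_on with
  | empty => simpa using hB
  | insert p Q hpQ ih =>
    have ih' := ih (fun q hq => hQ q (Finset.mem_insert_of_mem hq))
      (fun q hq => hQε q (Finset.mem_insert_of_mem hq))
    have := step ih' (mul_nonneg hB0 (Finset.prod_nonneg fun q _ => by positivity)) hε hε8 hδ hδ1
      (fun q hq => hQ q (Finset.mem_insert_of_mem hq)) (hQ p (Finset.mem_insert_self _ _)) hpQ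
      (hQε p (Finset.mem_insert_self _ _))
    rw [Finset.prod_insert hpQ]
    have e : B * ((1 + 6*(p:ℝ)^(-(1+ε/2))) * ∏ q ∈ Q, (1 + 6*(q:ℝ)^(-(1+ε/2)))) =
      (B * ∏ q ∈ Q, (1 + 6*(q:ℝ)^(-(1+ε/2)))) * (1 + 6*(p:ℝ)^(-(1+ε/2))) := by ring
    rw [e]
    exact this

end Crest.Agent.R4.X734
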