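import Mathlib
import Crest.Agent.R4.HVWCor560
import Crest.Agent.R4.X734b

/-!
R4 (S0004), helper734: Theorem X' (helper587 #10728), base case and main theorem.
-/

set_option autoImplicit false
open Finset

namespace Crest.Agent.R4.X734
open Crest.Agent.R4.HVW560

/-- the number of `X`-rough integers up to `Y` is at most `1 + κ Y` -/
def Count (X κ : ℝ) : Prop :=
  ∀ (Y : ℝ), 0 ≤ Y → ∀ S : Finset ℕ, (∀ n ∈ S, Rough X n ∧ (n:ℝ) ≤ Y) → (S.card : ℝ) ≤ 1 + κ * Y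

lemma count_inj {X κ : ℝ} (hc : Count X κ) {J : Finset ℕ} {w : ℕ → ℕ} (rw' : ∀ j ∈ J, Rough X (w j))
    (iw : Set.InjOn w J) {Y : ℝ} (hY : 0 ≤ Y) :
    ((J.filter (fun j => (w j : ℝ) ≤ Y)).card : ℝ) ≤ 1 + κ * Y := by
  classical
  have h := hc Y hY ((J.filter (fun j => (w j : ℝ) ≤ Y)).image w) (by
    intro n hn
    obtain ⟨j, hj, rfl⟩ := Finset.mem_image.1 hn
    have := Finset.mem_filter.1 hj
    exact ⟨rw' j this.1, this.2⟩)
  rwa [Finset.card_image_of_injOn] at h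
  intro a ha b hb hab
  exact iw (Finset.mem_filter.1 ha).1 (Finset.mem_filter.1 hb).1 hab

/-- half of the base case -/
lemma half {X κ : ℝ} (hκ : 0 < κ) (hκ1 : κ ≤ 1) (hc : Count X κ) {I J : Finset ℕ}
    {E : Finset (ℕ × ℕ)} {v w : ℕ → ℕ} {μ ν : ℕ → ℝ}
    (rv : ∀ i ∈ I, Rough X (v i)) (rw' : ∀ j ∈ J, Rough X (w j))
    (iv : Set.InjOn v I) (iw : Set.InjOn w J)
    (μ0 : ∀ i ∈ I, 0 ≤ μ i) (ν0 : ∀ j ∈ J, 0 ≤ ν j) (hE : E ⊆ I ×ˢ J) (T : ℕ × ℕ → ℝ)
    (h1 : ∀ e ∈ E, T e ≤ ν e.2 / w e.2) (h2 : ∀ e ∈ E, T e ≤ μ e.1 / v e.1)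
    (hm : 0 < ∑ i ∈ I, μ i) (hn : 0 < ∑ j ∈ J, ν j) :
    ∑ e ∈ E, T e ≤ ∑ j ∈ J, ν j + 3 * Real.sqrt (κ * ((∑ i ∈ I, μ i) * ∑ j ∈ J, ν j)) := by
  classical
  set m := ∑ i ∈ I, μ i with hm'
  set n := ∑ j ∈ J, ν j with hn'
  set A : ℝ := Real.sqrt (2*m/(κ*n)) with hA
  have hA0 : 0 < A := Real.sqrt_pos.2 (by positivity)
  have hAA : A * A = 2*m/(κ*n) := Real.mul_self_sqrt (by positivity)
  set s : ℝ := Real.sqrt (κ * (m*n)) with hs
  have hs0 : 0 < s := Real.sqrt_pos.2 (by positivity)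
  have hss : s * s = κ * (m*n) := Real.mul_self_sqrt (by positivity)
  -- split
  rw [← Finset.sum_filter_add_sum_filter_not E (fun e => (v e.1 : ℝ) ≤ A * w e.2)]
  have b1 : ∑ e ∈ E.filter (fun e => (v e.1 : ℝ) ≤ A * w e.2), T e ≤ n + κ * A * n := by
    calc ∑ e ∈ E.filter (fun e => (v e.1 : ℝ) ≤ A * w e.2), T e
        ≤ ∑ e ∈ E.filter (fun e => (v e.1 : ℝ) ≤ A * w e.2), ν e.2 / w e.2 :=
          Finset.sum_le_sum fun e he => h1 e (Finset.mem_filter.1 he).1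
      _ ≤ ∑ e ∈ (I ×ˢ J).filter (fun e => (v e.1 : ℝ) ≤ A * w e.2), ν e.2 / w e.2 := by
          apply Finset.sum_le_sum_of_subset_of_nonneg
          · exact Finset.filter_subset_filter _ hE
          · intro e he _
            have := Finset.mem_product.1 (Finset.mem_filter.1 he).1
            exact div_nonneg (ν0 _ this.2) (by positivity)
      _ = ∑ j ∈ J, ∑ i ∈ I.filter (fun i => (v i : ℝ) ≤ A * w j), ν j / w j := by
          rw [Finset.sum_filter, Finset.sum_product_right]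
          apply Finset.sum_congr rfl
          intro j _
          rw [Finset.sum_filter]
      _ ≤ ∑ j ∈ J, ν j * (1 + κ * A) := by
          apply Finset.sum_le_sum
          intro j hj
          have hw : (1:ℝ) ≤ w j := by exact_mod_cast (rw' j hj).1
          rw [Finset.sum_const, nsmul_eq_mul]
          have hcard := count_inj hc rv iv (Y := A * w j) (by positivity)
          have hνj := ν0 j hj
          calc ((I.filter (fun i => (v i : ℝ) ≤ A * w j)).card : ℝ) * (ν j / w j)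
              ≤ (1 + κ * (A * w j)) * (ν j / w j) :=
                mul_le_mul_of_nonneg_right hcard (div_nonneg hνj (by linarith))
            _ = ν j / w j + ν j * (κ * A) := by field_simp
            _ ≤ ν j + ν j * (κ * A) := by
                have : ν j / w j ≤ ν j := div_le_self hνj hw
                linarith
            _ = _ := by ring
      _ = n + κ * A * n := by rw [← Finset.sum_mul, ← hn']; ring
  have b2 : ∑ e ∈ E.filter (fun e => ¬ (v e.1 : ℝ) ≤ A * w e.2), T e ≤ 2 * m / A := by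
    calc ∑ e ∈ E.filter (fun e => ¬ (v e.1 : ℝ) ≤ A * w e.2), T e
        ≤ ∑ e ∈ E.filter (fun e => ¬ (v e.1 : ℝ) ≤ A * w e.2), μ e.1 / v e.1 :=
          Finset.sum_le_sum fun e he => h2 e (Finset.mem_filter.1 he).1
      _ ≤ ∑ e ∈ (I ×ˢ J).filter (fun e => (w e.2 : ℝ) ≤ v e.1 / A), μ e.1 / v e.1 := by
          apply Finset.sum_le_sum_of_subset_of_nonneg
          · intro e he
            have h := Finset.mem_filter.1 he
            rw [Finset.mem_filter]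
            refine ⟨hE h.1, ?_⟩
            rw [le_div_iff₀ hA0]
            have := not_le.1 h.2
            linarith
          · intro e he _
            have := Finset.mem_product.1 (Finset.mem_filter.1 he).1
            exact div_nonneg (μ0 _ this.1) (by positivity)
      _ = ∑ i ∈ I, ∑ j ∈ J.filter (fun j => (w j : ℝ) ≤ v i / A), μ i / v i := by
          rw [Finset.sum_filter, Finset.sum_product]
          apply Finset.sum_congr rfl
          intro i _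
          rw [Finset.sum_filter]
      _ ≤ ∑ i ∈ I, μ i * (2 / A) := by
          apply Finset.sum_le_sum
          intro i hi
          have hv : (1:ℝ) ≤ v i := by exact_mod_cast (rv i hi).1
          rw [Finset.sum_const, nsmul_eq_mul]
          have hμi := μ0 i hi
          have hcard : ((J.filter (fun j => (w j : ℝ) ≤ v i / A)).card : ℝ) ≤ 2 * (v i / A) := by
            by_cases hlt : (v i : ℝ) / A < 1
            · have : J.filter (fun j => (w j : ℝ) ≤ v i / A) = ∅ := by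
                apply Finset.filter_false_of_mem
                intro j hj hcon
                have hw : (1:ℝ) ≤ w j := by exact_mod_cast (rw' j hj).1
                linarith
              rw [this]
              simp only [Finset.card_empty, Nat.cast_zero]
              positivity
            · have h3 := not_lt.1 hlt
              have h4 := count_inj hc rw' iw (Y := v i / A) (by positivity)
              have h5 : κ * (v i / A) ≤ 1 * (v i / A) := mul_le_mul_of_nonneg_right hκ1 (by linarith)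
              linarith
          calc ((J.filter (fun j => (w j : ℝ) ≤ v i / A)).card : ℝ) * (μ i / v i)
              ≤ (2 * (v i / A)) * (μ i / v i) :=
                mul_le_mul_of_nonneg_right hcard (div_nonneg hμi (by linarith))
            _ = μ i * (2 / A) := by field_simp
      _ = 2 * m / A := by rw [← Finset.sum_mul, ← hm']; ring
  have e1 : κ * A * n = Real.sqrt 2 * s := by
    have hpos : 0 ≤ κ * A * n := by positivity
    have hpos' : 0 ≤ Real.sqrt 2 * s := by positivity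
    have h2 : Real.sqrt 2 * Real.sqrt 2 = 2 := Real.mul_self_sqrt (by norm_num)
    have : (κ * A * n)^2 = (Real.sqrt 2 * s)^2 := by
      calc (κ * A * n)^2 = κ^2 * n^2 * (A*A) := by ring
        _ = 2 * (κ * (m*n)) := by rw [hAA]; field_simp
        _ = (Real.sqrt 2 * Real.sqrt 2) * (s*s) := by rw [h2, hss]
        _ = _ := by ring
    exact (pow_left_inj₀ hpos hpos' (by norm_num)).1 this
  have e2 : 2 * m / A = Real.sqrt 2 * s := by
    rw [← e1]
    rw [div_eq_iff hA0.ne']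
    calc 2 * m = κ * n * (2*m/(κ*n)) := by field_simp
      _ = κ * n * (A*A) := by rw [hAA]
      _ = _ := by ring
  have e3 : Real.sqrt 2 ≤ 3/2 := by
    rw [Real.sqrt_le_left (by norm_num)]; norm_num
  have e4 : Real.sqrt 2 * s ≤ 3/2 * s := mul_le_mul_of_nonneg_right e3 hs0.le
  linarith

lemma f0_eq_left {ε m n : ℝ} (hε1 : 2*ε ≤ 1) (hm : 0 < m) (hmn : m ≤ n) :
    m * n^(2*ε) ≤ m^(2*ε) * n := by
  have hn : 0 < n := lt_of_lt_of_le hm hmn
  have e1 : m = m^(2*ε) * m^(1-2*ε) := by rw [← Real.rpow_add hm]; norm_num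
  have e2 : n = n^(2*ε) * n^(1-2*ε) := by rw [← Real.rpow_add hn]; norm_num
  have h : m^(1-2*ε) ≤ n^(1-2*ε) := Real.rpow_le_rpow hm.le hmn (by linarith)
  have hp : 0 ≤ m^(2*ε) * n^(2*ε) := by positivity
  calc m * n^(2*ε) = (m^(2*ε) * n^(2*ε)) * m^(1-2*ε) := by
        conv_lhs => rw [e1]
        ring
    _ ≤ (m^(2*ε) * n^(2*ε)) * n^(1-2*ε) := mul_le_mul_of_nonneg_left h hp
    _ = m^(2*ε) * (n^(2*ε) * n^(1-2*ε)) := by ring
    _ = m^(2*ε) * n := by rw [← e2]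

/-- the kernel: `1/D` on `D ≥ 1/Z` -/
noncomputable def HZ (Z : ℝ) (D : ℝ) : ℝ := if 1/Z ≤ D then 1/D else 0

/-- base case: coprime pairs -/
theorem base {X κ Z ε : ℝ} (hκ : 0 < κ) (hκ1 : κ ≤ 1) (hc : Count X κ) (hZ : 0 < Z) (hε : 0 < ε)
    (hε1 : 2*ε ≤ 1) : XB (HZ Z) ε (κ^(1/2-ε)) X ∅ (3 * Z^(2*ε)) := by
  classical
  intro I J E v w ψ θ μ ν S
  have fac0 : ∀ n, fac ∅ n = 1 := fun n => by simp [fac]
  have m0 : mass ∅ I v μ = ∑ i ∈ I, μ i := by unfold mass; simp [fac0]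
  have n0 : mass ∅ J w ν = ∑ i ∈ J, ν i := by unfold mass; simp [fac0]
  set T : ℕ × ℕ → ℝ := fun e => μ e.1 * ν e.2 * HZ Z (DD (v e.1) (w e.2) (ψ e.1) (θ e.2)) with hT
  have hEn : En (HZ Z) ∅ E v w ψ θ μ ν = ∑ e ∈ E, T e := by
    unfold En; simp only [fac0, mul_one, hT]
  rw [hEn, m0, n0]
  have hm0 : 0 ≤ ∑ i ∈ I, μ i := Finset.sum_nonneg S.μ0
  have hn0 : 0 ≤ ∑ j ∈ J, ν j := Finset.sum_nonneg S.ν0
  have hRHS : 0 ≤ 3 * Z^(2*ε) * ff ε (κ^(1/2-ε)) (∑ i ∈ I, μ i) (∑ j ∈ J, ν j) :=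
    mul_nonneg (by positivity) (ff_nonneg (by positivity) hm0 hn0)
  rcases hm0.eq_or_lt with hz | hm
  · have hz' := (Finset.sum_eq_zero_iff_of_nonneg S.μ0).1 hz.symm
    have : ∑ e ∈ E, T e = 0 := by
      apply Finset.sum_eq_zero
      intro e he
      have hm := Finset.mem_product.1 (S.hE he)
      simp only [hT]
      rw [hz' _ hm.1]; ring
    rw [this]; exact hRHS
  rcases hn0.eq_or_lt with hz | hn
  · have hz' := (Finset.sum_eq_zero_iff_of_nonneg S.ν0).1 hz.symm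
    have : ∑ e ∈ E, T e = 0 := by
      apply Finset.sum_eq_zero
      intro e he
      have hm := Finset.mem_product.1 (S.hE he)
      simp only [hT]
      rw [hz' _ hm.2]; ring
    rw [this]; exact hRHS
  set m := ∑ i ∈ I, μ i with hm'
  set n := ∑ j ∈ J, ν j with hn'
  -- D for coprime pairs
  have hcop : ∀ e ∈ E, DD (v e.1) (w e.2) (ψ e.1) (θ e.2) = max ((w e.2 : ℝ) * ψ e.1) ((v e.1 : ℝ) * θ e.2) := by
    intro e he
    have hm := Finset.mem_product.1 (S.hE he)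
    have hg : Nat.gcd (v e.1) (w e.2) = 1 := by
      by_contra hne
      obtain ⟨p, hp, hpd⟩ := Nat.exists_prime_and_dvd hne
      have := S.hQ e he p hp (hpd.trans (Nat.gcd_dvd_left _ _)) (hpd.trans (Nat.gcd_dvd_right _ _))
      simp at this
    have hg' : Nat.gcd (w e.2) (v e.1) = 1 := by rw [Nat.gcd_comm]; exact hg
    unfold DD cof
    rw [hg, hg', Nat.div_one, Nat.div_one]
  have T0 : ∀ e ∈ E, 0 ≤ T e := by
    intro e he
    have hm := Finset.mem_product.1 (S.hE he)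
    have h1 := S.μ0 _ hm.1
    have h2 := S.ν0 _ hm.2
    simp only [hT]
    apply mul_nonneg (mul_nonneg h1 h2)
    unfold HZ
    split_ifs with h
    · have : 0 < 1/Z := by positivity
      exact (one_div_pos.2 (lt_of_lt_of_le this h)).le
    · exact le_rfl
  have b1 : ∀ e ∈ E, T e ≤ ν e.2 / w e.2 := by
    intro e he
    have hm := Finset.mem_product.1 (S.hE he)
    have h1 := S.μ0 _ hm.1
    have h2 := S.ν0 _ hm.2
    have h3 := S.μψ _ hm.1
    have hw : (0:ℝ) < w e.2 := by exact_mod_cast (S.rw _ hm.2).1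
    simp only [hT]
    unfold HZ
    split_ifs with h
    · have hZp : 0 < 1/Z := by positivity
      have hD := lt_of_lt_of_le hZp h
      have hDw : (w e.2 : ℝ) * μ e.1 ≤ DD (v e.1) (w e.2) (ψ e.1) (θ e.2) := by
        rw [hcop e he]
        exact (mul_le_mul_of_nonneg_left h3 hw.le).trans (le_max_left _ _)
      rw [mul_one_div, div_le_div_iff₀ hD hw]
      calc μ e.1 * ν e.2 * (w e.2 : ℝ) = ν e.2 * ((w e.2 : ℝ) * μ e.1) := by ring
        _ ≤ _ := mul_le_mul_of_nonneg_left hDw h2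
    · rw [mul_zero]; exact div_nonneg h2 hw.le
  have b2 : ∀ e ∈ E, T e ≤ μ e.1 / v e.1 := by
    intro e he
    have hm := Finset.mem_product.1 (S.hE he)
    have h1 := S.μ0 _ hm.1
    have h2 := S.ν0 _ hm.2
    have h3 := S.νθ _ hm.2
    have hv : (0:ℝ) < v e.1 := by exact_mod_cast (S.rv _ hm.1).1
    simp only [hT]
    unfold HZ
    split_ifs with h
    · have hZp : 0 < 1/Z := by positivity
      have hD := lt_of_lt_of_le hZp h
      have hDw : (v e.1 : ℝ) * ν e.2 ≤ DD (v e.1) (w e.2) (ψ e.1) (θ e.2) := by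
        rw [hcop e he]
        exact (mul_le_mul_of_nonneg_left h3 hv.le).trans (le_max_right _ _)
      rw [mul_one_div, div_le_div_iff₀ hD hv]
      calc μ e.1 * ν e.2 * (v e.1 : ℝ) = μ e.1 * ((v e.1 : ℝ) * ν e.2) := by ring
        _ ≤ _ := mul_le_mul_of_nonneg_left hDw h1
    · rw [mul_zero]; exact div_nonneg h1 hv.le
  have b3 : ∀ e ∈ E, T e ≤ Z * (μ e.1 * ν e.2) := by
    intro e he
    have hm := Finset.mem_product.1 (S.hE he)
    have h1 := S.μ0 _ hm.1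
    have h2 := S.ν0 _ hm.2
    simp only [hT]
    rw [mul_comm]
    apply mul_le_mul_of_nonneg_right _ (mul_nonneg h1 h2)
    unfold HZ
    split_ifs with h
    · have hZp : 0 < 1/Z := by positivity
      calc 1 / DD (v e.1) (w e.2) (ψ e.1) (θ e.2) ≤ 1/(1/Z) := one_div_le_one_div_of_le hZp h
        _ = Z := by rw [one_div_one_div]
    · exact hZ.le
  set s : ℝ := Real.sqrt (κ * (m*n)) with hs
  have hs0 : 0 < s := Real.sqrt_pos.2 (by positivity)
  have P1 : ∑ e ∈ E, T e ≤ n + 3*s :=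
    half hκ hκ1 hc S.rv S.rw S.iv S.iw S.μ0 S.ν0 S.hE T b1 b2 hm hn
  have P2 : ∑ e ∈ E, T e ≤ m + 3*s := by
    have hsw : ∑ e ∈ E, T e = ∑ e ∈ E.image Prod.swap, T e.swap := by
      rw [Finset.sum_image (fun a _ b _ h => Prod.swap_injective h)]
      simp
    rw [hsw]
    have h := half hκ hκ1 hc S.rw S.rv S.iw S.iv S.ν0 S.μ0 (E := E.image Prod.swap)
      (by
        intro e he
        obtain ⟨e', he', rfl⟩ := Finset.mem_image.1 he
        have hm := Finset.mem_product.1 (S.hE he')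
        rw [Finset.mem_product]; exact ⟨hm.2, hm.1⟩)
      (fun e => T e.swap)
      (by
        intro e he
        obtain ⟨e', he', rfl⟩ := Finset.mem_image.1 he
        rw [Prod.swap_swap]; exact b2 e' he')
      (by
        intro e he
        obtain ⟨e', he', rfl⟩ := Finset.mem_image.1 he
        rw [Prod.swap_swap]; exact b1 e' he') hn hm
    rw [mul_comm (∑ i ∈ J, ν i)] at h
    exact h
  have P3 : ∑ e ∈ E, T e ≤ Z * (m * n) := by
    calc ∑ e ∈ E, T e ≤ ∑ e ∈ E, Z * (μ e.1 * ν e.2) := Finset.sum_le_sum b3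
      _ ≤ ∑ e ∈ I ×ˢ J, Z * (μ e.1 * ν e.2) := by
          apply Finset.sum_le_sum_of_subset_of_nonneg S.hE
          intro e he _
          have hm := Finset.mem_product.1 he
          exact mul_nonneg hZ.le (mul_nonneg (S.μ0 _ hm.1) (S.ν0 _ hm.2))
      _ = Z * (m * n) := by
          rw [← Finset.mul_sum, Finset.sum_mul_sum, Finset.sum_product]
  set T' := ∑ e ∈ E, T e with hT'
  have hT0 : 0 ≤ T' := Finset.sum_nonneg T0
  -- interpolation
  have key : ∀ x : ℝ, 0 < x → T' ≤ x + 3*s → x^(1-2*ε) * (m*n)^(2*ε) = f0 ε m n →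
      T' ≤ 3 * Z^(2*ε) * ff ε (κ^(1/2-ε)) m n := by
    intro x hx hP hf
    have hmn : 0 < m*n := mul_pos hm hn
    rcases hT0.eq_or_lt with h0 | h0
    · rw [← h0]; exact hRHS
    have e1 : T' = T'^(1-2*ε) * T'^(2*ε) := by rw [← Real.rpow_add h0]; norm_num
    have h1 : T'^(1-2*ε) ≤ x^(1-2*ε) + (3*s)^(1-2*ε) :=
      (Real.rpow_le_rpow hT0 hP (by linarith)).trans
        (Real.rpow_add_le_add_rpow hx.le (by positivity) (by linarith) (by linarith))
    have h2 : T'^(2*ε) ≤ (Z * (m*n))^(2*ε) := Real.rpow_le_rpow hT0 P3 (by linarith)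
    have h3 : (3*s)^(1-2*ε) * (m*n)^(2*ε) ≤ 3 * (κ^(1/2-ε) * fs ε m n) := by
      have e3 : s^(1-2*ε) = κ^(1/2-ε) * (m*n)^(1/2-ε) := by
        rw [hs, Real.sqrt_eq_rpow, ← Real.rpow_mul (by positivity), Real.mul_rpow hκ.le hmn.le]
        congr 2 <;> ring
      have e4 : (m*n)^(1/2-ε) * (m*n)^(2*ε) = fs ε m n := by
        unfold fs; rw [← Real.rpow_add hmn]; congr 1; ring
      rw [Real.mul_rpow (by norm_num) hs0.le, e3]
      have e5 : (3:ℝ)^(1-2*ε) ≤ 3 := by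
        calc (3:ℝ)^(1-2*ε) ≤ (3:ℝ)^(1:ℝ) :=
              Real.rpow_le_rpow_of_exponent_le (by norm_num) (by linarith)
          _ = 3 := Real.rpow_one _
      calc (3:ℝ)^(1-2*ε) * (κ^(1/2-ε) * (m*n)^(1/2-ε)) * (m*n)^(2*ε)
          = (3:ℝ)^(1-2*ε) * (κ^(1/2-ε) * ((m*n)^(1/2-ε) * (m*n)^(2*ε))) := by ring
        _ = (3:ℝ)^(1-2*ε) * (κ^(1/2-ε) * fs ε m n) := by rw [e4]
        _ ≤ _ := mul_le_mul_of_nonneg_right e5
              (mul_nonneg (by positivity) (fs_nonneg hm.le hn.le))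
    calc T' = T'^(1-2*ε) * T'^(2*ε) := e1
      _ ≤ (x^(1-2*ε) + (3*s)^(1-2*ε)) * (Z * (m*n))^(2*ε) :=
          mul_le_mul h1 h2 (by positivity) (by positivity)
      _ = Z^(2*ε) * (x^(1-2*ε) * (m*n)^(2*ε) + (3*s)^(1-2*ε) * (m*n)^(2*ε)) := by
          rw [Real.mul_rpow hZ.le hmn.le]; ring
      _ ≤ Z^(2*ε) * (f0 ε m n + 3 * (κ^(1/2-ε) * fs ε m n)) := by
          apply mul_le_mul_of_nonneg_left _ (by positivity)
          rw [hf]; linarith
      _ ≤ 3 * Z^(2*ε) * ff ε (κ^(1/2-ε)) m n := by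
          have hf0 := f0_nonneg (ε := ε) hm.le hn.le
          have hZp : 0 ≤ Z^(2*ε) := by positivity
          unfold ff
          nlinarith [mul_nonneg hZp hf0]
  rcases le_total m n with hmn | hmn
  · apply key m hm P2
    unfold f0
    rw [min_eq_left (f0_eq_left hε1 hm hmn), Real.mul_rpow hm.le hn.le, ← mul_assoc,
      ← Real.rpow_add hm]
    norm_num
  · apply key n hn P1
    unfold f0
    have h := f0_eq_left hε1 hn hmn
    rw [min_eq_right (by linarith), Real.mul_rpow hm.le hn.le]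
    have : n^(1-2*ε) * n^(2*ε) = n := by rw [← Real.rpow_add hn]; norm_num
    calc n^(1-2*ε) * (m^(2*ε) * n^(2*ε)) = m^(2*ε) * (n^(1-2*ε) * n^(2*ε)) := by ring
      _ = _ := by rw [this]

/-- the loss over all primes -/
lemma prod_le {X δ ε : ℝ} (hX : 1 ≤ X) (hδ : 0 < δ) (hδ1 : δ ≤ 1) (hε : 0 < ε) (hε8 : ε ≤ 1/8)
    (h200 : 200/(δ*ε) ≤ X^(ε/4)) (Q : Finset ℕ) (hQ : ∀ q ∈ Q, q.Prime) (hQX : ∀ q ∈ Q, X ≤ (q:ℝ)) :
    ∏ q ∈ Q, (1 + 6*(q:ℝ)^(-(1+ε/2))) ≤ 2 := by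
  have hX0 : 0 < X := by linarith
  have hδε : 0 < δ*ε := mul_pos hδ hε
  have c1 : X^(-(ε/4)) ≤ δ*ε/200 := by
    rw [Real.rpow_neg hX0.le]
    rw [show δ*ε/200 = (200/(δ*ε))⁻¹ by rw [inv_div]]
    exact inv_anti₀ (by positivity) h200
  have h1 : ∏ q ∈ Q, (1 + 6*(q:ℝ)^(-(1+ε/2))) ≤ Real.exp (∑ q ∈ Q, 6*(q:ℝ)^(-(1+ε/2))) := by
    rw [Real.exp_sum]
    apply Finset.prod_le_prod
    · intro q _; positivity
    · intro q _
      have := Real.add_one_le_exp (6*(q:ℝ)^(-(1+ε/2)))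
      linarith
  have h2 : ∑ q ∈ Q, 6*(q:ℝ)^(-(1+ε/2)) ≤ 6 * ((δ*ε/200) * (1 + 1/(ε/4))) := by
    rw [← Finset.mul_sum]
    apply mul_le_mul_of_nonneg_left _ (by norm_num)
    calc ∑ q ∈ Q, (q:ℝ)^(-(1+ε/2)) ≤ ∑ q ∈ Q, (δ*ε/200) * (q:ℝ)^(-(1+ε/4)) := by
          apply Finset.sum_le_sum
          intro q hq
          have hq0 : (0:ℝ) < q := by exact_mod_cast (hQ q hq).pos
          have e : (q:ℝ)^(-(1+ε/2)) = (q:ℝ)^(-(ε/4)) * (q:ℝ)^(-(1+ε/4)) := by
            rw [← Real.rpow_add hq0]; congr 1; ring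
          rw [e]
          apply mul_le_mul_of_nonneg_right _ (by positivity)
          refine le_trans ?_ c1
          exact Real.rpow_le_rpow_of_nonpos hX0 (hQX q hq) (by linarith)
      _ = (δ*ε/200) * ∑ q ∈ Q, (q:ℝ)^(-(1+ε/4)) := by rw [Finset.mul_sum]
      _ ≤ (δ*ε/200) * (1 + 1/(ε/4)) := by
          apply mul_le_mul_of_nonneg_left _ (by positivity)
          exact zeta_bound' (by positivity) Q (fun q hq => (hQ q hq).pos)
  have h3 : 6 * ((δ*ε/200) * (1 + 1/(ε/4))) ≤ 1/2 := by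
    have : (δ*ε/200) * (1 + 1/(ε/4)) = δ * (ε + 4)/200 := by field_simp
    rw [this]
    nlinarith
  have h4 : Real.exp (1/2) ≤ 2 := by
    have h5 : Real.exp (1/2) ^ 2 ≤ 2^2 := by
      rw [← Real.exp_nat_mul]
      have : ((2:ℕ):ℝ) * (1/2) = 1 := by norm_num
      rw [this]
      have := Real.exp_one_lt_d9
      linarith
    exact (pow_le_pow_iff_left₀ (Real.exp_pos _).le (by norm_num) (by norm_num)).1 h5
  exact h1.trans ((Real.exp_le_exp.2 (h2.trans h3)).trans h4)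

lemma fac_totient {Q : Finset ℕ} (hQp : ∀ p ∈ Q, p.Prime) {n : ℕ} (hn : 0 < n)
    (hmem : ∀ p, p.Prime → p ∣ n → p ∈ Q) : fac Q n = (Nat.totient n : ℝ)/n := by
  have h5 : (Nat.totient n : ℝ) = n * ∏ p ∈ n.primeFactors, (1 - (p:ℝ)⁻¹) := by
    have := Nat.totient_eq_mul_prod_factors n
    have h6 : ((Nat.totient n : ℚ) : ℝ) = ((n * ∏ p ∈ n.primeFactors, (1 - (p:ℚ)⁻¹) : ℚ) : ℝ) := by rw [this]
    push_cast at h6
    exact h6
  rw [h5, mul_comm, mul_div_assoc, div_self (by positivity), mul_one]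
  unfold fac
  have : Q.filter (fun p => p ∣ n) = n.primeFactors := by
    ext p
    rw [mem_filter, Nat.mem_primeFactors]
    constructor
    · rintro ⟨a1, a2⟩; exact ⟨hQp p a1, a2, hn.ne'⟩
    · rintro ⟨a1, a2, _⟩; exact ⟨hmem p a1 a2, a2⟩
  rw [this]
  apply Finset.prod_congr rfl
  intro p _
  rw [one_div]

/-- **Theorem X'**, general form: masses `μ ≤ ψ`, `ν ≤ θ`, radii enter only through `D`. -/
theorem xprime_gen {X κ Z ε : ℝ} (hX : 1 ≤ X) (hκ : 0 < κ) (hκ1 : κ ≤ 1) (hc : Count X κ) (hZ : 0 < Z)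
    (hε : 0 < ε) (hε8 : ε ≤ 1/8) (h200 : 200/(κ^(1/2-ε)*ε) ≤ X^(ε/4))
    {V W : Finset ℕ} {E : Finset (ℕ × ℕ)} {ψ θ μ ν : ℕ → ℝ}
    (hV : ∀ v ∈ V, Rough X v) (hW : ∀ w ∈ W, Rough X w)
    (hμ : ∀ v ∈ V, 0 ≤ μ v) (hν : ∀ w ∈ W, 0 ≤ ν w) (hμψ : ∀ v ∈ V, μ v ≤ ψ v)
    (hνθ : ∀ w ∈ W, ν w ≤ θ w) (hE : E ⊆ V ×ˢ W) :
    ∑ e ∈ E, wt μ e.1 * wt ν e.2 * HZ Z (DD e.1 e.2 (ψ e.1) (θ e.2)) ≤
      6 * Z^(2*ε) * ff ε (κ^(1/2-ε)) (∑ v ∈ V, wt μ v) (∑ w ∈ W, wt ν w) := by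
  classical
  have hδ : 0 < κ^(1/2-ε) := by positivity
  have hδ1 : κ^(1/2-ε) ≤ 1 := Real.rpow_le_one hκ.le hκ1 (by linarith)
  set Q : Finset ℕ := V.biUnion Nat.primeFactors ∪ W.biUnion Nat.primeFactors with hQ
  have hQp : ∀ p ∈ Q, p.Prime := by
    intro p hp
    rcases Finset.mem_union.1 hp with h | h <;> obtain ⟨v, hv, hpv⟩ := Finset.mem_biUnion.1 h <;>
      exact Nat.prime_of_mem_primeFactors hpv
  have hQX : ∀ p ∈ Q, X ≤ (p:ℝ) := by
    intro p hp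
    rcases Finset.mem_union.1 hp with h | h <;> obtain ⟨v, hv, hpv⟩ := Finset.mem_biUnion.1 h
    · exact (hV v hv).2 p (Nat.prime_of_mem_primeFactors hpv) (Nat.dvd_of_mem_primeFactors hpv)
    · exact (hW v hv).2 p (Nat.prime_of_mem_primeFactors hpv) (Nat.dvd_of_mem_primeFactors hpv)
  have hmemV : ∀ v ∈ V, ∀ p, p.Prime → p ∣ v → p ∈ Q := by
    intro v hv p hp hpv
    exact Finset.mem_union_left _ (Finset.mem_biUnion.2 ⟨v, hv, Nat.mem_primeFactors.2 ⟨hp, hpv, (hV v hv).1.ne'⟩⟩)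
  have hmemW : ∀ v ∈ W, ∀ p, p.Prime → p ∣ v → p ∈ Q := by
    intro v hv p hp hpv
    exact Finset.mem_union_right _ (Finset.mem_biUnion.2 ⟨v, hv, Nat.mem_primeFactors.2 ⟨hp, hpv, (hW v hv).1.ne'⟩⟩)
  have hQε : ∀ q ∈ Q, 200/(κ^(1/2-ε)*ε) ≤ (q:ℝ)^(ε/4) := fun q hq =>
    h200.trans (Real.rpow_le_rpow (by linarith) (hQX q hq) (by linarith))
  have hB := induct (base (Z := Z) hκ hκ1 hc hZ hε (by linarith)) (by positivity) hε hε8 hδ hδ1 Q hQp hQε
  have key := hB V W E id id ψ θ μ ν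
    { rv := hV
      rw := hW
      iv := fun _ _ _ _ h => h
      iw := fun _ _ _ _ h => h
      μ0 := hμ
      ν0 := hν
      μψ := hμψ
      νθ := hνθ
      hE := hE
      hQ := fun e he p hp hpv _ => hmemV _ (Finset.mem_product.1 (hE he)).1 p hp hpv }
  have eV : ∀ v ∈ V, fac Q v = (Nat.totient v : ℝ)/v := fun v hv =>
    fac_totient hQp (hV v hv).1 (hmemV v hv)
  have eW : ∀ v ∈ W, fac Q v = (Nat.totient v : ℝ)/v := fun v hv =>
    fac_totient hQp (hW v hv).1 (hmemW v hv)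
  have e1 : mass Q V id μ = ∑ v ∈ V, wt μ v :=
    Finset.sum_congr rfl fun v hv => by simp only [id]; rw [eV v hv]; rfl
  have e2 : mass Q W id ν = ∑ v ∈ W, wt ν v :=
    Finset.sum_congr rfl fun v hv => by simp only [id]; rw [eW v hv]; rfl
  have e3 : En (HZ Z) Q E id id ψ θ μ ν = ∑ e ∈ E, wt μ e.1 * wt ν e.2 * HZ Z (DD e.1 e.2 (ψ e.1) (θ e.2)) := by
    apply Finset.sum_congr rfl
    intro e he
    have hm := Finset.mem_product.1 (hE he)
    simp only [id]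
    rw [eV _ hm.1, eW _ hm.2]; rfl
  rw [e1, e2, e3] at key
  refine key.trans ?_
  have hp := prod_le hX hδ hδ1 hε hε8 h200 Q hQp hQX
  have hff : 0 ≤ ff ε (κ^(1/2-ε)) (∑ v ∈ V, wt μ v) (∑ w ∈ W, wt ν w) :=
    ff_nonneg hδ.le (Finset.sum_nonneg fun v hv => wt_nonneg (hμ v hv))
      (Finset.sum_nonneg fun v hv => wt_nonneg (hν v hv))
  have hZ2 : 0 ≤ 3 * Z^(2*ε) := by positivity
  calc 3 * Z^(2*ε) * (∏ q ∈ Q, (1 + 6*(q:ℝ)^(-(1+ε/2)))) * ff ε (κ^(1/2-ε)) (∑ v ∈ V, wt μ v) (∑ w ∈ W, wt ν w)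
      ≤ 3 * Z^(2*ε) * 2 * ff ε (κ^(1/2-ε)) (∑ v ∈ V, wt μ v) (∑ w ∈ W, wt ν w) :=
        mul_le_mul_of_nonneg_right (mul_le_mul_of_nonneg_left hp hZ2) hff
    _ = _ := by ring

/-- **Theorem X'** -/
theorem xprime {X κ Z ε : ℝ} (hX : 1 ≤ X) (hκ : 0 < κ) (hκ1 : κ ≤ 1) (hc : Count X κ) (hZ : 0 < Z)
    (hε : 0 < ε) (hε8 : ε ≤ 1/8) (h200 : 200/(κ^(1/2-ε)*ε) ≤ X^(ε/4))
    {V W : Finset ℕ} {E : Finset (ℕ × ℕ)} {ψ θ : ℕ → ℝ}
    (hV : ∀ v ∈ V, Rough X v) (hW : ∀ w ∈ W, Rough X w)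
    (hψ : ∀ v ∈ V, 0 ≤ ψ v) (hθ : ∀ w ∈ W, 0 ≤ θ w) (hE : E ⊆ V ×ˢ W)
    (hD : ∀ e ∈ E, 1/Z ≤ DD e.1 e.2 (ψ e.1) (θ e.2)) :
    ∑ e ∈ E, wt ψ e.1 * wt θ e.2 / DD e.1 e.2 (ψ e.1) (θ e.2) ≤
      6 * Z^(2*ε) * ff ε (κ^(1/2-ε)) (∑ v ∈ V, wt ψ v) (∑ w ∈ W, wt θ w) := by
  have key := xprime_gen hX hκ hκ1 hc hZ hε hε8 h200 hV hW hψ hθ (fun _ _ => le_rfl) (fun _ _ => le_rfl) hE
  refine le_trans (le_of_eq ?_) key
  apply Finset.sum_congr rfl
  intro e he
  unfold HZ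
  rw [if_pos (hD e he), mul_one_div]

end Crest.Agent.R4.X734
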