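import Mathlib
import Crest.Agent.R4.X734d

/-!
R4 (S0004), helper734: Lemma AL+ — numerics of one crossing.
-/

set_option autoImplicit false
open Finset

namespace Crest.Agent.R4.X734
open Crest.Agent.R4.HVW560

/-- `(1/P) (a·Pb)^{1/2+ε} = b y^{-(1/2-ε)} a^{2ε}`, `y = Pb/a` -/
lemma fsP {ε P a b : ℝ} (hP : 0 < P) (ha : 0 < a) (hb : 0 < b) :
    fs ε a (P*b) / P = b * (P*b/a)^(-(1/2-ε)) * a^(2*ε) := by
  have hy : 0 < P*b/a := by positivity
  have e : a * (P*b) = (P*b/a) * a^2 := by field_simp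
  unfold fs
  rw [e, Real.mul_rpow hy.le (by positivity), ← Real.rpow_natCast, ← Real.rpow_mul ha.le]
  have e1 : ((2:ℕ):ℝ) * (1/2+ε) = 1 + 2*ε := by push_cast; ring
  have e2 : (P*b/a)^(1/2+ε) = (P*b/a) * (P*b/a)^(-(1/2-ε)) := by
    conv_rhs => rw [← Real.rpow_one (P*b/a), ← Real.rpow_mul hy.le, ← Real.rpow_add hy]
    congr 1; ring
  rw [e1, Real.rpow_add ha, Real.rpow_one, e2]
  field_simp

lemma fsP' {ε P a b : ℝ} (hP : 0 < P) (ha : 0 < a) (hb : 0 < b) :
    fs ε a (P*b) / P = a/P * (P*b/a)^(1/2+ε) * a^(2*ε) := by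
  have hy : 0 < P*b/a := by positivity
  have e : a * (P*b) = (P*b/a) * a^2 := by field_simp
  unfold fs
  rw [e, Real.mul_rpow hy.le (by positivity), ← Real.rpow_natCast, ← Real.rpow_mul ha.le]
  have e1 : ((2:ℕ):ℝ) * (1/2+ε) = 1 + 2*ε := by push_cast; ring
  rw [e1, Real.rpow_add ha, Real.rpow_one]
  field_simp

lemma fs_swap {ε P a b : ℝ} : fs ε a (P*b) = fs ε b (P*a) := by
  unfold fs; congr 1; ring

lemma pow_le_one_add {x m s s' : ℝ} (hx : 0 < x) (hxm : x ≤ m) (hs : 0 ≤ s) (hss : s ≤ s') :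
    x^s ≤ 1 + m^s' := by
  have hm : 0 < m := lt_of_lt_of_le hx hxm
  rcases le_total x 1 with h | h
  · have : x^s ≤ 1 := Real.rpow_le_one hx.le h hs
    have : 0 ≤ m^s' := by positivity
    linarith
  · have h1 : x^s ≤ x^s' := Real.rpow_le_rpow_of_exponent_le h hss
    have h2 : x^s' ≤ m^s' := Real.rpow_le_rpow hx.le hxm (hs.trans hss)
    linarith

/-- constant of the crossing lemma -/
noncomputable def K0 (A CX : ℝ) : ℝ := 100 * CX * Real.exp (4*A+6)

set_option maxHeartbeats 1000000 in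
/-- numerics of one crossing piece -/
lemma NL {A L e1 e2 CX P a b m E : ℝ} (hA : 1 ≤ A) (hL : Real.exp 1 ≤ L) (he1 : e1 = 1/Real.log L)
    (he12 : e1 ≤ e2) (he2 : 16*A*e2 ≤ 1) (hCX : 1 ≤ CX) (hκ : CX / L ≤ 1) (hP : L^(A+1) ≤ P)
    (ha : 0 ≤ a) (hb : 0 ≤ b) (hm : a + b ≤ m)
    (h1 : E ≤ 6 * (L^A)^(2*e1) * ff e1 ((CX/L)^(1/2-e1)) a (P*b) / P)
    (h2 : E ≤ 6 * (L^A)^(2*e2) * ff e2 ((CX/L)^(1/2-e2)) a (P*b) / P)
    (h3 : E ≤ L^A * (a*b)) :
    E ≤ K0 A CX * (a/P*(1+m^(2*e2)) + L^(-(1/2:ℝ)) * (b/P) * (1+m^(2*e2)) +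
      L^(-(1/8:ℝ)) * (min a b * m^(2*e2))) := by
  have hL1 : 1 ≤ L := by linarith [Real.add_one_le_exp (1:ℝ)]
  have hL0 : 0 < L := by linarith
  have hlog : 1 ≤ Real.log L := by
    rw [← Real.log_exp 1]; exact Real.log_le_log (Real.exp_pos 1) hL
  have he10 : 0 < e1 := by rw [he1]; positivity
  have he20 : 0 < e2 := lt_of_lt_of_le he10 he12
  have he216 : e2 ≤ 1/16 := by nlinarith
  have he116 : e1 ≤ 1/16 := he12.trans he216
  have hPL : L ≤ P := by
    refine le_trans ?_ hP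
    calc L = L^(1:ℝ) := (Real.rpow_one L).symm
      _ ≤ L^(A+1) := Real.rpow_le_rpow_of_exponent_le hL1 (by linarith)
  have hP0 : 0 < P := by linarith
  have hP1 : 1 ≤ P := by linarith
  have hexp1 : 1 ≤ Real.exp (4*A+6) := Real.one_le_exp (by linarith)
  have hK0 : 0 < K0 A CX := by unfold K0; positivity
  have hm0 : 0 ≤ m := by linarith
  have hmp : 0 ≤ m^(2*e2) := Real.rpow_nonneg hm0 _
  have hLm12 : 0 < L^(-(1/2:ℝ)) := by positivity
  have hLm18 : 0 < L^(-(1/8:ℝ)) := by positivity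
  have hT1 : 0 ≤ a/P*(1+m^(2*e2)) := by positivity
  have hT2 : 0 ≤ L^(-(1/2:ℝ)) * (b/P) * (1+m^(2*e2)) := by positivity
  have hT3 : 0 ≤ L^(-(1/8:ℝ)) * (min a b * m^(2*e2)) := by
    have := le_min ha hb
    positivity
  rcases ha.eq_or_lt with h0 | ha'
  · rw [← h0] at h3 ⊢
    rw [zero_mul, mul_zero] at h3
    rw [← h0] at hT1 hT3
    exact h3.trans (by positivity)
  rcases hb.eq_or_lt with h0 | hb'
  · rw [← h0] at h3 ⊢
    rw [mul_zero, mul_zero] at h3
    rw [← h0] at hT2 hT3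
    exact h3.trans (by positivity)
  have hm' : 0 < m := by linarith
  have ham : a ≤ m := by linarith
  have hbm : b ≤ m := by linarith
  have hmin0 : 0 < min a b := lt_min ha' hb'
  -- small node
  by_cases hsm : m < L^(-(2*A))
  · have e : a*b = min a b * max a b := (min_mul_max a b).symm
    have hmax : max a b ≤ m := max_le ham hbm
    have hmm : m = m^(1-2*e2) * m^(2*e2) := by rw [← Real.rpow_add hm']; norm_num
    have h4 : m^(1-2*e2) ≤ L^(-(3*A/2)) := by
      calc m^(1-2*e2) ≤ (L^(-(2*A)))^(1-2*e2) := Real.rpow_le_rpow hm0 hsm.le (by linarith)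
        _ = L^(-(2*A)*(1-2*e2)) := by rw [← Real.rpow_mul hL0.le]
        _ ≤ L^(-(3*A/2)) := Real.rpow_le_rpow_of_exponent_le hL1 (by nlinarith)
    have h5 : L^A * L^(-(3*A/2)) ≤ L^(-(1/8:ℝ)) := by
      rw [← Real.rpow_add hL0]
      exact Real.rpow_le_rpow_of_exponent_le hL1 (by linarith)
    have h6 : E ≤ L^(-(1/8:ℝ)) * (min a b * m^(2*e2)) := by
      calc E ≤ L^A * (a*b) := h3
        _ = L^A * (min a b * max a b) := by rw [e]
        _ ≤ L^A * (min a b * m) := by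
            apply mul_le_mul_of_nonneg_left _ (by positivity)
            exact mul_le_mul_of_nonneg_left hmax hmin0.le
        _ = (L^A * m^(1-2*e2)) * (min a b * m^(2*e2)) := by
            conv_lhs => rw [hmm]
            ring
        _ ≤ (L^A * L^(-(3*A/2))) * (min a b * m^(2*e2)) := by
            apply mul_le_mul_of_nonneg_right _ (by positivity)
            exact mul_le_mul_of_nonneg_left h4 (by positivity)
        _ ≤ _ := mul_le_mul_of_nonneg_right h5 (by positivity)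
    have hK1 : 1 ≤ K0 A CX := by
      unfold K0; nlinarith
    calc E ≤ 1 * (L^(-(1/8:ℝ)) * (min a b * m^(2*e2))) := by rw [one_mul]; exact h6
      _ ≤ K0 A CX * (L^(-(1/8:ℝ)) * (min a b * m^(2*e2))) := mul_le_mul_of_nonneg_right hK1 hT3
      _ ≤ _ := mul_le_mul_of_nonneg_left (by linarith) hK0.le
  have hbig : L^(-(2*A)) ≤ m := not_lt.1 hsm
  -- `1 + m^{2ε''} ≤ 2 L^{1/4} m^{2ε''}`
  have h1m : 1 + m^(2*e2) ≤ 2 * L^(1/4:ℝ) * m^(2*e2) := by
    have h4 : (1:ℝ) ≤ L^(1/4:ℝ) * m^(2*e2) := by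
      have h5 : (L^(-(2*A)))^(2*e2) ≤ m^(2*e2) := Real.rpow_le_rpow (by positivity) hbig (by linarith)
      rw [← Real.rpow_mul hL0.le] at h5
      calc (1:ℝ) = L^(1/4:ℝ) * L^(-(1/4:ℝ)) := by rw [← Real.rpow_add hL0]; norm_num
        _ ≤ L^(1/4:ℝ) * L^(-(2*A)*(2*e2)) := by
            apply mul_le_mul_of_nonneg_left _ (by positivity)
            exact Real.rpow_le_rpow_of_exponent_le hL1 (by nlinarith)
        _ ≤ _ := mul_le_mul_of_nonneg_left h5 (by positivity)
    have h6 : (1:ℝ) ≤ L^(1/4:ℝ) := Real.one_le_rpow hL1 (by norm_num)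
    have h7 : m^(2*e2) ≤ L^(1/4:ℝ) * m^(2*e2) := le_mul_of_one_le_left hmp h6
    linarith
  -- powers of L with exponent e1
  have hLe1 : L^e1 = Real.exp 1 := by
    rw [he1, Real.rpow_def_of_pos hL0]
    congr 1
    field_simp
  have hLce1 : ∀ c : ℝ, L^(c*e1) = Real.exp c := by
    intro c
    rw [mul_comm, Real.rpow_mul hL0.le, hLe1, ← Real.exp_mul, one_mul]
  have hZ1 : (L^A)^(2*e1) = Real.exp (2*A) := by
    rw [← Real.rpow_mul hL0.le, show A*(2*e1) = (2*A)*e1 by ring, hLce1]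
  set δ1 : ℝ := (CX/L)^(1/2-e1) with hδ1
  have hCXL : 0 < CX/L := by positivity
  have hδ10 : 0 < δ1 := by positivity
  have hδ11 : δ1 ≤ 1 := Real.rpow_le_one hCXL.le hκ (by linarith)
  have hδ1L : δ1 ≤ CX * Real.exp 1 * L^(-(1/2:ℝ)) := by
    rw [hδ1, Real.div_rpow (by linarith) hL0.le]
    have h4 : CX^(1/2-e1) ≤ CX := by
      calc CX^(1/2-e1) ≤ CX^(1:ℝ) := Real.rpow_le_rpow_of_exponent_le hCX (by linarith)
        _ = CX := Real.rpow_one _
    have h5 : (L^(1/2-e1))⁻¹ = Real.exp 1 * L^(-(1/2:ℝ)) := by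
      rw [← Real.rpow_neg hL0.le, ← hLe1, ← Real.rpow_add hL0]
      congr 1; ring
    rw [div_eq_mul_inv, h5]
    calc CX^(1/2-e1) * (Real.exp 1 * L^(-(1/2:ℝ))) ≤ CX * (Real.exp 1 * L^(-(1/2:ℝ))) :=
          mul_le_mul_of_nonneg_right h4 (by positivity)
      _ = _ := by ring
  -- the fixed-exponent bound
  have hδ2 : (CX/L)^(1/2-e2) ≤ 1 := Real.rpow_le_one hCXL.le hκ (by linarith)
  have h2' : E ≤ 12 * (L^A)^(2*e2) * (fs e2 a (P*b) / P) := by
    refine h2.trans ?_
    have h4 := ff_le (ε := e2) he20 hδ2 ha (by positivity : 0 ≤ P*b)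
    have h5 : 0 ≤ 6 * (L^A)^(2*e2) / P := by positivity
    calc 6 * (L^A)^(2*e2) * ff e2 ((CX/L)^(1/2-e2)) a (P*b) / P
        = (6 * (L^A)^(2*e2) / P) * ff e2 ((CX/L)^(1/2-e2)) a (P*b) := by ring
      _ ≤ (6 * (L^A)^(2*e2) / P) * (2 * fs e2 a (P*b)) := mul_le_mul_of_nonneg_left h4 h5
      _ = _ := by ring
  -- large ratio: fixed exponent
  have large : ∀ x z : ℝ, 0 < x → 0 < z → x ≤ m → L^(A+1) ≤ P*z/x →
      12 * (L^A)^(2*e2) * (fs e2 x (P*z) / P) ≤ 12 * (L^(-(1/8:ℝ)) * (z * m^(2*e2))) := by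
    intro x z hx hz hxm hy
    rw [fsP hP0 hx hz]
    have h4 : (P*z/x)^(-(1/2-e2)) ≤ (L^(A+1))^(-(1/2-e2)) :=
      Real.rpow_le_rpow_of_nonpos (by positivity) hy (by linarith)
    have h5 : x^(2*e2) ≤ m^(2*e2) := Real.rpow_le_rpow hx.le hxm (by linarith)
    have h6 : (L^A)^(2*e2) * (L^(A+1))^(-(1/2-e2)) ≤ L^(-(1/8:ℝ)) := by
      rw [← Real.rpow_mul hL0.le, ← Real.rpow_mul hL0.le, ← Real.rpow_add hL0]
      apply Real.rpow_le_rpow_of_exponent_le hL1
      nlinarith
    calc 12 * (L^A)^(2*e2) * (z * (P*z/x)^(-(1/2-e2)) * x^(2*e2))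
        ≤ 12 * (L^A)^(2*e2) * (z * (L^(A+1))^(-(1/2-e2)) * m^(2*e2)) := by
          apply mul_le_mul_of_nonneg_left _ (by positivity)
          apply mul_le_mul _ h5 (by positivity) (by positivity)
          exact mul_le_mul_of_nonneg_left h4 hz.le
      _ = 12 * (((L^A)^(2*e2) * (L^(A+1))^(-(1/2-e2))) * (z * m^(2*e2))) := by ring
      _ ≤ 12 * (L^(-(1/8:ℝ)) * (z * m^(2*e2))) := by
          apply mul_le_mul_of_nonneg_left _ (by norm_num)
          exact mul_le_mul_of_nonneg_right h6 (by positivity)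
  -- sqrt part at exponent e1, moderate ratio
  have modr : ∀ x z : ℝ, 0 < x → 0 < z → x ≤ m →
      fs e1 x (P*z) / P * δ1 ≤ (x/P*(1+m^(2*e2)) * (if P*z/x ≤ 1 then CX * Real.exp 1 * L^(-(1/2:ℝ)) else 0) +
        (if P*z/x ≤ 1 then 0 else 2 * CX * Real.exp 1 * (L^(-(1/8:ℝ)) * (z * m^(2*e2))))) := by
    intro x z hx hz hxm
    have hy0 : 0 < P*z/x := by positivity
    have hxp : x^(2*e1) ≤ 1 + m^(2*e2) := pow_le_one_add hx hxm (by linarith) (by linarith)
    by_cases hy : P*z/x ≤ 1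
    · rw [if_pos hy, if_pos hy, add_zero, fsP' hP0 hx hz]
      have h4 : (P*z/x)^(1/2+e1) ≤ 1 := Real.rpow_le_one hy0.le hy (by linarith)
      have h5 : x/P * (P*z/x)^(1/2+e1) * x^(2*e1) ≤ x/P * 1 * (1+m^(2*e2)) := by
        apply mul_le_mul _ hxp (by positivity) (by positivity)
        exact mul_le_mul_of_nonneg_left h4 (by positivity)
      rw [mul_one] at h5
      exact mul_le_mul h5 hδ1L hδ10.le (by positivity)
    · rw [if_neg hy, if_neg hy, mul_zero, zero_add, fsP hP0 hx hz]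
      have hy' : 1 ≤ P*z/x := (not_le.1 hy).le
      have h4 : (P*z/x)^(-(1/2-e1)) ≤ 1 := Real.rpow_le_one_of_one_le_of_nonpos hy' (by linarith)
      have h5 : z * (P*z/x)^(-(1/2-e1)) * x^(2*e1) ≤ z * 1 * (2 * L^(1/4:ℝ) * m^(2*e2)) := by
        apply mul_le_mul _ (hxp.trans h1m) (by positivity) (by positivity)
        exact mul_le_mul_of_nonneg_left h4 hz.le
      have h6 : L^(1/4:ℝ) * L^(-(1/2:ℝ)) ≤ L^(-(1/8:ℝ)) := by
        rw [← Real.rpow_add hL0]
        exact Real.rpow_le_rpow_of_exponent_le hL1 (by norm_num)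
      calc z * (P*z/x)^(-(1/2-e1)) * x^(2*e1) * δ1
          ≤ (z * 1 * (2 * L^(1/4:ℝ) * m^(2*e2))) * (CX * Real.exp 1 * L^(-(1/2:ℝ))) :=
            mul_le_mul h5 hδ1L hδ10.le (by positivity)
        _ = 2 * CX * Real.exp 1 * ((L^(1/4:ℝ) * L^(-(1/2:ℝ))) * (z * m^(2*e2))) := by ring
        _ ≤ _ := by
            apply mul_le_mul_of_nonneg_left _ (by positivity)
            exact mul_le_mul_of_nonneg_right h6 (by positivity)
  -- bound from h1
  have h1' : E ≤ 6 * Real.exp (2*A) * (a * (P*b)^(2*e1) / P + fs e1 a (P*b) / P * δ1) := by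
    refine h1.trans ?_
    rw [hZ1]
    have h4 : f0 e1 a (P*b) ≤ a * (P*b)^(2*e1) := min_le_left _ _
    have h5 : 0 ≤ 6 * Real.exp (2*A) / P := by positivity
    have h6 : ff e1 δ1 a (P*b) ≤ a * (P*b)^(2*e1) + δ1 * fs e1 a (P*b) := by
      unfold ff; linarith
    calc 6 * Real.exp (2*A) * ff e1 δ1 a (P*b) / P
        = (6 * Real.exp (2*A) / P) * ff e1 δ1 a (P*b) := by ring
      _ ≤ (6 * Real.exp (2*A) / P) * (a * (P*b)^(2*e1) + δ1 * fs e1 a (P*b)) :=
          mul_le_mul_of_nonneg_left h6 h5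
      _ = _ := by ring
  have hE46 : Real.exp (4*A+6) = Real.exp (2*A) * Real.exp (2*(A+1)) * Real.exp 4 := by
    rw [← Real.exp_add, ← Real.exp_add]; congr 1; ring
  have hE4 : Real.exp 1 * 3 ≤ Real.exp 4 := by
    have h5 : (3:ℝ) ≤ Real.exp 3 := by linarith [Real.add_one_le_exp (3:ℝ)]
    calc Real.exp 1 * 3 ≤ Real.exp 1 * Real.exp 3 := mul_le_mul_of_nonneg_left h5 (Real.exp_pos 1).le
      _ = Real.exp 4 := by rw [← Real.exp_add]; norm_num
  have hE2A : 1 ≤ Real.exp (2*(A+1)) := Real.one_le_exp (by linarith)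
  have hE4' : 1 ≤ Real.exp 4 := Real.one_le_exp (by norm_num)
  have cK1 : 6 * Real.exp (2*A) * Real.exp (2*(A+1)) ≤ K0 A CX := by
    unfold K0; rw [hE46]
    have h5 : 0 < Real.exp (2*A) * Real.exp (2*(A+1)) := by positivity
    have h6 : 1 ≤ CX * Real.exp 4 := one_le_mul_of_one_le_of_one_le hCX hE4'
    calc 6 * Real.exp (2*A) * Real.exp (2*(A+1)) = 6 * (Real.exp (2*A) * Real.exp (2*(A+1))) * 1 := by ring
      _ ≤ 100 * (Real.exp (2*A) * Real.exp (2*(A+1))) * (CX * Real.exp 4) := by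
          apply mul_le_mul _ h6 (by norm_num) (by positivity)
          exact mul_le_mul_of_nonneg_right (by norm_num) h5.le
      _ = _ := by ring
  have cK2 : 6 * Real.exp (2*A) * (2 * CX * Real.exp 1 + 2) ≤ K0 A CX := by
    unfold K0; rw [hE46]
    have h5 : 2 * CX * Real.exp 1 + 2 ≤ 4 * CX * Real.exp 4 := by
      have h6 : CX * Real.exp 1 ≤ CX * Real.exp 4 := by
        apply mul_le_mul_of_nonneg_left _ (by linarith)
        exact Real.exp_le_exp.2 (by norm_num)
      have h7 : 1 ≤ CX * Real.exp 4 := one_le_mul_of_one_le_of_one_le hCX hE4'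
      linarith
    calc 6 * Real.exp (2*A) * (2 * CX * Real.exp 1 + 2) ≤ 6 * Real.exp (2*A) * (4 * CX * Real.exp 4) :=
          mul_le_mul_of_nonneg_left h5 (by positivity)
      _ = 24 * CX * (Real.exp (2*A) * 1 * Real.exp 4) := by ring
      _ ≤ 100 * CX * (Real.exp (2*A) * Real.exp (2*(A+1)) * Real.exp 4) := by
          apply mul_le_mul (by linarith) _ (by positivity) (by linarith)
          apply mul_le_mul_of_nonneg_right _ (by positivity)
          exact mul_le_mul_of_nonneg_left hE2A (by positivity)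
  have cK3 : 12 ≤ K0 A CX := by
    unfold K0
    have := one_le_mul_of_one_le_of_one_le hCX hexp1
    nlinarith
  have hLA1 : L^(A+1) ≤ P := hP
  -- case distinction
  by_cases hy : P*b/a ≤ L^(A+1)
  · -- case 1
    have hba : b ≤ a := by
      rw [div_le_iff₀ ha'] at hy
      have : L^(A+1) * a ≤ P * a := mul_le_mul_of_nonneg_right hLA1 ha
      have h4 : P * b ≤ P * a := hy.trans this
      exact le_of_mul_le_mul_left h4 hP0
    have hmin : min a b = b := min_eq_right hba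
    have f1 : a * (P*b)^(2*e1) / P ≤ Real.exp (2*(A+1)) * (a/P*(1+m^(2*e2))) := by
      have h4 : P*b ≤ L^(A+1) * a := by rwa [div_le_iff₀ ha'] at hy
      have h5 : (P*b)^(2*e1) ≤ Real.exp (2*(A+1)) * (1+m^(2*e2)) := by
        calc (P*b)^(2*e1) ≤ (L^(A+1)*a)^(2*e1) := Real.rpow_le_rpow (by positivity) h4 (by linarith)
          _ = (L^(A+1))^(2*e1) * a^(2*e1) := Real.mul_rpow (by positivity) ha
          _ = Real.exp (2*(A+1)) * a^(2*e1) := by
              rw [← Real.rpow_mul hL0.le, show (A+1)*(2*e1) = (2*(A+1))*e1 by ring, hLce1]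
          _ ≤ _ := by
              apply mul_le_mul_of_nonneg_left _ (by positivity)
              exact pow_le_one_add ha' ham (by linarith) (by linarith)
      calc a * (P*b)^(2*e1) / P = a/P * (P*b)^(2*e1) := by ring
        _ ≤ a/P * (Real.exp (2*(A+1)) * (1+m^(2*e2))) := mul_le_mul_of_nonneg_left h5 (by positivity)
        _ = _ := by ring
    have f2 := modr a b ha' hb' ham
    have f3 : fs e1 a (P*b) / P * δ1 ≤ a/P*(1+m^(2*e2)) * (2 * CX * Real.exp 1) +
        2 * CX * Real.exp 1 * (L^(-(1/8:ℝ)) * (min a b * m^(2*e2))) := by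
      refine f2.trans ?_
      rw [hmin]
      have hLm : L^(-(1/2:ℝ)) ≤ 1 := Real.rpow_le_one_of_one_le_of_nonpos hL1 (by norm_num)
      have hc : CX * Real.exp 1 * L^(-(1/2:ℝ)) ≤ 2 * CX * Real.exp 1 := by
        have : CX * Real.exp 1 * L^(-(1/2:ℝ)) ≤ CX * Real.exp 1 * 1 :=
          mul_le_mul_of_nonneg_left hLm (by positivity)
        have : 0 ≤ CX * Real.exp 1 := by positivity
        linarith
      split_ifs
      · have h7 : a/P*(1+m^(2*e2)) * (CX * Real.exp 1 * L^(-(1/2:ℝ))) ≤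
            a/P*(1+m^(2*e2)) * (2 * CX * Real.exp 1) := mul_le_mul_of_nonneg_left hc hT1
        have h8 : 0 ≤ 2 * CX * Real.exp 1 * (L^(-(1/8:ℝ)) * (b * m^(2*e2))) := by positivity
        linarith
      · have h8 : 0 ≤ a/P*(1+m^(2*e2)) * (2 * CX * Real.exp 1) := by positivity
        rw [mul_zero, zero_add]
        linarith
    have g1 : (6 * Real.exp (2*A) * Real.exp (2*(A+1))) * (a/P*(1+m^(2*e2))) ≤ K0 A CX * (a/P*(1+m^(2*e2))) :=
      mul_le_mul_of_nonneg_right cK1 hT1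
    have hKs : 6 * Real.exp (2*A) * (2 * CX * Real.exp 1) + 6 * Real.exp (2*A) * Real.exp (2*(A+1)) ≤ K0 A CX := by
      unfold K0; rw [hE46]
      have q1 : 2 * CX * Real.exp 1 ≤ 2 * CX * Real.exp 4 := by
        apply mul_le_mul_of_nonneg_left _ (by linarith)
        exact Real.exp_le_exp.2 (by norm_num)
      have q2 : 6 * Real.exp (2*A) * (2 * CX * Real.exp 1) ≤ 12 * CX * (Real.exp (2*A) * Real.exp (2*(A+1)) * Real.exp 4) := by
        calc 6 * Real.exp (2*A) * (2 * CX * Real.exp 1) ≤ 6 * Real.exp (2*A) * (2 * CX * Real.exp 4) :=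
              mul_le_mul_of_nonneg_left q1 (by positivity)
          _ = 12 * CX * (Real.exp (2*A) * 1 * Real.exp 4) := by ring
          _ ≤ _ := by
              apply mul_le_mul_of_nonneg_left _ (by positivity)
              apply mul_le_mul_of_nonneg_right _ (by positivity)
              exact mul_le_mul_of_nonneg_left hE2A (by positivity)
      have q3 : 6 * Real.exp (2*A) * Real.exp (2*(A+1)) ≤ 6 * CX * (Real.exp (2*A) * Real.exp (2*(A+1)) * Real.exp 4) := by
        have h6 : 1 ≤ CX * Real.exp 4 := one_le_mul_of_one_le_of_one_le hCX hE4'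
        calc 6 * Real.exp (2*A) * Real.exp (2*(A+1)) = 6 * (Real.exp (2*A) * Real.exp (2*(A+1))) * 1 := by ring
          _ ≤ 6 * (Real.exp (2*A) * Real.exp (2*(A+1))) * (CX * Real.exp 4) :=
              mul_le_mul_of_nonneg_left h6 (by positivity)
          _ = _ := by ring
      have q4 : 0 ≤ CX * (Real.exp (2*A) * Real.exp (2*(A+1)) * Real.exp 4) := by positivity
      nlinarith
    calc E ≤ 6 * Real.exp (2*A) * (a * (P*b)^(2*e1) / P + fs e1 a (P*b) / P * δ1) := h1'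
      _ ≤ 6 * Real.exp (2*A) * (Real.exp (2*(A+1)) * (a/P*(1+m^(2*e2))) + (a/P*(1+m^(2*e2)) * (2 * CX * Real.exp 1) +
        2 * CX * Real.exp 1 * (L^(-(1/8:ℝ)) * (min a b * m^(2*e2))))) :=
          mul_le_mul_of_nonneg_left (add_le_add f1 f3) (by positivity)
      _ = (6 * Real.exp (2*A) * (2 * CX * Real.exp 1) + 6 * Real.exp (2*A) * Real.exp (2*(A+1))) * (a/P*(1+m^(2*e2)))
          + (6 * Real.exp (2*A) * (2 * CX * Real.exp 1)) * (L^(-(1/8:ℝ)) * (min a b * m^(2*e2))) := by ring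
      _ ≤ K0 A CX * (a/P*(1+m^(2*e2))) + K0 A CX * (L^(-(1/8:ℝ)) * (min a b * m^(2*e2))) := by
          apply add_le_add
          · exact mul_le_mul_of_nonneg_right hKs hT1
          · apply mul_le_mul_of_nonneg_right _ hT3
            have : 0 ≤ 6 * Real.exp (2*A) * 2 := by positivity
            linarith
      _ ≤ _ := by
          rw [← mul_add]
          apply mul_le_mul_of_nonneg_left _ hK0.le
          linarith
  · have hy' : L^(A+1) ≤ P*b/a := (not_le.1 hy).le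
    rcases le_total b a with hba | hab
    · -- case 2a
      have hmin : min a b = b := min_eq_right hba
      have := large a b ha' hb' ham hy'
      calc E ≤ 12 * (L^A)^(2*e2) * (fs e2 a (P*b) / P) := h2'
        _ ≤ 12 * (L^(-(1/8:ℝ)) * (min a b * m^(2*e2))) := by rw [hmin]; exact this
        _ ≤ K0 A CX * (L^(-(1/8:ℝ)) * (min a b * m^(2*e2))) := mul_le_mul_of_nonneg_right cK3 hT3
        _ ≤ _ := mul_le_mul_of_nonneg_left (by linarith) hK0.le
    · have hmin : min a b = a := min_eq_left hab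
      by_cases hr : P*a/b ≤ L^(A+1)
      · -- moderate r
        have f1 : a * (P*b)^(2*e1) / P ≤ 2 * (L^(-(1/8:ℝ)) * (min a b * m^(2*e2))) := by
          rw [hmin, Real.mul_rpow hP0.le hb]
          have h4 : b^(2*e1) ≤ 2 * L^(1/4:ℝ) * m^(2*e2) :=
            (pow_le_one_add hb' hbm (by linarith) (by linarith)).trans h1m
          have h5 : P^(2*e1) / P ≤ L^(-(3/8:ℝ)) := by
            have e5 : P^(2*e1)/P = P^(2*e1-1) := by rw [Real.rpow_sub hP0, Real.rpow_one]
            rw [e5]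
            calc P^(2*e1-1) ≤ P^(-(3/8:ℝ)) := Real.rpow_le_rpow_of_exponent_le hP1 (by linarith)
              _ ≤ L^(-(3/8:ℝ)) := Real.rpow_le_rpow_of_nonpos hL0 hPL (by norm_num)
          calc a * (P^(2*e1) * b^(2*e1)) / P = a * (P^(2*e1) / P) * b^(2*e1) := by ring
            _ ≤ a * L^(-(3/8:ℝ)) * (2 * L^(1/4:ℝ) * m^(2*e2)) := by
                apply mul_le_mul _ h4 (by positivity) (by positivity)
                exact mul_le_mul_of_nonneg_left h5 ha
            _ = 2 * ((L^(-(3/8:ℝ)) * L^(1/4:ℝ)) * (a * m^(2*e2))) := by ring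
            _ = 2 * (L^(-(1/8:ℝ)) * (a * m^(2*e2))) := by rw [← Real.rpow_add hL0]; norm_num
        have f2 := modr b a hb' ha' hbm
        rw [← fs_swap (P := P) (a := a) (b := b)] at f2
        have f3 : fs e1 a (P*b) / P * δ1 ≤ 2 * CX * Real.exp 1 * (L^(-(1/2:ℝ)) * (b/P) * (1+m^(2*e2))) +
            2 * CX * Real.exp 1 * (L^(-(1/8:ℝ)) * (min a b * m^(2*e2))) := by
          refine f2.trans ?_
          rw [hmin]
          split_ifs
          · have h8 : 0 ≤ 2 * CX * Real.exp 1 * (L^(-(1/8:ℝ)) * (a * m^(2*e2))) := by positivity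
            have h9 : 0 ≤ CX * Real.exp 1 * (L^(-(1/2:ℝ)) * (b/P) * (1+m^(2*e2))) := by positivity
            linarith
          · have h8 : 0 ≤ 2 * CX * Real.exp 1 * (L^(-(1/2:ℝ)) * (b/P) * (1+m^(2*e2))) := by positivity
            rw [mul_zero, zero_add]
            linarith
        calc E ≤ 6 * Real.exp (2*A) * (a * (P*b)^(2*e1) / P + fs e1 a (P*b) / P * δ1) := h1'
          _ ≤ 6 * Real.exp (2*A) * (2 * (L^(-(1/8:ℝ)) * (min a b * m^(2*e2))) +
              (2 * CX * Real.exp 1 * (L^(-(1/2:ℝ)) * (b/P) * (1+m^(2*e2))) +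
            2 * CX * Real.exp 1 * (L^(-(1/8:ℝ)) * (min a b * m^(2*e2))))) :=
              mul_le_mul_of_nonneg_left (add_le_add f1 f3) (by positivity)
          _ = (6 * Real.exp (2*A) * (2 * CX * Real.exp 1)) * (L^(-(1/2:ℝ)) * (b/P) * (1+m^(2*e2))) +
              (6 * Real.exp (2*A) * (2 * CX * Real.exp 1 + 2)) * (L^(-(1/8:ℝ)) * (min a b * m^(2*e2))) := by ring
          _ ≤ K0 A CX * (L^(-(1/2:ℝ)) * (b/P) * (1+m^(2*e2))) +
              K0 A CX * (L^(-(1/8:ℝ)) * (min a b * m^(2*e2))) := by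
              apply add_le_add
              · apply mul_le_mul_of_nonneg_right _ hT2
                have : 0 ≤ 6 * Real.exp (2*A) * 2 := by positivity
                linarith
              · exact mul_le_mul_of_nonneg_right cK2 hT3
          _ ≤ _ := by
              rw [← mul_add]
              apply mul_le_mul_of_nonneg_left _ hK0.le
              linarith
      · have hr' : L^(A+1) ≤ P*a/b := (not_le.1 hr).le
        have := large b a hb' ha' hbm hr'
        rw [← fs_swap (P := P) (a := a) (b := b)] at this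
        calc E ≤ 12 * (L^A)^(2*e2) * (fs e2 a (P*b) / P) := h2'
          _ ≤ 12 * (L^(-(1/8:ℝ)) * (min a b * m^(2*e2))) := by rw [hmin]; exact this
          _ ≤ K0 A CX * (L^(-(1/8:ℝ)) * (min a b * m^(2*e2))) := mul_le_mul_of_nonneg_right cK3 hT3
          _ ≤ _ := mul_le_mul_of_nonneg_left (by linarith) hK0.le

end Crest.Agent.R4.X734
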