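import Mathlib
import Crest.Agent.R4.X734e

/-!
R4 (S0004), helper734: Lemma AL+ — the crossing lemma at one node.
-/

set_option autoImplicit false
open Finset

namespace Crest.Agent.R4.X734
open Crest.Agent.R4.HVW560 Crest.Agent.R4.LF8

lemma XB.mono {H : ℝ → ℝ} {ε δ X : ℝ} {Q : Finset ℕ} {B B' : ℝ} (h : XB H ε δ X Q B) (hBB : B ≤ B')
    (hδ : 0 ≤ δ) (hQ : ∀ q ∈ Q, q.Prime) : XB H ε δ X Q B' := by
  intro I J E v w ψ θ μ ν S
  refine (h I J E v w ψ θ μ ν S).trans ?_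
  exact mul_le_mul_of_nonneg_right hBB (ff_nonneg hδ (mass_nonneg hQ S.μ0) (mass_nonneg hQ S.ν0))

/-- Theorem X' in system form, asymptotic -/
theorem xb_log : ∃ C : ℝ, 1 ≤ C ∧ ∀ A : ℝ, 0 < A → ∃ X0 : ℝ, 2 ≤ X0 ∧ ∀ X : ℝ, X0 ≤ X →
    0 < C / Real.log X ∧ C / Real.log X ≤ 1 ∧
    ∀ Z ε : ℝ, 0 < Z → 1/(A * Real.log (Real.log X)) ≤ ε → ε ≤ 1/8 →
    ∀ Q : Finset ℕ, (∀ q ∈ Q, q.Prime) → (∀ q ∈ Q, X ≤ (q:ℝ)) →
    XB (HZ Z) ε ((C / Real.log X)^(1/2-ε)) X Q (6 * Z^(2*ε)) := by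
  obtain ⟨C, hC1, hC⟩ := count_rough
  refine ⟨C, hC1, fun A hA => ?_⟩
  have hev := (Real.tendsto_log_atTop.eventually (size_cond hA)).and
    (Real.tendsto_log_atTop.eventually (Filter.eventually_ge_atTop (C + Real.exp 1)))
  obtain ⟨X1, hX1⟩ := Filter.eventually_atTop.1 hev
  refine ⟨max X1 2, le_max_right _ _, fun X hX => ?_⟩
  obtain ⟨h1, h2⟩ := hX1 X ((le_max_left _ _).trans hX)
  have hX2 : 2 ≤ X := (le_max_right _ _).trans hX
  have hL0 : 0 < Real.log X := Real.log_pos (by linarith)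
  have hLC : C ≤ Real.log X := by linarith [Real.exp_pos 1]
  have hLe : Real.exp 1 ≤ Real.log X := by linarith
  have hll : 1 ≤ Real.log (Real.log X) := by
    rw [← Real.log_exp 1]; exact Real.log_le_log (Real.exp_pos 1) hLe
  have hκ : 0 < C / Real.log X := by positivity
  have hκ1 : C / Real.log X ≤ 1 := by rw [div_le_one hL0]; exact hLC
  refine ⟨hκ, hκ1, ?_⟩
  intro Z ε hZ hεl hε8 Q hQ hQX
  have hA0 : 0 < A * Real.log (Real.log X) := by positivity
  have hε : 0 < ε := lt_of_lt_of_le (by positivity) hεl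
  set δ : ℝ := (C / Real.log X)^(1/2-ε) with hδ
  have hδ0 : 0 < δ := by positivity
  have hδ1 : δ ≤ 1 := Real.rpow_le_one hκ.le hκ1 (by linarith)
  have h200 : 200/(δ*ε) ≤ X^(ε/4) := by
    set L := Real.log X with hL
    have e1 : X^(ε/4) = Real.exp (L * (ε/4)) := by rw [Real.rpow_def_of_pos (by linarith)]
    have h3 : L/(4*A*Real.log L) ≤ L * (ε/4) := by
      calc L/(4*A*Real.log L) = L * (1/(A*Real.log L) / 4) := by field_simp
        _ ≤ L * (ε/4) := mul_le_mul_of_nonneg_left (by linarith) hL0.le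
    have h4 : 1 / (C/L)^(1/2-ε) ≤ L^(1/2:ℝ) := by
      have h5 : (1/L)^(1/2-ε) ≤ (C/L)^(1/2-ε) :=
        Real.rpow_le_rpow (by positivity) (div_le_div_of_nonneg_right hC1 hL0.le) (by linarith)
      have h6 : 0 < (1/L)^(1/2-ε) := by positivity
      calc 1 / (C/L)^(1/2-ε) ≤ 1/(1/L)^(1/2-ε) := one_div_le_one_div_of_le h6 h5
        _ = L^(1/2-ε) := by rw [Real.div_rpow zero_le_one hL0.le, Real.one_rpow, one_div_one_div]
        _ ≤ L^(1/2:ℝ) := Real.rpow_le_rpow_of_exponent_le (by linarith [Real.add_one_le_exp (1:ℝ)]) (by linarith)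
    have h5 : 1/ε ≤ A * Real.log L := by
      rw [div_le_iff₀ hε]
      have := (div_le_iff₀ hA0).1 hεl
      linarith
    calc 200/(δ*ε) = 200 * ((1 / (C/L)^(1/2-ε)) * (1/ε)) := by rw [hδ]; field_simp
      _ ≤ 200 * (L^(1/2:ℝ) * (A * Real.log L)) := by
          apply mul_le_mul_of_nonneg_left _ (by norm_num)
          exact mul_le_mul h4 h5 (by positivity) (by positivity)
      _ = 200 * A * L^(1/2:ℝ) * Real.log L := by ring
      _ ≤ Real.exp (L/(4*A*Real.log L)) := h1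
      _ ≤ Real.exp (L * (ε/4)) := Real.exp_le_exp.2 h3
      _ = X^(ε/4) := e1.symm
  have hQε : ∀ q ∈ Q, 200/(δ*ε) ≤ (q:ℝ)^(ε/4) := fun q hq =>
    h200.trans (Real.rpow_le_rpow (by linarith) (hQX q hq) (by linarith))
  have hB := induct (base (Z := Z) hκ hκ1 (hC X hX2) hZ hε (by linarith)) (by positivity) hε hε8 hδ0 hδ1 Q hQ hQε
  apply hB.mono _ hδ0.le hQ
  have hp := prod_le (by linarith) hδ0 hδ1 hε hε8 h200 Q hQ hQX
  have : 0 ≤ 3 * Z^(2*ε) := by positivity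
  calc 3 * Z^(2*ε) * (∏ q ∈ Q, (1 + 6*(q:ℝ)^(-(1+ε/2)))) ≤ 3 * Z^(2*ε) * 2 :=
        mul_le_mul_of_nonneg_left hp this
    _ = _ := by ring

/-- the size conditions on the prime `p` (with `L = log p`, `Z = L^A`) -/
structure Big (A e2 CX : ℝ) (p : ℕ) : Prop where
  pp : p.Prime
  L1 : Real.exp 1 ≤ Real.log p
  e12 : 1/Real.log (Real.log p) ≤ e2
  κ1 : CX / Real.log p ≤ 1
  LP : (Real.log p)^(A+1) ≤ p
  b1 : ∀ Q : Finset ℕ, (∀ q ∈ Q, q.Prime) → (∀ q ∈ Q, (p:ℝ) ≤ (q:ℝ)) →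
    XB (HZ ((Real.log p)^A)) (1/Real.log (Real.log p)) ((CX / Real.log p)^(1/2-1/Real.log (Real.log p))) p Q
      (6 * ((Real.log p)^A)^(2*(1/Real.log (Real.log p))))
  b2 : ∀ Q : Finset ℕ, (∀ q ∈ Q, q.Prime) → (∀ q ∈ Q, (p:ℝ) ≤ (q:ℝ)) →
    XB (HZ ((Real.log p)^A)) e2 ((CX / Real.log p)^(1/2-e2)) p Q
      (6 * ((Real.log p)^A)^(2*e2))

open Filter in
theorem exists_big : ∃ CX : ℝ, 1 ≤ CX ∧ ∀ A e2 : ℝ, 1 ≤ A → 0 < e2 → e2 ≤ 1/8 →
    ∃ p0 : ℕ, ∀ p : ℕ, p0 ≤ p → p.Prime → Big A e2 CX p := by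
  obtain ⟨CX, hCX, hx⟩ := xb_log
  refine ⟨CX, hCX, fun A e2 hA he2 he28 => ?_⟩
  obtain ⟨X0, hX02, hX0⟩ := hx 1 one_pos
  have t1 : Tendsto (fun x : ℝ => Real.log (Real.log x)) atTop atTop :=
    Real.tendsto_log_atTop.comp Real.tendsto_log_atTop
  have ev1 : ∀ᶠ x : ℝ in atTop, 1/e2 ≤ Real.log (Real.log x) := t1.eventually (eventually_ge_atTop _)
  have ev1' : ∀ᶠ x : ℝ in atTop, 8 ≤ Real.log (Real.log x) := t1.eventually (eventually_ge_atTop _)
  have ev2 : ∀ᶠ x : ℝ in atTop, CX + Real.exp 1 ≤ Real.log x :=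
    Real.tendsto_log_atTop.eventually (eventually_ge_atTop _)
  have ev3 : ∀ᶠ x : ℝ in atTop, (Real.log x)^(A+1) ≤ x := by
    have h := (isLittleO_log_rpow_rpow_atTop (A+1) one_pos).bound (zero_lt_one)
    filter_upwards [h, eventually_ge_atTop (1:ℝ)] with x hx hx1
    have hl : 0 ≤ Real.log x := Real.log_nonneg hx1
    rw [Real.norm_eq_abs, Real.norm_eq_abs, Real.rpow_one, one_mul,
      abs_of_nonneg (Real.rpow_nonneg hl _), abs_of_nonneg (by linarith)] at hx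
    exact hx
  obtain ⟨x1, hx1⟩ := Filter.eventually_atTop.1 (((ev1.and ev2).and ev3).and ev1')
  refine ⟨⌈max x1 X0⌉₊, fun p hp hpp => ?_⟩
  have hp' : max x1 X0 ≤ (p:ℝ) := (Nat.le_ceil _).trans (by exact_mod_cast hp)
  obtain ⟨⟨⟨h1, h2⟩, h3⟩, h4⟩ := hx1 p ((le_max_left _ _).trans hp')
  obtain ⟨hκ, hκ1, hxb⟩ := hX0 p ((le_max_right _ _).trans hp')
  have hL0 : 0 < Real.log p := by linarith [Real.exp_pos 1]
  have hll : 0 < Real.log (Real.log p) := by linarith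
  have e12 : 1/Real.log (Real.log p) ≤ e2 := by
    rw [div_le_iff₀ hll]
    rw [div_le_iff₀ he2] at h1
    linarith
  refine ⟨hpp, by linarith, e12, ?_, h3, ?_, ?_⟩
  · rw [div_le_one hL0]; linarith [Real.exp_pos 1]
  · intro Q hQ hQp
    apply hxb _ _ (by positivity) (by rw [one_mul]) _ Q hQ hQp
    rw [div_le_iff₀ hll]; linarith
  · intro Q hQ hQp
    apply hxb _ _ (by positivity) (by rw [one_mul]; exact e12) he28 Q hQ hQp

lemma ff_comm {ε δ x y : ℝ} : ff ε δ x y = ff ε δ y x := by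
  have h1 : f0 ε x y = f0 ε y x := by
    unfold f0; rw [min_comm]; congr 1 <;> ring
  have h2 : fs ε x y = fs ε y x := by unfold fs; rw [mul_comm]
  unfold ff; rw [h1, h2]

/-- mass of the elements of level `k` -/
noncomputable def lev (p : ℕ) (V : Finset ℕ) (Ψ : ℕ → ℝ) (k : ℕ) : ℝ :=
  ∑ v ∈ V.filter (fun v => v.factorization p = k), wt Ψ v

/-- total mass -/
noncomputable def tot (V : Finset ℕ) (Ψ : ℕ → ℝ) : ℝ := ∑ v ∈ V, wt Ψ v

lemma lev_nonneg {p : ℕ} {V : Finset ℕ} {Ψ : ℕ → ℝ} (hΨ : ∀ v ∈ V, 0 ≤ Ψ v) (k : ℕ) :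
    0 ≤ lev p V Ψ k :=
  Finset.sum_nonneg fun v hv => wt_nonneg (hΨ v (Finset.mem_filter.1 hv).1)

/-- one exact piece `(k,j)`, `k ≠ j` -/
theorem piece_le {A e2 CX : ℝ} (hA : 1 ≤ A) (he2 : 16*A*e2 ≤ 1) (hCX : 1 ≤ CX) {p : ℕ}
    (hp : Big A e2 CX p) {V : Finset ℕ} {Ψ : ℕ → ℝ} (hV : ∀ v ∈ V, Rough p v) (hΨ : ∀ v ∈ V, 0 ≤ Ψ v)
    {k j : ℕ} (hkj : k ≠ j) {E : Finset (ℕ × ℕ)} (hE : E ⊆ V ×ˢ V)
    (hEk : ∀ e ∈ E, e.1.factorization p = k ∧ e.2.factorization p = j) :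
    ∑ e ∈ E, wt Ψ e.1 * wt Ψ e.2 * HZ ((Real.log p)^A) (DD e.1 e.2 (Ψ e.1) (Ψ e.2)) ≤
      K0 A CX * (lev p V Ψ (max k j)/(p:ℝ)^(dst k j)*(1+(tot V Ψ)^(2*e2)) +
        (Real.log p)^(-(1/2:ℝ)) * (lev p V Ψ (min k j)/(p:ℝ)^(dst k j)) * (1+(tot V Ψ)^(2*e2)) +
      (Real.log p)^(-(1/8:ℝ)) * (min (lev p V Ψ (max k j)) (lev p V Ψ (min k j)) * (tot V Ψ)^(2*e2))) ∧
    ∑ e ∈ E, wt Ψ e.1 * wt Ψ e.2 * HZ ((Real.log p)^A) (DD e.1 e.2 (Ψ e.1) (Ψ e.2)) ≤
      12 * ((Real.log p)^A)^(2*e2) * (((p:ℝ)^(-(1/2-e2)))^(dst k j) * (lev p V Ψ k * lev p V Ψ j)^(1/2+e2)) := by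
  classical
  have hpp := hp.pp
  have hp0 : (0:ℝ) < p := by exact_mod_cast hpp.pos
  have hp1 : (1:ℝ) ≤ p := by exact_mod_cast hpp.one_le
  have hL0 : 0 < Real.log p := lt_of_lt_of_le (Real.exp_pos 1) hp.L1
  have hll : 0 < Real.log (Real.log p) := Real.log_pos (by linarith [hp.L1, Real.add_one_le_exp (1:ℝ)])
  set Z : ℝ := (Real.log p)^A with hZ
  have hZ0 : 0 < Z := by positivity
  set Q : Finset ℕ := (V.biUnion Nat.primeFactors).erase p with hQ
  have hQp : ∀ q ∈ Q, q.Prime := by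
    intro q hq
    obtain ⟨v, hv, hqv⟩ := Finset.mem_biUnion.1 (Finset.mem_erase.1 hq).2
    exact Nat.prime_of_mem_primeFactors hqv
  have hQX : ∀ q ∈ Q, (p:ℝ) ≤ (q:ℝ) := by
    intro q hq
    obtain ⟨v, hv, hqv⟩ := Finset.mem_biUnion.1 (Finset.mem_erase.1 hq).2
    exact (hV v hv).2 q (Nat.prime_of_mem_primeFactors hqv) (Nat.dvd_of_mem_primeFactors hqv)
  have hpQ : p ∉ Q := Finset.notMem_erase _ _
  have hIQ := insert_prime hQp hpp
  have hmem : ∀ v ∈ V, ∀ q, q.Prime → q ∣ v → q ∈ insert p Q := by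
    intro v hv q hq hqv
    by_cases h : q = p
    · rw [h]; exact Finset.mem_insert_self _ _
    · apply Finset.mem_insert_of_mem
      rw [hQ, Finset.mem_erase]
      exact ⟨h, Finset.mem_biUnion.2 ⟨v, hv, Nat.mem_primeFactors.2 ⟨hq, hqv, (hV v hv).1.ne'⟩⟩⟩
  have efac : ∀ v ∈ V, fac (insert p Q) v = (Nat.totient v : ℝ)/v := fun v hv =>
    fac_totient hIQ (hV v hv).1 (hmem v hv)
  have subk : V.filter (fun v => v.factorization p = k) ⊆ V := Finset.filter_subset _ _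
  have subj : V.filter (fun v => v.factorization p = j) ⊆ V := Finset.filter_subset _ _
  have hEsub : E ⊆ (V.filter (fun v => v.factorization p = k)) ×ˢ (V.filter (fun v => v.factorization p = j)) := by
    intro e he
    have hm := Finset.mem_product.1 (hE he)
    rw [Finset.mem_product, Finset.mem_filter, Finset.mem_filter]
    exact ⟨⟨hm.1, (hEk e he).1⟩, ⟨hm.2, (hEk e he).2⟩⟩
  have S0 : Sys p (insert p Q) V V E id id Ψ Ψ Ψ Ψ :=
    { rv := hV
      rw := hV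
      iv := fun _ _ _ _ h => h
      iw := fun _ _ _ _ h => h
      μ0 := hΨ
      ν0 := hΨ
      μψ := fun _ _ => le_rfl
      νθ := fun _ _ => le_rfl
      hE := hE
      hQ := fun e he q hq hqv _ => hmem _ (Finset.mem_product.1 (hE he)).1 q hq hqv }
  have S := S0.restrict subk subj (le_refl E) hEsub
  have em : ∀ i, mass (insert p Q) (V.filter (fun v => v.factorization p = i)) id Ψ = lev p V Ψ i := by
    intro i
    unfold mass lev
    apply Finset.sum_congr rfl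
    intro v hv
    simp only [id]
    rw [efac v (Finset.mem_filter.1 hv).1]; rfl
  have eE : ∀ H : ℝ → ℝ, En H (insert p Q) E id id Ψ Ψ Ψ Ψ =
      ∑ e ∈ E, wt Ψ e.1 * wt Ψ e.2 * H (DD e.1 e.2 (Ψ e.1) (Ψ e.2)) := by
    intro H
    unfold En
    apply Finset.sum_congr rfl
    intro e he
    have hm := Finset.mem_product.1 (hE he)
    simp only [id]
    rw [efac _ hm.1, efac _ hm.2]; rfl
  have ex := fun {ε δ B : ℝ} (hB : XB (HZ Z) ε δ p Q B) =>
    exact_part hB hQp hpp hpQ k j S (fun i hi => (Finset.mem_filter.1 hi).2) (fun i hi => (Finset.mem_filter.1 hi).2)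
  have x1 := ex (hp.b1 Q hQp hQX)
  have x2 := ex (hp.b2 Q hQp hQX)
  rw [em, em, eE] at x1 x2
  set T : ℝ := ∑ e ∈ E, wt Ψ e.1 * wt Ψ e.2 * HZ Z (DD e.1 e.2 (Ψ e.1) (Ψ e.2)) with hT
  have lk := lev_nonneg (p := p) hΨ k
  have lj := lev_nonneg (p := p) hΨ j
  have hκ0 : 0 < CX / Real.log p := by positivity
  have he20 : 0 < e2 := lt_of_lt_of_le (by positivity) hp.e12
  have he216 : e2 ≤ 1/16 := by nlinarith
  have hδ2 : (CX / Real.log p)^(1/2-e2) ≤ 1 := Real.rpow_le_one hκ0.le hp.κ1 (by linarith)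
  have hP : (0:ℝ) < (p:ℝ)^(dst k j) := by positivity
  -- trivial bound
  have x3 : T ≤ Z * (lev p V Ψ k * lev p V Ψ j) := by
    calc T ≤ ∑ e ∈ E, Z * (wt Ψ e.1 * wt Ψ e.2) := by
          apply Finset.sum_le_sum
          intro e he
          have hm := Finset.mem_product.1 (hE he)
          have w1 := wt_nonneg (hΨ _ hm.1)
          have w2 := wt_nonneg (hΨ _ hm.2)
          rw [mul_comm]
          apply mul_le_mul_of_nonneg_right _ (mul_nonneg w1 w2)
          unfold HZ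
          split_ifs with h
          · have hZp : 0 < 1/Z := by positivity
            calc 1 / DD e.1 e.2 (Ψ e.1) (Ψ e.2) ≤ 1/(1/Z) := one_div_le_one_div_of_le hZp h
              _ = Z := by rw [one_div_one_div]
          · exact hZ0.le
      _ ≤ ∑ e ∈ (V.filter (fun v => v.factorization p = k)) ×ˢ (V.filter (fun v => v.factorization p = j)),
            Z * (wt Ψ e.1 * wt Ψ e.2) := by
          apply Finset.sum_le_sum_of_subset_of_nonneg hEsub
          intro e he _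
          have hm := Finset.mem_product.1 he
          exact mul_nonneg hZ0.le (mul_nonneg (wt_nonneg (hΨ _ (subk hm.1))) (wt_nonneg (hΨ _ (subj hm.2))))
      _ = _ := by
          rw [← Finset.mul_sum, Finset.sum_product]
          congr 1
          unfold lev
          rw [Finset.sum_mul_sum]
  constructor
  · -- symmetric reduction to `a = lev max`, `b = lev min`
    set a : ℝ := lev p V Ψ (max k j) with ha
    set b : ℝ := lev p V Ψ (min k j) with hb
    have la : 0 ≤ a := lev_nonneg hΨ _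
    have lb : 0 ≤ b := lev_nonneg hΨ _
    have hab : a * b = lev p V Ψ k * lev p V Ψ j := by
      rw [ha, hb]
      rcases le_total k j with h | h
      · rw [max_eq_right h, min_eq_left h]; ring
      · rw [max_eq_left h, min_eq_right h]
    have hff : ∀ ε δ : ℝ, ff ε δ ((p:ℝ)^(j-k) * lev p V Ψ k) ((p:ℝ)^(k-j) * lev p V Ψ j) =
        ff ε δ a ((p:ℝ)^(dst k j) * b) := by
      intro ε δ
      rcases le_total k j with h | h
      · rw [ff_comm, ha, hb, max_eq_right h, min_eq_left h]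
        have e1 : k - j = 0 := by omega
        have e2 : dst k j = j - k := by unfold dst; omega
        rw [e1, e2, pow_zero, one_mul]
      · rw [ha, hb, max_eq_left h, min_eq_right h]
        have e1 : j - k = 0 := by omega
        have e2 : dst k j = k - j := by unfold dst; omega
        rw [e1, e2, pow_zero, one_mul]
    have hm : a + b ≤ tot V Ψ := by
      have h1 : a + b = lev p V Ψ k + lev p V Ψ j := by
        rw [ha, hb]
        rcases le_total k j with h | h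
        · rw [max_eq_right h, min_eq_left h]; ring
        · rw [max_eq_left h, min_eq_right h]
      rw [h1]
      unfold lev tot
      rw [← Finset.sum_union]
      · apply Finset.sum_le_sum_of_subset_of_nonneg (Finset.union_subset subk subj)
        intro v hv _; exact wt_nonneg (hΨ v hv)
      · rw [Finset.disjoint_filter]
        intro v _ h1 h2
        exact hkj (h1.symm.trans h2)
    have hPL : (Real.log p)^(A+1) ≤ (p:ℝ)^(dst k j) := by
      refine hp.LP.trans ?_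
      calc (p:ℝ) = (p:ℝ)^1 := (pow_one _).symm
        _ ≤ (p:ℝ)^(dst k j) := pow_le_pow_right₀ hp1 (dst_pos hkj)
    apply NL hA hp.L1 rfl hp.e12 he2 hCX hp.κ1 hPL la lb hm
    · rw [hff] at x1
      refine x1.trans (le_of_eq ?_)
      ring
    · rw [hff] at x2
      refine x2.trans (le_of_eq ?_)
      ring
    · rw [hab]; exact x3
  · refine x2.trans ?_
    have h1 := Tk_le (p := p) (M := 1) (N := 1) (a := fun i => lev p V Ψ i) (b := fun i => lev p V Ψ i)
      he20 hδ2 hpp.pos zero_le_one zero_le_one (fun i => lev_nonneg hΨ i) (fun i => lev_nonneg hΨ i) k j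
    have e1 : fs e2 1 1 = 1 := by unfold fs; rw [one_mul, Real.one_rpow]
    unfold Tk at h1
    rw [e1, mul_one, mul_one, mul_one] at h1
    calc 6 * Z^(2*e2) * (ff e2 ((CX / Real.log p)^(1/2-e2)) ((p:ℝ)^(j-k) * lev p V Ψ k)
          ((p:ℝ)^(k-j) * lev p V Ψ j) / (p:ℝ)^(dst k j))
        ≤ 6 * Z^(2*e2) * (2 * (((p:ℝ)^(-(1/2-e2)))^(dst k j) * (lev p V Ψ k * lev p V Ψ j)^(1/2+e2))) :=
          mul_le_mul_of_nonneg_left h1 (by positivity)
      _ = _ := by ring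

end Crest.Agent.R4.X734
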