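import Mathlib
import Crest.Agent.R4.X734f

/-!
R4 (S0004), helper734: Lemma AL+ — the crossing lemma at one node, assembled.
-/

set_option autoImplicit false
open Finset

namespace Crest.Agent.R4.X734
open Crest.Agent.R4.HVW560 Crest.Agent.R4.LF8

/-- convexity gain of splitting -/
lemma gain {e2 : ℝ} (he : 0 < e2) (he1 : 2*e2 ≤ 1) {n K : ℕ} (hK : K ∈ range n) {a : ℕ → ℝ}
    (ha : ∀ k, 0 ≤ a k) (hmax : ∀ k ∈ range n, a k ≤ a K) {m : ℝ} (hm : m = ∑ k ∈ range n, a k) :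
    (m - a K) * m^(2*e2) ≤ 1/(2*e2) * (m^(1+2*e2) - ∑ k ∈ range n, (a k)^(1+2*e2)) := by
  have hm0 : 0 ≤ m := by rw [hm]; exact Finset.sum_nonneg fun k _ => ha k
  have haK : a K ≤ m := by rw [hm]; exact Finset.single_le_sum (fun k _ => ha k) hK
  rcases hm0.eq_or_lt with h0 | hmp
  · have hz : ∀ k ∈ range n, a k = 0 := by
      have := (Finset.sum_eq_zero_iff_of_nonneg (fun k _ => ha k)).1 (hm.symm.trans h0.symm)
      exact this
    have e1 : ∑ k ∈ range n, (a k)^(1+2*e2) = 0 := by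
      apply Finset.sum_eq_zero
      intro k hk
      rw [hz k hk, Real.zero_rpow (by linarith)]
    rw [← h0, e1, hz K hK, Real.zero_rpow (by linarith), Real.zero_rpow (by linarith)]
    simp
  · have h1 : ∑ k ∈ range n, (a k)^(1+2*e2) ≤ m * (a K)^(2*e2) := by
      rw [hm, Finset.sum_mul]
      apply Finset.sum_le_sum
      intro k hk
      rw [Real.rpow_add' (ha k) (by linarith), Real.rpow_one]
      exact mul_le_mul_of_nonneg_left (Real.rpow_le_rpow (ha k) (hmax k hk) (by linarith)) (ha k)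
    have h2 : (a K)^(2*e2) ≤ m^(2*e2) * (1 + 2*e2*(a K/m - 1)) := by
      have e : a K = m * (a K/m) := by field_simp
      conv_lhs => rw [e]
      rw [Real.mul_rpow hm0 (div_nonneg (ha K) hm0)]
      exact mul_le_mul_of_nonneg_left (rpow_le_lin (div_nonneg (ha K) hm0) (by linarith) he1) (by positivity)
    have h3 : m * (a K)^(2*e2) ≤ m * m^(2*e2) - 2*e2*((m - a K) * m^(2*e2)) := by
      calc m * (a K)^(2*e2) ≤ m * (m^(2*e2) * (1 + 2*e2*(a K/m - 1))) :=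
            mul_le_mul_of_nonneg_left h2 hm0
        _ = m * m^(2*e2) - 2*e2*((m - a K) * m^(2*e2)) := by field_simp; ring
    have h4 : m^(1+2*e2) = m * m^(2*e2) := by rw [Real.rpow_add hmp, Real.rpow_one]
    rw [one_div, inv_mul_eq_div, le_div_iff₀ (by linarith), h4]
    linarith

/-- constants -/
noncomputable def K1 (A CX : ℝ) : ℝ := 36 * K0 A CX
noncomputable def K2 (A CX : ℝ) : ℝ := 2 * K0 A CX + 216

lemma K0_pos {A CX : ℝ} (hCX : 1 ≤ CX) : 0 < K0 A CX := by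
  unfold K0; have := Real.exp_pos (4*A+6); positivity

/-- mass of the elements divisible by `p` -/
noncomputable def totd (p : ℕ) (V : Finset ℕ) (Ψ : ℕ → ℝ) : ℝ := ∑ v ∈ V.filter (fun v => p ∣ v), wt Ψ v

set_option maxHeartbeats 1000000 in
/-- **the crossing lemma at one node** -/
theorem cross_node {A e2 CX : ℝ} (hA : 1 ≤ A) (he2 : 16*A*e2 ≤ 1) (hCX : 1 ≤ CX) {p : ℕ}
    (hp : Big A e2 CX p) {V : Finset ℕ} {Ψ : ℕ → ℝ} (hV : ∀ v ∈ V, Rough p v) (hΨ : ∀ v ∈ V, 0 ≤ Ψ v)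
    {E : Finset (ℕ × ℕ)} (hE : E ⊆ V ×ˢ V)
    (hEp : ∀ e ∈ E, e.1.factorization p ≠ e.2.factorization p) {n : ℕ}
    (hn : ∀ v ∈ V, v.factorization p < n) :
    ∑ e ∈ E, wt Ψ e.1 * wt Ψ e.2 * HZ ((Real.log p)^A) (DD e.1 e.2 (Ψ e.1) (Ψ e.2)) ≤
      K1 A CX * (totd p V Ψ / p * (1+(tot V Ψ)^(2*e2)) +
        (Real.log p)^(-(1/2:ℝ)) * (tot V Ψ / p) * (1+(tot V Ψ)^(2*e2))) +
      K2 A CX * (Real.log p)^(-(1/8:ℝ)) * (1/(2*e2) *
        ((tot V Ψ)^(1+2*e2) - ∑ k ∈ range n, (lev p V Ψ k)^(1+2*e2))) := by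
  classical
  have hpp := hp.pp
  have hp0 : (0:ℝ) < p := by exact_mod_cast hpp.pos
  have hp1 : (1:ℝ) ≤ p := by exact_mod_cast hpp.one_le
  have hL0 : 0 < Real.log p := lt_of_lt_of_le (Real.exp_pos 1) hp.L1
  have hL1 : 1 ≤ Real.log p := by linarith [hp.L1, Real.add_one_le_exp (1:ℝ)]
  have hll : 0 < Real.log (Real.log p) := Real.log_pos (by linarith [hp.L1, Real.add_one_le_exp (1:ℝ)])
  have he20 : 0 < e2 := lt_of_lt_of_le (by positivity) hp.e12
  have he216 : e2 ≤ 1/16 := by nlinarith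
  set L : ℝ := Real.log p with hL
  set m : ℝ := tot V Ψ with hm
  set μ : ℕ → ℝ := fun k => lev p V Ψ k with hμ
  have μ0 : ∀ k, 0 ≤ μ k := fun k => lev_nonneg hΨ k
  have hm0 : 0 ≤ m := Finset.sum_nonneg fun v hv => wt_nonneg (hΨ v hv)
  have hmsum : m = ∑ k ∈ range n, μ k := by
    rw [hm]
    unfold tot
    rw [← Finset.sum_fiberwise_of_maps_to (t := range n) (g := fun v => v.factorization p)
      (fun v hv => mem_range.2 (hn v hv))]
    rfl
  have hW0 : 0 ≤ 1 + m^(2*e2) := by positivity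
  have hK00 := K0_pos (A := A) hCX
  -- empty case
  by_cases hVe : V = ∅
  · have hE0 : E = ∅ := by
      rw [Finset.eq_empty_iff_forall_notMem]
      intro e he
      have := Finset.mem_product.1 (hE he)
      rw [hVe] at this; simp at this
    have m0 : m = 0 := by rw [hm]; unfold tot; rw [hVe]; simp
    have d0 : totd p V Ψ = 0 := by unfold totd; rw [hVe]; simp
    have l0 : ∀ k, lev p V Ψ k = 0 := by intro k; unfold lev; rw [hVe]; simp
    have s0 : ∑ k ∈ range n, (lev p V Ψ k)^(1+2*e2) = 0 := by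
      apply Finset.sum_eq_zero; intro k _; rw [l0, Real.zero_rpow (by linarith)]
    rw [hE0, m0, d0, s0, Finset.sum_empty, Real.zero_rpow (by linarith : (1+2*e2) ≠ 0)]
    simp
  obtain ⟨v0, hv0⟩ := Finset.nonempty_iff_ne_empty.2 hVe
  have hnne : (range n).Nonempty := ⟨v0.factorization p, mem_range.2 (hn v0 hv0)⟩
  obtain ⟨K, hKn, hKmax⟩ := Finset.exists_max_image (range n) μ hnne
  set x : ℝ := m - μ K with hx
  have hxe : ∑ k ∈ (range n).erase K, μ k = x := by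
    have := Finset.sum_erase_add (range n) μ hKn
    rw [hx, hmsum]; linarith
  have hx0 : 0 ≤ x := by rw [← hxe]; exact Finset.sum_nonneg fun k _ => μ0 k
  have hxm : x ≤ m := by rw [hx]; linarith [μ0 K]
  have hg := gain he20 (by linarith) hKn μ0 hKmax hmsum
  rw [← hx] at hg
  set D : ℝ := totd p V Ψ with hD
  have hD0 : 0 ≤ D := Finset.sum_nonneg fun v hv => wt_nonneg (hΨ v (Finset.mem_filter.1 hv).1)
  have lev_le_D : ∀ k, k ≠ 0 → μ k ≤ D := by
    intro k hk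
    apply Finset.sum_le_sum_of_subset_of_nonneg
    · intro v hv
      rw [Finset.mem_filter] at hv ⊢
      refine ⟨hv.1, ?_⟩
      rw [dvd_iff_fact hpp (hV v hv.1).1, hv.2]; exact hk
    · intro v hv _; exact wt_nonneg (hΨ v (Finset.mem_filter.1 hv).1)
  have lev_le_m : ∀ k, μ k ≤ m := by
    intro k
    apply Finset.sum_le_sum_of_subset_of_nonneg (Finset.filter_subset _ _)
    intro v hv _; exact wt_nonneg (hΨ v hv)
  -- the pieces
  set T : ℕ × ℕ → ℝ := fun y => ∑ e ∈ E.filter (fun e => (e.1.factorization p, e.2.factorization p) = y),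
    wt Ψ e.1 * wt Ψ e.2 * HZ (L^A) (DD e.1 e.2 (Ψ e.1) (Ψ e.2)) with hT
  have hT0 : ∀ y, 0 ≤ T y := by
    intro y
    apply Finset.sum_nonneg
    intro e he
    have hm := Finset.mem_product.1 (hE (Finset.mem_filter.1 he).1)
    apply mul_nonneg (mul_nonneg (wt_nonneg (hΨ _ hm.1)) (wt_nonneg (hΨ _ hm.2)))
    unfold HZ
    split_ifs with h
    · have : 0 < 1/L^A := by positivity
      exact (one_div_pos.2 (lt_of_lt_of_le this h)).le
    · exact le_rfl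
  have hsumT : ∑ e ∈ E, wt Ψ e.1 * wt Ψ e.2 * HZ (L^A) (DD e.1 e.2 (Ψ e.1) (Ψ e.2)) =
      ∑ y ∈ (range n ×ˢ range n).filter (fun y => y.1 ≠ y.2), T y := by
    rw [hT]
    symm
    apply Finset.sum_fiberwise_of_maps_to
    intro e he
    have hm := Finset.mem_product.1 (hE he)
    rw [Finset.mem_filter, Finset.mem_product]
    exact ⟨⟨mem_range.2 (hn _ hm.1), mem_range.2 (hn _ hm.2)⟩, hEp e he⟩
  have hpc : ∀ k j, k ≠ j →
      T (k,j) ≤ K0 A CX * (μ (max k j)/(p:ℝ)^(dst k j)*(1+m^(2*e2)) +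
        L^(-(1/2:ℝ)) * (μ (min k j)/(p:ℝ)^(dst k j)) * (1+m^(2*e2)) +
      L^(-(1/8:ℝ)) * (min (μ (max k j)) (μ (min k j)) * m^(2*e2))) ∧
      T (k,j) ≤ 12 * (L^A)^(2*e2) * (((p:ℝ)^(-(1/2-e2)))^(dst k j) * (μ k * μ j)^(1/2+e2)) := by
    intro k j hkj
    apply piece_le hA he2 hCX hp hV hΨ hkj ((Finset.filter_subset _ _).trans hE)
    intro e he
    have := (Finset.mem_filter.1 he).2
    exact Prod.mk_inj.1 this
  -- split
  have hsub : (range n ×ˢ range n).filter (fun y => y.1 ≠ y.2) ⊆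
      (({K} ×ˢ (range n).erase K) ∪ ((range n).erase K ×ˢ {K})) ∪
        (((range n).erase K ×ˢ (range n).erase K).filter (fun y => y.1 ≠ y.2)) := by
    intro y hy
    simp only [mem_filter, mem_product, mem_union, mem_singleton, mem_erase] at hy ⊢
    rcases hy with ⟨⟨h1, h2⟩, h3⟩
    by_cases e1 : y.1 = K
    · left; left; exact ⟨e1, fun h => h3 (e1.trans h.symm), h2⟩
    · by_cases e2 : y.2 = K
      · left; right; exact ⟨⟨e1, h1⟩, e2⟩
      · right; exact ⟨⟨⟨e1, h1⟩, ⟨e2, h2⟩⟩, h3⟩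
  have hpinv : (1/(p:ℝ)) ≤ 8/9 := by
    rw [div_le_div_iff₀ hp0 (by norm_num)]
    have : (2:ℝ) ≤ p := by exact_mod_cast hpp.two_le
    linarith
  have hpinv0 : (0:ℝ) ≤ 1/(p:ℝ) := by positivity
  -- the row of K
  set β : ℕ → ℝ := fun j => μ (max K j)/(p:ℝ)^(dst K j)*(1+m^(2*e2)) +
        L^(-(1/2:ℝ)) * (μ (min K j)/(p:ℝ)^(dst K j)) * (1+m^(2*e2)) +
      L^(-(1/8:ℝ)) * (min (μ (max K j)) (μ (min K j)) * m^(2*e2)) with hβ
  have hrow : ∑ j ∈ (range n).erase K, β j ≤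
      18 * (D/p*(1+m^(2*e2)) + L^(-(1/2:ℝ)) * (m/p) * (1+m^(2*e2))) + L^(-(1/8:ℝ)) * (x * m^(2*e2)) := by
    have ho := offrow hpinv0 hpinv n K
    have hb : ∀ j ∈ (range n).erase K, β j ≤
        (D*(1+m^(2*e2)) + L^(-(1/2:ℝ)) * m * (1+m^(2*e2))) * (1/(p:ℝ))^(dst K j) +
          (L^(-(1/8:ℝ)) * m^(2*e2)) * μ j := by
      intro j hj
      have hjK := (Finset.mem_erase.1 hj).1
      have h1 : μ (max K j) ≤ D := lev_le_D _ (by
        have := hjK; omega)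
      have h2 : μ (min K j) ≤ m := lev_le_m _
      have h3 : min (μ (max K j)) (μ (min K j)) ≤ μ j := by
        rcases le_total K j with h | h
        · rw [max_eq_right h]; exact min_le_left _ _
        · rw [min_eq_right h]; exact min_le_right _ _
      have hP : (0:ℝ) < (p:ℝ)^(dst K j) := by positivity
      have e1 : (1/(p:ℝ))^(dst K j) = 1/(p:ℝ)^(dst K j) := by rw [div_pow, one_pow]
      rw [e1, hβ]
      simp only
      have t1 : μ (max K j)/(p:ℝ)^(dst K j)*(1+m^(2*e2)) ≤ D*(1+m^(2*e2)) * (1/(p:ℝ)^(dst K j)) := by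
        calc μ (max K j)/(p:ℝ)^(dst K j)*(1+m^(2*e2)) = μ (max K j) * ((1+m^(2*e2)) * (1/(p:ℝ)^(dst K j))) := by ring
          _ ≤ D * ((1+m^(2*e2)) * (1/(p:ℝ)^(dst K j))) := mul_le_mul_of_nonneg_right h1 (by positivity)
          _ = _ := by ring
      have t2 : L^(-(1/2:ℝ)) * (μ (min K j)/(p:ℝ)^(dst K j)) * (1+m^(2*e2)) ≤
          L^(-(1/2:ℝ)) * m * (1+m^(2*e2)) * (1/(p:ℝ)^(dst K j)) := by
        calc L^(-(1/2:ℝ)) * (μ (min K j)/(p:ℝ)^(dst K j)) * (1+m^(2*e2))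
            = μ (min K j) * (L^(-(1/2:ℝ)) * (1+m^(2*e2)) * (1/(p:ℝ)^(dst K j))) := by ring
          _ ≤ m * (L^(-(1/2:ℝ)) * (1+m^(2*e2)) * (1/(p:ℝ)^(dst K j))) :=
              mul_le_mul_of_nonneg_right h2 (by positivity)
          _ = _ := by ring
      have t3 : L^(-(1/8:ℝ)) * (min (μ (max K j)) (μ (min K j)) * m^(2*e2)) ≤
          (L^(-(1/8:ℝ)) * m^(2*e2)) * μ j := by
        calc L^(-(1/8:ℝ)) * (min (μ (max K j)) (μ (min K j)) * m^(2*e2))
            = (L^(-(1/8:ℝ)) * m^(2*e2)) * min (μ (max K j)) (μ (min K j)) := by ring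
          _ ≤ _ := mul_le_mul_of_nonneg_left h3 (by positivity)
      linarith
    refine (Finset.sum_le_sum hb).trans ?_
    rw [Finset.sum_add_distrib, ← Finset.mul_sum, ← Finset.mul_sum, hxe]
    have h5 : 0 ≤ D*(1+m^(2*e2)) + L^(-(1/2:ℝ)) * m * (1+m^(2*e2)) := by positivity
    have h6 := mul_le_mul_of_nonneg_left ho h5
    calc _ ≤ (D*(1+m^(2*e2)) + L^(-(1/2:ℝ)) * m * (1+m^(2*e2))) * (18 * (1/(p:ℝ))) +
          (L^(-(1/8:ℝ)) * m^(2*e2)) * x := by linarith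
      _ = _ := by ring
  have hR1 : ∑ y ∈ ({K} ×ˢ (range n).erase K), T y ≤ K0 A CX * ∑ j ∈ (range n).erase K, β j := by
    rw [Finset.sum_product, Finset.sum_singleton, Finset.mul_sum]
    apply Finset.sum_le_sum
    intro j hj
    exact (hpc K j (Finset.mem_erase.1 hj).1.symm).1
  have hR2 : ∑ y ∈ ((range n).erase K ×ˢ {K}), T y ≤ K0 A CX * ∑ j ∈ (range n).erase K, β j := by
    rw [Finset.sum_product, Finset.mul_sum]
    apply Finset.sum_le_sum
    intro j hj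
    rw [Finset.sum_singleton]
    have := (hpc j K (Finset.mem_erase.1 hj).1).1
    rw [max_comm, min_comm, dst_comm] at this
    exact this
  -- off K
  have hq0 : 0 < (p:ℝ)^(-(1/2-e2)) := by positivity
  have hqL : (p:ℝ)^(-(1/2-e2)) ≤ L^(-(3/4:ℝ)) := by
    calc (p:ℝ)^(-(1/2-e2)) ≤ (p:ℝ)^(-(3/8:ℝ)) := Real.rpow_le_rpow_of_exponent_le hp1 (by linarith)
      _ ≤ (L^(A+1))^(-(3/8:ℝ)) := Real.rpow_le_rpow_of_nonpos (by positivity) hp.LP (by norm_num)
      _ = L^((A+1)*(-(3/8:ℝ))) := by rw [← Real.rpow_mul hL0.le]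
      _ ≤ L^(-(3/4:ℝ)) := Real.rpow_le_rpow_of_exponent_le hL1 (by linarith)
  have hq1 : (p:ℝ)^(-(1/2-e2)) ≤ 8/9 := by
    refine hqL.trans ?_
    calc L^(-(3/4:ℝ)) ≤ (Real.exp 1)^(-(3/4:ℝ)) := Real.rpow_le_rpow_of_nonpos (Real.exp_pos 1) hp.L1 (by norm_num)
      _ = Real.exp (-(3/4)) := by rw [← Real.exp_mul, one_mul]
      _ ≤ 8/9 := by
          have h1 : (3/4:ℝ) + 1 ≤ Real.exp (3/4) := Real.add_one_le_exp _
          rw [Real.exp_neg]
          calc (Real.exp (3/4))⁻¹ ≤ ((3/4:ℝ)+1)⁻¹ := inv_anti₀ (by norm_num) h1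
            _ ≤ 8/9 := by norm_num
  have hR3 : ∑ y ∈ ((range n).erase K ×ˢ (range n).erase K).filter (fun y => y.1 ≠ y.2), T y ≤
      216 * (L^(-(1/8:ℝ)) * (x * m^(2*e2))) := by
    have h1 : ∑ y ∈ ((range n).erase K ×ˢ (range n).erase K).filter (fun y => y.1 ≠ y.2), T y ≤
        12 * (L^A)^(2*e2) * ∑ k ∈ (range n).erase K, ∑ j ∈ (range n).erase K,
          oc ((p:ℝ)^(-(1/2-e2))) k j * (μ k * μ j)^(1/2+e2) := by
      rw [← Finset.sum_product', Finset.mul_sum, Finset.sum_filter]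
      apply Finset.sum_le_sum
      intro y _
      by_cases hy : y.1 ≠ y.2
      · rw [if_pos hy]
        unfold oc
        rw [if_neg hy]
        exact (hpc y.1 y.2 hy).2
      · rw [if_neg hy]
        apply mul_nonneg (by positivity)
        exact mul_nonneg (oc_nonneg hq0.le _ _) (Real.rpow_nonneg (mul_nonneg (μ0 _) (μ0 _)) _)
    have h2 := oc_all hq0.le hq1 (s := 1/2+e2) (by linarith) n ((range n).erase K) ((range n).erase K)
      (Finset.erase_subset _ _) (Finset.erase_subset _ _) μ μ μ0 μ0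
    rw [hxe] at h2
    have h3 : (x*x)^(1/2+e2) ≤ x * m^(2*e2) := by
      rw [← sq, ← Real.rpow_natCast, ← Real.rpow_mul hx0]
      have e : ((2:ℕ):ℝ) * (1/2+e2) = 1 + 2*e2 := by push_cast; ring
      rw [e, Real.rpow_add' hx0 (by linarith), Real.rpow_one]
      exact mul_le_mul_of_nonneg_left (Real.rpow_le_rpow hx0 hxm (by linarith)) hx0
    have h4 : (L^A)^(2*e2) * (p:ℝ)^(-(1/2-e2)) ≤ L^(-(1/8:ℝ)) := by
      calc (L^A)^(2*e2) * (p:ℝ)^(-(1/2-e2)) ≤ (L^A)^(2*e2) * L^(-(3/4:ℝ)) :=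
            mul_le_mul_of_nonneg_left hqL (by positivity)
        _ = L^(A*(2*e2) + -(3/4:ℝ)) := by rw [← Real.rpow_mul hL0.le, ← Real.rpow_add hL0]
        _ ≤ L^(-(1/8:ℝ)) := Real.rpow_le_rpow_of_exponent_le hL1 (by nlinarith)
    calc _ ≤ 12 * (L^A)^(2*e2) * ((18 * (p:ℝ)^(-(1/2-e2))) * (x*x)^(1/2+e2)) :=
          h1.trans (mul_le_mul_of_nonneg_left h2 (by positivity))
      _ = 216 * (((L^A)^(2*e2) * (p:ℝ)^(-(1/2-e2))) * (x*x)^(1/2+e2)) := by ring
      _ ≤ 216 * (L^(-(1/8:ℝ)) * (x * m^(2*e2))) := by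
          apply mul_le_mul_of_nonneg_left _ (by norm_num)
          exact mul_le_mul h4 h3 (by positivity) (by positivity)
  -- total
  have htot : ∑ y ∈ (range n ×ˢ range n).filter (fun y => y.1 ≠ y.2), T y ≤
      (∑ y ∈ ({K} ×ˢ (range n).erase K), T y + ∑ y ∈ ((range n).erase K ×ˢ {K}), T y) +
        ∑ y ∈ ((range n).erase K ×ˢ (range n).erase K).filter (fun y => y.1 ≠ y.2), T y := by
    refine (Finset.sum_le_sum_of_subset_of_nonneg hsub (fun y _ _ => hT0 y)).trans ?_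
    refine (sum_union_le' _ _ _ hT0).trans ?_
    exact add_le_add_left (sum_union_le' _ _ _ hT0) _
  rw [hsumT]
  have hrow' := mul_le_mul_of_nonneg_left hrow hK00.le
  have hL18 : 0 ≤ K2 A CX * L^(-(1/8:ℝ)) := by unfold K2; positivity
  have hg' := mul_le_mul_of_nonneg_left hg hL18
  calc _ ≤ _ := htot
    _ ≤ (K0 A CX * (18 * (D/p*(1+m^(2*e2)) + L^(-(1/2:ℝ)) * (m/p) * (1+m^(2*e2))) + L^(-(1/8:ℝ)) * (x * m^(2*e2))) +
        K0 A CX * (18 * (D/p*(1+m^(2*e2)) + L^(-(1/2:ℝ)) * (m/p) * (1+m^(2*e2))) + L^(-(1/8:ℝ)) * (x * m^(2*e2)))) +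
        216 * (L^(-(1/8:ℝ)) * (x * m^(2*e2))) :=
        add_le_add (add_le_add (hR1.trans hrow') (hR2.trans hrow')) hR3
    _ = K1 A CX * (D/p*(1+m^(2*e2)) + L^(-(1/2:ℝ)) * (m/p) * (1+m^(2*e2))) +
        K2 A CX * L^(-(1/8:ℝ)) * (x * m^(2*e2)) := by unfold K1 K2; ring
    _ ≤ _ := by linarith

end Crest.Agent.R4.X734
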