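import Mathlib
import Crest.Agent.R4.X734g

/-!
R4 (S0004), helper734: Lemma AL+ — induction over the primes inside one block.
-/

set_option autoImplicit false
open Finset

namespace Crest.Agent.R4.X734
open Crest.Agent.R4.HVW560 Crest.Agent.R4.LF8

/-- `p` is the smallest prime at which `v`, `w` have different exponents -/
def First (p v w : ℕ) : Prop :=
  p.Prime ∧ v.factorization p ≠ w.factorization p ∧ ∀ q, q < p → v.factorization q = w.factorization q

open Classical in
/-- block energy -/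
noncomputable def BE (B : Finset ℕ) (A : ℝ) (V : Finset ℕ) (Ψ : ℕ → ℝ) : ℝ :=
  ∑ p ∈ B, ∑ e ∈ (V ×ˢ V).filter (fun e => First p e.1 e.2),
    wt Ψ e.1 * wt Ψ e.2 * HZ ((Real.log p)^A) (DD e.1 e.2 (Ψ e.1) (Ψ e.2))

/-- local factor -/
noncomputable def cc' (p k : ℕ) : ℝ := if k = 0 then 1 else 1 - 1/(p:ℝ)

lemma cc'_pos {p : ℕ} (hp : p.Prime) (k : ℕ) : 0 < cc' p k := by
  have hp1 : (1:ℝ) < p := by exact_mod_cast hp.one_lt
  unfold cc'
  split_ifs
  · norm_num
  · rw [sub_pos, div_lt_one (by linarith)]; exact hp1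

lemma cc'_le {p : ℕ} (k : ℕ) : cc' p k ≤ 1 := by
  have : 0 ≤ 1/(p:ℝ) := by positivity
  unfold cc'
  split_ifs <;> linarith

/-- descended set and radii -/
noncomputable def dV (p k : ℕ) (V : Finset ℕ) : Finset ℕ :=
  (V.filter (fun v => v.factorization p = k)).image (fun v => v / p^k)

noncomputable def dΨ (p k : ℕ) (Ψ : ℕ → ℝ) : ℕ → ℝ := fun v => Ψ (p^k * v)

lemma HZ_nonneg {Z x : ℝ} (hZ : 0 < Z) : 0 ≤ HZ Z x := by
  unfold HZ
  split_ifs with h
  · have : 0 < 1/Z := by positivity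
    exact (one_div_pos.2 (lt_of_lt_of_le this h)).le
  · exact le_rfl

lemma lev_eq {p k v : ℕ} (h : v.factorization p = k) : v = p^k * (v / p^k) := by
  have := @eq_ord p v
  rw [h] at this; exact this

lemma fact_mul_pow {p : ℕ} (hp : p.Prime) {k v : ℕ} (hv : v ≠ 0) (q : ℕ) :
    (p^k * v).factorization q = (if q = p then k else 0) + v.factorization q := by
  rw [Nat.factorization_mul (pow_ne_zero _ hp.ne_zero) hv, Finsupp.add_apply, hp.factorization_pow,
    Finsupp.single_apply]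
  congr 1
  by_cases h : q = p
  · rw [if_pos h, if_pos h.symm]
  · rw [if_neg h, if_neg (fun h' => h h'.symm)]

lemma wt_mul_pow {p : ℕ} (hp : p.Prime) {k v : ℕ} (hv : 0 < v) (hpv : ¬ p ∣ v) (Ψ : ℕ → ℝ) :
    wt Ψ (p^k * v) = cc' p k * wt (dΨ p k Ψ) v := by
  have hp0 : (0:ℝ) < p := by exact_mod_cast hp.pos
  have hv0 : (0:ℝ) < v := by exact_mod_cast hv
  unfold wt dΨ cc'
  have hcop : Nat.Coprime (p^k) v := Nat.Coprime.pow_left k ((Nat.Prime.coprime_iff_not_dvd hp).2 hpv)
  rw [Nat.totient_mul hcop]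
  by_cases hk : k = 0
  · subst hk
    simp
  · rw [if_neg hk]
    have h1 : (Nat.totient (p^k) : ℝ) = (p:ℝ)^k * (1 - 1/(p:ℝ)) := by
      obtain ⟨j, rfl⟩ := Nat.exists_eq_succ_of_ne_zero hk
      rw [Nat.totient_prime_pow_succ hp, pow_succ]
      push_cast [Nat.cast_sub hp.one_le]
      field_simp
    push_cast
    rw [h1]
    field_simp

lemma DD_mul {m v w : ℕ} (hm : 0 < m) (x y : ℝ) : DD (m*v) (m*w) x y = DD v w x y := by
  unfold DD
  rw [cof_mul_left hm, cof_mul_left hm]

section step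
variable {B : Finset ℕ} {A : ℝ} {V : Finset ℕ} {Ψ : ℕ → ℝ} {p : ℕ}

lemma inj_div (p k : ℕ) : Set.InjOn (fun v => v / p^k) (V.filter (fun v => v.factorization p = k)) := by
  intro v hv w hw h
  have h1 := lev_eq (Finset.mem_filter.1 (Finset.mem_coe.1 hv)).2
  have h2 := lev_eq (Finset.mem_filter.1 (Finset.mem_coe.1 hw)).2
  simp only at h
  rw [h1, h2, h]

lemma sum_dV (k : ℕ) (f : ℕ → ℝ) :
    ∑ v ∈ dV p k V, f v = ∑ v ∈ V.filter (fun v => v.factorization p = k), f (v / p^k) := by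
  unfold dV
  rw [Finset.sum_image (inj_div p k)]

/-- facts about elements of level `k` -/
lemma lev_facts (hp : p.Prime) {k v : ℕ} (hv : 0 < v) (h : v.factorization p = k) :
    0 < v / p^k ∧ ¬ p ∣ v / p^k := by
  constructor
  · apply Nat.pos_of_ne_zero
    intro h0
    have := lev_eq h
    rw [h0, mul_zero] at this
    omega
  · have := not_dvd_ordCompl' hp hv
    rw [h] at this; exact this

lemma dΨ_apply {k v : ℕ} (h : v.factorization p = k) : dΨ p k Ψ (v / p^k) = Ψ v := by
  unfold dΨ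
  rw [← lev_eq h]

lemma wt_lev (hp : p.Prime) {k v : ℕ} (hv : 0 < v) (h : v.factorization p = k) :
    wt Ψ v = cc' p k * wt (dΨ p k Ψ) (v / p^k) := by
  obtain ⟨h1, h2⟩ := lev_facts hp hv h
  conv_lhs => rw [lev_eq h]
  exact wt_mul_pow hp h1 h2 Ψ

theorem BE_step (hp : p.Prime) (hV : ∀ v ∈ V, Rough p v) (hΨ : ∀ v ∈ V, 0 ≤ Ψ v)
    (hB : ∀ q ∈ B, 1 < Real.log q) {n : ℕ} (hn : ∀ v ∈ V, v.factorization p < n) :
    BE B A V Ψ ≤ (if p ∈ B then ∑ e ∈ (V ×ˢ V).filter (fun e => e.1.factorization p ≠ e.2.factorization p),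
      wt Ψ e.1 * wt Ψ e.2 * HZ ((Real.log p)^A) (DD e.1 e.2 (Ψ e.1) (Ψ e.2)) else 0) +
      ∑ k ∈ range n, (cc' p k)^2 * BE B A (dV p k V) (dΨ p k Ψ) := by
  classical
  set f : ℕ → ℕ × ℕ → ℝ := fun q e =>
    wt Ψ e.1 * wt Ψ e.2 * HZ ((Real.log q)^A) (DD e.1 e.2 (Ψ e.1) (Ψ e.2)) with hf
  have hZ : ∀ q ∈ B, 0 < (Real.log q)^A := fun q hq => Real.rpow_pos_of_pos (by linarith [hB q hq]) _
  have f0 : ∀ q ∈ B, ∀ e ∈ V ×ˢ V, 0 ≤ f q e := by
    intro q hq e he
    have hm := Finset.mem_product.1 he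
    exact mul_nonneg (mul_nonneg (wt_nonneg (hΨ _ hm.1)) (wt_nonneg (hΨ _ hm.2))) (HZ_nonneg (hZ q hq))
  set g : ℕ → ℕ → ℝ := fun k q => ∑ e ∈ (dV p k V ×ˢ dV p k V).filter (fun e => First q e.1 e.2),
    wt (dΨ p k Ψ) e.1 * wt (dΨ p k Ψ) e.2 * HZ ((Real.log q)^A) (DD e.1 e.2 (dΨ p k Ψ e.1) (dΨ p k Ψ e.2)) with hg
  have dΨ0 : ∀ k, ∀ v ∈ dV p k V, 0 ≤ dΨ p k Ψ v := by
    intro k v hv
    obtain ⟨u, hu, rfl⟩ := Finset.mem_image.1 hv
    have := Finset.mem_filter.1 hu
    rw [dΨ_apply this.2]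
    exact hΨ u this.1
  have g0 : ∀ k, ∀ q ∈ B, 0 ≤ g k q := by
    intro k q hq
    apply Finset.sum_nonneg
    intro e he
    have hm := Finset.mem_product.1 (Finset.mem_filter.1 he).1
    exact mul_nonneg (mul_nonneg (wt_nonneg (dΨ0 k _ hm.1)) (wt_nonneg (dΨ0 k _ hm.2))) (HZ_nonneg (hZ q hq))
  -- inner sums
  have inner : ∀ q ∈ B, ∑ e ∈ (V ×ˢ V).filter (fun e => First q e.1 e.2), f q e ≤
      (if q = p then ∑ e ∈ (V ×ˢ V).filter (fun e => e.1.factorization p ≠ e.2.factorization p), f p e else 0) +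
      ∑ k ∈ range n, (cc' p k)^2 * g k q := by
    intro q hq
    have hgk : 0 ≤ ∑ k ∈ range n, (cc' p k)^2 * g k q :=
      Finset.sum_nonneg fun k _ => mul_nonneg (sq_nonneg _) (g0 k q hq)
    rcases lt_trichotomy q p with h | h | h
    · -- q < p
      have : (V ×ˢ V).filter (fun e => First q e.1 e.2) = ∅ := by
        apply Finset.filter_false_of_mem
        intro e he hF
        have hm := Finset.mem_product.1 he
        apply hF.2.1
        have z : ∀ v ∈ V, v.factorization q = 0 := by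
          intro v hv
          apply Nat.factorization_eq_zero_of_not_dvd
          intro hd
          have := (hV v hv).2 q hF.1 hd
          have : (q:ℝ) < p := by exact_mod_cast h
          linarith
        rw [z _ hm.1, z _ hm.2]
      rw [this, Finset.sum_empty, if_neg (by omega)]
      linarith
    · subst h
      rw [if_pos rfl]
      have : ∑ e ∈ (V ×ˢ V).filter (fun e => First q e.1 e.2), f q e ≤
          ∑ e ∈ (V ×ˢ V).filter (fun e => e.1.factorization q ≠ e.2.factorization q), f q e := by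
        apply Finset.sum_le_sum_of_subset_of_nonneg
        · intro e he
          rw [Finset.mem_filter] at he ⊢
          exact ⟨he.1, he.2.2.1⟩
        · intro e he _
          exact f0 q hq e (Finset.mem_filter.1 he).1
      linarith
    · rw [if_neg (by omega), zero_add]
      rw [← Finset.sum_fiberwise_of_maps_to (t := range n) (g := fun e => e.1.factorization p)]
      · apply Finset.sum_le_sum
        intro k _
        set Sk := ((V ×ˢ V).filter (fun e => First q e.1 e.2)).filter (fun e => e.1.factorization p = k) with hSk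
        have hSkm : ∀ e ∈ Sk, e.1 ∈ V ∧ e.2 ∈ V ∧ First q e.1 e.2 ∧ e.1.factorization p = k ∧ e.2.factorization p = k := by
          intro e he
          have h1 := Finset.mem_filter.1 he
          have h2 := Finset.mem_filter.1 h1.1
          have h3 := Finset.mem_product.1 h2.1
          exact ⟨h3.1, h3.2, h2.2, h1.2, by rw [← h2.2.2.2 p h]; exact h1.2⟩
        set φ : ℕ × ℕ → ℕ × ℕ := fun e => (e.1 / p^k, e.2 / p^k) with hφ
        have hinj : Set.InjOn φ Sk := by
          intro e he e' he' hee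
          have a1 := hSkm e he
          have a2 := hSkm e' he'
          rw [hφ] at hee
          simp only [Prod.mk.injEq] at hee
          apply Prod.ext
          · rw [lev_eq a1.2.2.2.1, lev_eq a2.2.2.2.1, hee.1]
          · rw [lev_eq a1.2.2.2.2, lev_eq a2.2.2.2.2, hee.2]
        have hval : ∀ e ∈ Sk, f q e = (cc' p k)^2 * (wt (dΨ p k Ψ) (φ e).1 * wt (dΨ p k Ψ) (φ e).2 *
            HZ ((Real.log q)^A) (DD (φ e).1 (φ e).2 (dΨ p k Ψ (φ e).1) (dΨ p k Ψ (φ e).2))) := by
          intro e he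
          obtain ⟨b1, b2, _, b4, b5⟩ := hSkm e he
          simp only [hf, hφ]
          rw [dΨ_apply b4, dΨ_apply b5, wt_lev hp (hV _ b1).1 b4, wt_lev hp (hV _ b2).1 b5]
          have eD : DD e.1 e.2 (Ψ e.1) (Ψ e.2) = DD (e.1/p^k) (e.2/p^k) (Ψ e.1) (Ψ e.2) := by
            conv_lhs => rw [lev_eq b4, lev_eq b5]
            rw [DD_mul (pow_pos hp.pos k), ← lev_eq b4, ← lev_eq b5]
          rw [eD]; ring
        rw [Finset.sum_congr rfl hval, ← Finset.mul_sum]
        apply mul_le_mul_of_nonneg_left _ (sq_nonneg _)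
        rw [← Finset.sum_image (f := fun e' : ℕ × ℕ => wt (dΨ p k Ψ) e'.1 * wt (dΨ p k Ψ) e'.2 *
            HZ ((Real.log q)^A) (DD e'.1 e'.2 (dΨ p k Ψ e'.1) (dΨ p k Ψ e'.2))) hinj]
        apply Finset.sum_le_sum_of_subset_of_nonneg
        · intro e' he'
          obtain ⟨e, he, rfl⟩ := Finset.mem_image.1 he'
          obtain ⟨b1, b2, b3, b4, b5⟩ := hSkm e he
          rw [Finset.mem_filter, Finset.mem_product]
          refine ⟨⟨Finset.mem_image.2 ⟨e.1, Finset.mem_filter.2 ⟨b1, b4⟩, rfl⟩,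
            Finset.mem_image.2 ⟨e.2, Finset.mem_filter.2 ⟨b2, b5⟩, rfl⟩⟩, b3.1, ?_, ?_⟩
          · have c1 := fact_mul_pow hp (k := k) (lev_facts hp (hV _ b1).1 b4).1.ne' q
            have c2 := fact_mul_pow hp (k := k) (lev_facts hp (hV _ b2).1 b5).1.ne' q
            rw [← lev_eq b4] at c1
            rw [← lev_eq b5] at c2
            have := b3.2.1
            simp only [hφ]
            omega
          · intro q' hq'
            have c1 := fact_mul_pow hp (k := k) (lev_facts hp (hV _ b1).1 b4).1.ne' q'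
            have c2 := fact_mul_pow hp (k := k) (lev_facts hp (hV _ b2).1 b5).1.ne' q'
            rw [← lev_eq b4] at c1
            rw [← lev_eq b5] at c2
            have := b3.2.2 q' hq'
            simp only [hφ]
            omega
        · intro e' he' _
          have hm := Finset.mem_product.1 (Finset.mem_filter.1 he').1
          exact mul_nonneg (mul_nonneg (wt_nonneg (dΨ0 k _ hm.1)) (wt_nonneg (dΨ0 k _ hm.2)))
            (HZ_nonneg (hZ q hq))
      · intro e he
        exact mem_range.2 (hn _ (Finset.mem_product.1 (Finset.mem_filter.1 he).1).1)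
  calc BE B A V Ψ ≤ ∑ q ∈ B, ((if q = p then ∑ e ∈ (V ×ˢ V).filter (fun e => e.1.factorization p ≠ e.2.factorization p), f p e else 0) +
      ∑ k ∈ range n, (cc' p k)^2 * g k q) := Finset.sum_le_sum inner
    _ = _ := by
        rw [Finset.sum_add_distrib, Finset.sum_ite_eq', Finset.sum_comm]
        congr 1
        apply Finset.sum_congr rfl
        intro k _
        rw [← Finset.mul_sum]
        rfl

end step

/-! ### the linear functional -/

/-- `∏_{r ∣ v, r < q} (1 - 1/r)^{1-2ε}` -/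
noncomputable def rho (e2 : ℝ) (q v : ℕ) : ℝ :=
  ∏ r ∈ v.primeFactors.filter (fun r => r < q), (1 - 1/(r:ℝ))^(1-2*e2)

/-- `∑_{q ∈ B, q ∣ v} (1/q) ρ_q(v)` -/
noncomputable def hh (B : Finset ℕ) (e2 : ℝ) (v : ℕ) : ℝ :=
  ∑ q ∈ B.filter (fun q => q ∣ v), 1/(q:ℝ) * rho e2 q v

noncomputable def Lin (B : Finset ℕ) (e2 : ℝ) (V : Finset ℕ) (Ψ : ℕ → ℝ) : ℝ := ∑ v ∈ V, wt Ψ v * hh B e2 v

noncomputable def Sg (B : Finset ℕ) (n : ℕ) : ℝ :=
  ∑ q ∈ B.filter (fun q => n ≤ q), (Real.log q)^(-(1/2:ℝ)) / q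

lemma rho_nonneg (e2 : ℝ) (q v : ℕ) : 0 ≤ rho e2 q v := by
  apply Finset.prod_nonneg
  intro r hr
  have := (Nat.prime_of_mem_primeFactors (Finset.mem_filter.1 hr).1).one_le
  have h1 : (1:ℝ) ≤ r := by exact_mod_cast this
  apply Real.rpow_nonneg
  rw [sub_nonneg, div_le_one (by linarith)]; exact h1

lemma hh_nonneg (B : Finset ℕ) (e2 : ℝ) (v : ℕ) : 0 ≤ hh B e2 v :=
  Finset.sum_nonneg fun q _ => mul_nonneg (by positivity) (rho_nonneg _ _ _)

lemma hh_mul {B : Finset ℕ} (hB : ∀ q ∈ B, q.Prime) {e2 : ℝ} {p k v : ℕ} (hp : p.Prime) (hv : 0 < v)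
    (hvr : ∀ q : ℕ, q.Prime → q ∣ v → p < q) :
    hh B e2 (p^k * v) = (if p ∈ B ∧ k ≠ 0 then 1/(p:ℝ) else 0) + (cc' p k)^(1-2*e2) * hh B e2 v := by
  classical
  have hpv : ¬ p ∣ v := fun h => lt_irrefl _ (hvr p hp h)
  have hpf : ∀ q, p < q → rho e2 q (p^k * v) = (cc' p k)^(1-2*e2) * rho e2 q v := by
    intro q hq
    unfold rho cc'
    by_cases hk : k = 0
    · subst hk; simp
    · rw [if_neg hk, Nat.primeFactors_mul (pow_ne_zero _ hp.ne_zero) hv.ne', Nat.primeFactors_prime_pow hk hp,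
        Finset.filter_union, Finset.prod_union]
      · congr 1
        rw [Finset.filter_singleton, if_pos hq, Finset.prod_singleton]
      · rw [Finset.disjoint_left]
        intro r hr hr'
        rw [Finset.mem_filter, Finset.mem_singleton] at hr
        exact hpv (hr.1 ▸ Nat.dvd_of_mem_primeFactors (Finset.mem_filter.1 hr').1)
  have hpf1 : rho e2 p (p^k * v) = 1 := by
    unfold rho
    apply Finset.prod_eq_one
    intro r hr
    exfalso
    rw [Finset.mem_filter] at hr
    have hrp := Nat.prime_of_mem_primeFactors hr.1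
    have hrd := Nat.dvd_of_mem_primeFactors hr.1
    rcases (Nat.Prime.dvd_mul hrp).1 hrd with h | h
    · have := (Nat.prime_dvd_prime_iff_eq hrp hp).1 (hrp.dvd_of_dvd_pow h)
      omega
    · have := hvr r hrp h
      omega
  unfold hh
  by_cases hc : p ∈ B ∧ k ≠ 0
  · rw [if_pos hc]
    have e : B.filter (fun q => q ∣ p^k * v) = insert p (B.filter (fun q => q ∣ v)) := by
      ext q
      rw [Finset.mem_insert, Finset.mem_filter, Finset.mem_filter]
      constructor
      · rintro ⟨h1, h2⟩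
        rcases (Nat.Prime.dvd_mul (hB q h1)).1 h2 with h | h
        · left; exact (Nat.prime_dvd_prime_iff_eq (hB q h1) hp).1 ((hB q h1).dvd_of_dvd_pow h)
        · right; exact ⟨h1, h⟩
      · rintro (h | ⟨h1, h2⟩)
        · rw [h]; exact ⟨hc.1, Dvd.dvd.mul_right (dvd_pow_self p hc.2) v⟩
        · exact ⟨h1, Dvd.dvd.mul_left h2 _⟩
    rw [e, Finset.sum_insert (by rw [Finset.mem_filter]; exact fun h => hpv h.2), hpf1, mul_one, Finset.mul_sum]
    congr 1
    apply Finset.sum_congr rfl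
    intro q hq
    rw [Finset.mem_filter] at hq
    rw [hpf q (hvr q (hB q hq.1) hq.2)]
    ring
  · rw [if_neg hc, zero_add]
    have e : B.filter (fun q => q ∣ p^k * v) = B.filter (fun q => q ∣ v) := by
      ext q
      rw [Finset.mem_filter, Finset.mem_filter]
      constructor
      · rintro ⟨h1, h2⟩
        rcases (Nat.Prime.dvd_mul (hB q h1)).1 h2 with h | h
        · exfalso
          have hqp := (Nat.prime_dvd_prime_iff_eq (hB q h1) hp).1 ((hB q h1).dvd_of_dvd_pow h)
          apply hc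
          refine ⟨hqp ▸ h1, ?_⟩
          rintro rfl
          rw [pow_zero] at h
          exact (hB q h1).one_lt.ne' (Nat.dvd_one.1 h)
        · exact ⟨h1, h⟩
      · rintro ⟨h1, h2⟩
        exact ⟨h1, Dvd.dvd.mul_left h2 _⟩
    rw [e, Finset.mul_sum]
    apply Finset.sum_congr rfl
    intro q hq
    rw [Finset.mem_filter] at hq
    rw [hpf q (hvr q (hB q hq.1) hq.2)]
    ring

/-- the block functional -/
noncomputable def FF (A CX e2 lam : ℝ) (B : Finset ℕ) (n : ℕ) (V : Finset ℕ) (Ψ : ℕ → ℝ) : ℝ :=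
  K1 A CX * ((1+(tot V Ψ)^(2*e2)) * (Lin B e2 V Ψ + tot V Ψ * Sg B n)) +
    K2 A CX * lam * (1/(2*e2)) * (tot V Ψ)^(1+2*e2)

lemma Sg_nonneg {B : Finset ℕ} {n : ℕ} : 0 ≤ Sg B n := by
  apply Finset.sum_nonneg
  intro q _
  apply div_nonneg _ (by positivity)
  apply Real.rpow_nonneg
  exact Real.log_natCast_nonneg q

/-- bound of one child -/
lemma child_le {A CX e2 lam : ℝ} (hA : 1 ≤ A) (he2 : 16*A*e2 ≤ 1) (he20 : 0 < e2) (hCX : 1 ≤ CX)
    (hlam : 0 ≤ lam) {B : Finset ℕ} (hB : ∀ q ∈ B, q.Prime) {p : ℕ} (hp : p.Prime) {V : Finset ℕ}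
    {Ψ : ℕ → ℝ} (hV : ∀ v ∈ V, Rough p v) (hΨ : ∀ v ∈ V, 0 ≤ Ψ v) (k n : ℕ) :
    (cc' p k)^2 * FF A CX e2 lam B n (dV p k V) (dΨ p k Ψ) ≤
      K1 A CX * ((1+(tot V Ψ)^(2*e2)) * (∑ v ∈ V.filter (fun v => v.factorization p = k),
        wt Ψ v * (hh B e2 v - (if p ∈ B ∧ k ≠ 0 then 1/(p:ℝ) else 0)) + lev p V Ψ k * Sg B n)) +
      K2 A CX * lam * (1/(2*e2)) * (lev p V Ψ k)^(1+2*e2) := by
  set c : ℝ := cc' p k with hc
  have hc0 : 0 < c := cc'_pos hp k
  have hc1 : c ≤ 1 := cc'_le k
  have he216 : e2 ≤ 1/16 := by nlinarith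
  have hK0 := K0_pos (A := A) hCX
  have hK1 : 0 < K1 A CX := by unfold K1; positivity
  have hK2 : 0 < K2 A CX := by unfold K2; positivity
  set μ : ℝ := lev p V Ψ k with hμ
  have hμ0 : 0 ≤ μ := lev_nonneg hΨ k
  have hm0 : 0 ≤ tot V Ψ := Finset.sum_nonneg fun v hv => wt_nonneg (hΨ v hv)
  have hμm : μ ≤ tot V Ψ := by
    apply Finset.sum_le_sum_of_subset_of_nonneg (Finset.filter_subset _ _)
    intro v hv _; exact wt_nonneg (hΨ v hv)
  have htot : tot (dV p k V) (dΨ p k Ψ) = μ / c := by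
    unfold tot
    rw [sum_dV, hμ]
    unfold lev
    rw [Finset.sum_div]
    apply Finset.sum_congr rfl
    intro v hv
    have := Finset.mem_filter.1 hv
    rw [wt_lev hp (hV v this.1).1 this.2, ← hc]
    field_simp
  set G : ℝ := ∑ v ∈ V.filter (fun v => v.factorization p = k),
        wt Ψ v * (hh B e2 v - (if p ∈ B ∧ k ≠ 0 then 1/(p:ℝ) else 0)) with hG
  have hterm : ∀ v ∈ V.filter (fun v => v.factorization p = k),
      hh B e2 v - (if p ∈ B ∧ k ≠ 0 then 1/(p:ℝ) else 0) = c^(1-2*e2) * hh B e2 (v/p^k) := by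
    intro v hv
    have h1 := Finset.mem_filter.1 hv
    obtain ⟨h2, h3⟩ := lev_facts hp (hV v h1.1).1 h1.2
    have h4 := hh_mul hB (e2 := e2) (k := k) hp h2 (by
      intro q hq hqd
      have h5 : q ∣ v := by rw [lev_eq h1.2]; exact Dvd.dvd.mul_left hqd _
      have h6 := (hV v h1.1).2 q hq h5
      have h7 : p ≤ q := by exact_mod_cast h6
      rcases h7.eq_or_lt with h | h
      · exact absurd (h ▸ hqd) h3
      · exact h)
    rw [← lev_eq h1.2] at h4
    rw [h4]; ring
  have hLin : c * (c^(1-2*e2) * Lin B e2 (dV p k V) (dΨ p k Ψ)) = G := by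
    unfold Lin
    rw [sum_dV, hG, Finset.mul_sum, Finset.mul_sum]
    apply Finset.sum_congr rfl
    intro v hv
    rw [hterm v hv]
    have := Finset.mem_filter.1 hv
    rw [wt_lev hp (hV v this.1).1 this.2, ← hc]
    ring
  have hG0 : 0 ≤ G := by
    apply Finset.sum_nonneg
    intro v hv
    rw [hterm v hv]
    exact mul_nonneg (wt_nonneg (hΨ v (Finset.mem_filter.1 hv).1)) (mul_nonneg (by positivity) (hh_nonneg _ _ _))
  have hS0 : 0 ≤ Sg B n := Sg_nonneg
  have hcc : c^2 = c * c^(1-2*e2) * c^(2*e2) := by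
    have : c^(1-2*e2) * c^(2*e2) = c := by rw [← Real.rpow_add hc0]; norm_num
    rw [mul_assoc, this]; ring
  have hc2e : c^(2*e2) ≤ 1 := Real.rpow_le_one hc0.le hc1 (by linarith)
  have hc12e : c^(1-2*e2) ≤ 1 := Real.rpow_le_one hc0.le hc1 (by linarith)
  have hμm2 : μ^(2*e2) ≤ (tot V Ψ)^(2*e2) := Real.rpow_le_rpow hμ0 hμm (by linarith)
  have hc2ep : 0 < c^(2*e2) := by positivity
  have e1 : c^(2*e2) * (1 + (μ/c)^(2*e2)) = c^(2*e2) + μ^(2*e2) := by
    rw [Real.div_rpow hμ0 hc0.le]; field_simp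
  have e1' : c^(2*e2) * (1 + (μ/c)^(2*e2)) ≤ 1 + (tot V Ψ)^(2*e2) := by rw [e1]; linarith
  have hpos : 0 ≤ c^(2*e2) * (1 + (μ/c)^(2*e2)) := by positivity
  unfold FF
  rw [htot, mul_add]
  apply add_le_add
  · have h1 : c^2 * (K1 A CX * ((1+(μ/c)^(2*e2)) * (Lin B e2 (dV p k V) (dΨ p k Ψ) + μ/c * Sg B n))) =
        K1 A CX * ((c^(2*e2) * (1 + (μ/c)^(2*e2))) * (G + c^(1-2*e2) * (μ * Sg B n))) := by
      rw [hcc, ← hLin]
      have : c * (μ/c) = μ := by field_simp
      calc c * c^(1-2*e2) * c^(2*e2) * (K1 A CX * ((1+(μ/c)^(2*e2)) * (Lin B e2 (dV p k V) (dΨ p k Ψ) + μ/c * Sg B n)))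
          = K1 A CX * ((c^(2*e2) * (1 + (μ/c)^(2*e2))) * (c * (c^(1-2*e2) * Lin B e2 (dV p k V) (dΨ p k Ψ)) +
              c^(1-2*e2) * ((c * (μ/c)) * Sg B n))) := by ring
        _ = _ := by rw [this]
    rw [h1]
    apply mul_le_mul_of_nonneg_left _ hK1.le
    have h2 : c^(1-2*e2) * (μ * Sg B n) ≤ μ * Sg B n :=
      mul_le_of_le_one_left (mul_nonneg hμ0 hS0) hc12e
    have h3 : 0 ≤ c^(1-2*e2) * (μ * Sg B n) := by positivity
    exact mul_le_mul e1' (by linarith) (by linarith) (by positivity)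
  · have h1 : c^2 * (K2 A CX * lam * (1/(2*e2)) * (μ/c)^(1+2*e2)) =
        K2 A CX * lam * (1/(2*e2)) * (c^(1-2*e2) * μ^(1+2*e2)) := by
      rw [Real.div_rpow hμ0 hc0.le, Real.rpow_add hc0, Real.rpow_one]
      have h5 : c^2 = (c^(1-2*e2) * c^(2*e2)) * c := by
        rw [hcc]; ring
      rw [h5]
      field_simp
    rw [h1]
    apply mul_le_mul_of_nonneg_left _ (by positivity)
    exact mul_le_of_le_one_left (by positivity) hc12e

/-- **block induction** -/
theorem BE_le {A CX e2 lam : ℝ} (hA : 1 ≤ A) (he2 : 16*A*e2 ≤ 1) (he20 : 0 < e2) (hCX : 1 ≤ CX)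
    (hlam : 0 ≤ lam) {B : Finset ℕ} (hB : ∀ q ∈ B, Big A e2 CX q)
    (hBlam : ∀ q ∈ B, (Real.log q)^(-(1/8:ℝ)) ≤ lam) (N : ℕ) {n : ℕ} (hn : n ≤ N + 1) :
    ∀ (V : Finset ℕ) (Ψ : ℕ → ℝ), (∀ v ∈ V, Rough n v) → (∀ v ∈ V, ∀ q : ℕ, q.Prime → q ∣ v → q ≤ N) →
      (∀ v ∈ V, 0 ≤ Ψ v) → BE B A V Ψ ≤ FF A CX e2 lam B n V Ψ := by
  classical
  have hK0 := K0_pos (A := A) hCX
  have hK1 : 0 < K1 A CX := by unfold K1; positivity
  have hK2 : 0 < K2 A CX := by unfold K2; positivity
  have hBp : ∀ q ∈ B, q.Prime := fun q hq => (hB q hq).pp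
  have hBl : ∀ q ∈ B, 1 < Real.log q := fun q hq => by
    have := (hB q hq).L1
    linarith [Real.add_one_le_exp (1:ℝ)]
  refine Nat.decreasingInduction (motive := fun n _ => ∀ (V : Finset ℕ) (Ψ : ℕ → ℝ), (∀ v ∈ V, Rough n v) →
      (∀ v ∈ V, ∀ q : ℕ, q.Prime → q ∣ v → q ≤ N) →
      (∀ v ∈ V, 0 ≤ Ψ v) → BE B A V Ψ ≤ FF A CX e2 lam B n V Ψ) ?_ ?_ hn
  · intro n hnN ih V Ψ hV hVN hΨ
    have hm0 : 0 ≤ tot V Ψ := Finset.sum_nonneg fun v hv => wt_nonneg (hΨ v hv)
    have hL0 : 0 ≤ Lin B e2 V Ψ := Finset.sum_nonneg fun v hv => mul_nonneg (wt_nonneg (hΨ v hv)) (hh_nonneg _ _ _)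
    by_cases hp : n.Prime
    · -- prime step
      set nn : ℕ := V.sup (fun v => v.factorization n) + 1 with hnn
      have hfn : ∀ v ∈ V, v.factorization n < nn := by
        intro v hv
        have : v.factorization n ≤ V.sup (fun v => v.factorization n) :=
          Finset.le_sup (f := fun v => v.factorization n) hv
        omega
      refine (BE_step hp hV hΨ hBl hfn).trans ?_
      -- children
      have hch : ∀ k ∈ range nn, (cc' n k)^2 * BE B A (dV n k V) (dΨ n k Ψ) ≤
          K1 A CX * ((1+(tot V Ψ)^(2*e2)) * (∑ v ∈ V.filter (fun v => v.factorization n = k),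
            wt Ψ v * (hh B e2 v - (if n ∈ B ∧ k ≠ 0 then 1/(n:ℝ) else 0)) + lev n V Ψ k * Sg B (n+1))) +
          K2 A CX * lam * (1/(2*e2)) * (lev n V Ψ k)^(1+2*e2) := by
        intro k _
        refine (mul_le_mul_of_nonneg_left (ih (dV n k V) (dΨ n k Ψ) ?_ ?_ ?_) (sq_nonneg _)).trans
          (child_le hA he2 he20 hCX hlam hBp hp hV hΨ k (n+1))
        · intro v' hv'
          obtain ⟨v, hv, rfl⟩ := Finset.mem_image.1 hv'
          have h1 := Finset.mem_filter.1 hv
          obtain ⟨h2, h3⟩ := lev_facts hp (hV v h1.1).1 h1.2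
          refine ⟨h2, fun q hq hqd => ?_⟩
          have h5 : q ∣ v := by rw [lev_eq h1.2]; exact Dvd.dvd.mul_left hqd _
          have h6 := (hV v h1.1).2 q hq h5
          have h7 : n ≤ q := by exact_mod_cast h6
          have h8 : n < q := lt_of_le_of_ne h7 (fun h => h3 (h ▸ hqd))
          exact_mod_cast h8
        · intro v' hv' q hq hqd
          obtain ⟨v, hv, rfl⟩ := Finset.mem_image.1 hv'
          have h1 := Finset.mem_filter.1 hv
          exact hVN v h1.1 q hq (by rw [lev_eq h1.2]; exact Dvd.dvd.mul_left hqd _)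
        · intro v' hv'
          obtain ⟨v, hv, rfl⟩ := Finset.mem_image.1 hv'
          have h1 := Finset.mem_filter.1 hv
          rw [dΨ_apply h1.2]; exact hΨ v h1.1
      have hsum := Finset.sum_le_sum hch
      have eG : ∑ k ∈ range nn, ∑ v ∈ V.filter (fun v => v.factorization n = k),
            wt Ψ v * (hh B e2 v - (if n ∈ B ∧ k ≠ 0 then 1/(n:ℝ) else 0)) =
          Lin B e2 V Ψ - (if n ∈ B then totd n V Ψ / n else 0) := by
        have h1 : ∀ k ∈ range nn, ∑ v ∈ V.filter (fun v => v.factorization n = k),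
            wt Ψ v * (hh B e2 v - (if n ∈ B ∧ k ≠ 0 then 1/(n:ℝ) else 0)) =
            ∑ v ∈ V.filter (fun v => v.factorization n = k),
            (wt Ψ v * hh B e2 v - (if n ∈ B ∧ n ∣ v then wt Ψ v / n else 0)) := by
          intro k _
          apply Finset.sum_congr rfl
          intro v hv
          have h2 := Finset.mem_filter.1 hv
          have h3 := dvd_iff_fact hp (hV v h2.1).1
          rw [h2.2] at h3
          by_cases hk : n ∈ B ∧ k ≠ 0
          · rw [if_pos hk, if_pos ⟨hk.1, h3.2 hk.2⟩]; ring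
          · rw [if_neg hk, if_neg (fun h => hk ⟨h.1, h3.1 h.2⟩)]; ring
        rw [Finset.sum_congr rfl h1, Finset.sum_fiberwise_of_maps_to (fun v hv => mem_range.2 (hfn v hv)),
          Finset.sum_sub_distrib]
        congr 1
        by_cases hnB : n ∈ B
        · rw [if_pos hnB]
          unfold totd
          rw [Finset.sum_filter, Finset.sum_div]
          apply Finset.sum_congr rfl
          intro v _
          by_cases hd : n ∣ v
          · rw [if_pos ⟨hnB, hd⟩, if_pos hd]
          · rw [if_neg (fun h => hd h.2), if_neg hd, zero_div]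
        · rw [if_neg hnB]
          apply Finset.sum_eq_zero
          intro v _
          rw [if_neg (fun h => hnB h.1)]
      have elev : ∑ k ∈ range nn, lev n V Ψ k = tot V Ψ := by
        unfold lev tot
        exact Finset.sum_fiberwise_of_maps_to (fun v hv => mem_range.2 (hfn v hv)) _
      rw [Finset.sum_add_distrib, ← Finset.mul_sum, ← Finset.mul_sum, ← Finset.mul_sum,
        Finset.sum_add_distrib, eG, ← Finset.sum_mul, elev] at hsum
      have hgain : ∑ k ∈ range nn, (lev n V Ψ k)^(1+2*e2) ≤ (tot V Ψ)^(1+2*e2) := by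
        calc ∑ k ∈ range nn, (lev n V Ψ k)^(1+2*e2) ≤ ∑ k ∈ range nn, lev n V Ψ k * (tot V Ψ)^(2*e2) := by
              apply Finset.sum_le_sum
              intro k hk
              have l0 := lev_nonneg (p := n) hΨ k
              rw [Real.rpow_add' l0 (by linarith), Real.rpow_one]
              apply mul_le_mul_of_nonneg_left _ l0
              apply Real.rpow_le_rpow l0 _ (by linarith)
              rw [← elev]
              exact Finset.single_le_sum (f := fun k => lev n V Ψ k) (fun k _ => lev_nonneg hΨ k) hk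
          _ = (tot V Ψ)^(1+2*e2) := by
              rw [← Finset.sum_mul, elev, Real.rpow_add' hm0 (by linarith), Real.rpow_one]
      by_cases hnB : n ∈ B
      · rw [if_pos hnB]
        have hcr := cross_node hA he2 hCX (hB n hnB) hV hΨ (E := (V ×ˢ V).filter
          (fun e => e.1.factorization n ≠ e.2.factorization n)) (Finset.filter_subset _ _)
          (fun e he => (Finset.mem_filter.1 he).2) hfn
        rw [if_pos hnB] at hsum
        have eS : Sg B n = Sg B (n+1) + (Real.log n)^(-(1/2:ℝ)) / n := by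
          unfold Sg
          have : B.filter (fun q => n ≤ q) = insert n (B.filter (fun q => n + 1 ≤ q)) := by
            ext q
            simp only [Finset.mem_filter, Finset.mem_insert]
            constructor
            · rintro ⟨h1, h2⟩
              rcases h2.eq_or_lt with h | h
              · left; exact h.symm
              · right; exact ⟨h1, h⟩
            · rintro (h | ⟨h1, h2⟩)
              · rw [h]; exact ⟨hnB, le_rfl⟩
              · exact ⟨h1, by omega⟩
          rw [this, Finset.sum_insert (by simp)]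
          ring
        have hl := hBlam n hnB
        have hg1 : K2 A CX * (Real.log n)^(-(1/8:ℝ)) * (1/(2*e2) *
            ((tot V Ψ)^(1+2*e2) - ∑ k ∈ range nn, (lev n V Ψ k)^(1+2*e2))) ≤
            K2 A CX * lam * (1/(2*e2)) * ((tot V Ψ)^(1+2*e2) - ∑ k ∈ range nn, (lev n V Ψ k)^(1+2*e2)) := by
          rw [← mul_assoc]
          apply mul_le_mul_of_nonneg_right _ (by linarith)
          apply mul_le_mul_of_nonneg_right _ (by positivity)
          exact mul_le_mul_of_nonneg_left hl hK2.le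
        unfold FF
        rw [eS]
        refine (add_le_add (hcr.trans (add_le_add_right hg1 _)) hsum).trans (le_of_eq ?_)
        ring
      · rw [if_neg hnB, zero_add]
        rw [if_neg hnB, sub_zero] at hsum
        have eS : Sg B n = Sg B (n+1) := by
          unfold Sg
          congr 1
          ext q
          simp only [Finset.mem_filter]
          constructor
          · rintro ⟨h1, h2⟩
            exact ⟨h1, lt_of_le_of_ne h2 (fun h => hnB (h ▸ h1))⟩
          · rintro ⟨h1, h2⟩; exact ⟨h1, by omega⟩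
        unfold FF
        rw [eS]
        refine hsum.trans (add_le_add_right ?_ _)
        exact mul_le_mul_of_nonneg_left hgain (by positivity)
    · -- not prime
      have h1 := ih V Ψ (by
        intro v hv
        refine ⟨(hV v hv).1, fun q hq hqd => ?_⟩
        have h6 := (hV v hv).2 q hq hqd
        have h7 : n ≤ q := by exact_mod_cast h6
        have h8 : n < q := lt_of_le_of_ne h7 (fun h => hp (h ▸ hq))
        exact_mod_cast h8) hVN hΨ
      refine h1.trans ?_
      unfold FF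
      apply add_le_add_left
      apply mul_le_mul_of_nonneg_left _ hK1.le
      apply mul_le_mul_of_nonneg_left _ (by positivity)
      apply add_le_add_right
      apply mul_le_mul_of_nonneg_left _ hm0
      unfold Sg
      apply Finset.sum_le_sum_of_subset_of_nonneg
      · intro q hq
        rw [Finset.mem_filter] at hq ⊢
        exact ⟨hq.1, by omega⟩
      · intro q _ _
        apply div_nonneg _ (by positivity)
        exact Real.rpow_nonneg (Real.log_natCast_nonneg q) _
  · -- base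
    intro V Ψ hV hVN hΨ
    have hm0 : 0 ≤ tot V Ψ := Finset.sum_nonneg fun v hv => wt_nonneg (hΨ v hv)
    have hL0 : 0 ≤ Lin B e2 V Ψ := Finset.sum_nonneg fun v hv => mul_nonneg (wt_nonneg (hΨ v hv)) (hh_nonneg _ _ _)
    have hS0 : 0 ≤ Sg B (N+1) := Sg_nonneg
    have h1 : ∀ v ∈ V, v = 1 := by
      intro v hv
      by_contra hne
      obtain ⟨q, hq, hqd⟩ := Nat.exists_prime_and_dvd hne
      have h2 := (hV v hv).2 q hq hqd
      have h3 := hVN v hv q hq hqd
      have h4 : N + 1 ≤ q := by exact_mod_cast h2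
      omega
    have h2 : BE B A V Ψ = 0 := by
      apply Finset.sum_eq_zero
      intro q _
      have : (V ×ˢ V).filter (fun e => First q e.1 e.2) = ∅ := by
        apply Finset.filter_false_of_mem
        intro e he hF
        have hm := Finset.mem_product.1 he
        apply hF.2.1
        rw [h1 _ hm.1, h1 _ hm.2]
      rw [this, Finset.sum_empty]
    rw [h2]
    unfold FF
    positivity

end Crest.Agent.R4.X734
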