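import Mathlib
import Crest.Agent.R001.FL.Sieve
import Crest.Agent.R4.HVWX793
import Crest.Agent.R4.LF9_927
import Crest.Agent.R4.X734h

/-!
R4 (S0004), helper734: Lemma AL+ — merging of the small primes (709's decay cure), one block.
-/

set_option autoImplicit false
open Finset

namespace Crest.Agent.R4.X734
open Crest.Agent.R4.HVW560 Crest.Agent.R4.LF8
open Crest.Agent.R4.LF9 (sp rp sp_mul_rp sp_pos rp_pos sp_dvd rp_dvd sp_prime rp_prime coprime_of_sep cof_mul_sep)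
open Crest.Agent.R4.HVWX793 (tot_ratio_anti tot_ratio_mul_le tot_ratio_eq)

/-- `φ(n)/n` -/
noncomputable def tr (n : ℕ) : ℝ := (Nat.totient n : ℝ)/n

lemma tr_nonneg (n : ℕ) : 0 ≤ tr n := by unfold tr; positivity

lemma tr_pos {n : ℕ} (hn : 0 < n) : 0 < tr n := by
  unfold tr
  have h1 : (0:ℝ) < n := by exact_mod_cast hn
  have h2 : (0:ℝ) < Nat.totient n := by exact_mod_cast Nat.totient_pos.2 hn
  positivity

lemma tr_le_one (n : ℕ) : tr n ≤ 1 := by
  unfold tr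
  apply div_le_one_of_le₀ _ (by positivity)
  exact_mod_cast Nat.totient_le n

lemma tr_mul {a b : ℕ} (h : Nat.Coprime a b) : tr (a*b) = tr a * tr b := by
  unfold tr
  rw [Nat.totient_mul h]
  push_cast
  rw [mul_div_mul_comm]

/-- low primes -/
def Lo (w : ℕ) : ℕ → Prop := fun p => p < w

lemma cop_sr {w n : ℕ} : Nat.Coprime (sp (Lo w) n) (rp (Lo w) n) :=
  coprime_of_sep (Lo w) (fun _ hp h => sp_prime (Lo w) hp h) (fun _ hp h => rp_prime (Lo w) hp h)

lemma tr_split {w n : ℕ} (hn : 0 < n) : tr n = tr (sp (Lo w) n) * tr (rp (Lo w) n) := by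
  conv_lhs => rw [← sp_mul_rp (Lo w) hn]
  exact tr_mul cop_sr

lemma tr_sp_ge {w n : ℕ} (hw : 1 ≤ w) (hn : 0 < n) : 1/(w:ℝ) ≤ tr (sp (Lo w) n) := by
  have hs := sp_pos (Lo w) hn
  have h1 := tot_ratio_eq hs
  have h2 := Crest.Agent.R001.FL.prod_ge_inv (w:ℝ) (by exact_mod_cast hw) (sp (Lo w) n).primeFactors (by
    intro p hp
    have hp' := Nat.prime_of_mem_primeFactors hp
    refine ⟨hp', ?_⟩
    have : Lo w p := sp_prime (Lo w) hp' (Nat.dvd_of_mem_primeFactors hp)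
    exact_mod_cast (le_of_lt this))
  unfold tr
  rw [h1]
  refine h2.trans (le_of_eq ?_)
  apply Finset.prod_congr rfl
  intro p _
  rw [one_div]

/-- merged radii -/
noncomputable def mΨ (w : ℕ) (T : Finset ℕ) (ψ : ℕ → ℝ) : ℕ → ℝ :=
  fun u => ∑ q ∈ T.filter (fun q => rp (Lo w) q = u), ψ q * (tr (sp (Lo w) q))^2

noncomputable def mV (w : ℕ) (T : Finset ℕ) : Finset ℕ := T.image (rp (Lo w))

lemma mΨ_nonneg {w : ℕ} {T : Finset ℕ} {ψ : ℕ → ℝ} (hψ : ∀ q ∈ T, 0 ≤ ψ q) (u : ℕ) : 0 ≤ mΨ w T ψ u :=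
  Finset.sum_nonneg fun q hq => mul_nonneg (hψ q (Finset.mem_filter.1 hq).1) (sq_nonneg _)

lemma wt_eq (ψ : ℕ → ℝ) (n : ℕ) : wt ψ n = ψ n * tr n := rfl

lemma wt_mΨ {w : ℕ} {T : Finset ℕ} {ψ : ℕ → ℝ} (hT : ∀ q ∈ T, 0 < q) (u : ℕ) :
    wt (mΨ w T ψ) u = ∑ q ∈ T.filter (fun q => rp (Lo w) q = u), wt ψ q * tr (sp (Lo w) q) := by
  rw [wt_eq]
  unfold mΨ
  rw [Finset.sum_mul]
  apply Finset.sum_congr rfl
  intro q hq
  have h1 := Finset.mem_filter.1 hq
  rw [wt_eq, tr_split (w := w) (hT q h1.1), h1.2]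
  ring

lemma tot_merge {w : ℕ} {T : Finset ℕ} {ψ : ℕ → ℝ} (hT : ∀ q ∈ T, 0 < q) :
    tot (mV w T) (mΨ w T ψ) = ∑ q ∈ T, wt ψ q * tr (sp (Lo w) q) := by
  unfold tot mV
  simp_rw [wt_mΨ hT]
  exact Finset.sum_fiberwise_of_maps_to (fun q hq => Finset.mem_image_of_mem _ hq) _

lemma tot_merge_le {w : ℕ} {T : Finset ℕ} {ψ : ℕ → ℝ} (hT : ∀ q ∈ T, 0 < q) (hψ : ∀ q ∈ T, 0 ≤ ψ q) :
    tot (mV w T) (mΨ w T ψ) ≤ tot T ψ := by
  rw [tot_merge hT]
  apply Finset.sum_le_sum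
  intro q hq
  exact mul_le_of_le_one_right (wt_nonneg (hψ q hq)) (tr_le_one _)

lemma pf_split {w n : ℕ} (hn : 0 < n) :
    n.primeFactors = (sp (Lo w) n).primeFactors ∪ (rp (Lo w) n).primeFactors := by
  conv_lhs => rw [← sp_mul_rp (Lo w) hn]
  exact Nat.primeFactors_mul (sp_pos _ hn).ne' (rp_pos _ hn).ne'

lemma hh_merge {w n : ℕ} (hn : 0 < n) {B : Finset ℕ} (hB : ∀ q ∈ B, q.Prime ∧ w ≤ q) {e2 : ℝ}
    (he0 : 0 ≤ e2) (he1 : 2*e2 ≤ 1) :
    tr (sp (Lo w) n) * hh B e2 (rp (Lo w) n) ≤ hh B e2 n := by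
  classical
  have hs := sp_pos (Lo w) hn
  have hdis : Disjoint (sp (Lo w) n).primeFactors (rp (Lo w) n).primeFactors := cop_sr.disjoint_primeFactors
  unfold hh
  have hfil : B.filter (fun q => q ∣ rp (Lo w) n) = B.filter (fun q => q ∣ n) := by
    apply Finset.filter_congr
    intro q hq
    constructor
    · intro h; exact h.trans (rp_dvd _ hn)
    · intro h
      rw [← sp_mul_rp (Lo w) hn] at h
      rcases (Nat.Prime.dvd_mul (hB q hq).1).1 h with h1 | h1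
      · have h2 : Lo w q := sp_prime (Lo w) (hB q hq).1 h1
        have h3 := (hB q hq).2
        unfold Lo at h2
        omega
      · exact h1
  rw [hfil, Finset.mul_sum]
  apply Finset.sum_le_sum
  intro q hq
  have hqB := (Finset.mem_filter.1 hq).1
  have hwq := (hB q hqB).2
  have e1 : rho e2 q n = (∏ r ∈ (sp (Lo w) n).primeFactors, (1 - 1/(r:ℝ))^(1-2*e2)) * rho e2 q (rp (Lo w) n) := by
    unfold rho
    rw [pf_split (w := w) hn, Finset.filter_union, Finset.prod_union]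
    · congr 1
      apply Finset.prod_congr _ (fun _ _ => rfl)
      apply Finset.filter_true_of_mem
      intro r hr
      have h2 : Lo w r := sp_prime (Lo w) (Nat.prime_of_mem_primeFactors hr) (Nat.dvd_of_mem_primeFactors hr)
      exact lt_of_lt_of_le h2 hwq
    · exact Finset.disjoint_filter_filter hdis
  have e2' : tr (sp (Lo w) n) ≤ ∏ r ∈ (sp (Lo w) n).primeFactors, (1 - 1/(r:ℝ))^(1-2*e2) := by
    unfold tr
    rw [tot_ratio_eq hs]
    apply Finset.prod_le_prod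
    · intro r hr
      exact (Crest.Agent.R4.HVWX793.one_sub_inv_mem (Nat.prime_of_mem_primeFactors hr)).1
    · intro r hr
      obtain ⟨h1, h2⟩ := Crest.Agent.R4.HVWX793.one_sub_inv_mem (Nat.prime_of_mem_primeFactors hr)
      rw [← one_div] at h1 h2 ⊢
      calc (1 - 1/(r:ℝ)) = (1 - 1/(r:ℝ))^(1:ℝ) := (Real.rpow_one _).symm
        _ ≤ (1 - 1/(r:ℝ))^(1-2*e2) := by
            have hr1 : (1:ℝ) < r := by exact_mod_cast (Nat.prime_of_mem_primeFactors hr).one_lt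
            have h3 : 0 < 1 - 1/(r:ℝ) := by
              rw [sub_pos, div_lt_one (by linarith)]; exact hr1
            exact Real.rpow_le_rpow_of_exponent_ge h3 h2 (by linarith)
  rw [e1]
  have hr0 := rho_nonneg e2 q (rp (Lo w) n)
  calc tr (sp (Lo w) n) * (1/(q:ℝ) * rho e2 q (rp (Lo w) n))
      = 1/(q:ℝ) * (tr (sp (Lo w) n) * rho e2 q (rp (Lo w) n)) := by ring
    _ ≤ 1/(q:ℝ) * ((∏ r ∈ (sp (Lo w) n).primeFactors, (1 - 1/(r:ℝ))^(1-2*e2)) * rho e2 q (rp (Lo w) n)) := by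
        apply mul_le_mul_of_nonneg_left _ (by positivity)
        exact mul_le_mul_of_nonneg_right e2' hr0

lemma Lin_merge {w : ℕ} {T : Finset ℕ} {ψ : ℕ → ℝ} (hT : ∀ q ∈ T, 0 < q) (hψ : ∀ q ∈ T, 0 ≤ ψ q)
    {B : Finset ℕ} (hB : ∀ q ∈ B, q.Prime ∧ w ≤ q) {e2 : ℝ} (he0 : 0 ≤ e2) (he1 : 2*e2 ≤ 1) :
    Lin B e2 (mV w T) (mΨ w T ψ) ≤ ∑ q ∈ T, wt ψ q * hh B e2 q := by
  have h1 : Lin B e2 (mV w T) (mΨ w T ψ) = ∑ q ∈ T, (wt ψ q * tr (sp (Lo w) q)) * hh B e2 (rp (Lo w) q) := by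
    unfold Lin mV
    rw [← Finset.sum_fiberwise_of_maps_to (s := T) (t := T.image (rp (Lo w))) (g := rp (Lo w))
      (fun q hq => Finset.mem_image_of_mem _ hq)]
    apply Finset.sum_congr rfl
    intro u _
    rw [wt_mΨ hT, Finset.sum_mul]
    apply Finset.sum_congr rfl
    intro q hq
    rw [(Finset.mem_filter.1 hq).2]
  rw [h1]
  apply Finset.sum_le_sum
  intro q hq
  have h2 := hh_merge (w := w) (hT q hq) hB he0 he1
  calc (wt ψ q * tr (sp (Lo w) q)) * hh B e2 (rp (Lo w) q)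
      = wt ψ q * (tr (sp (Lo w) q) * hh B e2 (rp (Lo w) q)) := by ring
    _ ≤ _ := mul_le_mul_of_nonneg_left h2 (wt_nonneg (hψ q hq))

/-- `φ(s')/s' / a ≤ φ(s)/s` when `a = s / gcd(s,s')` -/
lemma tr_cof {s s' : ℕ} (hs : 0 < s) (hs' : 0 < s') : tr s' / cof s s' ≤ tr s := by
  set a := cof s s' with ha
  set l := Nat.gcd s s' with hl
  have e : a * l = s := cof_mul_gcd s s'
  have ha0 : 0 < a := cof_pos hs
  have hl0 : 0 < l := Nat.gcd_pos_of_pos_left _ hs
  have h1 : tr s' ≤ tr l := tot_ratio_anti (Nat.gcd_dvd_right s s') hs'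
  have h2 := tot_ratio_mul_le ha0 hl0
  have ha' : (0:ℝ) < a := by exact_mod_cast ha0
  have ht : (1:ℝ) ≤ Nat.totient a := by exact_mod_cast Nat.totient_pos.2 ha0
  rw [div_le_iff₀ ha']
  calc tr s' ≤ tr l := h1
    _ ≤ ((a:ℝ)/Nat.totient a) * tr (a*l) := h2
    _ ≤ (a:ℝ) * tr (a*l) := by
        apply mul_le_mul_of_nonneg_right _ (tr_nonneg _)
        exact div_le_self ha'.le ht
    _ = tr s * a := by rw [e]; ring

/-- data of a block of pairs -/
structure Blk (A : ℝ) (B : Finset ℕ) (w : ℕ) (T : Finset ℕ) (ψ : ℕ → ℝ) (PP : Finset (ℕ × ℕ)) : Prop where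
  hT : ∀ q ∈ T, 0 < q
  hψ : ∀ q ∈ T, 0 ≤ ψ q
  hPP : PP ⊆ T ×ˢ T
  hw1 : 1 ≤ w
  hBp : ∀ p ∈ B, p.Prime ∧ w ≤ p ∧ (w:ℝ) ≤ (Real.log p)^A ∧ 1 ≤ Real.log p
  first : ∀ e ∈ PP, ∃ p ∈ B, First p (rp (Lo w) e.1) (rp (Lo w) e.2) ∧
    1/(Real.log p)^A ≤ DD e.1 e.2 (ψ e.1) (ψ e.2) ∧
    (cof (sp (Lo w) e.1) (sp (Lo w) e.2) : ℝ) ≤ (Real.log p)^A ∧
    (cof (sp (Lo w) e.2) (sp (Lo w) e.1) : ℝ) ≤ (Real.log p)^A
  func : ∀ e ∈ PP, ∀ e' ∈ PP, rp (Lo w) e.1 = rp (Lo w) e'.1 → rp (Lo w) e.2 = rp (Lo w) e'.2 →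
    cof (sp (Lo w) e.1) (sp (Lo w) e.2) = cof (sp (Lo w) e'.1) (sp (Lo w) e'.2) ∧
    cof (sp (Lo w) e.2) (sp (Lo w) e.1) = cof (sp (Lo w) e'.2) (sp (Lo w) e'.1)

set_option maxHeartbeats 1000000 in
/-- **merging** -/
theorem merge_le {A : ℝ} (hA : 1 ≤ A) {B : Finset ℕ} {w : ℕ} {T : Finset ℕ} {ψ : ℕ → ℝ}
    {PP : Finset (ℕ × ℕ)} (h : Blk A B w T ψ PP) :
    ∑ e ∈ PP, wt ψ e.1 * wt ψ e.2 / DD e.1 e.2 (ψ e.1) (ψ e.2) ≤ BE B (4*A) (mV w T) (mΨ w T ψ) := by
  classical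
  set R : ℕ → ℕ := rp (Lo w) with hR
  set s : ℕ → ℕ := sp (Lo w) with hs
  set V := mV w T with hV
  set Ψ := mΨ w T ψ with hΨ
  have Ψ0 : ∀ u, 0 ≤ Ψ u := fun u => mΨ_nonneg h.hψ u
  have hmem : ∀ e ∈ PP, e.1 ∈ T ∧ e.2 ∈ T := fun e he => Finset.mem_product.1 (h.hPP he)
  have hmaps : ∀ e ∈ PP, (R e.1, R e.2) ∈ V ×ˢ V := by
    intro e he
    rw [Finset.mem_product]
    exact ⟨Finset.mem_image_of_mem _ (hmem e he).1, Finset.mem_image_of_mem _ (hmem e he).2⟩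
  have hcofs : ∀ q ∈ T, ∀ r ∈ T, cof q r = cof (s q) (s r) * cof (R q) (R r) := by
    intro q hq r hr
    conv_lhs => rw [← sp_mul_rp (Lo w) (h.hT q hq), ← sp_mul_rp (Lo w) (h.hT r hr)]
    exact cof_mul_sep (Lo w) (fun _ hp h => sp_prime (Lo w) hp h) (fun _ hp h => sp_prime (Lo w) hp h)
      (fun _ hp h => rp_prime (Lo w) hp h) (fun _ hp h => rp_prime (Lo w) hp h)
  -- one fibre
  have key : ∀ y ∈ V ×ˢ V, ∑ e ∈ PP.filter (fun e => (R e.1, R e.2) = y),
      wt ψ e.1 * wt ψ e.2 / DD e.1 e.2 (ψ e.1) (ψ e.2) ≤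
      ∑ p ∈ B.filter (fun p => First p y.1 y.2), wt Ψ y.1 * wt Ψ y.2 *
        HZ ((Real.log p)^(4*A)) (DD y.1 y.2 (Ψ y.1) (Ψ y.2)) := by
    intro y hy
    set Py := PP.filter (fun e => (R e.1, R e.2) = y) with hPy
    have hPym : ∀ e ∈ Py, e ∈ PP ∧ R e.1 = y.1 ∧ R e.2 = y.2 := by
      intro e he
      have h1 := Finset.mem_filter.1 he
      refine ⟨h1.1, ?_, ?_⟩
      · rw [← h1.2]
      · rw [← h1.2]
    by_cases hne : Py = ∅
    · rw [hne, Finset.sum_empty]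
      apply Finset.sum_nonneg
      intro p hp
      have hl := (h.hBp p (Finset.mem_filter.1 hp).1).2.2.2
      exact mul_nonneg (mul_nonneg (wt_nonneg (Ψ0 _)) (wt_nonneg (Ψ0 _)))
        (HZ_nonneg (Real.rpow_pos_of_pos (by linarith) _))
    obtain ⟨e0, he0⟩ := Finset.nonempty_iff_ne_empty.2 hne
    obtain ⟨he0P, he01, he02⟩ := hPym e0 he0
    obtain ⟨p, hpB, hF, hD0, ha0, hb0⟩ := h.first e0 he0P
    obtain ⟨hpp, hwp, hwL, hL1⟩ := h.hBp p hpB
    set L := Real.log p with hL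
    have hL0 : 0 < L := by linarith
    have hF' : First p y.1 y.2 := by rw [← he01, ← he02]; exact hF
    have hLA : (0:ℝ) < L^A := by positivity
    set a := cof (s e0.1) (s e0.2) with ha
    set b := cof (s e0.2) (s e0.1) with hb
    set x := cof y.1 y.2 with hx
    set z := cof y.2 y.1 with hz
    have q0T := (hmem e0 he0P).1
    have r0T := (hmem e0 he0P).2
    have a0 : 0 < a := cof_pos (sp_pos _ (h.hT _ q0T))
    have b0 : 0 < b := cof_pos (sp_pos _ (h.hT _ r0T))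
    have y1pos : 0 < y.1 := by rw [← he01]; exact rp_pos _ (h.hT _ q0T)
    have y2pos : 0 < y.2 := by rw [← he02]; exact rp_pos _ (h.hT _ r0T)
    have x0 : 0 < x := cof_pos y1pos
    have z0 : 0 < z := cof_pos y2pos
    have aR : (0:ℝ) < a := by exact_mod_cast a0
    have bR : (0:ℝ) < b := by exact_mod_cast b0
    have xR : (0:ℝ) < x := by exact_mod_cast x0
    have zR : (0:ℝ) < z := by exact_mod_cast z0
    -- constancy of (a,b)
    have hab : ∀ e ∈ Py, cof (s e.1) (s e.2) = a ∧ cof (s e.2) (s e.1) = b := by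
      intro e he
      obtain ⟨h1, h2, h3⟩ := hPym e he
      exact h.func e h1 e0 he0P (h2.trans he01.symm) (h3.trans he02.symm)
    have hDe : ∀ e ∈ Py, DD e.1 e.2 (ψ e.1) (ψ e.2) = max ((b:ℝ) * z * ψ e.1) ((a:ℝ) * x * ψ e.2) := by
      intro e he
      obtain ⟨h1, h2, h3⟩ := hPym e he
      unfold DD
      rw [hcofs _ (hmem e h1).2 _ (hmem e h1).1, hcofs _ (hmem e h1).1 _ (hmem e h1).2, (hab e he).1, (hab e he).2,
        h2, h3]
      push_cast
      rfl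
    -- injectivity
    have inj1 : Set.InjOn (fun e : ℕ × ℕ => e.1) Py := by
      intro e he e' he' hee
      obtain ⟨h1, h2, h3⟩ := hPym e he
      obtain ⟨h1', h2', h3'⟩ := hPym e' he'
      simp only at hee
      apply Prod.ext hee
      have g1 := cof_mul_gcd (s e.1) (s e.2)
      have g1' := cof_mul_gcd (s e'.1) (s e'.2)
      have g2 := cof_mul_gcd (s e.2) (s e.1)
      have g2' := cof_mul_gcd (s e'.2) (s e'.1)
      rw [(hab e he).1] at g1
      rw [(hab e' he').1] at g1'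
      rw [(hab e he).2] at g2
      rw [(hab e' he').2] at g2'
      have hg : Nat.gcd (s e.1) (s e.2) = Nat.gcd (s e'.1) (s e'.2) := by
        have : a * Nat.gcd (s e.1) (s e.2) = a * Nat.gcd (s e'.1) (s e'.2) := by
          rw [g1, g1', hee]
        exact Nat.eq_of_mul_eq_mul_left a0 this
      have hs2 : s e.2 = s e'.2 := by
        rw [← g2, ← g2', Nat.gcd_comm (s e.2), Nat.gcd_comm (s e'.2), hg]
      have hR2 : R e.2 = R e'.2 := h3.trans h3'.symm
      rw [← sp_mul_rp (Lo w) (h.hT _ (hmem e h1).2), ← sp_mul_rp (Lo w) (h.hT _ (hmem e' h1').2)]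
      show s e.2 * R e.2 = s e'.2 * R e'.2
      rw [hs2, hR2]
    have inj2 : Set.InjOn (fun e : ℕ × ℕ => e.2) Py := by
      intro e he e' he' hee
      obtain ⟨h1, h2, h3⟩ := hPym e he
      obtain ⟨h1', h2', h3'⟩ := hPym e' he'
      simp only at hee
      refine Prod.ext ?_ hee
      have g1 := cof_mul_gcd (s e.1) (s e.2)
      have g1' := cof_mul_gcd (s e'.1) (s e'.2)
      have g2 := cof_mul_gcd (s e.2) (s e.1)
      have g2' := cof_mul_gcd (s e'.2) (s e'.1)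
      rw [(hab e he).1] at g1
      rw [(hab e' he').1] at g1'
      rw [(hab e he).2] at g2
      rw [(hab e' he').2] at g2'
      have hg : Nat.gcd (s e.2) (s e.1) = Nat.gcd (s e'.2) (s e'.1) := by
        have : b * Nat.gcd (s e.2) (s e.1) = b * Nat.gcd (s e'.2) (s e'.1) := by
          rw [g2, g2', hee]
        exact Nat.eq_of_mul_eq_mul_left b0 this
      have hs2 : s e.1 = s e'.1 := by
        rw [← g1, ← g1', Nat.gcd_comm (s e.1), Nat.gcd_comm (s e'.1), hg]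
      have hR2 : R e.1 = R e'.1 := h2.trans h2'.symm
      rw [← sp_mul_rp (Lo w) (h.hT _ (hmem e h1).1), ← sp_mul_rp (Lo w) (h.hT _ (hmem e' h1').1)]
      show s e.1 * R e.1 = s e'.1 * R e'.1
      rw [hs2, hR2]
    -- termwise bounds
    have t1 : ∀ e ∈ Py, wt ψ e.1 * wt ψ e.2 / DD e.1 e.2 (ψ e.1) (ψ e.2) ≤
        tr y.1 * tr y.2 * ((ψ e.1 * (tr (s e.1))^2) / x) := by
      intro e he
      obtain ⟨h1, h2, h3⟩ := hPym e he
      have p1 := h.hψ _ (hmem e h1).1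
      have p2 := h.hψ _ (hmem e h1).2
      have w1 : wt ψ e.1 = ψ e.1 * (tr (s e.1) * tr y.1) := by
        rw [wt_eq, tr_split (w := w) (h.hT _ (hmem e h1).1), ← h2]
      have w2 : wt ψ e.2 = ψ e.2 * (tr (s e.2) * tr y.2) := by
        rw [wt_eq, tr_split (w := w) (h.hT _ (hmem e h1).2), ← h3]
      rcases p2.eq_or_lt with h0 | hpos
      · rw [w2, ← h0, zero_mul, mul_zero, zero_div]
        have := tr_nonneg y.1; have := tr_nonneg y.2; have := tr_nonneg (s e.1)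
        positivity
      · have hDp : (a:ℝ) * x * ψ e.2 ≤ DD e.1 e.2 (ψ e.1) (ψ e.2) := by
          rw [hDe e he]; exact le_max_right _ _
        have hDp0 : 0 < (a:ℝ) * x * ψ e.2 := by positivity
        have hcf := tr_cof (sp_pos (Lo w) (h.hT _ (hmem e h1).1)) (sp_pos (Lo w) (h.hT _ (hmem e h1).2))
        have hcf' : tr (s e.2) / a ≤ tr (s e.1) := by
          have := (hab e he).1
          rw [← this]; exact hcf
        have n1 := tr_nonneg (s e.1)
        have n2 := tr_nonneg (s e.2)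
        have n3 := tr_nonneg y.1
        have n4 := tr_nonneg y.2
        calc wt ψ e.1 * wt ψ e.2 / DD e.1 e.2 (ψ e.1) (ψ e.2)
            ≤ wt ψ e.1 * wt ψ e.2 / ((a:ℝ) * x * ψ e.2) := by
              apply div_le_div_of_nonneg_left _ hDp0 hDp
              exact mul_nonneg (wt_nonneg p1) (wt_nonneg p2)
          _ = tr y.1 * tr y.2 * ((ψ e.1 * tr (s e.1) * (tr (s e.2) / a)) / x) := by
              rw [w1, w2]; field_simp
          _ ≤ tr y.1 * tr y.2 * ((ψ e.1 * tr (s e.1) * tr (s e.1)) / x) := by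
              apply mul_le_mul_of_nonneg_left _ (by positivity)
              apply div_le_div_of_nonneg_right _ xR.le
              exact mul_le_mul_of_nonneg_left hcf' (by positivity)
          _ = _ := by ring
    have t2 : ∀ e ∈ Py, wt ψ e.1 * wt ψ e.2 / DD e.1 e.2 (ψ e.1) (ψ e.2) ≤
        tr y.1 * tr y.2 * ((ψ e.2 * (tr (s e.2))^2) / z) := by
      intro e he
      obtain ⟨h1, h2, h3⟩ := hPym e he
      have p1 := h.hψ _ (hmem e h1).1
      have p2 := h.hψ _ (hmem e h1).2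
      have w1 : wt ψ e.1 = ψ e.1 * (tr (s e.1) * tr y.1) := by
        rw [wt_eq, tr_split (w := w) (h.hT _ (hmem e h1).1), ← h2]
      have w2 : wt ψ e.2 = ψ e.2 * (tr (s e.2) * tr y.2) := by
        rw [wt_eq, tr_split (w := w) (h.hT _ (hmem e h1).2), ← h3]
      rcases p1.eq_or_lt with h0 | hpos
      · rw [w1, ← h0, zero_mul, zero_mul, zero_div]
        have := tr_nonneg y.1; have := tr_nonneg y.2; have := tr_nonneg (s e.2)
        positivity
      · have hDp : (b:ℝ) * z * ψ e.1 ≤ DD e.1 e.2 (ψ e.1) (ψ e.2) := by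
          rw [hDe e he]; exact le_max_left _ _
        have hDp0 : 0 < (b:ℝ) * z * ψ e.1 := by positivity
        have hcf := tr_cof (sp_pos (Lo w) (h.hT _ (hmem e h1).2)) (sp_pos (Lo w) (h.hT _ (hmem e h1).1))
        have hcf' : tr (s e.1) / b ≤ tr (s e.2) := by
          have := (hab e he).2
          rw [← this]; exact hcf
        have n1 := tr_nonneg (s e.1)
        have n2 := tr_nonneg (s e.2)
        have n3 := tr_nonneg y.1
        have n4 := tr_nonneg y.2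
        calc wt ψ e.1 * wt ψ e.2 / DD e.1 e.2 (ψ e.1) (ψ e.2)
            ≤ wt ψ e.1 * wt ψ e.2 / ((b:ℝ) * z * ψ e.1) := by
              apply div_le_div_of_nonneg_left _ hDp0 hDp
              exact mul_nonneg (wt_nonneg p1) (wt_nonneg p2)
          _ = tr y.1 * tr y.2 * ((ψ e.2 * tr (s e.2) * (tr (s e.1) / b)) / z) := by
              rw [w1, w2]; field_simp
          _ ≤ tr y.1 * tr y.2 * ((ψ e.2 * tr (s e.2) * tr (s e.2)) / z) := by
              apply mul_le_mul_of_nonneg_left _ (by positivity)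
              apply div_le_div_of_nonneg_right _ zR.le
              exact mul_le_mul_of_nonneg_left hcf' (by positivity)
          _ = _ := by ring
    -- sums
    have s1 : ∑ e ∈ Py, ψ e.1 * (tr (s e.1))^2 ≤ Ψ y.1 := by
      rw [← Finset.sum_image (f := fun q => ψ q * (tr (s q))^2) inj1]
      apply Finset.sum_le_sum_of_subset_of_nonneg
      · intro q hq
        obtain ⟨e, he, rfl⟩ := Finset.mem_image.1 hq
        obtain ⟨h1, h2, h3⟩ := hPym e he
        rw [Finset.mem_filter]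
        exact ⟨(hmem e h1).1, h2⟩
      · intro q hq _
        exact mul_nonneg (h.hψ q (Finset.mem_filter.1 hq).1) (sq_nonneg _)
    have s2 : ∑ e ∈ Py, ψ e.2 * (tr (s e.2))^2 ≤ Ψ y.2 := by
      rw [← Finset.sum_image (f := fun q => ψ q * (tr (s q))^2) inj2]
      apply Finset.sum_le_sum_of_subset_of_nonneg
      · intro q hq
        obtain ⟨e, he, rfl⟩ := Finset.mem_image.1 hq
        obtain ⟨h1, h2, h3⟩ := hPym e he
        rw [Finset.mem_filter]
        exact ⟨(hmem e h1).2, h3⟩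
      · intro q hq _
        exact mul_nonneg (h.hψ q (Finset.mem_filter.1 hq).1) (sq_nonneg _)
    have n3 := tr_nonneg y.1
    have n4 := tr_nonneg y.2
    have S1 : ∑ e ∈ Py, wt ψ e.1 * wt ψ e.2 / DD e.1 e.2 (ψ e.1) (ψ e.2) ≤ tr y.1 * tr y.2 * (Ψ y.1 / x) := by
      refine (Finset.sum_le_sum t1).trans ?_
      rw [← Finset.mul_sum, ← Finset.sum_div]
      apply mul_le_mul_of_nonneg_left _ (by positivity)
      exact div_le_div_of_nonneg_right s1 xR.le
    have S2 : ∑ e ∈ Py, wt ψ e.1 * wt ψ e.2 / DD e.1 e.2 (ψ e.1) (ψ e.2) ≤ tr y.1 * tr y.2 * (Ψ y.2 / z) := by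
      refine (Finset.sum_le_sum t2).trans ?_
      rw [← Finset.mul_sum, ← Finset.sum_div]
      apply mul_le_mul_of_nonneg_left _ (by positivity)
      exact div_le_div_of_nonneg_right s2 zR.le
    -- lower bound for the merged D
    have DDy : DD y.1 y.2 (Ψ y.1) (Ψ y.2) = max ((z:ℝ) * Ψ y.1) ((x:ℝ) * Ψ y.2) := rfl
    have hwR : (1:ℝ) ≤ w := by exact_mod_cast h.hw1
    have low : 1/L^(4*A) ≤ DD y.1 y.2 (Ψ y.1) (Ψ y.2) := by
      have g1 : ψ e0.1 * (tr (s e0.1))^2 ≤ Ψ y.1 := by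
        refine le_trans ?_ s1
        apply Finset.single_le_sum (f := fun e : ℕ × ℕ => ψ e.1 * (tr (s e.1))^2) _ he0
        intro e he
        exact mul_nonneg (h.hψ _ (hmem e (hPym e he).1).1) (sq_nonneg _)
      have g2 : ψ e0.2 * (tr (s e0.2))^2 ≤ Ψ y.2 := by
        refine le_trans ?_ s2
        apply Finset.single_le_sum (f := fun e : ℕ × ℕ => ψ e.2 * (tr (s e.2))^2) _ he0
        intro e he
        exact mul_nonneg (h.hψ _ (hmem e (hPym e he).1).2) (sq_nonneg _)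
      have k1 : 1/(w:ℝ) ≤ tr (s e0.1) := tr_sp_ge h.hw1 (h.hT _ q0T)
      have k2 : 1/(w:ℝ) ≤ tr (s e0.2) := tr_sp_ge h.hw1 (h.hT _ r0T)
      have kw : 1/L^A ≤ 1/(w:ℝ) := one_div_le_one_div_of_le (by linarith) hwL
      have kk1 : (1/L^A)^2 ≤ (tr (s e0.1))^2 := pow_le_pow_left₀ (by positivity) (kw.trans k1) 2
      have kk2 : (1/L^A)^2 ≤ (tr (s e0.2))^2 := pow_le_pow_left₀ (by positivity) (kw.trans k2) 2
      have p1 := h.hψ _ q0T
      have p2 := h.hψ _ r0T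
      have e4 : L^(4*A) = (L^A)^2 * L^A * L^A := by
        rw [← Real.rpow_natCast, ← Real.rpow_mul hL0.le, ← Real.rpow_add hL0, ← Real.rpow_add hL0]
        congr 1; push_cast; ring
      rw [hDe e0 he0] at hD0
      rw [DDy]
      rcases le_total ((b:ℝ) * z * ψ e0.1) ((a:ℝ) * x * ψ e0.2) with hh' | hh'
      · rw [max_eq_right hh'] at hD0
        refine le_trans ?_ (le_max_right _ _)
        calc 1/L^(4*A) = (1/L^A)^2 * (1/L^A) * (1/L^A) := by rw [e4]; field_simp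
          _ ≤ (1/L^A)^2 * (1/L^A) * ((a:ℝ) * x * ψ e0.2) := mul_le_mul_of_nonneg_left hD0 (by positivity)
          _ = (a/L^A) * (x * (ψ e0.2 * (1/L^A)^2)) := by ring
          _ ≤ 1 * (x * (ψ e0.2 * (tr (s e0.2))^2)) := by
              apply mul_le_mul _ _ (by positivity) (by norm_num)
              · rw [div_le_one hLA]; exact ha0
              · apply mul_le_mul_of_nonneg_left _ xR.le
                exact mul_le_mul_of_nonneg_left kk2 p2
          _ ≤ x * Ψ y.2 := by rw [one_mul]; exact mul_le_mul_of_nonneg_left g2 xR.le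
      · rw [max_eq_left hh'] at hD0
        refine le_trans ?_ (le_max_left _ _)
        calc 1/L^(4*A) = (1/L^A)^2 * (1/L^A) * (1/L^A) := by rw [e4]; field_simp
          _ ≤ (1/L^A)^2 * (1/L^A) * ((b:ℝ) * z * ψ e0.1) := mul_le_mul_of_nonneg_left hD0 (by positivity)
          _ = (b/L^A) * (z * (ψ e0.1 * (1/L^A)^2)) := by ring
          _ ≤ 1 * (z * (ψ e0.1 * (tr (s e0.1))^2)) := by
              apply mul_le_mul _ _ (by positivity) (by norm_num)
              · rw [div_le_one hLA]; exact hb0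
              · apply mul_le_mul_of_nonneg_left _ zR.le
                exact mul_le_mul_of_nonneg_left kk1 p1
          _ ≤ z * Ψ y.1 := by rw [one_mul]; exact mul_le_mul_of_nonneg_left g1 zR.le
    have hDpos : 0 < DD y.1 y.2 (Ψ y.1) (Ψ y.2) := lt_of_lt_of_le (by positivity) low
    -- conclusion for the fibre
    have fin : ∑ e ∈ Py, wt ψ e.1 * wt ψ e.2 / DD e.1 e.2 (ψ e.1) (ψ e.2) ≤
        wt Ψ y.1 * wt Ψ y.2 * HZ (L^(4*A)) (DD y.1 y.2 (Ψ y.1) (Ψ y.2)) := by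
      unfold HZ
      rw [if_pos low, mul_one_div, le_div_iff₀ hDpos, DDy, wt_eq, wt_eq]
      rcases le_total ((z:ℝ) * Ψ y.1) ((x:ℝ) * Ψ y.2) with hh' | hh'
      · rw [max_eq_right hh']
        calc _ ≤ (tr y.1 * tr y.2 * (Ψ y.1 / x)) * ((x:ℝ) * Ψ y.2) :=
              mul_le_mul_of_nonneg_right S1 (mul_nonneg xR.le (Ψ0 _))
          _ = _ := by field_simp
      · rw [max_eq_left hh']
        calc _ ≤ (tr y.1 * tr y.2 * (Ψ y.2 / z)) * ((z:ℝ) * Ψ y.1) :=
              mul_le_mul_of_nonneg_right S2 (mul_nonneg zR.le (Ψ0 _))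
          _ = _ := by field_simp
    refine fin.trans ?_
    apply Finset.single_le_sum (f := fun p : ℕ => wt Ψ y.1 * wt Ψ y.2 *
        HZ ((Real.log p)^(4*A)) (DD y.1 y.2 (Ψ y.1) (Ψ y.2))) _ (Finset.mem_filter.2 ⟨hpB, hF'⟩)
    intro p' hp'
    have hl := (h.hBp p' (Finset.mem_filter.1 hp').1).2.2.2
    exact mul_nonneg (mul_nonneg (wt_nonneg (Ψ0 _)) (wt_nonneg (Ψ0 _)))
      (HZ_nonneg (Real.rpow_pos_of_pos (by linarith) _))
  calc ∑ e ∈ PP, wt ψ e.1 * wt ψ e.2 / DD e.1 e.2 (ψ e.1) (ψ e.2)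
      = ∑ y ∈ V ×ˢ V, ∑ e ∈ PP.filter (fun e => (R e.1, R e.2) = y),
          wt ψ e.1 * wt ψ e.2 / DD e.1 e.2 (ψ e.1) (ψ e.2) :=
        (Finset.sum_fiberwise_of_maps_to hmaps _).symm
    _ ≤ ∑ y ∈ V ×ˢ V, ∑ p ∈ B.filter (fun p => First p y.1 y.2), wt Ψ y.1 * wt Ψ y.2 *
        HZ ((Real.log p)^(4*A)) (DD y.1 y.2 (Ψ y.1) (Ψ y.2)) := Finset.sum_le_sum key
    _ = BE B (4*A) V Ψ := by
        unfold BE
        simp_rw [Finset.sum_filter]
        rw [Finset.sum_comm]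

end Crest.Agent.R4.X734
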