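import Mathlib
import Crest.Agent.R4.X734i

/-!
R4 (S0004), helper709: (D1) the degree identity, (D3) mixed activity over a non-linear base.
-/

set_option autoImplicit false
open Finset

namespace Crest.Agent.R4.Deg709
open Crest.Agent.R4.HVW560 Crest.Agent.R4.X734
open Crest.Agent.R4.LF9 (sp rp sp_mul_rp sp_pos rp_pos sp_dvd rp_dvd sp_prime rp_prime coprime_of_sep)
open Crest.Agent.R4.HVWX793 (tot_ratio_anti tot_ratio_eq)

/-! ### (D1) the degree identity -/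

/-- `∑_{y ∣ m} (1/y) φ(m/y)/(m/y) = 1` -/
theorem deg_identity {m : ℕ} (hm : 0 < m) : ∑ y ∈ m.divisors, (1/(y:ℝ)) * tr (m/y) = 1 := by
  have hm' : (0:ℝ) < m := by exact_mod_cast hm
  have h1 : ∀ y ∈ m.divisors, (1/(y:ℝ)) * tr (m/y) = (Nat.totient (m/y) : ℝ)/m := by
    intro y hy
    have hy1 := Nat.dvd_of_mem_divisors hy
    have hy0 : 0 < y := Nat.pos_of_mem_divisors hy
    have hy0' : (0:ℝ) < y := by exact_mod_cast hy0
    have h2 : 0 < m/y := Nat.div_pos (Nat.le_of_dvd hm hy1) hy0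
    have h2' : (0:ℝ) < (m/y : ℕ) := by exact_mod_cast h2
    have h3 : ((m/y : ℕ) : ℝ) * y = m := by exact_mod_cast Nat.div_mul_cancel hy1
    unfold tr
    rw [div_mul_div_comm, one_mul, mul_comm (y:ℝ), h3]
  rw [Finset.sum_congr rfl h1, ← Finset.sum_div]
  have h2 : ∑ y ∈ m.divisors, (Nat.totient (m/y) : ℝ) = m := by
    have := Nat.sum_div_divisors m (fun n => Nat.totient n)
    have h3 := Nat.sum_totient m
    rw [← this] at h3
    exact_mod_cast h3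
  rw [h2, div_self hm'.ne']

/-- the same over subsets of a finite set -/
theorem deg_identity_set (U : Finset ℕ) (g : ℕ → ℝ) :
    ∑ Y ∈ U.powerset, (∏ p ∈ Y, g p) * (∏ p ∈ U \ Y, (1 - g p)) = 1 := by
  have := Finset.prod_add (fun p => g p) (fun p => 1 - g p) U
  rw [← this]
  exact Finset.prod_eq_one fun p _ => by ring

/-- (D1), abstract form. `K r` is the kernel, `F r` the coincidence factor, `y r` the divisor of `m`
by which `r` is determined up to `M` choices. -/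
theorem D1 {m : ℕ} (hm : 0 < m) {T : Finset ℕ} {ψ K F : ℕ → ℝ} {y : ℕ → ℕ} {M : ℝ}
    (hF : ∀ r ∈ T, 0 ≤ F r)
    (hK : ∀ r ∈ T, K r * ((y r : ℝ) * ψ r) ≤ 1)
    (hy : ∀ r ∈ T, y r ∣ m)
    (hact : ∀ r ∈ T, F r * tr r ≤ tr (m / y r))
    (hM : ∀ d ∈ m.divisors, ((T.filter (fun r => y r = d)).card : ℝ) ≤ M) :
    ∑ r ∈ T, wt ψ r * F r * K r ≤ M := by
  classical
  have h1 : ∀ r ∈ T, wt ψ r * F r * K r ≤ (1/(y r : ℝ)) * tr (m / y r) := by
    intro r hr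
    have hy0 : 0 < y r := Nat.pos_of_dvd_of_pos (hy r hr) hm
    have hy0' : (0:ℝ) < y r := by exact_mod_cast hy0
    have e1 : ψ r * K r ≤ 1/(y r : ℝ) := by
      rw [le_div_iff₀ hy0']
      have := hK r hr
      linarith [this, show ψ r * K r * (y r : ℝ) = K r * ((y r : ℝ) * ψ r) by ring]
    have e2 : wt ψ r * F r * K r = (F r * tr r) * (ψ r * K r) := by rw [wt_eq]; ring
    rw [e2]
    have e3 : 0 ≤ F r * tr r := mul_nonneg (hF r hr) (tr_nonneg _)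
    calc (F r * tr r) * (ψ r * K r) ≤ (F r * tr r) * (1/(y r : ℝ)) := mul_le_mul_of_nonneg_left e1 e3
      _ ≤ tr (m / y r) * (1/(y r : ℝ)) := mul_le_mul_of_nonneg_right (hact r hr) (by positivity)
      _ = _ := by ring
  calc ∑ r ∈ T, wt ψ r * F r * K r ≤ ∑ r ∈ T, (1/(y r : ℝ)) * tr (m / y r) := Finset.sum_le_sum h1
    _ = ∑ d ∈ m.divisors, ∑ r ∈ T.filter (fun r => y r = d), (1/(y r : ℝ)) * tr (m / y r) := by
        rw [Finset.sum_fiberwise_of_maps_to]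
        intro r hr
        exact Nat.mem_divisors.2 ⟨hy r hr, hm.ne'⟩
    _ = ∑ d ∈ m.divisors, ((T.filter (fun r => y r = d)).card : ℝ) * ((1/(d : ℝ)) * tr (m / d)) := by
        apply Finset.sum_congr rfl
        intro d _
        rw [Finset.sum_congr rfl (g := fun _ => (1/(d : ℝ)) * tr (m / d))
          (fun r hr => by rw [(Finset.mem_filter.1 hr).2])]
        rw [Finset.sum_const, nsmul_eq_mul]
    _ ≤ ∑ d ∈ m.divisors, M * ((1/(d : ℝ)) * tr (m / d)) := by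
        apply Finset.sum_le_sum
        intro d hd
        exact mul_le_mul_of_nonneg_right (hM d hd) (mul_nonneg (by positivity) (tr_nonneg _))
    _ = M := by rw [← Finset.mul_sum, deg_identity hm, mul_one]

lemma tr_anti {a b : ℕ} (hb : 0 < b) (h : a ∣ b) : tr b ≤ tr a := tot_ratio_anti h hb

lemma cof_dvd (q r : ℕ) : cof q r ∣ q := Nat.div_dvd_of_dvd (Nat.gcd_dvd_left q r)

lemma cof_pos {q : ℕ} (hq : 0 < q) (r : ℕ) : 0 < cof q r :=
  Nat.div_pos (Nat.gcd_le_left r hq) (Nat.gcd_pos_of_pos_left r hq)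

lemma div_cof {q : ℕ} (hq : 0 < q) (r : ℕ) : q / cof q r = Nat.gcd q r :=
  Nat.div_div_self (Nat.gcd_dvd_left q r) hq.ne'

lemma cof_mul_gcd (q r : ℕ) : cof q r * Nat.gcd q r = q := Nat.div_mul_cancel (Nat.gcd_dvd_left q r)

/-- kernel bound `K ≤ 1/D` gives the hypothesis of `D1` -/
lemma K_le {q r : ℕ} {x y k : ℝ} (hk : 0 ≤ k) (h : k * DD q r x y ≤ 1) :
    k * ((cof q r : ℝ) * y) ≤ 1 :=
  (mul_le_mul_of_nonneg_left (le_max_right _ _) hk).trans h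

/-- (D1), no activity: `r` is determined by the cofactor `q/gcd(q,r)` up to `M` choices. -/
theorem D1_full {q : ℕ} (hq : 0 < q) {T : Finset ℕ} {ψ K : ℕ → ℝ} {x M : ℝ}
    (hT : ∀ r ∈ T, 0 < r) (hψ : ∀ r ∈ T, 0 ≤ ψ r) (hK0 : ∀ r ∈ T, 0 ≤ K r)
    (hK : ∀ r ∈ T, K r * DD q r x (ψ r) ≤ 1)
    (hM : ∀ d ∈ q.divisors, ((T.filter (fun r => cof q r = d)).card : ℝ) ≤ M) :
    ∑ r ∈ T, wt ψ r * K r ≤ M := by
  have := D1 (m := q) hq (T := T) (ψ := ψ) (K := K) (F := fun _ => 1) (y := fun r => cof q r) (M := M)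
    (fun _ _ => zero_le_one) (fun r hr => K_le (hK0 r hr) (hK r hr))
    (fun r _ => cof_dvd q r)
    (fun r hr => by
      show 1 * tr r ≤ tr (q / cof q r)
      rw [div_cof hq, one_mul]
      exact tr_anti (hT r hr) (Nat.gcd_dvd_right q r)) hM
  simpa using this

/-- the part of a product -/
lemma sp_mul (S : ℕ → Prop) {a b : ℕ} (ha : 0 < a) (hb : 0 < b) : sp S (a*b) = sp S a * sp S b := by
  have hab := Nat.mul_pos ha hb
  have h : sp S (a*b) * rp S (a*b) = (sp S a * sp S b) * (rp S a * rp S b) := by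
    rw [sp_mul_rp S hab]
    calc a * b = (sp S a * rp S a) * (sp S b * rp S b) := by rw [sp_mul_rp S ha, sp_mul_rp S hb]
      _ = _ := by ring
  have hs : ∀ p, p.Prime → p ∣ sp S a * sp S b → S p := by
    intro p hp h
    rcases (Nat.Prime.dvd_mul hp).1 h with h | h
    · exact sp_prime S hp h
    · exact sp_prime S hp h
  have hr : ∀ p, p.Prime → p ∣ rp S a * rp S b → ¬ S p := by
    intro p hp h
    rcases (Nat.Prime.dvd_mul hp).1 h with h | h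
    · exact rp_prime S hp h
    · exact rp_prime S hp h
  apply Nat.dvd_antisymm
  · have c := coprime_of_sep S (a := sp S (a*b)) (fun p hp h => sp_prime S hp h) hr
    exact c.dvd_of_dvd_mul_right (h ▸ Dvd.intro _ rfl)
  · have c := coprime_of_sep S hs (fun p hp h => rp_prime (n := a*b) S hp h)
    exact c.dvd_of_dvd_mul_right (h ▸ Dvd.intro _ rfl)

lemma sp_dvd_sp (S : ℕ → Prop) {a b : ℕ} (hb : 0 < b) (h : a ∣ b) : sp S a ∣ sp S b := by
  obtain ⟨c, rfl⟩ := h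
  have ha : 0 < a := Nat.pos_of_mul_pos_right hb
  have hc : 0 < c := Nat.pos_of_mul_pos_left hb
  rw [sp_mul S ha hc]
  exact Dvd.intro _ rfl

/-- product of `1 - 1/p` over a set of primes -/
noncomputable def pr (C : Finset ℕ) : ℝ := ∏ p ∈ C, (1 - (p:ℝ)⁻¹)

lemma pr_pos {C : Finset ℕ} (hC : ∀ p ∈ C, p.Prime) : 0 < pr C := by
  apply Finset.prod_pos
  intro p hp
  have h2 : (2:ℝ) ≤ p := by exact_mod_cast (hC p hp).two_le
  have : (p:ℝ)⁻¹ ≤ 2⁻¹ := by gcongr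
  linarith

/-- if the primes of `C ⊆ primes(r)` are not primes of `n ∣ r` then `φ(r)/r ≤ pr C * φ(n)/n` -/
lemma tr_le_pr_mul {r n : ℕ} (hr : 0 < r) (hn : n ∣ r) {C : Finset ℕ} (hC : C ⊆ r.primeFactors)
    (hCn : ∀ p ∈ C, ¬ p ∣ n) : tr r ≤ pr C * tr n := by
  have hn0 := Nat.pos_of_dvd_of_pos hn hr
  unfold tr pr
  rw [tot_ratio_eq hr, tot_ratio_eq hn0]
  have hd : Disjoint C n.primeFactors := by
    rw [Finset.disjoint_left]
    intro p hp h
    exact hCn p hp (Nat.dvd_of_mem_primeFactors h)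
  rw [← Finset.prod_union hd]
  have hsub : C ∪ n.primeFactors ⊆ r.primeFactors :=
    Finset.union_subset hC (Nat.primeFactors_mono hn hr.ne')
  exact Finset.prod_le_prod_of_subset_of_le_one hsub
    (fun p hp => (HVWX793.one_sub_inv_mem (Nat.prime_of_mem_primeFactors hp)).1)
    (fun p hp _ => (HVWX793.one_sub_inv_mem (Nat.prime_of_mem_primeFactors hp)).2)

/-- (D1) with activity. `U` is a set of primes (the primes at which `q` is inactive = at which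
crossings are allowed); `r` is determined, up to `M` choices, by the `U`-part of `q/gcd(q,r)`;
the coincidence factor is `∏_{p ∈ C r} (1-1/p)⁻¹` with `C r` a set of primes of `r` outside `U`. -/
theorem D1_act (U : ℕ → Prop) {q : ℕ} (hq : 0 < q) {T : Finset ℕ} {ψ K : ℕ → ℝ} {C : ℕ → Finset ℕ}
    {x M : ℝ} (hT : ∀ r ∈ T, 0 < r) (hψ : ∀ r ∈ T, 0 ≤ ψ r) (hK0 : ∀ r ∈ T, 0 ≤ K r)
    (hK : ∀ r ∈ T, K r * DD q r x (ψ r) ≤ 1)
    (hC : ∀ r ∈ T, C r ⊆ r.primeFactors) (hCU : ∀ r ∈ T, ∀ p ∈ C r, ¬ U p)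
    (hM : ∀ d ∈ (sp U q).divisors, ((T.filter (fun r => sp U (cof q r) = d)).card : ℝ) ≤ M) :
    ∑ r ∈ T, wt ψ r * (pr (C r))⁻¹ * K r ≤ M := by
  have hs : ∀ r, sp U q = sp U (cof q r) * sp U (Nat.gcd q r) := by
    intro r
    conv_lhs => rw [← cof_mul_gcd q r]
    exact sp_mul U (cof_pos hq r) (Nat.gcd_pos_of_pos_left r hq)
  have hpr : ∀ r ∈ T, 0 < pr (C r) := fun r hr =>
    pr_pos fun p hp => Nat.prime_of_mem_primeFactors (hC r hr hp)
  refine D1 (m := sp U q) (sp_pos U hq) (T := T) (ψ := ψ) (K := K) (F := fun r => (pr (C r))⁻¹)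
    (y := fun r => sp U (cof q r)) (M := M) (fun r hr => (inv_pos.2 (hpr r hr)).le) ?_
    (fun r _ => Dvd.intro _ (hs r).symm) ?_ hM
  · intro r hr
    have h1 := K_le (hK0 r hr) (hK r hr)
    refine le_trans ?_ h1
    apply mul_le_mul_of_nonneg_left _ (hK0 r hr)
    apply mul_le_mul_of_nonneg_right _ (hψ r hr)
    exact_mod_cast Nat.le_of_dvd (cof_pos hq r) (sp_dvd U (cof_pos hq r))
  · intro r hr
    show (pr (C r))⁻¹ * tr r ≤ tr (sp U q / sp U (cof q r))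
    have hg : sp U q / sp U (cof q r) = sp U (Nat.gcd q r) := by
      rw [hs r]
      exact Nat.mul_div_cancel_left _ (sp_pos U (cof_pos hq r))
    rw [hg, inv_mul_le_iff₀ (hpr r hr)]
    apply tr_le_pr_mul (hT r hr) _ (hC r hr)
    · intro p hp hpd
      exact hCU r hr p hp (sp_prime U (Nat.prime_of_mem_primeFactors (hC r hr hp)) hpd)
    · exact (sp_dvd U (Nat.gcd_pos_of_pos_left r hq)).trans (Nat.gcd_dvd_right q r)

/-- (D1), pair form: every pair of `E` is charged to one of its two members. -/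
theorem D1_pairs {V W : Finset ℕ} {E E₁ E₂ : Finset (ℕ × ℕ)} (hE : E ⊆ E₁ ∪ E₂)
    (h₁ : E₁ ⊆ V ×ˢ W) (h₂ : E₂ ⊆ V ×ˢ W) {ψ θ : ℕ → ℝ} {k : ℕ × ℕ → ℝ} {M : ℝ}
    (hψ : ∀ q ∈ V, 0 ≤ ψ q) (hθ : ∀ r ∈ W, 0 ≤ θ r) (hk : ∀ e ∈ E₁ ∪ E₂, 0 ≤ k e)
    (hq : ∀ q ∈ V, ∑ r ∈ W.filter (fun r => (q, r) ∈ E₁), wt θ r * k (q, r) ≤ M)
    (hr : ∀ r ∈ W, ∑ q ∈ V.filter (fun q => (q, r) ∈ E₂), wt ψ q * k (q, r) ≤ M) :
    ∑ e ∈ E, wt ψ e.1 * wt θ e.2 * k e ≤ M * (tot V ψ + tot W θ) := by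
  classical
  have n0 : ∀ e ∈ E₁ ∪ E₂, 0 ≤ wt ψ e.1 * wt θ e.2 * k e := by
    intro e he
    have : e ∈ V ×ˢ W := by
      rcases Finset.mem_union.1 he with h | h
      · exact h₁ h
      · exact h₂ h
    have h3 := Finset.mem_product.1 this
    exact mul_nonneg (mul_nonneg (wt_nonneg (hψ _ h3.1)) (wt_nonneg (hθ _ h3.2))) (hk e he)
  have s1 : ∑ e ∈ E₁, wt ψ e.1 * wt θ e.2 * k e ≤ M * tot V ψ := by
    have : ∑ e ∈ E₁, wt ψ e.1 * wt θ e.2 * k e
        = ∑ q ∈ V, wt ψ q * ∑ r ∈ W.filter (fun r => (q, r) ∈ E₁), wt θ r * k (q, r) := by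
      have h4 : E₁ = (V ×ˢ W).filter (fun e => e ∈ E₁) := by
        ext e; simp only [mem_filter]; exact ⟨fun h => ⟨h₁ h, h⟩, fun h => h.2⟩
      conv_lhs => rw [h4]
      rw [Finset.sum_filter, Finset.sum_product]
      apply Finset.sum_congr rfl
      intro q _
      rw [Finset.mul_sum, Finset.sum_filter]
      apply Finset.sum_congr rfl
      intro r _
      split_ifs <;> ring
    rw [this]
    unfold tot
    rw [Finset.mul_sum]
    apply Finset.sum_le_sum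
    intro q hq'
    rw [mul_comm M]
    exact mul_le_mul_of_nonneg_left (hq q hq') (wt_nonneg (hψ q hq'))
  have s2 : ∑ e ∈ E₂, wt ψ e.1 * wt θ e.2 * k e ≤ M * tot W θ := by
    have : ∑ e ∈ E₂, wt ψ e.1 * wt θ e.2 * k e
        = ∑ r ∈ W, wt θ r * ∑ q ∈ V.filter (fun q => (q, r) ∈ E₂), wt ψ q * k (q, r) := by
      have h4 : E₂ = (V ×ˢ W).filter (fun e => e ∈ E₂) := by
        ext e; simp only [mem_filter]; exact ⟨fun h => ⟨h₂ h, h⟩, fun h => h.2⟩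
      conv_lhs => rw [h4]
      rw [Finset.sum_filter, Finset.sum_product_right]
      apply Finset.sum_congr rfl
      intro q _
      rw [Finset.mul_sum, Finset.sum_filter]
      apply Finset.sum_congr rfl
      intro r _
      split_ifs <;> ring
    rw [this]
    unfold tot
    rw [Finset.mul_sum]
    apply Finset.sum_le_sum
    intro r hr'
    rw [mul_comm M]
    exact mul_le_mul_of_nonneg_left (hr r hr') (wt_nonneg (hθ r hr'))
  calc ∑ e ∈ E, wt ψ e.1 * wt θ e.2 * k e ≤ ∑ e ∈ E₁ ∪ E₂, wt ψ e.1 * wt θ e.2 * k e :=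
        Finset.sum_le_sum_of_subset_of_nonneg hE (fun e he _ => n0 e he)
    _ ≤ ∑ e ∈ E₁, wt ψ e.1 * wt θ e.2 * k e + ∑ e ∈ E₂, wt ψ e.1 * wt θ e.2 * k e := by
        have h5 := Finset.sum_union_inter (s₁ := E₁) (s₂ := E₂) (f := fun e => wt ψ e.1 * wt θ e.2 * k e)
        have h6 : 0 ≤ ∑ e ∈ E₁ ∩ E₂, wt ψ e.1 * wt θ e.2 * k e :=
          Finset.sum_nonneg fun e he => n0 e (Finset.mem_union_left _ (Finset.mem_inter.1 he).1)
        linarith
    _ ≤ M * (tot V ψ + tot W θ) := by rw [mul_add]; exact add_le_add s1 s2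

/-! ### (D3) mixed activity -/

lemma prod_one_add_inter {U A B : Finset ℕ} (hA : A ⊆ U) (a : ℕ → ℝ) :
    ∏ p ∈ A ∩ B, (1 + a p) = ∑ X ∈ U.powerset, if X ⊆ A ∧ X ⊆ B then ∏ p ∈ X, a p else 0 := by
  classical
  rw [← Finset.sum_filter]
  have h1 : U.powerset.filter (fun X => X ⊆ A ∧ X ⊆ B) = (A ∩ B).powerset := by
    ext X
    simp only [mem_filter, mem_powerset, subset_inter_iff]
    constructor
    · rintro ⟨_, h⟩; exact h
    · rintro h; exact ⟨h.1.trans hA, h⟩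
  rw [h1]
  have := Finset.prod_add (fun p => a p) (fun _ => (1:ℝ)) (A ∩ B)
  simp only [prod_const_one, mul_one] at this
  rw [← this]
  exact Finset.prod_congr rfl fun p _ => by ring

/-- (D3) mixed activity over a non-linear base. -/
theorem D3 {V₀ W₀ : Finset ℕ} {E : Finset (ℕ × ℕ)} (hE : E ⊆ V₀ ×ˢ W₀) {μ ν : ℕ → ℝ} {k : ℕ × ℕ → ℝ}
    (hμ : ∀ i ∈ V₀, 0 ≤ μ i) (hν : ∀ j ∈ W₀, 0 ≤ ν j) {G : ℝ} (hG : 0 ≤ G)
    (hbase : ∀ V W : Finset ℕ, V ⊆ V₀ → W ⊆ W₀ →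
      ∑ e ∈ E.filter (fun e => e.1 ∈ V ∧ e.2 ∈ W), μ e.1 * ν e.2 * k e
        ≤ G * Real.sqrt ((∑ i ∈ V, μ i) * (∑ j ∈ W, ν j)))
    (A B : ℕ → Finset ℕ) {a : ℕ → ℝ} (ha : ∀ p, 0 ≤ a p) :
    ∑ e ∈ E, μ e.1 * ν e.2 * k e * ∏ p ∈ A e.1 ∩ B e.2, (1 + a p)
      ≤ G * (Real.sqrt (∑ i ∈ V₀, μ i * ∏ p ∈ A i, (1 + a p)) *
             Real.sqrt (∑ j ∈ W₀, ν j * ∏ p ∈ B j, (1 + a p))) := by
  classical
  set U : Finset ℕ := V₀.biUnion A ∪ W₀.biUnion B with hU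
  have hAU : ∀ i ∈ V₀, A i ⊆ U := fun i hi =>
    (Finset.subset_biUnion_of_mem A hi).trans Finset.subset_union_left
  have hBU : ∀ j ∈ W₀, B j ⊆ U := fun j hj =>
    (Finset.subset_biUnion_of_mem B hj).trans Finset.subset_union_right
  let c : Finset ℕ → ℝ := fun X => ∏ p ∈ X, a p
  have hc : ∀ X, 0 ≤ c X := fun X => Finset.prod_nonneg fun p _ => ha p
  let VX : Finset ℕ → Finset ℕ := fun X => V₀.filter (fun i => X ⊆ A i)
  let WX : Finset ℕ → Finset ℕ := fun X => W₀.filter (fun j => X ⊆ B j)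
  have h1 : ∑ e ∈ E, μ e.1 * ν e.2 * k e * ∏ p ∈ A e.1 ∩ B e.2, (1 + a p)
      = ∑ X ∈ U.powerset, c X * ∑ e ∈ E.filter (fun e => e.1 ∈ VX X ∧ e.2 ∈ WX X), μ e.1 * ν e.2 * k e := by
    have : ∀ e ∈ E, μ e.1 * ν e.2 * k e * ∏ p ∈ A e.1 ∩ B e.2, (1 + a p)
        = ∑ X ∈ U.powerset, if (e.1 ∈ VX X ∧ e.2 ∈ WX X) then c X * (μ e.1 * ν e.2 * k e) else 0 := by
      intro e he
      have he' := Finset.mem_product.1 (hE he)
      rw [prod_one_add_inter (hAU _ he'.1), Finset.mul_sum]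
      apply Finset.sum_congr rfl
      intro X _
      by_cases hX : X ⊆ A e.1 ∧ X ⊆ B e.2
      · rw [if_pos hX, if_pos]
        · ring
        · exact ⟨Finset.mem_filter.2 ⟨he'.1, hX.1⟩, Finset.mem_filter.2 ⟨he'.2, hX.2⟩⟩
      · rw [if_neg hX, if_neg, mul_zero]
        intro h
        exact hX ⟨(Finset.mem_filter.1 h.1).2, (Finset.mem_filter.1 h.2).2⟩
    rw [Finset.sum_congr rfl this, Finset.sum_comm]
    apply Finset.sum_congr rfl
    intro X _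
    rw [← Finset.sum_filter, Finset.mul_sum]
  rw [h1]
  have hm : ∀ X, 0 ≤ ∑ i ∈ VX X, μ i := fun X => Finset.sum_nonneg fun i hi => hμ i (Finset.mem_filter.1 hi).1
  have hn : ∀ X, 0 ≤ ∑ j ∈ WX X, ν j := fun X => Finset.sum_nonneg fun i hi => hν i (Finset.mem_filter.1 hi).1
  have e1 : ∀ (V₁ : Finset ℕ) (A₁ : ℕ → Finset ℕ) (μ₁ : ℕ → ℝ), (∀ i ∈ V₁, A₁ i ⊆ U) →
      ∑ X ∈ U.powerset, c X * ∑ i ∈ V₁.filter (fun i => X ⊆ A₁ i), μ₁ i
        = ∑ i ∈ V₁, μ₁ i * ∏ p ∈ A₁ i, (1 + a p) := by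
    intro V₁ A₁ μ₁ hA₁
    have : ∀ i ∈ V₁, μ₁ i * ∏ p ∈ A₁ i, (1 + a p)
        = ∑ X ∈ U.powerset, if X ⊆ A₁ i then c X * μ₁ i else 0 := by
      intro i hi
      have h2 := prod_one_add_inter (B := A₁ i) (hA₁ i hi) a
      rw [Finset.inter_self] at h2
      rw [h2, Finset.mul_sum]
      apply Finset.sum_congr rfl
      intro X _
      by_cases hX : X ⊆ A₁ i
      · rw [if_pos ⟨hX, hX⟩, if_pos hX]; ring
      · rw [if_neg (fun h => hX h.1), if_neg hX, mul_zero]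
    rw [Finset.sum_congr rfl this, Finset.sum_comm]
    apply Finset.sum_congr rfl
    intro X _
    rw [← Finset.sum_filter, Finset.mul_sum]
  calc ∑ X ∈ U.powerset, c X * ∑ e ∈ E.filter (fun e => e.1 ∈ VX X ∧ e.2 ∈ WX X), μ e.1 * ν e.2 * k e
      ≤ ∑ X ∈ U.powerset, c X * (G * Real.sqrt ((∑ i ∈ VX X, μ i) * (∑ j ∈ WX X, ν j))) := by
        apply Finset.sum_le_sum
        intro X _
        exact mul_le_mul_of_nonneg_left (hbase _ _ (Finset.filter_subset _ _) (Finset.filter_subset _ _)) (hc X)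
    _ = G * ∑ X ∈ U.powerset, Real.sqrt (c X * ∑ i ∈ VX X, μ i) * Real.sqrt (c X * ∑ j ∈ WX X, ν j) := by
        rw [Finset.mul_sum]
        apply Finset.sum_congr rfl
        intro X _
        rw [← Real.sqrt_mul (mul_nonneg (hc X) (hm X))]
        have : c X * (∑ i ∈ VX X, μ i) * (c X * ∑ j ∈ WX X, ν j)
            = c X ^ 2 * ((∑ i ∈ VX X, μ i) * (∑ j ∈ WX X, ν j)) := by ring
        rw [this, Real.sqrt_mul (sq_nonneg _), Real.sqrt_sq (hc X)]
        ring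
    _ ≤ G * (Real.sqrt (∑ X ∈ U.powerset, c X * ∑ i ∈ VX X, μ i) *
          Real.sqrt (∑ X ∈ U.powerset, c X * ∑ j ∈ WX X, ν j)) := by
        apply mul_le_mul_of_nonneg_left _ hG
        exact Real.sum_sqrt_mul_sqrt_le _ (fun X => mul_nonneg (hc X) (hm X)) (fun X => mul_nonneg (hc X) (hn X))
    _ = _ := by
        rw [e1 V₀ A μ hAU, e1 W₀ B ν hBU]

end Crest.Agent.R4.Deg709
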