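import Mathlib
import Crest.Agent.R4.Deg709

/-!
R4 (S0004), helper709, module E: Schur at a mismatch stop (588 #13227 (V1), case A).

Items are positive integers; `N` = the level (primes `< N` are low).  `O`, `O'` are finite sets of
primes `≥ N` (ties of the first tree only / of the second tree only).  For an item `r` of the second
tree the averaging over `O` raises the radius by `∏_{p ∈ O, p ∤ r} p`, `al O r` is its inverse.
-/

set_option autoImplicit false
open Finset

namespace Crest.Agent.R4.Schur709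
open Crest.Agent.R4.HVW560 Crest.Agent.R4.X734
open Crest.Agent.R4.LF9 (sp rp sp_mul_rp sp_pos rp_pos sp_dvd rp_dvd sp_prime rp_prime coprime_of_sep)

/-! ### abstract Schur estimate with keys -/

lemma sqrt_cs {γ : Type*} (S : Finset γ) (f g : γ → ℝ) (hf : ∀ i ∈ S, 0 ≤ f i) (hg : ∀ i ∈ S, 0 ≤ g i) :
    ∑ i ∈ S, Real.sqrt (f i * g i) ≤ Real.sqrt (∑ i ∈ S, f i) * Real.sqrt (∑ i ∈ S, g i) := by
  have h3 : ∀ i ∈ S, Real.sqrt (f i * g i) = Real.sqrt (max (f i) 0) * Real.sqrt (max (g i) 0) := by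
    intro i hi
    rw [max_eq_left (hf i hi), max_eq_left (hg i hi), Real.sqrt_mul (hf i hi)]
  rw [Finset.sum_congr rfl h3]
  have h4 := Real.sum_sqrt_mul_sqrt_le S (f := fun i => max (f i) 0) (g := fun i => max (g i) 0)
    (fun i => le_max_right _ _) (fun i => le_max_right _ _)
  refine h4.trans (le_of_eq ?_)
  congr 2
  · exact Finset.sum_congr rfl fun i hi => max_eq_left (hf i hi)
  · exact Finset.sum_congr rfl fun i hi => max_eq_left (hg i hi)

theorem key_schur {ι ι' κ : Type*} [DecidableEq κ] {V : Finset ι} {W : Finset ι'}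
    {E : Finset (ι × ι')} (hE : E ⊆ V ×ˢ W)
    {k : ι → κ} {k' : ι' → κ} (hk : ∀ e ∈ E, k e.1 = k' e.2) {R α : ι → ℝ} {R' β : ι' → ℝ} {A B : ℝ}
    (hR : ∀ q ∈ V, 0 ≤ R q) (hR' : ∀ r ∈ W, 0 ≤ R' r) (hα : ∀ q ∈ V, 0 ≤ α q) (hβ : ∀ r ∈ W, 0 ≤ β r)
    (hA0 : 0 ≤ A)
    (hA : ∀ c, ∑ q ∈ V.filter (fun q => k q = c), α q ≤ A)
    (hB : ∀ c, ∑ r ∈ W.filter (fun r => k' r = c), β r ≤ B) :
    ∑ e ∈ E, Real.sqrt (R e.1 * α e.1) * Real.sqrt (R' e.2 * β e.2)
      ≤ Real.sqrt (A * B) * (Real.sqrt (∑ q ∈ V, R q) * Real.sqrt (∑ r ∈ W, R' r)) := by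
  classical
  set Kk : Finset κ := V.image k with hKk
  have h1 : ∑ e ∈ E, Real.sqrt (R e.1 * α e.1) * Real.sqrt (R' e.2 * β e.2)
      ≤ ∑ c ∈ Kk, (∑ q ∈ V.filter (fun q => k q = c), Real.sqrt (R q * α q)) *
          (∑ r ∈ W.filter (fun r => k' r = c), Real.sqrt (R' r * β r)) := by
    have e1 : ∑ e ∈ E, Real.sqrt (R e.1 * α e.1) * Real.sqrt (R' e.2 * β e.2)
        = ∑ c ∈ Kk, ∑ e ∈ E.filter (fun e => k e.1 = c),
            Real.sqrt (R e.1 * α e.1) * Real.sqrt (R' e.2 * β e.2) := by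
      rw [Finset.sum_fiberwise_of_maps_to]
      intro e he
      exact Finset.mem_image_of_mem _ (Finset.mem_product.1 (hE he)).1
    rw [e1]
    apply Finset.sum_le_sum
    intro c _
    rw [Finset.sum_mul_sum, ← Finset.sum_product']
    apply Finset.sum_le_sum_of_subset_of_nonneg
    · intro e he
      rw [Finset.mem_filter] at he
      have h2 := Finset.mem_product.1 (hE he.1)
      rw [Finset.mem_product, Finset.mem_filter, Finset.mem_filter]
      exact ⟨⟨h2.1, he.2⟩, ⟨h2.2, (hk e he.1).symm.trans he.2⟩⟩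
    · intro e _ _
      exact mul_nonneg (Real.sqrt_nonneg _) (Real.sqrt_nonneg _)
  have nR : ∀ c, 0 ≤ ∑ q ∈ V.filter (fun q => k q = c), R q := fun c =>
    Finset.sum_nonneg fun q hq => hR q (Finset.mem_filter.1 hq).1
  have nR' : ∀ c, 0 ≤ ∑ r ∈ W.filter (fun r => k' r = c), R' r := fun c =>
    Finset.sum_nonneg fun q hq => hR' q (Finset.mem_filter.1 hq).1
  have h2 : ∀ c ∈ Kk, (∑ q ∈ V.filter (fun q => k q = c), Real.sqrt (R q * α q)) *
          (∑ r ∈ W.filter (fun r => k' r = c), Real.sqrt (R' r * β r))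
      ≤ Real.sqrt (A * B) * (Real.sqrt (∑ q ∈ V.filter (fun q => k q = c), R q) *
          Real.sqrt (∑ r ∈ W.filter (fun r => k' r = c), R' r)) := by
    intro c _
    have a1 := sqrt_cs (V.filter (fun q => k q = c)) R α
      (fun q hq => hR q (Finset.mem_filter.1 hq).1) (fun q hq => hα q (Finset.mem_filter.1 hq).1)
    have a2 := sqrt_cs (W.filter (fun r => k' r = c)) R' β
      (fun q hq => hR' q (Finset.mem_filter.1 hq).1) (fun q hq => hβ q (Finset.mem_filter.1 hq).1)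
    have a3 : Real.sqrt (∑ q ∈ V.filter (fun q => k q = c), α q) ≤ Real.sqrt A := Real.sqrt_le_sqrt (hA c)
    have a4 : Real.sqrt (∑ r ∈ W.filter (fun r => k' r = c), β r) ≤ Real.sqrt B := Real.sqrt_le_sqrt (hB c)
    calc (∑ q ∈ V.filter (fun q => k q = c), Real.sqrt (R q * α q)) *
          (∑ r ∈ W.filter (fun r => k' r = c), Real.sqrt (R' r * β r))
        ≤ (Real.sqrt (∑ q ∈ V.filter (fun q => k q = c), R q) * Real.sqrt A) *
          (Real.sqrt (∑ r ∈ W.filter (fun r => k' r = c), R' r) * Real.sqrt B) := by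
          apply mul_le_mul
          · exact a1.trans (mul_le_mul_of_nonneg_left a3 (Real.sqrt_nonneg _))
          · exact a2.trans (mul_le_mul_of_nonneg_left a4 (Real.sqrt_nonneg _))
          · exact Finset.sum_nonneg fun _ _ => Real.sqrt_nonneg _
          · positivity
      _ = _ := by rw [Real.sqrt_mul hA0]; ring
  refine h1.trans ((Finset.sum_le_sum h2).trans ?_)
  rw [← Finset.mul_sum]
  apply mul_le_mul_of_nonneg_left _ (Real.sqrt_nonneg _)
  have h5 := Real.sum_sqrt_mul_sqrt_le Kk (f := fun c => ∑ q ∈ V.filter (fun q => k q = c), R q)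
    (g := fun c => ∑ r ∈ W.filter (fun r => k' r = c), R' r) nR nR'
  refine h5.trans ?_
  apply mul_le_mul
  · apply Real.sqrt_le_sqrt
    rw [Finset.sum_fiberwise_of_maps_to (fun q hq => Finset.mem_image_of_mem _ hq)]
  · apply Real.sqrt_le_sqrt
    rw [← Finset.sum_biUnion]
    · apply Finset.sum_le_sum_of_subset_of_nonneg
      · intro r hr
        rw [Finset.mem_biUnion] at hr
        obtain ⟨c, _, hc⟩ := hr
        exact (Finset.mem_filter.1 hc).1
      · intro r hr _; exact hR' r hr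
    · intro c _ d _ hcd
      rw [Function.onFun, Finset.disjoint_left]
      intro r h1 h2
      exact hcd ((Finset.mem_filter.1 h1).2.symm.trans (Finset.mem_filter.1 h2).2)
  · exact Real.sqrt_nonneg _
  · exact Real.sqrt_nonneg _

/-! ### Rankin -/

/-- subsets of `O` with `∑ 1/p ≥ c` have total weight `≤ exp(-N c + 3 ∑_O 1/p)` -/
theorem rankin {N : ℕ} {O : Finset ℕ} (hO : ∀ p ∈ O, 0 < p ∧ N ≤ p) (c : ℝ) :
    ∑ S ∈ O.powerset.filter (fun S : Finset ℕ => c ≤ ∑ p ∈ S, 1/(p:ℝ)), ∏ p ∈ S, (1/(p:ℝ))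
      ≤ Real.exp (-(N * c) + 3 * ∑ p ∈ O, 1/(p:ℝ)) := by
  classical
  have h1 : ∀ S ∈ O.powerset.filter (fun S : Finset ℕ => c ≤ ∑ p ∈ S, 1/(p:ℝ)),
      ∏ p ∈ S, (1/(p:ℝ)) ≤ Real.exp (-(N*c)) * ∏ p ∈ S, (Real.exp (N/(p:ℝ)) * (1/(p:ℝ))) := by
    intro S hS
    have hc := (Finset.mem_filter.1 hS).2
    rw [Finset.prod_mul_distrib, ← Real.exp_sum, ← mul_assoc, ← Real.exp_add]
    have h2 : (0:ℝ) ≤ ∏ p ∈ S, (1/(p:ℝ)) := Finset.prod_nonneg fun p _ => by positivity
    have h3 : 1 ≤ Real.exp (-(N*c) + ∑ p ∈ S, (N:ℝ)/(p:ℝ)) := by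
      apply Real.one_le_exp
      have : ∑ p ∈ S, (N:ℝ)/(p:ℝ) = N * ∑ p ∈ S, 1/(p:ℝ) := by
        rw [Finset.mul_sum]; exact Finset.sum_congr rfl fun p _ => by ring
      rw [this]
      have h4 : (N:ℝ) * c ≤ N * ∑ p ∈ S, 1/(p:ℝ) := mul_le_mul_of_nonneg_left hc (Nat.cast_nonneg _)
      linarith
    calc ∏ p ∈ S, (1/(p:ℝ)) = 1 * ∏ p ∈ S, (1/(p:ℝ)) := (one_mul _).symm
      _ ≤ _ := mul_le_mul_of_nonneg_right h3 h2
  have hnn : ∀ S ∈ O.powerset, 0 ≤ ∏ p ∈ S, (Real.exp (N/(p:ℝ)) * (1/(p:ℝ))) := fun S _ =>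
    Finset.prod_nonneg fun p _ => by positivity
  calc ∑ S ∈ O.powerset.filter (fun S : Finset ℕ => c ≤ ∑ p ∈ S, 1/(p:ℝ)), ∏ p ∈ S, (1/(p:ℝ))
      ≤ ∑ S ∈ O.powerset.filter (fun S : Finset ℕ => c ≤ ∑ p ∈ S, 1/(p:ℝ)),
          Real.exp (-(N*c)) * ∏ p ∈ S, (Real.exp (N/(p:ℝ)) * (1/(p:ℝ))) := Finset.sum_le_sum h1
    _ ≤ ∑ S ∈ O.powerset, Real.exp (-(N*c)) * ∏ p ∈ S, (Real.exp (N/(p:ℝ)) * (1/(p:ℝ))) :=
        Finset.sum_le_sum_of_subset_of_nonneg (Finset.filter_subset _ _)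
          (fun S hS _ => mul_nonneg (Real.exp_nonneg _) (hnn S hS))
    _ = Real.exp (-(N*c)) * ∏ p ∈ O, (Real.exp (N/(p:ℝ)) * (1/(p:ℝ)) + 1) := by
        rw [← Finset.mul_sum, Finset.prod_add]
        simp
    _ ≤ Real.exp (-(N*c)) * ∏ p ∈ O, Real.exp (3 * (1/(p:ℝ))) := by
        apply mul_le_mul_of_nonneg_left _ (Real.exp_nonneg _)
        apply Finset.prod_le_prod
        · intro p _; positivity
        · intro p hp
          have hp0 : (0:ℝ) < p := by exact_mod_cast (hO p hp).1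
          have h5 : Real.exp ((N:ℝ)/p) ≤ 3 := by
            have h6 : (N:ℝ)/p ≤ 1 := by
              rw [div_le_one hp0]; exact_mod_cast (hO p hp).2
            have := Real.exp_le_exp.2 h6
            linarith [Real.exp_one_lt_d9]
          have h7 := Real.add_one_le_exp (3 * (1/(p:ℝ)))
          have h8 : Real.exp (N/(p:ℝ)) * (1/(p:ℝ)) ≤ 3 * (1/(p:ℝ)) :=
            mul_le_mul_of_nonneg_right h5 (by positivity)
          linarith
    _ = _ := by
        rw [← Real.exp_sum, ← Finset.mul_sum, ← Real.exp_add]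

/-! ### smooth numbers -/

/-- finite sums of `n^{-1/2}` over `N`-smooth numbers -/
theorem smooth_sum {N : ℕ} (T : Finset ℕ) (hT : ∀ n ∈ T, n ∈ Nat.smoothNumbers N) :
    ∑ n ∈ T, 1/Real.sqrt (n:ℝ) ≤ Real.exp (8 * Real.sqrt N) := by
  classical
  let f : ℕ →* ℝ :=
    { toFun := fun n => 1/Real.sqrt (n:ℝ)
      map_one' := by simp
      map_mul' := by
        intro a b
        rw [Nat.cast_mul, Real.sqrt_mul (Nat.cast_nonneg _), one_div, one_div, one_div, mul_inv] }
  have hf : ∀ {p : ℕ}, p.Prime → ‖f p‖ < 1 := by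
    intro p hp
    have h2 : (1:ℝ) < p := by exact_mod_cast hp.one_lt
    have h3 : 1 < Real.sqrt (p:ℝ) := by
      rw [show (1:ℝ) = Real.sqrt 1 by simp]
      exact Real.sqrt_lt_sqrt zero_le_one h2
    show ‖1/Real.sqrt (p:ℝ)‖ < 1
    rw [Real.norm_of_nonneg (by positivity), div_lt_one (by linarith)]
    exact h3
  have h1 := EulerProduct.summable_and_hasSum_smoothNumbers_prod_primesBelow_geometric (f := f) hf N
  have h2 : ∑ n ∈ T, 1/Real.sqrt (n:ℝ) ≤ ∏ p ∈ N.primesBelow, (1 - f p)⁻¹ := by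
    have h3 : ∑ n ∈ T, 1/Real.sqrt (n:ℝ)
        = ∑ m ∈ T.attach.map ⟨fun n => (⟨n.1, hT n.1 n.2⟩ : N.smoothNumbers), by
            intro a b hab; exact Subtype.ext (congrArg (fun z : N.smoothNumbers => (z : ℕ)) hab)⟩, f m := by
      rw [Finset.sum_map, ← Finset.sum_attach]
      rfl
    rw [h3]
    exact sum_le_hasSum _ (fun m _ => by show 0 ≤ 1/Real.sqrt _; positivity) h1.2
  refine h2.trans ?_
  have h4 : ∀ p ∈ N.primesBelow, (1 - f p)⁻¹ ≤ Real.exp (4 * (1/Real.sqrt (p:ℝ))) := by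
    intro p hp
    have hpp := Nat.prime_of_mem_primesBelow hp
    have h5 : (2:ℝ) ≤ p := by exact_mod_cast hpp.two_le
    set t : ℝ := 1/Real.sqrt (p:ℝ) with ht
    have hft : f p = t := rfl
    have hs2 : (1.41:ℝ) ≤ Real.sqrt (p:ℝ) := by
      rw [show (1.41:ℝ) = Real.sqrt (1.41^2) by rw [Real.sqrt_sq (by norm_num)]]
      apply Real.sqrt_le_sqrt
      norm_num
      linarith
    have ht0 : 0 < t := by rw [ht]; positivity
    have ht1 : t ≤ 0.71 := by
      rw [ht, div_le_iff₀ (by linarith)]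
      nlinarith
    rw [hft]
    have h6 : (1 - t)⁻¹ ≤ 1 + 4 * t := by
      rw [inv_le_iff_one_le_mul₀ (by linarith)]
      nlinarith
    have h7 := Real.add_one_le_exp (4 * t)
    linarith
  have h0 : ∀ p ∈ N.primesBelow, 0 ≤ (1 - f p)⁻¹ := by
    intro p hp
    have hpp := Nat.prime_of_mem_primesBelow hp
    have := hf hpp
    rw [Real.norm_eq_abs, abs_lt] at this
    exact inv_nonneg.2 (by linarith [this.2])
  refine (Finset.prod_le_prod h0 h4).trans ?_
  rw [← Real.exp_sum, ← Finset.mul_sum]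
  apply Real.exp_le_exp.2
  have h8 : ∑ p ∈ N.primesBelow, 1/Real.sqrt (p:ℝ) ≤ 2 * Real.sqrt N := by
    have h9 : ∀ M : ℕ, ∑ p ∈ Finset.Ico 1 (M+1), 1/Real.sqrt (p:ℝ) ≤ 2 * Real.sqrt M := by
      intro M
      induction M with
      | zero => simp
      | succ M ih =>
        rw [Finset.sum_Ico_succ_top (by omega)]
        have hM : (0:ℝ) ≤ M := Nat.cast_nonneg _
        have h10 : 1/Real.sqrt ((M+1 : ℕ):ℝ) ≤ 2 * Real.sqrt ((M+1 : ℕ):ℝ) - 2 * Real.sqrt M := by
          push_cast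
          set a := Real.sqrt ((M:ℝ)+1) with ha
          set b := Real.sqrt (M:ℝ) with hb
          have ha0 : 0 < a := Real.sqrt_pos.2 (by linarith)
          have hb0 : 0 ≤ b := Real.sqrt_nonneg _
          have ha2 : a^2 = M + 1 := Real.sq_sqrt (by linarith)
          have hb2 : b^2 = M := Real.sq_sqrt hM
          rw [div_le_iff₀ ha0]
          nlinarith [sq_nonneg (a - b)]
        linarith
    have h11 : N.primesBelow ⊆ Finset.Ico 1 (N+1) := by
      intro p hp
      have h12 := Nat.lt_of_mem_primesBelow hp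
      have h13 := (Nat.prime_of_mem_primesBelow hp).pos
      rw [Finset.mem_Ico]; omega
    exact (Finset.sum_le_sum_of_subset_of_nonneg h11 (fun p _ _ => by positivity)).trans (h9 N)
  linarith

/-! ### the Schur estimate at a stop -/

/-- product of the primes of `O` dividing `r` -/
def zO (O : Finset ℕ) (r : ℕ) : ℕ := ∏ p ∈ O.filter (fun p => p ∣ r), p

/-- inverse of the raising factor -/
noncomputable def al (O : Finset ℕ) (r : ℕ) : ℝ := ∏ p ∈ O.filter (fun p => ¬ p ∣ r), (1/(p:ℝ))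

lemma al_nonneg (O : Finset ℕ) (r : ℕ) : 0 ≤ al O r := Finset.prod_nonneg fun p _ => by positivity

lemma zO_dvd {N : ℕ} {O : Finset ℕ} (hO : ∀ p ∈ O, p.Prime ∧ N ≤ p) {r : ℕ} (hr : 0 < r) :
    zO O r ∣ rp (Lo N) r := by
  unfold zO
  apply Finset.prod_primes_dvd
  · intro p hp
    exact (hO p (Finset.mem_filter.1 hp).1).1.prime
  · intro p hp
    rw [Finset.mem_filter] at hp
    have hpp := (hO p hp.1).1
    have h1 : p ∣ sp (Lo N) r * rp (Lo N) r := by rw [sp_mul_rp _ hr]; exact hp.2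
    rcases (Nat.Prime.dvd_mul hpp).1 h1 with h | h
    · have := sp_prime (Lo N) hpp h
      unfold Lo at this
      have h3 := (hO p hp.1).2
      omega
    · exact h

lemma zO_pos {N : ℕ} {O : Finset ℕ} (hO : ∀ p ∈ O, p.Prime ∧ N ≤ p) (r : ℕ) : 0 < zO O r :=
  Finset.prod_pos fun p hp => (hO p (Finset.mem_filter.1 hp).1).1.pos

/-- the key of an item -/
noncomputable def key (N : ℕ) (O : Finset ℕ) (x r : ℕ) : ℕ × ℕ :=
  (rp (Lo N) r / zO O r, sp (Lo N) r / x)

lemma fiber_sum {N : ℕ} {O W : Finset ℕ} (hO : ∀ p ∈ O, p.Prime ∧ N ≤ p) (hW : ∀ r ∈ W, 0 < r) {x : ℕ}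
    {c : ℝ} (hc : ∀ r ∈ W, c ≤ ∑ p ∈ O.filter (fun p => ¬ p ∣ r), 1/(p:ℝ)) (k : ℕ × ℕ) :
    ∑ r ∈ (W.filter (fun r => x ∣ sp (Lo N) r)).filter (fun r => key N O x r = k), al O r
      ≤ Real.exp (-(N * c) + 3 * ∑ p ∈ O, 1/(p:ℝ)) := by
  classical
  refine le_trans ?_ (rankin (fun p hp => ⟨(hO p hp).1.pos, (hO p hp).2⟩) c)
  set F := (W.filter (fun r => x ∣ sp (Lo N) r)).filter (fun r => key N O x r = k) with hF
  have hinj : Set.InjOn (fun r => O.filter (fun p => ¬ p ∣ r)) F := by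
    intro a ha b hb hab
    have ha1 := Finset.mem_filter.1 (Finset.mem_coe.1 ha)
    have hb1 := Finset.mem_filter.1 (Finset.mem_coe.1 hb)
    have ha2 := Finset.mem_filter.1 ha1.1
    have hb2 := Finset.mem_filter.1 hb1.1
    have hka := ha1.2
    have hkb := hb1.2
    have hz : O.filter (fun p => p ∣ a) = O.filter (fun p => p ∣ b) := by
      ext p
      have := congrArg (fun S : Finset ℕ => p ∈ S) hab
      simp only [Finset.mem_filter, eq_iff_iff] at this
      simp only [Finset.mem_filter]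
      constructor
      · rintro ⟨h1, h2⟩
        refine ⟨h1, ?_⟩
        by_contra h3
        exact (this.2 ⟨h1, h3⟩).2 h2
      · rintro ⟨h1, h2⟩
        refine ⟨h1, ?_⟩
        by_contra h3
        exact (this.1 ⟨h1, h3⟩).2 h2
    have hzz : zO O a = zO O b := by unfold zO; rw [hz]
    have h1 : rp (Lo N) a / zO O a = rp (Lo N) b / zO O b := by
      have := congrArg Prod.fst (hka.trans hkb.symm); exact this
    have h2 : sp (Lo N) a / x = sp (Lo N) b / x := by
      have := congrArg Prod.snd (hka.trans hkb.symm); exact this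
    have h3 : rp (Lo N) a = rp (Lo N) b := by
      rw [← Nat.div_mul_cancel (zO_dvd hO (hW a ha2.1)), ← Nat.div_mul_cancel (zO_dvd hO (hW b hb2.1)),
        h1, hzz]
    have h4 : sp (Lo N) a = sp (Lo N) b := by
      rw [← Nat.div_mul_cancel ha2.2, ← Nat.div_mul_cancel hb2.2, h2]
    rw [← sp_mul_rp (Lo N) (hW a ha2.1), ← sp_mul_rp (Lo N) (hW b hb2.1), h3, h4]
  have h5 : ∑ r ∈ F, al O r = ∑ S ∈ F.image (fun r => O.filter (fun p => ¬ p ∣ r)), ∏ p ∈ S, (1/(p:ℝ)) := by
    rw [Finset.sum_image hinj]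
    rfl
  rw [h5]
  apply Finset.sum_le_sum_of_subset_of_nonneg
  · intro S hS
    rw [Finset.mem_image] at hS
    obtain ⟨r, hr, rfl⟩ := hS
    rw [Finset.mem_filter, Finset.mem_powerset]
    exact ⟨Finset.filter_subset _ _, hc r (Finset.mem_filter.1 (Finset.mem_filter.1 hr).1).1⟩
  · intro S _ _
    exact Finset.prod_nonneg fun p _ => by positivity

/-- **Schur at a mismatch stop** (588 (V1), case A). -/
theorem schur_stop {N : ℕ} {O O' V W : Finset ℕ} {E : Finset (ℕ × ℕ)} {R R' : ℕ → ℝ} {c : ℝ}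
    (hO : ∀ p ∈ O, p.Prime ∧ N ≤ p) (hO' : ∀ p ∈ O', p.Prime ∧ N ≤ p)
    (hV : ∀ q ∈ V, 0 < q) (hW : ∀ r ∈ W, 0 < r) (hR : ∀ q ∈ V, 0 ≤ R q) (hR' : ∀ r ∈ W, 0 ≤ R' r)
    (hE : E ⊆ V ×ˢ W)
    (hA : ∀ e ∈ E, rp (Lo N) e.1 * zO O e.2 = rp (Lo N) e.2 * zO O' e.1)
    (hc : ∀ r ∈ W, c ≤ ∑ p ∈ O.filter (fun p => ¬ p ∣ r), 1/(p:ℝ)) :
    ∑ e ∈ E, Real.sqrt (R e.1 * al O' e.1) * Real.sqrt (R' e.2 * al O e.2)
        / Real.sqrt ((cof (sp (Lo N) e.2) (sp (Lo N) e.1) : ℝ) * cof (sp (Lo N) e.1) (sp (Lo N) e.2))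
      ≤ Real.exp (16 * Real.sqrt N) *
        Real.exp ((-(N * c) + 3 * ∑ p ∈ O, 1/(p:ℝ) + 3 * ∑ p ∈ O', 1/(p:ℝ))/2) *
        (Real.sqrt (∑ q ∈ V, R q) * Real.sqrt (∑ r ∈ W, R' r)) := by
  classical
  set cx : ℕ × ℕ → ℕ := fun e => cof (sp (Lo N) e.2) (sp (Lo N) e.1) with hcx
  set cy : ℕ × ℕ → ℕ := fun e => cof (sp (Lo N) e.1) (sp (Lo N) e.2) with hcy
  set A : ℝ := Real.exp (-(N * 0) + 3 * ∑ p ∈ O', 1/(p:ℝ)) with hAdef
  set B : ℝ := Real.exp (-(N * c) + 3 * ∑ p ∈ O, 1/(p:ℝ)) with hBdef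
  set G : ℝ := Real.sqrt (A * B) * (Real.sqrt (∑ q ∈ V, R q) * Real.sqrt (∑ r ∈ W, R' r)) with hG
  have hG0 : 0 ≤ G := by positivity
  have hsub : ∀ x y : ℕ, ∑ e ∈ E.filter (fun e => (cx e, cy e) = (x, y)),
      Real.sqrt (R e.1 * al O' e.1) * Real.sqrt (R' e.2 * al O e.2) ≤ G := by
    intro x y
    set V' := V.filter (fun q => y ∣ sp (Lo N) q) with hV'
    set W' := W.filter (fun r => x ∣ sp (Lo N) r) with hW'
    have h1 := key_schur (V := V') (W := W') (E := E.filter (fun e => (cx e, cy e) = (x, y)))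
      (k := key N O' y) (k' := key N O x) (R := R) (α := al O') (R' := R') (β := al O) (A := A) (B := B)
      (by
        intro e he
        rw [Finset.mem_filter] at he
        have h2 := Finset.mem_product.1 (hE he.1)
        have hx : cx e = x := congrArg Prod.fst he.2
        have hy : cy e = y := congrArg Prod.snd he.2
        rw [Finset.mem_product, hV', hW', Finset.mem_filter, Finset.mem_filter]
        refine ⟨⟨h2.1, ?_⟩, ⟨h2.2, ?_⟩⟩
        · rw [← hy]; exact Deg709.cof_dvd _ _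
        · rw [← hx]; exact Deg709.cof_dvd _ _)
      (by
        intro e he
        rw [Finset.mem_filter] at he
        have h2 := Finset.mem_product.1 (hE he.1)
        have hx : cx e = x := congrArg Prod.fst he.2
        have hy : cy e = y := congrArg Prod.snd he.2
        unfold key
        apply Prod.ext
        · show rp (Lo N) e.1 / zO O' e.1 = rp (Lo N) e.2 / zO O e.2
          have d1 := zO_dvd hO' (hV _ h2.1)
          have d2 := zO_dvd hO (hW _ h2.2)
          have p1 := zO_pos hO' e.1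
          have p2 := zO_pos hO e.2
          have h3 := hA e he.1
          obtain ⟨a, ha⟩ := d1
          obtain ⟨b, hb⟩ := d2
          rw [ha, hb] at h3 ⊢
          rw [Nat.mul_div_cancel_left _ p1, Nat.mul_div_cancel_left _ p2]
          have h4 : (zO O' e.1 * zO O e.2) * a = (zO O' e.1 * zO O e.2) * b := by
            calc (zO O' e.1 * zO O e.2) * a = zO O' e.1 * a * zO O e.2 := by ring
              _ = zO O e.2 * b * zO O' e.1 := h3
              _ = _ := by ring
          exact Nat.eq_of_mul_eq_mul_left (Nat.mul_pos p1 p2) h4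
        · show sp (Lo N) e.1 / y = sp (Lo N) e.2 / x
          rw [← hx, ← hy]
          show sp (Lo N) e.1 / cof (sp (Lo N) e.1) (sp (Lo N) e.2)
            = sp (Lo N) e.2 / cof (sp (Lo N) e.2) (sp (Lo N) e.1)
          rw [Deg709.div_cof (sp_pos _ (hV _ h2.1)), Deg709.div_cof (sp_pos _ (hW _ h2.2)), Nat.gcd_comm])
      (fun q hq => hR q (Finset.mem_filter.1 hq).1) (fun r hr => hR' r (Finset.mem_filter.1 hr).1)
      (fun q _ => al_nonneg _ _) (fun r _ => al_nonneg _ _) (Real.exp_nonneg _)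
      (fun k => fiber_sum hO' hV (x := y) (c := 0) (fun r _ => Finset.sum_nonneg fun p _ => by positivity) k)
      (fun k => fiber_sum hO hW (x := x) hc k)
    refine h1.trans ?_
    rw [hG]
    apply mul_le_mul_of_nonneg_left _ (Real.sqrt_nonneg _)
    apply mul_le_mul
    · apply Real.sqrt_le_sqrt
      exact Finset.sum_le_sum_of_subset_of_nonneg (Finset.filter_subset _ _) (fun q hq _ => hR q hq)
    · apply Real.sqrt_le_sqrt
      exact Finset.sum_le_sum_of_subset_of_nonneg (Finset.filter_subset _ _) (fun q hq _ => hR' q hq)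
    · exact Real.sqrt_nonneg _
    · exact Real.sqrt_nonneg _
  set I := E.image (fun e => (cx e, cy e)) with hI
  have hsm : ∀ a : ℕ, 0 < a → ∀ b : ℕ, cof (sp (Lo N) a) b ∈ Nat.smoothNumbers N := by
    intro a ha b
    rw [Nat.mem_smoothNumbers']
    intro p hp hpd
    exact sp_prime (Lo N) hp (hpd.trans (Deg709.cof_dvd _ _))
  calc ∑ e ∈ E, Real.sqrt (R e.1 * al O' e.1) * Real.sqrt (R' e.2 * al O e.2)
        / Real.sqrt ((cof (sp (Lo N) e.2) (sp (Lo N) e.1) : ℝ) * cof (sp (Lo N) e.1) (sp (Lo N) e.2))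
      = ∑ t ∈ I, ∑ e ∈ E.filter (fun e => (cx e, cy e) = t),
          Real.sqrt (R e.1 * al O' e.1) * Real.sqrt (R' e.2 * al O e.2)
            / Real.sqrt ((cx e : ℝ) * cy e) := by
        rw [Finset.sum_fiberwise_of_maps_to]
        intro e he
        exact Finset.mem_image_of_mem _ he
    _ = ∑ t ∈ I, (1/Real.sqrt ((t.1 : ℝ) * t.2)) * ∑ e ∈ E.filter (fun e => (cx e, cy e) = (t.1, t.2)),
          Real.sqrt (R e.1 * al O' e.1) * Real.sqrt (R' e.2 * al O e.2) := by
        apply Finset.sum_congr rfl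
        intro t _
        rw [Finset.mul_sum]
        apply Finset.sum_congr rfl
        intro e he
        have h3 := (Finset.mem_filter.1 he).2
        have h4 : cx e = t.1 := congrArg Prod.fst h3
        have h5 : cy e = t.2 := congrArg Prod.snd h3
        rw [h4, h5]
        ring
    _ ≤ ∑ t ∈ I, (1/Real.sqrt ((t.1 : ℝ) * t.2)) * G := by
        apply Finset.sum_le_sum
        intro t _
        exact mul_le_mul_of_nonneg_left (hsub t.1 t.2) (by positivity)
    _ = (∑ t ∈ I, (1/Real.sqrt (t.1 : ℝ)) * (1/Real.sqrt (t.2 : ℝ))) * G := by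
        rw [Finset.sum_mul]
        apply Finset.sum_congr rfl
        intro t _
        rw [Real.sqrt_mul (Nat.cast_nonneg _)]
        rw [one_div_mul_one_div]
    _ ≤ ((∑ x ∈ I.image Prod.fst, 1/Real.sqrt (x : ℝ)) * (∑ y ∈ I.image Prod.snd, 1/Real.sqrt (y : ℝ))) * G := by
        apply mul_le_mul_of_nonneg_right _ hG0
        rw [Finset.sum_mul_sum, ← Finset.sum_product']
        apply Finset.sum_le_sum_of_subset_of_nonneg
        · intro t ht
          rw [Finset.mem_product]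
          exact ⟨Finset.mem_image_of_mem _ ht, Finset.mem_image_of_mem _ ht⟩
        · intro t _ _; positivity
    _ ≤ (Real.exp (8 * Real.sqrt N) * Real.exp (8 * Real.sqrt N)) * G := by
        apply mul_le_mul_of_nonneg_right _ hG0
        apply mul_le_mul
        · apply smooth_sum
          intro n hn
          rw [Finset.mem_image] at hn
          obtain ⟨t, ht, rfl⟩ := hn
          rw [hI, Finset.mem_image] at ht
          obtain ⟨e, he, rfl⟩ := ht
          exact hsm e.2 (hW _ (Finset.mem_product.1 (hE he)).2) _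
        · apply smooth_sum
          intro n hn
          rw [Finset.mem_image] at hn
          obtain ⟨t, ht, rfl⟩ := hn
          rw [hI, Finset.mem_image] at ht
          obtain ⟨e, he, rfl⟩ := ht
          exact hsm e.1 (hV _ (Finset.mem_product.1 (hE he)).1) _
        · exact Finset.sum_nonneg fun _ _ => by positivity
        · exact Real.exp_nonneg _
    _ = _ := by
        rw [← Real.exp_add, hG]
        have h6 : Real.sqrt (A * B)
            = Real.exp ((-(N * c) + 3 * ∑ p ∈ O, 1/(p:ℝ) + 3 * ∑ p ∈ O', 1/(p:ℝ))/2) := by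
          rw [hAdef, hBdef, ← Real.exp_add]
          rw [Real.sqrt_eq_iff_mul_self_eq (Real.exp_nonneg _) (Real.exp_nonneg _), ← Real.exp_add]
          congr 1
          ring
        rw [h6]
        have h7 : 8 * Real.sqrt N + 8 * Real.sqrt N = 16 * Real.sqrt (N:ℝ) := by ring
        rw [h7]
        ring

/-- kernel form: `K` any kernel with `K * D̂ ≤ 1`, `D̂ = max (x₁ R_q/al, y₁ R_r/al)`. -/
lemma kernel_le {R R' a b x y K : ℝ} (hR : 0 ≤ R) (hR' : 0 ≤ R') (ha : 0 < a) (hb : 0 < b)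
    (hx : 0 < x) (hy : 0 < y) (hK0 : 0 ≤ K) (hK : K * (x * (R / a)) ≤ 1) (hK' : K * (y * (R' / b)) ≤ 1) :
    R * R' * K ≤ Real.sqrt (R * a) * Real.sqrt (R' * b) / Real.sqrt (x * y) := by
  have h1 : K * R ≤ a / x := by
    rw [le_div_iff₀ hx]
    have : K * (x * (R/a)) * a ≤ 1 * a := mul_le_mul_of_nonneg_right hK ha.le
    have e : K * (x * (R/a)) * a = K * R * x := by field_simp
    linarith
  have h2 : K * R' ≤ b / y := by
    rw [le_div_iff₀ hy]
    have : K * (y * (R'/b)) * b ≤ 1 * b := mul_le_mul_of_nonneg_right hK' hb.le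
    have e : K * (y * (R'/b)) * b = K * R' * y := by field_simp
    linarith
  have h3 : (R * R' * K)^2 ≤ (R * a) * (R' * b) / (x * y) := by
    have : (R * R' * K)^2 = (R * R') * ((K * R) * (K * R')) := by ring
    rw [this]
    calc (R * R') * ((K * R) * (K * R')) ≤ (R * R') * ((a/x) * (b/y)) := by
          apply mul_le_mul_of_nonneg_left _ (mul_nonneg hR hR')
          exact mul_le_mul h1 h2 (mul_nonneg hK0 hR') (by positivity)
      _ = _ := by field_simp
  rw [← Real.sqrt_mul (by positivity), ← Real.sqrt_div (by positivity)]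
  exact Real.le_sqrt_of_sq_le h3

end Crest.Agent.R4.Schur709
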