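import Mathlib
import Crest.Agent.R4.HVWX793
import Crest.Agent.R4.Schur709

/-!
R4 (S0004), helper709, module E: the HVW form of the mismatch stop (588 #13522 (2), 588 #13227 (V1) case B).
-/

set_option autoImplicit false
open Finset

namespace Crest.Agent.R4.StopHvw709
open Crest.Agent.R4.HVW560 Crest.Agent.R4.HVWX793
open Crest.Agent.R4.Schur709 (rankin)

/-- Hölder for two conjugate exponents `α + β = 1`. -/
theorem holder {γ : Type*} (s : Finset γ) {α β : ℝ} (hα : 0 < α) (hβ : 0 < β) (hab : α + β = 1)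
    (a b : γ → ℝ) (ha : ∀ i ∈ s, 0 ≤ a i) (hb : ∀ i ∈ s, 0 ≤ b i) :
    ∑ i ∈ s, (a i)^α * (b i)^β ≤ (∑ i ∈ s, a i)^α * (∑ i ∈ s, b i)^β := by
  have hpq : Real.HolderConjugate (1/α) (1/β) := by
    rw [Real.holderConjugate_iff]
    refine ⟨?_, ?_⟩
    · rw [lt_div_iff₀ hα]; linarith
    · simp only [one_div, inv_inv]; exact hab
  have h := Real.inner_le_Lp_mul_Lq_of_nonneg s hpq (f := fun i => (a i)^α) (g := fun i => (b i)^β)
    (fun i hi => Real.rpow_nonneg (ha i hi) _) (fun i hi => Real.rpow_nonneg (hb i hi) _)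
  have e1 : ∑ i ∈ s, ((a i)^α)^(1/α) = ∑ i ∈ s, a i := by
    apply Finset.sum_congr rfl
    intro i hi
    rw [← Real.rpow_mul (ha i hi), mul_one_div_cancel hα.ne', Real.rpow_one]
  have e2 : ∑ i ∈ s, ((b i)^β)^(1/β) = ∑ i ∈ s, b i := by
    apply Finset.sum_congr rfl
    intro i hi
    rw [← Real.rpow_mul (hb i hi), mul_one_div_cancel hβ.ne', Real.rpow_one]
  rw [e1, e2, one_div_one_div, one_div_one_div] at h
  exact h

/-- product of the members of a set of primes -/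
noncomputable def pz (S : Finset ℕ) : ℕ := ∏ p ∈ S, p

theorem pz_pos {S : Finset ℕ} (hS : ∀ p ∈ S, p.Prime) : 0 < pz S :=
  Finset.prod_pos fun p hp => (hS p hp).pos

theorem pz_dvd {S : Finset ℕ} (hS : ∀ p ∈ S, p.Prime) {q : ℕ} (h : ∀ p ∈ S, p ∣ q) : pz S ∣ q := by
  unfold pz
  exact Finset.prod_primes_dvd q (fun p hp => (hS p hp).prime) h

theorem pz_coprime {S : Finset ℕ} (hS : ∀ p ∈ S, p.Prime) {q : ℕ} (h : ∀ p ∈ S, ¬ p ∣ q) :
    Nat.Coprime (pz S) q := by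
  unfold pz
  exact Nat.Coprime.prod_left fun p hp => ((hS p hp).coprime_iff_not_dvd).2 (h p hp)

theorem inv_pz (S : Finset ℕ) : 1/((pz S : ℕ) : ℝ) = ∏ p ∈ S, (1/(p:ℝ)) := by
  unfold pz
  rw [Nat.cast_prod, one_div, ← Finset.prod_inv_distrib]
  exact Finset.prod_congr rfl fun p _ => by rw [one_div]

theorem zf_pz {S : Finset ℕ} (hS : ∀ p ∈ S, p.Prime) : zf (pz S) = ∏ p ∈ S, zf p := by
  classical
  induction S using Finset.induction_on with
  | empty => simp [pz, zf]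
  | insert a S ha ih =>
    have hS' : ∀ p ∈ S, p.Prime := fun p hp => hS p (Finset.mem_insert_of_mem hp)
    have hap := hS a (Finset.mem_insert_self _ _)
    rw [Finset.prod_insert ha, ← ih hS']
    have hco : Nat.Coprime a (pz S) := by
      apply Nat.Coprime.symm
      apply pz_coprime hS'
      intro p hp hpa
      have := (Nat.prime_dvd_prime_iff_eq (hS' p hp) hap).1 hpa
      exact ha (this ▸ hp)
    have : pz (insert a S) = a * pz S := by unfold pz; rw [Finset.prod_insert ha]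
    rw [this]
    unfold zf
    rw [Nat.totient_mul hco, Nat.cast_mul, Nat.cast_mul, mul_div_mul_comm]

theorem zf_prime_exp {p : ℕ} (hp : p.Prime) : zf p ≤ Real.exp (2 * (1/(p:ℝ))) := by
  unfold zf
  rw [Nat.totient_prime hp, Nat.cast_sub hp.one_le, Nat.cast_one]
  have h2 : (2:ℝ) ≤ p := by exact_mod_cast hp.two_le
  have h3 : (p:ℝ)/(p-1) ≤ 1 + 2 * (1/(p:ℝ)) := by
    rw [div_le_iff₀ (by linarith)]
    have : (1 + 2 * (1/(p:ℝ))) * (p - 1) = p + 1 - 2/p := by field_simp; ring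
    rw [this]
    have : 2/(p:ℝ) ≤ 1 := by rw [div_le_one (by linarith)]; exact h2
    linarith
  have := Real.add_one_le_exp (2 * (1/(p:ℝ)))
  linarith

theorem zf_pz_le {S O : Finset ℕ} (hO : ∀ p ∈ O, p.Prime) (hSO : S ⊆ O) :
    zf (pz S) ≤ Real.exp (2 * ∑ p ∈ O, 1/(p:ℝ)) := by
  rw [zf_pz fun p hp => hO p (hSO hp)]
  calc ∏ p ∈ S, zf p ≤ ∏ p ∈ S, Real.exp (2 * (1/(p:ℝ))) := by
        apply Finset.prod_le_prod
        · intro p hp; exact (zf_pos (hO p (hSO hp)).pos).le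
        · intro p hp; exact zf_prime_exp (hO p (hSO hp))
    _ = Real.exp (2 * ∑ p ∈ S, 1/(p:ℝ)) := by rw [← Real.exp_sum, Finset.mul_sum]
    _ ≤ _ := by
        apply Real.exp_le_exp.2
        apply mul_le_mul_of_nonneg_left _ (by norm_num)
        exact Finset.sum_le_sum_of_subset_of_nonneg hSO fun p _ _ => by positivity

/-- the members of `O` not dividing `r` -/
def miss (O : Finset ℕ) (r : ℕ) : Finset ℕ := O.filter fun p => ¬ p ∣ r

/-- one group -/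
theorem group {ε : ℝ} (hε : 0 < ε) (hε4 : ε ≤ 1/4)
    {O O' : Finset ℕ} (hO : ∀ p ∈ O, p.Prime) (hO' : ∀ p ∈ O', p.Prime)
    {V W : Finset ℕ} {E : Finset (ℕ × ℕ)} {ψ θ : ℕ → ℝ} {d₁ d₂ : ℝ} (hs : Sys2 V W E ψ θ d₁ d₂)
    (hV : ∀ q ∈ V, ∀ p ∈ O, p ∣ q) (hW : ∀ r ∈ W, ∀ p ∈ O', p ∣ r) {S S' : Finset ℕ} (hS : S ⊆ O)
    (hS' : S' ⊆ O') :
    ∑ e ∈ E.filter (fun e => miss O e.2 = S ∧ miss O' e.1 = S'), wt ψ e.1 * wt θ e.2
      ≤ KH 1 0 ε * (d₁ * d₂)^(1/2-ε) * Real.exp (2 * (∑ p ∈ O, 1/(p:ℝ)) + 2 * ∑ p ∈ O', 1/(p:ℝ)) *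
        (((1/((pz S : ℕ):ℝ))^(1/2-ε) * (∑ r ∈ W.filter (fun r => miss O r = S), wt θ r)^(1/2+ε)) *
        ((1/((pz S' : ℕ):ℝ))^(1/2-ε) * (∑ q ∈ V.filter (fun q => miss O' q = S'), wt ψ q)^(1/2+ε))) := by
  classical
  have hz₁ := pz_pos fun p hp => hO p (hS hp)
  have hz₂ := pz_pos fun p hp => hO' p (hS' hp)
  have hz₁' : (0:ℝ) < (pz S : ℕ) := by exact_mod_cast hz₁
  have hz₂' : (0:ℝ) < (pz S' : ℕ) := by exact_mod_cast hz₂
  have h1 := hs.hδ₁
  have h2 := hs.hδ₂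
  have hs1 : Sys2 (V.filter (fun q => miss O' q = S')) (W.filter (fun r => miss O r = S))
      (E.filter (fun e => miss O e.2 = S ∧ miss O' e.1 = S')) ψ θ d₁ d₂ :=
    { hδ₁ := h1
      hδ₂ := h2
      hV := fun v hv => hs.hV v (Finset.mem_filter.1 hv).1
      hW := fun v hv => hs.hW v (Finset.mem_filter.1 hv).1
      hψ := fun v hv => hs.hψ v (Finset.mem_filter.1 hv).1
      hθ := fun v hv => hs.hθ v (Finset.mem_filter.1 hv).1
      hE := by
        intro e he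
        rw [Finset.mem_filter] at he
        have h := Finset.mem_product.1 (hs.hE he.1)
        exact Finset.mem_product.2 ⟨Finset.mem_filter.2 ⟨h.1, he.2.2⟩, Finset.mem_filter.2 ⟨h.2, he.2.1⟩⟩
      h1 := fun e he => hs.h1 e (Finset.mem_filter.1 he).1
      h2 := fun e he => hs.h2 e (Finset.mem_filter.1 he).1 }
  have key := hvw_cross_plain hε hε4 hs1 (z₁ := pz S) (z₂ := pz S') hz₁ hz₂
    (by
      intro v hv
      rw [Finset.mem_filter] at hv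
      refine ⟨pz_dvd (fun p hp => hO p (hS hp)) fun p hp => hV v hv.1 p (hS hp),
        pz_coprime (fun p hp => hO' p (hS' hp)) ?_⟩
      intro p hp
      rw [← hv.2] at hp
      exact (Finset.mem_filter.1 hp).2)
    (by
      intro v hv
      rw [Finset.mem_filter] at hv
      refine ⟨pz_dvd (fun p hp => hO' p (hS' hp)) fun p hp => hW v hv.1 p (hS' hp),
        pz_coprime (fun p hp => hO p (hS hp)) ?_⟩
      intro p hp
      rw [← hv.2] at hp
      exact (Finset.mem_filter.1 hp).2)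
  set m := ∑ q ∈ V.filter (fun q => miss O' q = S'), wt ψ q with hm
  set n := ∑ r ∈ W.filter (fun r => miss O r = S), wt θ r with hn
  have hm0 : 0 ≤ m := by
    apply Finset.sum_nonneg
    intro q hq
    unfold wt
    exact mul_nonneg (hs1.hψ q hq) (by positivity)
  have hn0 : 0 ≤ n := by
    apply Finset.sum_nonneg
    intro q hq
    unfold wt
    exact mul_nonneg (hs1.hθ q hq) (by positivity)
  refine key.trans ?_
  have hK := (KH_pos 1 0 ε).le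
  have e1 : (d₁ * d₂ / (((pz S : ℕ):ℝ) * ((pz S' : ℕ):ℝ)))^(1/2-ε)
      = (d₁ * d₂)^(1/2-ε) * ((1/((pz S : ℕ):ℝ))^(1/2-ε) * (1/((pz S' : ℕ):ℝ))^(1/2-ε)) := by
    rw [← Real.mul_rpow (by positivity) (by positivity), ← Real.mul_rpow (by positivity) (by positivity)]
    congr 1
    field_simp
  have hz1e := zf_pz_le hO hS
  have hz2e := zf_pz_le hO' hS'
  set A := ∑ p ∈ O, 1/(p:ℝ) with hA
  set A' := ∑ p ∈ O', 1/(p:ℝ) with hA'
  have hA0 : 0 ≤ A := Finset.sum_nonneg fun p _ => by positivity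
  have hA'0 : 0 ≤ A' := Finset.sum_nonneg fun p _ => by positivity
  have e2 : ((zf (pz S) * m) * (zf (pz S') * n))^(1/2+ε)
      ≤ Real.exp (2 * A + 2 * A') * (m^(1/2+ε) * n^(1/2+ε)) := by
    have hb := (zf_pos hz₁).le
    have hb' := (zf_pos hz₂).le
    have : (zf (pz S) * m) * (zf (pz S') * n) ≤ Real.exp (2 * A + 2 * A') * (m * n) := by
      rw [Real.exp_add]
      calc (zf (pz S) * m) * (zf (pz S') * n) = (zf (pz S) * zf (pz S')) * (m * n) := by ring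
        _ ≤ _ := mul_le_mul_of_nonneg_right (mul_le_mul hz1e hz2e hb' (Real.exp_nonneg _))
            (mul_nonneg hm0 hn0)
    calc ((zf (pz S) * m) * (zf (pz S') * n))^(1/2+ε)
        ≤ (Real.exp (2 * A + 2 * A') * (m * n))^(1/2+ε) :=
          Real.rpow_le_rpow (by positivity) this (by linarith)
      _ = (Real.exp (2 * A + 2 * A'))^(1/2+ε) * (m^(1/2+ε) * n^(1/2+ε)) := by
          rw [Real.mul_rpow (Real.exp_nonneg _) (mul_nonneg hm0 hn0), Real.mul_rpow hm0 hn0]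
      _ ≤ _ := by
          apply mul_le_mul_of_nonneg_right _ (by positivity)
          rw [← Real.exp_mul]
          apply Real.exp_le_exp.2
          nlinarith
  rw [e1]
  calc KH 1 0 ε * ((d₁ * d₂)^(1/2-ε) * ((1/((pz S : ℕ):ℝ))^(1/2-ε) * (1/((pz S' : ℕ):ℝ))^(1/2-ε)) *
        ((zf (pz S) * m) * (zf (pz S') * n))^(1/2+ε))
      ≤ KH 1 0 ε * ((d₁ * d₂)^(1/2-ε) * ((1/((pz S : ℕ):ℝ))^(1/2-ε) * (1/((pz S' : ℕ):ℝ))^(1/2-ε)) *
        (Real.exp (2 * A + 2 * A') * (m^(1/2+ε) * n^(1/2+ε)))) := by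
        apply mul_le_mul_of_nonneg_left _ hK
        apply mul_le_mul_of_nonneg_left e2
        positivity
    _ = _ := by ring

theorem miss_sub (O : Finset ℕ) (r : ℕ) : miss O r ⊆ O := Finset.filter_subset _ _

/-- **stop_hvw** (two mismatch constants `c` for the second tree, `c'` for the first tree). -/
theorem stop_hvw_gen {ε : ℝ} (hε : 0 < ε) (hε4 : ε ≤ 1/4) {N : ℕ}
    {O O' : Finset ℕ} (hO : ∀ p ∈ O, p.Prime) (hO' : ∀ p ∈ O', p.Prime)
    (hON : ∀ p ∈ O, N ≤ p) (hON' : ∀ p ∈ O', N ≤ p)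
    {V W : Finset ℕ} {E : Finset (ℕ × ℕ)} {ψ θ : ℕ → ℝ} {d₁ d₂ : ℝ} (hs : Sys2 V W E ψ θ d₁ d₂)
    (hV : ∀ q ∈ V, ∀ p ∈ O, p ∣ q) (hW : ∀ r ∈ W, ∀ p ∈ O', p ∣ r) {c c' : ℝ}
    (hc : ∀ r ∈ W, c ≤ ∑ p ∈ O.filter (fun p => ¬ p ∣ r), 1/(p:ℝ))
    (hc' : ∀ q ∈ V, c' ≤ ∑ p ∈ O'.filter (fun p => ¬ p ∣ q), 1/(p:ℝ)) :
    ∑ e ∈ E, wt ψ e.1 * wt θ e.2
      ≤ KH 1 0 ε * (d₁ * d₂)^(1/2-ε) *
        Real.exp (2 * (∑ p ∈ O, 1/(p:ℝ)) + 2 * ∑ p ∈ O', 1/(p:ℝ)) *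
        Real.exp ((1/2-ε) * (-(N*c) + 3 * (∑ p ∈ O, 1/(p:ℝ)) + (-(N*c') + 3 * ∑ p ∈ O', 1/(p:ℝ)))) *
        ((∑ q ∈ V, wt ψ q) * (∑ r ∈ W, wt θ r))^(1/2+ε) := by
  classical
  have h1 := hs.hδ₁
  have h2 := hs.hδ₂
  have hK := (KH_pos 1 0 ε).le
  have hwt : ∀ q ∈ V, 0 ≤ wt ψ q := fun q hq => by
    unfold wt; exact mul_nonneg (hs.hψ q hq) (by positivity)
  have hwt' : ∀ q ∈ W, 0 ≤ wt θ q := fun q hq => by
    unfold wt; exact mul_nonneg (hs.hθ q hq) (by positivity)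
  set IS : Finset (Finset ℕ) := W.image (miss O) with hIS
  set IS' : Finset (Finset ℕ) := V.image (miss O') with hIS'
  have hISO : ∀ S ∈ IS, S ⊆ O := by
    intro S hS
    rw [hIS, Finset.mem_image] at hS
    obtain ⟨r, _, rfl⟩ := hS
    exact miss_sub O r
  have hISO' : ∀ S ∈ IS', S ⊆ O' := by
    intro S hS
    rw [hIS', Finset.mem_image] at hS
    obtain ⟨r, _, rfl⟩ := hS
    exact miss_sub O' r
  have split : ∑ e ∈ E, wt ψ e.1 * wt θ e.2
      = ∑ x ∈ IS ×ˢ IS', ∑ e ∈ E.filter (fun e => miss O e.2 = x.1 ∧ miss O' e.1 = x.2),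
          wt ψ e.1 * wt θ e.2 := by
    rw [← Finset.sum_fiberwise_of_maps_to (s := E) (t := IS ×ˢ IS')
      (g := fun e => (miss O e.2, miss O' e.1))]
    · apply Finset.sum_congr rfl
      intro x _
      apply Finset.sum_congr _ (fun _ _ => rfl)
      ext e
      simp only [Finset.mem_filter, Prod.ext_iff]
    · intro e he
      have := Finset.mem_product.1 (hs.hE he)
      exact Finset.mem_product.2 ⟨Finset.mem_image_of_mem _ this.2, Finset.mem_image_of_mem _ this.1⟩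
  rw [split]
  set G := KH 1 0 ε * (d₁ * d₂)^(1/2-ε) *
        Real.exp (2 * (∑ p ∈ O, 1/(p:ℝ)) + 2 * ∑ p ∈ O', 1/(p:ℝ)) with hG
  have hG0 : 0 ≤ G := by positivity
  set F : Finset ℕ → ℝ := fun S => (1/((pz S : ℕ):ℝ))^(1/2-ε) *
    (∑ r ∈ W.filter (fun r => miss O r = S), wt θ r)^(1/2+ε) with hF
  set F' : Finset ℕ → ℝ := fun S => (1/((pz S : ℕ):ℝ))^(1/2-ε) *
    (∑ r ∈ V.filter (fun r => miss O' r = S), wt ψ r)^(1/2+ε) with hF'
  have step1 : ∑ x ∈ IS ×ˢ IS', ∑ e ∈ E.filter (fun e => miss O e.2 = x.1 ∧ miss O' e.1 = x.2),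
          wt ψ e.1 * wt θ e.2 ≤ G * ((∑ S ∈ IS, F S) * (∑ S ∈ IS', F' S)) := by
    calc _ ≤ ∑ x ∈ IS ×ˢ IS', G * (F x.1 * F' x.2) := by
          apply Finset.sum_le_sum
          intro x hx
          have hx' := Finset.mem_product.1 hx
          exact group hε hε4 hO hO' hs hV hW (hISO _ hx'.1) (hISO' _ hx'.2)
      _ = _ := by
          rw [← Finset.mul_sum, Finset.sum_mul_sum, ← Finset.sum_product']
  have nF : ∀ S, 0 ≤ F S := fun S => by
    rw [hF]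
    exact mul_nonneg (Real.rpow_nonneg (by positivity) _) (Real.rpow_nonneg
      (Finset.sum_nonneg fun r hr => hwt' r (Finset.mem_filter.1 hr).1) _)
  have nF' : ∀ S, 0 ≤ F' S := fun S => by
    rw [hF']
    exact mul_nonneg (Real.rpow_nonneg (by positivity) _) (Real.rpow_nonneg
      (Finset.sum_nonneg fun r hr => hwt r (Finset.mem_filter.1 hr).1) _)
  have bd : ∑ S ∈ IS, F S ≤ (Real.exp (-(N*c) + 3 * ∑ p ∈ O, 1/(p:ℝ)))^(1/2-ε) *
      (∑ r ∈ W, wt θ r)^(1/2+ε) := by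
    refine (holder IS (α := 1/2-ε) (β := 1/2+ε) (by linarith) (by linarith) (by ring)
      (fun S => 1/((pz S : ℕ):ℝ)) (fun S => ∑ r ∈ W.filter (fun r => miss O r = S), wt θ r)
      (fun S _ => by positivity)
      (fun S _ => Finset.sum_nonneg fun r hr => hwt' r (Finset.mem_filter.1 hr).1)).trans ?_
    rw [Finset.sum_fiberwise_of_maps_to (fun r hr => Finset.mem_image_of_mem _ hr)]
    apply mul_le_mul_of_nonneg_right _ (Real.rpow_nonneg (Finset.sum_nonneg hwt') _)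
    apply Real.rpow_le_rpow (Finset.sum_nonneg fun _ _ => by positivity) _ (by linarith)
    refine le_trans ?_ (rankin (N := N) (O := O) (fun p hp => ⟨(hO p hp).pos, hON p hp⟩) c)
    have : ∀ S ∈ IS, 1/((pz S : ℕ):ℝ) = ∏ p ∈ S, (1/(p:ℝ)) := fun S _ => inv_pz S
    rw [Finset.sum_congr rfl this]
    apply Finset.sum_le_sum_of_subset_of_nonneg
    · intro S hS
      rw [Finset.mem_filter, Finset.mem_powerset]
      refine ⟨hISO S hS, ?_⟩
      rw [hIS, Finset.mem_image] at hS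
      obtain ⟨r, hr, rfl⟩ := hS
      exact hc r hr
    · intro S _ _
      exact Finset.prod_nonneg fun p _ => by positivity
  have bd' : ∑ S ∈ IS', F' S ≤ (Real.exp (-(N*c') + 3 * ∑ p ∈ O', 1/(p:ℝ)))^(1/2-ε) *
      (∑ r ∈ V, wt ψ r)^(1/2+ε) := by
    refine (holder IS' (α := 1/2-ε) (β := 1/2+ε) (by linarith) (by linarith) (by ring)
      (fun S => 1/((pz S : ℕ):ℝ)) (fun S => ∑ r ∈ V.filter (fun r => miss O' r = S), wt ψ r)
      (fun S _ => by positivity)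
      (fun S _ => Finset.sum_nonneg fun r hr => hwt r (Finset.mem_filter.1 hr).1)).trans ?_
    rw [Finset.sum_fiberwise_of_maps_to (fun r hr => Finset.mem_image_of_mem _ hr)]
    apply mul_le_mul_of_nonneg_right _ (Real.rpow_nonneg (Finset.sum_nonneg hwt) _)
    apply Real.rpow_le_rpow (Finset.sum_nonneg fun _ _ => by positivity) _ (by linarith)
    refine le_trans ?_ (rankin (N := N) (O := O') (fun p hp => ⟨(hO' p hp).pos, hON' p hp⟩) c')
    have : ∀ S ∈ IS', 1/((pz S : ℕ):ℝ) = ∏ p ∈ S, (1/(p:ℝ)) := fun S _ => inv_pz S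
    rw [Finset.sum_congr rfl this]
    apply Finset.sum_le_sum_of_subset_of_nonneg
    · intro S hS
      rw [Finset.mem_filter, Finset.mem_powerset]
      refine ⟨hISO' S hS, ?_⟩
      rw [hIS', Finset.mem_image] at hS
      obtain ⟨r, hr, rfl⟩ := hS
      exact hc' r hr
    · intro S _ _
      exact Finset.prod_nonneg fun p _ => by positivity
  refine step1.trans ?_
  have hM0 := Finset.sum_nonneg hwt
  have hM0' := Finset.sum_nonneg hwt'
  calc G * ((∑ S ∈ IS, F S) * (∑ S ∈ IS', F' S))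
      ≤ G * (((Real.exp (-(N*c) + 3 * ∑ p ∈ O, 1/(p:ℝ)))^(1/2-ε) * (∑ r ∈ W, wt θ r)^(1/2+ε)) *
        ((Real.exp (-(N*c') + 3 * ∑ p ∈ O', 1/(p:ℝ)))^(1/2-ε) * (∑ r ∈ V, wt ψ r)^(1/2+ε))) := by
        apply mul_le_mul_of_nonneg_left _ hG0
        exact mul_le_mul bd bd' (Finset.sum_nonneg fun S _ => nF' S)
          (mul_nonneg (Real.rpow_nonneg (Real.exp_nonneg _) _) (Real.rpow_nonneg hM0' _))
    _ = _ := by
        rw [← Real.exp_mul, ← Real.exp_mul, Real.mul_rpow hM0 hM0']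
        have : Real.exp ((1/2-ε) * (-(N*c) + 3 * (∑ p ∈ O, 1/(p:ℝ)) + (-(N*c') + 3 * ∑ p ∈ O', 1/(p:ℝ))))
          = Real.exp ((-(N*c) + 3 * ∑ p ∈ O, 1/(p:ℝ)) * (1/2-ε)) *
            Real.exp ((-(N*c') + 3 * ∑ p ∈ O', 1/(p:ℝ)) * (1/2-ε)) := by
          rw [← Real.exp_add]; congr 1; ring
        rw [this]; ring

/-- **stop_hvw** (588 #13522 (2)) -/
theorem stop_hvw {ε : ℝ} (hε : 0 < ε) (hε4 : ε ≤ 1/4) {N : ℕ}
    {O O' : Finset ℕ} (hO : ∀ p ∈ O, p.Prime) (hO' : ∀ p ∈ O', p.Prime)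
    (hON : ∀ p ∈ O, N ≤ p) (hON' : ∀ p ∈ O', N ≤ p)
    {V W : Finset ℕ} {E : Finset (ℕ × ℕ)} {ψ θ : ℕ → ℝ} {d : ℝ} (hs : Sys2 V W E ψ θ d d)
    (hV : ∀ q ∈ V, ∀ p ∈ O, p ∣ q) (hW : ∀ r ∈ W, ∀ p ∈ O', p ∣ r) {c : ℝ}
    (hc : ∀ r ∈ W, c ≤ ∑ p ∈ O.filter (fun p => ¬ p ∣ r), 1/(p:ℝ)) :
    ∑ e ∈ E, wt ψ e.1 * wt θ e.2
      ≤ KH 1 0 ε * d^(1-2*ε) *
        Real.exp ((1/2-ε) * (-(N*c) + 3 * (∑ p ∈ O, 1/(p:ℝ)) + 3 * ∑ p ∈ O', 1/(p:ℝ))) *
        Real.exp (2 * ((∑ p ∈ O, 1/(p:ℝ)) + ∑ p ∈ O', 1/(p:ℝ))) *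
        ((∑ q ∈ V, wt ψ q) * (∑ r ∈ W, wt θ r))^(1/2+ε) := by
  have h := stop_hvw_gen hε hε4 hO hO' hON hON' hs hV hW (c := c) (c' := 0) hc
    (fun q _ => Finset.sum_nonneg fun p _ => by positivity)
  have hd := hs.hδ₁
  have e1 : (d * d)^(1/2-ε) = d^(1-2*ε) := by
    rw [Real.mul_rpow hd.le hd.le, ← Real.rpow_add hd]; congr 1; ring
  rw [e1] at h
  refine h.trans (le_of_eq ?_)
  rw [mul_zero, neg_zero, zero_add, ← mul_add]
  ring

end Crest.Agent.R4.StopHvw709
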