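import Mathlib
import Crest.Agent.R4.StopHvw709
import Crest.Agent.R4.ClsT223
import Crest.Agent.R4.Equi588

/-!
R4 (S0004), helper709, module E: the STOP ASSEMBLY in item form, on the averaged circle.

Node items `w ∈ V` (first tree) with node radius `R w`, `w ∈ W` (second tree) with node radius `R' w`.
`O` = one-sided ties of the first tree, `O'` = one-sided ties of the second tree (both present and missing
ones), all primes `≥ N`. After averaging (over `O'` on the first side, over `O` on the second side) the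
item `w ∈ V` becomes `u = w / zO O' w` with radius `R w / al O' w` and amplitude `al O' w`.
-/

set_option autoImplicit false
open Finset

namespace Crest.Agent.R4.StopAsm709
open Crest.Agent.R4.HVW560 Crest.Agent.R4.HVWX793
open Crest.Agent.R4.Schur709 Crest.Agent.R4.StopHvw709
open Crest.Agent.R4.Equi588 (SI)
open Crest.Agent.R4.X734 (Lo)
open Crest.Agent.R4.LF9 (sp rp sp_mul_rp sp_pos rp_pos sp_dvd rp_dvd sp_prime rp_prime)

/-- **sum over groups**: Hölder and Rankin -/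
theorem group_sum {N : ℕ} {O O' V W : Finset ℕ} {E : Finset (ℕ × ℕ)} {μ μ' : ℕ → ℝ}
    {α β : ℝ} (hα : 0 < α) (hβ : 0 < β) (hab : α + β = 1)
    (hO : ∀ p ∈ O, 0 < p ∧ N ≤ p) (hO' : ∀ p ∈ O', 0 < p ∧ N ≤ p)
    (hE : E ⊆ V ×ˢ W) (hμ : ∀ q ∈ V, 0 ≤ μ q) (hμ' : ∀ r ∈ W, 0 ≤ μ' r)
    {F : ℕ × ℕ → ℝ} {G : ℝ} (hG : 0 ≤ G) {c c' : ℝ}
    (hc : ∀ r ∈ W, c ≤ ∑ p ∈ O.filter (fun p => ¬ p ∣ r), 1/(p:ℝ))
    (hc' : ∀ q ∈ V, c' ≤ ∑ p ∈ O'.filter (fun p => ¬ p ∣ q), 1/(p:ℝ))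
    (h : ∀ S ⊆ O, ∀ S' ⊆ O', ∑ e ∈ E.filter (fun e => miss O e.2 = S ∧ miss O' e.1 = S'), F e
      ≤ G * (((∏ p ∈ S, (1/(p:ℝ)))^α * (∑ r ∈ W.filter (fun r => miss O r = S), μ' r)^β) *
        ((∏ p ∈ S', (1/(p:ℝ)))^α * (∑ q ∈ V.filter (fun q => miss O' q = S'), μ q)^β))) :
    ∑ e ∈ E, F e
      ≤ G * Real.exp (α * (-(N*c) + 3 * (∑ p ∈ O, 1/(p:ℝ)) + (-(N*c') + 3 * ∑ p ∈ O', 1/(p:ℝ)))) *
        ((∑ q ∈ V, μ q) * (∑ r ∈ W, μ' r))^β := by
  classical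
  set IS : Finset (Finset ℕ) := W.image (miss O) with hIS
  set IS' : Finset (Finset ℕ) := V.image (miss O') with hIS'
  have hISO : ∀ S ∈ IS, S ⊆ O := by
    intro S hS
    rw [hIS, Finset.mem_image] at hS
    obtain ⟨r, _, rfl⟩ := hS
    exact miss_sub O r
  have hISO' : ∀ S ∈ IS', S ⊆ O' := by
    intro S hS
    rw [hIS', Finset.mem_image] at hS
    obtain ⟨r, _, rfl⟩ := hS
    exact miss_sub O' r
  have split : ∑ e ∈ E, F e
      = ∑ x ∈ IS ×ˢ IS', ∑ e ∈ E.filter (fun e => miss O e.2 = x.1 ∧ miss O' e.1 = x.2), F e := by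
    rw [← Finset.sum_fiberwise_of_maps_to (s := E) (t := IS ×ˢ IS')
      (g := fun e => (miss O e.2, miss O' e.1))]
    · apply Finset.sum_congr rfl
      intro x _
      apply Finset.sum_congr _ (fun _ _ => rfl)
      ext e
      simp only [Finset.mem_filter, Prod.ext_iff]
    · intro e he
      have := Finset.mem_product.1 (hE he)
      exact Finset.mem_product.2 ⟨Finset.mem_image_of_mem _ this.2, Finset.mem_image_of_mem _ this.1⟩
  rw [split]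
  set A : Finset ℕ → ℝ := fun S => (∏ p ∈ S, (1/(p:ℝ)))^α *
    (∑ r ∈ W.filter (fun r => miss O r = S), μ' r)^β with hA
  set A' : Finset ℕ → ℝ := fun S => (∏ p ∈ S, (1/(p:ℝ)))^α *
    (∑ r ∈ V.filter (fun r => miss O' r = S), μ r)^β with hA'
  have np : ∀ S : Finset ℕ, (0:ℝ) ≤ ∏ p ∈ S, (1/(p:ℝ)) := fun S =>
    Finset.prod_nonneg fun p _ => by positivity
  have step1 : ∑ x ∈ IS ×ˢ IS', ∑ e ∈ E.filter (fun e => miss O e.2 = x.1 ∧ miss O' e.1 = x.2), F e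
      ≤ G * ((∑ S ∈ IS, A S) * (∑ S ∈ IS', A' S)) := by
    calc _ ≤ ∑ x ∈ IS ×ˢ IS', G * (A x.1 * A' x.2) := by
          apply Finset.sum_le_sum
          intro x hx
          have hx' := Finset.mem_product.1 hx
          exact h _ (hISO _ hx'.1) _ (hISO' _ hx'.2)
      _ = _ := by
          rw [← Finset.mul_sum, Finset.sum_mul_sum, ← Finset.sum_product']
  have nA' : ∀ S, 0 ≤ A' S := fun S => by
    rw [hA']
    exact mul_nonneg (Real.rpow_nonneg (np S) _) (Real.rpow_nonneg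
      (Finset.sum_nonneg fun r hr => hμ r (Finset.mem_filter.1 hr).1) _)
  have bd : ∑ S ∈ IS, A S ≤ (Real.exp (-(N*c) + 3 * ∑ p ∈ O, 1/(p:ℝ)))^α * (∑ r ∈ W, μ' r)^β := by
    refine (holder IS hα hβ hab (fun S => ∏ p ∈ S, (1/(p:ℝ)))
      (fun S => ∑ r ∈ W.filter (fun r => miss O r = S), μ' r) (fun S _ => np S)
      (fun S _ => Finset.sum_nonneg fun r hr => hμ' r (Finset.mem_filter.1 hr).1)).trans ?_
    rw [Finset.sum_fiberwise_of_maps_to (fun r hr => Finset.mem_image_of_mem _ hr)]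
    apply mul_le_mul_of_nonneg_right _ (Real.rpow_nonneg (Finset.sum_nonneg hμ') _)
    apply Real.rpow_le_rpow (Finset.sum_nonneg fun S _ => np S) _ hα.le
    refine le_trans ?_ (rankin (N := N) (O := O) hO c)
    apply Finset.sum_le_sum_of_subset_of_nonneg
    · intro S hS
      rw [Finset.mem_filter, Finset.mem_powerset]
      refine ⟨hISO S hS, ?_⟩
      rw [hIS, Finset.mem_image] at hS
      obtain ⟨r, hr, rfl⟩ := hS
      exact hc r hr
    · intro S _ _; exact np S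
  have bd' : ∑ S ∈ IS', A' S ≤ (Real.exp (-(N*c') + 3 * ∑ p ∈ O', 1/(p:ℝ)))^α * (∑ r ∈ V, μ r)^β := by
    refine (holder IS' hα hβ hab (fun S => ∏ p ∈ S, (1/(p:ℝ)))
      (fun S => ∑ r ∈ V.filter (fun r => miss O' r = S), μ r) (fun S _ => np S)
      (fun S _ => Finset.sum_nonneg fun r hr => hμ r (Finset.mem_filter.1 hr).1)).trans ?_
    rw [Finset.sum_fiberwise_of_maps_to (fun r hr => Finset.mem_image_of_mem _ hr)]
    apply mul_le_mul_of_nonneg_right _ (Real.rpow_nonneg (Finset.sum_nonneg hμ) _)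
    apply Real.rpow_le_rpow (Finset.sum_nonneg fun S _ => np S) _ hα.le
    refine le_trans ?_ (rankin (N := N) (O := O') hO' c')
    apply Finset.sum_le_sum_of_subset_of_nonneg
    · intro S hS
      rw [Finset.mem_filter, Finset.mem_powerset]
      refine ⟨hISO' S hS, ?_⟩
      rw [hIS', Finset.mem_image] at hS
      obtain ⟨r, hr, rfl⟩ := hS
      exact hc' r hr
    · intro S _ _; exact np S
  refine step1.trans ?_
  have hM0 := Finset.sum_nonneg hμ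
  have hM0' := Finset.sum_nonneg hμ'
  calc G * ((∑ S ∈ IS, A S) * (∑ S ∈ IS', A' S))
      ≤ G * (((Real.exp (-(N*c) + 3 * ∑ p ∈ O, 1/(p:ℝ)))^α * (∑ r ∈ W, μ' r)^β) *
        ((Real.exp (-(N*c') + 3 * ∑ p ∈ O', 1/(p:ℝ)))^α * (∑ r ∈ V, μ r)^β)) := by
        apply mul_le_mul_of_nonneg_left _ hG
        exact mul_le_mul bd bd' (Finset.sum_nonneg fun S _ => nA' S)
          (mul_nonneg (Real.rpow_nonneg (Real.exp_nonneg _) _) (Real.rpow_nonneg hM0' _))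
    _ = _ := by
        rw [← Real.exp_mul, ← Real.exp_mul, Real.mul_rpow hM0 hM0']
        have : Real.exp (α * (-(N*c) + 3 * (∑ p ∈ O, 1/(p:ℝ)) + (-(N*c') + 3 * ∑ p ∈ O', 1/(p:ℝ))))
          = Real.exp ((-(N*c) + 3 * ∑ p ∈ O, 1/(p:ℝ)) * α) *
            Real.exp ((-(N*c') + 3 * ∑ p ∈ O', 1/(p:ℝ)) * α) := by
          rw [← Real.exp_add]; congr 1; ring
        rw [this]; ring

/-! ### the averaged circle -/

/-- the item on the averaged circle -/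
def uu (O' : Finset ℕ) (w : ℕ) : ℕ := w / zO O' w

/-- the radius on the averaged circle -/
noncomputable def Rc (O' : Finset ℕ) (R : ℕ → ℝ) (w : ℕ) : ℝ := R w / al O' w

/-- the mass (with the totient factor of the averaged item) -/
noncomputable def mu (O' : Finset ℕ) (R : ℕ → ℝ) (w : ℕ) : ℝ :=
  R w * ((Nat.totient (uu O' w) : ℝ)/(uu O' w : ℕ))

lemma zO_eq {O' S' : Finset ℕ} {w : ℕ} (h : miss O' w = S') : zO O' w = ∏ p ∈ O' \ S', p := by
  unfold zO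
  apply Finset.prod_congr _ (fun _ _ => rfl)
  rw [← h]
  unfold miss
  ext p
  simp only [Finset.mem_filter, Finset.mem_sdiff, not_and, not_not]
  tauto

lemma al_eq {O' S' : Finset ℕ} {w : ℕ} (h : miss O' w = S') : al O' w = ∏ p ∈ S', (1/(p:ℝ)) := by
  rw [← h]; rfl

lemma zO_dvd' {O' : Finset ℕ} (hO' : ∀ p ∈ O', p.Prime) (w : ℕ) : zO O' w ∣ w := by
  unfold zO
  apply Finset.prod_primes_dvd
  · intro p hp; exact (hO' p (Finset.mem_filter.1 hp).1).prime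
  · intro p hp; exact (Finset.mem_filter.1 hp).2

lemma zO_pos' {O' : Finset ℕ} (hO' : ∀ p ∈ O', p.Prime) (w : ℕ) : 0 < zO O' w :=
  Finset.prod_pos fun p hp => (hO' p (Finset.mem_filter.1 hp).1).pos

lemma al_pos {O' : Finset ℕ} (hO' : ∀ p ∈ O', p.Prime) (w : ℕ) : 0 < al O' w :=
  Finset.prod_pos fun p hp => by
    have := (hO' p (Finset.mem_filter.1 hp).1).pos
    positivity

lemma uu_pos {O' : Finset ℕ} (hO' : ∀ p ∈ O', p.Prime) {w : ℕ} (hw : 0 < w) : 0 < uu O' w :=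
  Nat.div_pos (Nat.le_of_dvd hw (zO_dvd' hO' w)) (zO_pos' hO' w)

lemma uu_mul {O' : Finset ℕ} (hO' : ∀ p ∈ O', p.Prime) (w : ℕ) : zO O' w * uu O' w = w :=
  Nat.mul_div_cancel' (zO_dvd' hO' w)

lemma mu_eq {O' : Finset ℕ} (hO' : ∀ p ∈ O', p.Prime) (R : ℕ → ℝ) (w : ℕ) :
    mu O' R w = al O' w * (Rc O' R w * ((Nat.totient (uu O' w) : ℝ)/(uu O' w : ℕ))) := by
  have := (al_pos hO' w).ne'
  unfold mu Rc
  field_simp

lemma mu_nonneg {O' : Finset ℕ} {R : ℕ → ℝ} {w : ℕ} (h : 0 ≤ R w) : 0 ≤ mu O' R w := by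
  unfold mu; positivity

/-- the members of a group, pushed to the averaged circle -/
def Vg (O' V S' : Finset ℕ) : Finset ℕ := V.filter (fun q => miss O' q = S')

def Vu (O' V S' : Finset ℕ) : Finset ℕ := (Vg O' V S').image (uu O')

/-- the radius as a function on the averaged circle (group `S'`) -/
noncomputable def ψu (O' S' : Finset ℕ) (R : ℕ → ℝ) (u : ℕ) : ℝ :=
  R ((∏ p ∈ O' \ S', p) * u) / ∏ p ∈ S', (1/(p:ℝ))

lemma ψu_eq {O' S' : Finset ℕ} (hO' : ∀ p ∈ O', p.Prime) {R : ℕ → ℝ} {w : ℕ}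
    (h : miss O' w = S') : ψu O' S' R (uu O' w) = Rc O' R w := by
  unfold ψu Rc
  rw [← zO_eq h, uu_mul hO', ← al_eq h]

lemma uu_inj {O' V S' : Finset ℕ} (hO' : ∀ p ∈ O', p.Prime) :
    Set.InjOn (uu O') (Vg O' V S' : Set ℕ) := by
  intro a ha b hb hab
  have ha' := (Finset.mem_filter.1 (Finset.mem_coe.1 ha)).2
  have hb' := (Finset.mem_filter.1 (Finset.mem_coe.1 hb)).2
  rw [← uu_mul hO' a, ← uu_mul hO' b, hab, zO_eq ha', zO_eq hb']

lemma sum_Vu {O' V S' : Finset ℕ} (hO' : ∀ p ∈ O', p.Prime) (R : ℕ → ℝ) :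
    (∑ u ∈ Vu O' V S', wt (ψu O' S' R) u) * ∏ p ∈ S', (1/(p:ℝ)) = ∑ w ∈ Vg O' V S', mu O' R w := by
  classical
  unfold Vu
  rw [Finset.sum_image (uu_inj hO'), Finset.sum_mul]
  apply Finset.sum_congr rfl
  intro w hw
  have hw' := (Finset.mem_filter.1 hw).2
  rw [mu_eq hO', al_eq hw']
  unfold wt
  rw [ψu_eq hO' hw']
  ring

/-- pairs of a group on the averaged circle -/
def Eg (O O' : Finset ℕ) (E : Finset (ℕ × ℕ)) (S S' : Finset ℕ) : Finset (ℕ × ℕ) :=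
  E.filter (fun e => miss O e.2 = S ∧ miss O' e.1 = S')

def Eu (O O' : Finset ℕ) (E : Finset (ℕ × ℕ)) (S S' : Finset ℕ) : Finset (ℕ × ℕ) :=
  (Eg O O' E S S').image (fun e => (uu O' e.1, uu O e.2))

lemma Eg_sub {O O' V W : Finset ℕ} {E : Finset (ℕ × ℕ)} (hE : E ⊆ V ×ˢ W) (S S' : Finset ℕ) :
    Eg O O' E S S' ⊆ Vg O' V S' ×ˢ Vg O W S := by
  intro e he
  obtain ⟨h1, h2, h3⟩ := Finset.mem_filter.1 he
  have := Finset.mem_product.1 (hE h1)
  exact Finset.mem_product.2 ⟨Finset.mem_filter.2 ⟨this.1, h3⟩, Finset.mem_filter.2 ⟨this.2, h2⟩⟩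

lemma Eu_sub {O O' V W : Finset ℕ} {E : Finset (ℕ × ℕ)} (hE : E ⊆ V ×ˢ W) (S S' : Finset ℕ) :
    Eu O O' E S S' ⊆ Vu O' V S' ×ˢ Vu O W S := by
  intro e he
  obtain ⟨f, hf, rfl⟩ := Finset.mem_image.1 he
  have := Finset.mem_product.1 (Eg_sub hE S S' hf)
  exact Finset.mem_product.2 ⟨Finset.mem_image_of_mem _ this.1, Finset.mem_image_of_mem _ this.2⟩

lemma sum_Eu {O O' V W : Finset ℕ} (hO : ∀ p ∈ O, p.Prime) (hO' : ∀ p ∈ O', p.Prime)
    {E : Finset (ℕ × ℕ)} (hE : E ⊆ V ×ˢ W) (S S' : Finset ℕ) (f : ℕ × ℕ → ℝ) :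
    ∑ e ∈ Eu O O' E S S', f e = ∑ e ∈ Eg O O' E S S', f (uu O' e.1, uu O e.2) := by
  classical
  unfold Eu
  apply Finset.sum_image
  intro a ha b hb hab
  have ha' := Finset.mem_product.1 (Eg_sub hE S S' (Finset.mem_coe.1 ha))
  have hb' := Finset.mem_product.1 (Eg_sub hE S S' (Finset.mem_coe.1 hb))
  have h1 := congrArg Prod.fst hab
  have h2 := congrArg Prod.snd hab
  exact Prod.ext (uu_inj hO' (Finset.mem_coe.2 ha'.1) (Finset.mem_coe.2 hb'.1) h1)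
    (uu_inj hO (Finset.mem_coe.2 ha'.2) (Finset.mem_coe.2 hb'.2) h2)

lemma filter_eq_Eg (O O' : Finset ℕ) (E : Finset (ℕ × ℕ)) (S S' : Finset ℕ) :
    E.filter (fun e => miss O e.2 = S ∧ miss O' e.1 = S') = Eg O O' E S S' := rfl

lemma group_alg {a b x y α β K : ℝ} (ha : 0 < a) (hb : 0 < b) (hx : 0 ≤ x) (hy : 0 ≤ y)
    (hab : α + β = 1) :
    (K * (a * b)) * ((x/b) * (y/a))^β = K * ((a^α * y^β) * (b^α * x^β)) := by
  have e1 : a = a^α * a^β := by rw [← Real.rpow_add ha, hab, Real.rpow_one]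
  have e2 : b = b^α * b^β := by rw [← Real.rpow_add hb, hab, Real.rpow_one]
  rw [Real.mul_rpow (by positivity) (by positivity), Real.div_rpow hx hb.le, Real.div_rpow hy ha.le]
  have ha' := (Real.rpow_pos_of_pos ha β).ne'
  have hb' := (Real.rpow_pos_of_pos hb β).ne'
  calc (K * (a * b)) * (x^β / b^β * (y^β / a^β))
      = (K * ((a^α * a^β) * (b^α * b^β))) * (x^β / b^β * (y^β / a^β)) := by rw [← e1, ← e2]
    _ = _ := by field_simp

/-- **middle scales** (HVW) on the averaged circle -/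
theorem mid {ε : ℝ} (hε : 0 < ε) (hε4 : ε ≤ 1/4) {N : ℕ} {O O' V W : Finset ℕ} {E : Finset (ℕ × ℕ)}
    {R R' : ℕ → ℝ} (hO : ∀ p ∈ O, p.Prime ∧ N ≤ p) (hO' : ∀ p ∈ O', p.Prime ∧ N ≤ p)
    (hV : ∀ w ∈ V, 0 < w) (hW : ∀ w ∈ W, 0 < w) (hR : ∀ w ∈ V, 0 ≤ R w) (hR' : ∀ w ∈ W, 0 ≤ R' w)
    (hE : E ⊆ V ×ˢ W) {c c' : ℝ}
    (hc : ∀ r ∈ W, c ≤ ∑ p ∈ O.filter (fun p => ¬ p ∣ r), 1/(p:ℝ))
    (hc' : ∀ q ∈ V, c' ≤ ∑ p ∈ O'.filter (fun p => ¬ p ∣ q), 1/(p:ℝ))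
    {T K : ℝ} (hT : 0 < T) (hK : 0 ≤ K) {F : ℕ × ℕ → ℝ}
    (h1 : ∀ e ∈ E, (cof (uu O' e.1) (uu O e.2) : ℝ) * Rc O R' e.2 ≤ T)
    (h2 : ∀ e ∈ E, (cof (uu O e.2) (uu O' e.1) : ℝ) * Rc O' R e.1 ≤ T)
    (hF : ∀ e ∈ E, F e ≤ K * (mu O' R e.1 * mu O R' e.2)) :
    ∑ e ∈ E, F e ≤ K * (KH 1 0 ε * T^(1-2*ε)) *
      Real.exp ((1/2-ε) * (-(N*c) + 3 * (∑ p ∈ O, 1/(p:ℝ)) + (-(N*c') + 3 * ∑ p ∈ O', 1/(p:ℝ)))) *
      ((∑ q ∈ V, mu O' R q) * (∑ r ∈ W, mu O R' r))^(1/2+ε) := by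
  classical
  have hOp : ∀ p ∈ O, p.Prime := fun p hp => (hO p hp).1
  have hOp' : ∀ p ∈ O', p.Prime := fun p hp => (hO' p hp).1
  have hKH := (KH_pos 1 0 ε).le
  apply group_sum (α := 1/2-ε) (β := 1/2+ε) (by linarith) (by linarith) (by ring)
    (fun p hp => ⟨(hO p hp).1.pos, (hO p hp).2⟩) (fun p hp => ⟨(hO' p hp).1.pos, (hO' p hp).2⟩) hE
    (fun q hq => mu_nonneg (hR q hq)) (fun q hq => mu_nonneg (hR' q hq)) (by positivity) hc hc'
  intro S hS S' hS'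
  rw [filter_eq_Eg]
  have ha : 0 < ∏ p ∈ S, (1/(p:ℝ)) := Finset.prod_pos fun p hp => by
    have := (hOp p (hS hp)).pos; positivity
  have hb : 0 < ∏ p ∈ S', (1/(p:ℝ)) := Finset.prod_pos fun p hp => by
    have := (hOp' p (hS' hp)).pos; positivity
  set a := ∏ p ∈ S, (1/(p:ℝ)) with had
  set b := ∏ p ∈ S', (1/(p:ℝ)) with hbd
  have hs : Sys2 (Vu O' V S') (Vu O W S) (Eu O O' E S S') (ψu O' S' R) (ψu O S R') T T :=
    { hδ₁ := hT
      hδ₂ := hT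
      hV := by
        intro v hv
        obtain ⟨w, hw, rfl⟩ := Finset.mem_image.1 hv
        exact uu_pos hOp' (hV w (Finset.mem_filter.1 hw).1)
      hW := by
        intro v hv
        obtain ⟨w, hw, rfl⟩ := Finset.mem_image.1 hv
        exact uu_pos hOp (hW w (Finset.mem_filter.1 hw).1)
      hψ := by
        intro v hv
        obtain ⟨w, hw, rfl⟩ := Finset.mem_image.1 hv
        rw [ψu_eq hOp' (Finset.mem_filter.1 hw).2]
        exact div_nonneg (hR w (Finset.mem_filter.1 hw).1) (al_nonneg _ _)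
      hθ := by
        intro v hv
        obtain ⟨w, hw, rfl⟩ := Finset.mem_image.1 hv
        rw [ψu_eq hOp (Finset.mem_filter.1 hw).2]
        exact div_nonneg (hR' w (Finset.mem_filter.1 hw).1) (al_nonneg _ _)
      hE := Eu_sub hE S S'
      h1 := by
        intro e he
        obtain ⟨f, hf, rfl⟩ := Finset.mem_image.1 he
        have hf' := Finset.mem_filter.1 hf
        show (cof (uu O' f.1) (uu O f.2) : ℝ) * ψu O S R' (uu O f.2) ≤ T
        rw [ψu_eq hOp hf'.2.1]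
        exact h1 f hf'.1
      h2 := by
        intro e he
        obtain ⟨f, hf, rfl⟩ := Finset.mem_image.1 he
        have hf' := Finset.mem_filter.1 hf
        show (cof (uu O f.2) (uu O' f.1) : ℝ) * ψu O' S' R (uu O' f.1) ≤ T
        rw [ψu_eq hOp' hf'.2.2]
        exact h2 f hf'.1 }
  have key := hvw_cross_plain hε hε4 hs (z₁ := 1) (z₂ := 1) one_pos one_pos
    (fun v _ => ⟨one_dvd _, Nat.coprime_one_left _⟩) (fun v _ => ⟨one_dvd _, Nat.coprime_one_left _⟩)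
  rw [zf_one, one_mul, one_mul, Nat.cast_one, mul_one, div_one] at key
  have eT : (T * T)^(1/2-ε) = T^(1-2*ε) := by
    rw [Real.mul_rpow hT.le hT.le, ← Real.rpow_add hT]; congr 1; ring
  rw [eT, sum_Eu hOp hOp' hE] at key
  set x := ∑ q ∈ Vg O' V S', mu O' R q with hx
  set y := ∑ r ∈ Vg O W S, mu O R' r with hy
  have hx0 : 0 ≤ x := Finset.sum_nonneg fun q hq => mu_nonneg (hR q (Finset.mem_filter.1 hq).1)
  have hy0 : 0 ≤ y := Finset.sum_nonneg fun q hq => mu_nonneg (hR' q (Finset.mem_filter.1 hq).1)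
  have ex : ∑ v ∈ Vu O' V S', wt (ψu O' S' R) v = x / b := by
    rw [eq_div_iff hb.ne']; exact sum_Vu hOp' R
  have ey : ∑ v ∈ Vu O W S, wt (ψu O S R') v = y / a := by
    rw [eq_div_iff ha.ne']; exact sum_Vu hOp R'
  rw [ex, ey] at key
  calc ∑ e ∈ Eg O O' E S S', F e
      ≤ ∑ e ∈ Eg O O' E S S', (K * (a * b)) *
          (wt (ψu O' S' R) (uu O' e.1) * wt (ψu O S R') (uu O e.2)) := by
        apply Finset.sum_le_sum
        intro e he
        have he' := Finset.mem_filter.1 he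
        refine (hF e he'.1).trans (le_of_eq ?_)
        rw [mu_eq hOp', mu_eq hOp, al_eq he'.2.1, al_eq he'.2.2]
        unfold wt
        rw [ψu_eq hOp he'.2.1, ψu_eq hOp' he'.2.2]
        ring
    _ = (K * (a * b)) * ∑ e ∈ Eg O O' E S S',
          (wt (ψu O' S' R) (uu O' e.1) * wt (ψu O S R') (uu O e.2)) := by rw [Finset.mul_sum]
    _ ≤ (K * (a * b)) * (KH 1 0 ε * (T^(1-2*ε) * (x/b * (y/a))^(1/2+ε))) :=
        mul_le_mul_of_nonneg_left key (by positivity)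
    _ = (KH 1 0 ε * T^(1-2*ε)) * ((K * (a * b)) * (x/b * (y/a))^(1/2+ε)) := by ring
    _ = _ := by
        rw [group_alg (α := 1/2-ε) (β := 1/2+ε) ha hb hx0 hy0 (by ring)]
        show _ = K * (KH 1 0 ε * T^(1-2*ε)) * ((a^(1/2-ε) * y^(1/2+ε)) * (b^(1/2-ε) * x^(1/2+ε)))
        ring

/-- the `D` of a pair on the averaged circle -/
noncomputable def Dc (O O' : Finset ℕ) (R R' : ℕ → ℝ) (e : ℕ × ℕ) : ℝ :=
  max ((cof (uu O e.2) (uu O' e.1) : ℝ) * Rc O' R e.1) ((cof (uu O' e.1) (uu O e.2) : ℝ) * Rc O R' e.2)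

open Crest.Agent.R4.ClsT223 Crest.Agent.R4.ClsS Crest.Agent.R4.ClsB in
/-- **deep pairs** (two-target leaf estimate `ClsT223.deepT`) on the averaged circle -/
theorem deepB : ∃ C c0 : ℝ, 1 ≤ C ∧ 0 < c0 ∧ ∀ c1 : ℝ, 0 < c1 → c1 ≤ c0 → ∃ T0 : ℝ, 1 ≤ T0 ∧
    ∀ (T X K : ℝ) (N G : ℕ) (O O' V W : Finset ℕ) (E : Finset (ℕ × ℕ)) (R R' : ℕ → ℝ)
    (γ γ' : Finset ℕ → ℝ) (F : ℕ × ℕ → ℝ) (c c' : ℝ),
    T0 ≤ T → X ≤ Real.exp (T^c1) → 0 ≤ K → 0 < G →
    (∀ p ∈ O, p.Prime ∧ N ≤ p) → (∀ p ∈ O', p.Prime ∧ N ≤ p) →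
    (∀ w ∈ V, 0 < w ∧ 0 < R w) → (∀ w ∈ W, 0 < w ∧ 0 < R' w) →
    (∀ z : ℝ, X ≤ z → ∀ w ∈ V, Tame z G (uu O' w)) → (∀ z : ℝ, X ≤ z → ∀ w ∈ W, Tame z G (uu O w)) →
    E ⊆ V ×ˢ W →
    (∀ r ∈ W, c ≤ ∑ p ∈ O.filter (fun p => ¬ p ∣ r), 1/(p:ℝ)) →
    (∀ q ∈ V, c' ≤ ∑ p ∈ O'.filter (fun p => ¬ p ∣ q), 1/(p:ℝ)) →
    (∀ e ∈ E, Dc O O' R R' e ≤ 1/T) →
    (∀ e ∈ E, F e ≤ K * ((mu O' R e.1 * mu O R' e.2) / Dc O O' R R' e)) →
    (∀ e ∈ E, ∀ t : ℝ, T ≤ t → 1/(2*t) < Dc O O' R R' e → Dc O O' R R' e ≤ 1/t → 0 < F e →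
      Gen2 (γ (miss O' e.1)) (γ' (miss O e.2)) t (cof (uu O' e.1) (uu O e.2))
        (cof (uu O e.2) (uu O' e.1)) (Rc O' R e.1) (Rc O R' e.2)) →
    ∑ e ∈ E, F e ≤ C * K * T^(-(6/1000):ℝ) *
      Real.exp ((1/2-eps1) * (-(N*c) + 3 * (∑ p ∈ O, 1/(p:ℝ)) + (-(N*c') + 3 * ∑ p ∈ O', 1/(p:ℝ)))) *
      ((∑ q ∈ V, mu O' R q) * (∑ r ∈ W, mu O R' r))^(1/2+eps1) := by
  classical
  obtain ⟨C, c0, hC1, hc0, hC⟩ := deepT
  refine ⟨C, c0, hC1, hc0, ?_⟩
  intro c1 hc1 hc10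
  obtain ⟨T0, hT01, hT0⟩ := hC c1 hc1 hc10
  refine ⟨T0, hT01, ?_⟩
  intro T X K N G O O' V W E R R' γ γ' F c c' hT hX hK hG hO hO' hV hW hVt hWt hE hc hc' hD hF hgen
  have hOp : ∀ p ∈ O, p.Prime := fun p hp => (hO p hp).1
  have hOp' : ∀ p ∈ O', p.Prime := fun p hp => (hO' p hp).1
  have hTp : 0 < T := by linarith
  have he1 : eps1 = 1/1000 := rfl
  apply group_sum (α := 1/2-eps1) (β := 1/2+eps1) (by rw [he1]; norm_num) (by rw [he1]; norm_num) (by ring)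
    (fun p hp => ⟨(hO p hp).1.pos, (hO p hp).2⟩) (fun p hp => ⟨(hO' p hp).1.pos, (hO' p hp).2⟩) hE
    (fun q hq => mu_nonneg (hV q hq).2.le) (fun q hq => mu_nonneg (hW q hq).2.le) (by positivity) hc hc'
  intro S hS S' hS'
  rw [filter_eq_Eg]
  have ha : 0 < ∏ p ∈ S, (1/(p:ℝ)) := Finset.prod_pos fun p hp => by
    have := (hOp p (hS hp)).pos; positivity
  have hb : 0 < ∏ p ∈ S', (1/(p:ℝ)) := Finset.prod_pos fun p hp => by
    have := (hOp' p (hS' hp)).pos; positivity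
  set a := ∏ p ∈ S, (1/(p:ℝ)) with had
  set b := ∏ p ∈ S', (1/(p:ℝ)) with hbd
  have hinv : ∀ e ∈ Eg O O' E S S', ((∏ p ∈ O' \ S', p) * uu O' e.1, (∏ p ∈ O \ S, p) * uu O e.2) = e := by
    intro e he
    have he' := Finset.mem_filter.1 he
    rw [← zO_eq he'.2.2, ← zO_eq he'.2.1, uu_mul hOp', uu_mul hOp]
  have hDD : ∀ e ∈ Eg O O' E S S', Crest.Agent.R4.LF11.DD (ψu O' S' R) (ψu O S R') (uu O' e.1, uu O e.2)
      = Dc O O' R R' e := by
    intro e he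
    have he' := Finset.mem_filter.1 he
    unfold Crest.Agent.R4.LF11.DD Dc
    show max _ _ = max _ _
    rw [ψu_eq hOp he'.2.1, ψu_eq hOp' he'.2.2]
  have hDpos : ∀ e ∈ Eg O O' E S S', 0 < Dc O O' R R' e := by
    intro e he
    have he' := Finset.mem_filter.1 he
    have h := Finset.mem_product.1 (hE he'.1)
    unfold Dc
    apply lt_max_of_lt_left
    apply mul_pos
    · have := uu_pos hOp (hW _ h.2).1
      exact_mod_cast Deg709.cof_pos this _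
    · exact div_pos (hV _ h.1).2 (al_pos hOp' _)
  have key := hT0 (γ S') (γ' S) T X (K * (a * b)) (Vu O' V S') (Vu O W S) (Eu O O' E S S')
    (ψu O' S' R) (ψu O S R')
    (fun f => F ((∏ p ∈ O' \ S', p) * f.1, (∏ p ∈ O \ S, p) * f.2)) G hT hX (by positivity) hG
    (by
      intro v hv
      obtain ⟨w, hw, rfl⟩ := Finset.mem_image.1 hv
      have hw' := Finset.mem_filter.1 hw
      refine ⟨uu_pos hOp' (hV w hw'.1).1, ?_⟩
      rw [ψu_eq hOp' hw'.2]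
      exact div_pos (hV w hw'.1).2 (al_pos hOp' _))
    (by
      intro v hv
      obtain ⟨w, hw, rfl⟩ := Finset.mem_image.1 hv
      have hw' := Finset.mem_filter.1 hw
      refine ⟨uu_pos hOp (hW w hw'.1).1, ?_⟩
      rw [ψu_eq hOp hw'.2]
      exact div_pos (hW w hw'.1).2 (al_pos hOp _))
    (by
      intro z hz v hv
      obtain ⟨w, hw, rfl⟩ := Finset.mem_image.1 hv
      exact hVt z hz w (Finset.mem_filter.1 hw).1)
    (by
      intro z hz v hv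
      obtain ⟨w, hw, rfl⟩ := Finset.mem_image.1 hv
      exact hWt z hz w (Finset.mem_filter.1 hw).1)
    (Eu_sub hE S S')
    (by
      intro f hf
      obtain ⟨e, he, rfl⟩ := Finset.mem_image.1 hf
      rw [hDD e he]
      exact hD e (Finset.mem_filter.1 he).1)
    (by
      intro f hf
      obtain ⟨e, he, rfl⟩ := Finset.mem_image.1 hf
      have he' := Finset.mem_filter.1 he
      show F ((∏ p ∈ O' \ S', p) * uu O' e.1, (∏ p ∈ O \ S, p) * uu O e.2) ≤ _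
      rw [hDD e he, hinv e he]
      refine (hF e he'.1).trans ?_
      rw [mul_assoc K]
      apply mul_le_mul_of_nonneg_left _ hK
      rw [← mul_div_assoc]
      apply div_le_div_of_nonneg_right _ (hDpos e he).le
      have h := Finset.mem_product.1 (hE he'.1)
      unfold Crest.Agent.R4.LF11.ew wt
      show _ ≤ (a * b) * ((ψu O' S' R (uu O' e.1) * _) * (ψu O S R' (uu O e.2) * _) * _)
      rw [ψu_eq hOp he'.2.1, ψu_eq hOp' he'.2.2, mu_eq hOp', mu_eq hOp, al_eq he'.2.1, al_eq he'.2.2]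
      have f1 := one_le_Af (cof (uu O' e.1) (uu O e.2))
      have f2 := one_le_Af (cof (uu O e.2) (uu O' e.1))
      have f3 : 1 ≤ Af (cof (uu O' e.1) (uu O e.2)) * Af (cof (uu O e.2) (uu O' e.1)) := by nlinarith
      have g1 : 0 ≤ Rc O' R e.1 := div_nonneg (hV _ h.1).2.le (al_nonneg _ _)
      have g2 : 0 ≤ Rc O R' e.2 := div_nonneg (hW _ h.2).2.le (al_nonneg _ _)
      have g3 : 0 ≤ (a * b) * ((Rc O' R e.1 * ((Nat.totient (uu O' e.1) : ℝ)/(uu O' e.1 : ℕ))) *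
          (Rc O R' e.2 * ((Nat.totient (uu O e.2) : ℝ)/(uu O e.2 : ℕ)))) := by positivity
      calc b * (Rc O' R e.1 * ((Nat.totient (uu O' e.1) : ℝ)/(uu O' e.1 : ℕ))) *
            (a * (Rc O R' e.2 * ((Nat.totient (uu O e.2) : ℝ)/(uu O e.2 : ℕ))))
          = ((a * b) * ((Rc O' R e.1 * ((Nat.totient (uu O' e.1) : ℝ)/(uu O' e.1 : ℕ))) *
          (Rc O R' e.2 * ((Nat.totient (uu O e.2) : ℝ)/(uu O e.2 : ℕ))))) * 1 := by ring
        _ ≤ ((a * b) * ((Rc O' R e.1 * ((Nat.totient (uu O' e.1) : ℝ)/(uu O' e.1 : ℕ))) *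
          (Rc O R' e.2 * ((Nat.totient (uu O e.2) : ℝ)/(uu O e.2 : ℕ))))) *
            (Af (cof (uu O' e.1) (uu O e.2)) * Af (cof (uu O e.2) (uu O' e.1))) :=
            mul_le_mul_of_nonneg_left f3 g3
        _ = _ := by ring)
    (by
      intro f hf t ht h1 h2 h3
      obtain ⟨e, he, rfl⟩ := Finset.mem_image.1 hf
      have he' := Finset.mem_filter.1 he
      rw [hDD e he] at h1 h2
      have h3' : 0 < F e := by rw [← hinv e he]; exact h3
      have h4 := hgen e he'.1 t ht h1 h2 h3'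
      show Gen2 (γ S') (γ' S) t (cof (uu O' e.1) (uu O e.2)) (cof (uu O e.2) (uu O' e.1))
        (ψu O' S' R (uu O' e.1)) (ψu O S R' (uu O e.2))
      rw [ψu_eq hOp he'.2.1, ψu_eq hOp' he'.2.2]
      rw [he'.2.1, he'.2.2] at h4
      exact h4)
  rw [sum_Eu hOp hOp' hE] at key
  have eF : ∑ e ∈ Eg O O' E S S', F ((∏ p ∈ O' \ S', p) * uu O' e.1, (∏ p ∈ O \ S, p) * uu O e.2)
      = ∑ e ∈ Eg O O' E S S', F e :=
    Finset.sum_congr rfl fun e he => by rw [hinv e he]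
  have key2 : ∑ e ∈ Eg O O' E S S', F e ≤ C * (K * (a * b)) * T^(-(6/1000):ℝ) *
      ((∑ v ∈ Vu O' V S', wt (ψu O' S' R) v) * (∑ w ∈ Vu O W S, wt (ψu O S R') w))^(1/2+eps1) := by
    rw [← eF]; exact key
  set x := ∑ q ∈ Vg O' V S', mu O' R q with hx
  set y := ∑ r ∈ Vg O W S, mu O R' r with hy
  have hx0 : 0 ≤ x := Finset.sum_nonneg fun q hq => mu_nonneg (hV q (Finset.mem_filter.1 hq).1).2.le
  have hy0 : 0 ≤ y := Finset.sum_nonneg fun q hq => mu_nonneg (hW q (Finset.mem_filter.1 hq).1).2.le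
  have ex : ∑ v ∈ Vu O' V S', wt (ψu O' S' R) v = x / b := by
    rw [eq_div_iff hb.ne']; exact sum_Vu hOp' R
  have ey : ∑ v ∈ Vu O W S, wt (ψu O S R') v = y / a := by
    rw [eq_div_iff ha.ne']; exact sum_Vu hOp R'
  rw [ex, ey] at key2
  refine key2.trans (le_of_eq ?_)
  have h5 := group_alg (α := 1/2-eps1) (β := 1/2+eps1) (K := K) ha hb hx0 hy0 (by ring)
  calc C * (K * (a * b)) * T^(-(6/1000):ℝ) * (x/b * (y/a))^(1/2+eps1)
      = (C * T^(-(6/1000):ℝ)) * ((K * (a * b)) * (x/b * (y/a))^(1/2+eps1)) := by ring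
    _ = _ := by
        rw [h5]
        show _ = C * K * T^(-(6/1000):ℝ) * ((a^(1/2-eps1) * y^(1/2+eps1)) * (b^(1/2-eps1) * x^(1/2+eps1)))
        ring

/-! ### case A -/

/-- case A: the parts `≥ N` of the averaged items agree -/
def CaseA (N : ℕ) (O O' : Finset ℕ) (e : ℕ × ℕ) : Prop :=
  rp (Lo N) (uu O' e.1) = rp (Lo N) (uu O e.2)

lemma sp_zO {N : ℕ} {O : Finset ℕ} (hO : ∀ p ∈ O, p.Prime ∧ N ≤ p) (w : ℕ) : sp (Lo N) (zO O w) = 1 := by
  have h0 : 0 < zO O w := zO_pos' (fun p hp => (hO p hp).1) w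
  by_contra h
  obtain ⟨p, hp, hpd⟩ := Nat.exists_prime_and_dvd h
  have h1 := sp_prime (Lo N) hp hpd
  have h2 : p ∣ zO O w := hpd.trans (sp_dvd (Lo N) h0)
  unfold zO at h2
  rw [Prime.dvd_finset_prod_iff hp.prime] at h2
  obtain ⟨q, hq, hpq⟩ := h2
  have hq' := hO q (Finset.mem_filter.1 hq).1
  have : p = q := (Nat.prime_dvd_prime_iff_eq hp hq'.1).1 hpq
  have h3 : p < N := h1
  omega

lemma sp_uu {N : ℕ} {O : Finset ℕ} (hO : ∀ p ∈ O, p.Prime ∧ N ≤ p) {w : ℕ} (hw : 0 < w) :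
    sp (Lo N) w = sp (Lo N) (uu O w) := by
  have hOp : ∀ p ∈ O, p.Prime := fun p hp => (hO p hp).1
  conv_lhs => rw [← uu_mul hOp w]
  rw [Deg709.sp_mul _ (zO_pos' hOp w) (uu_pos hOp hw), sp_zO hO, one_mul]

lemma rp_uu {N : ℕ} {O : Finset ℕ} (hO : ∀ p ∈ O, p.Prime ∧ N ≤ p) {w : ℕ} (hw : 0 < w) :
    rp (Lo N) w = zO O w * rp (Lo N) (uu O w) := by
  have hOp : ∀ p ∈ O, p.Prime := fun p hp => (hO p hp).1
  have h1 := sp_mul_rp (Lo N) hw
  have h2 := sp_mul_rp (Lo N) (uu_pos hOp hw)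
  have h3 := sp_pos (Lo N) (uu_pos hOp hw)
  rw [sp_uu hO hw] at h1
  have h4 : sp (Lo N) (uu O w) * rp (Lo N) w = sp (Lo N) (uu O w) * (zO O w * rp (Lo N) (uu O w)) := by
    rw [h1]
    calc w = zO O w * uu O w := (uu_mul hOp w).symm
      _ = zO O w * (sp (Lo N) (uu O w) * rp (Lo N) (uu O w)) := by rw [h2]
      _ = _ := by ring
  exact Nat.eq_of_mul_eq_mul_left h3 h4

lemma cof_A {N : ℕ} {O O' : Finset ℕ} (hO : ∀ p ∈ O, p.Prime ∧ N ≤ p) (hO' : ∀ p ∈ O', p.Prime ∧ N ≤ p)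
    {v w : ℕ} (hv : 0 < v) (hw : 0 < w) (h : rp (Lo N) (uu O' v) = rp (Lo N) (uu O w)) :
    cof (uu O' v) (uu O w) = cof (sp (Lo N) v) (sp (Lo N) w) := by
  have hOp : ∀ p ∈ O, p.Prime := fun p hp => (hO p hp).1
  have hOp' : ∀ p ∈ O', p.Prime := fun p hp => (hO' p hp).1
  rw [sp_uu hO' hv, sp_uu hO hw]
  have h1 := sp_mul_rp (Lo N) (uu_pos hOp' hv)
  have h2 := sp_mul_rp (Lo N) (uu_pos hOp hw)
  have h3 := rp_pos (Lo N) (uu_pos hOp hw)
  unfold cof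
  conv_lhs => rw [← h1, ← h2, h, Nat.gcd_mul_right, Nat.mul_div_mul_right _ _ h3]

/-- **case A** on the averaged circle -/
theorem caseA_sum {N : ℕ} {O O' V W : Finset ℕ} {E : Finset (ℕ × ℕ)} {R R' : ℕ → ℝ} {c : ℝ}
    (hO : ∀ p ∈ O, p.Prime ∧ N ≤ p) (hO' : ∀ p ∈ O', p.Prime ∧ N ≤ p)
    (hV : ∀ w ∈ V, 0 < w ∧ 0 < R w) (hW : ∀ w ∈ W, 0 < w ∧ 0 < R' w) (hE : E ⊆ V ×ˢ W)
    (hA : ∀ e ∈ E, CaseA N O O' e)
    (hc : ∀ r ∈ W, c ≤ ∑ p ∈ O.filter (fun p => ¬ p ∣ r), 1/(p:ℝ)) {K : ℝ} (hK : 0 ≤ K)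
    {F : ℕ × ℕ → ℝ} (hF : ∀ e ∈ E, F e ≤ K * ((R e.1 * R' e.2) / Dc O O' R R' e)) :
    ∑ e ∈ E, F e ≤ K * (Real.exp (16 * Real.sqrt N) *
        Real.exp ((-(N * c) + 3 * ∑ p ∈ O, 1/(p:ℝ) + 3 * ∑ p ∈ O', 1/(p:ℝ))/2) *
        (Real.sqrt (∑ q ∈ V, R q) * Real.sqrt (∑ r ∈ W, R' r))) := by
  classical
  have hOp : ∀ p ∈ O, p.Prime := fun p hp => (hO p hp).1
  have hOp' : ∀ p ∈ O', p.Prime := fun p hp => (hO' p hp).1
  have key := schur_stop (N := N) (O := O) (O' := O') (V := V) (W := W) (E := E) (R := R) (R' := R')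
    (c := c) hO hO' (fun q hq => (hV q hq).1) (fun q hq => (hW q hq).1) (fun q hq => (hV q hq).2.le)
    (fun q hq => (hW q hq).2.le) hE
    (by
      intro e he
      have h := Finset.mem_product.1 (hE he)
      rw [rp_uu hO' (hV _ h.1).1, rp_uu hO (hW _ h.2).1, hA e he]
      ring) hc
  refine le_trans ?_ (mul_le_mul_of_nonneg_left key hK)
  rw [Finset.mul_sum]
  apply Finset.sum_le_sum
  intro e he
  have h := Finset.mem_product.1 (hE he)
  have hv := hV _ h.1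
  have hw := hW _ h.2
  refine (hF e he).trans ?_
  apply mul_le_mul_of_nonneg_left _ hK
  have ecx : cof (sp (Lo N) e.1) (sp (Lo N) e.2) = cof (uu O' e.1) (uu O e.2) :=
    (cof_A hO hO' hv.1 hw.1 (hA e he)).symm
  have ecy : cof (sp (Lo N) e.2) (sp (Lo N) e.1) = cof (uu O e.2) (uu O' e.1) :=
    (cof_A hO' hO hw.1 hv.1 (hA e he).symm).symm
  rw [ecx, ecy]
  have hx : (0:ℝ) < cof (uu O' e.1) (uu O e.2) := by
    exact_mod_cast Deg709.cof_pos (uu_pos hOp' hv.1) _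
  have hy : (0:ℝ) < cof (uu O e.2) (uu O' e.1) := by
    exact_mod_cast Deg709.cof_pos (uu_pos hOp hw.1) _
  have ha := al_pos hOp e.2
  have hb := al_pos hOp' e.1
  set x : ℝ := ((cof (uu O' e.1) (uu O e.2) : ℕ) : ℝ) with hxd
  set y : ℝ := ((cof (uu O e.2) (uu O' e.1) : ℕ) : ℝ) with hyd
  set a := al O e.2 with had
  set b := al O' e.1 with hbd
  have hr : 0 < R e.1 := hv.2
  have hr' : 0 < R' e.2 := hw.2
  have hD : Dc O O' R R' e = max (y * (R e.1 / b)) (x * (R' e.2 / a)) := rfl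
  have hD1 : Real.sqrt ((y * (R e.1 / b)) * (x * (R' e.2 / a))) ≤ Dc O O' R R' e := by
    rw [hD]
    apply Real.sqrt_le_iff.2
    constructor
    · exact le_max_of_le_left (by positivity)
    · rw [sq]
      exact mul_le_mul (le_max_left _ _) (le_max_right _ _) (by positivity)
        (le_max_of_le_left (by positivity))
  have hs0 : 0 < Real.sqrt ((y * (R e.1 / b)) * (x * (R' e.2 / a))) := Real.sqrt_pos.2 (by positivity)
  calc R e.1 * R' e.2 / Dc O O' R R' e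
      ≤ R e.1 * R' e.2 / Real.sqrt ((y * (R e.1 / b)) * (x * (R' e.2 / a))) :=
        div_le_div_of_nonneg_left (by positivity) hs0 hD1
    _ = Real.sqrt (R e.1 * b) * Real.sqrt (R' e.2 * a) / Real.sqrt (y * x) := by
        rw [div_eq_div_iff hs0.ne' (Real.sqrt_pos.2 (by positivity)).ne']
        rw [← Real.sqrt_mul (by positivity), ← Real.sqrt_mul (by positivity)]
        have e1 : R e.1 * R' e.2 = Real.sqrt ((R e.1 * R' e.2)^2) := (Real.sqrt_sq (by positivity)).symm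
        rw [e1, ← Real.sqrt_mul (by positivity)]
        congr 1
        field_simp

/-! ### the assembly -/

open Crest.Agent.R4.Equi588 in
lemma SI_m_le {J : ℕ} {a : SI} (h : a.Ok J) : a.m ≤ 2 * J * a.r := by
  unfold SI.m
  have h1 : ∑ i ∈ a.T, a.ρ i * smean a.A a.P a.s i ≤ ∑ _i ∈ a.T, a.r := by
    apply Finset.sum_le_sum
    intro i hi
    have h2 : smean a.A a.P a.s i ≤ 1 := smean_le_one h.hA (h.s1 i hi)
    have h3 : 0 ≤ smean a.A a.P a.s i := smean_nonneg (h.s0 i hi)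
    calc a.ρ i * smean a.A a.P a.s i ≤ a.r * 1 := mul_le_mul (h.h1 i hi) h2 h3 h.hr.le
      _ = a.r := mul_one _
  have h4 : ∑ _i ∈ a.T, a.r ≤ J * a.r := by
    rw [Finset.sum_const, nsmul_eq_mul]
    exact mul_le_mul_of_nonneg_right (by exact_mod_cast h.hJ) h.hr.le
  nlinarith

lemma pair_le_aux {J J' : ℕ} {a b : SI} (ha : a.Ok J) (hb : b.Ok J') :
    Tour104.I (fun x => a.f x * b.f x) ≤
      a.m * b.m + 2 * (a.r * b.r / Equi588.DD a b) * (((a.P.lcm b.P : ℕ) : ℝ) * ((J : ℝ) * J')) :=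
  Equi588.pair_le ha hb

lemma pair_large_aux {J J' : ℕ} {a b : SI} (ha : a.Ok J) (hb : b.Ok J') {k₀ ε : ℝ}
    (hk : 0 < k₀) (hε : 0 < ε) (hma : k₀ * (2 * a.r) ≤ a.m) (hmb : k₀ * (2 * b.r) ≤ b.m)
    (hD : (((a.P.lcm b.P : ℕ) : ℝ) * ((J : ℝ) * J')) / (2 * ε * k₀ ^ 2) ≤ Equi588.DD a b) :
    Tour104.I (fun x => a.f x * b.f x) ≤ (1 + ε) * (a.m * b.m) :=
  Equi588.pair_le_of_large ha hb hk hε hma hmb hD

open Crest.Agent.R4.ClsT223 Crest.Agent.R4.ClsS Crest.Agent.R4.ClsB in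
/-- **STOP ASSEMBLY, item form** -/
theorem stop_assembly : ∃ C c0 : ℝ, 1 ≤ C ∧ 0 < c0 ∧ ∀ c1 : ℝ, 0 < c1 → c1 ≤ c0 → ∃ T0 : ℝ, 1 ≤ T0 ∧
    ∀ (T Td X k₀ δ Λ L : ℝ) (J J' N G : ℕ) (O O' V W : Finset ℕ) (R R' : ℕ → ℝ) (a b : ℕ → SI)
    (γ γ' : Finset ℕ → ℝ) (F : ℕ × ℕ → ℝ) (c : ℝ),
    T0 ≤ Td → X ≤ Real.exp (Td^c1) → 0 < G → 0 < k₀ → 0 < δ → 0 < J → 0 < J' → 1 ≤ L →
    (∀ p ∈ O, p.Prime ∧ N ≤ p) → (∀ p ∈ O', p.Prime ∧ N ≤ p) →
    (∀ w ∈ V, 0 < w ∧ 0 < R w) → (∀ w ∈ W, 0 < w ∧ 0 < R' w) →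
    (∀ w ∈ V, (a w).Ok J ∧ (a w).q = uu O' w ∧ (a w).r = Rc O' R w ∧ k₀ * (2 * (a w).r) ≤ (a w).m) →
    (∀ w ∈ W, (b w).Ok J' ∧ (b w).q = uu O w ∧ (b w).r = Rc O R' w ∧ k₀ * (2 * (b w).r) ≤ (b w).m) →
    (∀ v ∈ V, ∀ w ∈ W, (((a v).P.lcm (b w).P : ℕ) : ℝ) * ((J : ℝ) * J') ≤ Λ) →
    Λ / (2 * δ * k₀^2) ≤ T → 0 < T →
    (∀ w ∈ V, R w ≤ L * mu O' R w) → (∀ w ∈ W, R' w ≤ L * mu O R' w) →
    (∀ z : ℝ, X ≤ z → ∀ w ∈ V, Tame z G (uu O' w)) → (∀ z : ℝ, X ≤ z → ∀ w ∈ W, Tame z G (uu O w)) →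
    (∀ r ∈ W, c ≤ ∑ p ∈ O.filter (fun p => ¬ p ∣ r), 1/(p:ℝ)) →
    (∀ e ∈ V ×ˢ W, F e ≤ al O' e.1 * al O e.2 * Tour104.I (fun x => (a e.1).f x * (b e.2).f x)) →
    (∀ e ∈ V ×ˢ W, ¬ CaseA N O O' e → ∀ t : ℝ, Td ≤ t → 1/(2*t) < Dc O O' R R' e →
      Dc O O' R R' e ≤ 1/t → 0 < F e →
      Gen2 (γ (miss O' e.1)) (γ' (miss O e.2)) t (cof (uu O' e.1) (uu O e.2))
        (cof (uu O e.2) (uu O' e.1)) (Rc O' R e.1) (Rc O R' e.2)) →
    ∑ e ∈ V ×ˢ W, F e ≤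
      (1 + δ) * ((∑ w ∈ V, al O' w * (a w).m) * (∑ w ∈ W, al O w * (b w).m)) +
      ((4 * Λ * T + 2 * Λ) * (Real.exp (16 * Real.sqrt N) *
        Real.exp ((-(N * c) + 3 * ∑ p ∈ O, 1/(p:ℝ) + 3 * ∑ p ∈ O', 1/(p:ℝ))/2) *
        (Real.sqrt (∑ q ∈ V, R q) * Real.sqrt (∑ r ∈ W, R' r))) +
      ((4 * Λ * T + 2 * Λ) * L^2 * (Td * (KH 1 0 eps1 * T^(1-2*eps1)) + C * Td^(-(6/1000):ℝ)) *
        Real.exp ((1/2-eps1) * (-(N*c) + 3 * (∑ p ∈ O, 1/(p:ℝ)) + 3 * ∑ p ∈ O', 1/(p:ℝ))) *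
        ((∑ q ∈ V, mu O' R q) * (∑ r ∈ W, mu O R' r))^(1/2+eps1))) := by
  classical
  obtain ⟨C, c0, hC1, hc0, hC⟩ := deepB
  refine ⟨C, c0, hC1, hc0, ?_⟩
  intro c1 hc1 hc10
  obtain ⟨T0, hT01, hT0⟩ := hC c1 hc1 hc10
  refine ⟨T0, hT01, ?_⟩
  intro T Td X k₀ δ Λ L J J' N G O O' V W R R' a b γ γ' F c hTd hX hG hk hδ hJ hJ' hL hO hO' hV hW ha hb
    hΛ hTΛ hT hLV hLW hVt hWt hc hF hgen
  have hOp : ∀ p ∈ O, p.Prime := fun p hp => (hO p hp).1
  have hOp' : ∀ p ∈ O', p.Prime := fun p hp => (hO' p hp).1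
  have he1 : eps1 = 1/1000 := rfl
  have hTd0 : 0 < Td := by linarith
  -- trivial case
  rcases V.eq_empty_or_nonempty with rfl | ⟨v0, hv0⟩
  · simp
    have h0 : (0:ℝ)^(1/2+eps1) = 0 := Real.zero_rpow (by rw [he1]; norm_num)
    norm_num at h0 ⊢
    rw [h0]; simp
  rcases W.eq_empty_or_nonempty with rfl | ⟨w0, hw0⟩
  · simp
    have h0 : (0:ℝ)^(1/2+eps1) = 0 := Real.zero_rpow (by rw [he1]; norm_num)
    norm_num at h0 ⊢
    rw [h0]; simp
  have hPpos : ∀ v ∈ V, 0 < (a v).P := by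
    intro v hv
    have h1 := (ha v hv).1
    exact Nat.pos_of_dvd_of_pos h1.hP h1.hq
  have hPpos' : ∀ v ∈ W, 0 < (b v).P := by
    intro v hv
    have h1 := (hb v hv).1
    exact Nat.pos_of_dvd_of_pos h1.hP h1.hq
  have hJJ1 : (1:ℝ) ≤ (J:ℝ) * J' := by
    have h1 : (1:ℝ) ≤ J := by exact_mod_cast hJ
    have h2 : (1:ℝ) ≤ J' := by exact_mod_cast hJ'
    nlinarith
  have hΛJ : (J:ℝ) * J' ≤ Λ := by
    have h1 := hΛ v0 hv0 w0 hw0
    have h2 : (1:ℝ) ≤ ((a v0).P.lcm (b w0).P : ℕ) := by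
      exact_mod_cast Nat.lcm_pos (hPpos v0 hv0) (hPpos' w0 hw0)
    nlinarith
  have hΛ1 : 1 ≤ Λ := hJJ1.trans hΛJ
  set K2 : ℝ := 4 * Λ * T + 2 * Λ with hK2
  have hK20 : 0 ≤ K2 := by positivity
  set D : ℕ × ℕ → ℝ := Dc O O' R R' with hDdef
  have hDD : ∀ e ∈ V ×ˢ W, Equi588.DD (a e.1) (b e.2) = D e := by
    intro e he
    have h := Finset.mem_product.1 he
    have h1 := ha _ h.1
    have h2 := hb _ h.2
    unfold Equi588.DD
    rw [h1.2.1, h1.2.2.1, h2.2.1, h2.2.2.1, hDdef, max_comm]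
    unfold Dc cof
    rw [Nat.gcd_comm (uu O e.2)]
  have hDpos : ∀ e ∈ V ×ˢ W, 0 < D e := by
    intro e he
    have h := Finset.mem_product.1 he
    rw [hDdef]
    unfold Dc
    apply lt_max_of_lt_left
    apply mul_pos
    · have := uu_pos hOp (hW _ h.2).1
      exact_mod_cast Deg709.cof_pos this _
    · exact div_pos (hV _ h.1).2 (al_pos hOp' _)
  have halR : ∀ w ∈ V, al O' w * Rc O' R w = R w := by
    intro w _
    unfold Rc
    rw [mul_div_cancel₀ _ (al_pos hOp' w).ne']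
  have halR' : ∀ w ∈ W, al O w * Rc O R' w = R' w := by
    intro w _
    unfold Rc
    rw [mul_div_cancel₀ _ (al_pos hOp w).ne']
  -- bound for `D ≤ T`
  have hsmall : ∀ e ∈ V ×ˢ W, D e ≤ T → F e ≤ K2 * ((R e.1 * R' e.2) / D e) := by
    intro e he hDT
    have h := Finset.mem_product.1 he
    have h1 := ha _ h.1
    have h2 := hb _ h.2
    have hD0 := hDpos e he
    have hp := pair_le_aux (a := a e.1) (b := b e.2) h1.1 h2.1
    rw [hDD e he] at hp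
    have hr1 := h1.1.hr
    have hr2 := h2.1.hr
    have m1 := SI_m_le h1.1
    have m2 := SI_m_le h2.1
    have hm : (a e.1).m * (b e.2).m ≤ 4 * Λ * T * ((a e.1).r * (b e.2).r / D e) := by
      have h3 : (a e.1).m * (b e.2).m ≤ (2 * J * (a e.1).r) * (2 * J' * (b e.2).r) :=
        mul_le_mul m1 m2 h2.1.m_nonneg (by positivity)
      have h4 : (2 * J * (a e.1).r) * (2 * J' * (b e.2).r) = 4 * ((J:ℝ) * J') * ((a e.1).r * (b e.2).r) := by
        ring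
      have h5 : (a e.1).r * (b e.2).r ≤ T * ((a e.1).r * (b e.2).r / D e) := by
        rw [← mul_div_assoc, le_div_iff₀ hD0, mul_comm T]
        exact mul_le_mul_of_nonneg_left hDT (by positivity)
      calc (a e.1).m * (b e.2).m ≤ 4 * ((J:ℝ) * J') * ((a e.1).r * (b e.2).r) := by rw [← h4]; exact h3
        _ ≤ 4 * Λ * (T * ((a e.1).r * (b e.2).r / D e)) := by
            apply mul_le_mul _ h5 (by positivity) (by positivity)
            linarith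
        _ = _ := by ring
    have hl : 2 * ((a e.1).r * (b e.2).r / D e) * ((((a e.1).P.lcm (b e.2).P : ℕ) : ℝ) * ((J:ℝ) * J'))
        ≤ 2 * Λ * ((a e.1).r * (b e.2).r / D e) := by
      have h6 := hΛ _ h.1 _ h.2
      have h7 : 0 ≤ 2 * ((a e.1).r * (b e.2).r / D e) := by positivity
      calc _ ≤ 2 * ((a e.1).r * (b e.2).r / D e) * Λ := mul_le_mul_of_nonneg_left h6 h7
        _ = _ := by ring
    have hI : Tour104.I (fun x => (a e.1).f x * (b e.2).f x) ≤ K2 * ((a e.1).r * (b e.2).r / D e) := by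
      rw [hK2, add_mul]; linarith
    have hab : 0 ≤ al O' e.1 * al O e.2 := mul_nonneg (al_nonneg _ _) (al_nonneg _ _)
    refine (hF e he).trans ((mul_le_mul_of_nonneg_left hI hab).trans (le_of_eq ?_))
    rw [h1.2.2.1, h2.2.2.1]
    calc al O' e.1 * al O e.2 * (K2 * (Rc O' R e.1 * Rc O R' e.2 / D e))
        = K2 * (((al O' e.1 * Rc O' R e.1) * (al O e.2 * Rc O R' e.2)) / D e) := by ring
      _ = _ := by rw [halR _ h.1, halR' _ h.2]
  -- the four classes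
  set P := V ×ˢ W with hP
  set E1 := P.filter (fun e => T < D e) with hE1
  set E2 := P.filter (fun e => ¬ T < D e) with hE2
  set EA := E2.filter (fun e => CaseA N O O' e) with hEA
  set EB := E2.filter (fun e => ¬ CaseA N O O' e) with hEB
  set EM := EB.filter (fun e => 1/Td < D e) with hEM
  set ED := EB.filter (fun e => ¬ 1/Td < D e) with hED
  have hsplit : ∑ e ∈ P, F e = ∑ e ∈ E1, F e + (∑ e ∈ EA, F e + (∑ e ∈ EM, F e + ∑ e ∈ ED, F e)) := by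
    rw [hEM, hED, Finset.sum_filter_add_sum_filter_not, hEA, hEB, Finset.sum_filter_add_sum_filter_not,
      hE1, hE2, Finset.sum_filter_add_sum_filter_not]
  have hE2P : ∀ e ∈ E2, e ∈ P ∧ D e ≤ T := fun e he =>
    ⟨(Finset.mem_filter.1 he).1, not_lt.1 (Finset.mem_filter.1 he).2⟩
  have hEAP : ∀ e ∈ EA, e ∈ E2 := fun e he => (Finset.mem_filter.1 he).1
  have hEBP : ∀ e ∈ EB, e ∈ E2 := fun e he => (Finset.mem_filter.1 he).1
  have hEMP : ∀ e ∈ EM, e ∈ EB := fun e he => (Finset.mem_filter.1 he).1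
  have hEDP : ∀ e ∈ ED, e ∈ EB := fun e he => (Finset.mem_filter.1 he).1
  have bound1 : ∑ e ∈ E1, F e ≤
      (1 + δ) * ((∑ w ∈ V, al O' w * (a w).m) * (∑ w ∈ W, al O w * (b w).m)) := by
    calc ∑ e ∈ E1, F e ≤ ∑ e ∈ E1, (1 + δ) * ((al O' e.1 * (a e.1).m) * (al O e.2 * (b e.2).m)) := by
          apply Finset.sum_le_sum
          intro e he
          have he' := Finset.mem_filter.1 he
          have h := Finset.mem_product.1 he'.1
          have h1 := ha _ h.1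
          have h2 := hb _ h.2
          have h3 := pair_large_aux (a := a e.1) (b := b e.2) h1.1 h2.1 hk hδ h1.2.2.2 h2.2.2.2 (by
            rw [hDD e he'.1]
            refine le_trans ?_ (hTΛ.trans he'.2.le)
            exact div_le_div_of_nonneg_right (hΛ _ h.1 _ h.2) (by positivity))
          have hab : 0 ≤ al O' e.1 * al O e.2 := mul_nonneg (al_nonneg _ _) (al_nonneg _ _)
          refine (hF e he'.1).trans ((mul_le_mul_of_nonneg_left h3 hab).trans (le_of_eq ?_))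
          ring
      _ ≤ ∑ e ∈ P, (1 + δ) * ((al O' e.1 * (a e.1).m) * (al O e.2 * (b e.2).m)) := by
          apply Finset.sum_le_sum_of_subset_of_nonneg (Finset.filter_subset _ _)
          intro e he _
          have h := Finset.mem_product.1 he
          have h1 := (ha _ h.1).1.m_nonneg
          have h2 := (hb _ h.2).1.m_nonneg
          have h3 := al_nonneg O' e.1
          have h4 := al_nonneg O e.2
          positivity
      _ = _ := by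
          rw [← Finset.mul_sum, Finset.sum_mul_sum, ← Finset.sum_product']
  have boundA := caseA_sum (E := EA) (K := K2) (F := F) hO hO' hV hW
    (fun e he => (hE2P e (hEAP e he)).1) (fun e he => (Finset.mem_filter.1 he).2) hc hK20
    (fun e he => hsmall e (hE2P e (hEAP e he)).1 (hE2P e (hEAP e he)).2)
  have hc0' : ∀ q ∈ V, (0:ℝ) ≤ ∑ p ∈ O'.filter (fun p => ¬ p ∣ q), 1/(p:ℝ) := fun q _ =>
    Finset.sum_nonneg fun p _ => by positivity
  have hRR : ∀ e ∈ P, R e.1 * R' e.2 ≤ L^2 * (mu O' R e.1 * mu O R' e.2) := by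
    intro e he
    have h := Finset.mem_product.1 he
    have h1 := hLV _ h.1
    have h2 := hLW _ h.2
    have h3 := (hW _ h.2).2
    have h4 : 0 ≤ mu O' R e.1 := mu_nonneg (hV _ h.1).2.le
    calc R e.1 * R' e.2 ≤ (L * mu O' R e.1) * (L * mu O R' e.2) :=
          mul_le_mul h1 h2 h3.le (by positivity)
      _ = _ := by ring
  have boundM := mid (ε := eps1) (by rw [he1]; norm_num) (by rw [he1]; norm_num) (N := N) (O := O) (O' := O')
    (V := V) (W := W) (E := EM) (R := R) (R' := R') (c := c) (c' := 0) (T := T) (K := K2 * L^2 * Td) (F := F)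
    hO hO' (fun w hw => (hV w hw).1) (fun w hw => (hW w hw).1) (fun w hw => (hV w hw).2.le)
    (fun w hw => (hW w hw).2.le) (fun e he => (hE2P e (hEBP e (hEMP e he))).1) hc hc0' hT (by positivity)
    (fun e he => (le_max_right _ _).trans (hE2P e (hEBP e (hEMP e he))).2)
    (fun e he => (le_max_left _ _).trans (hE2P e (hEBP e (hEMP e he))).2)
    (by
      intro e he
      have heP := hE2P e (hEBP e (hEMP e he))
      have h1 := hsmall e heP.1 heP.2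
      have h2 := (Finset.mem_filter.1 he).2
      have h3 := hDpos e heP.1
      have h := Finset.mem_product.1 heP.1
      have h5 : (R e.1 * R' e.2) / D e ≤ Td * (R e.1 * R' e.2) := by
        have h6 : 1 / D e ≤ Td := by
          rw [div_le_iff₀ h3]
          rw [div_lt_iff₀ hTd0] at h2
          linarith
        have h7 : 0 ≤ R e.1 * R' e.2 := mul_nonneg (hV _ h.1).2.le (hW _ h.2).2.le
        calc (R e.1 * R' e.2) / D e = (1 / D e) * (R e.1 * R' e.2) := by ring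
          _ ≤ _ := mul_le_mul_of_nonneg_right h6 h7
      calc F e ≤ K2 * ((R e.1 * R' e.2) / D e) := h1
        _ ≤ K2 * (Td * (L^2 * (mu O' R e.1 * mu O R' e.2))) := by
            apply mul_le_mul_of_nonneg_left _ hK20
            exact h5.trans (mul_le_mul_of_nonneg_left (hRR e heP.1) hTd0.le)
        _ = _ := by ring)
  have boundD := hT0 Td X (K2 * L^2) N G O O' V W ED R R' γ γ' F c 0 hTd hX (by positivity) hG hO hO' hV hW
    hVt hWt (fun e he => (hE2P e (hEBP e (hEDP e he))).1) hc hc0'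
    (fun e he => not_lt.1 (Finset.mem_filter.1 he).2)
    (by
      intro e he
      have heP := hE2P e (hEBP e (hEDP e he))
      have h1 := hsmall e heP.1 heP.2
      have h3 := hDpos e heP.1
      calc F e ≤ K2 * ((R e.1 * R' e.2) / D e) := h1
        _ ≤ K2 * ((L^2 * (mu O' R e.1 * mu O R' e.2)) / D e) :=
            mul_le_mul_of_nonneg_left (div_le_div_of_nonneg_right (hRR e heP.1) h3.le) hK20
        _ = K2 * L^2 * ((mu O' R e.1 * mu O R' e.2) / D e) := by ring)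
    (by
      intro e he t ht h1 h2 h3
      exact hgen e (hE2P e (hEBP e (hEDP e he))).1 (Finset.mem_filter.1 (hEDP e he)).2 t ht h1 h2 h3)
  rw [mul_zero, neg_zero, zero_add] at boundM boundD
  rw [hsplit]
  set X1 := Real.exp ((1/2-eps1) * (-(N*c) + 3 * (∑ p ∈ O, 1/(p:ℝ)) + 3 * ∑ p ∈ O', 1/(p:ℝ))) with hX1
  set Y1 := ((∑ q ∈ V, mu O' R q) * (∑ r ∈ W, mu O R' r))^(1/2+eps1) with hY1
  have hfin : K2 * L^2 * (Td * (KH 1 0 eps1 * T^(1-2*eps1)) + C * Td^(-(6/1000):ℝ)) * X1 * Y1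
      = K2 * L^2 * Td * (KH 1 0 eps1 * T^(1-2*eps1)) * X1 * Y1 + C * (K2 * L^2) * Td^(-(6/1000):ℝ) * X1 * Y1 := by
    ring
  rw [hfin]
  linarith

end Crest.Agent.R4.StopAsm709
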