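import Mathlib
import Crest.Agent.R4.StopAsm709

/-!
R4 (S0004), helper709, module E: the STOP estimate, general form. Only the crude bound
`F e ≤ K2 R R' / D` for `D ≤ T` is used; the pairs with `D > T` stay as a sum (`stop_core`), and are bounded in
`high_D` with an additional error `Z` (464 #13986: affected part of the multipliers).
-/

set_option autoImplicit false
open Finset

namespace Crest.Agent.R4.StopAsm709
open Crest.Agent.R4.HVW560 Crest.Agent.R4.HVWX793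
open Crest.Agent.R4.Schur709 Crest.Agent.R4.StopHvw709
open Crest.Agent.R4.Equi588 (SI)
open Crest.Agent.R4.X734 (Lo)
open Crest.Agent.R4.LF9 (sp rp sp_mul_rp sp_pos rp_pos sp_dvd rp_dvd sp_prime rp_prime)

lemma Dc_pos {N : ℕ} {O O' : Finset ℕ} {R R' : ℕ → ℝ} (hO : ∀ p ∈ O, p.Prime ∧ N ≤ p)
    (hO' : ∀ p ∈ O', p.Prime ∧ N ≤ p) {e : ℕ × ℕ} (h1 : 0 < R e.1) (h2 : 0 < e.2) :
    0 < Dc O O' R R' e := by
  have hOp : ∀ p ∈ O, p.Prime := fun p hp => (hO p hp).1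
  have hOp' : ∀ p ∈ O', p.Prime := fun p hp => (hO' p hp).1
  unfold Dc
  apply lt_max_of_lt_left
  apply mul_pos
  · have := uu_pos hOp h2
    exact_mod_cast Deg709.cof_pos this _
  · exact div_pos h1 (al_pos hOp' _)

open Crest.Agent.R4.ClsT223 Crest.Agent.R4.ClsS Crest.Agent.R4.ClsB in
/-- **STOP, general form**: everything with `D ≤ T`. -/
theorem stop_core : ∃ C c0 : ℝ, 1 ≤ C ∧ 0 < c0 ∧ ∀ c1 : ℝ, 0 < c1 → c1 ≤ c0 → ∃ T0 : ℝ, 1 ≤ T0 ∧
    ∀ (T Td X K2 L : ℝ) (N G : ℕ) (O O' V W : Finset ℕ) (R R' : ℕ → ℝ)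
    (γ γ' : Finset ℕ → ℝ) (F : ℕ × ℕ → ℝ) (c c' : ℝ),
    T0 ≤ Td → X ≤ Real.exp (Td^c1) → 0 < G → 0 ≤ K2 → 0 < T →
    (∀ p ∈ O, p.Prime ∧ N ≤ p) → (∀ p ∈ O', p.Prime ∧ N ≤ p) →
    (∀ w ∈ V, 0 < w ∧ 0 < R w) → (∀ w ∈ W, 0 < w ∧ 0 < R' w) →
    (∀ w ∈ V, R w ≤ L * mu O' R w) → (∀ w ∈ W, R' w ≤ L * mu O R' w) →
    (∀ z : ℝ, X ≤ z → ∀ w ∈ V, Tame z G (uu O' w)) → (∀ z : ℝ, X ≤ z → ∀ w ∈ W, Tame z G (uu O w)) →
    (∀ r ∈ W, c ≤ ∑ p ∈ O.filter (fun p => ¬ p ∣ r), 1/(p:ℝ)) →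
    (∀ q ∈ V, c' ≤ ∑ p ∈ O'.filter (fun p => ¬ p ∣ q), 1/(p:ℝ)) → 0 ≤ c' →
    (∀ e ∈ V ×ˢ W, Dc O O' R R' e ≤ T → F e ≤ K2 * ((R e.1 * R' e.2) / Dc O O' R R' e)) →
    (∀ e ∈ V ×ˢ W, ¬ CaseA N O O' e → ∀ t : ℝ, Td ≤ t → 1/(2*t) < Dc O O' R R' e →
      Dc O O' R R' e ≤ 1/t → 0 < F e →
      Gen2 (γ (miss O' e.1)) (γ' (miss O e.2)) t (cof (uu O' e.1) (uu O e.2))
        (cof (uu O e.2) (uu O' e.1)) (Rc O' R e.1) (Rc O R' e.2)) →
    ∑ e ∈ V ×ˢ W, F e ≤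
      ∑ e ∈ (V ×ˢ W).filter (fun e => T < Dc O O' R R' e), F e +
      (K2 * (Real.exp (16 * Real.sqrt N) *
        Real.exp ((-(N * c) + 3 * ∑ p ∈ O, 1/(p:ℝ) + 3 * ∑ p ∈ O', 1/(p:ℝ))/2) *
        (Real.sqrt (∑ q ∈ V, R q) * Real.sqrt (∑ r ∈ W, R' r))) +
      (K2 * L^2 * (Td * (KH 1 0 eps1 * T^(1-2*eps1)) + C * Td^(-(6/1000):ℝ)) *
        Real.exp ((1/2-eps1) * (-(N*c) + 3 * (∑ p ∈ O, 1/(p:ℝ)) + (-(N*c') + 3 * ∑ p ∈ O', 1/(p:ℝ)))) *
        ((∑ q ∈ V, mu O' R q) * (∑ r ∈ W, mu O R' r))^(1/2+eps1))) := by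
  classical
  obtain ⟨C, c0, hC1, hc0, hC⟩ := deepB
  refine ⟨C, c0, hC1, hc0, ?_⟩
  intro c1 hc1 hc10
  obtain ⟨T0, hT01, hT0⟩ := hC c1 hc1 hc10
  refine ⟨T0, hT01, ?_⟩
  intro T Td X K2 L N G O O' V W R R' γ γ' F c c' hTd hX hG hK20 hT hO hO' hV hW
    hLV hLW hVt hWt hc hc' hc'0 hsmall hgen
  have hOp : ∀ p ∈ O, p.Prime := fun p hp => (hO p hp).1
  have hOp' : ∀ p ∈ O', p.Prime := fun p hp => (hO' p hp).1
  have he1 : eps1 = 1/1000 := rfl
  have hTd0 : 0 < Td := by linarith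
  set D : ℕ × ℕ → ℝ := Dc O O' R R' with hDdef
  have hDpos : ∀ e ∈ V ×ˢ W, 0 < D e := by
    intro e he
    have h := Finset.mem_product.1 he
    exact Dc_pos hO hO' (hV _ h.1).2 (hW _ h.2).1
  set P := V ×ˢ W with hP
  set E1 := P.filter (fun e => T < D e) with hE1
  set E2 := P.filter (fun e => ¬ T < D e) with hE2
  set EA := E2.filter (fun e => CaseA N O O' e) with hEA
  set EB := E2.filter (fun e => ¬ CaseA N O O' e) with hEB
  set EM := EB.filter (fun e => 1/Td < D e) with hEM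
  set ED := EB.filter (fun e => ¬ 1/Td < D e) with hED
  have hsplit : ∑ e ∈ P, F e = ∑ e ∈ E1, F e + (∑ e ∈ EA, F e + (∑ e ∈ EM, F e + ∑ e ∈ ED, F e)) := by
    rw [hEM, hED, Finset.sum_filter_add_sum_filter_not, hEA, hEB, Finset.sum_filter_add_sum_filter_not,
      hE1, hE2, Finset.sum_filter_add_sum_filter_not]
  have hE2P : ∀ e ∈ E2, e ∈ P ∧ D e ≤ T := fun e he =>
    ⟨(Finset.mem_filter.1 he).1, not_lt.1 (Finset.mem_filter.1 he).2⟩
  have hEAP : ∀ e ∈ EA, e ∈ E2 := fun e he => (Finset.mem_filter.1 he).1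
  have hEBP : ∀ e ∈ EB, e ∈ E2 := fun e he => (Finset.mem_filter.1 he).1
  have hEMP : ∀ e ∈ EM, e ∈ EB := fun e he => (Finset.mem_filter.1 he).1
  have hEDP : ∀ e ∈ ED, e ∈ EB := fun e he => (Finset.mem_filter.1 he).1
  have boundA := caseA_sum (E := EA) (K := K2) (F := F) hO hO' hV hW
    (fun e he => (hE2P e (hEAP e he)).1) (fun e he => (Finset.mem_filter.1 he).2) hc hK20
    (fun e he => hsmall e (hE2P e (hEAP e he)).1 (hE2P e (hEAP e he)).2)
  have hRR : ∀ e ∈ P, R e.1 * R' e.2 ≤ L^2 * (mu O' R e.1 * mu O R' e.2) := by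
    intro e he
    have h := Finset.mem_product.1 he
    have h1 := hLV _ h.1
    have h2 := hLW _ h.2
    have h3 := (hW _ h.2).2
    have h4 : 0 ≤ mu O' R e.1 := mu_nonneg (hV _ h.1).2.le
    have h5 : 0 ≤ L * mu O' R e.1 := (hV _ h.1).2.le.trans h1
    calc R e.1 * R' e.2 ≤ (L * mu O' R e.1) * (L * mu O R' e.2) :=
          mul_le_mul h1 h2 h3.le h5
      _ = _ := by ring
  have boundM := mid (ε := eps1) (by rw [he1]; norm_num) (by rw [he1]; norm_num) (N := N) (O := O) (O' := O')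
    (V := V) (W := W) (E := EM) (R := R) (R' := R') (c := c) (c' := c') (T := T) (K := K2 * L^2 * Td) (F := F)
    hO hO' (fun w hw => (hV w hw).1) (fun w hw => (hW w hw).1) (fun w hw => (hV w hw).2.le)
    (fun w hw => (hW w hw).2.le) (fun e he => (hE2P e (hEBP e (hEMP e he))).1) hc hc' hT (by positivity)
    (fun e he => (le_max_right _ _).trans (hE2P e (hEBP e (hEMP e he))).2)
    (fun e he => (le_max_left _ _).trans (hE2P e (hEBP e (hEMP e he))).2)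
    (by
      intro e he
      have heP := hE2P e (hEBP e (hEMP e he))
      have h1 := hsmall e heP.1 heP.2
      have h2 := (Finset.mem_filter.1 he).2
      have h3 := hDpos e heP.1
      have h := Finset.mem_product.1 heP.1
      have h5 : (R e.1 * R' e.2) / D e ≤ Td * (R e.1 * R' e.2) := by
        have h6 : 1 / D e ≤ Td := by
          rw [div_le_iff₀ h3]
          rw [div_lt_iff₀ hTd0] at h2
          linarith
        have h7 : 0 ≤ R e.1 * R' e.2 := mul_nonneg (hV _ h.1).2.le (hW _ h.2).2.le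
        calc (R e.1 * R' e.2) / D e = (1 / D e) * (R e.1 * R' e.2) := by ring
          _ ≤ _ := mul_le_mul_of_nonneg_right h6 h7
      calc F e ≤ K2 * ((R e.1 * R' e.2) / D e) := h1
        _ ≤ K2 * (Td * (L^2 * (mu O' R e.1 * mu O R' e.2))) := by
            apply mul_le_mul_of_nonneg_left _ hK20
            exact h5.trans (mul_le_mul_of_nonneg_left (hRR e heP.1) hTd0.le)
        _ = _ := by ring)
  have boundD := hT0 Td X (K2 * L^2) N G O O' V W ED R R' γ γ' F c c' hTd hX (by positivity) hG hO hO' hV hW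
    hVt hWt (fun e he => (hE2P e (hEBP e (hEDP e he))).1) hc hc'
    (fun e he => not_lt.1 (Finset.mem_filter.1 he).2)
    (by
      intro e he
      have heP := hE2P e (hEBP e (hEDP e he))
      have h1 := hsmall e heP.1 heP.2
      have h3 := hDpos e heP.1
      calc F e ≤ K2 * ((R e.1 * R' e.2) / D e) := h1
        _ ≤ K2 * ((L^2 * (mu O' R e.1 * mu O R' e.2)) / D e) :=
            mul_le_mul_of_nonneg_left (div_le_div_of_nonneg_right (hRR e heP.1) h3.le) hK20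
        _ = K2 * L^2 * ((mu O' R e.1 * mu O R' e.2) / D e) := by ring)
    (by
      intro e he t ht h1 h2 h3
      exact hgen e (hE2P e (hEBP e (hEDP e he))).1 (Finset.mem_filter.1 (hEDP e he)).2 t ht h1 h2 h3)
  rw [hsplit]
  set X1 := Real.exp ((1/2-eps1) * (-(N*c) + 3 * (∑ p ∈ O, 1/(p:ℝ)) + (-(N*c') + 3 * ∑ p ∈ O', 1/(p:ℝ)))) with hX1
  set Y1 := ((∑ q ∈ V, mu O' R q) * (∑ r ∈ W, mu O R' r))^(1/2+eps1) with hY1
  have hfin : K2 * L^2 * (Td * (KH 1 0 eps1 * T^(1-2*eps1)) + C * Td^(-(6/1000):ℝ)) * X1 * Y1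
      = K2 * L^2 * Td * (KH 1 0 eps1 * T^(1-2*eps1)) * X1 * Y1 + C * (K2 * L^2) * Td^(-(6/1000):ℝ) * X1 * Y1 := by
    ring
  rw [hfin]
  linarith

/-- **high `D`** with an affected part `Z`: `a`, `b` = step items bounding the periodic parts. -/
theorem high_D {J J' N : ℕ} {O O' V W : Finset ℕ} {R R' : ℕ → ℝ} {a b : ℕ → SI}
    {F Z : ℕ × ℕ → ℝ} {k₀ δ Λ T : ℝ} (hk : 0 < k₀) (hδ : 0 < δ)
    (hO : ∀ p ∈ O, p.Prime ∧ N ≤ p) (hO' : ∀ p ∈ O', p.Prime ∧ N ≤ p)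
    (ha : ∀ w ∈ V, (a w).Ok J ∧ (a w).q = uu O' w ∧ (a w).r = Rc O' R w ∧ k₀ * (2 * (a w).r) ≤ (a w).m)
    (hb : ∀ w ∈ W, (b w).Ok J' ∧ (b w).q = uu O w ∧ (b w).r = Rc O R' w ∧ k₀ * (2 * (b w).r) ≤ (b w).m)
    (hΛ : ∀ v ∈ V, ∀ w ∈ W, (((a v).P.lcm (b w).P : ℕ) : ℝ) * ((J : ℝ) * J') ≤ Λ)
    (hT : Λ / (2 * δ * k₀^2) ≤ T)
    (hF : ∀ e ∈ V ×ˢ W, T < Dc O O' R R' e →
      F e ≤ al O' e.1 * al O e.2 * Tour104.I (fun x => (a e.1).f x * (b e.2).f x) + Z e) :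
    ∑ e ∈ (V ×ˢ W).filter (fun e => T < Dc O O' R R' e), F e ≤
      (1 + δ) * ((∑ w ∈ V, al O' w * (a w).m) * (∑ w ∈ W, al O w * (b w).m)) +
      ∑ e ∈ (V ×ˢ W).filter (fun e => T < Dc O O' R R' e), Z e := by
  classical
  have hDD : ∀ e ∈ V ×ˢ W, Equi588.DD (a e.1) (b e.2) = Dc O O' R R' e := by
    intro e he
    have h := Finset.mem_product.1 he
    have h1 := ha _ h.1
    have h2 := hb _ h.2
    unfold Equi588.DD
    rw [h1.2.1, h1.2.2.1, h2.2.1, h2.2.2.1, max_comm]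
    unfold Dc cof
    rw [Nat.gcd_comm (uu O e.2)]
  calc ∑ e ∈ (V ×ˢ W).filter (fun e => T < Dc O O' R R' e), F e
      ≤ ∑ e ∈ (V ×ˢ W).filter (fun e => T < Dc O O' R R' e),
          ((1 + δ) * ((al O' e.1 * (a e.1).m) * (al O e.2 * (b e.2).m)) + Z e) := by
        apply Finset.sum_le_sum
        intro e he
        have he' := Finset.mem_filter.1 he
        have h := Finset.mem_product.1 he'.1
        have h1 := ha _ h.1
        have h2 := hb _ h.2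
        have h3 := pair_large_aux (a := a e.1) (b := b e.2) h1.1 h2.1 hk hδ h1.2.2.2 h2.2.2.2 (by
          rw [hDD e he'.1]
          refine le_trans ?_ (hT.trans he'.2.le)
          exact div_le_div_of_nonneg_right (hΛ _ h.1 _ h.2) (by positivity))
        have hab : 0 ≤ al O' e.1 * al O e.2 := mul_nonneg (al_nonneg _ _) (al_nonneg _ _)
        have h4 := hF e he'.1 he'.2
        have h5 := mul_le_mul_of_nonneg_left h3 hab
        calc F e ≤ _ := h4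
          _ ≤ al O' e.1 * al O e.2 * ((1 + δ) * ((a e.1).m * (b e.2).m)) + Z e := by linarith
          _ = _ := by ring
    _ ≤ _ := by
        rw [Finset.sum_add_distrib]
        gcongr
        calc ∑ e ∈ (V ×ˢ W).filter (fun e => T < Dc O O' R R' e),
              (1 + δ) * ((al O' e.1 * (a e.1).m) * (al O e.2 * (b e.2).m))
            ≤ ∑ e ∈ V ×ˢ W, (1 + δ) * ((al O' e.1 * (a e.1).m) * (al O e.2 * (b e.2).m)) := by
              apply Finset.sum_le_sum_of_subset_of_nonneg (Finset.filter_subset _ _)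
              intro e he _
              have h := Finset.mem_product.1 he
              have h1 := (ha _ h.1).1.m_nonneg
              have h2 := (hb _ h.2).1.m_nonneg
              have h3 := al_nonneg O' e.1
              have h4 := al_nonneg O e.2
              positivity
          _ = _ := by rw [← Finset.mul_sum, Finset.sum_mul_sum, ← Finset.sum_product']

end Crest.Agent.R4.StopAsm709
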