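import Mathlib
import Crest.Agent.R4.StopCore709

/-!
R4 (S0004), helper709, module E: the STOP estimate, second form: dyadic HVW down to `D = 2^{-n}`, below that the
alternative (`deepT`, parametrised), one-partner pairs (`match_sum`), case A (`caseA_sum`), the rest stays as a sum.
-/

set_option autoImplicit false
open Finset

namespace Crest.Agent.R4.StopAsm709
open Crest.Agent.R4.HVW560 Crest.Agent.R4.HVWX793
open Crest.Agent.R4.Schur709 Crest.Agent.R4.StopHvw709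
open Crest.Agent.R4.X734 (Lo)
open Crest.Agent.R4.LF9 (sp rp sp_mul_rp sp_pos rp_pos sp_dvd rp_dvd sp_prime rp_prime)

/-! ### dyadic middle range -/

theorem mid_dyadic {ε : ℝ} (hε : 0 < ε) (hε4 : ε ≤ 1/4) {N : ℕ} {O O' V W : Finset ℕ}
    {R R' : ℕ → ℝ} (hO : ∀ p ∈ O, p.Prime ∧ N ≤ p) (hO' : ∀ p ∈ O', p.Prime ∧ N ≤ p)
    (hV : ∀ w ∈ V, 0 < w ∧ 0 < R w) (hW : ∀ w ∈ W, 0 < w ∧ 0 < R' w) {c c' : ℝ}
    (hc : ∀ r ∈ W, c ≤ ∑ p ∈ O.filter (fun p => ¬ p ∣ r), 1/(p:ℝ))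
    (hc' : ∀ q ∈ V, c' ≤ ∑ p ∈ O'.filter (fun p => ¬ p ∣ q), 1/(p:ℝ))
    {K : ℝ} (hK : 0 ≤ K) {F : ℕ × ℕ → ℝ} (n : ℕ) : ∀ E : Finset (ℕ × ℕ), E ⊆ V ×ˢ W →
    (∀ e ∈ E, Dc O O' R R' e ≤ 1) → (∀ e ∈ E, (1/2:ℝ)^n < Dc O O' R R' e) →
    (∀ e ∈ E, F e ≤ K * ((mu O' R e.1 * mu O R' e.2) / Dc O O' R R' e)) →
    ∑ e ∈ E, F e ≤ n * (2 * K * KH 1 0 ε * (2:ℝ)^(2*ε*n)) *
      (Real.exp ((1/2-ε) * (-(N*c) + 3 * (∑ p ∈ O, 1/(p:ℝ)) + (-(N*c') + 3 * ∑ p ∈ O', 1/(p:ℝ)))) *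
      ((∑ q ∈ V, mu O' R q) * (∑ r ∈ W, mu O R' r))^(1/2+ε)) := by
  classical
  set Z := Real.exp ((1/2-ε) * (-(N*c) + 3 * (∑ p ∈ O, 1/(p:ℝ)) + (-(N*c') + 3 * ∑ p ∈ O', 1/(p:ℝ)))) *
      ((∑ q ∈ V, mu O' R q) * (∑ r ∈ W, mu O R' r))^(1/2+ε) with hZ
  have hKH := (KH_pos 1 0 ε).le
  have hmu : ∀ q ∈ V, 0 ≤ mu O' R q := fun q hq => mu_nonneg (hV q hq).2.le
  have hmu' : ∀ q ∈ W, 0 ≤ mu O R' q := fun q hq => mu_nonneg (hW q hq).2.le
  have hZ0 : 0 ≤ Z := by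
    apply mul_nonneg (Real.exp_nonneg _)
    apply Real.rpow_nonneg
    exact mul_nonneg (Finset.sum_nonneg hmu) (Finset.sum_nonneg hmu')
  induction n with
  | zero =>
    intro E hE h1 h2 _
    have : E = ∅ := by
      rw [Finset.eq_empty_iff_forall_notMem]
      intro e he
      have a := h1 e he
      have b := h2 e he
      simp at b
      linarith
    rw [this]; simp
  | succ n ih =>
    intro E hE h1 h2 hF
    set E1 := E.filter (fun e => (1/2:ℝ)^n < Dc O O' R R' e) with hE1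
    set E2 := E.filter (fun e => ¬ (1/2:ℝ)^n < Dc O O' R R' e) with hE2
    have hsplit : ∑ e ∈ E, F e = ∑ e ∈ E1, F e + ∑ e ∈ E2, F e := by
      rw [hE1, hE2, Finset.sum_filter_add_sum_filter_not]
    have s1 : ∀ e ∈ E1, e ∈ E := fun e he => (Finset.mem_filter.1 he).1
    have s2 : ∀ e ∈ E2, e ∈ E := fun e he => (Finset.mem_filter.1 he).1
    have b1 := ih E1 (fun e he => hE (s1 e he)) (fun e he => h1 e (s1 e he))
      (fun e he => (Finset.mem_filter.1 he).2) (fun e he => hF e (s1 e he))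
    have h2n : (0:ℝ) < (1/2:ℝ)^n := by positivity
    have b2 := mid hε hε4 (N := N) (O := O) (O' := O') (V := V) (W := W) (E := E2) (R := R) (R' := R')
      (c := c) (c' := c') (T := (1/2:ℝ)^n) (K := K * 2^(n+1)) (F := F) hO hO' (fun w hw => (hV w hw).1)
      (fun w hw => (hW w hw).1) (fun w hw => (hV w hw).2.le) (fun w hw => (hW w hw).2.le)
      (fun e he => hE (s2 e he)) hc hc' h2n (by positivity)
      (fun e he => (le_max_right _ _).trans (not_lt.1 (Finset.mem_filter.1 he).2))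
      (fun e he => (le_max_left _ _).trans (not_lt.1 (Finset.mem_filter.1 he).2))
      (by
        intro e he
        have h3 := h2 e (s2 e he)
        have h4 : (0:ℝ) < (1/2:ℝ)^(n+1) := by positivity
        have h5 : 0 < Dc O O' R R' e := h4.trans h3
        have h := Finset.mem_product.1 (hE (s2 e he))
        have h6 : 0 ≤ mu O' R e.1 * mu O R' e.2 := mul_nonneg (hmu _ h.1) (hmu' _ h.2)
        refine (hF e (s2 e he)).trans ?_
        rw [mul_assoc]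
        apply mul_le_mul_of_nonneg_left _ hK
        rw [div_le_iff₀ h5]
        have h7 : 1 ≤ 2^(n+1) * Dc O O' R R' e := by
          have h8 : (2:ℝ)^(n+1) * (1/2:ℝ)^(n+1) = 1 := by rw [← mul_pow]; norm_num
          have h9 : (0:ℝ) < 2^(n+1) := by positivity
          nlinarith [mul_lt_mul_of_pos_left h3 h9]
        calc mu O' R e.1 * mu O R' e.2 = (mu O' R e.1 * mu O R' e.2) * 1 := (mul_one _).symm
          _ ≤ (mu O' R e.1 * mu O R' e.2) * (2^(n+1) * Dc O O' R R' e) :=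
              mul_le_mul_of_nonneg_left h7 h6
          _ = _ := by ring)
    have e1 : (2:ℝ)^(n+1) * ((1/2:ℝ)^n)^(1-2*ε) = 2 * (2:ℝ)^(2*ε*n) := by
      have h2 : (0:ℝ) < 2 := by norm_num
      have a1 : ((1/2:ℝ)^n) = (2:ℝ)^(-(n:ℝ)) := by
        rw [Real.rpow_neg h2.le, Real.rpow_natCast, one_div, inv_pow]
      rw [a1, ← Real.rpow_mul h2.le]
      have a2 : (2:ℝ)^(n+1) = 2 * (2:ℝ)^((n:ℝ)) := by rw [Real.rpow_natCast, pow_succ]; ring
      rw [a2, mul_assoc, ← Real.rpow_add h2]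
      congr 2
      ring
    have hb2 : ∑ e ∈ E2, F e ≤ (2 * K * KH 1 0 ε * (2:ℝ)^(2*ε*n)) * Z := by
      refine b2.trans (le_of_eq ?_)
      have e2 : K * 2^(n+1) * (KH 1 0 ε * ((1/2:ℝ)^n)^(1-2*ε)) = 2 * K * KH 1 0 ε * (2:ℝ)^(2*ε*n) := by
        calc K * 2^(n+1) * (KH 1 0 ε * ((1/2:ℝ)^n)^(1-2*ε))
            = K * KH 1 0 ε * (2^(n+1) * ((1/2:ℝ)^n)^(1-2*ε)) := by ring
          _ = _ := by rw [e1]; ring
      rw [e2, mul_assoc]
    have hmono : (2:ℝ)^(2*ε*n) ≤ (2:ℝ)^(2*ε*((n+1 : ℕ):ℝ)) := by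
      apply Real.rpow_le_rpow_of_exponent_le (by norm_num)
      push_cast
      nlinarith
    have hq : (2 * K * KH 1 0 ε * (2:ℝ)^(2*ε*n)) ≤ (2 * K * KH 1 0 ε * (2:ℝ)^(2*ε*((n+1 : ℕ):ℝ))) :=
      mul_le_mul_of_nonneg_left hmono (by positivity)
    rw [hsplit]
    calc ∑ e ∈ E1, F e + ∑ e ∈ E2, F e
        ≤ n * (2 * K * KH 1 0 ε * (2:ℝ)^(2*ε*n)) * Z + (2 * K * KH 1 0 ε * (2:ℝ)^(2*ε*n)) * Z :=
          add_le_add b1 hb2
      _ = ((n:ℝ) + 1) * ((2 * K * KH 1 0 ε * (2:ℝ)^(2*ε*n)) * Z) := by ring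
      _ ≤ ((n:ℝ) + 1) * ((2 * K * KH 1 0 ε * (2:ℝ)^(2*ε*((n+1 : ℕ):ℝ))) * Z) := by
          apply mul_le_mul_of_nonneg_left _ (by positivity)
          exact mul_le_mul_of_nonneg_right hq hZ0
      _ = _ := by push_cast; ring

/-! ### one partner per group -/

lemma RR_div_le {N : ℕ} {O O' : Finset ℕ} {R R' : ℕ → ℝ} (hO : ∀ p ∈ O, p.Prime ∧ N ≤ p)
    (hO' : ∀ p ∈ O', p.Prime ∧ N ≤ p) {e : ℕ × ℕ} (h1 : 0 < e.1) (h2 : 0 < e.2) (hr : 0 < R e.1)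
    (hr' : 0 < R' e.2) :
    R e.1 * R' e.2 / Dc O O' R R' e ≤ Real.sqrt (R e.1 * al O' e.1) * Real.sqrt (R' e.2 * al O e.2) := by
  have hOp : ∀ p ∈ O, p.Prime := fun p hp => (hO p hp).1
  have hOp' : ∀ p ∈ O', p.Prime := fun p hp => (hO' p hp).1
  have hx : (1:ℝ) ≤ ((cof (uu O' e.1) (uu O e.2) : ℕ) : ℝ) := by
    exact_mod_cast Deg709.cof_pos (uu_pos hOp' h1) _
  have hy : (1:ℝ) ≤ ((cof (uu O e.2) (uu O' e.1) : ℕ) : ℝ) := by
    exact_mod_cast Deg709.cof_pos (uu_pos hOp h2) _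
  have ha := al_pos hOp e.2
  have hb := al_pos hOp' e.1
  set x : ℝ := ((cof (uu O' e.1) (uu O e.2) : ℕ) : ℝ) with hxd
  set y : ℝ := ((cof (uu O e.2) (uu O' e.1) : ℕ) : ℝ) with hyd
  set a := al O e.2 with had
  set b := al O' e.1 with hbd
  have hD : Dc O O' R R' e = max (y * (R e.1 / b)) (x * (R' e.2 / a)) := rfl
  have hD1 : Real.sqrt ((R e.1 / b) * (R' e.2 / a)) ≤ Dc O O' R R' e := by
    rw [hD]
    apply Real.sqrt_le_iff.2
    have p1 : 0 < R e.1 / b := by positivity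
    have p2 : 0 < R' e.2 / a := by positivity
    constructor
    · exact le_max_of_le_left (by positivity)
    · rw [sq]
      apply mul_le_mul _ _ p2.le (le_max_of_le_left (by positivity))
      · exact le_max_of_le_left (by nlinarith)
      · exact le_max_of_le_right (by nlinarith)
  have hs0 : 0 < Real.sqrt ((R e.1 / b) * (R' e.2 / a)) := Real.sqrt_pos.2 (by positivity)
  calc R e.1 * R' e.2 / Dc O O' R R' e
      ≤ R e.1 * R' e.2 / Real.sqrt ((R e.1 / b) * (R' e.2 / a)) :=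
        div_le_div_of_nonneg_left (by positivity) hs0 hD1
    _ = Real.sqrt (R e.1 * b) * Real.sqrt (R' e.2 * a) := by
        rw [div_eq_iff hs0.ne', ← Real.sqrt_mul (by positivity), ← Real.sqrt_mul (by positivity)]
        have e1 : R e.1 * R' e.2 = Real.sqrt ((R e.1 * R' e.2)^2) := (Real.sqrt_sq (by positivity)).symm
        rw [e1]
        congr 1
        field_simp

/-- pairs with at most one partner in each group -/
theorem match_sum {N : ℕ} {O O' V W : Finset ℕ} {E : Finset (ℕ × ℕ)}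
    {R R' : ℕ → ℝ} (hO : ∀ p ∈ O, p.Prime ∧ N ≤ p) (hO' : ∀ p ∈ O', p.Prime ∧ N ≤ p)
    (hV : ∀ w ∈ V, 0 < w ∧ 0 < R w) (hW : ∀ w ∈ W, 0 < w ∧ 0 < R' w) (hE : E ⊆ V ×ˢ W) {c c' : ℝ}
    (hc : ∀ r ∈ W, c ≤ ∑ p ∈ O.filter (fun p => ¬ p ∣ r), 1/(p:ℝ))
    (hc' : ∀ q ∈ V, c' ≤ ∑ p ∈ O'.filter (fun p => ¬ p ∣ q), 1/(p:ℝ))
    (hm1 : ∀ e ∈ E, ∀ f ∈ E, miss O e.2 = miss O f.2 → e.1 = f.1 → e.2 = f.2)
    (hm2 : ∀ e ∈ E, ∀ f ∈ E, miss O' e.1 = miss O' f.1 → e.2 = f.2 → e.1 = f.1)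
    {K : ℝ} (hK : 0 ≤ K) {F : ℕ × ℕ → ℝ}
    (hF : ∀ e ∈ E, F e ≤ K * ((R e.1 * R' e.2) / Dc O O' R R' e)) :
    ∑ e ∈ E, F e ≤ K *
      Real.exp ((1/2) * (-(N*c) + 3 * (∑ p ∈ O, 1/(p:ℝ)) + (-(N*c') + 3 * ∑ p ∈ O', 1/(p:ℝ)))) *
      ((∑ q ∈ V, R q) * (∑ r ∈ W, R' r))^(1/2:ℝ) := by
  classical
  have hOp : ∀ p ∈ O, p.Prime := fun p hp => (hO p hp).1
  have hOp' : ∀ p ∈ O', p.Prime := fun p hp => (hO' p hp).1
  apply group_sum (α := 1/2) (β := 1/2) (by norm_num) (by norm_num) (by norm_num)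
    (fun p hp => ⟨(hO p hp).1.pos, (hO p hp).2⟩) (fun p hp => ⟨(hO' p hp).1.pos, (hO' p hp).2⟩) hE
    (fun q hq => (hV q hq).2.le) (fun q hq => (hW q hq).2.le) hK hc hc'
  intro S hS S' hS'
  rw [filter_eq_Eg]
  have ha : 0 < ∏ p ∈ S, (1/(p:ℝ)) := Finset.prod_pos fun p hp => by
    have := (hOp p (hS hp)).pos; positivity
  have hb : 0 < ∏ p ∈ S', (1/(p:ℝ)) := Finset.prod_pos fun p hp => by
    have := (hOp' p (hS' hp)).pos; positivity
  set a := ∏ p ∈ S, (1/(p:ℝ)) with had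
  set b := ∏ p ∈ S', (1/(p:ℝ)) with hbd
  have hEgE : ∀ e ∈ Eg O O' E S S', e ∈ E := fun e he => (Finset.mem_filter.1 he).1
  have hsubg := Eg_sub (O := O) (O' := O') hE S S'
  have i1 : ∑ e ∈ Eg O O' E S S', R e.1 ≤ ∑ q ∈ Vg O' V S', R q := by
    have hinj : Set.InjOn Prod.fst (Eg O O' E S S' : Set (ℕ × ℕ)) := by
      intro e he f hf hef
      have he' := Finset.mem_filter.1 (Finset.mem_coe.1 he)
      have hf' := Finset.mem_filter.1 (Finset.mem_coe.1 hf)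
      exact Prod.ext hef (hm1 e he'.1 f hf'.1 (he'.2.1.trans hf'.2.1.symm) hef)
    rw [← Finset.sum_image (f := R) (g := Prod.fst) hinj]
    apply Finset.sum_le_sum_of_subset_of_nonneg
    · intro q hq
      obtain ⟨e, he, rfl⟩ := Finset.mem_image.1 hq
      exact (Finset.mem_product.1 (hsubg he)).1
    · intro q hq _
      exact (hV q (Finset.mem_filter.1 hq).1).2.le
  have i2 : ∑ e ∈ Eg O O' E S S', R' e.2 ≤ ∑ q ∈ Vg O W S, R' q := by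
    have hinj : Set.InjOn Prod.snd (Eg O O' E S S' : Set (ℕ × ℕ)) := by
      intro e he f hf hef
      have he' := Finset.mem_filter.1 (Finset.mem_coe.1 he)
      have hf' := Finset.mem_filter.1 (Finset.mem_coe.1 hf)
      exact Prod.ext (hm2 e he'.1 f hf'.1 (he'.2.2.trans hf'.2.2.symm) hef) hef
    rw [← Finset.sum_image (f := R') (g := Prod.snd) hinj]
    apply Finset.sum_le_sum_of_subset_of_nonneg
    · intro q hq
      obtain ⟨e, he, rfl⟩ := Finset.mem_image.1 hq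
      exact (Finset.mem_product.1 (hsubg he)).2
    · intro q hq _
      exact (hW q (Finset.mem_filter.1 hq).1).2.le
  have hn1 : ∀ e ∈ Eg O O' E S S', 0 ≤ R e.1 := fun e he =>
    (hV _ (Finset.mem_product.1 (hE (hEgE e he))).1).2.le
  have hn2 : ∀ e ∈ Eg O O' E S S', 0 ≤ R' e.2 := fun e he =>
    (hW _ (Finset.mem_product.1 (hE (hEgE e he))).2).2.le
  set x := ∑ q ∈ Vg O' V S', R q with hx
  set y := ∑ r ∈ Vg O W S, R' r with hy
  have hx0 : 0 ≤ x := Finset.sum_nonneg fun q hq => (hV q (Finset.mem_filter.1 hq).1).2.le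
  have hy0 : 0 ≤ y := Finset.sum_nonneg fun q hq => (hW q (Finset.mem_filter.1 hq).1).2.le
  calc ∑ e ∈ Eg O O' E S S', F e
      ≤ ∑ e ∈ Eg O O' E S S', K * (Real.sqrt (a * b) * (Real.sqrt (R e.1 * R' e.2))) := by
        apply Finset.sum_le_sum
        intro e he
        have he' := Finset.mem_filter.1 he
        have h := Finset.mem_product.1 (hE he'.1)
        refine (hF e he'.1).trans ?_
        apply mul_le_mul_of_nonneg_left _ hK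
        refine (RR_div_le hO hO' (hV _ h.1).1 (hW _ h.2).1 (hV _ h.1).2 (hW _ h.2).2).trans (le_of_eq ?_)
        rw [al_eq he'.2.1, al_eq he'.2.2]
        rw [← Real.sqrt_mul (mul_nonneg (hn1 e he) hb.le), ← Real.sqrt_mul (mul_nonneg ha.le hb.le)]
        congr 1
        ring
    _ = K * (Real.sqrt (a * b) * ∑ e ∈ Eg O O' E S S', Real.sqrt (R e.1 * R' e.2)) := by
        rw [← Finset.mul_sum, ← Finset.mul_sum]
    _ ≤ K * (Real.sqrt (a * b) * (Real.sqrt x * Real.sqrt y)) := by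
        apply mul_le_mul_of_nonneg_left _ hK
        apply mul_le_mul_of_nonneg_left _ (Real.sqrt_nonneg _)
        refine (sqrt_cs (Eg O O' E S S') (fun e => R e.1) (fun e => R' e.2) hn1 hn2).trans ?_
        exact mul_le_mul (Real.sqrt_le_sqrt i1) (Real.sqrt_le_sqrt i2) (Real.sqrt_nonneg _)
          (Real.sqrt_nonneg _)
    _ = _ := by
        rw [Real.sqrt_mul ha.le]
        simp only [Real.sqrt_eq_rpow]
        show K * (a^(1/2:ℝ) * b^(1/2:ℝ) * (x^(1/2:ℝ) * y^(1/2:ℝ)))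
          = K * ((a^(1/2:ℝ) * y^(1/2:ℝ)) * (b^(1/2:ℝ) * x^(1/2:ℝ)))
        ring

/-! ### the two-target estimate as a parameter -/

open Crest.Agent.R4.LF11 Crest.Agent.R4.LF11s Crest.Agent.R4.ClsS in
/-- a two-target estimate for all deep scales, with alternative `Gen` and exponent `κ` -/
def DeepHyp (Gen : ℝ → ℝ → ℝ → ℕ → ℕ → ℝ → ℝ → Prop) (κ : ℝ) : Prop :=
  ∃ C c0 : ℝ, 1 ≤ C ∧ 0 < c0 ∧ ∀ c1 : ℝ, 0 < c1 → c1 ≤ c0 → ∃ T0 : ℝ, 1 ≤ T0 ∧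
    ∀ (θ θ' T X K : ℝ) (V W : Finset ℕ) (E : Finset (ℕ × ℕ)) (ψ ψ' : ℕ → ℝ) (T1 : ℕ × ℕ → ℝ) (G : ℕ),
    T0 ≤ T → X ≤ Real.exp (T^c1) → 0 ≤ K → 0 < G →
    (∀ v ∈ V, 0 < v ∧ 0 < ψ v) → (∀ w ∈ W, 0 < w ∧ 0 < ψ' w) → XTame X G V → XTame X G W →
    E ⊆ V ×ˢ W → (∀ e ∈ E, DD ψ ψ' e ≤ 1/T) →
    (∀ e ∈ E, T1 e ≤ K * (ew ψ ψ' e / DD ψ ψ' e)) →
    (∀ e ∈ E, ∀ t : ℝ, T ≤ t → 1/(2*t) < DD ψ ψ' e → DD ψ ψ' e ≤ 1/t → 0 < T1 e →
      Gen θ θ' t (cof e.1 e.2) (cof e.2 e.1) (ψ e.1) (ψ' e.2)) →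
    ∑ e ∈ E, T1 e ≤ C * K * T^(-κ) *
      ((∑ v ∈ V, wt ψ v) * (∑ w ∈ W, wt ψ' w))^(1/2+eps1)

theorem deepHyp_Gen2 : DeepHyp Crest.Agent.R4.ClsT223.Gen2 (6/1000) := Crest.Agent.R4.ClsT223.deepT

open Crest.Agent.R4.ClsT223 Crest.Agent.R4.ClsS Crest.Agent.R4.ClsB in
/-- **deep pairs** for any two-target estimate `DeepHyp Gen κ`, on the averaged circle -/
theorem deepB_of {Gen : ℝ → ℝ → ℝ → ℕ → ℕ → ℝ → ℝ → Prop} {κ : ℝ} (hGen : DeepHyp Gen κ) : ∃ C c0 : ℝ, 1 ≤ C ∧ 0 < c0 ∧ ∀ c1 : ℝ, 0 < c1 → c1 ≤ c0 → ∃ T0 : ℝ, 1 ≤ T0 ∧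
    ∀ (T X K : ℝ) (N G : ℕ) (O O' V W : Finset ℕ) (E : Finset (ℕ × ℕ)) (R R' : ℕ → ℝ)
    (γ γ' : Finset ℕ → ℝ) (F : ℕ × ℕ → ℝ) (c c' : ℝ),
    T0 ≤ T → X ≤ Real.exp (T^c1) → 0 ≤ K → 0 < G →
    (∀ p ∈ O, p.Prime ∧ N ≤ p) → (∀ p ∈ O', p.Prime ∧ N ≤ p) →
    (∀ w ∈ V, 0 < w ∧ 0 < R w) → (∀ w ∈ W, 0 < w ∧ 0 < R' w) →
    (∀ z : ℝ, X ≤ z → ∀ w ∈ V, Tame z G (uu O' w)) → (∀ z : ℝ, X ≤ z → ∀ w ∈ W, Tame z G (uu O w)) →
    E ⊆ V ×ˢ W →
    (∀ r ∈ W, c ≤ ∑ p ∈ O.filter (fun p => ¬ p ∣ r), 1/(p:ℝ)) →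
    (∀ q ∈ V, c' ≤ ∑ p ∈ O'.filter (fun p => ¬ p ∣ q), 1/(p:ℝ)) →
    (∀ e ∈ E, Dc O O' R R' e ≤ 1/T) →
    (∀ e ∈ E, F e ≤ K * ((mu O' R e.1 * mu O R' e.2) / Dc O O' R R' e)) →
    (∀ e ∈ E, ∀ t : ℝ, T ≤ t → 1/(2*t) < Dc O O' R R' e → Dc O O' R R' e ≤ 1/t → 0 < F e →
      Gen (γ (miss O' e.1)) (γ' (miss O e.2)) t (cof (uu O' e.1) (uu O e.2))
        (cof (uu O e.2) (uu O' e.1)) (Rc O' R e.1) (Rc O R' e.2)) →
    ∑ e ∈ E, F e ≤ C * K * T^(-κ) *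
      Real.exp ((1/2-eps1) * (-(N*c) + 3 * (∑ p ∈ O, 1/(p:ℝ)) + (-(N*c') + 3 * ∑ p ∈ O', 1/(p:ℝ)))) *
      ((∑ q ∈ V, mu O' R q) * (∑ r ∈ W, mu O R' r))^(1/2+eps1) := by
  classical
  obtain ⟨C, c0, hC1, hc0, hC⟩ := hGen
  refine ⟨C, c0, hC1, hc0, ?_⟩
  intro c1 hc1 hc10
  obtain ⟨T0, hT01, hT0⟩ := hC c1 hc1 hc10
  refine ⟨T0, hT01, ?_⟩
  intro T X K N G O O' V W E R R' γ γ' F c c' hT hX hK hG hO hO' hV hW hVt hWt hE hc hc' hD hF hgen
  have hOp : ∀ p ∈ O, p.Prime := fun p hp => (hO p hp).1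
  have hOp' : ∀ p ∈ O', p.Prime := fun p hp => (hO' p hp).1
  have hTp : 0 < T := by linarith
  have he1 : eps1 = 1/1000 := rfl
  apply group_sum (α := 1/2-eps1) (β := 1/2+eps1) (by rw [he1]; norm_num) (by rw [he1]; norm_num) (by ring)
    (fun p hp => ⟨(hO p hp).1.pos, (hO p hp).2⟩) (fun p hp => ⟨(hO' p hp).1.pos, (hO' p hp).2⟩) hE
    (fun q hq => mu_nonneg (hV q hq).2.le) (fun q hq => mu_nonneg (hW q hq).2.le) (by positivity) hc hc'
  intro S hS S' hS'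
  rw [filter_eq_Eg]
  have ha : 0 < ∏ p ∈ S, (1/(p:ℝ)) := Finset.prod_pos fun p hp => by
    have := (hOp p (hS hp)).pos; positivity
  have hb : 0 < ∏ p ∈ S', (1/(p:ℝ)) := Finset.prod_pos fun p hp => by
    have := (hOp' p (hS' hp)).pos; positivity
  set a := ∏ p ∈ S, (1/(p:ℝ)) with had
  set b := ∏ p ∈ S', (1/(p:ℝ)) with hbd
  have hinv : ∀ e ∈ Eg O O' E S S', ((∏ p ∈ O' \ S', p) * uu O' e.1, (∏ p ∈ O \ S, p) * uu O e.2) = e := by
    intro e he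
    have he' := Finset.mem_filter.1 he
    rw [← zO_eq he'.2.2, ← zO_eq he'.2.1, uu_mul hOp', uu_mul hOp]
  have hDD : ∀ e ∈ Eg O O' E S S', Crest.Agent.R4.LF11.DD (ψu O' S' R) (ψu O S R') (uu O' e.1, uu O e.2)
      = Dc O O' R R' e := by
    intro e he
    have he' := Finset.mem_filter.1 he
    unfold Crest.Agent.R4.LF11.DD Dc
    show max _ _ = max _ _
    rw [ψu_eq hOp he'.2.1, ψu_eq hOp' he'.2.2]
  have hDpos : ∀ e ∈ Eg O O' E S S', 0 < Dc O O' R R' e := by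
    intro e he
    have he' := Finset.mem_filter.1 he
    have h := Finset.mem_product.1 (hE he'.1)
    unfold Dc
    apply lt_max_of_lt_left
    apply mul_pos
    · have := uu_pos hOp (hW _ h.2).1
      exact_mod_cast Deg709.cof_pos this _
    · exact div_pos (hV _ h.1).2 (al_pos hOp' _)
  have key := hT0 (γ S') (γ' S) T X (K * (a * b)) (Vu O' V S') (Vu O W S) (Eu O O' E S S')
    (ψu O' S' R) (ψu O S R')
    (fun f => F ((∏ p ∈ O' \ S', p) * f.1, (∏ p ∈ O \ S, p) * f.2)) G hT hX (by positivity) hG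
    (by
      intro v hv
      obtain ⟨w, hw, rfl⟩ := Finset.mem_image.1 hv
      have hw' := Finset.mem_filter.1 hw
      refine ⟨uu_pos hOp' (hV w hw'.1).1, ?_⟩
      rw [ψu_eq hOp' hw'.2]
      exact div_pos (hV w hw'.1).2 (al_pos hOp' _))
    (by
      intro v hv
      obtain ⟨w, hw, rfl⟩ := Finset.mem_image.1 hv
      have hw' := Finset.mem_filter.1 hw
      refine ⟨uu_pos hOp (hW w hw'.1).1, ?_⟩
      rw [ψu_eq hOp hw'.2]
      exact div_pos (hW w hw'.1).2 (al_pos hOp _))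
    (by
      intro z hz v hv
      obtain ⟨w, hw, rfl⟩ := Finset.mem_image.1 hv
      exact hVt z hz w (Finset.mem_filter.1 hw).1)
    (by
      intro z hz v hv
      obtain ⟨w, hw, rfl⟩ := Finset.mem_image.1 hv
      exact hWt z hz w (Finset.mem_filter.1 hw).1)
    (Eu_sub hE S S')
    (by
      intro f hf
      obtain ⟨e, he, rfl⟩ := Finset.mem_image.1 hf
      rw [hDD e he]
      exact hD e (Finset.mem_filter.1 he).1)
    (by
      intro f hf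
      obtain ⟨e, he, rfl⟩ := Finset.mem_image.1 hf
      have he' := Finset.mem_filter.1 he
      show F ((∏ p ∈ O' \ S', p) * uu O' e.1, (∏ p ∈ O \ S, p) * uu O e.2) ≤ _
      rw [hDD e he, hinv e he]
      refine (hF e he'.1).trans ?_
      rw [mul_assoc K]
      apply mul_le_mul_of_nonneg_left _ hK
      rw [← mul_div_assoc]
      apply div_le_div_of_nonneg_right _ (hDpos e he).le
      have h := Finset.mem_product.1 (hE he'.1)
      unfold Crest.Agent.R4.LF11.ew wt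
      show _ ≤ (a * b) * ((ψu O' S' R (uu O' e.1) * _) * (ψu O S R' (uu O e.2) * _) * _)
      rw [ψu_eq hOp he'.2.1, ψu_eq hOp' he'.2.2, mu_eq hOp', mu_eq hOp, al_eq he'.2.1, al_eq he'.2.2]
      have f1 := one_le_Af (cof (uu O' e.1) (uu O e.2))
      have f2 := one_le_Af (cof (uu O e.2) (uu O' e.1))
      have f3 : 1 ≤ Af (cof (uu O' e.1) (uu O e.2)) * Af (cof (uu O e.2) (uu O' e.1)) := by nlinarith
      have g1 : 0 ≤ Rc O' R e.1 := div_nonneg (hV _ h.1).2.le (al_nonneg _ _)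
      have g2 : 0 ≤ Rc O R' e.2 := div_nonneg (hW _ h.2).2.le (al_nonneg _ _)
      have g3 : 0 ≤ (a * b) * ((Rc O' R e.1 * ((Nat.totient (uu O' e.1) : ℝ)/(uu O' e.1 : ℕ))) *
          (Rc O R' e.2 * ((Nat.totient (uu O e.2) : ℝ)/(uu O e.2 : ℕ)))) := by positivity
      calc b * (Rc O' R e.1 * ((Nat.totient (uu O' e.1) : ℝ)/(uu O' e.1 : ℕ))) *
            (a * (Rc O R' e.2 * ((Nat.totient (uu O e.2) : ℝ)/(uu O e.2 : ℕ))))
          = ((a * b) * ((Rc O' R e.1 * ((Nat.totient (uu O' e.1) : ℝ)/(uu O' e.1 : ℕ))) *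
          (Rc O R' e.2 * ((Nat.totient (uu O e.2) : ℝ)/(uu O e.2 : ℕ))))) * 1 := by ring
        _ ≤ ((a * b) * ((Rc O' R e.1 * ((Nat.totient (uu O' e.1) : ℝ)/(uu O' e.1 : ℕ))) *
          (Rc O R' e.2 * ((Nat.totient (uu O e.2) : ℝ)/(uu O e.2 : ℕ))))) *
            (Af (cof (uu O' e.1) (uu O e.2)) * Af (cof (uu O e.2) (uu O' e.1))) :=
            mul_le_mul_of_nonneg_left f3 g3
        _ = _ := by ring)
    (by
      intro f hf t ht h1 h2 h3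
      obtain ⟨e, he, rfl⟩ := Finset.mem_image.1 hf
      have he' := Finset.mem_filter.1 he
      rw [hDD e he] at h1 h2
      have h3' : 0 < F e := by rw [← hinv e he]; exact h3
      have h4 := hgen e he'.1 t ht h1 h2 h3'
      show Gen (γ S') (γ' S) t (cof (uu O' e.1) (uu O e.2)) (cof (uu O e.2) (uu O' e.1))
        (ψu O' S' R (uu O' e.1)) (ψu O S R' (uu O e.2))
      rw [ψu_eq hOp he'.2.1, ψu_eq hOp' he'.2.2]
      rw [he'.2.1, he'.2.2] at h4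
      exact h4)
  rw [sum_Eu hOp hOp' hE] at key
  have eF : ∑ e ∈ Eg O O' E S S', F ((∏ p ∈ O' \ S', p) * uu O' e.1, (∏ p ∈ O \ S, p) * uu O e.2)
      = ∑ e ∈ Eg O O' E S S', F e :=
    Finset.sum_congr rfl fun e he => by rw [hinv e he]
  have key2 : ∑ e ∈ Eg O O' E S S', F e ≤ C * (K * (a * b)) * T^(-κ) *
      ((∑ v ∈ Vu O' V S', wt (ψu O' S' R) v) * (∑ w ∈ Vu O W S, wt (ψu O S R') w))^(1/2+eps1) := by
    rw [← eF]; exact key
  set x := ∑ q ∈ Vg O' V S', mu O' R q with hx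
  set y := ∑ r ∈ Vg O W S, mu O R' r with hy
  have hx0 : 0 ≤ x := Finset.sum_nonneg fun q hq => mu_nonneg (hV q (Finset.mem_filter.1 hq).1).2.le
  have hy0 : 0 ≤ y := Finset.sum_nonneg fun q hq => mu_nonneg (hW q (Finset.mem_filter.1 hq).1).2.le
  have ex : ∑ v ∈ Vu O' V S', wt (ψu O' S' R) v = x / b := by
    rw [eq_div_iff hb.ne']; exact sum_Vu hOp' R
  have ey : ∑ v ∈ Vu O W S, wt (ψu O S R') v = y / a := by
    rw [eq_div_iff ha.ne']; exact sum_Vu hOp R'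
  rw [ex, ey] at key2
  refine key2.trans (le_of_eq ?_)
  have h5 := group_alg (α := 1/2-eps1) (β := 1/2+eps1) (K := K) ha hb hx0 hy0 (by ring)
  calc C * (K * (a * b)) * T^(-κ) * (x/b * (y/a))^(1/2+eps1)
      = (C * T^(-κ)) * ((K * (a * b)) * (x/b * (y/a))^(1/2+eps1)) := by ring
    _ = _ := by
        rw [h5]
        show _ = C * K * T^(-κ) * ((a^(1/2-eps1) * y^(1/2+eps1)) * (b^(1/2-eps1) * x^(1/2+eps1)))
        ring



/-! ### the stop, second form -/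

/-- the pairs that are left: not case A, `D ≤ 2^{-n}`, neither `PG` (alternative) nor `PE` (one partner) -/
def Rest (N : ℕ) (O O' : Finset ℕ) (R R' : ℕ → ℝ) (n : ℕ) (PG PE : ℕ × ℕ → Prop) (e : ℕ × ℕ) : Prop :=
  ¬ CaseA N O O' e ∧ Dc O O' R R' e ≤ 1/2^n ∧ ¬ PG e ∧ ¬ PE e

open Classical Crest.Agent.R4.ClsS in
/-- **STOP, second form**. -/
theorem stop_core2 {Gen : ℝ → ℝ → ℝ → ℕ → ℕ → ℝ → ℝ → Prop} {κ : ℝ} (hGen : DeepHyp Gen κ) :
    ∃ C c0 : ℝ, 1 ≤ C ∧ 0 < c0 ∧ ∀ c1 : ℝ, 0 < c1 → c1 ≤ c0 → ∃ T0 : ℝ, 1 ≤ T0 ∧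
    ∀ (T X K2 L : ℝ) (n N G : ℕ) (O O' V W : Finset ℕ) (R R' : ℕ → ℝ)
    (γ γ' : Finset ℕ → ℝ) (F : ℕ × ℕ → ℝ) (c c' : ℝ) (PG PE : ℕ × ℕ → Prop),
    T0 ≤ (2:ℝ)^n → X ≤ Real.exp (((2:ℝ)^n)^c1) → 0 < G → 0 ≤ K2 → 1 ≤ T →
    (∀ p ∈ O, p.Prime ∧ N ≤ p) → (∀ p ∈ O', p.Prime ∧ N ≤ p) →
    (∀ w ∈ V, 0 < w ∧ 0 < R w) → (∀ w ∈ W, 0 < w ∧ 0 < R' w) →
    (∀ w ∈ V, R w ≤ L * mu O' R w) → (∀ w ∈ W, R' w ≤ L * mu O R' w) →
    (∀ z : ℝ, X ≤ z → ∀ w ∈ V, Crest.Agent.R4.ClsB.Tame z G (uu O' w)) →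
    (∀ z : ℝ, X ≤ z → ∀ w ∈ W, Crest.Agent.R4.ClsB.Tame z G (uu O w)) →
    (∀ r ∈ W, c ≤ ∑ p ∈ O.filter (fun p => ¬ p ∣ r), 1/(p:ℝ)) →
    (∀ q ∈ V, c' ≤ ∑ p ∈ O'.filter (fun p => ¬ p ∣ q), 1/(p:ℝ)) →
    (∀ e ∈ V ×ˢ W, Dc O O' R R' e ≤ T → F e ≤ K2 * ((R e.1 * R' e.2) / Dc O O' R R' e)) →
    (∀ e ∈ V ×ˢ W, ¬ CaseA N O O' e → PG e → ∀ t : ℝ, (2:ℝ)^n ≤ t → 1/(2*t) < Dc O O' R R' e →
      Dc O O' R R' e ≤ 1/t → 0 < F e →
      Gen (γ (miss O' e.1)) (γ' (miss O e.2)) t (cof (uu O' e.1) (uu O e.2))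
        (cof (uu O e.2) (uu O' e.1)) (Rc O' R e.1) (Rc O R' e.2)) →
    (∀ e ∈ V ×ˢ W, ∀ f ∈ V ×ˢ W, PE e → PE f → miss O e.2 = miss O f.2 → e.1 = f.1 → e.2 = f.2) →
    (∀ e ∈ V ×ˢ W, ∀ f ∈ V ×ˢ W, PE e → PE f → miss O' e.1 = miss O' f.1 → e.2 = f.2 → e.1 = f.1) →
    ∑ e ∈ V ×ˢ W, F e ≤
      ∑ e ∈ (V ×ˢ W).filter (fun e => T < Dc O O' R R' e), F e +
      K2 * (Real.exp (16 * Real.sqrt N) *
        Real.exp ((-(N * c) + 3 * ∑ p ∈ O, 1/(p:ℝ) + 3 * ∑ p ∈ O', 1/(p:ℝ))/2) *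
        (Real.sqrt (∑ q ∈ V, R q) * Real.sqrt (∑ r ∈ W, R' r))) +
      K2 * L^2 * (KH 1 0 eps1 * T^(1-2*eps1) + n * (2 * KH 1 0 eps1 * (2:ℝ)^(2*eps1*n)) +
        C * ((2:ℝ)^n)^(-κ)) *
        (Real.exp ((1/2-eps1) * (-(N*c) + 3 * (∑ p ∈ O, 1/(p:ℝ)) + (-(N*c') + 3 * ∑ p ∈ O', 1/(p:ℝ)))) *
        ((∑ q ∈ V, mu O' R q) * (∑ r ∈ W, mu O R' r))^(1/2+eps1)) +
      K2 * Real.exp ((1/2) * (-(N*c) + 3 * (∑ p ∈ O, 1/(p:ℝ)) + (-(N*c') + 3 * ∑ p ∈ O', 1/(p:ℝ)))) *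
        ((∑ q ∈ V, R q) * (∑ r ∈ W, R' r))^(1/2:ℝ) +
      ∑ e ∈ (V ×ˢ W).filter (Rest N O O' R R' n PG PE), F e := by
  obtain ⟨C, c0, hC1, hc0, hC⟩ := deepB_of hGen
  refine ⟨C, c0, hC1, hc0, ?_⟩
  intro c1 hc1 hc10
  obtain ⟨T0, hT01, hT0⟩ := hC c1 hc1 hc10
  refine ⟨T0, hT01, ?_⟩
  intro T X K2 L n N G O O' V W R R' γ γ' F c c' PG PE hTn hX hG hK20 hT1 hO hO' hV hW
    hLV hLW hVt hWt hc hc' hsmall hgen hm1 hm2
  have hT : 0 < T := by linarith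
  have he1 : eps1 = 1/1000 := rfl
  have h2n : (0:ℝ) < (2:ℝ)^n := by positivity
  set D : ℕ × ℕ → ℝ := Dc O O' R R' with hDdef
  have hDpos : ∀ e ∈ V ×ˢ W, 0 < D e := by
    intro e he
    have h := Finset.mem_product.1 he
    exact Dc_pos hO hO' (hV _ h.1).2 (hW _ h.2).1
  have hmu : ∀ q ∈ V, 0 ≤ mu O' R q := fun q hq => mu_nonneg (hV q hq).2.le
  have hmu' : ∀ q ∈ W, 0 ≤ mu O R' q := fun q hq => mu_nonneg (hW q hq).2.le
  set P := V ×ˢ W with hP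
  set E1 := P.filter (fun e => T < D e) with hE1
  set E2 := P.filter (fun e => ¬ T < D e) with hE2
  set EA := E2.filter (fun e => CaseA N O O' e) with hEA
  set EB := E2.filter (fun e => ¬ CaseA N O O' e) with hEB
  set EM := EB.filter (fun e => 1 < D e) with hEM
  set EN := EB.filter (fun e => ¬ 1 < D e) with hEN
  set EY := EN.filter (fun e => (1/2:ℝ)^n < D e) with hEY
  set EX := EN.filter (fun e => ¬ (1/2:ℝ)^n < D e) with hEX
  set EG := EX.filter (fun e => PG e) with hEG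
  set EH := EX.filter (fun e => ¬ PG e) with hEH
  set EE := EH.filter (fun e => PE e) with hEE
  set ER := EH.filter (fun e => ¬ PE e) with hER
  have hsplit : ∑ e ∈ P, F e = ∑ e ∈ E1, F e + (∑ e ∈ EA, F e + (∑ e ∈ EM, F e + (∑ e ∈ EY, F e +
      (∑ e ∈ EG, F e + (∑ e ∈ EE, F e + ∑ e ∈ ER, F e))))) := by
    rw [hEE, hER, Finset.sum_filter_add_sum_filter_not, hEG, hEH, Finset.sum_filter_add_sum_filter_not,
      hEY, hEX, Finset.sum_filter_add_sum_filter_not, hEM, hEN, Finset.sum_filter_add_sum_filter_not,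
      hEA, hEB, Finset.sum_filter_add_sum_filter_not, hE1, hE2, Finset.sum_filter_add_sum_filter_not]
  have hE2P : ∀ e ∈ E2, e ∈ P ∧ D e ≤ T := fun e he =>
    ⟨(Finset.mem_filter.1 he).1, not_lt.1 (Finset.mem_filter.1 he).2⟩
  have hEAP : ∀ e ∈ EA, e ∈ E2 := fun e he => (Finset.mem_filter.1 he).1
  have hEBP : ∀ e ∈ EB, e ∈ E2 := fun e he => (Finset.mem_filter.1 he).1
  have hEMP : ∀ e ∈ EM, e ∈ EB := fun e he => (Finset.mem_filter.1 he).1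
  have hENP : ∀ e ∈ EN, e ∈ EB := fun e he => (Finset.mem_filter.1 he).1
  have hEYP : ∀ e ∈ EY, e ∈ EN := fun e he => (Finset.mem_filter.1 he).1
  have hEXP : ∀ e ∈ EX, e ∈ EN := fun e he => (Finset.mem_filter.1 he).1
  have hEGP : ∀ e ∈ EG, e ∈ EX := fun e he => (Finset.mem_filter.1 he).1
  have hEHP : ∀ e ∈ EH, e ∈ EX := fun e he => (Finset.mem_filter.1 he).1
  have hEEP : ∀ e ∈ EE, e ∈ EH := fun e he => (Finset.mem_filter.1 he).1
  have hERP : ∀ e ∈ ER, e ∈ EH := fun e he => (Finset.mem_filter.1 he).1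
  have boundA := caseA_sum (E := EA) (K := K2) (F := F) hO hO' hV hW
    (fun e he => (hE2P e (hEAP e he)).1) (fun e he => (Finset.mem_filter.1 he).2) hc hK20
    (fun e he => hsmall e (hE2P e (hEAP e he)).1 (hE2P e (hEAP e he)).2)
  have hRR : ∀ e ∈ P, R e.1 * R' e.2 ≤ L^2 * (mu O' R e.1 * mu O R' e.2) := by
    intro e he
    have h := Finset.mem_product.1 he
    have h1 := hLV _ h.1
    have h2 := hLW _ h.2
    have h3 := (hW _ h.2).2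
    have h5 : 0 ≤ L * mu O' R e.1 := (hV _ h.1).2.le.trans h1
    calc R e.1 * R' e.2 ≤ (L * mu O' R e.1) * (L * mu O R' e.2) :=
          mul_le_mul h1 h2 h3.le h5
      _ = _ := by ring
  have hFmu : ∀ e ∈ E2, F e ≤ K2 * L^2 * ((mu O' R e.1 * mu O R' e.2) / D e) := by
    intro e he
    have heP := hE2P e he
    calc F e ≤ K2 * ((R e.1 * R' e.2) / D e) := hsmall e heP.1 heP.2
      _ ≤ K2 * ((L^2 * (mu O' R e.1 * mu O R' e.2)) / D e) :=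
          mul_le_mul_of_nonneg_left (div_le_div_of_nonneg_right (hRR e heP.1) (hDpos e heP.1).le) hK20
      _ = K2 * L^2 * ((mu O' R e.1 * mu O R' e.2) / D e) := by ring
  have boundM := mid (ε := eps1) (by rw [he1]; norm_num) (by rw [he1]; norm_num) (N := N) (O := O) (O' := O')
    (V := V) (W := W) (E := EM) (R := R) (R' := R') (c := c) (c' := c') (T := T) (K := K2 * L^2) (F := F)
    hO hO' (fun w hw => (hV w hw).1) (fun w hw => (hW w hw).1) (fun w hw => (hV w hw).2.le)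
    (fun w hw => (hW w hw).2.le) (fun e he => (hE2P e (hEBP e (hEMP e he))).1) hc hc' hT (by positivity)
    (fun e he => (le_max_right _ _).trans (hE2P e (hEBP e (hEMP e he))).2)
    (fun e he => (le_max_left _ _).trans (hE2P e (hEBP e (hEMP e he))).2)
    (by
      intro e he
      have he2 := hEBP e (hEMP e he)
      have heP := hE2P e he2
      have h1 := (Finset.mem_filter.1 he).2
      have h := Finset.mem_product.1 heP.1
      have h6 : 0 ≤ mu O' R e.1 * mu O R' e.2 := mul_nonneg (hmu _ h.1) (hmu' _ h.2)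
      refine (hFmu e he2).trans ?_
      apply mul_le_mul_of_nonneg_left _ (by positivity)
      exact div_le_self h6 h1.le)
  have boundY := mid_dyadic (ε := eps1) (by rw [he1]; norm_num) (by rw [he1]; norm_num) (N := N) hO hO'
    hV hW hc hc' (K := K2 * L^2) (by positivity) (F := F) n EY
    (fun e he => (hE2P e (hEBP e (hENP e (hEYP e he)))).1)
    (fun e he => not_lt.1 (Finset.mem_filter.1 (hEYP e he)).2)
    (fun e he => (Finset.mem_filter.1 he).2)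
    (fun e he => hFmu e (hEBP e (hENP e (hEYP e he))))
  have hpow : (1/2:ℝ)^n = 1/2^n := by rw [div_pow, one_pow]
  have hEXD : ∀ e ∈ EX, D e ≤ 1/2^n := by
    intro e he
    have := not_lt.1 (Finset.mem_filter.1 he).2
    rw [hpow] at this
    exact this
  have boundG := hT0 ((2:ℝ)^n) X (K2 * L^2) N G O O' V W EG R R' γ γ' F c c' hTn hX (by positivity) hG hO hO'
    hV hW hVt hWt (fun e he => (hE2P e (hEBP e (hENP e (hEXP e (hEGP e he))))).1) hc hc'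
    (fun e he => hEXD e (hEGP e he))
    (fun e he => hFmu e (hEBP e (hENP e (hEXP e (hEGP e he)))))
    (by
      intro e he t ht h1 h2 h3
      have heB := hENP e (hEXP e (hEGP e he))
      exact hgen e (hE2P e (hEBP e heB)).1 (Finset.mem_filter.1 heB).2 (Finset.mem_filter.1 he).2
        t ht h1 h2 h3)
  have boundE := match_sum (E := EE) hO hO' hV hW
    (fun e he => (hE2P e (hEBP e (hENP e (hEXP e (hEHP e (hEEP e he)))))).1) hc hc'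
    (by
      intro e he f hf
      exact hm1 e (hE2P e (hEBP e (hENP e (hEXP e (hEHP e (hEEP e he)))))).1 f
        (hE2P f (hEBP f (hENP f (hEXP f (hEHP f (hEEP f hf)))))).1 (Finset.mem_filter.1 he).2
        (Finset.mem_filter.1 hf).2)
    (by
      intro e he f hf
      exact hm2 e (hE2P e (hEBP e (hENP e (hEXP e (hEHP e (hEEP e he)))))).1 f
        (hE2P f (hEBP f (hENP f (hEXP f (hEHP f (hEEP f hf)))))).1 (Finset.mem_filter.1 he).2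
        (Finset.mem_filter.1 hf).2) (K := K2) hK20 (F := F)
    (by
      intro e he
      have h := hE2P e (hEBP e (hENP e (hEXP e (hEHP e (hEEP e he)))))
      exact hsmall e h.1 h.2)
  have eR : ER = P.filter (Rest N O O' R R' n PG PE) := by
    ext e
    constructor
    · intro he
      have h1 := hEHP e (hERP e he)
      have h2 := hEXP e h1
      have h3 := hENP e h2
      have h4 := hEBP e h3
      exact Finset.mem_filter.2 ⟨(hE2P e h4).1, (Finset.mem_filter.1 h3).2, hEXD e h1,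
        (Finset.mem_filter.1 (hERP e he)).2, (Finset.mem_filter.1 he).2⟩
    · intro he
      obtain ⟨h0, h1, h2, h3, h4⟩ := Finset.mem_filter.1 he
      have h2' : D e ≤ 1/2^n := h2
      have h5 : D e ≤ 1 := by
        refine h2'.trans ?_
        rw [div_le_one h2n]
        exact one_le_pow₀ (by norm_num)
      refine Finset.mem_filter.2 ⟨Finset.mem_filter.2 ⟨Finset.mem_filter.2 ⟨Finset.mem_filter.2
        ⟨Finset.mem_filter.2 ⟨Finset.mem_filter.2 ⟨h0, not_lt.2 (h5.trans hT1)⟩, h1⟩, not_lt.2 h5⟩,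
        not_lt.2 (by rw [hpow]; exact h2')⟩, h3⟩, h4⟩
  rw [hsplit, ← eR]
  set X1 := Real.exp ((1/2-eps1) * (-(N*c) + 3 * (∑ p ∈ O, 1/(p:ℝ)) + (-(N*c') + 3 * ∑ p ∈ O', 1/(p:ℝ)))) with hX1
  set Y1 := ((∑ q ∈ V, mu O' R q) * (∑ r ∈ W, mu O R' r))^(1/2+eps1) with hY1
  have hfin : K2 * L^2 * (KH 1 0 eps1 * T^(1-2*eps1) + n * (2 * KH 1 0 eps1 * (2:ℝ)^(2*eps1*n)) +
        C * ((2:ℝ)^n)^(-κ)) * (X1 * Y1)
      = K2 * L^2 * (KH 1 0 eps1 * T^(1-2*eps1)) * X1 * Y1 +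
        (n * (2 * (K2 * L^2) * KH 1 0 eps1 * (2:ℝ)^(2*eps1*n)) * (X1 * Y1) +
        C * (K2 * L^2) * ((2:ℝ)^n)^(-κ) * X1 * Y1) := by
    ring
  rw [hfin]
  linarith

end Crest.Agent.R4.StopAsm709
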