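import Mathlib
import Crest.Agent.R4.StopFin709
import Crest.Agent.R4.AvgItem710

/-!
R4 (S0004), helper709, module E: glue between 710's averaged pairs (`Da`, `rf`, `gcd`) and the stop estimate
(`Dc`, `al`, `zO`): first tree averaged by `M`, `O' = M.primeFactors`; second tree averaged by `M'`,
`O = M'.primeFactors`.
-/

set_option autoImplicit false
open Finset

namespace Crest.Agent.R4.StopAsm709
open Crest.Agent.R4.HVW560 Crest.Agent.R4.Schur709 Crest.Agent.R4.StopHvw709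
open Crest.Agent.R4.AvgItem710 (rf Da Dp Ra Rel)

lemma zO_pf {M : ℕ} (hM : Squarefree M) (w : ℕ) (hw : 0 < w) : zO M.primeFactors w = M.gcd w := by
  have hM0 : M ≠ 0 := hM.ne_zero
  have h1 : M.primeFactors.filter (fun p => p ∣ w) = (M.gcd w).primeFactors := by
    ext p
    simp only [Finset.mem_filter, Nat.mem_primeFactors]
    constructor
    · rintro ⟨⟨hp, hpM, _⟩, hpw⟩
      exact ⟨hp, Nat.dvd_gcd hpM hpw, Nat.gcd_ne_zero_left hM0⟩
    · rintro ⟨hp, hpg, _⟩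
      exact ⟨⟨hp, hpg.trans (Nat.gcd_dvd_left _ _), hM0⟩, hpg.trans (Nat.gcd_dvd_right _ _)⟩
  unfold zO
  rw [h1]
  exact Nat.prod_primeFactors_of_squarefree (hM.squarefree_of_dvd (Nat.gcd_dvd_left _ _))

lemma al_pf {M : ℕ} (hM : Squarefree M) (w : ℕ) (hw : 0 < w) : al M.primeFactors w = 1 / (rf w M : ℕ) := by
  have hM0 : M ≠ 0 := hM.ne_zero
  have hMp : 0 < M := Nat.pos_of_ne_zero hM0
  have h0 : (∏ p ∈ M.primeFactors.filter (fun p => ¬ p ∣ w), p) * zO M.primeFactors w = M := by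
    unfold zO
    rw [mul_comm, Finset.prod_filter_mul_prod_filter_not]
    exact Nat.prod_primeFactors_of_squarefree hM
  rw [zO_pf hM w hw] at h0
  have hg : 0 < M.gcd w := Nat.gcd_pos_of_pos_left _ hMp
  have h2 : ∏ p ∈ M.primeFactors.filter (fun p => ¬ p ∣ w), p = rf w M := by
    unfold rf
    rw [eq_comm]
    apply Nat.div_eq_of_eq_mul_left hg
    exact h0.symm
  unfold al
  rw [← h2, Nat.cast_prod, one_div, ← Finset.prod_inv_distrib]
  exact Finset.prod_congr rfl fun p _ => by rw [one_div]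

lemma uu_pf {M : ℕ} (hM : Squarefree M) (w : ℕ) (hw : 0 < w) : uu M.primeFactors w = w / M.gcd w := by
  unfold uu; rw [zO_pf hM w hw]

lemma Rc_pf {M : ℕ} (hM : Squarefree M) (R : ℕ → ℝ) (w : ℕ) (hw : 0 < w) :
    Rc M.primeFactors R w = (rf w M : ℕ) * R w := by
  unfold Rc
  rw [al_pf hM w hw, div_div_eq_mul_div, div_one, mul_comm]

/-- the scale of the stop estimate is 710's scale of the averaged pair -/
theorem Dc_pf {M M' : ℕ} (hM : Squarefree M) (hM' : Squarefree M') (R R' : ℕ → ℝ) (e : ℕ × ℕ)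
    (h1 : 0 < e.1) (h2 : 0 < e.2) :
    Dc M'.primeFactors M.primeFactors R R' e = Da e.1 M e.2 M' (R e.1) (R' e.2) := by
  unfold Dc Da Dp
  rw [uu_pf hM' _ h2, uu_pf hM _ h1, Rc_pf hM _ _ h1, Rc_pf hM' _ _ h2]

/-- the crude bound of `stop_core2` from 710's `avg_pair_all` (`B = B' = 1`) -/
theorem crude_of_all {M M' : ℕ} (hM : Squarefree M) (hM' : Squarefree M') {R R' : ℕ → ℝ} {e : ℕ × ℕ}
    (h1 : 0 < e.1) (h2 : 0 < e.2) (hr : 0 < R e.1) (hr' : 0 < R' e.2) {F T : ℝ}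
    (hF : F ≤ 4 * (R e.1 * R' e.2) + 2 * (R e.1 * R' e.2 / Da e.1 M e.2 M' (R e.1) (R' e.2)))
    (hD : Dc M'.primeFactors M.primeFactors R R' e ≤ T) :
    F ≤ (4 * T + 2) * ((R e.1 * R' e.2) / Dc M'.primeFactors M.primeFactors R R' e) := by
  have hO : ∀ p ∈ M'.primeFactors, p.Prime ∧ 1 ≤ p := fun p hp =>
    ⟨Nat.prime_of_mem_primeFactors hp, (Nat.prime_of_mem_primeFactors hp).one_le⟩
  have hO' : ∀ p ∈ M.primeFactors, p.Prime ∧ 1 ≤ p := fun p hp =>
    ⟨Nat.prime_of_mem_primeFactors hp, (Nat.prime_of_mem_primeFactors hp).one_le⟩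
  have hD0 : 0 < Dc M'.primeFactors M.primeFactors R R' e := Dc_pos hO hO' hr h2
  rw [← Dc_pf hM hM' R R' e h1 h2] at hF
  set D := Dc M'.primeFactors M.primeFactors R R' e with hDd
  have h3 : R e.1 * R' e.2 ≤ T * ((R e.1 * R' e.2) / D) := by
    rw [← mul_div_assoc, le_div_iff₀ hD0, mul_comm T]
    exact mul_le_mul_of_nonneg_left hD (mul_nonneg hr.le hr'.le)
  nlinarith

end Crest.Agent.R4.StopAsm709
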