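import Mathlib
import Crest.Agent.R4.StopGlue709
import Crest.Agent.R4.AvgSym710

/-!
R4 (S0004), helper579, module F: **deep pairs of a state of the walk** (710's letters), all symbols.

* `deep_state` : for `DeepHyp Gen κ` (e.g. `ClsT2.deepHyp_Gen3`): the item pairs `e` of a state (trees with the
  data `(b, pr, c)`, `(b', pr', c')`, averages `M`, `M'`) with `Da ≤ 1/T` and the alternative `Gen` cost at most
  `C L² T^{-κ} exp(3 Σ 1/p) (x x')^{1/2+eps1}`.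
-/

set_option autoImplicit false
open Finset

namespace Crest.Agent.R4.DeepSt579

open Crest.Agent.R4.HVW560 Crest.Agent.R4.Schur709 Crest.Agent.R4.StopHvw709
open Crest.Agent.R4.StopAsm709 Crest.Agent.R4.AvgItem710
open Crest.Agent.R4.Item758
open Crest.Agent.R4.ClsS (eps1)

/-- `φ(w)/w` -/
noncomputable def tq (w : ℕ) : ℝ := (Nat.totient w : ℝ) / (w : ℕ)

lemma tq_nonneg (w : ℕ) : 0 ≤ tq w := by unfold tq; positivity

lemma tq_le_one (w : ℕ) : tq w ≤ 1 := by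
  unfold tq
  apply div_le_one_of_le₀ _ (Nat.cast_nonneg _)
  exact_mod_cast Nat.totient_le w

lemma tq_prod {w : ℕ} (hw : 0 < w) : tq w = ∏ p ∈ w.primeFactors, (1 - 1 / (p : ℝ)) := by
  unfold tq
  have h := Nat.totient_mul_prod_primeFactors w
  have h2 : ∏ p ∈ w.primeFactors, (1 - 1 / (p : ℝ)) =
      (∏ p ∈ w.primeFactors, ((p : ℝ) - 1)) / ∏ p ∈ w.primeFactors, (p : ℝ) := by
    rw [← Finset.prod_div_distrib]
    refine Finset.prod_congr rfl fun p hp => ?_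
    have := (Nat.prime_of_mem_primeFactors hp).pos
    field_simp
  have h3 : (∏ p ∈ w.primeFactors, ((p : ℝ) - 1)) = ((∏ p ∈ w.primeFactors, (p - 1) : ℕ) : ℝ) := by
    rw [Nat.cast_prod]
    refine Finset.prod_congr rfl fun p hp => ?_
    have := (Nat.prime_of_mem_primeFactors hp).one_le
    push_cast [this]; ring
  have h4 : (∏ p ∈ w.primeFactors, (p : ℝ)) = ((∏ p ∈ w.primeFactors, p : ℕ) : ℝ) := by
    rw [Nat.cast_prod]
  have h5 : (0 : ℝ) < ((∏ p ∈ w.primeFactors, p : ℕ) : ℝ) := by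
    have : 0 < ∏ p ∈ w.primeFactors, p := Finset.prod_pos fun p hp =>
      (Nat.prime_of_mem_primeFactors hp).pos
    exact_mod_cast this
  have hw' : (0 : ℝ) < w := by exact_mod_cast hw
  rw [h2, h3, h4, div_eq_div_iff hw'.ne' h5.ne']
  have h6 : ((Nat.totient w * ∏ p ∈ w.primeFactors, p : ℕ) : ℝ) =
      ((w * ∏ p ∈ w.primeFactors, (p - 1) : ℕ) : ℝ) := by exact_mod_cast h
  push_cast at h6 ⊢
  linarith

lemma tq_mono {u w : ℕ} (h : u ∣ w) (hw : 0 < w) : tq w ≤ tq u := by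
  have hu : 0 < u := Nat.pos_of_dvd_of_pos h hw
  rw [tq_prod hw, tq_prod hu]
  have hsub : u.primeFactors ⊆ w.primeFactors := Nat.primeFactors_mono h hw.ne'
  have hf : ∀ p ∈ w.primeFactors, 0 ≤ 1 - 1 / (p : ℝ) := fun p hp => by
    have h1 : (1 : ℝ) ≤ p := by exact_mod_cast (Nat.prime_of_mem_primeFactors hp).one_le
    have : 1 / (p : ℝ) ≤ 1 := by rw [div_le_one (by linarith)]; exact h1
    linarith
  rw [← Finset.prod_sdiff hsub]
  calc _ ≤ 1 * ∏ p ∈ u.primeFactors, (1 - 1 / (p : ℝ)) := by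
        apply mul_le_mul_of_nonneg_right _ (Finset.prod_nonneg fun p hp => hf p (hsub hp))
        apply Finset.prod_le_one (fun p hp => hf p (Finset.sdiff_subset hp))
        intro p hp
        have : (0 : ℝ) ≤ 1 / (p : ℝ) := by positivity
        linarith
    _ = _ := one_mul _

lemma inv_le_exp {x : ℝ} (h0 : 0 ≤ x) (h1 : x ≤ 1 / 2) : 1 ≤ (1 - x) * Real.exp (2 * x) := by
  have h2 : 1 + 2 * x ≤ Real.exp (2 * x) := by
    have := Real.add_one_le_exp (2 * x)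
    linarith
  nlinarith

/-- removing the primes of `M` costs at most `exp (2 Σ_{p ∣ M} 1/p)` -/
lemma tq_div_le {M w : ℕ} (hM : 0 < M) (hw : 0 < w) :
    tq (w / M.gcd w) ≤ tq w * Real.exp (2 * ∑ p ∈ M.primeFactors, 1 / (p : ℝ)) := by
  set z := M.gcd w with hz
  have hzw : z ∣ w := Nat.gcd_dvd_right _ _
  have hz0 : 0 < z := Nat.gcd_pos_of_pos_left _ hM
  have hu : 0 < w / z := Nat.div_pos (Nat.le_of_dvd hw hzw) hz0
  have hud : w / z ∣ w := Nat.div_dvd_of_dvd hzw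
  rw [tq_prod hw, tq_prod hu]
  have hsub : (w / z).primeFactors ⊆ w.primeFactors := Nat.primeFactors_mono hud hw.ne'
  have hrest : w.primeFactors \ (w / z).primeFactors ⊆ M.primeFactors := by
    intro p hp
    obtain ⟨h1, h2⟩ := Finset.mem_sdiff.1 hp
    obtain ⟨hpp, hpw, _⟩ := Nat.mem_primeFactors.1 h1
    have h3 : p ∣ z * (w / z) := by rw [Nat.mul_div_cancel' hzw]; exact hpw
    rcases (Nat.Prime.dvd_mul hpp).1 h3 with h | h
    · exact Nat.mem_primeFactors.2 ⟨hpp, h.trans (Nat.gcd_dvd_left _ _), hM.ne'⟩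
    · exact absurd (Nat.mem_primeFactors.2 ⟨hpp, h, hu.ne'⟩) h2
  rw [← Finset.prod_sdiff hsub]
  have hf : ∀ p : ℕ, p.Prime → 0 ≤ 1 - 1 / (p : ℝ) := fun p hp => by
    have h1 : (1 : ℝ) ≤ p := by exact_mod_cast hp.one_le
    have : 1 / (p : ℝ) ≤ 1 := by rw [div_le_one (by linarith)]; exact h1
    linarith
  have hB : 0 ≤ ∏ p ∈ (w / z).primeFactors, (1 - 1 / (p : ℝ)) :=
    Finset.prod_nonneg fun p hp => hf p (Nat.prime_of_mem_primeFactors hp)
  have hexp : Real.exp (2 * ∑ p ∈ w.primeFactors \ (w / z).primeFactors, 1 / (p : ℝ)) ≤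
      Real.exp (2 * ∑ p ∈ M.primeFactors, 1 / (p : ℝ)) := by
    apply Real.exp_le_exp.2
    apply mul_le_mul_of_nonneg_left _ (by norm_num)
    exact Finset.sum_le_sum_of_subset_of_nonneg hrest fun p _ _ => by positivity
  have h1 : 1 ≤ (∏ p ∈ w.primeFactors \ (w / z).primeFactors, (1 - 1 / (p : ℝ))) *
      Real.exp (2 * ∑ p ∈ w.primeFactors \ (w / z).primeFactors, 1 / (p : ℝ)) := by
    rw [Finset.mul_sum, Real.exp_sum, ← Finset.prod_mul_distrib]
    have : ∏ p ∈ w.primeFactors \ (w / z).primeFactors, (1 : ℝ) ≤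
        ∏ p ∈ w.primeFactors \ (w / z).primeFactors, (1 - 1 / (p : ℝ)) * Real.exp (2 * (1 / (p : ℝ))) := by
      apply Finset.prod_le_prod (fun _ _ => zero_le_one)
      intro p hp
      have hpp := Nat.prime_of_mem_primeFactors (Finset.sdiff_subset hp)
      apply inv_le_exp (by positivity)
      have h2 : (2 : ℝ) ≤ p := by exact_mod_cast hpp.two_le
      rw [div_le_div_iff₀ (by linarith) (by norm_num)]
      linarith
    rwa [Finset.prod_const_one] at this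
  have h2 : 0 ≤ ∏ p ∈ w.primeFactors \ (w / z).primeFactors, (1 - 1 / (p : ℝ)) :=
    Finset.prod_nonneg fun p hp => hf p (Nat.prime_of_mem_primeFactors (Finset.sdiff_subset hp))
  calc ∏ p ∈ (w / z).primeFactors, (1 - 1 / (p : ℝ))
      = 1 * ∏ p ∈ (w / z).primeFactors, (1 - 1 / (p : ℝ)) := (one_mul _).symm
    _ ≤ ((∏ p ∈ w.primeFactors \ (w / z).primeFactors, (1 - 1 / (p : ℝ))) *
        Real.exp (2 * ∑ p ∈ M.primeFactors, 1 / (p : ℝ))) *
        ∏ p ∈ (w / z).primeFactors, (1 - 1 / (p : ℝ)) := by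
        apply mul_le_mul_of_nonneg_right _ hB
        exact h1.trans (mul_le_mul_of_nonneg_left hexp h2)
    _ = _ := by ring

lemma miss_pf_prod {M : ℕ} (hM : Squarefree M) (w : ℕ) (hw : 0 < w) :
    ∏ p ∈ miss M.primeFactors w, p = rf w M := by
  have hM0 : M ≠ 0 := hM.ne_zero
  have hMp : 0 < M := Nat.pos_of_ne_zero hM0
  have h0 : (∏ p ∈ M.primeFactors.filter (fun p => ¬ p ∣ w), p) * zO M.primeFactors w = M := by
    unfold zO
    rw [mul_comm, Finset.prod_filter_mul_prod_filter_not]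
    exact Nat.prod_primeFactors_of_squarefree hM
  rw [zO_pf hM w hw] at h0
  have hg : 0 < M.gcd w := Nat.gcd_pos_of_pos_left _ hMp
  unfold rf miss
  rw [eq_comm]
  apply Nat.div_eq_of_eq_mul_left hg
  exact h0.symm

section
variable {Λ κι : Type*}

/-- raised radius at a node -/
noncomputable def rd (b c : ℕ) (ρ : ℕ → ℝ) (q : ℕ) : ℝ := (b : ℝ) / c * ρ q

lemma pb_rd (D : Par Λ κι) (ρ : ℕ → ℝ) (M b pr c q M' b' pr' c' q' : ℕ) :
    D.pb ρ M b pr c q M' b' pr' c' q' = pbd ((b : ℝ) / c * D.γ) (rd b c ρ q) (q / pr) M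
      ((b' : ℝ) / c' * D.γ) (rd b' c' ρ q') (q' / pr') M' := rfl

/-- **deep pairs of a state** -/
theorem deep_state {Gen : ℝ → ℝ → ℝ → ℕ → ℕ → ℝ → ℝ → Prop} {κ : ℝ} (hGen : DeepHyp Gen κ) :
    ∃ C c0 : ℝ, 1 ≤ C ∧ 0 < c0 ∧ ∀ c1 : ℝ, 0 < c1 → c1 ≤ c0 → ∃ T0 : ℝ, 1 ≤ T0 ∧
    ∀ (D : Par Λ κι) (ρ : ℕ → ℝ) (T X L : ℝ) (G M b pr c M' b' pr' c' : ℕ) (V W : Finset ℕ)
      (E : Finset (ℕ × ℕ)),
    T0 ≤ T → X ≤ Real.exp (T^c1) → 0 < L → 0 < G → (∀ q, 0 < ρ q) → 0 < b → 0 < c → 0 < b' → 0 < c' →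
    Squarefree M → Squarefree M' →
    (∀ q ∈ V, 0 < q ∧ pr ∣ q) → (∀ q ∈ W, 0 < q ∧ pr' ∣ q) →
    (∀ z : ℝ, X ≤ z → ∀ q ∈ V, ClsB.Tame z G (q / pr / M.gcd (q / pr))) →
    (∀ z : ℝ, X ≤ z → ∀ q ∈ W, ClsB.Tame z G (q / pr' / M'.gcd (q / pr'))) →
    (∀ q ∈ V, 1 / L ≤ tq (q / pr)) → (∀ q ∈ W, 1 / L ≤ tq (q / pr')) →
    E ⊆ V ×ˢ W →
    (∀ e ∈ E, Da (e.1 / pr) M (e.2 / pr') M' (rd b c ρ e.1) (rd b' c' ρ e.2) ≤ 1 / T) →
    (∀ e ∈ E, ∀ t : ℝ, T ≤ t →
      1 / (2*t) < Da (e.1 / pr) M (e.2 / pr') M' (rd b c ρ e.1) (rd b' c' ρ e.2) →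
      Da (e.1 / pr) M (e.2 / pr') M' (rd b c ρ e.1) (rd b' c' ρ e.2) ≤ 1 / t →
      Ra ((b : ℝ) / c * D.γ) (rd b c ρ e.1) (e.1 / pr) M ((b' : ℝ) / c' * D.γ) (rd b' c' ρ e.2)
        (e.2 / pr') M' →
      Gen ((rf (e.1 / pr) M : ℕ) * ((b : ℝ) / c * D.γ)) ((rf (e.2 / pr') M' : ℕ) * ((b' : ℝ) / c' * D.γ)) t
        (cof (e.1 / pr / M.gcd (e.1 / pr)) (e.2 / pr' / M'.gcd (e.2 / pr')))
        (cof (e.2 / pr' / M'.gcd (e.2 / pr')) (e.1 / pr / M.gcd (e.1 / pr)))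
        ((rf (e.1 / pr) M : ℕ) * rd b c ρ e.1) ((rf (e.2 / pr') M' : ℕ) * rd b' c' ρ e.2)) →
    ∑ e ∈ E, D.pb ρ M b pr c e.1 M' b' pr' c' e.2 ≤ C * L^2 * T^(-κ) *
      Real.exp (3 * ((∑ p ∈ M.primeFactors, 1/(p:ℝ)) + ∑ p ∈ M'.primeFactors, 1/(p:ℝ))) *
      ((∑ q ∈ V, rd b c ρ q * tq (q / pr)) * (∑ q ∈ W, rd b' c' ρ q * tq (q / pr')))^(1/2+eps1) := by
  classical
  obtain ⟨C, c0, hC1, hc0, hC⟩ := deepB_of hGen
  refine ⟨2 * C, c0, by linarith, hc0, ?_⟩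
  intro c1 hc1 hc10
  obtain ⟨T0, hT01, hT0⟩ := hC c1 hc1 hc10
  refine ⟨max T0 2, le_max_of_le_left hT01, ?_⟩
  intro D ρ T X L G M b pr c M' b' pr' c' V W E hT hX hL hG hρ hb hc hb' hc' hM hM' hV hW hVt hWt hVL hWL
    hE hD hgen
  have hTT0 : T0 ≤ T := (le_max_left _ _).trans hT
  have hT2 : 2 ≤ T := (le_max_right _ _).trans hT
  have hb0 : (0:ℝ) < b := by exact_mod_cast hb
  have hc0' : (0:ℝ) < c := by exact_mod_cast hc
  have hbb0 : (0:ℝ) < b' := by exact_mod_cast hb'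
  have hcc0 : (0:ℝ) < c' := by exact_mod_cast hc'
  have hR : ∀ q, 0 < rd b c ρ q := fun q => mul_pos (div_pos hb0 hc0') (hρ q)
  have hR' : ∀ q, 0 < rd b' c' ρ q := fun q => mul_pos (div_pos hbb0 hcc0) (hρ q)
  have hMp : 0 < M := Nat.pos_of_ne_zero hM.ne_zero
  have hMp' : 0 < M' := Nat.pos_of_ne_zero hM'.ne_zero
  have hVw : ∀ q ∈ V, 0 < q / pr := fun q hq =>
    Nat.div_pos (Nat.le_of_dvd (hV q hq).1 (hV q hq).2) (Nat.pos_of_dvd_of_pos (hV q hq).2 (hV q hq).1)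
  have hWw : ∀ q ∈ W, 0 < q / pr' := fun q hq =>
    Nat.div_pos (Nat.le_of_dvd (hW q hq).1 (hW q hq).2) (Nat.pos_of_dvd_of_pos (hW q hq).2 (hW q hq).1)
  have hVm : ∀ q ∈ V, pr * (q / pr) = q := fun q hq => Nat.mul_div_cancel' (hV q hq).2
  have hWm : ∀ q ∈ W, pr' * (q / pr') = q := fun q hq => Nat.mul_div_cancel' (hW q hq).2
  set V0 := V.image (fun q => q / pr) with hV0
  set W0 := W.image (fun q => q / pr') with hW0
  set E0 := E.image (fun e => (e.1 / pr, e.2 / pr')) with hE0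
  set O' := M.primeFactors with hO'd
  set O := M'.primeFactors with hOd
  have hO : ∀ p ∈ O, p.Prime ∧ 0 ≤ p := fun p hp => ⟨Nat.prime_of_mem_primeFactors hp, Nat.zero_le _⟩
  have hO' : ∀ p ∈ O', p.Prime ∧ 0 ≤ p := fun p hp => ⟨Nat.prime_of_mem_primeFactors hp, Nat.zero_le _⟩
  set R : ℕ → ℝ := fun w => rd b c ρ (pr * w) with hRd
  set R' : ℕ → ℝ := fun w => rd b' c' ρ (pr' * w) with hRd'
  have hRe : ∀ q ∈ V, R (q / pr) = rd b c ρ q := fun q hq => by rw [hRd]; simp only; rw [hVm q hq]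
  have hRe' : ∀ q ∈ W, R' (q / pr') = rd b' c' ρ q := fun q hq => by rw [hRd']; simp only; rw [hWm q hq]
  set F : ℕ × ℕ → ℝ := fun f =>
    if Ra ((b : ℝ) / c * D.γ) (R f.1) f.1 M ((b' : ℝ) / c' * D.γ) (R' f.2) f.2 M' then
      D.pb ρ M b pr c (pr * f.1) M' b' pr' c' (pr' * f.2) else 0 with hF
  have hEV : ∀ e ∈ E, e.1 ∈ V := fun e he => (Finset.mem_product.1 (hE he)).1
  have hEW : ∀ e ∈ E, e.2 ∈ W := fun e he => (Finset.mem_product.1 (hE he)).2
  have hDc : ∀ e ∈ E, Dc O O' R R' (e.1 / pr, e.2 / pr') =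
      Da (e.1 / pr) M (e.2 / pr') M' (rd b c ρ e.1) (rd b' c' ρ e.2) := fun e he => by
    have h1 := Dc_pf hM hM' R R' (e.1 / pr, e.2 / pr') (hVw _ (hEV e he)) (hWw _ (hEW e he))
    rw [hRe _ (hEV e he), hRe' _ (hEW e he)] at h1
    exact h1
  have hDpos : ∀ e ∈ E, 0 < Dc O O' R R' (e.1 / pr, e.2 / pr') := fun e he => by
    refine Dc_pos (N := 0) hO hO' ?_ (hWw _ (hEW e he))
    rw [hRe _ (hEV e he)]; exact hR _
  have hinj : Set.InjOn (fun e : ℕ × ℕ => (e.1 / pr, e.2 / pr')) E := by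
    intro e he f hf hef
    have he' := Finset.mem_coe.1 he
    have hf' := Finset.mem_coe.1 hf
    simp only [Prod.mk.injEq] at hef
    apply Prod.ext
    · rw [← hVm _ (hEV e he'), ← hVm _ (hEV f hf'), hef.1]
    · rw [← hWm _ (hEW e he'), ← hWm _ (hEW f hf'), hef.2]
  have hsum : ∑ f ∈ E0, F f = ∑ e ∈ E, D.pb ρ M b pr c e.1 M' b' pr' c' e.2 := by
    rw [hE0, Finset.sum_image hinj]
    refine Finset.sum_congr rfl fun e he => ?_
    have h1 := hD e he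
    have h2 : Da (e.1 / pr) M (e.2 / pr') M' (rd b c ρ e.1) (rd b' c' ρ e.2) ≤ 1 / 2 :=
      h1.trans (one_div_le_one_div_of_le (by norm_num) hT2)
    rw [hF]
    simp only
    rw [hRe _ (hEV e he), hRe' _ (hEW e he), hVm _ (hEV e he), hWm _ (hEW e he)]
    split_ifs with hRa
    · rfl
    · rw [pb_rd]; unfold pbd
      rw [if_pos h2, if_neg hRa]
  have muL : ∀ q ∈ V, 1 / L * rd b c ρ q ≤ mu O' R (q / pr) := fun q hq => by
    unfold mu
    rw [hRe q hq, uu_pf hM _ (hVw q hq), mul_comm]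
    apply mul_le_mul_of_nonneg_left _ (hR q).le
    exact (hVL q hq).trans (tq_mono (Nat.div_dvd_of_dvd (Nat.gcd_dvd_right _ _)) (hVw q hq))
  have muL' : ∀ q ∈ W, 1 / L * rd b' c' ρ q ≤ mu O R' (q / pr') := fun q hq => by
    unfold mu
    rw [hRe' q hq, uu_pf hM' _ (hWw q hq), mul_comm]
    apply mul_le_mul_of_nonneg_left _ (hR' q).le
    exact (hWL q hq).trans (tq_mono (Nat.div_dvd_of_dvd (Nat.gcd_dvd_right _ _)) (hWw q hq))
  set sM := ∑ p ∈ M.primeFactors, 1/(p:ℝ) with hsM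
  set sM' := ∑ p ∈ M'.primeFactors, 1/(p:ℝ) with hsM'
  have hsM0 : 0 ≤ sM := Finset.sum_nonneg fun p _ => by positivity
  have hsM0' : 0 ≤ sM' := Finset.sum_nonneg fun p _ => by positivity
  have muU : ∀ q ∈ V, mu O' R (q / pr) ≤ rd b c ρ q * tq (q / pr) * Real.exp (2 * sM) := fun q hq => by
    unfold mu
    rw [hRe q hq, uu_pf hM _ (hVw q hq), mul_assoc]
    exact mul_le_mul_of_nonneg_left (tq_div_le hMp (hVw q hq)) (hR q).le
  have muU' : ∀ q ∈ W, mu O R' (q / pr') ≤ rd b' c' ρ q * tq (q / pr') * Real.exp (2 * sM') := fun q hq => by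
    unfold mu
    rw [hRe' q hq, uu_pf hM' _ (hWw q hq), mul_assoc]
    exact mul_le_mul_of_nonneg_left (tq_div_le hMp' (hWw q hq)) (hR' q).le
  have key := hT0 T X (2 * L^2) 0 G O O' V0 W0 E0 R R' (fun S => (∏ p ∈ S, p : ℕ) * ((b : ℝ) / c * D.γ))
    (fun S => (∏ p ∈ S, p : ℕ) * ((b' : ℝ) / c' * D.γ)) F 0 0 hTT0 hX (by positivity) hG hO hO'
    (by
      intro w hw
      obtain ⟨q, hq, rfl⟩ := Finset.mem_image.1 hw
      exact ⟨hVw q hq, by rw [hRe q hq]; exact hR q⟩)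
    (by
      intro w hw
      obtain ⟨q, hq, rfl⟩ := Finset.mem_image.1 hw
      exact ⟨hWw q hq, by rw [hRe' q hq]; exact hR' q⟩)
    (by
      intro z hz w hw
      obtain ⟨q, hq, rfl⟩ := Finset.mem_image.1 hw
      rw [uu_pf hM _ (hVw q hq)]
      exact hVt z hz q hq)
    (by
      intro z hz w hw
      obtain ⟨q, hq, rfl⟩ := Finset.mem_image.1 hw
      rw [uu_pf hM' _ (hWw q hq)]
      exact hWt z hz q hq)
    (by
      intro f hf
      obtain ⟨e, he, rfl⟩ := Finset.mem_image.1 hf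
      exact Finset.mem_product.2 ⟨Finset.mem_image_of_mem _ (hEV e he), Finset.mem_image_of_mem _ (hEW e he)⟩)
    (fun r _ => Finset.sum_nonneg fun p _ => by positivity)
    (fun r _ => Finset.sum_nonneg fun p _ => by positivity)
    (by
      intro f hf
      obtain ⟨e, he, rfl⟩ := Finset.mem_image.1 hf
      rw [hDc e he]
      exact hD e he)
    (by
      intro f hf
      obtain ⟨e, he, rfl⟩ := Finset.mem_image.1 hf
      have hd0 := hDpos e he
      have h1 : F (e.1 / pr, e.2 / pr') ≤ 2 * (rd b c ρ e.1 * rd b' c' ρ e.2 /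
          Dc O O' R R' (e.1 / pr, e.2 / pr')) := by
        rw [hF]
        simp only
        have h3 : 0 ≤ 2 * (rd b c ρ e.1 * rd b' c' ρ e.2 / Dc O O' R R' (e.1 / pr, e.2 / pr')) := by
          have := (hR e.1).le; have := (hR' e.2).le; positivity
        split_ifs with hRa
        · rw [hVm _ (hEV e he), hWm _ (hEW e he)]
          have h2 : Da (e.1 / pr) M (e.2 / pr') M' (rd b c ρ e.1) (rd b' c' ρ e.2) ≤ 1 / 2 :=
            (hD e he).trans (one_div_le_one_div_of_le (by norm_num) hT2)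
          rw [pb_rd]; unfold pbd
          rw [if_pos h2, hDc e he]
          split_ifs
          · exact le_rfl
          · rw [hDc e he] at h3; exact h3
        · exact h3
      refine h1.trans ?_
      have h4 := muL _ (hEV e he)
      have h5 := muL' _ (hEW e he)
      rw [mul_assoc]
      apply mul_le_mul_of_nonneg_left _ (by norm_num)
      rw [← mul_div_assoc]
      apply div_le_div_of_nonneg_right _ hd0.le
      have h6 : rd b c ρ e.1 ≤ L * mu O' R (e.1 / pr) := by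
        rw [one_div_mul_eq_div, div_le_iff₀ hL] at h4; linarith
      have h7 : rd b' c' ρ e.2 ≤ L * mu O R' (e.2 / pr') := by
        rw [one_div_mul_eq_div, div_le_iff₀ hL] at h5; linarith
      calc rd b c ρ e.1 * rd b' c' ρ e.2 ≤ (L * mu O' R (e.1 / pr)) * (L * mu O R' (e.2 / pr')) :=
            mul_le_mul h6 h7 (hR' _).le ((hR _).le.trans h6)
        _ = _ := by ring)
    (by
      intro f hf t ht h1 h2 h3
      obtain ⟨e, he, rfl⟩ := Finset.mem_image.1 hf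
      rw [hDc e he] at h1 h2
      have hw1 := hVw _ (hEV e he)
      have hw2 := hWw _ (hEW e he)
      have hRa : Ra ((b : ℝ) / c * D.γ) (rd b c ρ e.1) (e.1 / pr) M ((b' : ℝ) / c' * D.γ)
          (rd b' c' ρ e.2) (e.2 / pr') M' := by
        by_contra hn
        rw [hF] at h3
        simp only at h3
        rw [hRe _ (hEV e he), hRe' _ (hEW e he), if_neg hn] at h3
        exact lt_irrefl _ h3
      have h4 := hgen e he t ht h1 h2 hRa
      show Gen ((∏ p ∈ miss O' (e.1 / pr), p : ℕ) * ((b : ℝ) / c * D.γ))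
        ((∏ p ∈ miss O (e.2 / pr'), p : ℕ) * ((b' : ℝ) / c' * D.γ)) t
        (cof (uu O' (e.1 / pr)) (uu O (e.2 / pr'))) (cof (uu O (e.2 / pr')) (uu O' (e.1 / pr)))
        (Rc O' R (e.1 / pr)) (Rc O R' (e.2 / pr'))
      rw [miss_pf_prod hM _ hw1, miss_pf_prod hM' _ hw2, uu_pf hM _ hw1, uu_pf hM' _ hw2,
        Rc_pf hM _ _ hw1, Rc_pf hM' _ _ hw2, hRe _ (hEV e he), hRe' _ (hEW e he)]
      exact h4)
  rw [hsum] at key
  refine key.trans ?_
  have he1 : eps1 = 1/1000 := rfl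
  set x := ∑ q ∈ V, rd b c ρ q * tq (q / pr) with hx
  set x' := ∑ q ∈ W, rd b' c' ρ q * tq (q / pr') with hx'
  have hx0 : 0 ≤ x := Finset.sum_nonneg fun q _ => mul_nonneg (hR q).le (tq_nonneg _)
  have hx0' : 0 ≤ x' := Finset.sum_nonneg fun q _ => mul_nonneg (hR' q).le (tq_nonneg _)
  have hmuV : ∑ w ∈ V0, mu O' R w ≤ x * Real.exp (2 * sM) := by
    rw [hV0, Finset.sum_image (by
      intro e he f hf hef
      have he' := Finset.mem_coe.1 he
      have hf' := Finset.mem_coe.1 hf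
      simp only at hef
      rw [← hVm _ he', ← hVm _ hf', hef]), hx, Finset.sum_mul]
    exact Finset.sum_le_sum muU
  have hmuW : ∑ w ∈ W0, mu O R' w ≤ x' * Real.exp (2 * sM') := by
    rw [hW0, Finset.sum_image (by
      intro e he f hf hef
      have he' := Finset.mem_coe.1 he
      have hf' := Finset.mem_coe.1 hf
      simp only at hef
      rw [← hWm _ he', ← hWm _ hf', hef]), hx', Finset.sum_mul]
    exact Finset.sum_le_sum muU'
  have hmuV0 : 0 ≤ ∑ w ∈ V0, mu O' R w := Finset.sum_nonneg fun w hw => by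
    obtain ⟨q, hq, rfl⟩ := Finset.mem_image.1 hw
    exact (mul_nonneg (by positivity) (hR q).le).trans (muL q hq)
  have hmuW0 : 0 ≤ ∑ w ∈ W0, mu O R' w := Finset.sum_nonneg fun w hw => by
    obtain ⟨q, hq, rfl⟩ := Finset.mem_image.1 hw
    exact (mul_nonneg (by positivity) (hR' q).le).trans (muL' q hq)
  have hpow : ((∑ q ∈ V0, mu O' R q) * (∑ r ∈ W0, mu O R' r))^(1/2+eps1) ≤
      (x * x')^(1/2+eps1) * Real.exp ((1/2+eps1) * (2 * sM + 2 * sM')) := by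
    have h1 : (∑ q ∈ V0, mu O' R q) * (∑ r ∈ W0, mu O R' r) ≤ (x * x') * Real.exp (2 * sM + 2 * sM') := by
      calc _ ≤ (x * Real.exp (2 * sM)) * (x' * Real.exp (2 * sM')) :=
            mul_le_mul hmuV hmuW hmuW0 (mul_nonneg hx0 (Real.exp_nonneg _))
        _ = _ := by rw [Real.exp_add]; ring
    refine (Real.rpow_le_rpow (mul_nonneg hmuV0 hmuW0) h1 (by rw [he1]; norm_num)).trans (le_of_eq ?_)
    rw [Real.mul_rpow (mul_nonneg hx0 hx0') (Real.exp_nonneg _), ← Real.exp_mul]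
    congr 2
    ring
  have hC0 : 0 ≤ C * (2 * L^2) * T^(-κ) := by positivity
  calc C * (2 * L^2) * T^(-κ) * Real.exp ((1/2-eps1) * (-((0:ℕ) * (0:ℝ)) + 3 * (∑ p ∈ O, 1/(p:ℝ)) +
        (-((0:ℕ) * (0:ℝ)) + 3 * ∑ p ∈ O', 1/(p:ℝ)))) *
        ((∑ q ∈ V0, mu O' R q) * (∑ r ∈ W0, mu O R' r))^(1/2+eps1)
      ≤ C * (2 * L^2) * T^(-κ) * Real.exp ((1/2-eps1) * (-((0:ℕ) * (0:ℝ)) + 3 * (∑ p ∈ O, 1/(p:ℝ)) +
        (-((0:ℕ) * (0:ℝ)) + 3 * ∑ p ∈ O', 1/(p:ℝ)))) *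
        ((x * x')^(1/2+eps1) * Real.exp ((1/2+eps1) * (2 * sM + 2 * sM'))) :=
        mul_le_mul_of_nonneg_left hpow (mul_nonneg hC0 (Real.exp_nonneg _))
    _ = C * (2 * L^2) * T^(-κ) * Real.exp ((1/2-eps1) * (3 * sM' + 3 * sM) +
        (1/2+eps1) * (2 * sM + 2 * sM')) * (x * x')^(1/2+eps1) := by
        rw [Real.exp_add]
        have : (1/2-eps1) * (-((0:ℕ) * (0:ℝ)) + 3 * (∑ p ∈ O, 1/(p:ℝ)) +
          (-((0:ℕ) * (0:ℝ)) + 3 * ∑ p ∈ O', 1/(p:ℝ))) = (1/2-eps1) * (3 * sM' + 3 * sM) := by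
          rw [hsM, hsM']; push_cast; ring
        rw [this]; ring
    _ ≤ C * (2 * L^2) * T^(-κ) * Real.exp (3 * (sM + sM')) * (x * x')^(1/2+eps1) := by
        apply mul_le_mul_of_nonneg_right _ (Real.rpow_nonneg (mul_nonneg hx0 hx0') _)
        apply mul_le_mul_of_nonneg_left _ hC0
        apply Real.exp_le_exp.2
        rw [he1]
        nlinarith
    _ = _ := by ring

end

end Crest.Agent.R4.DeepSt579
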