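import Crest.Agent.R4.AvgSym710
import Crest.Agent.R4.Dich579

/-!
R4 (S0004), helper194, module G: **(H1) of GAsm927** for the `[E]` part of a symbol.

* `fam_pair_le_left/right`, `iF_le_left/right` : the energy of a pair of items is at most the
  (integral) mass of either item, divided by the raising factor of the OTHER one.
* `match_sum` : abstract bookkeeping: one partner per group of raising factors.
* `EP` : Dich579's `EPair` for the averaged data of a state; `EP.uniq`, `EP.uniq'` : one partner per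
  group `(gcd(M,w), gcd(M',w'))`.
* `E_sum_le` : `∑_{E-pairs} iF ≤ ∑_{(q,r) ∈ K} min (mass q) (mass r) + extra`, `K` a partial matching.
-/

set_option autoImplicit false
set_option linter.unusedSectionVars false
set_option linter.unusedVariables false
open MeasureTheory Filter

namespace Crest.Agent.R4.GInst194

open Crest.Agent.R4.Tour104 Crest.Agent.R4.Tour758 Crest.Agent.R4.Avg758 Crest.Agent.R4.Clos758
open Crest.Agent.R4.ClosL758 Crest.Agent.R4.ClosG758 Crest.Agent.R4.ClosR758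
open Crest.Agent.R4.Fam464 Crest.Agent.R4.Cnt588 Crest.Agent.R4.Walk560 Crest.Agent.R4.Piece464
open Crest.Agent.R4.Item758 Crest.Agent.R4.HVW560 Crest.Agent.R4.AvgItem710

/-! ### a pair of families costs at most the mass of one side -/

theorem fam_pair_le_left {ι ι' : Type*} {J : Finset ι} {J' : Finset ι'} {g : ι → ℝ → ℝ}
    {g' : ι' → ℝ → ℝ} {θ' r' : ℝ} {M w' M' : ℕ} {α' β' : ι' → ℝ} {κ' : ι' → ℤ → ℝ}
    (h : ∀ j ∈ J, PB (g j)) (h' : Fam J' g' θ' r' w' α' β' κ') (hM : 0 < M) (hM' : 0 < M')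
    (hs : (rf w' M' : ℝ) * r' ≤ 1 / 2) :
    ∑ j ∈ J, ∑ j' ∈ J', I (fun y => Ep M (g j) y * Ep M' (g' j') y) ≤
      1 / (rf w' M' : ℝ) * ∑ j ∈ J, I (g j) := by
  have m0' : (0 : ℝ) < rf w' M' := by exact_mod_cast rf_pos hM'
  have pE : ∀ j ∈ J, PB (Ep M (g j)) := fun j hj => (h j hj).Ep hM
  have pE' : ∀ j ∈ J', PB (Ep M' (g' j)) := fun j hj => (h'.pb j hj).Ep hM'
  have e1 : ∑ j ∈ J, ∑ j' ∈ J', I (fun y => Ep M (g j) y * Ep M' (g' j') y) =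
      I (fun y => (∑ j ∈ J, Ep M (g j) y) * ∑ j' ∈ J', Ep M' (g' j') y) := by
    rw [← Finset.sum_product', ← I_sum _ fun e he => ?_]
    · congr 1; funext y
      rw [Finset.sum_mul_sum, ← Finset.sum_product']
    · exact ((pE _ (Finset.mem_product.1 he).1).mul
        (pE' _ (Finset.mem_product.1 he).2)).integrableOn
  have pS : PB (fun y => ∑ j ∈ J, Ep M (g j) y) := PB.sum J pE
  have pS' : PB (fun y => ∑ j' ∈ J', Ep M' (g' j') y) := PB.sum J' pE'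
  have hone : ∀ y, ∑ j' ∈ J', Ep M' (g' j') y ≤ 1 / (rf w' M' : ℝ) := by
    intro y
    refine (h'.Ep_le hM' y).trans ?_
    have h1 := arc_le_one (θ := rf w' M' * θ') hs (w := w' / M'.gcd w') y
    have h2 : (0 : ℝ) ≤ 1 / (rf w' M' : ℝ) := by positivity
    nlinarith
  have e2 : I (fun y => ∑ j ∈ J, Ep M (g j) y) = ∑ j ∈ J, I (g j) := by
    rw [I_sum J fun j hj => (pE j hj).integrableOn]
    exact Finset.sum_congr rfl fun j hj => I_Ep hM (h j hj).integrableOn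
  rw [e1, ← e2, ← I_smul]
  refine I_mono (pS.mul pS').integrableOn (pS.smul (by positivity)).integrableOn fun y => ?_
  have h1 := hone y
  have h2 := pS.nonneg y
  calc _ ≤ (∑ j ∈ J, Ep M (g j) y) * (1 / (rf w' M' : ℝ)) := mul_le_mul_of_nonneg_left h1 h2
    _ = _ := by ring

section state
variable {Λ κ : Type*} [Fintype Λ] [DecidableEq Λ] [Fintype κ] [DecidableEq κ]
  {D : Item758.Par Λ κ} {ρ : ℕ → ℝ} {M M' b pr c b' pr' c' : ℕ} {t t' : IT} {A A' : Finset Λ}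

/-- mass (integral of the functions) of the pieces of the item `q` in the population `A` -/
noncomputable def mU (D : Item758.Par Λ κ) (b pr c : ℕ) (t : IT) (A : Finset Λ) (q : ℕ) : ℝ :=
  ∑ j ∈ A.filter (fun j => D.it j = q), I ((D.toFT b pr t).U c j)

lemma mU_nonneg (hb : 0 < b) (hF : Fit b pr t) (hW : D.Wts pr t) (hc : c ∣ b) (A : Finset Λ)
    (q : ℕ) : 0 ≤ mU D b pr c t A q :=
  Finset.sum_nonneg fun j _ => I_nonneg (FT.pb hb (D.toFT_Adm t b pr hb hF hW) hc j).nonneg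

/-- the energy of an item pair is a sum over the pieces of the two items -/
theorem iF_le_prod (hM : 0 < M) (hM' : 0 < M') (hb : 0 < b) (hb' : 0 < b')
    (hF : Fit b pr t) (hF' : Fit b' pr' t') (hW : D.Wts pr t) (hW' : D.Wts pr' t') (hc : c ∣ b)
    (hc' : c' ∣ b') (R : Finset (Λ × Λ)) (A A' : Finset Λ) (e : ℕ × ℕ) :
    D.iF R (D.uA M b pr t A c) (D.uA M' b' pr' t' A' c') e ≤
      ∑ j ∈ A.filter (fun j => D.it j = e.1), ∑ j' ∈ A'.filter (fun j => D.it j = e.2),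
        I (fun y => Ep M ((D.toFT b pr t).U c j) y * Ep M' ((D.toFT b' pr' t').U c' j') y) := by
  unfold Par.iF
  rw [← Finset.sum_product']
  have hsub : ∀ x ∈ R.filter (fun x => (D.it x.1, D.it x.2) = e),
      x ∉ (A.filter fun j => D.it j = e.1) ×ˢ (A'.filter fun j => D.it j = e.2) →
      I (fun y => D.uA M b pr t A c x.1 y * D.uA M' b' pr' t' A' c' x.2 y) = 0 := by
    intro x hx hx'
    by_contra h
    obtain ⟨y, h5, h6⟩ := exists_of_I_ne h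
    apply hx'
    have h3 := (Finset.mem_filter.1 hx).2
    have h7 : x.1 ∈ A := by
      by_contra h
      exact h5 (uA_zero hM (fun k => h k.1) y)
    have h8 : x.2 ∈ A' := by
      by_contra h
      exact h6 (uA_zero hM' (fun k => h k.1) y)
    rw [← h3]
    exact Finset.mem_product.2 ⟨Finset.mem_filter.2 ⟨h7, rfl⟩, Finset.mem_filter.2 ⟨h8, rfl⟩⟩
  rw [← Finset.sum_filter_add_sum_filter_not (R.filter (fun x => (D.it x.1, D.it x.2) = e))
    (fun x => x ∈ (A.filter fun j => D.it j = e.1) ×ˢ (A'.filter fun j => D.it j = e.2))]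
  rw [Finset.sum_eq_zero (s := (R.filter (fun x => (D.it x.1, D.it x.2) = e)).filter
    (fun x => ¬ x ∈ (A.filter fun j => D.it j = e.1) ×ˢ (A'.filter fun j => D.it j = e.2)))
    (fun x hx => hsub x (Finset.mem_filter.1 hx).1 (Finset.mem_filter.1 hx).2), add_zero]
  have hval : ∀ x ∈ (A.filter fun j => D.it j = e.1) ×ˢ (A'.filter fun j => D.it j = e.2),
      I (fun y => D.uA M b pr t A c x.1 y * D.uA M' b' pr' t' A' c' x.2 y) =
      I (fun y => Ep M ((D.toFT b pr t).U c x.1) y * Ep M' ((D.toFT b' pr' t').U c' x.2) y) := by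
    intro x hx
    obtain ⟨h1, h2⟩ := Finset.mem_product.1 hx
    unfold Par.uA avg
    rw [rv_of_mem (Finset.mem_filter.1 h1).1, rv_of_mem (Finset.mem_filter.1 h2).1]
  refine le_trans (Finset.sum_le_sum_of_subset_of_nonneg (t := (A.filter fun j => D.it j = e.1) ×ˢ
    (A'.filter fun j => D.it j = e.2)) (fun x hx => (Finset.mem_filter.1 hx).2) fun x _ _ => ?_)
    (Finset.sum_congr rfl hval).le
  exact I_nonneg fun y => mul_nonneg ((PB_uA hM hb hF hW hc _).nonneg y)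
    ((PB_uA hM' hb' hF' hW' hc' _).nonneg y)

/-- **left bound** -/
theorem iF_le_left (hR : D.Rad ρ) (hM : 0 < M) (hM' : 0 < M') (hb : 0 < b) (hb' : 0 < b')
    (hF : Fit b pr t) (hF' : Fit b' pr' t') (hW : D.Wts pr t) (hW' : D.Wts pr' t') (hc : c ∣ b)
    (hc' : c' ∣ b') (R : Finset (Λ × Λ)) (A A' : Finset Λ) (e : ℕ × ℕ)
    (he' : e.2 ∈ t'.items) (hs : (rf (e.2 / pr') M' : ℝ) * ((b' : ℝ) / c' * ρ e.2) ≤ 1 / 2) :
    D.iF R (D.uA M b pr t A c) (D.uA M' b' pr' t' A' c') e ≤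
      1 / (rf (e.2 / pr') M' : ℝ) * mU D b pr c t A e.1 :=
  (iF_le_prod hM hM' hb hb' hF hF' hW hW' hc hc' R A A' e).trans
    (fam_pair_le_left (fun j _ => FT.pb hb (D.toFT_Adm t b pr hb hF hW) hc j)
      (fam_node hR hb' hF' hW' hc' he' A') hM hM' hs)

/-- **right bound** -/
theorem iF_le_right (hR : D.Rad ρ) (hM : 0 < M) (hM' : 0 < M') (hb : 0 < b) (hb' : 0 < b')
    (hF : Fit b pr t) (hF' : Fit b' pr' t') (hW : D.Wts pr t) (hW' : D.Wts pr' t') (hc : c ∣ b)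
    (hc' : c' ∣ b') (R : Finset (Λ × Λ)) (A A' : Finset Λ) (e : ℕ × ℕ)
    (he : e.1 ∈ t.items) (hs : (rf (e.1 / pr) M : ℝ) * ((b : ℝ) / c * ρ e.1) ≤ 1 / 2) :
    D.iF R (D.uA M b pr t A c) (D.uA M' b' pr' t' A' c') e ≤
      1 / (rf (e.1 / pr) M : ℝ) * mU D b' pr' c' t' A' e.2 := by
  refine (iF_le_prod hM hM' hb hb' hF hF' hW hW' hc hc' R A A' e).trans ?_
  rw [Finset.sum_comm]
  have h := fam_pair_le_left (M := M') (fun j (_ : j ∈ A'.filter (fun j => D.it j = e.2)) =>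
      FT.pb hb' (D.toFT_Adm t' b' pr' hb' hF' hW') hc' j)
      (fam_node hR hb hF hW hc he A) hM' hM hs
  refine le_trans (le_of_eq ?_) h
  refine Finset.sum_congr rfl fun j' _ => Finset.sum_congr rfl fun j _ => ?_
  congr 1
  funext y
  ring

end state


/-! ### one partner per group -/

/-- sum of `1/d` over the divisors `d > 1` -/
noncomputable def xs (N : ℕ) : ℝ := ∑ d ∈ N.divisors.erase 1, (1 : ℝ) / d

lemma xs_nonneg (N : ℕ) : 0 ≤ xs N := Finset.sum_nonneg fun d _ => by positivity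

lemma one_side {V : Finset ℕ} {P : Finset (ℕ × ℕ)} {f : ℕ × ℕ → ℝ} {a : ℕ → ℝ} {m' : ℕ → ℕ}
    {N' : ℕ} (hN' : 0 < N') (hP : ∀ e ∈ P, e.1 ∈ V ∧ m' e.2 ∣ N' ∧ m' e.2 ≠ 1)
    (ha : ∀ q ∈ V, 0 ≤ a q) (h1 : ∀ e ∈ P, f e ≤ 1 / (m' e.2 : ℝ) * a e.1)
    (u1 : ∀ q r₁ r₂, (q, r₁) ∈ P → (q, r₂) ∈ P → m' r₁ = m' r₂ → r₁ = r₂) :
    ∑ e ∈ P, f e ≤ xs N' * ∑ q ∈ V, a q := by
  classical
  have hinj : Set.InjOn (fun e : ℕ × ℕ => (e.1, m' e.2)) (P : Set (ℕ × ℕ)) := by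
    intro x hx y hy hxy
    obtain ⟨h1, h2⟩ := Prod.ext_iff.1 hxy
    simp only at h1 h2
    obtain ⟨x1, x2⟩ := x
    obtain ⟨y1, y2⟩ := y
    simp only at h1 h2
    subst h1
    exact Prod.ext rfl (u1 _ _ _ hx hy h2)
  calc ∑ e ∈ P, f e ≤ ∑ e ∈ P, 1 / (m' e.2 : ℝ) * a e.1 := Finset.sum_le_sum h1
    _ = ∑ z ∈ P.image (fun e : ℕ × ℕ => (e.1, m' e.2)), 1 / (z.2 : ℝ) * a z.1 :=
        (Finset.sum_image (f := fun z : ℕ × ℕ => 1 / (z.2 : ℝ) * a z.1) hinj).symm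
    _ ≤ ∑ z ∈ V ×ˢ (N'.divisors.erase 1), 1 / (z.2 : ℝ) * a z.1 := by
        refine Finset.sum_le_sum_of_subset_of_nonneg (fun z hz => ?_) fun z hz _ => ?_
        · obtain ⟨e, he, rfl⟩ := Finset.mem_image.1 hz
          obtain ⟨k1, k2, k3⟩ := hP e he
          exact Finset.mem_product.2 ⟨k1, Finset.mem_erase.2 ⟨k3,
            Nat.mem_divisors.2 ⟨k2, hN'.ne'⟩⟩⟩
        · have := ha _ (Finset.mem_product.1 hz).1
          positivity
    _ = xs N' * ∑ q ∈ V, a q := by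
        rw [Finset.sum_product, xs, Finset.mul_sum]
        refine Finset.sum_congr rfl fun q _ => ?_
        rw [Finset.sum_mul]

/-- **one partner per group**, abstract form -/
theorem match_sum {V W : Finset ℕ} {P : Finset (ℕ × ℕ)} {f : ℕ × ℕ → ℝ} {a a' : ℕ → ℝ}
    {m m' : ℕ → ℕ} {N N' : ℕ} (hN : 0 < N) (hN' : 0 < N')
    (hP : P ⊆ V ×ˢ W) (ha : ∀ q ∈ V, 0 ≤ a q) (ha' : ∀ r ∈ W, 0 ≤ a' r)
    (hm : ∀ e ∈ P, m e.1 ∣ N) (hm' : ∀ e ∈ P, m' e.2 ∣ N')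
    (h1 : ∀ e ∈ P, f e ≤ 1 / (m' e.2 : ℝ) * a e.1) (h2 : ∀ e ∈ P, f e ≤ 1 / (m e.1 : ℝ) * a' e.2)
    (u1 : ∀ q r₁ r₂, (q, r₁) ∈ P → (q, r₂) ∈ P → m' r₁ = m' r₂ → r₁ = r₂)
    (u2 : ∀ q₁ q₂ r, (q₁, r) ∈ P → (q₂, r) ∈ P → m q₁ = m q₂ → q₁ = q₂) :
    ∑ e ∈ P, f e ≤ ∑ e ∈ P.filter (fun e => m e.1 = 1 ∧ m' e.2 = 1), min (a e.1) (a' e.2) +
      (xs N' * ∑ q ∈ V, a q + xs N * ∑ r ∈ W, a' r) := by
  classical
  have s1 := Finset.sum_filter_add_sum_filter_not P (fun e => m e.1 = 1 ∧ m' e.2 = 1) f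
  set P' := P.filter (fun e => ¬ (m e.1 = 1 ∧ m' e.2 = 1)) with hP'
  have s2 := Finset.sum_filter_add_sum_filter_not P' (fun e => m' e.2 = 1) f
  have b1 : ∑ e ∈ P'.filter (fun e => ¬ m' e.2 = 1), f e ≤ xs N' * ∑ q ∈ V, a q := by
    refine one_side (m' := m') hN' (fun e he => ?_) ha (fun e he => ?_) fun q r₁ r₂ k1 k2 k3 => ?_
    · obtain ⟨k1, k2⟩ := Finset.mem_filter.1 he
      have k3 := (Finset.mem_filter.1 k1).1
      exact ⟨(Finset.mem_product.1 (hP k3)).1, hm' e k3, k2⟩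
    · exact h1 e (Finset.mem_filter.1 (Finset.mem_filter.1 he).1).1
    · exact u1 q r₁ r₂ (Finset.mem_filter.1 (Finset.mem_filter.1 k1).1).1
        (Finset.mem_filter.1 (Finset.mem_filter.1 k2).1).1 k3
  have b2 : ∑ e ∈ P'.filter (fun e => m' e.2 = 1), f e ≤ xs N * ∑ r ∈ W, a' r := by
    have key := one_side (V := W) (P := (P'.filter (fun e => m' e.2 = 1)).image Prod.swap)
      (f := fun e => f e.swap) (a := a') (m' := m) hN (fun e he => ?_) ha' (fun e he => ?_)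
      fun q r₁ r₂ k1 k2 k3 => ?_
    · rw [Finset.sum_image (Prod.swap_injective.injOn)] at key
      simpa using key
    · obtain ⟨x, hx, rfl⟩ := Finset.mem_image.1 he
      obtain ⟨k1, k2⟩ := Finset.mem_filter.1 hx
      obtain ⟨k3, k4⟩ := Finset.mem_filter.1 k1
      exact ⟨(Finset.mem_product.1 (hP k3)).2, hm x k3, fun k5 => k4 ⟨k5, k2⟩⟩
    · obtain ⟨x, hx, rfl⟩ := Finset.mem_image.1 he
      exact h2 x (Finset.mem_filter.1 (Finset.mem_filter.1 hx).1).1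
    · obtain ⟨x, hx, hx'⟩ := Finset.mem_image.1 k1
      obtain ⟨y, hy, hy'⟩ := Finset.mem_image.1 k2
      have ex : x = (r₁, q) := by rw [← Prod.swap_swap x, hx']; rfl
      have ey : y = (r₂, q) := by rw [← Prod.swap_swap y, hy']; rfl
      subst ex ey
      exact u2 r₁ r₂ q (Finset.mem_filter.1 (Finset.mem_filter.1 hx).1).1
        (Finset.mem_filter.1 (Finset.mem_filter.1 hy).1).1 k3
  have b3 : ∑ e ∈ P.filter (fun e => m e.1 = 1 ∧ m' e.2 = 1), f e ≤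
      ∑ e ∈ P.filter (fun e => m e.1 = 1 ∧ m' e.2 = 1), min (a e.1) (a' e.2) := by
    refine Finset.sum_le_sum fun e he => ?_
    obtain ⟨k1, k2, k3⟩ := Finset.mem_filter.1 he
    have c1 := h1 e k1
    have c2 := h2 e k1
    rw [k3] at c1
    rw [k2] at c2
    refine le_min ?_ ?_
    · simpa using c1
    · simpa using c2
  linarith

/-! ### `[E]` pairs of a state -/

/-- averaged radius as a function of the averaged modulus -/
noncomputable def rg (ρ : ℕ → ℝ) (b c pr M g : ℕ) (n : ℕ) : ℝ :=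
  ((M / g : ℕ) : ℝ) * ((b : ℝ) / c * ρ (n * g * pr))

lemma rg_eq {ρ : ℕ → ℝ} {b c pr M q : ℕ} (hq : pr ∣ q) :
    rg ρ b c pr M (M.gcd (q / pr)) (q / pr / M.gcd (q / pr)) =
      (rf (q / pr) M : ℝ) * ((b : ℝ) / c * ρ q) := by
  unfold rg rf
  rw [Nat.div_mul_cancel (Nat.gcd_dvd_right _ _), Nat.div_mul_cancel hq]

/-- `EPair` of Dich579 for the averaged data of a pair of items -/
def EP (N : ℝ → ℝ) (γ : ℝ) (ρ : ℕ → ℝ) (M b pr c M' b' pr' c' : ℕ) (e : ℕ × ℕ) : Prop :=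
  Dich579.EPair N ((rf (e.1 / pr) M : ℝ) * ((b : ℝ) / c * γ))
    ((rf (e.2 / pr') M' : ℝ) * ((b' : ℝ) / c' * γ))
    (rg ρ b c pr M (M.gcd (e.1 / pr))) (rg ρ b' c' pr' M' (M'.gcd (e.2 / pr')))
    (e.1 / pr / M.gcd (e.1 / pr)) (e.2 / pr' / M'.gcd (e.2 / pr'))

/-- `EPair` only sees the radii of the two items -/
lemma EPair_congr {N : ℝ → ℝ} {θ θ' : ℝ} {R R' S S' : ℕ → ℝ} {q r : ℕ} (h1 : R q = S q)
    (h2 : R' r = S' r) : Dich579.EPair N θ θ' R R' q r ↔ Dich579.EPair N θ θ' S S' q r := by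
  unfold Dich579.EPair
  rw [h1, h2]

lemma EP_iff {N : ℝ → ℝ} {γ : ℝ} {ρ : ℕ → ℝ} {M b pr c M' b' pr' c' : ℕ} {e : ℕ × ℕ}
    (h : pr ∣ e.1) (h' : pr' ∣ e.2) {S S' : ℕ → ℝ}
    (hS : S (e.1 / pr / M.gcd (e.1 / pr)) = (rf (e.1 / pr) M : ℝ) * ((b : ℝ) / c * ρ e.1))
    (hS' : S' (e.2 / pr' / M'.gcd (e.2 / pr')) =
      (rf (e.2 / pr') M' : ℝ) * ((b' : ℝ) / c' * ρ e.2)) :
    EP N γ ρ M b pr c M' b' pr' c' e ↔
      Dich579.EPair N ((rf (e.1 / pr) M : ℝ) * ((b : ℝ) / c * γ))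
        ((rf (e.2 / pr') M' : ℝ) * ((b' : ℝ) / c' * γ)) S S'
        (e.1 / pr / M.gcd (e.1 / pr)) (e.2 / pr' / M'.gcd (e.2 / pr')) :=
  EPair_congr ((rg_eq h).trans hS.symm) ((rg_eq h').trans hS'.symm)

lemma gcd_of_rf {M w w' : ℕ} (hM : 0 < M) (h : rf w M = rf w' M) : M.gcd w = M.gcd w' := by
  unfold rf at h
  have h1 : M.gcd w * (M / M.gcd w) = M := Nat.mul_div_cancel' (Nat.gcd_dvd_left _ _)
  have h2 : M.gcd w' * (M / M.gcd w') = M := Nat.mul_div_cancel' (Nat.gcd_dvd_left _ _)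
  rw [h] at h1
  have h3 : 0 < M / M.gcd w' := Nat.div_pos (Nat.le_of_dvd hM (Nat.gcd_dvd_left _ _))
    (Nat.gcd_pos_of_pos_left _ hM)
  exact Nat.eq_of_mul_eq_mul_right h3 (h1.trans h2.symm)

lemma mod_inj {M pr q r : ℕ} (hq : pr ∣ q) (hr : pr ∣ r) (hg : M.gcd (q / pr) = M.gcd (r / pr))
    (h : q / pr / M.gcd (q / pr) = r / pr / M.gcd (r / pr)) : q = r := by
  have h1 : q / pr / M.gcd (q / pr) * M.gcd (q / pr) = q / pr :=
    Nat.div_mul_cancel (Nat.gcd_dvd_right _ _)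
  have h2 : r / pr / M.gcd (r / pr) * M.gcd (r / pr) = r / pr :=
    Nat.div_mul_cancel (Nat.gcd_dvd_right _ _)
  have h3 : q / pr = r / pr := by rw [← h1, ← h2, h, hg]
  rw [← Nat.div_mul_cancel hq, ← Nat.div_mul_cancel hr, h3]

section EP
variable {N : ℝ → ℝ} {γ : ℝ} {ρ : ℕ → ℝ} {M b pr c M' b' pr' c' : ℕ}

/-- **one partner per group** (right) -/
theorem EP.uniq (hM' : 0 < M') {q r₁ r₂ : ℕ} (h1 : pr' ∣ r₁) (h2 : pr' ∣ r₂)
    (e1 : EP N γ ρ M b pr c M' b' pr' c' (q, r₁)) (e2 : EP N γ ρ M b pr c M' b' pr' c' (q, r₂))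
    (hr : rf (r₁ / pr') M' = rf (r₂ / pr') M') : r₁ = r₂ := by
  have hg := gcd_of_rf hM' hr
  unfold EP at e1 e2
  simp only at e1 e2
  have e1' := e1
  rw [hr, hg] at e1'
  exact mod_inj h1 h2 hg (by
    rw [hg]
    exact Dich579.partner e1' e2)

/-- **one partner per group** (left) -/
theorem EP.uniq' (hM : 0 < M) {q₁ q₂ r : ℕ} (h1 : pr ∣ q₁) (h2 : pr ∣ q₂)
    (e1 : EP N γ ρ M b pr c M' b' pr' c' (q₁, r)) (e2 : EP N γ ρ M b pr c M' b' pr' c' (q₂, r))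
    (hr : rf (q₁ / pr) M = rf (q₂ / pr) M) : q₁ = q₂ := by
  have hg := gcd_of_rf hM hr
  unfold EP at e1 e2
  simp only at e1 e2
  have e1' := e1
  rw [hr, hg] at e1'
  exact mod_inj h1 h2 hg (by
    rw [hg]
    exact Dich579.partner' e1' e2)

/-- the averaged radii of an `[E]` pair are small -/
theorem EP.small {e : ℕ × ℕ} (h : EP N γ ρ M b pr c M' b' pr' c' e) (hq : pr ∣ e.1)
    (hr : pr' ∣ e.2) : (rf (e.1 / pr) M : ℝ) * ((b : ℝ) / c * ρ e.1) ≤ 1 / 2 ∧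
      (rf (e.2 / pr') M' : ℝ) * ((b' : ℝ) / c' * ρ e.2) ≤ 1 / 2 := by
  obtain ⟨t, n, n', hs, -⟩ := h
  have ht : (2 : ℝ) ≤ t := by
    have h2 : (2 : ℝ) ^ 1 ≤ 2 ^ 400 := pow_le_pow_right₀ (by norm_num) (by norm_num)
    rw [pow_one] at h2
    exact h2.trans hs.ht
  have ht' : 1 / t ≤ 1 / 2 := one_div_le_one_div_of_le (by norm_num) ht
  have h1 := hs.r_le
  have h2 := hs.swap.r_le
  rw [rg_eq hq] at h1
  rw [rg_eq hr] at h2
  exact ⟨h1.trans ht', h2.trans ht'⟩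

end EP

section sums
variable {Λ κ : Type*} [Fintype Λ] [DecidableEq Λ] [Fintype κ] [DecidableEq κ]
  {D : Item758.Par Λ κ} {ρ : ℕ → ℝ} {M M' b pr c b' pr' c' : ℕ} {t t' : IT} {A A' : Finset Λ}

/-- **THE `[E]` PART OF A SYMBOL**: `K` = the pairs with raising factors one (a partial matching,
`K_left`, `K_right`), the other groups cost `xs`. -/
theorem E_sum_le (hR : D.Rad ρ) (hM : 0 < M) (hM' : 0 < M') (hb : 0 < b) (hb' : 0 < b')
    (hF : Fit b pr t) (hF' : Fit b' pr' t') (hW : D.Wts pr t) (hW' : D.Wts pr' t') (hc : c ∣ b)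
    (hc' : c' ∣ b') (R : Finset (Λ × Λ)) {N : ℝ → ℝ} {P : Finset (ℕ × ℕ)} {N₁ N₁' : ℕ}
    (hN : 0 < N₁) (hN' : 0 < N₁')
    (hP : ∀ e ∈ P, e.1 ∈ t.items ∧ e.2 ∈ t'.items ∧
      EP N D.γ ρ M b pr c M' b' pr' c' e ∧ rf (e.1 / pr) M ∣ N₁ ∧ rf (e.2 / pr') M' ∣ N₁') :
    ∑ e ∈ P, D.iF R (D.uA M b pr t A c) (D.uA M' b' pr' t' A' c') e ≤
      ∑ e ∈ P.filter (fun e => rf (e.1 / pr) M = 1 ∧ rf (e.2 / pr') M' = 1),
        min (mU D b pr c t A e.1) (mU D b' pr' c' t' A' e.2) +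
      (xs N₁' * ∑ q ∈ t.items, mU D b pr c t A q +
        xs N₁ * ∑ r ∈ t'.items, mU D b' pr' c' t' A' r) := by
  have hd : ∀ e ∈ P, pr ∣ e.1 := fun e he => (hF.item _ (hP e he).1).2.1
  have hd' : ∀ e ∈ P, pr' ∣ e.2 := fun e he => (hF'.item _ (hP e he).2.1).2.1
  refine match_sum (m := fun q => rf (q / pr) M) (m' := fun r => rf (r / pr') M') hN hN'
    (fun e he => Finset.mem_product.2 ⟨(hP e he).1, (hP e he).2.1⟩)
    (fun q _ => mU_nonneg hb hF hW hc A q) (fun q _ => mU_nonneg hb' hF' hW' hc' A' q)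
    (fun e he => (hP e he).2.2.2.1) (fun e he => (hP e he).2.2.2.2)
    (fun e he => ?_) (fun e he => ?_) (fun q r₁ r₂ k1 k2 k3 => ?_) fun q₁ q₂ r k1 k2 k3 => ?_
  · obtain ⟨h1, h2, h3, -⟩ := hP e he
    exact iF_le_left hR hM hM' hb hb' hF hF' hW hW' hc hc' R A A' e h2
      (h3.small (hd e he) (hd' e he)).2
  · obtain ⟨h1, h2, h3, -⟩ := hP e he
    exact iF_le_right hR hM hM' hb hb' hF hF' hW hW' hc hc' R A A' e h1
      (h3.small (hd e he) (hd' e he)).1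
  · exact EP.uniq hM' (hd' _ k1) (hd' _ k2) (hP _ k1).2.2.1 (hP _ k2).2.2.1 k3
  · exact EP.uniq' hM (hd _ k1) (hd _ k2) (hP _ k1).2.2.1 (hP _ k2).2.2.1 k3

/-- the pairs with raising factors one form a partial matching -/
theorem K_match (hM : 0 < M) (hM' : 0 < M') (hF : Fit b pr t) (hF' : Fit b' pr' t') {N : ℝ → ℝ}
    {P : Finset (ℕ × ℕ)} (hP : ∀ e ∈ P, e.1 ∈ t.items ∧ e.2 ∈ t'.items ∧
      EP N D.γ ρ M b pr c M' b' pr' c' e ∧ rf (e.1 / pr) M = 1 ∧ rf (e.2 / pr') M' = 1) :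
    (∀ q r₁ r₂, (q, r₁) ∈ P → (q, r₂) ∈ P → r₁ = r₂) ∧
      ∀ q₁ q₂ r, (q₁, r) ∈ P → (q₂, r) ∈ P → q₁ = q₂ := by
  have hd : ∀ e ∈ P, pr ∣ e.1 := fun e he => (hF.item _ (hP e he).1).2.1
  have hd' : ∀ e ∈ P, pr' ∣ e.2 := fun e he => (hF'.item _ (hP e he).2.1).2.1
  refine ⟨fun q r₁ r₂ k1 k2 => ?_, fun q₁ q₂ r k1 k2 => ?_⟩
  · exact EP.uniq hM' (hd' _ k1) (hd' _ k2) (hP _ k1).2.2.1 (hP _ k2).2.2.1
      ((hP _ k1).2.2.2.2.trans (hP _ k2).2.2.2.2.symm)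
  · exact EP.uniq' hM (hd _ k1) (hd _ k2) (hP _ k1).2.2.1 (hP _ k2).2.2.1
      ((hP _ k1).2.2.2.1.trans (hP _ k2).2.2.2.1.symm)

/-! ### masses -/

/-- integral mass of the pieces of an item on a decorated tree -/
noncomputable def mI (d : DT Λ κ) (j : Λ) : ℝ := I (d.g.val j)

/-- un-raised functions below a tie: the mass of the missing item is the mass at the tie -/
theorem mU_col (hab : ∀ j, D.al j ≤ D.be j) {p : ℕ} {t₁ t₀ : IT} (hb : 0 < b)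
    (hF : Fit b pr (.br p t₁ t₀)) (hW : D.Wts pr (.br p t₁ t₀)) (A : Finset Λ) {q : ℕ}
    (hq : q ∈ t₀.items) :
    mU D (b * p) pr p t₀ A q = ∑ j ∈ A.filter (fun j => D.it j = q),
      I ((D.toFT b pr (.br p t₁ t₀)).U 1 j) := by
  unfold mU
  refine Finset.sum_congr rfl fun j hj => ?_
  have hj' : D.it j = q := (Finset.mem_filter.1 hj).2
  have hp : p.Prime := hF.1
  have hpR : (p : ℝ) ≠ 0 := by exact_mod_cast hp.ne_zero
  have h1 := D.I_U hab t₀ (b * p) pr p (Nat.mul_pos hb hp.pos) hF.2.2.2.2 hW.br₀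
    (Dvd.intro_left b rfl) j (hj' ▸ hq)
  have h2 := D.I_U hab (.br p t₁ t₀) b pr 1 hb hF hW (one_dvd _) j
    (Finset.mem_union.2 (Or.inr (hj' ▸ hq)))
  rw [h1, h2]
  have e1 : prf (.br p t₁ t₀) (D.it j) = prf t₀ (D.it j) := if_pos (hj' ▸ hq)
  have e2 : pp (.br p t₁ t₀) (D.it j) = pp t₀ (D.it j) := if_pos (hj' ▸ hq)
  rw [e1, e2]
  push_cast
  rw [mul_div_cancel_right₀ _ hpR, div_one]

/-- total mass = sum over the items -/
lemma sum_mU (hb : 0 < b) (hF : Fit b pr t) (hW : D.Wts pr t) (hc : c ∣ b) (A : Finset Λ) :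
    ∑ q ∈ t.items, mU D b pr c t A q =
      ∑ j ∈ A.filter (fun j => D.it j ∈ t.items), I ((D.toFT b pr t).U c j) := by
  unfold mU
  rw [← Finset.sum_fiberwise_of_maps_to (s := A.filter (fun j => D.it j ∈ t.items)) (t := t.items)
    (g := D.it) (fun j hj => (Finset.mem_filter.1 hj).2)]
  refine Finset.sum_congr rfl fun q hq => Finset.sum_congr ?_ fun _ _ => rfl
  ext j
  simp only [Finset.mem_filter]
  constructor
  · rintro ⟨h1, h2⟩; exact ⟨⟨h1, h2 ▸ hq⟩, h2⟩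
  · rintro ⟨⟨h1, _⟩, h2⟩; exact ⟨h1, h2⟩

/-- the same on the decorated tree of a side -/
lemma SideI_mI {sp : ℕ → Finset Λ} {d : DT Λ κ} (h : SideI D sp b pr t A d) (j : Λ) :
    mI d j = I ((D.toFT b pr t).U 1 j) := by
  unfold mI
  rw [h.val]

/-- raw mass of a piece at a node -/
theorem I_U_le_raw (hab : ∀ j, D.al j ≤ D.be j) (hb : 0 < b) (hF : Fit b pr t)
    (hW : D.Wts pr t) (hc : c ∣ b) {C : ℝ} {j : Λ} (hj : D.it j ∈ t.items)
    (hpos : 0 ≤ prf t (D.it j)) {raw : ℝ}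
    (hom : prf t (D.it j) * mnw (D.it j / (pr * pp t (D.it j))) (D.om j) ≤ C * raw) :
    I ((D.toFT b pr t).U c j) ≤ C * ((b : ℝ) / c * (D.be j - D.al j) * raw) := by
  rw [D.I_U hab t b pr c hb hF hW hc j hj]
  have h1 : 0 ≤ (b : ℝ) / c * (D.be j - D.al j) :=
    mul_nonneg (by positivity) (sub_nonneg.2 (hab j))
  calc _ = (b : ℝ) / c * (D.be j - D.al j) *
        (prf t (D.it j) * mnw (D.it j / (pr * pp t (D.it j))) (D.om j)) := by ring
    _ ≤ (b : ℝ) / c * (D.be j - D.al j) * (C * raw) := mul_le_mul_of_nonneg_left hom h1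
    _ = _ := by ring

end sums

section state
variable {Λ κ : Type*} [Fintype Λ] [DecidableEq Λ] [Fintype κ] [DecidableEq κ] [WRel κ]
  {D : Item758.Par Λ κ} {sp : ℕ → Finset Λ} {ρ : ℕ → ℝ} {s : St Λ κ} {b pr b' pr' : ℕ}

/-- mass of the item `q` at one side of a state -/
noncomputable def mq (D : Item758.Par Λ κ) (d : DT Λ κ) (A : Finset Λ) (q : ℕ) : ℝ :=
  ∑ j ∈ A.filter (fun j => D.it j = q), mI d j

/-- exact form of the near misses of a pair of columns -/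
theorem eNM_le_iF {p : ℕ} {t₁ t₀ t₁' t₀' : IT}
    (h : StI D sp s b pr (.br p t₁ t₀) b' pr' (.br p t₁' t₀')) (stp : St Λ κ → Prop) :
    eNM stp s ≤ ∑ e ∈ D.PE (Ro (D.rho p)) (D.uA s.M (b * p) pr t₀ s.A p)
        (D.uA s.M' (b' * p) pr' t₀' s.A' p),
      D.iF (Ro (D.rho p)) (D.uA s.M (b * p) pr t₀ s.A p) (D.uA s.M' (b' * p) pr' t₀' s.A' p) e := by
  have hL := h.L
  have hR' := h.R
  have h0 : 0 ≤ ∑ e ∈ D.PE (Ro (D.rho p)) (D.uA s.M (b * p) pr t₀ s.A p)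
      (D.uA s.M' (b' * p) pr' t₀' s.A' p),
      D.iF (Ro (D.rho p)) (D.uA s.M (b * p) pr t₀ s.A p) (D.uA s.M' (b' * p) pr' t₀' s.A' p) e :=
    Finset.sum_nonneg fun e _ => D.iF_nonneg _
      (fun j y => (PB_uA h.M0 hL.br₀.hb hL.br₀.hF hL.br₀.hW (Dvd.intro_left b rfl) j).nonneg y)
      (fun j y => (PB_uA h.M0' hR'.br₀.hb hR'.br₀.hF hR'.br₀.hW (Dvd.intro_left b' rfl) j).nonneg y)
      e
  unfold eNM
  split_ifs with k1 k2
  · exact h0
  · exact h0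
  · rcases hv : vw s.p s.t with ⟨w, r, u₁, u₀, v, B, G⟩ | ⟨r, u₁, u₀⟩ | ⟨Sp, u⟩ <;>
    rcases hv' : vw s.p s.t' with ⟨w', r', u₁', u₀', v', B', G'⟩ | ⟨r', u₁', u₀'⟩ | ⟨Sp', u'⟩ <;>
    try exact h0
    have e1 := h.L.eq.symm.trans (vw_br hv)
    have e2 := h.R.eq.symm.trans (vw_br hv')
    obtain ⟨τ₁, τ₀, hτ, hr, -, -, -, hG⟩ := toDT_br e1
    obtain ⟨τ₁', τ₀', hτ', hr', -, -, -, hG'⟩ := toDT_br e2
    injection hτ with a1 a2 a3
    injection hτ' with a1' a2' a3'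
    subst a2 a3 a2' a3'
    rw [← D.Q_eq]
    rw [hr, hG, hG', ← a1]
    exact Q_offd_le hL.sat_br hR'.sat_br h.M0 h.M0' hL.pb_G hR'.pb_G hL.pb_g hR'.pb_g hL.G_le
      hR'.G_le

/-- **(H1) for the `[E]` part of an NM column**, masses = integral masses of the state -/
theorem NM_E_le (hR : D.Rad ρ) (hab : ∀ j, D.al j ≤ D.be j) {p : ℕ} {t₁ t₀ t₁' t₀' : IT}
    (h : StI D sp s b pr (.br p t₁ t₀) b' pr' (.br p t₁' t₀')) {N : ℝ → ℝ}
    {P : Finset (ℕ × ℕ)} {N₁ N₁' : ℕ} (hN : 0 < N₁) (hN' : 0 < N₁')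
    (hP : ∀ e ∈ P, e.1 ∈ t₀.items ∧ e.2 ∈ t₀'.items ∧
      EP N D.γ ρ s.M (b * p) pr p s.M' (b' * p) pr' p e ∧
        rf (e.1 / pr) s.M ∣ N₁ ∧ rf (e.2 / pr') s.M' ∣ N₁') :
    ∑ e ∈ P, D.iF (Ro (D.rho p)) (D.uA s.M (b * p) pr t₀ s.A p)
        (D.uA s.M' (b' * p) pr' t₀' s.A' p) e ≤
      ∑ e ∈ P.filter (fun e => rf (e.1 / pr) s.M = 1 ∧ rf (e.2 / pr') s.M' = 1),
        min (mq D s.t s.A e.1) (mq D s.t' s.A' e.2) +
      (xs N₁' * ∑ j ∈ s.A.filter (fun j => D.it j ∈ t₀.items), mI s.t j +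
        xs N₁ * ∑ j ∈ s.A'.filter (fun j => D.it j ∈ t₀'.items), mI s.t' j) := by
  have hL := h.L
  have hR' := h.R
  have k1 : ∀ q ∈ t₀.items, mU D (b * p) pr p t₀ s.A q = mq D s.t s.A q := fun q hq => by
    rw [mU_col hab hL.hb hL.hF hL.hW s.A hq]
    exact Finset.sum_congr rfl fun j _ => (SideI_mI hL j).symm
  have k2 : ∀ q ∈ t₀'.items, mU D (b' * p) pr' p t₀' s.A' q = mq D s.t' s.A' q := fun q hq => by
    rw [mU_col hab hR'.hb hR'.hF hR'.hW s.A' hq]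
    exact Finset.sum_congr rfl fun j _ => (SideI_mI hR' j).symm
  have key := E_sum_le (A := s.A) (A' := s.A') hR h.M0 h.M0' hL.br₀.hb hR'.br₀.hb hL.br₀.hF
    hR'.br₀.hF hL.br₀.hW hR'.br₀.hW (Dvd.intro_left b rfl) (Dvd.intro_left b' rfl)
    (Ro (D.rho p)) hN hN' hP
  refine key.trans (le_of_eq ?_)
  have f1 : ∀ (B : Finset Λ) (d : DT Λ κ) (T : Finset ℕ),
      ∑ q ∈ T, mq D d B q = ∑ j ∈ B.filter (fun j => D.it j ∈ T), mI d j := by
    intro B d T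
    unfold mq
    rw [← Finset.sum_fiberwise_of_maps_to (s := B.filter (fun j => D.it j ∈ T)) (t := T)
      (g := D.it) (fun j hj => (Finset.mem_filter.1 hj).2)]
    refine Finset.sum_congr rfl fun q hq => Finset.sum_congr ?_ fun _ _ => rfl
    ext j
    simp only [Finset.mem_filter]
    constructor
    · rintro ⟨h1, h2⟩; exact ⟨⟨h1, h2 ▸ hq⟩, h2⟩
    · rintro ⟨⟨h1, _⟩, h2⟩; exact ⟨h1, h2⟩
  rw [← f1, ← f1, Finset.sum_congr rfl k1, Finset.sum_congr rfl k2]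
  congr 1
  refine Finset.sum_congr rfl fun e he => ?_
  obtain ⟨h1, h2, -⟩ := hP e (Finset.mem_filter.1 he).1
  rw [k1 _ h1, k2 _ h2]

end state

end Crest.Agent.R4.GInst194
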