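import Crest.Agent.R4.GInst194
import Crest.Agent.R4.Res927
import Crest.Agent.R4.OmData532
import Crest.Agent.R4.Frame758b

/-!
R4 (S0004), helper194, module G: node conditions `Res927.IM` for the integral masses `mI`, and the
comparison of the integral masses with the raw masses for the leaf weights of module OM.
-/

set_option autoImplicit false

namespace Crest.Agent.R4.IMI194

open Crest.Agent.R4.Tour104 Crest.Agent.R4.Tour758 Crest.Agent.R4.Avg758 Crest.Agent.R4.Clos758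
open Crest.Agent.R4.ClosL758 Crest.Agent.R4.ClosG758 Crest.Agent.R4.ClosR758
open Crest.Agent.R4.W363 Crest.Agent.R4.Cnt588 Crest.Agent.R4.Item464
open Crest.Agent.R4.Item758 Crest.Agent.R4.Piece464 Crest.Agent.R4.Fam464
open Crest.Agent.R4.Walk560 Crest.Agent.R4.GInst194
open Crest.Agent.R4.Om532 Crest.Agent.R4.OmSt532

/-- the items of the tree are split by divisibility -/
def Dv : IT → Prop
  | .leaf _ => True
  | .br p t₁ t₀ => (∀ q ∈ t₁.items, p ∣ q) ∧ (∀ q ∈ t₀.items, ¬ p ∣ q) ∧ Dv t₁ ∧ Dv t₀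
  | .add p t₁ t₀ => (∀ q ∈ t₁.items, p ∣ q) ∧ (∀ q ∈ t₀.items, ¬ p ∣ q) ∧ Dv t₁ ∧ Dv t₀
  | .up _ _ t => Dv t

lemma Dv_of_All {P : Bld532.Par} {W : ℕ → ℝ} {t : IT} :
    ∀ {s : Bld532.NS}, Bld532.All (Bld532.NodeOk P W) s t → Dv t := by
  induction t with
  | leaf S => intro s _; trivial
  | br p t₁ t₀ ih₁ ih₀ =>
    intro s h
    obtain ⟨⟨-, -, -, -, -, h1, h0, -⟩, k1, k0⟩ := h
    refine ⟨fun q hq => ?_, fun q hq => ?_, ih₁ k1, ih₀ k0⟩
    · rw [h1] at hq; exact (Finset.mem_filter.1 hq).2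
    · rw [h0] at hq; exact (Finset.mem_filter.1 hq).2
  | add p t₁ t₀ ih₁ ih₀ =>
    intro s h
    obtain ⟨⟨-, -, -, -, -, h1, h0, -⟩, k1, k0⟩ := h
    refine ⟨fun q hq => ?_, fun q hq => ?_, ih₁ k1, ih₀ k0⟩
    · rw [h1] at hq; exact (Finset.mem_filter.1 hq).2
    · rw [h0] at hq; exact (Finset.mem_filter.1 hq).2
  | up p Sp t ih => intro s h; exact ih h.2

lemma Dv_bld (P : Bld532.Par) (W : ℕ → ℝ) (n : ℕ) (S : Finset ℕ) :
    Dv (Bld532.bld P W n 1 S) := Dv_of_All (Bld532.bld_All_root P W n S)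

section
variable {Λ κ : Type*} [Fintype Λ] [DecidableEq Λ] [Fintype κ] [DecidableEq κ]
  {D : Item758.Par Λ κ}
  {sp : ℕ → Finset Λ}

/-- masses of a decorated item tree -/
lemma mI_toDT {b pr : ℕ} {t : IT} (hb : 0 < b) (hF : Fit b pr t) (hW : D.Wts pr t) (j : Λ) :
    mI (D.toDT sp b pr t) j = I ((D.toFT b pr t).U 1 j) := by
  unfold mI
  rw [D.toDT_g, D.toG_val hb hF hW]

lemma mI_zero {b pr : ℕ} {t : IT} (hb : 0 < b) (hF : Fit b pr t) (hW : D.Wts pr t) {j : Λ}
    (hj : D.it j ∉ t.items) : mI (D.toDT sp b pr t) j = 0 := by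
  rw [mI_toDT hb hF hW]
  have e : (D.toFT b pr t).U 1 j = fun _ => 0 := funext fun x => D.U_zero t b pr 1 j hj x
  rw [e]
  simp [I]

lemma mI_eq (hab : ∀ j, D.al j ≤ D.be j) {b pr : ℕ} {t : IT} (hb : 0 < b) (hF : Fit b pr t)
    (hW : D.Wts pr t) {j : Λ} (hj : D.it j ∈ t.items) :
    mI (D.toDT sp b pr t) j = (b : ℝ) * (D.be j - D.al j) * prf t (D.it j) *
      mnw (D.it j / (pr * pp t (D.it j))) (D.om j) := by
  rw [mI_toDT hb hF hW, D.I_U hab t b pr 1 hb hF hW (one_dvd _) j hj]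
  push_cast
  rw [div_one]

/-- node conditions -/
theorem IM_toDT (hab : ∀ j, D.al j ≤ D.be j) (t : IT) : ∀ b pr n : ℕ, 0 < b → t.Ok n →
    Fit b pr t → D.Wts pr t → Dv t →
    (D.toDT sp b pr t).All (Res927.IM (fun p j => p ∣ D.it j) mI) := by
  induction t with
  | leaf S =>
    intro b pr n hb hO hF hW _
    refine ⟨fun j => ?_, trivial, trivial⟩
    have e := mI_toDT (sp := sp) hb hF hW j
    show 0 ≤ mI (D.toDT sp b pr (.leaf S)) j
    rw [e]
    exact I_nonneg fun y => (FT.pb hb (D.toFT_Adm _ _ _ hb hF hW) (one_dvd _) j).nonneg y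
  | br p t₁ t₀ ih₁ ih₀ =>
    intro b pr n hb hO hF hW hD
    have hp : p.Prime := hF.1
    have hd := hF.2.2.1
    have hF1 := hF.2.2.2.1
    have hF0 := hF.2.2.2.2
    have hbp : 0 < b * p := Nat.mul_pos hb hp.pos
    have hp1 : (1 : ℝ) < p := by exact_mod_cast hp.one_lt
    have hp0 : (0 : ℝ) < p := by linarith
    refine ⟨⟨fun j => ?_, ?_, fun j => ?_⟩, ih₁ b (pr * p) p hb hO.2.2.2.1 hF1 (hW.br₁ hd) hD.2.2.1,
      ih₀ (b * p) pr p hbp hO.2.2.2.2 hF0 hW.br₀ hD.2.2.2⟩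
    · have e := mI_toDT (sp := sp) hb hF hW j
      show 0 ≤ mI (D.toDT sp b pr (.br p t₁ t₀)) j
      rw [e]
      exact I_nonneg fun y => (FT.pb hb (D.toFT_Adm _ _ _ hb hF hW) (one_dvd _) j).nonneg y
    · refine ⟨⟨by positivity, ?_⟩, le_rfl⟩
      rw [div_lt_one hp0]; exact hp1
    · refine ⟨fun hdv => ?_, fun hdv => ?_⟩
      · have hj0 : D.it j ∉ t₀.items := fun h => hD.2.1 _ h hdv
        refine ⟨mI_zero hbp hF0 hW.br₀ hj0, ?_⟩
        show _ ≤ mI (D.toDT sp b pr (.br p t₁ t₀)) j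
        by_cases hj1 : D.it j ∈ t₁.items
        · have hj : D.it j ∈ (IT.br p t₁ t₀).items := Finset.mem_union_left _ hj1
          rw [mI_eq hab hb hF1 (hW.br₁ hd) hj1, mI_eq hab hb hF hW hj]
          have e : pp (.br p t₁ t₀) (D.it j) = p * pp t₁ (D.it j) := if_neg hj0
          have e' : prf (.br p t₁ t₀) (D.it j) = (1 - 1 / (p : ℝ)) * prf t₁ (D.it j) := if_neg hj0
          rw [e, e', mul_assoc pr p]
          exact le_of_eq (by ring)
        · have hj : D.it j ∉ (IT.br p t₁ t₀).items := fun h =>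
            (Finset.mem_union.1 h).elim hj1 hj0
          rw [mI_zero hb hF1 (hW.br₁ hd) hj1, mI_zero hb hF hW hj, mul_zero]
      · have hj1 : D.it j ∉ t₁.items := fun h => hdv (hD.1 _ h)
        refine ⟨mI_zero hb hF1 (hW.br₁ hd) hj1, ?_⟩
        show _ ≤ mI (D.toDT sp b pr (.br p t₁ t₀)) j
        by_cases hj0 : D.it j ∈ t₀.items
        · have hj : D.it j ∈ (IT.br p t₁ t₀).items := Finset.mem_union_right _ hj0
          rw [mI_eq hab hbp hF0 hW.br₀ hj0, mI_eq hab hb hF hW hj]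
          have e : pp (.br p t₁ t₀) (D.it j) = pp t₀ (D.it j) := if_pos hj0
          have e' : prf (.br p t₁ t₀) (D.it j) = prf t₀ (D.it j) := if_pos hj0
          rw [e, e']
          refine le_of_eq ?_
          push_cast
          field_simp
        · have hj : D.it j ∉ (IT.br p t₁ t₀).items := fun h =>
            (Finset.mem_union.1 h).elim hj1 hj0
          rw [mI_zero hbp hF0 hW.br₀ hj0, mI_zero hb hF hW hj, mul_zero]
  | add p t₁ t₀ ih₁ ih₀ =>
    intro b pr n hb hO hF hW hD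
    have hd := hF.1
    have hF1 := hF.2.1
    have hF0 := hF.2.2
    refine ⟨⟨fun j => ?_, trivial, fun j => ?_⟩, ih₁ b pr p hb hO.2.2.2.1 hF1 (hW.add₁ hd) hD.2.2.1,
      ih₀ b pr p hb hO.2.2.2.2 hF0 hW.add₀ hD.2.2.2⟩
    · have e := mI_toDT (sp := sp) hb hF hW j
      show 0 ≤ mI (D.toDT sp b pr (.add p t₁ t₀)) j
      rw [e]
      exact I_nonneg fun y => (FT.pb hb (D.toFT_Adm _ _ _ hb hF hW) (one_dvd _) j).nonneg y
    · refine ⟨fun hdv => ?_, fun hdv => ?_⟩
      · have hj0 : D.it j ∉ t₀.items := fun h => hD.2.1 _ h hdv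
        refine ⟨mI_zero hb hF0 hW.add₀ hj0, ?_⟩
        show _ ≤ mI (D.toDT sp b pr (.add p t₁ t₀)) j
        by_cases hj1 : D.it j ∈ t₁.items
        · have hj : D.it j ∈ (IT.add p t₁ t₀).items := Finset.mem_union_left _ hj1
          rw [mI_eq hab hb hF1 (hW.add₁ hd) hj1, mI_eq hab hb hF hW hj]
          have e : pp (.add p t₁ t₀) (D.it j) = pp t₁ (D.it j) := if_neg hj0
          have e' : prf (.add p t₁ t₀) (D.it j) = prf t₁ (D.it j) := if_neg hj0
          rw [e, e']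
        · have hj : D.it j ∉ (IT.add p t₁ t₀).items := fun h =>
            (Finset.mem_union.1 h).elim hj1 hj0
          rw [mI_zero hb hF1 (hW.add₁ hd) hj1, mI_zero hb hF hW hj]
      · have hj1 : D.it j ∉ t₁.items := fun h => hdv (hD.1 _ h)
        refine ⟨mI_zero hb hF1 (hW.add₁ hd) hj1, ?_⟩
        show _ ≤ mI (D.toDT sp b pr (.add p t₁ t₀)) j
        by_cases hj0 : D.it j ∈ t₀.items
        · have hj : D.it j ∈ (IT.add p t₁ t₀).items := Finset.mem_union_right _ hj0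
          rw [mI_eq hab hb hF0 hW.add₀ hj0, mI_eq hab hb hF hW hj]
          have e : pp (.add p t₁ t₀) (D.it j) = pp t₀ (D.it j) := if_pos hj0
          have e' : prf (.add p t₁ t₀) (D.it j) = prf t₀ (D.it j) := if_pos hj0
          rw [e, e']
        · have hj : D.it j ∉ (IT.add p t₁ t₀).items := fun h =>
            (Finset.mem_union.1 h).elim hj1 hj0
          rw [mI_zero hb hF0 hW.add₀ hj0, mI_zero hb hF hW hj]
  | up p Sp t ih =>
    intro b pr n hb hO hF hW hD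
    refine ⟨⟨fun j => ?_, trivial, fun j => ?_⟩, ih b pr p hb hO.2.2.2 hF hW hD⟩
    · have e := mI_toDT (sp := sp) (t := t) hb hF hW j
      show 0 ≤ mI (D.toDT sp b pr t) j
      rw [e]
      exact I_nonneg fun y => (FT.pb hb (D.toFT_Adm _ _ _ hb hF hW) (one_dvd _) j).nonneg y
    · exact le_rfl

/-! ### integral masses and raw masses -/

/-- `prf · pp = φ(pp)` at every node -/
lemma prf_pp (t : IT) : ∀ n : ℕ, t.Ok n → ∀ q,
    prf t q * (pp t q : ℝ) = ((pp t q).totient : ℝ) ∧ 0 < pp t q ∧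
      ∀ r, r.Prime → r ∣ pp t q → r < n := by
  induction t with
  | leaf S =>
    intro n _ q
    refine ⟨by simp [prf, pp], Nat.one_pos, fun r hr h => ?_⟩
    exact absurd (Nat.dvd_one.1 h) hr.ne_one
  | br p t₁ t₀ ih₁ ih₀ =>
    intro n h q
    obtain ⟨hp, hpn, -, h1, h0⟩ := h
    simp only [prf, pp]
    split_ifs with hq
    · obtain ⟨a, b, c⟩ := ih₀ p h0 q
      exact ⟨a, b, fun r hr hd => (c r hr hd).trans hpn⟩
    · obtain ⟨a, b, c⟩ := ih₁ p h1 q
      have hco : Nat.Coprime p (pp t₁ q) := by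
        rw [hp.coprime_iff_not_dvd]
        intro hd
        exact lt_irrefl _ (c p hp hd)
      refine ⟨?_, Nat.mul_pos hp.pos b, fun r hr hd => ?_⟩
      · rw [Nat.totient_mul hco, Nat.totient_prime hp]
        have hpR : (p : ℝ) ≠ 0 := by exact_mod_cast hp.ne_zero
        push_cast [Nat.cast_sub hp.one_lt.le]
        rw [← a]
        field_simp
      · rcases (Nat.Prime.dvd_mul hr).1 hd with h2 | h2
        · rw [(Nat.prime_dvd_prime_iff_eq hr hp).1 h2]; exact hpn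
        · exact (c r hr h2).trans hpn
  | add b' t₁ t₀ ih₁ ih₀ =>
    intro n h q
    obtain ⟨hp, hpn, -, h1, h0⟩ := h
    simp only [prf, pp]
    split_ifs with hq
    · obtain ⟨a, b, c⟩ := ih₀ b' h0 q
      exact ⟨a, b, fun r hr hd => (c r hr hd).trans hpn⟩
    · obtain ⟨a, b, c⟩ := ih₁ b' h1 q
      exact ⟨a, b, fun r hr hd => (c r hr hd).trans hpn⟩
  | up b' Sp t ih =>
    intro n h q
    obtain ⟨hp, hpn, -, h0⟩ := h
    simp only [prf, pp]
    obtain ⟨a, b, c⟩ := ih b' h0 q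
    exact ⟨a, b, fun r hr hd => (c r hr hd).trans hpn⟩

/-- node condition: means of the leaf weights, squarefree items -/
def Mn (D : Item758.Par Λ κ) (C : ℝ) (pr : ℕ) (t : IT) : Prop :=
  ∀ j, D.it j ∈ t.items → Squarefree (D.it j) ∧ pr * pp t (D.it j) ∣ D.it j ∧
    mnw (D.it j / (pr * pp t (D.it j))) (D.om j) ≤
      C * (((D.it j / (pr * pp t (D.it j))).totient : ℝ) /
        ((D.it j / (pr * pp t (D.it j)) : ℕ) : ℝ))

lemma Mn.br₁ {C : ℝ} {pr p : ℕ} {t₁ t₀ : IT} (hd : Disjoint t₁.items t₀.items)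
    (h : Mn D C pr (.br p t₁ t₀)) : Mn D C (pr * p) t₁ := by
  intro j hj
  have h2 := h j (Finset.mem_union_left _ hj)
  have h3 : D.it j ∉ t₀.items := Finset.disjoint_left.1 hd hj
  have e : pp (.br p t₁ t₀) (D.it j) = p * pp t₁ (D.it j) := if_neg h3
  rw [e, ← mul_assoc] at h2
  exact h2

lemma Mn.br₀ {C : ℝ} {pr p : ℕ} {t₁ t₀ : IT} (h : Mn D C pr (.br p t₁ t₀)) : Mn D C pr t₀ := by
  intro j hj
  have h2 := h j (Finset.mem_union_right _ hj)
  have e : pp (.br p t₁ t₀) (D.it j) = pp t₀ (D.it j) := if_pos hj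
  rw [e] at h2
  exact h2

lemma Mn.add₁ {C : ℝ} {pr p : ℕ} {t₁ t₀ : IT} (hd : Disjoint t₁.items t₀.items)
    (h : Mn D C pr (.add p t₁ t₀)) : Mn D C pr t₁ := by
  intro j hj
  have h2 := h j (Finset.mem_union_left _ hj)
  have h3 : D.it j ∉ t₀.items := Finset.disjoint_left.1 hd hj
  have e : pp (.add p t₁ t₀) (D.it j) = pp t₁ (D.it j) := if_neg h3
  rw [e] at h2
  exact h2

lemma Mn.add₀ {C : ℝ} {pr p : ℕ} {t₁ t₀ : IT} (h : Mn D C pr (.add p t₁ t₀)) : Mn D C pr t₀ := by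
  intro j hj
  have h2 := h j (Finset.mem_union_right _ hj)
  have e : pp (.add p t₁ t₀) (D.it j) = pp t₀ (D.it j) := if_pos hj
  rw [e] at h2
  exact h2

/-- **integral masses are at most `C` raw masses** -/
theorem mI_le_raw (hab : ∀ j, D.al j ≤ D.be j) {C : ℝ} {b pr n : ℕ} {t : IT} (hb : 0 < b)
    (hO : t.Ok n) (hF : Fit b pr t) (hW : D.Wts pr t) (hM : Mn D C pr t) {j : Λ}
    (hj : D.it j ∈ t.items) :
    mI (D.toDT sp b pr t) j ≤ C * (Item758.cf b pr *
      ((D.be j - D.al j) * (((D.it j).totient : ℝ) / (D.it j : ℝ)))) := by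
  rw [mI_eq hab hb hF hW hj]
  obtain ⟨hsq, hdv, hmn⟩ := hM j hj
  obtain ⟨hpe, hpp, -⟩ := prf_pp t n hO (D.it j)
  have hq0 : 0 < D.it j := (hF.item _ hj).1
  obtain ⟨w, hw⟩ := hdv
  have hP0 : 0 < pr * pp t (D.it j) := Nat.pos_of_dvd_of_pos ⟨w, hw⟩ hq0
  have hpr0 : 0 < pr := Nat.pos_of_mul_pos_right hP0
  have hw0 : 0 < w := by
    rcases Nat.eq_zero_or_pos w with h | h
    · rw [h, mul_zero] at hw; omega
    · exact h
  have hwd : D.it j / (pr * pp t (D.it j)) = w := by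
    conv_lhs => rw [hw]
    rw [← hw]
    exact Nat.div_eq_of_eq_mul_right hP0 hw
  rw [hwd] at hmn ⊢
  set P := pp t (D.it j) with hPdef
  have hsq' : Squarefree (pr * P * w) := by rw [← hw]; exact hsq
  have c1 : Nat.Coprime (pr * P) w := Nat.coprime_of_squarefree_mul hsq'
  have c2 : Nat.Coprime pr P := Nat.coprime_of_squarefree_mul
    (hsq'.squarefree_of_dvd (Dvd.intro w rfl))
  have e1 : ((D.it j).totient : ℝ) = (pr.totient : ℝ) * (P.totient : ℝ) * (w.totient : ℝ) := by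
    have : (D.it j).totient = pr.totient * P.totient * w.totient := by
      conv_lhs => rw [hw]
      rw [Nat.totient_mul c1, Nat.totient_mul c2]
    rw [this]; push_cast; ring
  have e2 : (D.it j : ℝ) = (pr : ℝ) * P * w := by
    have : ((D.it j : ℕ) : ℝ) = ((pr * P * w : ℕ) : ℝ) := by rw [← hw]
    rw [this]; push_cast; ring
  have p1 : (0 : ℝ) < pr := by exact_mod_cast hpr0
  have p2 : (0 : ℝ) < P := by exact_mod_cast hpp
  have p3 : (0 : ℝ) < w := by exact_mod_cast hw0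
  have p4 : (0 : ℝ) < (pr.totient : ℝ) := by exact_mod_cast Nat.totient_pos.2 hpr0
  have p5 : (0 : ℝ) < (P.totient : ℝ) := by exact_mod_cast Nat.totient_pos.2 hpp
  have hprf : prf t (D.it j) = (P.totient : ℝ) / P := by
    rw [eq_div_iff p2.ne']; exact hpe
  rw [hprf, e1, e2]
  unfold Item758.cf
  have h0 : 0 ≤ (b : ℝ) * (D.be j - D.al j) * ((P.totient : ℝ) / P) :=
    mul_nonneg (mul_nonneg (by positivity) (sub_nonneg.2 (hab j))) (by positivity)
  refine (mul_le_mul_of_nonneg_left hmn h0).trans (le_of_eq ?_)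
  field_simp

end

/-! ### upper bound for the means of the weights of module OM -/

section om
variable {good : Prop} {ret : Finset ℕ} {T : ℕ → Finset ℚ} {u : ℕ → ℤ → ℝ} {w : ℕ}

/-- **mean of the weight, upper bound** -/
theorem omw_mean_le (hw : 0 < w) (hu : Ovl560.LW w.primeFactors u)
    (hmu : ∀ l ∈ w.primeFactors, l ∉ ret → mn u l ≤ 1 - 1 / (l : ℝ))
    (hs : ∑ l ∈ w.primeFactors.filter (· ∈ ret), 1 / (l : ℝ) ≤ 1 / 2) :
    mnw w (omw good ret T u w) ≤ 2 * ((w.totient : ℝ) / w) := by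
  classical
  by_cases hg : good
  swap
  · have e : omw good ret T u w = fun _ => 0 := by
      funext a; unfold omw; rw [if_neg hg]
    rw [e]
    unfold mnw
    rw [Finset.sum_const_zero, zero_div]
    positivity
  have e : omw good ret T u w = Ovl560.nw w.primeFactors (locw ret T u) := by
    funext a; unfold omw; rw [if_pos hg]
  rw [e, mnw_nw hw (LW_locw hu) (fun l hl => Nat.prime_of_mem_primeFactors hl)
    (fun l hl => Nat.dvd_of_mem_primeFactors hl), phi_prod hw]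
  set A := w.primeFactors.filter (· ∈ ret) with hA
  set B := w.primeFactors.filter (¬ · ∈ ret) with hB
  have hsplit : ∀ f : ℕ → ℝ, ∏ l ∈ w.primeFactors, f l = (∏ l ∈ A, f l) * ∏ l ∈ B, f l := fun f =>
    (Finset.prod_filter_mul_prod_filter_not _ _ _).symm
  rw [hsplit, hsplit]
  have hpA : ∀ l ∈ A, l.Prime := fun l hl =>
    Nat.prime_of_mem_primeFactors (Finset.mem_filter.1 hl).1
  have hpB : ∀ l ∈ B, l.Prime := fun l hl =>
    Nat.prime_of_mem_primeFactors (Finset.mem_filter.1 hl).1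
  have hLW := LW_locw (ret := ret) (T := T) hu
  have hn : ∀ l ∈ w.primeFactors, 0 ≤ mn (locw ret T u) l := fun l hl => by
    unfold mn
    exact div_nonneg (Finset.sum_nonneg fun i _ => (hLW l hl).1 _) (Nat.cast_nonneg _)
  have hA1 : ∏ l ∈ A, mn (locw ret T u) l ≤ 1 := by
    refine Finset.prod_le_one (fun l hl => hn l (Finset.mem_filter.1 hl).1) fun l hl => ?_
    have hl0 : (0 : ℝ) < l := by exact_mod_cast (hpA l hl).pos
    unfold mn
    rw [div_le_one hl0]
    calc ∑ j ∈ Finset.range l, locw ret T u l (j : ℤ) ≤ ∑ j ∈ Finset.range l, (1 : ℝ) := by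
          refine Finset.sum_le_sum fun j _ => ?_
          unfold locw
          rw [if_pos (Finset.mem_filter.1 hl).2]
          exact cls_le_one _ _ _
      _ = l := by rw [Finset.sum_const, Finset.card_range]; simp
  have hB1 : ∏ l ∈ B, mn (locw ret T u) l ≤ ∏ l ∈ B, (1 - 1 / (l : ℝ)) := by
    refine Finset.prod_le_prod (fun l hl => hn l (Finset.mem_filter.1 hl).1) fun l hl => ?_
    have h3 : mn (locw ret T u) l = mn u l := by
      unfold mn locw
      simp only [if_neg (Finset.mem_filter.1 hl).2]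
    rw [h3]
    exact hmu l (Finset.mem_filter.1 hl).1 (Finset.mem_filter.1 hl).2
  have hB0 : 0 ≤ ∏ l ∈ B, (1 - 1 / (l : ℝ)) :=
    Finset.prod_nonneg fun l hl => LF363.one_sub_nonneg (hpB l hl)
  have hx1 : ∀ l ∈ A, 1 / (l : ℝ) ≤ 1 := fun l hl => by
    have h1 : (1 : ℝ) ≤ l := by exact_mod_cast (hpA l hl).one_lt.le
    rw [div_le_one (by linarith)]; exact h1
  have hA2 : (1 : ℝ) / 2 ≤ ∏ l ∈ A, (1 - 1 / (l : ℝ)) := by
    refine le_trans ?_ (prod_one_sub_ge A _ (fun i _ => by positivity) hx1)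
    linarith
  calc (∏ l ∈ A, mn (locw ret T u) l) * ∏ l ∈ B, mn (locw ret T u) l
      ≤ 1 * ∏ l ∈ B, (1 - 1 / (l : ℝ)) := mul_le_mul hA1 hB1
        (Finset.prod_nonneg fun l hl => hn l (Finset.mem_filter.1 hl).1) zero_le_one
    _ ≤ 2 * ((∏ l ∈ A, (1 - 1 / (l : ℝ))) * ∏ l ∈ B, (1 - 1 / (l : ℝ))) := by
        have := mul_le_mul_of_nonneg_right hA2 hB0
        linarith

/-- means of the weights `omT` -/
lemma omT_mean_le {t : IT} {S' : Finset ℕ} {T' : ℕ → ℕ → Finset ℚ} {th ph : ℕ → ℝ}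
    {lab : ℕ → Option ℚ} {q : ℕ} (hq : 0 < q / pp t q)
    (hs : ∑ b ∈ Data758.rt t q, 1 / (b : ℝ) ≤ 1 / 2) :
    mnw (q / pp t q) (OmData532.omT t S' T' th ph lab q) ≤
      2 * (((q / pp t q).totient : ℝ) / ((q / pp t q : ℕ) : ℝ)) := by
  unfold OmData532.omT
  refine omw_mean_le hq (LF363.LW_uw _ _ _ _) (fun l hl _ =>
    (LF363.mn_uw _ _ _ (Nat.prime_of_mem_primeFactors hl)).le) ?_
  refine le_trans (Finset.sum_le_sum_of_subset_of_nonneg ?_ fun i _ _ => by positivity) hs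
  intro l hl
  exact (Finset.mem_filter.1 hl).2

end om

section frame
open Crest.Agent.R4.Frame758
variable {Λ κ₀ : Type*} [Fintype Λ] [DecidableEq Λ] [Fintype κ₀] [DecidableEq κ₀]
  {X : Finset (ℕ × ℕ × Finset ℕ)} [Fintype (Lb κ₀ X)] [DecidableEq (Lb κ₀ X)]

/-- **the integral mass of a population is at most `C` times its raw mass** -/
theorem sum_mI_le (D : Par0 Λ κ₀) {sp : ℕ → Finset Λ} (j₀ : Λ) (hab : ∀ j, D.al j ≤ D.be j)
    {C : ℝ} {b pr n : ℕ} {t : IT} (hX : leafs b pr t ⊆ X) (hb : 0 < b) (hO : t.Ok n)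
    (hF : Fit b pr t) (hC : Cop pr t) (hW : (D.par X).Wts pr t) (hM : Mn (D.par X) C pr t)
    (A : Finset Λ) :
    ∑ j ∈ A, mI (tD D X sp b pr t) j ≤ C * tM D (wt D) j₀ X (tG D X b pr t) A := by
  rw [tM_eq D (wt D) j₀ hF hC hX A]
  have h1 : ∑ j ∈ A, mI (tD D X sp b pr t) j =
      ∑ j ∈ A.filter (fun j => D.it j ∈ t.items), mI (tD D X sp b pr t) j := by
    rw [Finset.sum_filter]
    refine Finset.sum_congr rfl fun j _ => ?_
    split_ifs with hj
    · rfl
    · exact mI_zero hb hF hW hj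
  rw [h1, Finset.mul_sum, Finset.mul_sum]
  refine Finset.sum_le_sum fun j hj => ?_
  exact mI_le_raw (D := D.par X) (sp := sp) hab hb hO hF hW hM (Finset.mem_filter.1 hj).2

end frame

end Crest.Agent.R4.IMI194
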