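import Mathlib
import Crest.Agent.R4.StopCore2_709

/-!
R4 (S0004), helper709: pairs crossing at a prime `b` (`b ∣ v`, `b ∤ w`): transfer `(V, W) → (V, b W)` of the two-target
estimate `DeepHyp` (207 #14037): both gains (`T^-κ` and `(b-1)^{-(1/2-ε)}`).
-/

set_option autoImplicit false
open Finset

namespace Crest.Agent.R4.StopAsm709
open Crest.Agent.R4.HVW560 Crest.Agent.R4.HVWX793
open Crest.Agent.R4.Schur709 Crest.Agent.R4.StopHvw709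

open Crest.Agent.R4.LF11 Crest.Agent.R4.LF11s Crest.Agent.R4.ClsS in
/-- two-target estimate for pairs crossing at `b` -/
def CrossHyp (Gen : ℝ → ℝ → ℝ → ℕ → ℕ → ℝ → ℝ → Prop) (κ : ℝ) : Prop :=
  ∃ C c0 : ℝ, 1 ≤ C ∧ 0 < c0 ∧ ∀ c1 : ℝ, 0 < c1 → c1 ≤ c0 → ∃ T0 : ℝ, 1 ≤ T0 ∧
    ∀ (θ θ' T X K : ℝ) (V W : Finset ℕ) (E : Finset (ℕ × ℕ)) (ψ ψ' : ℕ → ℝ) (T1 : ℕ × ℕ → ℝ) (G b : ℕ),
    b.Prime → T0 ≤ T → X ≤ Real.exp (T^c1) → 0 ≤ K → 0 < G →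
    (∀ v ∈ V, 0 < v ∧ 0 < ψ v ∧ b ∣ v) → (∀ w ∈ W, 0 < w ∧ 0 < ψ' w ∧ ¬ b ∣ w) →
    XTame X (G * b) V → XTame X G W →
    E ⊆ V ×ˢ W → (∀ e ∈ E, DD ψ ψ' e ≤ 1/T) →
    (∀ e ∈ E, T1 e ≤ K * ((wt ψ e.1 * wt ψ' e.2) / DD ψ ψ' e)) →
    (∀ e ∈ E, ∀ t : ℝ, T ≤ t → 1/(2*t) < DD ψ ψ' e → DD ψ ψ' e ≤ 1/t → 0 < T1 e →
      Gen θ (b * θ') t (cof e.1 (b * e.2)) (cof (b * e.2) e.1) (ψ e.1) (b * ψ' e.2)) →
    ∑ e ∈ E, T1 e ≤ C * K * T^(-κ) * ((b:ℝ) - 1)^(-(1/2-eps1)) *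
      ((∑ v ∈ V, wt ψ v) * (∑ w ∈ W, wt ψ' w))^(1/2+eps1)

lemma cof_mul_left {b v w : ℕ} (hb : b.Prime) (hbv : b ∣ v) (hbw : ¬ b ∣ w) (hv : 0 < v) :
    b * cof v (b * w) = cof v w ∧ cof (b * w) v = cof w v := by
  obtain ⟨v1, rfl⟩ := hbv
  have hb0 := hb.pos
  have hv1 : 0 < v1 := Nat.pos_of_mul_pos_left hv |> fun h => by
    rcases Nat.eq_zero_or_pos v1 with h0 | h0
    · rw [h0] at hv; simp at hv
    · exact h0
  have hcop : Nat.Coprime w b := ((Nat.Prime.coprime_iff_not_dvd hb).2 hbw).symm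
  have h1 : Nat.gcd (b * v1) (b * w) = b * Nat.gcd v1 w := Nat.gcd_mul_left _ _ _
  have h2 : Nat.gcd (b * v1) w = Nat.gcd v1 w := by
    rw [mul_comm]
    exact Nat.Coprime.gcd_mul_right_cancel v1 hcop.symm
  have h3 : Nat.gcd (b * w) (b * v1) = b * Nat.gcd w v1 := Nat.gcd_mul_left _ _ _
  have h4 : Nat.gcd w (b * v1) = Nat.gcd w v1 := by rw [Nat.gcd_comm, h2, Nat.gcd_comm]
  unfold cof
  constructor
  · rw [h1, h2, Nat.mul_div_mul_left _ _ hb0]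
    exact (Nat.mul_div_assoc b (Nat.gcd_dvd_left v1 w)).symm
  · rw [h3, h4, Nat.mul_div_mul_left _ _ hb0]

open Crest.Agent.R4.LF11 Crest.Agent.R4.LF11s Crest.Agent.R4.ClsS Crest.Agent.R4.ClsB in
/-- **transfer** `(V, W) → (V, b W)` -/
theorem crossHyp_of {Gen : ℝ → ℝ → ℝ → ℕ → ℕ → ℝ → ℝ → Prop} {κ : ℝ} (hGen : DeepHyp Gen κ) :
    CrossHyp Gen κ := by
  classical
  obtain ⟨C, c0, hC1, hc0, hC⟩ := hGen
  refine ⟨C, c0, hC1, hc0, ?_⟩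
  intro c1 hc1 hc10
  obtain ⟨T0, hT01, hT0⟩ := hC c1 hc1 hc10
  refine ⟨T0, hT01, ?_⟩
  intro θ θ' T X K V W E ψ ψ' T1 G b hb hT hX hK hG hV hW hVt hWt hE hD hT1 hgen
  have hb0 : 0 < b := hb.pos
  have hb1 : (0:ℝ) < (b:ℝ) - 1 := by
    have : (2:ℝ) ≤ b := by exact_mod_cast hb.two_le
    linarith
  have hbr : (0:ℝ) < b := by exact_mod_cast hb0
  set θ2 : ℝ := b * θ' with hθ2
  set ψ2 : ℕ → ℝ := fun u => b * ψ' (u / b) with hψ2
  set W2 := W.image (fun w => b * w) with hW2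
  set E2 := E.image (fun e => (e.1, b * e.2)) with hE2
  have hdiv : ∀ w : ℕ, b * w / b = w := fun w => Nat.mul_div_cancel_left w hb0
  have hψ2w : ∀ w : ℕ, ψ2 (b * w) = b * ψ' w := fun w => by
    show (b:ℝ) * ψ' (b * w / b) = b * ψ' w
    rw [hdiv]
  have injW : Set.InjOn (fun w => b * w) (W : Set ℕ) := fun x _ y _ h =>
    Nat.eq_of_mul_eq_mul_left hb0 h
  have injE : Set.InjOn (fun e : ℕ × ℕ => (e.1, b * e.2)) (E : Set (ℕ × ℕ)) := by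
    intro x _ y _ h
    have h1 := congrArg Prod.fst h
    have h2 := congrArg Prod.snd h
    exact Prod.ext h1 (Nat.eq_of_mul_eq_mul_left hb0 h2)
  have hcof : ∀ e ∈ E, (b * cof e.1 (b * e.2) = cof e.1 e.2) ∧ cof (b * e.2) e.1 = cof e.2 e.1 := by
    intro e he
    have h := Finset.mem_product.1 (hE he)
    exact cof_mul_left hb (hV _ h.1).2.2 (hW _ h.2).2.2 (hV _ h.1).1
  have hDD : ∀ e ∈ E, DD ψ ψ2 (e.1, b * e.2) = DD ψ ψ' e := by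
    intro e he
    obtain ⟨h1, h2⟩ := hcof e he
    unfold DD
    show max ((cof (b * e.2) e.1 : ℝ) * ψ e.1) ((cof e.1 (b * e.2) : ℝ) * ψ2 (b * e.2)) = _
    rw [h2, hψ2w]
    congr 1
    rw [← h1]
    push_cast
    ring
  have hwt : ∀ w ∈ W, wt ψ2 (b * w) = ((b:ℝ) - 1) * wt ψ' w := by
    intro w hw
    obtain ⟨h1, h2, h3⟩ := hW w hw
    have hcop : Nat.Coprime b w := (Nat.Prime.coprime_iff_not_dvd hb).2 h3
    have hw0 : (w:ℝ) ≠ 0 := by exact_mod_cast h1.ne'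
    unfold wt
    rw [hψ2w, Nat.totient_mul hcop, Nat.totient_prime hb]
    push_cast
    rw [Nat.cast_sub hb.one_le, Nat.cast_one]
    field_simp
  have hDpos : ∀ e ∈ E, 0 < DD ψ ψ' e := by
    intro e he
    have h := Finset.mem_product.1 (hE he)
    exact DD_pos (hW _ h.2).1 (hV _ h.1).2.1
  have key := hT0 θ θ2 T X (K / ((b:ℝ) - 1)) V W2 E2 ψ ψ2 (fun f => T1 (f.1, f.2 / b)) (G * b) hT hX
    (by positivity) (Nat.mul_pos hG hb0)
    (fun v hv => ⟨(hV v hv).1, (hV v hv).2.1⟩)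
    (by
      intro u hu
      obtain ⟨w, hw, rfl⟩ := Finset.mem_image.1 hu
      refine ⟨Nat.mul_pos hb0 (hW w hw).1, ?_⟩
      show 0 < ψ2 (b * w)
      rw [hψ2w]
      exact mul_pos hbr (hW w hw).2.1)
    hVt
    (by
      intro z hz u hu
      obtain ⟨w, hw, rfl⟩ := Finset.mem_image.1 hu
      obtain ⟨h1, h2⟩ := hWt z hz w hw
      show Tame z (G * b) (b * w)
      refine ⟨by rw [mul_comm b w]; exact Nat.mul_dvd_mul h1 (dvd_refl b), ?_⟩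
      have : b * w / (G * b) = w / G := by
        rw [mul_comm G b, Nat.mul_div_mul_left _ _ hb0]
      rw [this]; exact h2)
    (by
      intro f hf
      obtain ⟨e, he, rfl⟩ := Finset.mem_image.1 hf
      have h := Finset.mem_product.1 (hE he)
      exact Finset.mem_product.2 ⟨h.1, Finset.mem_image_of_mem _ h.2⟩)
    (by
      intro f hf
      obtain ⟨e, he, rfl⟩ := Finset.mem_image.1 hf
      rw [hDD e he]
      exact hD e he)
    (by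
      intro f hf
      obtain ⟨e, he, rfl⟩ := Finset.mem_image.1 hf
      have h := Finset.mem_product.1 (hE he)
      show T1 (e.1, b * e.2 / b) ≤ _
      rw [hdiv, hDD e he]
      refine (hT1 e he).trans ?_
      unfold ew
      show _ ≤ K / ((b:ℝ) - 1) * (wt ψ e.1 * wt ψ2 (b * e.2) *
        (Af (cof e.1 (b * e.2)) * Af (cof (b * e.2) e.1)) / DD ψ ψ' e)
      rw [hwt _ h.2]
      have f1 := one_le_Af (cof e.1 (b * e.2))
      have f2 := one_le_Af (cof (b * e.2) e.1)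
      have f3 : 1 ≤ Af (cof e.1 (b * e.2)) * Af (cof (b * e.2) e.1) := by nlinarith
      have g1 : 0 ≤ wt ψ e.1 := wt_nonneg (hV _ h.1).2.1.le
      have g2 : 0 ≤ wt ψ' e.2 := wt_nonneg (hW _ h.2).2.1.le
      have hD0 := hDpos e he
      have e1 : K / ((b:ℝ) - 1) * (wt ψ e.1 * (((b:ℝ) - 1) * wt ψ' e.2) *
        (Af (cof e.1 (b * e.2)) * Af (cof (b * e.2) e.1)) / DD ψ ψ' e)
          = K * ((wt ψ e.1 * wt ψ' e.2) / DD ψ ψ' e) *
            (Af (cof e.1 (b * e.2)) * Af (cof (b * e.2) e.1)) := by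
        field_simp
      rw [e1]
      have g3 : 0 ≤ K * ((wt ψ e.1 * wt ψ' e.2) / DD ψ ψ' e) := by positivity
      nlinarith)
    (by
      intro f hf t ht h1 h2 h3
      obtain ⟨e, he, rfl⟩ := Finset.mem_image.1 hf
      rw [hDD e he] at h1 h2
      have h3' : 0 < T1 e := by
        have : T1 (e.1, b * e.2 / b) = T1 e := by rw [hdiv]
        rw [← this]; exact h3
      have h4 := hgen e he t ht h1 h2 h3'
      show Gen θ θ2 t (cof e.1 (b * e.2)) (cof (b * e.2) e.1) (ψ e.1) (ψ2 (b * e.2))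
      rw [hψ2w]
      exact h4)
  have s1 : ∑ f ∈ E2, T1 (f.1, f.2 / b) = ∑ e ∈ E, T1 e := by
    rw [hE2, Finset.sum_image injE]
    apply Finset.sum_congr rfl
    intro e _
    show T1 (e.1, b * e.2 / b) = T1 e
    rw [hdiv]
  have s2 : ∑ u ∈ W2, wt ψ2 u = ((b:ℝ) - 1) * ∑ w ∈ W, wt ψ' w := by
    rw [hW2, Finset.sum_image injW, Finset.mul_sum]
    exact Finset.sum_congr rfl hwt
  rw [s1, s2] at key
  have hM0 : 0 ≤ (∑ v ∈ V, wt ψ v) * (∑ w ∈ W, wt ψ' w) :=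
    mul_nonneg (Finset.sum_nonneg fun v hv => wt_nonneg (hV v hv).2.1.le)
      (Finset.sum_nonneg fun v hv => wt_nonneg (hW v hv).2.1.le)
  refine key.trans (le_of_eq ?_)
  have e2 : (∑ v ∈ V, wt ψ v) * (((b:ℝ) - 1) * ∑ w ∈ W, wt ψ' w)
      = ((b:ℝ) - 1) * ((∑ v ∈ V, wt ψ v) * (∑ w ∈ W, wt ψ' w)) := by ring
  rw [e2, Real.mul_rpow hb1.le hM0]
  have e3 : ((b:ℝ) - 1)^(-(1/2-eps1)) = ((b:ℝ) - 1)^(1/2+eps1) / ((b:ℝ) - 1) := by
    have : ((b:ℝ) - 1)^(-(1/2-eps1)) = ((b:ℝ) - 1)^((1/2+eps1) - 1) := by congr 1; ring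
    rw [this, Real.rpow_sub hb1, Real.rpow_one]
  rw [e3]
  ring

end Crest.Agent.R4.StopAsm709
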