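import Mathlib
import Crest.Agent.R4.ClsT2_944
import Crest.Agent.R4.StopCore2_709

/-!
R4 (S0004), helper944: `ClsT2.deepT2` in the form `DeepHyp` of `StopCore2_709`.
-/

namespace Crest.Agent.R4.ClsT2

theorem deepHyp_Gen3 : StopAsm709.DeepHyp Gen3 (1/1000) := deepT2

end Crest.Agent.R4.ClsT2
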