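import Mathlib
import Crest.Agent.R4.StopFin709

/-!
R4 (S0004), helper709: columns where both sides miss `p` (NM columns): generic + HVW + deep alternative; the pairs
with `D ≤ 2^{-n}` outside the alternative are left as a sum.
-/

set_option autoImplicit false
open Finset

namespace Crest.Agent.R4.StopAsm709
open Crest.Agent.R4.HVW560 Crest.Agent.R4.HVWX793
open Crest.Agent.R4.Schur709 Crest.Agent.R4.StopHvw709
open Crest.Agent.R4.ClsS (eps1)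

/-- pairs left over by `nm_core` -/
def Left (O O' : Finset ℕ) (R R' : ℕ → ℝ) (n : ℕ) (PG : ℕ × ℕ → Prop) (e : ℕ × ℕ) : Prop :=
  Dc O O' R R' e ≤ 1/2^n ∧ ¬ PG e

open Classical in
/-- **NM core** -/
theorem nm_core {Gen : ℝ → ℝ → ℝ → ℕ → ℕ → ℝ → ℝ → Prop} {κ : ℝ} (hGen : DeepHyp Gen κ) :
    ∃ C c0 : ℝ, 1 ≤ C ∧ 0 < c0 ∧ ∀ c1 : ℝ, 0 < c1 → c1 ≤ c0 → ∃ T0 : ℝ, 1 ≤ T0 ∧
    ∀ (X K1 K2 L : ℝ) (n N G : ℕ) (O O' V W : Finset ℕ) (R R' : ℕ → ℝ)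
    (γ γ' : Finset ℕ → ℝ) (F : ℕ × ℕ → ℝ) (PG : ℕ × ℕ → Prop),
    T0 ≤ (2:ℝ)^n → X ≤ Real.exp (((2:ℝ)^n)^c1) → 0 < G → 0 ≤ K1 → 0 ≤ K2 →
    (∀ p ∈ O, p.Prime ∧ N ≤ p) → (∀ p ∈ O', p.Prime ∧ N ≤ p) →
    (∀ w ∈ V, 0 < w ∧ 0 < R w) → (∀ w ∈ W, 0 < w ∧ 0 < R' w) →
    (∀ w ∈ V, R w ≤ L * mu O' R w) → (∀ w ∈ W, R' w ≤ L * mu O R' w) →
    (∀ z : ℝ, X ≤ z → ∀ w ∈ V, Crest.Agent.R4.ClsB.Tame z G (uu O' w)) →
    (∀ z : ℝ, X ≤ z → ∀ w ∈ W, Crest.Agent.R4.ClsB.Tame z G (uu O w)) →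
    (∀ e ∈ V ×ˢ W, 1 < Dc O O' R R' e → F e ≤ K1 * (R e.1 * R' e.2)) →
    (∀ e ∈ V ×ˢ W, Dc O O' R R' e ≤ 1 → F e ≤ K2 * ((R e.1 * R' e.2) / Dc O O' R R' e)) →
    (∀ e ∈ V ×ˢ W, PG e → ∀ t : ℝ, (2:ℝ)^n ≤ t → 1/(2*t) < Dc O O' R R' e →
      Dc O O' R R' e ≤ 1/t → 0 < F e →
      Gen (γ (miss O' e.1)) (γ' (miss O e.2)) t (cof (uu O' e.1) (uu O e.2))
        (cof (uu O e.2) (uu O' e.1)) (Rc O' R e.1) (Rc O R' e.2)) →
    ∑ e ∈ V ×ˢ W, F e ≤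
      K1 * L^2 * ((∑ q ∈ V, mu O' R q) * (∑ r ∈ W, mu O R' r)) +
      K2 * L^2 * (n * (2 * KH 1 0 eps1 * (2:ℝ)^(2*eps1*n)) + C * ((2:ℝ)^n)^(-κ)) *
        (Real.exp ((1/2-eps1) * (3 * (∑ p ∈ O, 1/(p:ℝ)) + 3 * ∑ p ∈ O', 1/(p:ℝ))) *
        ((∑ q ∈ V, mu O' R q) * (∑ r ∈ W, mu O R' r))^(1/2+eps1)) +
      ∑ e ∈ (V ×ˢ W).filter (Left O O' R R' n PG), F e := by
  obtain ⟨C, c0, hC1, hc0, hC⟩ := deepB_of hGen
  refine ⟨C, c0, hC1, hc0, ?_⟩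
  intro c1 hc1 hc10
  obtain ⟨T0, hT01, hT0⟩ := hC c1 hc1 hc10
  refine ⟨T0, hT01, ?_⟩
  intro X K1 K2 L n N G O O' V W R R' γ γ' F PG hTn hX hG hK10 hK20 hO hO' hV hW hLV hLW hVt hWt
    hbig hsmall hgen
  have he1 : eps1 = 1/1000 := rfl
  have h2n : (0:ℝ) < (2:ℝ)^n := by positivity
  set D : ℕ × ℕ → ℝ := Dc O O' R R' with hDdef
  have hDpos : ∀ e ∈ V ×ˢ W, 0 < D e := by
    intro e he
    have h := Finset.mem_product.1 he
    exact Dc_pos hO hO' (hV _ h.1).2 (hW _ h.2).1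
  have hc : ∀ r ∈ W, (0:ℝ) ≤ ∑ p ∈ O.filter (fun p => ¬ p ∣ r), 1/(p:ℝ) := fun r _ =>
    Finset.sum_nonneg fun p _ => by positivity
  have hc' : ∀ q ∈ V, (0:ℝ) ≤ ∑ p ∈ O'.filter (fun p => ¬ p ∣ q), 1/(p:ℝ) := fun q _ =>
    Finset.sum_nonneg fun p _ => by positivity
  have hmu : ∀ q ∈ V, 0 ≤ mu O' R q := fun q hq => mu_nonneg (hV q hq).2.le
  have hmu' : ∀ q ∈ W, 0 ≤ mu O R' q := fun q hq => mu_nonneg (hW q hq).2.le
  set P := V ×ˢ W with hP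
  set E1 := P.filter (fun e => 1 < D e) with hE1
  set EN := P.filter (fun e => ¬ 1 < D e) with hEN
  set EY := EN.filter (fun e => (1/2:ℝ)^n < D e) with hEY
  set EX := EN.filter (fun e => ¬ (1/2:ℝ)^n < D e) with hEX
  set EG := EX.filter (fun e => PG e) with hEG
  set EH := EX.filter (fun e => ¬ PG e) with hEH
  have hsplit : ∑ e ∈ P, F e = ∑ e ∈ E1, F e + (∑ e ∈ EY, F e +
      (∑ e ∈ EG, F e + ∑ e ∈ EH, F e)) := by
    rw [hEG, hEH, Finset.sum_filter_add_sum_filter_not,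
      hEY, hEX, Finset.sum_filter_add_sum_filter_not, hE1, hEN, Finset.sum_filter_add_sum_filter_not]
  have hENP : ∀ e ∈ EN, e ∈ P ∧ D e ≤ 1 := fun e he =>
    ⟨(Finset.mem_filter.1 he).1, not_lt.1 (Finset.mem_filter.1 he).2⟩
  have hEYP : ∀ e ∈ EY, e ∈ EN := fun e he => (Finset.mem_filter.1 he).1
  have hEXP : ∀ e ∈ EX, e ∈ EN := fun e he => (Finset.mem_filter.1 he).1
  have hEGP : ∀ e ∈ EG, e ∈ EX := fun e he => (Finset.mem_filter.1 he).1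
  have hEHP : ∀ e ∈ EH, e ∈ EX := fun e he => (Finset.mem_filter.1 he).1
  have hRR : ∀ e ∈ P, R e.1 * R' e.2 ≤ L^2 * (mu O' R e.1 * mu O R' e.2) := by
    intro e he
    have h := Finset.mem_product.1 he
    have h1 := hLV _ h.1
    have h2 := hLW _ h.2
    have h3 := (hW _ h.2).2
    have h5 : 0 ≤ L * mu O' R e.1 := (hV _ h.1).2.le.trans h1
    calc R e.1 * R' e.2 ≤ (L * mu O' R e.1) * (L * mu O R' e.2) :=
          mul_le_mul h1 h2 h3.le h5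
      _ = _ := by ring
  have hFmu : ∀ e ∈ EN, F e ≤ K2 * L^2 * ((mu O' R e.1 * mu O R' e.2) / D e) := by
    intro e he
    have heP := hENP e he
    calc F e ≤ K2 * ((R e.1 * R' e.2) / D e) := hsmall e heP.1 heP.2
      _ ≤ K2 * ((L^2 * (mu O' R e.1 * mu O R' e.2)) / D e) :=
          mul_le_mul_of_nonneg_left (div_le_div_of_nonneg_right (hRR e heP.1) (hDpos e heP.1).le) hK20
      _ = K2 * L^2 * ((mu O' R e.1 * mu O R' e.2) / D e) := by ring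
  have bound1 : ∑ e ∈ E1, F e ≤ K1 * L^2 * ((∑ q ∈ V, mu O' R q) * (∑ r ∈ W, mu O R' r)) := by
    calc ∑ e ∈ E1, F e ≤ ∑ e ∈ E1, K1 * L^2 * (mu O' R e.1 * mu O R' e.2) := by
          apply Finset.sum_le_sum
          intro e he
          have he' := Finset.mem_filter.1 he
          refine (hbig e he'.1 he'.2).trans ?_
          rw [mul_assoc]
          exact mul_le_mul_of_nonneg_left (hRR e he'.1) hK10
      _ ≤ ∑ e ∈ P, K1 * L^2 * (mu O' R e.1 * mu O R' e.2) := by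
          apply Finset.sum_le_sum_of_subset_of_nonneg (Finset.filter_subset _ _)
          intro e he _
          have h := Finset.mem_product.1 he
          have := hmu _ h.1
          have := hmu' _ h.2
          positivity
      _ = _ := by rw [← Finset.mul_sum, Finset.sum_mul_sum, ← Finset.sum_product']
  have boundY := mid_dyadic (ε := eps1) (by rw [he1]; norm_num) (by rw [he1]; norm_num) (N := N) hO hO'
    hV hW (c := 0) (c' := 0) hc hc' (K := K2 * L^2) (by positivity) (F := F) n EY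
    (fun e he => (hENP e (hEYP e he)).1)
    (fun e he => (hENP e (hEYP e he)).2)
    (fun e he => (Finset.mem_filter.1 he).2)
    (fun e he => hFmu e (hEYP e he))
  have hpow : (1/2:ℝ)^n = 1/2^n := by rw [div_pow, one_pow]
  have hEXD : ∀ e ∈ EX, D e ≤ 1/2^n := by
    intro e he
    have := not_lt.1 (Finset.mem_filter.1 he).2
    rw [hpow] at this
    exact this
  have boundG := hT0 ((2:ℝ)^n) X (K2 * L^2) N G O O' V W EG R R' γ γ' F 0 0 hTn hX (by positivity)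
    hG hO hO' hV hW hVt hWt (fun e he => (hENP e (hEXP e (hEGP e he))).1) hc hc'
    (fun e he => hEXD e (hEGP e he))
    (fun e he => hFmu e (hEXP e (hEGP e he)))
    (by
      intro e he t ht h1 h2 h3
      exact hgen e (hENP e (hEXP e (hEGP e he))).1 (Finset.mem_filter.1 he).2
        t ht h1 h2 h3)
  have eR : EH = P.filter (Left O O' R R' n PG) := by
    ext e
    constructor
    · intro he
      have h1 := hEHP e he
      exact Finset.mem_filter.2 ⟨(hENP e (hEXP e h1)).1, hEXD e h1, (Finset.mem_filter.1 he).2⟩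
    · intro he
      obtain ⟨h0, h2, h3⟩ := Finset.mem_filter.1 he
      have h2' : D e ≤ 1/2^n := h2
      have h5 : D e ≤ 1 := by
        refine h2'.trans ?_
        rw [div_le_one h2n]
        exact one_le_pow₀ (by norm_num)
      exact Finset.mem_filter.2 ⟨Finset.mem_filter.2 ⟨Finset.mem_filter.2
        ⟨h0, not_lt.2 h5⟩, not_lt.2 (by rw [hpow]; exact h2')⟩, h3⟩
  have z1 : -(N * (0:ℝ)) + 3 * (∑ p ∈ O, 1/(p:ℝ)) + (-(N * (0:ℝ)) + 3 * ∑ p ∈ O', 1/(p:ℝ))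
      = 3 * (∑ p ∈ O, 1/(p:ℝ)) + 3 * ∑ p ∈ O', 1/(p:ℝ) := by ring
  rw [z1] at boundY boundG
  rw [hsplit, ← eR]
  set X1 := Real.exp ((1/2-eps1) * (3 * (∑ p ∈ O, 1/(p:ℝ)) + 3 * ∑ p ∈ O', 1/(p:ℝ))) with hX1
  set Y1 := ((∑ q ∈ V, mu O' R q) * (∑ r ∈ W, mu O R' r))^(1/2+eps1) with hY1
  have hfin : K2 * L^2 * (n * (2 * KH 1 0 eps1 * (2:ℝ)^(2*eps1*n)) + C * ((2:ℝ)^n)^(-κ)) * (X1 * Y1)
      = (n * (2 * (K2 * L^2) * KH 1 0 eps1 * (2:ℝ)^(2*eps1*n)) * (X1 * Y1) +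
        C * (K2 * L^2) * ((2:ℝ)^n)^(-κ) * X1 * Y1) := by
    ring
  rw [hfin]
  linarith


/-! ### numbers for a column -/

open Filter in
lemma ev_log_le (C s : ℝ) (k : ℕ) (hs : 0 < s) (hC : 0 < C) :
    ∀ᶠ x : ℝ in atTop, C * (Real.log x)^k ≤ x^s := by
  have h := isLittleO_log_rpow_rpow_atTop (k:ℝ) hs
  have h2 := h.bound (c := 1/C) (by positivity)
  filter_upwards [h2, eventually_ge_atTop (1:ℝ)] with x hx hx1
  have hl : 0 ≤ Real.log x := Real.log_nonneg hx1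
  have hx0 : 0 < x := by linarith
  rw [Real.norm_of_nonneg (Real.rpow_nonneg hl _), Real.norm_of_nonneg (Real.rpow_nonneg hx0.le _),
    Real.rpow_natCast] at hx
  calc C * (Real.log x)^k ≤ C * (1/C * x^s) := mul_le_mul_of_nonneg_left hx hC.le
    _ = x^s := by field_simp

open Filter in
lemma col_numbers (KHc C c0 T0 CL : ℝ) (hKH : 0 ≤ KHc) (hC : 1 ≤ C) (hc0 : 0 < c0) (hCL : 1 ≤ CL) :
    ∀ᶠ x : ℝ in atTop, T0 ≤ x^(1/4:ℝ)/2 ∧ x ≤ Real.exp ((x^(1/4:ℝ)/2)^c0) ∧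
      6 * (CL * Real.log x)^2 ≤ (Real.log x)^3 ∧
      ∀ n : ℕ, (n:ℝ) * Real.log 2 ≤ 1/4 * Real.log x → ∀ κ : ℝ, 0 ≤ κ →
        6 * (CL * Real.log x)^2 * (n * (2 * KHc * (2:ℝ)^(2*eps1*n)) + C * ((2:ℝ)^n)^(-κ)) * Real.exp 6
          ≤ x^(1/1000:ℝ) := by
  have he1 : eps1 = 1/1000 := rfl
  have t1 : Tendsto (fun x : ℝ => x^(1/4:ℝ)) atTop atTop := tendsto_rpow_atTop (by norm_num)
  have e1 : ∀ᶠ x : ℝ in atTop, 2 * T0 ≤ x^(1/4:ℝ) := t1.eventually_ge_atTop _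
  have e2 : ∀ᶠ x : ℝ in atTop, (2:ℝ)^c0 * (Real.log x)^1 ≤ x^(c0/4) :=
    ev_log_le _ _ _ (by positivity) (by positivity)
  have e3 : ∀ᶠ x : ℝ in atTop, 6 * CL^2 + 1 ≤ Real.log x :=
    Real.tendsto_log_atTop.eventually_ge_atTop _
  have e4 : ∀ᶠ x : ℝ in atTop, (6 * CL^2 * (2 * KHc + C) * Real.exp 6) * (Real.log x)^3 ≤ x^(1/2000:ℝ) :=
    ev_log_le _ _ _ (by norm_num) (by positivity)
  filter_upwards [e1, e2, e3, e4, eventually_ge_atTop (1:ℝ)] with x h1 h2 h3 h4 hx1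
  have hx0 : 0 < x := by linarith
  have hl1 : 1 ≤ Real.log x := by nlinarith
  refine ⟨by linarith, ?_, ?_, ?_⟩
  · rw [← Real.log_le_iff_le_exp hx0, Real.div_rpow (by positivity) (by norm_num), ← Real.rpow_mul hx0.le]
    rw [le_div_iff₀ (by positivity)]
    rw [pow_one] at h2
    calc Real.log x * 2^c0 = 2^c0 * Real.log x := mul_comm _ _
      _ ≤ x^(c0/4) := h2
      _ = x^(1/4*c0) := by congr 1; ring
  · have : 6 * CL^2 ≤ Real.log x := by linarith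
    calc 6 * (CL * Real.log x)^2 = (6 * CL^2) * (Real.log x)^2 := by ring
      _ ≤ Real.log x * (Real.log x)^2 := mul_le_mul_of_nonneg_right this (by positivity)
      _ = _ := by ring
  · intro n hn κ hκ
    have hl2 : (0.5:ℝ) ≤ Real.log 2 := by have := Real.log_two_gt_d9; linarith
    have hn1 : (n:ℝ) ≤ Real.log x := by
      have h0 : (0:ℝ) ≤ n := Nat.cast_nonneg _
      nlinarith
    have h2n : (2:ℝ)^(2*eps1*n) ≤ x^(1/2000:ℝ) := by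
      rw [Real.rpow_def_of_pos (by norm_num), Real.rpow_def_of_pos hx0]
      apply Real.exp_le_exp.2
      rw [he1]; nlinarith
    have hpow : ((2:ℝ)^n)^(-κ) ≤ 1 := by
      apply Real.rpow_le_one_of_one_le_of_nonpos (one_le_pow₀ (by norm_num)) (by linarith)
    have hxs : 1 ≤ x^(1/2000:ℝ) := Real.one_le_rpow hx1 (by norm_num)
    have hsum : n * (2 * KHc * (2:ℝ)^(2*eps1*n)) + C * ((2:ℝ)^n)^(-κ)
        ≤ (2 * KHc + C) * (Real.log x * x^(1/2000:ℝ)) := by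
      have p1 : n * (2 * KHc * (2:ℝ)^(2*eps1*n)) ≤ Real.log x * (2 * KHc * x^(1/2000:ℝ)) :=
        mul_le_mul hn1 (mul_le_mul_of_nonneg_left h2n (by positivity)) (by positivity) (by linarith)
      have p2 : C * ((2:ℝ)^n)^(-κ) ≤ C * (Real.log x * x^(1/2000:ℝ)) := by
        apply mul_le_mul_of_nonneg_left _ (by linarith)
        nlinarith
      nlinarith
    calc 6 * (CL * Real.log x)^2 * (n * (2 * KHc * (2:ℝ)^(2*eps1*n)) + C * ((2:ℝ)^n)^(-κ)) * Real.exp 6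
        ≤ 6 * (CL * Real.log x)^2 * ((2 * KHc + C) * (Real.log x * x^(1/2000:ℝ))) * Real.exp 6 := by
          apply mul_le_mul_of_nonneg_right _ (Real.exp_nonneg _)
          exact mul_le_mul_of_nonneg_left hsum (by positivity)
      _ = ((6 * CL^2 * (2 * KHc + C) * Real.exp 6) * (Real.log x)^3) * x^(1/2000:ℝ) := by ring
      _ ≤ x^(1/2000:ℝ) * x^(1/2000:ℝ) := mul_le_mul_of_nonneg_right h4 (by positivity)
      _ = x^(1/1000:ℝ) := by rw [← Real.rpow_add hx0]; norm_num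

open Classical in
/-- **NM column with numbers**. `A`, `A'` = un-raised masses of the missing items. -/
theorem nm_column {Gen : ℝ → ℝ → ℝ → ℕ → ℕ → ℝ → ℝ → Prop} {κ : ℝ} (hGen : DeepHyp Gen κ) (hκ : 0 ≤ κ)
    {CL : ℝ} (hCL : 1 ≤ CL) : ∃ p₀ : ℕ, 2 ≤ p₀ ∧
    ∀ (n p G : ℕ) (O O' V W : Finset ℕ) (R R' : ℕ → ℝ)
    (γ γ' : Finset ℕ → ℝ) (F : ℕ × ℕ → ℝ) (PG : ℕ × ℕ → Prop),
    p₀ ≤ p → n = ⌊1/4 * Real.log p / Real.log 2⌋₊ → 0 < G →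
    (∀ q ∈ O, q.Prime ∧ p ≤ q) → (∀ q ∈ O', q.Prime ∧ p ≤ q) →
    ∑ q ∈ O, 1/(q:ℝ) ≤ 1 → ∑ q ∈ O', 1/(q:ℝ) ≤ 1 →
    (∀ w ∈ V, 0 < w ∧ 0 < R w) → (∀ w ∈ W, 0 < w ∧ 0 < R' w) →
    (∀ w ∈ V, R w ≤ (CL * Real.log p) * mu O' R w) → (∀ w ∈ W, R' w ≤ (CL * Real.log p) * mu O R' w) →
    (∀ z : ℝ, (p:ℝ) ≤ z → ∀ w ∈ V, Crest.Agent.R4.ClsB.Tame z G (uu O' w)) →
    (∀ z : ℝ, (p:ℝ) ≤ z → ∀ w ∈ W, Crest.Agent.R4.ClsB.Tame z G (uu O w)) →
    (∀ e ∈ V ×ˢ W, 1 < Dc O O' R R' e → F e ≤ 6 * (R e.1 * R' e.2)) →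
    (∀ e ∈ V ×ˢ W, Dc O O' R R' e ≤ 1 → F e ≤ 6 * ((R e.1 * R' e.2) / Dc O O' R R' e)) →
    (∀ e ∈ V ×ˢ W, PG e → ∀ t : ℝ, (2:ℝ)^n ≤ t → 1/(2*t) < Dc O O' R R' e →
      Dc O O' R R' e ≤ 1/t → 0 < F e →
      Gen (γ (miss O' e.1)) (γ' (miss O e.2)) t (cof (uu O' e.1) (uu O e.2))
        (cof (uu O e.2) (uu O' e.1)) (Rc O' R e.1) (Rc O R' e.2)) →
    ∑ e ∈ V ×ˢ W, F e ≤
      (Real.log p)^3 * ((∑ q ∈ V, mu O' R q) * (∑ r ∈ W, mu O R' r)) +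
      (p:ℝ)^(1/1000:ℝ) * ((∑ q ∈ V, mu O' R q) * (∑ r ∈ W, mu O R' r))^(1/2+eps1) +
      ∑ e ∈ (V ×ˢ W).filter (Left O O' R R' n PG), F e := by
  obtain ⟨C, c0, hC1, hc0, hC⟩ := nm_core hGen
  obtain ⟨T0, hT01, hT0⟩ := hC c0 hc0 le_rfl
  obtain ⟨x0, hx0⟩ := Filter.eventually_atTop.1
    (col_numbers (KH 1 0 eps1) C c0 T0 CL (KH_pos 1 0 eps1).le hC1 hc0 hCL)
  refine ⟨max 2 ⌈x0⌉₊, le_max_left _ _, ?_⟩
  intro n p G O O' V W R R' γ γ' F PG hp hn hG hO hO' hsO hsO' hV hW hLV hLW hVt hWt hbig hsmall hgen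
  have hp2 : 2 ≤ p := (le_max_left _ _).trans hp
  have hpx : x0 ≤ (p:ℝ) := (Nat.le_ceil x0).trans (by exact_mod_cast (le_max_right _ _).trans hp)
  obtain ⟨g1, g2, g3, g4⟩ := hx0 p hpx
  have hp0 : (0:ℝ) < p := by exact_mod_cast (by omega : 0 < p)
  have hp1 : (1:ℝ) ≤ p := by exact_mod_cast (by omega : 1 ≤ p)
  have hlp : 0 ≤ Real.log p := Real.log_nonneg hp1
  have hl2 : 0 < Real.log 2 := Real.log_pos (by norm_num)
  have hn1 : (n:ℝ) * Real.log 2 ≤ 1/4 * Real.log p := by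
    have : (n:ℝ) ≤ 1/4 * Real.log p / Real.log 2 := by rw [hn]; exact Nat.floor_le (by positivity)
    rwa [le_div_iff₀ hl2] at this
  have hn2 : 1/4 * Real.log p < (n + 1) * Real.log 2 := by
    have : 1/4 * Real.log p / Real.log 2 < n + 1 := by rw [hn]; exact Nat.lt_floor_add_one _
    rwa [div_lt_iff₀ hl2] at this
  have h2n : (p:ℝ)^(1/4:ℝ)/2 ≤ (2:ℝ)^n := by
    have e1 : (2:ℝ)^n = Real.exp (n * Real.log 2) := by
      rw [Real.exp_nat_mul, Real.exp_log (by norm_num)]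
    have e2 : (p:ℝ)^(1/4:ℝ)/2 = Real.exp (1/4 * Real.log p - Real.log 2) := by
      rw [Real.exp_sub, Real.exp_log (by norm_num), Real.rpow_def_of_pos hp0, mul_comm (Real.log p)]
    rw [e1, e2]
    apply Real.exp_le_exp.2
    linarith
  have main := hT0 p 6 6 (CL * Real.log p) n p G O O' V W R R' γ γ' F PG (g1.trans h2n)
    (g2.trans (Real.exp_le_exp.2 (Real.rpow_le_rpow (by positivity) h2n hc0.le))) hG (by norm_num)
    (by norm_num) hO hO' hV hW hLV hLW hVt hWt hbig hsmall hgen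
  have hmu : 0 ≤ ∑ q ∈ V, mu O' R q := Finset.sum_nonneg fun q hq => mu_nonneg (hV q hq).2.le
  have hmu' : 0 ≤ ∑ q ∈ W, mu O R' q := Finset.sum_nonneg fun q hq => mu_nonneg (hW q hq).2.le
  set A := ∑ q ∈ V, mu O' R q with hA
  set A' := ∑ q ∈ W, mu O R' q with hA'
  have he1 : eps1 = 1/1000 := rfl
  have b1 : 6 * (CL * Real.log p)^2 * (A * A') ≤ (Real.log p)^3 * (A * A') :=
    mul_le_mul_of_nonneg_right g3 (by positivity)
  have b2 : 6 * (CL * Real.log p)^2 * (n * (2 * KH 1 0 eps1 * (2:ℝ)^(2*eps1*n)) + C * ((2:ℝ)^n)^(-κ)) *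
        (Real.exp ((1/2-eps1) * (3 * (∑ p ∈ O, 1/(p:ℝ)) + 3 * ∑ p ∈ O', 1/(p:ℝ))) *
        (A * A')^(1/2+eps1)) ≤ (p:ℝ)^(1/1000:ℝ) * (A * A')^(1/2+eps1) := by
    rw [← mul_assoc]
    apply mul_le_mul_of_nonneg_right _ (by positivity)
    refine le_trans ?_ (g4 n hn1 κ hκ)
    apply mul_le_mul_of_nonneg_left
    · apply Real.exp_le_exp.2
      rw [he1]
      linarith
    · have := (KH_pos 1 0 eps1).le
      positivity
  linarith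

end Crest.Agent.R4.StopAsm709
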