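import Mathlib
import Crest.Agent.R4.StopFin709
import Crest.Agent.R4.NMCol709
import Crest.Agent.R4.CrossLow709
import Crest.Agent.R4.Deep3_944
import Crest.Agent.R4.Dich579

/-!
R4 (S0004), helper709: classification of the pairs left by `stop_final_sqrt`, `nm_column`, `cross_low`
(with 944's `Gen3`): alternative / one partner / exact for canonical labels, on the averaged circle.
-/

set_option autoImplicit false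
open Finset

namespace Crest.Agent.R4.StopAsm709
open Crest.Agent.R4.HVW560 Crest.Agent.R4.HVWX793
open Crest.Agent.R4.Schur709 Crest.Agent.R4.StopHvw709
open Crest.Agent.R4.ClsS (eps1)
open Crest.Agent.R4.Dich579 (Alt FF Small EPair)

/-- the alternative holds at all scales `t ≥ 2^n` of the pair -/
def AltS (n : ℕ) (θ θ' : ℝ) (x y : ℕ) (r r' : ℝ) : Prop :=
  ∀ t : ℝ, (2:ℝ)^n ≤ t → 1/(2*t) < max ((y:ℝ) * r) ((x:ℝ) * r') → max ((y:ℝ) * r) ((x:ℝ) * r') ≤ 1/t →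
    Alt (t^(1/20:ℝ)) θ θ' t x y r r'

/-- class `[E]` -/
def ES (θ θ' : ℝ) (x y : ℕ) (r r' : ℝ) : Prop :=
  ∃ (t : ℝ) (m m' : ℤ), Small (t^(1/20:ℝ)) θ θ' t x y r r' m m' ∧
    ¬ ∃ ρ ρ' : ℚ, FF θ θ' t r r' x y ρ ρ'

/-- class `[F]` at a scale `t ≥ 2^n` of the pair, with the relation -/
def FS (n : ℕ) (θ θ' : ℝ) (x y : ℕ) (r r' : ℝ) : Prop :=
  ∃ (t : ℝ) (m m' : ℤ) (ρ ρ' : ℚ), (2:ℝ)^n ≤ t ∧ 1/(2*t) < max ((y:ℝ) * r) ((x:ℝ) * r') ∧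
    max ((y:ℝ) * r) ((x:ℝ) * r') ≤ 1/t ∧
    |(m + θ) * y - (m' + θ') * x| ≤ 2 * max ((y:ℝ) * r) ((x:ℝ) * r') ∧
    FF θ θ' t r r' x y ρ ρ' ∧ ((m:ℝ) + ρ) * y = (m' + ρ') * x

theorem classify_num {n : ℕ} (hn : 400 ≤ n) {θ θ' : ℝ} {x y : ℕ} {r r' : ℝ} (hx : 0 < x) (hy : 0 < y)
    (hr : 0 < r) (hr' : 0 < r') {m m' : ℤ}
    (hrel : |(m + θ) * y - (m' + θ') * x| ≤ 2 * max ((y:ℝ) * r) ((x:ℝ) * r')) :
    AltS n θ θ' x y r r' ∨ ES θ θ' x y r r' ∨ FS n θ θ' x y r r' := by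
  by_cases hA : AltS n θ θ' x y r r'
  · exact Or.inl hA
  right
  unfold AltS at hA
  push Not at hA
  obtain ⟨t, ht, h1, h2, h3⟩ := hA
  have ht4 : (2:ℝ)^400 ≤ t := (pow_le_pow_right₀ (by norm_num) hn).trans ht
  have ht0 : 0 < t := lt_of_lt_of_le (by positivity) ht
  have h1t : 1 ≤ t := (one_le_pow₀ (by norm_num)).trans ht
  have hxr : (x:ℝ) * r' ≤ 1/t := (le_max_right _ _).trans h2
  have hyr : (y:ℝ) * r ≤ 1/t := (le_max_left _ _).trans h2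
  have hrel2 : |(m + θ) * y - (m' + θ') * x| ≤ 2 / t := by
    refine hrel.trans ?_
    calc 2 * max ((y:ℝ) * r) ((x:ℝ) * r') ≤ 2 * (1/t) := mul_le_mul_of_nonneg_left h2 (by norm_num)
      _ = 2 / t := by ring
  have hN1 : 1 ≤ t^(1/20:ℝ) := Real.one_le_rpow h1t (by norm_num)
  rcases Dich579.dich ht4 hN1 le_rfl hx hy hr hr' hxr hyr hrel2 h3 with h | ⟨h4, h5⟩
  · right
    obtain ⟨ρ, ρ', hF⟩ := h
    exact ⟨t, m, m', ρ, ρ', ht, h1, h2, hrel, hF, hF.exact m m' hrel2⟩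
  · by_cases hF : ∃ ρ ρ' : ℚ, FF θ θ' t r r' x y ρ ρ'
    · right
      obtain ⟨ρ, ρ', hF⟩ := hF
      exact ⟨t, m, m', ρ, ρ', ht, h1, h2, hrel, hF, hF.exact m m' hrel2⟩
    · left
      exact ⟨t, m, m', Small.of_not_alt ht4 hN1 le_rfl hx hy hr hr' hxr hyr hrel2 h3 h4 h5, hF⟩

/-! ### group level: `uu`, `Rc`, `miss` -/

section G
variable (O O' : Finset ℕ) (R R' : ℕ → ℝ) (γ γ' : Finset ℕ → ℝ)

/-- the pair of groups is related on the averaged circle -/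
def RelG (e : ℕ × ℕ) : Prop :=
  ∃ m m' : ℤ, |(m + γ (miss O' e.1)) * (cof (uu O e.2) (uu O' e.1) : ℕ) -
    (m' + γ' (miss O e.2)) * (cof (uu O' e.1) (uu O e.2) : ℕ)| ≤ 2 * Dc O O' R R' e

def AltG (n : ℕ) (e : ℕ × ℕ) : Prop :=
  AltS n (γ (miss O' e.1)) (γ' (miss O e.2)) (cof (uu O' e.1) (uu O e.2)) (cof (uu O e.2) (uu O' e.1))
    (Rc O' R e.1) (Rc O R' e.2)

def EG (e : ℕ × ℕ) : Prop :=
  ES (γ (miss O' e.1)) (γ' (miss O e.2)) (cof (uu O' e.1) (uu O e.2)) (cof (uu O e.2) (uu O' e.1))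
    (Rc O' R e.1) (Rc O R' e.2)

def FG (n : ℕ) (e : ℕ × ℕ) : Prop :=
  FS n (γ (miss O' e.1)) (γ' (miss O e.2)) (cof (uu O' e.1) (uu O e.2)) (cof (uu O e.2) (uu O' e.1))
    (Rc O' R e.1) (Rc O R' e.2)

variable {O O' R R' γ γ'}

theorem classify_G {n : ℕ} (hn : 400 ≤ n) (hO : ∀ p ∈ O, p.Prime) (hO' : ∀ p ∈ O', p.Prime) {e : ℕ × ℕ}
    (h1 : 0 < e.1 ∧ 0 < R e.1) (h2 : 0 < e.2 ∧ 0 < R' e.2) (hrel : RelG O O' R R' γ γ' e) :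
    AltG O O' R R' γ γ' n e ∨ EG O O' R R' γ γ' e ∨ FG O O' R R' γ γ' n e := by
  obtain ⟨m, m', h⟩ := hrel
  exact classify_num hn (cof_pos (uu_pos hO' h1.1)) (cof_pos (uu_pos hO h2.1))
    (div_pos h1.2 (al_pos hO' _)) (div_pos h2.2 (al_pos hO _)) h

lemma EG_pair {e : ℕ × ℕ} (hO : ∀ p ∈ O, p.Prime) (hO' : ∀ p ∈ O', p.Prime) (h : EG O O' R R' γ γ' e)
    {S S' : Finset ℕ} (hS : miss O e.2 = S) (hS' : miss O' e.1 = S') :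
    EPair (fun t => t^(1/20:ℝ)) (γ S') (γ' S) (ψu O' S' R) (ψu O S R') (uu O' e.1) (uu O e.2) := by
  unfold EG ES at h
  obtain ⟨t, m, m', h1, h2⟩ := h
  rw [hS, hS'] at h1 h2
  refine ⟨t, m, m', ?_, ?_⟩
  · rw [ψu_eq hO' hS', ψu_eq hO hS]; exact h1
  · rw [ψu_eq hO' hS', ψu_eq hO hS]; exact h2

lemma uu_eq_of {w w' : ℕ} (hO' : ∀ p ∈ O', p.Prime) (h : miss O' w = miss O' w') (hu : uu O' w = uu O' w') :
    w = w' := by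
  rw [← uu_mul hO' w, ← uu_mul hO' w', hu, zO_eq h, zO_eq rfl]

theorem EG_partner {e f : ℕ × ℕ} (hO : ∀ p ∈ O, p.Prime) (hO' : ∀ p ∈ O', p.Prime)
    (he : EG O O' R R' γ γ' e) (hf : EG O O' R R' γ γ' f) (hm : miss O e.2 = miss O f.2)
    (h1 : e.1 = f.1) : e.2 = f.2 := by
  have a := EG_pair hO hO' he hm rfl
  have b := EG_pair hO hO' hf rfl rfl
  rw [← h1] at b
  exact uu_eq_of hO hm (Dich579.partner a b)

theorem EG_partner' {e f : ℕ × ℕ} (hO : ∀ p ∈ O, p.Prime) (hO' : ∀ p ∈ O', p.Prime)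
    (he : EG O O' R R' γ γ' e) (hf : EG O O' R R' γ γ' f) (hm : miss O' e.1 = miss O' f.1)
    (h2 : e.2 = f.2) : e.1 = f.1 := by
  have a := EG_pair hO hO' he rfl hm
  have b := EG_pair hO hO' hf rfl rfl
  rw [← h2] at b
  exact uu_eq_of hO' hm (Dich579.partner' a b)

end G

/-! ### crossing at `b₀` -/

section X
variable (b₀ : ℕ) (O O' : Finset ℕ) (R R' : ℕ → ℝ) (γ γ' : Finset ℕ → ℝ)

def AltX (n : ℕ) (e : ℕ × ℕ) : Prop :=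
  AltS n (γ (miss O' e.1)) (b₀ * γ' (miss O e.2)) (cof (uu O' e.1) (b₀ * uu O e.2))
    (cof (b₀ * uu O e.2) (uu O' e.1)) (Rc O' R e.1) (b₀ * Rc O R' e.2)

def EX (e : ℕ × ℕ) : Prop :=
  ES (γ (miss O' e.1)) (b₀ * γ' (miss O e.2)) (cof (uu O' e.1) (b₀ * uu O e.2))
    (cof (b₀ * uu O e.2) (uu O' e.1)) (Rc O' R e.1) (b₀ * Rc O R' e.2)

def FX (n : ℕ) (e : ℕ × ℕ) : Prop :=
  FS n (γ (miss O' e.1)) (b₀ * γ' (miss O e.2)) (cof (uu O' e.1) (b₀ * uu O e.2))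
    (cof (b₀ * uu O e.2) (uu O' e.1)) (Rc O' R e.1) (b₀ * Rc O R' e.2)

variable {b₀ O O' R R' γ γ'}

lemma Dx_eq (hb : b₀.Prime) (hO' : ∀ p ∈ O', p.Prime) {e : ℕ × ℕ} (h1 : 0 < e.1)
    (hb1 : b₀ ∣ uu O' e.1) (hb2 : ¬ b₀ ∣ uu O e.2) :
    max ((cof (b₀ * uu O e.2) (uu O' e.1) : ℝ) * Rc O' R e.1)
      ((cof (uu O' e.1) (b₀ * uu O e.2) : ℝ) * (b₀ * Rc O R' e.2)) = Dc O O' R R' e := by
  obtain ⟨e1, e2⟩ := cof_mul_left hb hb1 hb2 (uu_pos hO' h1)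
  unfold Dc
  rw [e2, ← e1]
  push_cast
  congr 1
  ring

theorem classify_X {n : ℕ} (hn : 400 ≤ n) (hb : b₀.Prime) (hO : ∀ p ∈ O, p.Prime)
    (hO' : ∀ p ∈ O', p.Prime) {e : ℕ × ℕ} (h1 : 0 < e.1 ∧ 0 < R e.1) (h2 : 0 < e.2 ∧ 0 < R' e.2)
    (hb1 : b₀ ∣ uu O' e.1) (hb2 : ¬ b₀ ∣ uu O e.2) (hrel : RelG O O' R R' γ γ' e) :
    AltX b₀ O O' R R' γ γ' n e ∨ EX b₀ O O' R R' γ γ' e ∨ FX b₀ O O' R R' γ γ' n e := by
  obtain ⟨m, m', h⟩ := hrel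
  obtain ⟨e1, e2⟩ := cof_mul_left hb hb1 hb2 (uu_pos hO' h1.1)
  have hb0 : (0:ℝ) < b₀ := by exact_mod_cast hb.pos
  have hu := uu_pos hO' h1.1
  have hv := uu_pos hO h2.1
  refine classify_num hn (m := m) (m' := b₀ * m') (cof_pos hu) (cof_pos (Nat.mul_pos hb.pos hv))
    (div_pos h1.2 (al_pos hO' _)) (mul_pos hb0 (div_pos h2.2 (al_pos hO _))) ?_
  rw [Dx_eq hb hO' h1.1 hb1 hb2, e2]
  rw [← e1] at h
  convert h using 2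
  push_cast
  ring

lemma EX_pair {e : ℕ × ℕ} (hb : b₀.Prime) (hO : ∀ p ∈ O, p.Prime) (hO' : ∀ p ∈ O', p.Prime)
    (h : EX b₀ O O' R R' γ γ' e) {S S' : Finset ℕ} (hS : miss O e.2 = S) (hS' : miss O' e.1 = S') :
    EPair (fun t => t^(1/20:ℝ)) (γ S') (b₀ * γ' S) (ψu O' S' R) (fun v => b₀ * ψu O S R' (v / b₀))
      (uu O' e.1) (b₀ * uu O e.2) := by
  unfold EX ES at h
  obtain ⟨t, m, m', h1, h2⟩ := h
  rw [hS, hS'] at h1 h2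
  have e3 : b₀ * uu O e.2 / b₀ = uu O e.2 := Nat.mul_div_cancel_left _ hb.pos
  refine ⟨t, m, m', ?_, ?_⟩
  · simp only [e3]
    rw [ψu_eq hO' hS', ψu_eq hO hS]; exact h1
  · simp only [e3]
    rw [ψu_eq hO' hS', ψu_eq hO hS]; exact h2

theorem EX_partner {e f : ℕ × ℕ} (hb : b₀.Prime) (hO : ∀ p ∈ O, p.Prime) (hO' : ∀ p ∈ O', p.Prime)
    (he : EX b₀ O O' R R' γ γ' e) (hf : EX b₀ O O' R R' γ γ' f) (hm : miss O e.2 = miss O f.2)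
    (h1 : e.1 = f.1) : e.2 = f.2 := by
  have a := EX_pair hb hO hO' he hm rfl
  have b := EX_pair hb hO hO' hf rfl rfl
  rw [← h1] at b
  exact uu_eq_of hO hm (Nat.eq_of_mul_eq_mul_left hb.pos (Dich579.partner a b))

theorem EX_partner' {e f : ℕ × ℕ} (hb : b₀.Prime) (hO : ∀ p ∈ O, p.Prime) (hO' : ∀ p ∈ O', p.Prime)
    (he : EX b₀ O O' R R' γ γ' e) (hf : EX b₀ O O' R R' γ γ' f) (hm : miss O' e.1 = miss O' f.1)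
    (h2 : e.2 = f.2) : e.1 = f.1 := by
  have a := EX_pair hb hO hO' he rfl hm
  have b := EX_pair hb hO hO' hf rfl rfl
  rw [← h2] at b
  exact uu_eq_of hO' hm (Dich579.partner' a b)

end X

/-! ### packaged forms -/

lemma gen3_of {n : ℕ} {θ θ' : ℝ} {x y : ℕ} {r r' : ℝ} {m m' : ℤ}
    (hrel : |(m + θ) * y - (m' + θ') * x| ≤ 2 * max ((y:ℝ) * r) ((x:ℝ) * r'))
    (hA : AltS n θ θ' x y r r') {t : ℝ} (ht : (2:ℝ)^n ≤ t)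
    (h1 : 1/(2*t) < max ((y:ℝ) * r) ((x:ℝ) * r')) (h2 : max ((y:ℝ) * r) ((x:ℝ) * r') ≤ 1/t) :
    ClsT2.Gen3 θ θ' t x y r r' := by
  refine ⟨⟨m * y - m' * x, ?_⟩, hA t ht h1 h2⟩
  have e : (((m * y - m' * x : ℤ):ℝ) - (θ' * x - θ * y)) = (m + θ) * y - (m' + θ') * x := by
    push_cast; ring
  rw [e]
  refine hrel.trans ?_
  calc 2 * max ((y:ℝ) * r) ((x:ℝ) * r') ≤ 2 * (1/t) := mul_le_mul_of_nonneg_left h2 (by norm_num)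
    _ = 2 / t := by ring

lemma inv_le_of {n : ℕ} {D t : ℝ} (ht : (2:ℝ)^n ≤ t) (h2 : D ≤ 1/t) : D ≤ 1/2^n :=
  h2.trans (one_div_le_one_div_of_le (by positivity) ht)

lemma rest_le {P : Finset (ℕ × ℕ)} {F : ℕ × ℕ → ℝ} {Q Q' : ℕ × ℕ → Prop} [DecidablePred Q]
    [DecidablePred (fun e => 0 < F e ∧ Q' e)]
    (h : ∀ e ∈ P, Q e → 0 < F e → Q' e) :
    ∑ e ∈ P.filter Q, F e ≤ ∑ e ∈ P.filter (fun e => 0 < F e ∧ Q' e), F e := by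
  classical
  rw [← Finset.sum_filter_add_sum_filter_not (P.filter Q) (fun e => 0 < F e) F]
  have h1 : ∑ e ∈ (P.filter Q).filter (fun e => ¬ 0 < F e), F e ≤ 0 :=
    Finset.sum_nonpos fun e he => not_lt.1 (Finset.mem_filter.1 he).2
  have h2 : ∑ e ∈ (P.filter Q).filter (fun e => 0 < F e), F e ≤
      ∑ e ∈ P.filter (fun e => 0 < F e ∧ Q' e), F e := by
    apply Finset.sum_le_sum_of_subset_of_nonneg
    · intro e he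
      obtain ⟨h3, h4⟩ := Finset.mem_filter.1 he
      obtain ⟨h5, h6⟩ := Finset.mem_filter.1 h3
      exact Finset.mem_filter.2 ⟨h5, h4, h e h5 h6 h4⟩
    · intro e he _
      exact (Finset.mem_filter.1 he).2.1.le
  linarith

open Classical in
/-- **NM column, classified**: the rest is the sum over the `[E]` and `[F]` pairs with `D ≤ 2^{-n}`. -/
theorem nm_column_cls {CL : ℝ} (hCL : 1 ≤ CL) : ∃ p₀ : ℕ, 2 ≤ p₀ ∧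
    ∀ (n p G : ℕ) (O O' V W : Finset ℕ) (R R' : ℕ → ℝ)
    (γ γ' : Finset ℕ → ℝ) (F : ℕ × ℕ → ℝ),
    p₀ ≤ p → n = ⌊1/4 * Real.log p / Real.log 2⌋₊ → 0 < G →
    (∀ q ∈ O, q.Prime ∧ p ≤ q) → (∀ q ∈ O', q.Prime ∧ p ≤ q) →
    ∑ q ∈ O, 1/(q:ℝ) ≤ 1 → ∑ q ∈ O', 1/(q:ℝ) ≤ 1 →
    (∀ w ∈ V, 0 < w ∧ 0 < R w) → (∀ w ∈ W, 0 < w ∧ 0 < R' w) →
    (∀ w ∈ V, R w ≤ (CL * Real.log p) * mu O' R w) → (∀ w ∈ W, R' w ≤ (CL * Real.log p) * mu O R' w) →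
    (∀ z : ℝ, (p:ℝ) ≤ z → ∀ w ∈ V, Crest.Agent.R4.ClsB.Tame z G (uu O' w)) →
    (∀ z : ℝ, (p:ℝ) ≤ z → ∀ w ∈ W, Crest.Agent.R4.ClsB.Tame z G (uu O w)) →
    (∀ e ∈ V ×ˢ W, 1 < Dc O O' R R' e → F e ≤ 6 * (R e.1 * R' e.2)) →
    (∀ e ∈ V ×ˢ W, Dc O O' R R' e ≤ 1 → F e ≤ 6 * ((R e.1 * R' e.2) / Dc O O' R R' e)) →
    (∀ e ∈ V ×ˢ W, Dc O O' R R' e ≤ 1/2^n → 0 < F e → RelG O O' R R' γ γ' e) →
    ∑ e ∈ V ×ˢ W, F e ≤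
      (Real.log p)^3 * ((∑ q ∈ V, mu O' R q) * (∑ r ∈ W, mu O R' r)) +
      (p:ℝ)^(1/1000:ℝ) * ((∑ q ∈ V, mu O' R q) * (∑ r ∈ W, mu O R' r))^(1/2+eps1) +
      ∑ e ∈ (V ×ˢ W).filter (fun e => 0 < F e ∧ (Dc O O' R R' e ≤ 1/2^n ∧
        (EG O O' R R' γ γ' e ∨ FG O O' R R' γ γ' n e))), F e := by
  obtain ⟨p₀, hp₀, h0⟩ := nm_column ClsT2.deepHyp_Gen3 (by norm_num) hCL
  refine ⟨max p₀ (2^1604), hp₀.trans (le_max_left _ _), ?_⟩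
  intro n p G O O' V W R R' γ γ' F hp hn hG hO hO' hsO hsO' hV hW hLV hLW hVt hWt hbig hsmall hrel
  have hOp : ∀ p ∈ O, p.Prime := fun q hq => (hO q hq).1
  have hOp' : ∀ p ∈ O', p.Prime := fun q hq => (hO' q hq).1
  have hn400 : 400 ≤ n := by
    have hl2 : 0 < Real.log 2 := Real.log_pos (by norm_num)
    have h1 : (2:ℝ)^1604 ≤ p := by exact_mod_cast (le_max_right _ _).trans hp
    have h2 : (1604:ℝ) * Real.log 2 ≤ Real.log p := by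
      have := Real.log_le_log (by positivity) h1
      rwa [Real.log_pow] at this
    rw [hn]
    apply Nat.le_floor
    rw [le_div_iff₀ hl2]
    push_cast
    nlinarith
  have main := h0 n p G O O' V W R R' γ γ' F (AltG O O' R R' γ γ' n) ((le_max_left _ _).trans hp) hn hG hO hO'
    hsO hsO' hV hW hLV hLW hVt hWt hbig hsmall (by
      intro e he hA t ht h1 h2 hF
      obtain ⟨m, m', hm⟩ := hrel e he (inv_le_of ht h2) hF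
      exact gen3_of hm hA ht h1 h2)
  refine main.trans (add_le_add le_rfl ?_)
  apply rest_le
  intro e he hQ hF
  have h := Finset.mem_product.1 he
  refine ⟨hQ.1, ?_⟩
  rcases classify_G hn400 hOp hOp' (hV _ h.1) (hW _ h.2) (hrel e he hQ.1 hF) with h1 | h1
  · exact absurd h1 hQ.2
  · exact h1

open Classical in
/-- **STOP, classified**: the rest is the sum over the `[F]` pairs with `D ≤ 2^{-n}` (not case A). -/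
theorem stop_final_cls : ∃ N0 : ℝ, 1 ≤ N0 ∧
    ∀ (T K2 L : ℝ) (n N G : ℕ) (O O' V W : Finset ℕ) (R R' : ℕ → ℝ)
    (γ γ' : Finset ℕ → ℝ) (F : ℕ × ℕ → ℝ) (c c' : ℝ),
    N0 ≤ N → 400 * Real.sqrt N ≤ N * c → 0 ≤ c' → n = ⌊100 * (N * c) / Real.log 2⌋₊ → 0 < G →
    0 ≤ K2 → K2 ≤ 6 * Real.exp (N*c/20) → 0 ≤ L → L^2 ≤ Real.exp (N*c/50) → 1 ≤ T →
    T ≤ Real.exp (N*c/20) →
    (∀ p ∈ O, p.Prime ∧ N ≤ p) → (∀ p ∈ O', p.Prime ∧ N ≤ p) →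
    ∑ p ∈ O, 1/(p:ℝ) ≤ 1 → ∑ p ∈ O', 1/(p:ℝ) ≤ 1 →
    (∀ w ∈ V, 0 < w ∧ 0 < R w) → (∀ w ∈ W, 0 < w ∧ 0 < R' w) →
    (∀ w ∈ V, R w ≤ L * mu O' R w) → (∀ w ∈ W, R' w ≤ L * mu O R' w) →
    (∀ z : ℝ, (N:ℝ) ≤ z → ∀ w ∈ V, Crest.Agent.R4.ClsB.Tame z G (uu O' w)) →
    (∀ z : ℝ, (N:ℝ) ≤ z → ∀ w ∈ W, Crest.Agent.R4.ClsB.Tame z G (uu O w)) →
    (∀ r ∈ W, c ≤ ∑ p ∈ O.filter (fun p => ¬ p ∣ r), 1/(p:ℝ)) →
    (∀ q ∈ V, c' ≤ ∑ p ∈ O'.filter (fun p => ¬ p ∣ q), 1/(p:ℝ)) →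
    (∀ e ∈ V ×ˢ W, Dc O O' R R' e ≤ T → F e ≤ K2 * ((R e.1 * R' e.2) / Dc O O' R R' e)) →
    (∀ e ∈ V ×ˢ W, ¬ CaseA N O O' e → Dc O O' R R' e ≤ 1/2^n → 0 < F e →
      RelG O O' R R' γ γ' e) →
    ∑ e ∈ V ×ˢ W, F e ≤
      ∑ e ∈ (V ×ˢ W).filter (fun e => T < Dc O O' R R' e), F e +
      Real.exp (-(N*c/10)) * (Real.sqrt ((∑ q ∈ V, R q) * (∑ r ∈ W, R' r)) *
        ((1 + ∑ q ∈ V, R q) * (1 + ∑ r ∈ W, R' r))) +
      ∑ e ∈ (V ×ˢ W).filter (fun e => 0 < F e ∧ (¬ CaseA N O O' e ∧ Dc O O' R R' e ≤ 1/2^n ∧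
        FG O O' R R' γ γ' n e)), F e := by
  obtain ⟨N0, hN0, h0⟩ := stop_final_sqrt ClsT2.deepHyp_Gen3 (by norm_num)
  refine ⟨N0, hN0, ?_⟩
  intro T K2 L n N G O O' V W R R' γ γ' F c c' hN hNc hc'0 hn hG hK20 hK2 hL0 hL hT1 hT hO hO' hsO hsO'
    hV hW hLV hLW hVt hWt hc hc' hsmall hrel
  have hOp : ∀ p ∈ O, p.Prime := fun q hq => (hO q hq).1
  have hOp' : ∀ p ∈ O', p.Prime := fun q hq => (hO' q hq).1
  have hn400 : 400 ≤ n := by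
    have hl2 : 0 < Real.log 2 := Real.log_pos (by norm_num)
    have hl2' : Real.log 2 < 1 := by have := Real.log_two_lt_d9; linarith
    have h1 : 1 ≤ Real.sqrt N := Real.one_le_sqrt.2 (hN0.trans hN)
    rw [hn]
    apply Nat.le_floor
    rw [le_div_iff₀ hl2]
    push_cast
    nlinarith
  have main := h0 T K2 L n N G O O' V W R R' γ γ' F c c' (AltG O O' R R' γ γ' n) (EG O O' R R' γ γ')
    hN hNc hc'0 hn hG hK20 hK2 hL0 hL hT1 hT hO hO' hsO hsO' hV hW hLV hLW hVt hWt hc hc' hsmall (by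
      intro e he hnA hA t ht h1 h2 hF
      obtain ⟨m, m', hm⟩ := hrel e he hnA (inv_le_of ht h2) hF
      exact gen3_of hm hA ht h1 h2)
    (fun e _ f _ he hf hm h1 => EG_partner hOp hOp' he hf hm h1)
    (fun e _ f _ he hf hm h1 => EG_partner' hOp hOp' he hf hm h1)
  refine main.trans (add_le_add le_rfl ?_)
  apply rest_le
  intro e he hQ hF
  have h := Finset.mem_product.1 he
  obtain ⟨hnA, hD, hnG, hnE⟩ := hQ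
  refine ⟨hnA, hD, ?_⟩
  rcases classify_G hn400 hOp hOp' (hV _ h.1) (hW _ h.2) (hrel e he hnA hD hF) with h1 | h1 | h1
  · exact absurd h1 hnG
  · exact absurd h1 hnE
  · exact h1

open Classical in
/-- **LOW part of a crossing at `b₀`, classified**: the rest is the sum over the `[F]` pairs of the
`b₀`-system with `D ≤ 2^{-n}`. -/
theorem cross_low_cls :
    ∃ C c0 : ℝ, 1 ≤ C ∧ 0 < c0 ∧ ∀ c1 : ℝ, 0 < c1 → c1 ≤ c0 → ∃ T0 : ℝ, 1 ≤ T0 ∧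
    ∀ (X K2 L : ℝ) (n N G b₀ : ℕ) (O O' V W : Finset ℕ) (R R' : ℕ → ℝ)
    (γ γ' : Finset ℕ → ℝ) (F : ℕ × ℕ → ℝ),
    400 ≤ n → b₀.Prime → T0 ≤ (2:ℝ)^n → X ≤ Real.exp (((2:ℝ)^n)^c1) → 0 < G → 0 ≤ K2 →
    (∀ p ∈ O, p.Prime ∧ N ≤ p) → (∀ p ∈ O', p.Prime ∧ N ≤ p) →
    (∀ w ∈ V, 0 < w ∧ 0 < R w) → (∀ w ∈ W, 0 < w ∧ 0 < R' w) →
    (∀ w ∈ V, R w ≤ L * mu O' R w) → (∀ w ∈ W, R' w ≤ L * mu O R' w) →
    (∀ w ∈ V, b₀ ∣ uu O' w) → (∀ w ∈ W, ¬ b₀ ∣ uu O w) →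
    (∀ z : ℝ, X ≤ z → ∀ w ∈ V, Crest.Agent.R4.ClsB.Tame z (G * b₀) (uu O' w)) →
    (∀ z : ℝ, X ≤ z → ∀ w ∈ W, Crest.Agent.R4.ClsB.Tame z G (uu O w)) →
    (∀ e ∈ V ×ˢ W, Dc O O' R R' e ≤ 1 → F e ≤ K2 * ((R e.1 * R' e.2) / Dc O O' R R' e)) →
    (∀ e ∈ V ×ˢ W, Dc O O' R R' e ≤ 1/2^n → 0 < F e → RelG O O' R R' γ γ' e) →
    ∑ e ∈ (V ×ˢ W).filter (fun e => Dc O O' R R' e ≤ 1), F e ≤
      K2 * L^2 * (n * (2 * KH 1 0 eps1 * Bf b₀ eps1 * (2:ℝ)^(2*eps1*n)) +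
        C * ((2:ℝ)^n)^(-(1/1000):ℝ) * ((b₀:ℝ) - 1)^(-(1/2-eps1))) *
        (Real.exp ((1/2-eps1) * (3 * (∑ p ∈ O, 1/(p:ℝ)) + 3 * ∑ p ∈ O', 1/(p:ℝ))) *
        ((∑ q ∈ V, mu O' R q) * (∑ r ∈ W, mu O R' r))^(1/2+eps1)) +
      K2 * (1 / Real.sqrt b₀) * Real.exp ((1/2) * (3 * (∑ p ∈ O, 1/(p:ℝ)) + 3 * ∑ p ∈ O', 1/(p:ℝ))) *
        ((∑ q ∈ V, R q) * (∑ r ∈ W, R' r))^(1/2:ℝ) +
      ∑ e ∈ (V ×ˢ W).filter (fun e => 0 < F e ∧ (Dc O O' R R' e ≤ 1/2^n ∧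
        FX b₀ O O' R R' γ γ' n e)), F e := by
  obtain ⟨C, c0, hC1, hc0, hC⟩ := cross_low ClsT2.deepHyp_Gen3
  refine ⟨C, c0, hC1, hc0, ?_⟩
  intro c1 hc1 hc10
  obtain ⟨T0, hT01, hT0⟩ := hC c1 hc1 hc10
  refine ⟨T0, hT01, ?_⟩
  intro X K2 L n N G b₀ O O' V W R R' γ γ' F hn400 hb₀ hTn hX hG hK20 hO hO' hV hW hLV hLW hbV hbW hVt hWt
    hsmall hrel
  have hOp : ∀ p ∈ O, p.Prime := fun q hq => (hO q hq).1
  have hOp' : ∀ p ∈ O', p.Prime := fun q hq => (hO' q hq).1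
  have main := hT0 X K2 L n N G b₀ O O' V W R R' γ γ' F (AltX b₀ O O' R R' γ γ' n)
    (EX b₀ O O' R R' γ γ') hb₀ hTn hX hG hK20 hO hO' hV hW hLV hLW hbV hbW hVt hWt hsmall (by
      intro e he hA t ht h1 h2 hF
      have h := Finset.mem_product.1 he
      have hb1 := hbV _ h.1
      have hb2 := hbW _ h.2
      obtain ⟨m, m', hm⟩ := hrel e he (inv_le_of ht h2) hF
      have hD := Dx_eq (R := R) (R' := R') hb₀ hOp' (hV _ h.1).1 hb1 hb2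
      obtain ⟨e1, e2⟩ := cof_mul_left hb₀ hb1 hb2 (uu_pos hOp' (hV _ h.1).1)
      rw [← hD] at h1 h2
      refine gen3_of (m := m) (m' := b₀ * m') ?_ hA ht h1 h2
      rw [hD, e2]
      rw [← e1] at hm
      convert hm using 2
      push_cast
      ring)
    (fun e _ f _ he hf hm h1 => EX_partner hb₀ hOp hOp' he hf hm h1)
    (fun e _ f _ he hf hm h1 => EX_partner' hb₀ hOp hOp' he hf hm h1)
  refine main.trans (add_le_add ?_ ?_)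
  · norm_num
  apply rest_le
  intro e he hQ hF
  have h := Finset.mem_product.1 he
  obtain ⟨hD, hnG, hnE⟩ := hQ
  refine ⟨hD, ?_⟩
  rcases classify_X hn400 hb₀ hOp hOp' (hV _ h.1) (hW _ h.2) (hbV _ h.1) (hbW _ h.2)
    (hrel e he hD hF) with h1 | h1 | h1
  · exact absurd h1 hnG
  · exact absurd h1 hnE
  · exact h1

end Crest.Agent.R4.StopAsm709
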