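import Mathlib
import Crest.Agent.R4.StopCls709
import Crest.Agent.R4.DeepSt579
import Crest.Agent.R4.GInst194
import Crest.Agent.R4.WalkIT579
import Crest.Agent.R4.IMI194

/-!
R4 (S0004), helper710: **near misses of a state**: `nm_column` (709) on the item pairs of a column.

* `ColCls` : the statement of `nm_column_cls` for fixed `CL`, `p₀`; `CC`, `exists_CC` : all constants of a
  column (independent of types).
* `nm_items` : item pairs `V × W` of a column at which both sides miss `p`, any `F ≤ pb`.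
* `nm_small` : with numbers: `∑ F ≤ p^(-1/2500) (Φ + Φ') + ∑ (pairs with D ≤ 2^(-n), [E] or [F]) F`.
* `nm_state` : `eNM s ≤ p^(-1/2500) (∑ mI + ∑ mI') + ∑_{[E] or [F]} iF`.
* `nm_H1` : the `[E]` part as a partial matching `KE` (194): (H1) of module G.
-/

set_option autoImplicit false
set_option linter.unusedSectionVars false
set_option linter.unusedVariables false
open Finset

namespace Crest.Agent.R4.NMW710

open Crest.Agent.R4.HVW560 Crest.Agent.R4.Schur709 Crest.Agent.R4.StopHvw709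
open Crest.Agent.R4.StopAsm709 Crest.Agent.R4.AvgItem710 Crest.Agent.R4.DeepSt579
open Crest.Agent.R4.Item758
open Crest.Agent.R4.ClsS (eps1)

open Classical in
/-- the statement of `nm_column_cls` for fixed constants -/
def ColCls (CL : ℝ) (p₀ : ℕ) : Prop :=
    ∀ (n p G : ℕ) (O O' V W : Finset ℕ) (R R' : ℕ → ℝ)
    (γ γ' : Finset ℕ → ℝ) (F : ℕ × ℕ → ℝ),
    p₀ ≤ p → n = ⌊1/4 * Real.log p / Real.log 2⌋₊ → 0 < G →
    (∀ q ∈ O, q.Prime ∧ p ≤ q) → (∀ q ∈ O', q.Prime ∧ p ≤ q) →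
    ∑ q ∈ O, 1/(q:ℝ) ≤ 1 → ∑ q ∈ O', 1/(q:ℝ) ≤ 1 →
    (∀ w ∈ V, 0 < w ∧ 0 < R w) → (∀ w ∈ W, 0 < w ∧ 0 < R' w) →
    (∀ w ∈ V, R w ≤ (CL * Real.log p) * mu O' R w) → (∀ w ∈ W, R' w ≤ (CL * Real.log p) * mu O R' w) →
    (∀ z : ℝ, (p:ℝ) ≤ z → ∀ w ∈ V, Crest.Agent.R4.ClsB.Tame z G (uu O' w)) →
    (∀ z : ℝ, (p:ℝ) ≤ z → ∀ w ∈ W, Crest.Agent.R4.ClsB.Tame z G (uu O w)) →
    (∀ e ∈ V ×ˢ W, 1 < Dc O O' R R' e → F e ≤ 6 * (R e.1 * R' e.2)) →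
    (∀ e ∈ V ×ˢ W, Dc O O' R R' e ≤ 1 → F e ≤ 6 * ((R e.1 * R' e.2) / Dc O O' R R' e)) →
    (∀ e ∈ V ×ˢ W, Dc O O' R R' e ≤ 1/2^n → 0 < F e → RelG O O' R R' γ γ' e) →
    ∑ e ∈ V ×ˢ W, F e ≤
      (Real.log p)^3 * ((∑ q ∈ V, mu O' R q) * (∑ r ∈ W, mu O R' r)) +
      (p:ℝ)^(1/1000:ℝ) * ((∑ q ∈ V, mu O' R q) * (∑ r ∈ W, mu O R' r))^(1/2+eps1) +
      ∑ e ∈ (V ×ˢ W).filter (fun e => 0 < F e ∧ (Dc O O' R R' e ≤ 1/2^n ∧
        (EG O O' R R' γ γ' e ∨ FG O O' R R' γ γ' n e))), F e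

theorem exists_ColCls {CL : ℝ} (hCL : 1 ≤ CL) : ∃ p₀ : ℕ, 2 ≤ p₀ ∧ ColCls CL p₀ :=
  nm_column_cls hCL

section items
variable {Λ κι : Type*}

/-- scale of a pair of items at two nodes -/
noncomputable def Dq (ρ : ℕ → ℝ) (M b pr c M' b' pr' c' : ℕ) (e : ℕ × ℕ) : ℝ :=
  Da (e.1 / pr) M (e.2 / pr') M' (rd b c ρ e.1) (rd b' c' ρ e.2)

/-- class `[E]` of a pair of items -/
def ESI (γ : ℝ) (ρ : ℕ → ℝ) (M b pr c M' b' pr' c' : ℕ) (e : ℕ × ℕ) : Prop :=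
  ES ((rf (e.1 / pr) M : ℕ) * ((b : ℝ) / c * γ)) ((rf (e.2 / pr') M' : ℕ) * ((b' : ℝ) / c' * γ))
    (cof (e.1 / pr / M.gcd (e.1 / pr)) (e.2 / pr' / M'.gcd (e.2 / pr')))
    (cof (e.2 / pr' / M'.gcd (e.2 / pr')) (e.1 / pr / M.gcd (e.1 / pr)))
    ((rf (e.1 / pr) M : ℕ) * rd b c ρ e.1) ((rf (e.2 / pr') M' : ℕ) * rd b' c' ρ e.2)

/-- class `[F]` of a pair of items -/
def FSI (γ : ℝ) (ρ : ℕ → ℝ) (n : ℕ) (M b pr c M' b' pr' c' : ℕ) (e : ℕ × ℕ) : Prop :=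
  FS n ((rf (e.1 / pr) M : ℕ) * ((b : ℝ) / c * γ)) ((rf (e.2 / pr') M' : ℕ) * ((b' : ℝ) / c' * γ))
    (cof (e.1 / pr / M.gcd (e.1 / pr)) (e.2 / pr' / M'.gcd (e.2 / pr')))
    (cof (e.2 / pr' / M'.gcd (e.2 / pr')) (e.1 / pr / M.gcd (e.1 / pr)))
    ((rf (e.1 / pr) M : ℕ) * rd b c ρ e.1) ((rf (e.2 / pr') M' : ℕ) * rd b' c' ρ e.2)

/-- the relation of coprime cofactors, two integers -/
lemma rel_two {θ r θ' r' : ℝ} {X Y : ℕ} (hXY : Nat.Coprime X Y) (h : Rel θ r θ' r' X Y) :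
    ∃ m m' : ℤ, |((m:ℝ) + θ) * (Y:ℕ) - (m' + θ') * (X:ℕ)| ≤ 2 * max ((Y:ℝ) * r) ((X:ℝ) * r') := by
  obtain ⟨k, hk⟩ := h
  obtain ⟨a, d, had⟩ := (Nat.isCoprime_iff_coprime.2 hXY)
  refine ⟨k * d, -(k * a), ?_⟩
  have h1 : ((k * d : ℤ) : ℝ) * Y + ((k * a : ℤ) : ℝ) * X = k := by
    have : (k * d) * (Y:ℤ) + (k * a) * (X:ℤ) = k := by linear_combination k * had
    exact_mod_cast this
  have e : (((k * d : ℤ) : ℝ) + θ) * (Y:ℕ) - (((-(k * a) : ℤ) : ℝ) + θ') * (X:ℕ) =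
      (k:ℝ) - (θ' * X - θ * Y) := by
    push_cast at h1 ⊢
    linear_combination h1
  rw [e]
  refine hk.trans ?_
  have := le_max_left ((Y:ℝ) * r) ((X:ℝ) * r')
  have := le_max_right ((Y:ℝ) * r) ((X:ℝ) * r')
  linarith

open Classical in
/-- **item pairs of a column at which both sides miss `p`** -/
theorem nm_items {CL : ℝ} {p₀ : ℕ}
    (hcol : ColCls CL p₀) (D : Par Λ κι) {ρ : ℕ → ℝ} {F : ℕ × ℕ → ℝ}
    {n p G M b pr c M' b' pr' c' : ℕ} {V W : Finset ℕ}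
    (hp : p₀ ≤ p) (hn : n = ⌊1/4 * Real.log p / Real.log 2⌋₊) (hn1 : 1 ≤ n) (hG : 0 < G)
    (hρ : ∀ q, 0 < ρ q) (hb : 0 < b) (hc : 0 < c) (hb' : 0 < b') (hc' : 0 < c')
    (hM : Squarefree M) (hM' : Squarefree M')
    (hMp : ∀ l : ℕ, l.Prime → l ∣ M → p ≤ l) (hMp' : ∀ l : ℕ, l.Prime → l ∣ M' → p ≤ l)
    (hs : ∑ l ∈ M.primeFactors, 1/(l:ℝ) ≤ 1) (hs' : ∑ l ∈ M'.primeFactors, 1/(l:ℝ) ≤ 1)
    (hV : ∀ q ∈ V, 0 < q ∧ pr ∣ q) (hW : ∀ q ∈ W, 0 < q ∧ pr' ∣ q)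
    (tV : ∀ z : ℝ, (p:ℝ) ≤ z → ∀ q ∈ V, ClsB.Tame z G (q / pr / M.gcd (q / pr)))
    (tW : ∀ z : ℝ, (p:ℝ) ≤ z → ∀ q ∈ W, ClsB.Tame z G (q / pr' / M'.gcd (q / pr')))
    (lV : ∀ q ∈ V, 1 ≤ CL * Real.log p * tq (q / pr / M.gcd (q / pr)))
    (lW : ∀ q ∈ W, 1 ≤ CL * Real.log p * tq (q / pr' / M'.gcd (q / pr')))
    (hF : ∀ e ∈ V ×ˢ W, F e ≤ D.pb ρ M b pr c e.1 M' b' pr' c' e.2) :
    ∑ e ∈ V ×ˢ W, F e ≤
      (Real.log p)^3 * ((8 * ∑ q ∈ V, rd b c ρ q * tq (q / pr)) *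
        (8 * ∑ q ∈ W, rd b' c' ρ q * tq (q / pr'))) +
      (p:ℝ)^(1/1000:ℝ) * ((8 * ∑ q ∈ V, rd b c ρ q * tq (q / pr)) *
        (8 * ∑ q ∈ W, rd b' c' ρ q * tq (q / pr')))^(1/2+eps1) +
      ∑ e ∈ (V ×ˢ W).filter (fun e => 0 < F e ∧ (Dq ρ M b pr c M' b' pr' c' e ≤ 1/2^n ∧
        (ESI D.γ ρ M b pr c M' b' pr' c' e ∨ FSI D.γ ρ n M b pr c M' b' pr' c' e))), F e := by
  classical
  have hb0 : (0:ℝ) < b := by exact_mod_cast hb
  have hc0' : (0:ℝ) < c := by exact_mod_cast hc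
  have hbb0 : (0:ℝ) < b' := by exact_mod_cast hb'
  have hcc0 : (0:ℝ) < c' := by exact_mod_cast hc'
  have hR : ∀ q, 0 < rd b c ρ q := fun q => mul_pos (div_pos hb0 hc0') (hρ q)
  have hR' : ∀ q, 0 < rd b' c' ρ q := fun q => mul_pos (div_pos hbb0 hcc0) (hρ q)
  have hMp0 : 0 < M := Nat.pos_of_ne_zero hM.ne_zero
  have hMp0' : 0 < M' := Nat.pos_of_ne_zero hM'.ne_zero
  have hVw : ∀ q ∈ V, 0 < q / pr := fun q hq =>
    Nat.div_pos (Nat.le_of_dvd (hV q hq).1 (hV q hq).2) (Nat.pos_of_dvd_of_pos (hV q hq).2 (hV q hq).1)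
  have hWw : ∀ q ∈ W, 0 < q / pr' := fun q hq =>
    Nat.div_pos (Nat.le_of_dvd (hW q hq).1 (hW q hq).2) (Nat.pos_of_dvd_of_pos (hW q hq).2 (hW q hq).1)
  have hVm : ∀ q ∈ V, pr * (q / pr) = q := fun q hq => Nat.mul_div_cancel' (hV q hq).2
  have hWm : ∀ q ∈ W, pr' * (q / pr') = q := fun q hq => Nat.mul_div_cancel' (hW q hq).2
  set V0 := V.image (fun q => q / pr) with hV0
  set W0 := W.image (fun q => q / pr') with hW0
  set O' := M.primeFactors with hO'd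
  set O := M'.primeFactors with hOd
  have hO : ∀ l ∈ O, l.Prime ∧ p ≤ l := fun l hl =>
    ⟨Nat.prime_of_mem_primeFactors hl, hMp' l (Nat.prime_of_mem_primeFactors hl)
      (Nat.dvd_of_mem_primeFactors hl)⟩
  have hO' : ∀ l ∈ O', l.Prime ∧ p ≤ l := fun l hl =>
    ⟨Nat.prime_of_mem_primeFactors hl, hMp l (Nat.prime_of_mem_primeFactors hl)
      (Nat.dvd_of_mem_primeFactors hl)⟩
  set R : ℕ → ℝ := fun w => rd b c ρ (pr * w) with hRd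
  set R' : ℕ → ℝ := fun w => rd b' c' ρ (pr' * w) with hRd'
  have hRe : ∀ q ∈ V, R (q / pr) = rd b c ρ q := fun q hq => by rw [hRd]; simp only; rw [hVm q hq]
  have hRe' : ∀ q ∈ W, R' (q / pr') = rd b' c' ρ q := fun q hq => by rw [hRd']; simp only; rw [hWm q hq]
  set F0 : ℕ × ℕ → ℝ := fun f => F (pr * f.1, pr' * f.2) with hF0
  have hF0e : ∀ e ∈ V ×ˢ W, F0 (e.1 / pr, e.2 / pr') = F e := fun e he => by
    obtain ⟨h1, h2⟩ := Finset.mem_product.1 he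
    rw [hF0]; simp only; rw [hVm _ h1, hWm _ h2]
  have hDc : ∀ e ∈ V ×ˢ W, Dc O O' R R' (e.1 / pr, e.2 / pr') = Dq ρ M b pr c M' b' pr' c' e :=
    fun e he => by
    obtain ⟨k1, k2⟩ := Finset.mem_product.1 he
    have h1 := Dc_pf hM hM' R R' (e.1 / pr, e.2 / pr') (hVw _ k1) (hWw _ k2)
    rw [hRe _ k1, hRe' _ k2] at h1
    exact h1
  have hinjV : Set.InjOn (fun q => q / pr) (V : Set ℕ) := by
    intro e he f hf hef
    simp only at hef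
    rw [← hVm _ (Finset.mem_coe.1 he), ← hVm _ (Finset.mem_coe.1 hf), hef]
  have hinjW : Set.InjOn (fun q => q / pr') (W : Set ℕ) := by
    intro e he f hf hef
    simp only at hef
    rw [← hWm _ (Finset.mem_coe.1 he), ← hWm _ (Finset.mem_coe.1 hf), hef]
  have hinj : Set.InjOn (fun e : ℕ × ℕ => (e.1 / pr, e.2 / pr')) ((V ×ˢ W : Finset (ℕ × ℕ)) : Set (ℕ × ℕ)) := by
    intro e he f hf hef
    obtain ⟨h1, h2⟩ := Finset.mem_product.1 (Finset.mem_coe.1 he)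
    obtain ⟨h3, h4⟩ := Finset.mem_product.1 (Finset.mem_coe.1 hf)
    simp only [Prod.mk.injEq] at hef
    exact Prod.ext (hinjV h1 h3 hef.1) (hinjW h2 h4 hef.2)
  have himg : V0 ×ˢ W0 = (V ×ˢ W).image (fun e : ℕ × ℕ => (e.1 / pr, e.2 / pr')) := by
    ext f
    simp only [Finset.mem_product, Finset.mem_image, hV0, hW0]
    constructor
    · rintro ⟨⟨a, ha, ha'⟩, ⟨d, hd, hd'⟩⟩
      exact ⟨(a, d), ⟨ha, hd⟩, Prod.ext ha' hd'⟩
    · rintro ⟨e, ⟨h1, h2⟩, rfl⟩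
      exact ⟨⟨_, h1, rfl⟩, ⟨_, h2, rfl⟩⟩
  have hsum : ∀ Q : ℕ × ℕ → Prop, ∀ Q0 : ℕ × ℕ → Prop,
      (∀ e ∈ V ×ˢ W, Q0 (e.1 / pr, e.2 / pr') → Q e) →
      (∀ e ∈ V ×ˢ W, Q e → Q0 (e.1 / pr, e.2 / pr')) →
      ∑ f ∈ (V0 ×ˢ W0).filter Q0, F0 f = ∑ e ∈ (V ×ˢ W).filter Q, F e := by
    intro Q Q0 h1 h2
    rw [himg, Finset.filter_image, Finset.sum_image
      (hinj.mono (by intro x hx; exact (Finset.mem_filter.1 (Finset.mem_coe.1 hx)).1))]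
    have e1 : (V ×ˢ W).filter (fun a => Q0 (a.1 / pr, a.2 / pr')) = (V ×ˢ W).filter Q := by
      ext e
      simp only [Finset.mem_filter]
      exact ⟨fun h => ⟨h.1, h1 e h.1 h.2⟩, fun h => ⟨h.1, h2 e h.1 h.2⟩⟩
    rw [e1]
    exact Finset.sum_congr rfl fun e he => hF0e e (Finset.mem_filter.1 he).1
  have hsumT : ∑ f ∈ V0 ×ˢ W0, F0 f = ∑ e ∈ V ×ˢ W, F e := by
    have := hsum (fun _ => True) (fun _ => True) (fun _ _ _ => trivial) (fun _ _ _ => trivial)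
    simpa using this
  have mem0 : ∀ f ∈ V0 ×ˢ W0, ∃ e ∈ V ×ˢ W, f = (e.1 / pr, e.2 / pr') := fun f hf => by
    rw [himg] at hf
    obtain ⟨e, he, rfl⟩ := Finset.mem_image.1 hf
    exact ⟨e, he, rfl⟩
  have hpb : ∀ e ∈ V ×ˢ W, F e ≤ 4 * (rd b c ρ e.1 * rd b' c' ρ e.2) +
      2 * (rd b c ρ e.1 * rd b' c' ρ e.2 / Dq ρ M b pr c M' b' pr' c' e) := fun e he => by
    refine (hF e he).trans ?_
    rw [pb_rd]
    exact pbd_le_all (hR _).le (hR' _).le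
  have muV : ∀ q ∈ V, mu O' R (q / pr) = rd b c ρ q * tq (q / pr / M.gcd (q / pr)) := fun q hq => by
    unfold mu tq
    rw [hRe q hq, uu_pf hM _ (hVw q hq)]
  have muW : ∀ q ∈ W, mu O R' (q / pr') = rd b' c' ρ q * tq (q / pr' / M'.gcd (q / pr')) := fun q hq => by
    unfold mu tq
    rw [hRe' q hq, uu_pf hM' _ (hWw q hq)]
  set gL : Finset ℕ → ℝ := fun S => (∏ l ∈ S, l : ℕ) * ((b : ℝ) / c * D.γ) with hgL
  set gR : Finset ℕ → ℝ := fun S => (∏ l ∈ S, l : ℕ) * ((b' : ℝ) / c' * D.γ) with hgR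
  have hES : ∀ e ∈ V ×ˢ W, EG O O' R R' gL gR (e.1 / pr, e.2 / pr') ↔
      ESI D.γ ρ M b pr c M' b' pr' c' e := fun e he => by
    obtain ⟨k1, k2⟩ := Finset.mem_product.1 he
    have hw1 := hVw _ k1
    have hw2 := hWw _ k2
    show ES ((∏ l ∈ miss O' (e.1 / pr), l : ℕ) * ((b : ℝ) / c * D.γ))
        ((∏ l ∈ miss O (e.2 / pr'), l : ℕ) * ((b' : ℝ) / c' * D.γ))
        (cof (uu O' (e.1 / pr)) (uu O (e.2 / pr'))) (cof (uu O (e.2 / pr')) (uu O' (e.1 / pr)))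
        (Rc O' R (e.1 / pr)) (Rc O R' (e.2 / pr')) ↔ _
    rw [miss_pf_prod hM _ hw1, miss_pf_prod hM' _ hw2, uu_pf hM _ hw1, uu_pf hM' _ hw2,
      Rc_pf hM _ _ hw1, Rc_pf hM' _ _ hw2, hRe _ k1, hRe' _ k2]
    exact Iff.rfl
  have hFS : ∀ e ∈ V ×ˢ W, FG O O' R R' gL gR n (e.1 / pr, e.2 / pr') ↔
      FSI D.γ ρ n M b pr c M' b' pr' c' e := fun e he => by
    obtain ⟨k1, k2⟩ := Finset.mem_product.1 he
    have hw1 := hVw _ k1
    have hw2 := hWw _ k2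
    show FS n ((∏ l ∈ miss O' (e.1 / pr), l : ℕ) * ((b : ℝ) / c * D.γ))
        ((∏ l ∈ miss O (e.2 / pr'), l : ℕ) * ((b' : ℝ) / c' * D.γ))
        (cof (uu O' (e.1 / pr)) (uu O (e.2 / pr'))) (cof (uu O (e.2 / pr')) (uu O' (e.1 / pr)))
        (Rc O' R (e.1 / pr)) (Rc O R' (e.2 / pr')) ↔ _
    rw [miss_pf_prod hM _ hw1, miss_pf_prod hM' _ hw2, uu_pf hM _ hw1, uu_pf hM' _ hw2,
      Rc_pf hM _ _ hw1, Rc_pf hM' _ _ hw2, hRe _ k1, hRe' _ k2]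
    exact Iff.rfl
  have key := hcol n p G O O' V0 W0 R R' gL gR F0 hp hn hG hO hO' hs' hs
    (by
      intro w hw
      obtain ⟨q, hq, rfl⟩ := Finset.mem_image.1 hw
      exact ⟨hVw q hq, by rw [hRe q hq]; exact hR q⟩)
    (by
      intro w hw
      obtain ⟨q, hq, rfl⟩ := Finset.mem_image.1 hw
      exact ⟨hWw q hq, by rw [hRe' q hq]; exact hR' q⟩)
    (by
      intro w hw
      obtain ⟨q, hq, rfl⟩ := Finset.mem_image.1 hw
      rw [hRe q hq, muV q hq]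
      have := mul_le_mul_of_nonneg_left (lV q hq) (hR q).le
      calc rd b c ρ q = rd b c ρ q * 1 := (mul_one _).symm
        _ ≤ _ := this
        _ = _ := by ring)
    (by
      intro w hw
      obtain ⟨q, hq, rfl⟩ := Finset.mem_image.1 hw
      rw [hRe' q hq, muW q hq]
      have := mul_le_mul_of_nonneg_left (lW q hq) (hR' q).le
      calc rd b' c' ρ q = rd b' c' ρ q * 1 := (mul_one _).symm
        _ ≤ _ := this
        _ = _ := by ring)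
    (by
      intro z hz w hw
      obtain ⟨q, hq, rfl⟩ := Finset.mem_image.1 hw
      rw [uu_pf hM _ (hVw q hq)]
      exact tV z hz q hq)
    (by
      intro z hz w hw
      obtain ⟨q, hq, rfl⟩ := Finset.mem_image.1 hw
      rw [uu_pf hM' _ (hWw q hq)]
      exact tW z hz q hq)
    (by
      intro f hf h1
      obtain ⟨e, he, rfl⟩ := mem0 f hf
      obtain ⟨k1, k2⟩ := Finset.mem_product.1 he
      rw [hDc e he] at h1
      rw [hF0e e he, hRe _ k1, hRe' _ k2]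
      have h2 := hpb e he
      have h3 : 0 ≤ rd b c ρ e.1 * rd b' c' ρ e.2 := mul_nonneg (hR _).le (hR' _).le
      have h4 : rd b c ρ e.1 * rd b' c' ρ e.2 / Dq ρ M b pr c M' b' pr' c' e ≤
          rd b c ρ e.1 * rd b' c' ρ e.2 := div_le_self h3 h1.le
      linarith)
    (by
      intro f hf h1
      obtain ⟨e, he, rfl⟩ := mem0 f hf
      obtain ⟨k1, k2⟩ := Finset.mem_product.1 he
      have hd0 : 0 < Dc O O' R R' (e.1 / pr, e.2 / pr') := by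
        refine Dc_pos (N := p) hO hO' ?_ (hWw _ k2)
        rw [hRe _ k1]; exact hR _
      rw [hDc e he] at h1 hd0 ⊢
      rw [hF0e e he, hRe _ k1, hRe' _ k2]
      have h2 := hpb e he
      have h3 : 0 ≤ rd b c ρ e.1 * rd b' c' ρ e.2 := mul_nonneg (hR _).le (hR' _).le
      have h4 : rd b c ρ e.1 * rd b' c' ρ e.2 ≤
          rd b c ρ e.1 * rd b' c' ρ e.2 / Dq ρ M b pr c M' b' pr' c' e := by
        rw [le_div_iff₀ hd0]; nlinarith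
      linarith)
    (by
      intro f hf h1 h3
      obtain ⟨e, he, rfl⟩ := mem0 f hf
      obtain ⟨k1, k2⟩ := Finset.mem_product.1 he
      rw [hDc e he] at h1
      rw [hF0e e he] at h3
      have hw1 := hVw _ k1
      have hw2 := hWw _ k2
      have hhalf : Dq ρ M b pr c M' b' pr' c' e ≤ 1/2 := by
        refine h1.trans ?_
        apply one_div_le_one_div_of_le (by norm_num)
        calc (2:ℝ) = 2^1 := (pow_one _).symm
          _ ≤ 2^n := pow_le_pow_right₀ (by norm_num) hn1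
      have hRa : Ra ((b : ℝ) / c * D.γ) (rd b c ρ e.1) (e.1 / pr) M ((b' : ℝ) / c' * D.γ)
          (rd b' c' ρ e.2) (e.2 / pr') M' := by
        by_contra hneg
        have h4 := hF e he
        rw [pb_rd] at h4
        unfold pbd at h4
        unfold Dq at hhalf
        rw [if_pos hhalf, if_neg hneg] at h4
        linarith
      have hu : 0 < e.1 / pr / M.gcd (e.1 / pr) := div_pos' hw1 hMp0
      obtain ⟨m, m', hmm⟩ := rel_two (AvgItem710.cof_coprime hu) hRa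
      refine ⟨m, m', ?_⟩
      show |(m + ((∏ l ∈ miss O' (e.1 / pr), l : ℕ) * ((b : ℝ) / c * D.γ))) *
          (cof (uu O (e.2 / pr')) (uu O' (e.1 / pr)) : ℕ) -
          (m' + ((∏ l ∈ miss O (e.2 / pr'), l : ℕ) * ((b' : ℝ) / c' * D.γ))) *
          (cof (uu O' (e.1 / pr)) (uu O (e.2 / pr')) : ℕ)| ≤ 2 * Dc O O' R R' (e.1 / pr, e.2 / pr')
      rw [hDc e he, miss_pf_prod hM _ hw1, miss_pf_prod hM' _ hw2, uu_pf hM _ hw1, uu_pf hM' _ hw2]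
      exact hmm)
  have hleft : ∑ f ∈ (V0 ×ˢ W0).filter (fun f => 0 < F0 f ∧ (Dc O O' R R' f ≤ 1/2^n ∧
      (EG O O' R R' gL gR f ∨ FG O O' R R' gL gR n f))), F0 f =
      ∑ e ∈ (V ×ˢ W).filter (fun e => 0 < F e ∧ (Dq ρ M b pr c M' b' pr' c' e ≤ 1/2^n ∧
        (ESI D.γ ρ M b pr c M' b' pr' c' e ∨ FSI D.γ ρ n M b pr c M' b' pr' c' e))), F e := by
    have hh := hsum (fun e => 0 < F e ∧ (Dq ρ M b pr c M' b' pr' c' e ≤ 1/2^n ∧
        (ESI D.γ ρ M b pr c M' b' pr' c' e ∨ FSI D.γ ρ n M b pr c M' b' pr' c' e)))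
      (fun f => 0 < F0 f ∧ (Dc O O' R R' f ≤ 1/2^n ∧
        (EG O O' R R' gL gR f ∨ FG O O' R R' gL gR n f))) (fun e he h => by
        obtain ⟨h0, h1, h2⟩ := h
        rw [hDc e he] at h1
        rw [hF0e e he] at h0
        rw [hES e he, hFS e he] at h2
        exact ⟨h0, h1, h2⟩) (fun e he h => by
        obtain ⟨h0, h1, h2⟩ := h
        refine ⟨?_, ?_, ?_⟩
        · rw [hF0e e he]; exact h0
        · rw [hDc e he]; exact h1
        · rw [hES e he, hFS e he]; exact h2)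
    convert hh
  rw [hsumT, hleft] at key
  refine key.trans ?_
  have he8 : Real.exp 2 ≤ 8 := by
    have h := Real.exp_one_lt_d9
    have : Real.exp 2 = Real.exp 1 * Real.exp 1 := by rw [← Real.exp_add]; norm_num
    rw [this]
    have h0 := Real.exp_pos 1
    nlinarith
  have hexp : ∀ x : ℝ, x ≤ 1 → Real.exp (2 * x) ≤ 8 := fun x hx =>
    (Real.exp_le_exp.2 (by linarith)).trans he8
  have sV : ∑ w ∈ V0, mu O' R w ≤ 8 * ∑ q ∈ V, rd b c ρ q * tq (q / pr) := by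
    rw [hV0, Finset.sum_image hinjV, Finset.mul_sum]
    refine Finset.sum_le_sum fun q hq => ?_
    rw [muV q hq]
    have h1 := tq_div_le hMp0 (hVw q hq)
    have h2 := hexp _ hs
    have h3 : tq (q / pr / M.gcd (q / pr)) ≤ tq (q / pr) * 8 :=
      h1.trans (mul_le_mul_of_nonneg_left h2 (tq_nonneg _))
    have h4 := mul_le_mul_of_nonneg_left h3 (hR q).le
    linarith
  have sW : ∑ w ∈ W0, mu O R' w ≤ 8 * ∑ q ∈ W, rd b' c' ρ q * tq (q / pr') := by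
    rw [hW0, Finset.sum_image hinjW, Finset.mul_sum]
    refine Finset.sum_le_sum fun q hq => ?_
    rw [muW q hq]
    have h1 := tq_div_le hMp0' (hWw q hq)
    have h2 := hexp _ hs'
    have h3 : tq (q / pr' / M'.gcd (q / pr')) ≤ tq (q / pr') * 8 :=
      h1.trans (mul_le_mul_of_nonneg_left h2 (tq_nonneg _))
    have h4 := mul_le_mul_of_nonneg_left h3 (hR' q).le
    linarith
  have nV : 0 ≤ ∑ w ∈ V0, mu O' R w := Finset.sum_nonneg fun w hw => by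
    obtain ⟨q, hq, rfl⟩ := Finset.mem_image.1 hw
    rw [muV q hq]; exact mul_nonneg (hR q).le (tq_nonneg _)
  have nW : 0 ≤ ∑ w ∈ W0, mu O R' w := Finset.sum_nonneg fun w hw => by
    obtain ⟨q, hq, rfl⟩ := Finset.mem_image.1 hw
    rw [muW q hq]; exact mul_nonneg (hR' q).le (tq_nonneg _)
  have hprod : (∑ w ∈ V0, mu O' R w) * (∑ w ∈ W0, mu O R' w) ≤
      (8 * ∑ q ∈ V, rd b c ρ q * tq (q / pr)) * (8 * ∑ q ∈ W, rd b' c' ρ q * tq (q / pr')) :=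
    mul_le_mul sV sW nW (nV.trans sV)
  have hlog : 0 ≤ (Real.log p)^3 := pow_nonneg (Real.log_natCast_nonneg p) 3
  have he1 : eps1 = 1/1000 := rfl
  refine add_le_add (add_le_add (mul_le_mul_of_nonneg_left hprod hlog) ?_) le_rfl
  refine mul_le_mul_of_nonneg_left ?_ (by positivity)
  exact Real.rpow_le_rpow (mul_nonneg nV nW) hprod (by rw [he1]; norm_num)

end items

/-! ### numbers -/

open Filter in
lemma ev_log_rpow (K r s : ℝ) (hs : 0 < s) : ∀ᶠ x : ℝ in atTop, K * (Real.log x)^r ≤ x^s := by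
  have h := isLittleO_log_rpow_rpow_atTop r hs
  have h2 := h.bound (c := 1/(|K|+1)) (by positivity)
  filter_upwards [h2, eventually_ge_atTop (1:ℝ)] with x hx hx1
  have hl : 0 ≤ Real.log x := Real.log_nonneg hx1
  have hx0 : 0 < x := by linarith
  have n1 := Real.rpow_nonneg hl r
  have n2 := Real.rpow_nonneg hx0.le s
  rw [Real.norm_of_nonneg n1, Real.norm_of_nonneg n2] at hx
  have hK : 0 < |K| + 1 := by positivity
  have hK2 : K ≤ |K| + 1 := by linarith [le_abs_self K]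
  calc K * (Real.log x)^r ≤ (|K| + 1) * (Real.log x)^r := mul_le_mul_of_nonneg_right hK2 n1
    _ ≤ (|K| + 1) * (1/(|K|+1) * x^s) := mul_le_mul_of_nonneg_left hx hK.le
    _ = x^s := by field_simp

open Filter in
/-- numbers of a column -/
lemma num_col (C1 Cm : ℝ) (hCm : 0 ≤ Cm) : ∃ p₁ : ℕ, 2 ≤ p₁ ∧ ∀ p : ℕ, p₁ ≤ p → ∀ X X' Φ Φ' : ℝ,
    0 ≤ X → 0 ≤ X' → X ≤ (Real.log p)^C1 / p → X' ≤ (Real.log p)^C1 / p →
    X ≤ Cm * Φ → X' ≤ Cm * Φ' → 0 ≤ Φ → 0 ≤ Φ' →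
    (Real.log p)^3 * ((8 * X) * (8 * X')) + (p:ℝ)^(1/1000:ℝ) * ((8 * X) * (8 * X'))^(1/2+eps1) ≤
      (p:ℝ)^(-(1/2500):ℝ) * (Φ + Φ') := by
  have he1 : eps1 = 1/1000 := rfl
  have e1 := ev_log_rpow (64 * Cm + 1) (C1 + 3) (1/2) (by norm_num)
  have e2 := ev_log_rpow 8 C1 (1/100) (by norm_num)
  have e3 := ev_log_rpow (8 * Cm) 0 (29/50000) (by norm_num)
  obtain ⟨x0, hx0⟩ := eventually_atTop.1 (e1.and (e2.and (e3.and (eventually_ge_atTop (3:ℝ)))))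
  refine ⟨max 2 ⌈x0⌉₊, le_max_left _ _, ?_⟩
  intro p hp X X' Φ Φ' hX hX' hXs hXs' hXm hXm' hΦ1 hΦ2
  have hpx : x0 ≤ (p:ℝ) := (Nat.le_ceil x0).trans (by exact_mod_cast (le_max_right _ _).trans hp)
  obtain ⟨g1, g2, g3, g4⟩ := hx0 p hpx
  have hp0 : (0:ℝ) < p := by linarith
  have hp1 : (1:ℝ) ≤ p := by linarith
  have hl1 : 1 ≤ Real.log p := by
    rw [Real.le_log_iff_exp_le hp0]
    have := Real.exp_one_lt_d9
    linarith
  have hl0 : 0 < Real.log p := by linarith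
  rw [Real.rpow_zero, mul_one] at g3
  set L := Real.log (p:ℝ) with hL
  set σ : ℝ := 8 * (L^C1 / p) with hσ
  have hLC : 0 < L^C1 := Real.rpow_pos_of_pos hl0 _
  have hσ0 : 0 < σ := by rw [hσ]; positivity
  set Y := 8 * X with hY
  set Y' := 8 * X' with hY'
  have hY0 : 0 ≤ Y := by rw [hY]; positivity
  have hY0' : 0 ≤ Y' := by rw [hY']; positivity
  have hYs : Y ≤ σ := by rw [hY, hσ]; linarith
  have hYs' : Y' ≤ σ := by rw [hY', hσ]; linarith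
  have hYm : Y + Y' ≤ 8 * Cm * (Φ + Φ') := by rw [hY, hY']; nlinarith
  have hYY : Y * Y' ≤ σ * ((Y + Y') / 2) := by nlinarith
  have hYY0 : 0 ≤ Y * Y' := mul_nonneg hY0 hY0'
  have hsum0 : 0 ≤ (Y + Y') / 2 := by positivity
  -- first term
  have a1 : L^3 * (Y * Y') ≤ (L^3 * σ) * ((Y + Y') / 2) := by
    calc L^3 * (Y * Y') ≤ L^3 * (σ * ((Y + Y') / 2)) :=
          mul_le_mul_of_nonneg_left hYY (by positivity)
      _ = _ := by ring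
  -- second term
  have a2 : (Y * Y')^(1/2+eps1) ≤ σ^(1/500:ℝ) * ((Y + Y') / 2) := by
    have b1 : (Y * Y')^(1/2+eps1) = (Y * Y')^(1/2:ℝ) * (Y * Y')^(1/1000:ℝ) := by
      rw [he1, Real.rpow_add_of_nonneg hYY0 (by norm_num) (by norm_num)]
    have b2 : (Y * Y')^(1/2:ℝ) ≤ (Y + Y') / 2 := by
      rw [← Real.sqrt_eq_rpow]
      apply Real.sqrt_le_iff.2
      refine ⟨hsum0, ?_⟩
      nlinarith [sq_nonneg (Y - Y')]
    have b3 : (Y * Y')^(1/1000:ℝ) ≤ σ^(1/500:ℝ) := by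
      have c1 : Y * Y' ≤ σ^(2:ℕ) := by
        rw [sq]; exact mul_le_mul hYs hYs' hY0' hσ0.le
      calc (Y * Y')^(1/1000:ℝ) ≤ (σ^(2:ℕ))^(1/1000:ℝ) :=
            Real.rpow_le_rpow hYY0 c1 (by norm_num)
        _ = σ^(1/500:ℝ) := by
            rw [← Real.rpow_natCast, ← Real.rpow_mul hσ0.le]
            norm_num
    rw [b1, mul_comm]
    exact mul_le_mul b3 b2 (Real.rpow_nonneg hYY0 _) (Real.rpow_nonneg hσ0.le _)
  -- constants
  have hfac : 8 * Cm * ((L^3 * σ + (p:ℝ)^(1/1000:ℝ) * σ^(1/500:ℝ)) / 2) ≤ (p:ℝ)^(-(1/2500):ℝ) := by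
    have c1 : 8 * Cm * (L^3 * σ) ≤ (p:ℝ)^(-(1/2):ℝ) := by
      have d1 : 8 * Cm * (L^3 * σ) = (64 * Cm * (L^(C1+3))) / p := by
        rw [hσ, Real.rpow_add hl0]
        have : L^(3:ℝ) = L^(3:ℕ) := by
          rw [← Real.rpow_natCast]; norm_num
        rw [this]; ring
      have d2 : 64 * Cm * (L^(C1+3)) ≤ (p:ℝ)^(1/2:ℝ) := by
        refine le_trans ?_ g1
        apply mul_le_mul_of_nonneg_right (by linarith) (Real.rpow_nonneg hl0.le _)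
      rw [d1, div_le_iff₀ hp0]
      refine d2.trans (le_of_eq ?_)
      nth_rewrite 3 [← Real.rpow_one (p:ℝ)]
      rw [← Real.rpow_add hp0]; norm_num
    have c2 : 8 * Cm * ((p:ℝ)^(1/1000:ℝ) * σ^(1/500:ℝ)) ≤ (p:ℝ)^(-(1/2500):ℝ) := by
      have d1 : σ ≤ (p:ℝ)^(-(99/100):ℝ) := by
        rw [hσ, ← mul_div_assoc, div_le_iff₀ hp0]
        refine g2.trans (le_of_eq ?_)
        nth_rewrite 3 [← Real.rpow_one (p:ℝ)]
        rw [← Real.rpow_add hp0]; norm_num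
      have d2 : σ^(1/500:ℝ) ≤ (p:ℝ)^(-(99/50000):ℝ) := by
        refine (Real.rpow_le_rpow hσ0.le d1 (by norm_num)).trans (le_of_eq ?_)
        rw [← Real.rpow_mul hp0.le]; norm_num
      calc 8 * Cm * ((p:ℝ)^(1/1000:ℝ) * σ^(1/500:ℝ))
          ≤ (p:ℝ)^(29/50000:ℝ) * ((p:ℝ)^(1/1000:ℝ) * (p:ℝ)^(-(99/50000):ℝ)) := by
            apply mul_le_mul g3 _ (by positivity) (by positivity)
            exact mul_le_mul_of_nonneg_left d2 (by positivity)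
        _ = (p:ℝ)^(-(1/2500):ℝ) := by
            rw [← Real.rpow_add hp0, ← Real.rpow_add hp0]; norm_num
    have c3 : (p:ℝ)^(-(1/2):ℝ) ≤ (p:ℝ)^(-(1/2500):ℝ) :=
      Real.rpow_le_rpow_of_exponent_le hp1 (by norm_num)
    linarith
  have hpp : 0 ≤ (p:ℝ)^(1/1000:ℝ) := by positivity
  have a3 := mul_le_mul_of_nonneg_left a2 hpp
  have hK0 : 0 ≤ (L^3 * σ + (p:ℝ)^(1/1000:ℝ) * σ^(1/500:ℝ)) / 2 := by positivity
  calc L^3 * (Y * Y') + (p:ℝ)^(1/1000:ℝ) * (Y * Y')^(1/2+eps1)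
      ≤ (L^3 * σ) * ((Y + Y') / 2) + (p:ℝ)^(1/1000:ℝ) * (σ^(1/500:ℝ) * ((Y + Y') / 2)) :=
        add_le_add a1 a3
    _ = ((L^3 * σ + (p:ℝ)^(1/1000:ℝ) * σ^(1/500:ℝ)) / 2) * (Y + Y') := by ring
    _ ≤ ((L^3 * σ + (p:ℝ)^(1/1000:ℝ) * σ^(1/500:ℝ)) / 2) * (8 * Cm * (Φ + Φ')) :=
        mul_le_mul_of_nonneg_left hYm hK0
    _ = (8 * Cm * ((L^3 * σ + (p:ℝ)^(1/1000:ℝ) * σ^(1/500:ℝ)) / 2)) * (Φ + Φ') := by ring
    _ ≤ _ := mul_le_mul_of_nonneg_right hfac (add_nonneg hΦ1 hΦ2)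

/-! ### with numbers -/

/-- constants of a column: independent of types -/
structure CC (CL C1 Cm : ℝ) (p₁ : ℕ) : Prop where
  big : 16 ≤ p₁
  col : ColCls CL p₁
  num : ∀ p : ℕ, p₁ ≤ p → ∀ X X' Φ Φ' : ℝ,
    0 ≤ X → 0 ≤ X' → X ≤ (Real.log p)^C1 / p → X' ≤ (Real.log p)^C1 / p →
    X ≤ Cm * Φ → X' ≤ Cm * Φ' → 0 ≤ Φ → 0 ≤ Φ' →
    (Real.log p)^3 * ((8 * X) * (8 * X')) + (p:ℝ)^(1/1000:ℝ) * ((8 * X) * (8 * X'))^(1/2+eps1) ≤
      (p:ℝ)^(-(1/2500):ℝ) * (Φ + Φ')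

theorem exists_CC {CL : ℝ} (hCL : 1 ≤ CL) (C1 Cm : ℝ) (hCm : 0 ≤ Cm) : ∃ p₁ : ℕ, CC CL C1 Cm p₁ := by
  obtain ⟨p₀, hp0, h0⟩ := exists_ColCls hCL
  obtain ⟨p₁, hp1, h1⟩ := num_col C1 Cm hCm
  refine ⟨max (max p₀ p₁) 16, le_max_right _ _, ?_, ?_⟩
  · intro n p G O O' V W R R' γ γ' F hp
    exact h0 n p G O O' V W R R' γ γ' F ((le_max_left _ _).trans ((le_max_left _ _).trans hp))
  · intro p hp
    exact h1 p ((le_max_right _ _).trans ((le_max_left _ _).trans hp))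

lemma CC.mono {CL C1 Cm : ℝ} {p₁ p₂ : ℕ} (h : CC CL C1 Cm p₁) (h2 : p₁ ≤ p₂) : CC CL C1 Cm p₂ :=
  ⟨h.big.trans h2, fun n p G O O' V W R R' γ γ' F hp => h.col n p G O O' V W R R' γ γ' F (h2.trans hp),
    fun p hp => h.num p (h2.trans hp)⟩

section items
variable {Λ κι : Type*}

open Classical in
/-- **column with numbers** -/
theorem nm_small {CL C1 Cm : ℝ} {p₁ : ℕ} (hcc : CC CL C1 Cm p₁) (D : Par Λ κι) {ρ : ℕ → ℝ}
    {F : ℕ × ℕ → ℝ} {n p G M b pr c M' b' pr' c' : ℕ} {V W : Finset ℕ} {Φ Φ' : ℝ}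
    (hp : p₁ ≤ p) (hn : n = ⌊1/4 * Real.log p / Real.log 2⌋₊) (hG : 0 < G)
    (hρ : ∀ q, 0 < ρ q) (hb : 0 < b) (hc : 0 < c) (hb' : 0 < b') (hc' : 0 < c')
    (hM : Squarefree M) (hM' : Squarefree M')
    (hMp : ∀ l : ℕ, l.Prime → l ∣ M → p ≤ l) (hMp' : ∀ l : ℕ, l.Prime → l ∣ M' → p ≤ l)
    (hs : ∑ l ∈ M.primeFactors, 1/(l:ℝ) ≤ 1) (hs' : ∑ l ∈ M'.primeFactors, 1/(l:ℝ) ≤ 1)
    (hV : ∀ q ∈ V, 0 < q ∧ pr ∣ q) (hW : ∀ q ∈ W, 0 < q ∧ pr' ∣ q)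
    (tV : ∀ z : ℝ, (p:ℝ) ≤ z → ∀ q ∈ V, ClsB.Tame z G (q / pr / M.gcd (q / pr)))
    (tW : ∀ z : ℝ, (p:ℝ) ≤ z → ∀ q ∈ W, ClsB.Tame z G (q / pr' / M'.gcd (q / pr')))
    (lV : ∀ q ∈ V, 1 ≤ CL * Real.log p * tq (q / pr / M.gcd (q / pr)))
    (lW : ∀ q ∈ W, 1 ≤ CL * Real.log p * tq (q / pr' / M'.gcd (q / pr')))
    (hF : ∀ e ∈ V ×ˢ W, F e ≤ D.pb ρ M b pr c e.1 M' b' pr' c' e.2)
    (xV : ∑ q ∈ V, rd b c ρ q * tq (q / pr) ≤ (Real.log p)^C1 / p)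
    (xW : ∑ q ∈ W, rd b' c' ρ q * tq (q / pr') ≤ (Real.log p)^C1 / p)
    (mV : ∑ q ∈ V, rd b c ρ q * tq (q / pr) ≤ Cm * Φ)
    (mW : ∑ q ∈ W, rd b' c' ρ q * tq (q / pr') ≤ Cm * Φ') (hΦ : 0 ≤ Φ) (hΦ' : 0 ≤ Φ') :
    ∑ e ∈ V ×ˢ W, F e ≤ (p:ℝ)^(-(1/2500):ℝ) * (Φ + Φ') +
      ∑ e ∈ (V ×ˢ W).filter (fun e => 0 < F e ∧ (Dq ρ M b pr c M' b' pr' c' e ≤ 1/2^n ∧
        (ESI D.γ ρ M b pr c M' b' pr' c' e ∨ FSI D.γ ρ n M b pr c M' b' pr' c' e))), F e := by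
  have hp16 : 16 ≤ p := hcc.big.trans hp
  have hn1 : 1 ≤ n := by
    rw [hn]
    apply Nat.le_floor
    have hl2 : 0 < Real.log 2 := Real.log_pos (by norm_num)
    rw [Nat.cast_one, le_div_iff₀ hl2]
    have h16 : Real.log 16 ≤ Real.log p := Real.log_le_log (by norm_num) (by exact_mod_cast hp16)
    have : Real.log 16 = 4 * Real.log 2 := by
      rw [show (16:ℝ) = 2^4 by norm_num, Real.log_pow]; norm_num
    linarith
  have key := nm_items hcc.col D (F := F) hp hn hn1 hG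
    hρ hb hc hb' hc' hM hM' hMp hMp' hs hs' hV hW tV tW lV lW hF
  refine key.trans (add_le_add ?_ le_rfl)
  have nV : 0 ≤ ∑ q ∈ V, rd b c ρ q * tq (q / pr) := Finset.sum_nonneg fun q _ =>
    mul_nonneg (mul_nonneg (by positivity) (hρ q).le) (tq_nonneg _)
  have nW : 0 ≤ ∑ q ∈ W, rd b' c' ρ q * tq (q / pr') := Finset.sum_nonneg fun q _ =>
    mul_nonneg (mul_nonneg (by positivity) (hρ q).le) (tq_nonneg _)
  exact hcc.num p hp _ _ Φ Φ' nV nW xV xW mV mW hΦ hΦ'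

end items

/-! ### a state -/

section state
open Crest.Agent.R4.Tour104 Crest.Agent.R4.Tour758 Crest.Agent.R4.Avg758 Crest.Agent.R4.Clos758
open Crest.Agent.R4.ClosL758 Crest.Agent.R4.ClosG758 Crest.Agent.R4.ClosR758
open Crest.Agent.R4.Fam464 Crest.Agent.R4.Cnt588 Crest.Agent.R4.Walk560 Crest.Agent.R4.Piece464
open Crest.Agent.R4.GInst194 Crest.Agent.R4.WalkIT579
open Crest.Agent.R4.Bld532 (NS All NodeOk Bk)

variable {Λ κ : Type*} [Fintype Λ] [DecidableEq Λ] [Fintype κ] [DecidableEq κ]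

open Classical in
/-- the items of `A` in `t` which are alive -/
noncomputable def Qi (D : Par Λ κ) (Al : Finset ℕ) (t : IT) (A : Finset Λ) : Finset ℕ :=
  (A.filter fun j => D.it j ∈ t.items ∧ D.it j ∈ Al).image D.it

variable {D : Par Λ κ} {ρ : ℕ → ℝ} {Al : Finset ℕ}

lemma mem_Qi {t : IT} {A : Finset Λ} {q : ℕ} : q ∈ Qi D Al t A ↔
    q ∈ t.items ∧ q ∈ Al ∧ ∃ j ∈ A, D.it j = q := by
  classical
  unfold Qi
  rw [Finset.mem_image]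
  constructor
  · rintro ⟨j, hj, rfl⟩
    obtain ⟨h1, h2, h3⟩ := Finset.mem_filter.1 hj
    exact ⟨h2, h3, j, h1, rfl⟩
  · rintro ⟨h1, h2, j, hj, rfl⟩
    exact ⟨j, Finset.mem_filter.2 ⟨hj, h1, h2⟩, rfl⟩

/-- dead items -/
lemma uA_dead (hAl : ∀ j, D.it j ∉ Al → ∀ a, D.om j a = 0) {M b pr c : ℕ} {t : IT}
    {A : Finset Λ} (hM : 0 < M) (hb : 0 < b) (hF : Fit b pr t) (hW : D.Wts pr t) (hc : c ∣ b)
    {j : Λ} (hj : D.it j ∉ Al) (y : ℝ) : D.uA M b pr t A c j y = 0 := by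
  by_cases hi : j ∈ A ∧ D.it j ∈ t.items
  · unfold Par.uA avg
    rw [rv_of_mem hi.1]
    have e0 : (D.toFT b pr t).U c j = fun _ => 0 := by
      funext x
      refine le_antisymm ?_ ((FT.pb hb (D.toFT_Adm t b pr hb hF hW) hc j).nonneg x)
      refine (D.U_le t b pr c hb hF hW hc j hi.2 x).trans (le_of_eq ?_)
      unfold Par.pcs pc
      exact Finset.sum_eq_zero fun a _ => hAl j hj _
    rw [e0, Ep_const hM]
  · exact uA_zero hM hi y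

/-- a pair which counts is a pair of alive items of the populations -/
lemma PE_sub (hAl : ∀ j, D.it j ∉ Al → ∀ a, D.om j a = 0) {M M' b pr c b' pr' c' : ℕ} {t t' : IT}
    (hM : 0 < M) (hM' : 0 < M') (hb : 0 < b) (hb' : 0 < b') (hF : Fit b pr t) (hF' : Fit b' pr' t')
    (hW : D.Wts pr t) (hW' : D.Wts pr' t') (hc : c ∣ b) (hc' : c' ∣ b') (R : Finset (Λ × Λ))
    (A A' : Finset Λ) :
    D.PE R (D.uA M b pr t A c) (D.uA M' b' pr' t' A' c') ⊆ Qi D Al t A ×ˢ Qi D Al t' A' := by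
  intro e he
  obtain ⟨j, j', -, h1, h2, h3, h4, h5, h6, y, h7, h8⟩ := Par.PE_ex hM hM' he
  have a1 : D.it j ∈ Al := by
    by_contra h; exact h7 (uA_dead hAl hM hb hF hW hc h y)
  have a2 : D.it j' ∈ Al := by
    by_contra h; exact h8 (uA_dead hAl hM' hb' hF' hW' hc' h y)
  exact Finset.mem_product.2 ⟨mem_Qi.2 ⟨h5, h3 ▸ a1, j, h1, h3⟩, mem_Qi.2 ⟨h6, h4 ▸ a2, j', h2, h4⟩⟩

/-- raised radius of the missing items below a tie -/
lemma rd_col {b p : ℕ} (hp : 0 < p) (ρ : ℕ → ℝ) (q : ℕ) : rd (b * p) p ρ q = b * ρ q := by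
  unfold rd
  have : (p:ℝ) ≠ 0 := by exact_mod_cast hp.ne'
  push_cast
  field_simp

/-- the share of the missing items in terms of the raw mass of the builder -/
lemma share_le {P : Bld532.Par} {W : ℕ → ℝ} {u : NS} {p : ℕ} {t₁ t₀ : IT}
    (h : NodeOk P W u (.br p t₁ t₀)) (hsq : ∀ q ∈ (IT.br p t₁ t₀).items, Squarefree q)
    (hW0 : ∀ q, 0 ≤ W q) (hWρ : ∀ q ∈ Al, ρ q * tq q ≤ W q) (hsg0 : 0 ≤ P.sg p)
    (A : Finset Λ) :
    ∑ q ∈ Qi D Al t₀ A, rd (u.B * p) p ρ q * tq (q / u.A) ≤ P.sg p * P.hi p := by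
  have hk := bk_of_nodeOk h
  obtain ⟨hp, hpn, -, hmax, -, hi1, hi0, hlo, hhi, hsg⟩ := h
  have hA0 : 0 < u.A := Nat.pos_of_ne_zero hk.sfA.ne_zero
  have hB0 : 0 < u.B := Nat.pos_of_ne_zero hk.sfB.ne_zero
  have htA : (0:ℝ) < (u.A.totient : ℝ) := by exact_mod_cast Nat.totient_pos.2 hA0
  have hAR : (0:ℝ) < u.A := by exact_mod_cast hA0
  have hc0 : 0 ≤ u.c := by
    have h1 : 0 ≤ u.c * (u.A.totient : ℝ) := by rw [hk.ceq]; positivity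
    by_contra hneg
    push Not at hneg
    nlinarith
  have h1 : ∀ q ∈ Qi D Al t₀ A, rd (u.B * p) p ρ q * tq (q / u.A) ≤ u.c * W q := by
    intro q hq
    obtain ⟨hqt, hqA, -⟩ := mem_Qi.1 hq
    have hqi : q ∈ (IT.br p t₁ t₀).items := Finset.mem_union_right _ hqt
    have hd : u.A ∣ q := hk.dvd q hqi
    have hsf := hsq q hqi
    have hq0 : 0 < q := Nat.pos_of_ne_zero hsf.ne_zero
    rw [rd_col hp.pos]
    obtain ⟨w, rfl⟩ := hd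
    rw [Nat.mul_div_cancel_left _ hA0]
    have hcop : Nat.Coprime u.A w := Nat.coprime_of_squarefree_mul hsf
    have hw0 : 0 < w := Nat.pos_of_mul_pos_left hq0
    have e1 : tq (u.A * w) = ((u.A.totient : ℝ) / u.A) * tq w := by
      unfold tq
      rw [Nat.totient_mul hcop]
      push_cast
      have : (w:ℝ) ≠ 0 := by exact_mod_cast hw0.ne'
      field_simp
    have h2 := hWρ _ hqA
    rw [e1] at h2
    have h3 : (u.B : ℝ) * ρ (u.A * w) * tq w =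
        u.c * (ρ (u.A * w) * (((u.A.totient : ℝ) / u.A) * tq w)) := by
      have h4 : u.c * ((u.A.totient : ℝ) / u.A) = u.B := by
        rw [← mul_div_assoc, hk.ceq]
        field_simp
      calc (u.B : ℝ) * ρ (u.A * w) * tq w = (u.c * ((u.A.totient : ℝ) / u.A)) * ρ (u.A * w) * tq w := by
            rw [h4]
        _ = _ := by ring
    rw [h3]
    exact mul_le_mul_of_nonneg_left h2 hc0
  calc ∑ q ∈ Qi D Al t₀ A, rd (u.B * p) p ρ q * tq (q / u.A)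
      ≤ ∑ q ∈ Qi D Al t₀ A, u.c * W q := Finset.sum_le_sum h1
    _ ≤ ∑ q ∈ t₀.items, u.c * W q := Finset.sum_le_sum_of_subset_of_nonneg
        (fun q hq => (mem_Qi.1 hq).1) fun q _ _ => mul_nonneg hc0 (hW0 q)
    _ = u.c * Ws W t₀.items := by rw [← Finset.mul_sum]; rfl
    _ ≤ u.c * (P.sg p * Ws W (t₁.items ∪ t₀.items)) := mul_le_mul_of_nonneg_left hsg hc0
    _ = P.sg p * (u.c * Ws W (t₁.items ∪ t₀.items)) := by ring
    _ ≤ P.sg p * P.hi p := mul_le_mul_of_nonneg_left hhi hsg0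

/-- **masses**: the raised radius of an alive item is at most its integral mass -/
lemma mass_ge {n : ℕ} {t : IT} (hO : t.Ok n) (hab : ∀ j, D.al j ≤ D.be j) {b pr : ℕ} (hb : 0 < b)
    (hF : Fit b pr t) (hW : D.Wts pr t) {q : ℕ} (hq : q ∈ t.items) (hsq : Squarefree q)
    {c₀ : ℝ} (hc₀ : 0 < c₀)
    (hmean : ∀ j, D.it j = q → c₀ * tq (q / (pr * pp t q)) ≤ mnw (q / (pr * pp t q)) (D.om j))
    (hfull : 2 * ρ q ≤ ∑ j ∈ Finset.univ.filter (fun j => D.it j = q), (D.be j - D.al j))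
    {A : Finset Λ} (hil : IL D.it A) (hA : ∃ j ∈ A, D.it j = q) :
    (b : ℝ) * ρ q * tq (q / pr) ≤ 1 / (2 * c₀) *
      ∑ j ∈ A.filter (fun j => D.it j = q), I ((D.toFT b pr t).U 1 j) := by
  classical
  obtain ⟨j₀, hj₀, hj₀q⟩ := hA
  have hfil : A.filter (fun j => D.it j = q) = Finset.univ.filter (fun j => D.it j = q) := by
    ext j
    simp only [Finset.mem_filter, Finset.mem_univ, true_and]
    exact ⟨fun h => h.2, fun h => ⟨(hil j j₀ (h.trans hj₀q.symm)).2 hj₀, h⟩⟩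
  obtain ⟨hpp1, hpp0, -⟩ := IMI194.prf_pp t n hO q
  have hppR : (0:ℝ) < pp t q := by exact_mod_cast hpp0
  obtain ⟨q0, hprq, -⟩ := hF.item q hq
  have hd : pr * pp t q ∣ q := pp_dvd hF q hq
  have hpr0 : 0 < pr := Nat.pos_of_dvd_of_pos hprq q0
  -- the totient factor
  have e1 : tq (q / pr) = prf t q * tq (q / (pr * pp t q)) := by
    obtain ⟨w, hw⟩ := hd
    have h1 : q / pr = pp t q * w :=
      Nat.div_eq_of_eq_mul_right hpr0 (hw.trans (mul_assoc _ _ _))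
    have h2 : q / (pr * pp t q) = w :=
      Nat.div_eq_of_eq_mul_right (Nat.mul_pos hpr0 hpp0) hw
    have hw0 : 0 < w := by
      rcases Nat.eq_zero_or_pos w with h | h
      · rw [h, mul_zero] at hw; omega
      · exact h
    rw [h1, h2]
    have hcop : Nat.Coprime (pp t q) w := by
      apply Nat.coprime_of_squarefree_mul
      exact hsq.squarefree_of_dvd ⟨pr, hw.trans (by ring)⟩
    have h3 : prf t q = ((pp t q).totient : ℝ) / pp t q := by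
      rw [eq_div_iff hppR.ne']; exact hpp1
    unfold tq
    rw [Nat.totient_mul hcop, h3]
    push_cast
    have : (w:ℝ) ≠ 0 := by exact_mod_cast hw0.ne'
    field_simp
  have hprf0 : 0 ≤ prf t q := by
    have h3 : prf t q = ((pp t q).totient : ℝ) / pp t q := by
      rw [eq_div_iff hppR.ne']; exact hpp1
    rw [h3]; positivity
  have hterm : ∀ j ∈ Finset.univ.filter (fun j => D.it j = q),
      (b : ℝ) * (D.be j - D.al j) * (c₀ * tq (q / pr)) ≤ I ((D.toFT b pr t).U 1 j) := by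
    intro j hj
    have hjq := (Finset.mem_filter.1 hj).2
    rw [D.I_U hab t b pr 1 hb hF hW (one_dvd _) j (hjq ▸ hq), hjq, e1]
    have h1 : 0 ≤ (b : ℝ) * (D.be j - D.al j) := mul_nonneg (Nat.cast_nonneg _) (sub_nonneg.2 (hab j))
    have h2 := mul_le_mul_of_nonneg_left (hmean j hjq) (mul_nonneg h1 hprf0)
    push_cast
    calc (b : ℝ) * (D.be j - D.al j) * (c₀ * (prf t q * tq (q / (pr * pp t q))))
        = (b : ℝ) * (D.be j - D.al j) * prf t q * (c₀ * tq (q / (pr * pp t q))) := by ring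
      _ ≤ (b : ℝ) * (D.be j - D.al j) * prf t q * mnw (q / (pr * pp t q)) (D.om j) := h2
      _ = _ := by rw [div_one]
  rw [hfil]
  have h1 := Finset.sum_le_sum hterm
  rw [← Finset.sum_mul, ← Finset.mul_sum] at h1
  have h2 : (b : ℝ) * (2 * ρ q) * (c₀ * tq (q / pr)) ≤
      (b : ℝ) * (∑ j ∈ Finset.univ.filter (fun j => D.it j = q), (D.be j - D.al j)) *
        (c₀ * tq (q / pr)) :=
    mul_le_mul_of_nonneg_right (mul_le_mul_of_nonneg_left hfull (Nat.cast_nonneg _))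
      (mul_nonneg hc₀.le (tq_nonneg _))
  have h3 := h2.trans h1
  rw [one_div, inv_mul_eq_div, le_div_iff₀ (by positivity)]
  calc (b : ℝ) * ρ q * tq (q / pr) * (2 * c₀) = (b : ℝ) * (2 * ρ q) * (c₀ * tq (q / pr)) := by ring
    _ ≤ _ := h3

/-- sum over the items of a population below a tie -/
lemma mass_sum {sp : ℕ → Finset Λ} {d : DT Λ κ} (hab : ∀ j, D.al j ≤ D.be j) {b pr p : ℕ}
    {t₁ t₀ : IT} {A : Finset Λ} (h : SideI D sp b pr (.br p t₁ t₀) A d)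
    (hsq : ∀ q ∈ (IT.br p t₁ t₀).items, Squarefree q) {c₀ : ℝ} (hc₀ : 0 < c₀)
    (hmean : ∀ j, D.it j ∈ Al → D.it j ∈ (IT.br p t₁ t₀).items →
      c₀ * tq (D.it j / (pr * pp (IT.br p t₁ t₀) (D.it j))) ≤
        mnw (D.it j / (pr * pp (IT.br p t₁ t₀) (D.it j))) (D.om j))
    (hfull : ∀ q ∈ Al, 2 * ρ q ≤
      ∑ j ∈ Finset.univ.filter (fun j => D.it j = q), (D.be j - D.al j))
    (hil : IL D.it A) (hnn : ∀ j, 0 ≤ mI d j) :
    ∑ q ∈ Qi D Al t₀ A, rd (b * p) p ρ q * tq (q / pr) ≤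
      1 / (2 * c₀) * ∑ j ∈ A.filter (fun j => D.it j ∈ t₀.items), mI d j := by
  classical
  obtain ⟨n, hO⟩ := h.ok
  have hp0 : 0 < p := h.hF.1.pos
  have h1 : ∀ q ∈ Qi D Al t₀ A, rd (b * p) p ρ q * tq (q / pr) ≤
      1 / (2 * c₀) * ∑ j ∈ A.filter (fun j => D.it j = q), mI d j := by
    intro q hq
    obtain ⟨h2, h3, h4⟩ := mem_Qi.1 hq
    have h5 : q ∈ (IT.br p t₁ t₀).items := Finset.mem_union_right _ h2
    rw [rd_col hp0]
    refine (mass_ge hO hab h.hb h.hF h.hW h5 (hsq q h5) hc₀ (fun j hj => ?_) (hfull q h3) hil h4).trans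
      (le_of_eq ?_)
    · have := hmean j (hj ▸ h3) (hj ▸ h5)
      rw [hj] at this
      exact this
    · congr 1
      exact Finset.sum_congr rfl fun j _ => (SideI_mI h j).symm
  refine (Finset.sum_le_sum h1).trans ?_
  rw [← Finset.mul_sum]
  refine mul_le_mul_of_nonneg_left ?_ (by positivity)
  have h2 := Finset.sum_fiberwise_of_maps_to (s := A.filter fun j => D.it j ∈ Qi D Al t₀ A)
    (t := Qi D Al t₀ A) (g := D.it) (fun j hj => (Finset.mem_filter.1 hj).2) (fun j => mI d j)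
  have h3 : ∑ q ∈ Qi D Al t₀ A, ∑ j ∈ A.filter (fun j => D.it j = q), mI d j =
      ∑ j ∈ A.filter (fun j => D.it j ∈ Qi D Al t₀ A), mI d j := by
    rw [← h2]
    refine Finset.sum_congr rfl fun q hq => Finset.sum_congr ?_ fun _ _ => rfl
    ext j
    simp only [Finset.mem_filter]
    exact ⟨fun k => ⟨⟨k.1, k.2 ▸ hq⟩, k.2⟩, fun k => ⟨k.1.1, k.2⟩⟩
  rw [h3]
  refine Finset.sum_le_sum_of_subset_of_nonneg (fun j hj => ?_) fun j _ _ => hnn j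
  obtain ⟨k1, k2⟩ := Finset.mem_filter.1 hj
  exact Finset.mem_filter.2 ⟨k1, (mem_Qi.1 k2).1⟩

/-- item conditions for the near misses at a column -/
structure NI (D : Par Λ κ) (ρ : ℕ → ℝ) (Al : Finset ℕ) (P : Bld532.Par) (W : ℕ → ℝ)
    (U : ℕ → Finset ℕ) (CL C1 c₀ : ℝ) (p : ℕ) : Prop where
  rad : D.Rad ρ
  ab : ∀ j, D.al j ≤ D.be j
  dead : ∀ j, D.it j ∉ Al → ∀ a, D.om j a = 0
  c0 : 0 < c₀
  W0 : ∀ q, 0 ≤ W q
  Wρ : ∀ q ∈ Al, ρ q * tq q ≤ W q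
  full : ∀ q ∈ Al, 2 * ρ q ≤ ∑ j ∈ Finset.univ.filter (fun j => D.it j = q), (D.be j - D.al j)
  sg0 : 0 ≤ P.sg p
  sg : P.sg p * P.hi p ≤ (Real.log p)^C1 / p
  U : ∀ q ∈ Al, ∀ z : ℝ, (p:ℝ) ≤ z →
    ∑ l ∈ (U q).filter (fun l : ℕ => z < (l : ℝ)), (1 : ℝ) / l ≤ z ^ (-(1 / 2 : ℝ))

/-- conditions for one side of a state: tree `t` at the node `u` -/
structure NSd (D : Par Λ κ) (Al : Finset ℕ) (CL c₀ : ℝ) (p : ℕ) (u : NS) (t : IT) (A : Finset Λ) :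
    Prop where
  il : IL D.it A
  lg : ∀ q ∈ Al, q ∈ t.items → 1 ≤ CL * Real.log p * tq (q / u.A)
  mean : ∀ j, D.it j ∈ Al → D.it j ∈ t.items →
    c₀ * tq (D.it j / (u.A * pp t (D.it j))) ≤ mnw (D.it j / (u.A * pp t (D.it j))) (D.om j)

variable [WRel κ] {sp : ℕ → Finset Λ} {s : St Λ κ} {P : Bld532.Par} {W : ℕ → ℝ}
  {U : ℕ → Finset ℕ} {CL C1 c₀ : ℝ} {p₁ : ℕ}

open Classical in
/-- **NEAR MISSES OF A STATE**: generic part + `[E]` pairs + `[F]` pairs -/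
theorem nm_state (hcc : CC CL C1 (1 / (2 * c₀)) p₁) {p n : ℕ} (hni : NI D ρ Al P W U CL C1 c₀ p)
    {u u' : NS} {t₁ t₀ t₁' t₀' : IT}
    (h : StI D sp s u.B u.A (.br p t₁ t₀) u'.B u'.A (.br p t₁' t₀'))
    (hI : IS D sp P W U s u u' (.br p t₁ t₀) (.br p t₁' t₀'))
    (hL : NSd D Al CL c₀ p u (.br p t₁ t₀) s.A) (hR : NSd D Al CL c₀ p u' (.br p t₁' t₀') s.A')
    (hCL : 0 ≤ CL)
    (hp : p₁ ≤ p) (hn : n = ⌊1/4 * Real.log p / Real.log 2⌋₊)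
    {stp : St Λ κ → Prop} (hM : Squarefree s.M) (hM' : Squarefree s.M')
    (hst : ¬ stp s → ∑ l ∈ s.M.primeFactors, 1/(l:ℝ) ≤ 1 ∧ ∑ l ∈ s.M'.primeFactors, 1/(l:ℝ) ≤ 1) :
    eNM stp s ≤ (p:ℝ)^(-(1/2500):ℝ) *
        ((∑ j ∈ s.A.filter (fun j => D.it j ∈ t₀.items), mI s.t j) +
          ∑ j ∈ s.A'.filter (fun j => D.it j ∈ t₀'.items), mI s.t' j) +
      ∑ e ∈ (Qi D Al t₀ s.A ×ˢ Qi D Al t₀' s.A').filter (fun e =>
        0 < D.iF (Ro (D.rho p)) (D.uA s.M (u.B * p) u.A t₀ s.A p)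
          (D.uA s.M' (u'.B * p) u'.A t₀' s.A' p) e ∧
        (Dq ρ s.M (u.B * p) u.A p s.M' (u'.B * p) u'.A p e ≤ 1/2^n ∧
        (ESI D.γ ρ s.M (u.B * p) u.A p s.M' (u'.B * p) u'.A p e ∨
          FSI D.γ ρ n s.M (u.B * p) u.A p s.M' (u'.B * p) u'.A p e))),
        D.iF (Ro (D.rho p)) (D.uA s.M (u.B * p) u.A t₀ s.A p)
          (D.uA s.M' (u'.B * p) u'.A t₀' s.A' p) e := by
  classical
  have hpp : p.Prime := h.L.hF.1
  have hp0 : 0 < p := hpp.pos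
  have bB : 0 < u.B := h.L.hb
  have bB' : 0 < u'.B := h.R.hb
  have hL0 := h.L.br₀
  have hR0 := h.R.br₀
  set F : ℕ × ℕ → ℝ := D.iF (Ro (D.rho p)) (D.uA s.M (u.B * p) u.A t₀ s.A p)
    (D.uA s.M' (u'.B * p) u'.A t₀' s.A' p) with hFdef
  have hF0 : ∀ e, 0 ≤ F e := fun e => D.iF_nonneg _
    (fun j y => (PB_uA h.M0 hL0.hb hL0.hF hL0.hW (Dvd.intro_left u.B rfl) j).nonneg y)
    (fun j y => (PB_uA h.M0' hR0.hb hR0.hF hR0.hW (Dvd.intro_left u'.B rfl) j).nonneg y) e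
  have mnn : ∀ (d : DT Λ κ), d.g.Ok → ∀ j, 0 ≤ mI d j := fun d hd j => by
    unfold mI
    exact I_nonneg fun x => (hd.pb j).nonneg x
  have okL : s.t.g.Ok := by rw [h.L.eq, D.toDT_g]; exact D.toG_Ok h.L.hb h.L.hF h.L.hW
  have okR : s.t'.g.Ok := by rw [h.R.eq, D.toDT_g]; exact D.toG_Ok h.R.hb h.R.hF h.R.hW
  have nΦ : 0 ≤ ∑ j ∈ s.A.filter (fun j => D.it j ∈ t₀.items), mI s.t j :=
    Finset.sum_nonneg fun j _ => mnn _ okL j
  have nΦ' : 0 ≤ ∑ j ∈ s.A'.filter (fun j => D.it j ∈ t₀'.items), mI s.t' j :=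
    Finset.sum_nonneg fun j _ => mnn _ okR j
  have hrest : 0 ≤ ∑ e ∈ (Qi D Al t₀ s.A ×ˢ Qi D Al t₀' s.A').filter (fun e => 0 < F e ∧
        (Dq ρ s.M (u.B * p) u.A p s.M' (u'.B * p) u'.A p e ≤ 1/2^n ∧
        (ESI D.γ ρ s.M (u.B * p) u.A p s.M' (u'.B * p) u'.A p e ∨
          FSI D.γ ρ n s.M (u.B * p) u.A p s.M' (u'.B * p) u'.A p e))), F e :=
    Finset.sum_nonneg fun e _ => hF0 e
  by_cases hstp : stp s
  · have e0 : eNM stp s = 0 := by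
      unfold eNM
      split_ifs <;> rfl
    rw [e0]
    have : 0 ≤ (p:ℝ)^(-(1/2500):ℝ) := by positivity
    have := mul_nonneg this (add_nonneg nΦ nΦ')
    linarith
  obtain ⟨hs, hs'⟩ := hst hstp
  refine (eNM_le_iF h stp).trans ?_
  refine (Finset.sum_le_sum_of_subset_of_nonneg (PE_sub hni.dead h.M0 h.M0' hL0.hb hR0.hb hL0.hF
    hR0.hF hL0.hW hR0.hW (Dvd.intro_left u.B rfl) (Dvd.intro_left u'.B rfl) _ _ _)
    fun e _ _ => hF0 e).trans ?_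
  -- the pieces of the estimate
  obtain ⟨G, hG, tL, tR⟩ := hI.tame h.M0 h.M0'
  have q1 := hI.qL.1
  have q2 := hI.qR.1
  have top1 := top_of_nodeOk q1.1 (id : ¬ isL (.br p t₁ t₀))
  have top2 := top_of_nodeOk q2.1 (id : ¬ isL (.br p t₁' t₀'))
  have lev : ∀ z : ℝ, (p:ℝ) ≤ z → ∀ l : ℕ, l.Prime → z < l → u.n ≤ l := by
    intro z hz l hl hzl
    by_contra hc
    push Not at hc
    have h3 : l ≤ p := top1.2.2 l hl hc
    have : (l:ℝ) ≤ p := by exact_mod_cast h3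
    linarith
  have bkL := bk_of_nodeOk q1.1
  have bkR := bk_of_nodeOk q2.1
  have sqL : ∀ q ∈ (IT.br p t₁ t₀).items, Squarefree q := fun q hq => (q1.2 q hq).1
  have sqR : ∀ q ∈ (IT.br p t₁' t₀').items, Squarefree q := fun q hq => (q2.2 q hq).1
  have itL : ∀ q ∈ Qi D Al t₀ s.A, q ∈ (IT.br p t₁ t₀).items := fun q hq =>
    Finset.mem_union_right _ (mem_Qi.1 hq).1
  have itR : ∀ q ∈ Qi D Al t₀' s.A', q ∈ (IT.br p t₁' t₀').items := fun q hq =>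
    Finset.mem_union_right _ (mem_Qi.1 hq).1
  have hMp : ∀ l : ℕ, l.Prime → l ∣ s.M → p ≤ l := fun l hl hd =>
    (top1.2.1.le).trans (hI.geM l hl hd)
  have hMp' : ∀ l : ℕ, l.Prime → l ∣ s.M' → p ≤ l := fun l hl hd =>
    (top1.2.1.le).trans (hI.geM' l hl hd)
  have w0L : ∀ q ∈ Qi D Al t₀ s.A, 0 < q / u.A := fun q hq => by
    have hq0 := (hL0.hF.item q (mem_Qi.1 hq).1)
    exact Nat.div_pos (Nat.le_of_dvd hq0.1 hq0.2.1) (Nat.pos_of_dvd_of_pos hq0.2.1 hq0.1)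
  have w0R : ∀ q ∈ Qi D Al t₀' s.A', 0 < q / u'.A := fun q hq => by
    have hq0 := (hR0.hF.item q (mem_Qi.1 hq).1)
    exact Nat.div_pos (Nat.le_of_dvd hq0.1 hq0.2.1) (Nat.pos_of_dvd_of_pos hq0.2.1 hq0.1)
  have logp : 0 ≤ CL * Real.log p := mul_nonneg hCL (Real.log_natCast_nonneg p)
  obtain ⟨nL, hnL⟩ := h.L.ok
  obtain ⟨nR, hnR⟩ := h.R.ok
  refine nm_small hcc D (F := F) (G := G) (c := p) (c' := p) hp hn hG hni.rad.pos hL0.hb hp0 hR0.hb hp0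
    hM hM' hMp hMp' hs hs'
    (fun q hq => ⟨(hL0.hF.item q (mem_Qi.1 hq).1).1, (hL0.hF.item q (mem_Qi.1 hq).1).2.1⟩)
    (fun q hq => ⟨(hR0.hF.item q (mem_Qi.1 hq).1).1, (hR0.hF.item q (mem_Qi.1 hq).1).2.1⟩)
    ?_ ?_ ?_ ?_ ?_ ?_ ?_ ?_ ?_ nΦ nΦ'
  · intro z hz q hq
    obtain ⟨h1, h2, j, hj, rfl⟩ := mem_Qi.1 hq
    exact tL j hj (itL _ hq) z (lev z hz) (hni.U _ h2 z hz)
  · intro z hz q hq
    obtain ⟨h1, h2, j, hj, rfl⟩ := mem_Qi.1 hq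
    exact tR j hj (itR _ hq) z (lev z hz) (hni.U _ h2 z hz)
  · intro q hq
    refine (hL.lg q (mem_Qi.1 hq).2.1 (itL q hq)).trans ?_
    exact mul_le_mul_of_nonneg_left (tq_mono (Nat.div_dvd_of_dvd (Nat.gcd_dvd_right _ _)) (w0L q hq)) logp
  · intro q hq
    refine (hR.lg q (mem_Qi.1 hq).2.1 (itR q hq)).trans ?_
    exact mul_le_mul_of_nonneg_left (tq_mono (Nat.div_dvd_of_dvd (Nat.gcd_dvd_right _ _)) (w0R q hq)) logp
  · intro e he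
    obtain ⟨h1, h2⟩ := Finset.mem_product.1 he
    exact iF_le hni.rad h.M0 h.M0' hL0.hb hR0.hb hL0.hF hR0.hF hL0.hW hR0.hW
      (Dvd.intro_left u.B rfl) (Dvd.intro_left u'.B rfl) _ _ _ e (mem_Qi.1 h1).1 (mem_Qi.1 h2).1
  · exact (share_le q1.1 sqL hni.W0 hni.Wρ hni.sg0 s.A).trans hni.sg
  · exact (share_le q2.1 sqR hni.W0 hni.Wρ hni.sg0 s.A').trans hni.sg
  · exact mass_sum hni.ab h.L sqL hni.c0 hL.mean hni.full hL.il (mnn _ okL)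
  · exact mass_sum hni.ab h.R sqR hni.c0 hR.mean hni.full hR.il (mnn _ okR)

/-- `[E]` for item pairs is 194's `EP` -/
lemma ESI_EP {γ : ℝ} {ρ : ℕ → ℝ} {M b pr c M' b' pr' c' : ℕ} {e : ℕ × ℕ} (h1 : pr ∣ e.1)
    (h2 : pr' ∣ e.2) (h : ESI γ ρ M b pr c M' b' pr' c' e) :
    EP (fun t => t^(1/20:ℝ)) γ ρ M b pr c M' b' pr' c' e := by
  obtain ⟨t, m, m', h3, h4⟩ := h
  refine ⟨t, m, m', ?_, ?_⟩
  · rw [rg_eq h1, rg_eq h2]; exact h3
  · rw [rg_eq h1, rg_eq h2]; exact h4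

open Classical in
/-- the matching of the `[E]` pairs with raising factors one -/
noncomputable def KE (D : Par Λ κ) (ρ : ℕ → ℝ) (Al : Finset ℕ) (n p : ℕ) (s : St Λ κ) (u u' : NS)
    (t₀ t₀' : IT) : Finset (ℕ × ℕ) :=
  (Qi D Al t₀ s.A ×ˢ Qi D Al t₀' s.A').filter (fun e =>
    0 < D.iF (Ro (D.rho p)) (D.uA s.M (u.B * p) u.A t₀ s.A p)
      (D.uA s.M' (u'.B * p) u'.A t₀' s.A' p) e ∧
    (Dq ρ s.M (u.B * p) u.A p s.M' (u'.B * p) u'.A p e ≤ 1/2^n ∧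
      ESI D.γ ρ s.M (u.B * p) u.A p s.M' (u'.B * p) u'.A p e) ∧
    (rf (e.1 / u.A) s.M = 1 ∧ rf (e.2 / u'.A) s.M' = 1))

open Classical in
/-- **(H1) OF MODULE G FOR THE NEAR MISSES OF A STATE**: matching of `[E]` pairs, generic part,
`[F]` pairs -/
theorem nm_H1 (hcc : CC CL C1 (1 / (2 * c₀)) p₁) {p n : ℕ} (hni : NI D ρ Al P W U CL C1 c₀ p)
    {u u' : NS} {t₁ t₀ t₁' t₀' : IT}
    (h : StI D sp s u.B u.A (.br p t₁ t₀) u'.B u'.A (.br p t₁' t₀'))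
    (hI : IS D sp P W U s u u' (.br p t₁ t₀) (.br p t₁' t₀'))
    (hL : NSd D Al CL c₀ p u (.br p t₁ t₀) s.A) (hR : NSd D Al CL c₀ p u' (.br p t₁' t₀') s.A')
    (hCL : 0 ≤ CL)
    (hp : p₁ ≤ p) (hn : n = ⌊1/4 * Real.log p / Real.log 2⌋₊)
    {stp : St Λ κ → Prop} (hM : Squarefree s.M) (hM' : Squarefree s.M')
    (hst : ¬ stp s → ∑ l ∈ s.M.primeFactors, 1/(l:ℝ) ≤ 1 ∧ ∑ l ∈ s.M'.primeFactors, 1/(l:ℝ) ≤ 1)
    {N₁ N₁' : ℕ} (hN : 0 < N₁) (hN' : 0 < N₁') (hNM : s.M ∣ N₁) (hNM' : s.M' ∣ N₁') :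
    eNM stp s ≤ (∑ e ∈ KE D ρ Al n p s u u' t₀ t₀', min (mq D s.t s.A e.1) (mq D s.t' s.A' e.2)) +
      ((p:ℝ)^(-(1/2500):ℝ) + xs N₁') * (∑ j ∈ s.A.filter (fun j => D.it j ∈ t₀.items), mI s.t j) +
      ((p:ℝ)^(-(1/2500):ℝ) + xs N₁) * (∑ j ∈ s.A'.filter (fun j => D.it j ∈ t₀'.items), mI s.t' j) +
      ∑ e ∈ (Qi D Al t₀ s.A ×ˢ Qi D Al t₀' s.A').filter (fun e =>
        0 < D.iF (Ro (D.rho p)) (D.uA s.M (u.B * p) u.A t₀ s.A p)
          (D.uA s.M' (u'.B * p) u'.A t₀' s.A' p) e ∧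
        (Dq ρ s.M (u.B * p) u.A p s.M' (u'.B * p) u'.A p e ≤ 1/2^n ∧
          FSI D.γ ρ n s.M (u.B * p) u.A p s.M' (u'.B * p) u'.A p e)),
        D.iF (Ro (D.rho p)) (D.uA s.M (u.B * p) u.A t₀ s.A p)
          (D.uA s.M' (u'.B * p) u'.A t₀' s.A' p) e := by
  classical
  have hL0 := h.L.br₀
  have hR0 := h.R.br₀
  have key := nm_state hcc hni h hI hL hR hCL hp hn (stp := stp) hM hM' hst
  set F : ℕ × ℕ → ℝ := D.iF (Ro (D.rho p)) (D.uA s.M (u.B * p) u.A t₀ s.A p)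
    (D.uA s.M' (u'.B * p) u'.A t₀' s.A' p) with hFdef
  set S := Qi D Al t₀ s.A ×ˢ Qi D Al t₀' s.A' with hS
  have hF0 : ∀ e, 0 ≤ F e := fun e => D.iF_nonneg _
    (fun j y => (PB_uA h.M0 hL0.hb hL0.hF hL0.hW (Dvd.intro_left u.B rfl) j).nonneg y)
    (fun j y => (PB_uA h.M0' hR0.hb hR0.hF hR0.hW (Dvd.intro_left u'.B rfl) j).nonneg y) e
  -- split the rest
  have hsplit : ∑ e ∈ S.filter (fun e => 0 < F e ∧
        (Dq ρ s.M (u.B * p) u.A p s.M' (u'.B * p) u'.A p e ≤ 1/2^n ∧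
        (ESI D.γ ρ s.M (u.B * p) u.A p s.M' (u'.B * p) u'.A p e ∨
          FSI D.γ ρ n s.M (u.B * p) u.A p s.M' (u'.B * p) u'.A p e))), F e ≤
      ∑ e ∈ S.filter (fun e => 0 < F e ∧
        (Dq ρ s.M (u.B * p) u.A p s.M' (u'.B * p) u'.A p e ≤ 1/2^n ∧
          ESI D.γ ρ s.M (u.B * p) u.A p s.M' (u'.B * p) u'.A p e)), F e +
      ∑ e ∈ S.filter (fun e => 0 < F e ∧
        (Dq ρ s.M (u.B * p) u.A p s.M' (u'.B * p) u'.A p e ≤ 1/2^n ∧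
          FSI D.γ ρ n s.M (u.B * p) u.A p s.M' (u'.B * p) u'.A p e)), F e := by
    rw [← Finset.sum_union_inter]
    have h1 : 0 ≤ ∑ e ∈ S.filter (fun e => 0 < F e ∧
        (Dq ρ s.M (u.B * p) u.A p s.M' (u'.B * p) u'.A p e ≤ 1/2^n ∧
          ESI D.γ ρ s.M (u.B * p) u.A p s.M' (u'.B * p) u'.A p e)) ∩ S.filter (fun e => 0 < F e ∧
        (Dq ρ s.M (u.B * p) u.A p s.M' (u'.B * p) u'.A p e ≤ 1/2^n ∧
          FSI D.γ ρ n s.M (u.B * p) u.A p s.M' (u'.B * p) u'.A p e)), F e :=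
      Finset.sum_nonneg fun e _ => hF0 e
    refine le_trans (Finset.sum_le_sum_of_subset_of_nonneg (fun e he => ?_) fun e _ _ => hF0 e)
      (le_add_of_nonneg_right h1)
    obtain ⟨k1, k2, k3, k4⟩ := Finset.mem_filter.1 he
    rcases k4 with k4 | k4
    · exact Finset.mem_union_left _ (Finset.mem_filter.2 ⟨k1, k2, k3, k4⟩)
    · exact Finset.mem_union_right _ (Finset.mem_filter.2 ⟨k1, k2, k3, k4⟩)
  have hE := NM_E_le hni.rad hni.ab h (N := fun t => t^(1/20:ℝ))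
    (P := S.filter (fun e => 0 < F e ∧
        (Dq ρ s.M (u.B * p) u.A p s.M' (u'.B * p) u'.A p e ≤ 1/2^n ∧
          ESI D.γ ρ s.M (u.B * p) u.A p s.M' (u'.B * p) u'.A p e))) hN hN' (by
      intro e he
      obtain ⟨k1, k2, k3, k4⟩ := Finset.mem_filter.1 he
      obtain ⟨k5, k6⟩ := Finset.mem_product.1 k1
      have k7 := (mem_Qi.1 k5).1
      have k8 := (mem_Qi.1 k6).1
      refine ⟨k7, k8, ESI_EP (hL0.hF.item _ k7).2.1 (hR0.hF.item _ k8).2.1 k4, ?_, ?_⟩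
      · exact (Nat.div_dvd_of_dvd (Nat.gcd_dvd_left _ _)).trans hNM
      · exact (Nat.div_dvd_of_dvd (Nat.gcd_dvd_left _ _)).trans hNM')
  have hK : (S.filter (fun e => 0 < F e ∧
        (Dq ρ s.M (u.B * p) u.A p s.M' (u'.B * p) u'.A p e ≤ 1/2^n ∧
          ESI D.γ ρ s.M (u.B * p) u.A p s.M' (u'.B * p) u'.A p e))).filter
      (fun e => rf (e.1 / u.A) s.M = 1 ∧ rf (e.2 / u'.A) s.M' = 1) = KE D ρ Al n p s u u' t₀ t₀' := by
    unfold KE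
    rw [Finset.filter_filter]
    refine Finset.filter_congr fun e _ => ?_
    constructor
    · rintro ⟨⟨a, b⟩, c⟩; exact ⟨a, b, c⟩
    · rintro ⟨a, b, c⟩; exact ⟨⟨a, b⟩, c⟩
  rw [hK] at hE
  refine key.trans ?_
  linarith

/-- the matching property -/
theorem KE_match {p n : ℕ} {u u' : NS} {t₁ t₀ t₁' t₀' : IT}
    (h : StI D sp s u.B u.A (.br p t₁ t₀) u'.B u'.A (.br p t₁' t₀')) :
    (∀ q r₁ r₂, (q, r₁) ∈ KE D ρ Al n p s u u' t₀ t₀' → (q, r₂) ∈ KE D ρ Al n p s u u' t₀ t₀' →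
      r₁ = r₂) ∧
    ∀ q₁ q₂ r, (q₁, r) ∈ KE D ρ Al n p s u u' t₀ t₀' → (q₂, r) ∈ KE D ρ Al n p s u u' t₀ t₀' →
      q₁ = q₂ := by
  classical
  have hL0 := h.L.br₀
  have hR0 := h.R.br₀
  refine K_match (D := D) (ρ := ρ) (t := t₀) (t' := t₀') (c := p) (c' := p) h.M0 h.M0' hL0.hF hR0.hF
    (N := fun t => t^(1/20:ℝ)) (fun e he => ?_)
  unfold KE at he
  obtain ⟨k1, k2, ⟨k3, k4⟩, k5, k6⟩ := Finset.mem_filter.1 he
  obtain ⟨k7, k8⟩ := Finset.mem_product.1 k1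
  have k9 := (mem_Qi.1 k7).1
  have k10 := (mem_Qi.1 k8).1
  exact ⟨k9, k10, ESI_EP (hL0.hF.item _ k9).2.1 (hR0.hF.item _ k10).2.1 k4, k5, k6⟩

end state

end Crest.Agent.R4.NMW710
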