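import Crest.Agent.R4.GSt927
import Crest.Agent.R4.NMW710

/-!
# R4 (S0004), module G, helper927: near misses of a state, moduli with common primes

* `dat_G` : all averaged data are the same for `(G M₀, pr)` and `(M₀, pr G)` if `G ∣ q / pr`;
* `nm_state2` : 710's `nm_state` with the sums over `O`, `O'` only.
-/

set_option autoImplicit false
set_option linter.unusedSectionVars false
set_option linter.unusedVariables false
set_option linter.unusedSimpArgs false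

namespace Crest.Agent.R4.NMW927

open Crest.Agent.R4.Tour104 Crest.Agent.R4.Tour758 Crest.Agent.R4.Avg758 Crest.Agent.R4.Clos758
open Crest.Agent.R4.ClosL758 Crest.Agent.R4.ClosG758 Crest.Agent.R4.ClosR758
open Crest.Agent.R4.Fam464 Crest.Agent.R4.Cnt588 Crest.Agent.R4.Walk560 Crest.Agent.R4.Piece464
open Crest.Agent.R4.Item758 Crest.Agent.R4.AvgItem710
open Crest.Agent.R4.Bld532 (NS All NodeOk Bk)
open Crest.Agent.R4.Res927 Crest.Agent.R4.GInst194 Crest.Agent.R4.WalkIT579 Crest.Agent.R4.GSt927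
open Crest.Agent.R4.NMW710 Crest.Agent.R4.DeepSt579
open Crest.Agent.R4

/-! ### the common part of the modulus -/

section dat
variable {G M₀ pr q : ℕ}

lemma gcd_G (h : G ∣ q / pr) (hG : 0 < G) :
    (G * M₀).gcd (q / pr) = G * M₀.gcd (q / (pr * G)) := by
  obtain ⟨w, hw⟩ := h
  have h1 : q / (pr * G) = w := by
    rw [← Nat.div_div_eq_div_mul, hw, Nat.mul_div_cancel_left _ hG]
  rw [h1, hw, Nat.gcd_mul_left]

/-- the raising factor -/
lemma rf_G (h : G ∣ q / pr) (hG : 0 < G) : rf (q / pr) (G * M₀) = rf (q / (pr * G)) M₀ := by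
  unfold rf
  rw [gcd_G h hG, Nat.mul_div_mul_left _ _ hG]

/-- the reduced modulus -/
lemma quo_G (h : G ∣ q / pr) (hG : 0 < G) :
    q / pr / (G * M₀).gcd (q / pr) = q / (pr * G) / M₀.gcd (q / (pr * G)) := by
  rw [gcd_G h hG, ← Nat.div_div_eq_div_mul, Nat.div_div_eq_div_mul q pr G]

end dat

section dat2
variable {Λ κ : Type*} {D : Par Λ κ} {ρ : ℕ → ℝ} {γ : ℝ} {n : ℕ}
  {G M₀ b pr c G' M₀' b' pr' c' : ℕ} {e : ℕ × ℕ}

/-- **all data of a pair are the same for `(G M₀, pr)` and `(M₀, pr G)`** -/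
theorem dat_G (h : G ∣ e.1 / pr) (hG : 0 < G) (h' : G' ∣ e.2 / pr') (hG' : 0 < G') :
    Dq ρ (G * M₀) b pr c (G' * M₀') b' pr' c' e = Dq ρ M₀ b (pr * G) c M₀' b' (pr' * G') c' e ∧
    (ESI γ ρ (G * M₀) b pr c (G' * M₀') b' pr' c' e ↔
      ESI γ ρ M₀ b (pr * G) c M₀' b' (pr' * G') c' e) ∧
    (FSI γ ρ n (G * M₀) b pr c (G' * M₀') b' pr' c' e ↔
      FSI γ ρ n M₀ b (pr * G) c M₀' b' (pr' * G') c' e) := by
  have a1 := rf_G (M₀ := M₀) h hG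
  have a2 := rf_G (M₀ := M₀') h' hG'
  have b1 := quo_G (M₀ := M₀) h hG
  have b2 := quo_G (M₀ := M₀') h' hG'
  refine ⟨?_, ?_, ?_⟩
  · unfold Dq Da Dp
    rw [a1, a2, b1, b2]
  · unfold ESI
    rw [a1, a2, b1, b2]
  · unfold FSI
    rw [a1, a2, b1, b2]

lemma pbd_G {θ r θ' r' : ℝ} {q q' : ℕ} (h : G ∣ q / pr) (hG : 0 < G) (h' : G' ∣ q' / pr')
    (hG' : 0 < G') :
    pbd θ r (q / pr) (G * M₀) θ' r' (q' / pr') (G' * M₀') =
      pbd θ r (q / (pr * G)) M₀ θ' r' (q' / (pr' * G')) M₀' := by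
  have a1 := rf_G (M₀ := M₀) h hG
  have a2 := rf_G (M₀ := M₀') h' hG'
  have b1 := quo_G (M₀ := M₀) h hG
  have b2 := quo_G (M₀ := M₀') h' hG'
  unfold pbd Da Ra Dp
  rw [a1, a2, b1, b2]

end dat2

/-! ### numbers -/

/-- constants of a column -/
structure CC2 (CL C1 Cm : ℝ) (p₁ : ℕ) : Prop where
  cc : CC CL (C1 + 2) Cm p₁
  cl : ∀ p : ℕ, p₁ ≤ p → CL ≤ Real.log p
  num : ∀ p : ℕ, p₁ ≤ p → (p : ℝ) ^ (-(1 / 2500) : ℝ) * (CL * Real.log p) ≤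
    (p : ℝ) ^ (-(1 / 3000) : ℝ)

theorem exists_CC2 {CL : ℝ} (hCL : 1 ≤ CL) (C1 Cm : ℝ) (hCm : 0 ≤ Cm) :
    ∃ p₁ : ℕ, CC2 CL C1 Cm p₁ := by
  obtain ⟨p₁, h₁⟩ := exists_CC hCL (C1 + 2) Cm hCm
  have e1 := ev_log_rpow CL 1 (1 / 15000) (by norm_num)
  have e2 := Real.tendsto_log_atTop.eventually_ge_atTop CL
  obtain ⟨x0, hx0⟩ := Filter.eventually_atTop.1 (e1.and (e2.and (Filter.eventually_ge_atTop (3 : ℝ))))
  refine ⟨max p₁ ⌈x0⌉₊, h₁.mono (le_max_left _ _), fun p hp => ?_, fun p hp => ?_⟩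
  · have hpx : x0 ≤ (p : ℝ) := (Nat.le_ceil x0).trans (by exact_mod_cast (le_max_right _ _).trans hp)
    exact (hx0 p hpx).2.1
  · have hpx : x0 ≤ (p : ℝ) := (Nat.le_ceil x0).trans (by exact_mod_cast (le_max_right _ _).trans hp)
    obtain ⟨g1, g2, g3⟩ := hx0 p hpx
    rw [Real.rpow_one] at g1
    have hp0 : (0 : ℝ) < p := by linarith
    calc (p : ℝ) ^ (-(1 / 2500) : ℝ) * (CL * Real.log p) ≤
        (p : ℝ) ^ (-(1 / 2500) : ℝ) * (p : ℝ) ^ (1 / 15000 : ℝ) :=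
          mul_le_mul_of_nonneg_left g1 (by positivity)
      _ = (p : ℝ) ^ (-(1 / 3000) : ℝ) := by
          rw [← Real.rpow_add hp0]; norm_num

lemma CC2.mono {CL C1 Cm : ℝ} {p₁ p₂ : ℕ} (h : CC2 CL C1 Cm p₁) (h2 : p₁ ≤ p₂) :
    CC2 CL C1 Cm p₂ :=
  ⟨h.cc.mono h2, fun p hp => h.cl p (h2.trans hp), fun p hp => h.num p (h2.trans hp)⟩

/-! ### near misses of a state -/

section nm
variable {Λ κ : Type*} [Fintype Λ] [DecidableEq Λ] [Fintype κ] [DecidableEq κ] [WRel κ]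
  {D : Par Λ κ} {ρ : ℕ → ℝ} {Al : Finset ℕ} {sp : ℕ → Finset Λ} {s : St Λ κ} {P : Bld532.Par}
  {W : ℕ → ℝ} {U : ℕ → Finset ℕ} {CL C1 c₀ : ℝ} {p₁ : ℕ}

lemma tq_le_one (q : ℕ) : tq q ≤ 1 := by
  unfold tq
  exact div_le_one_of_le₀ (by exact_mod_cast Nat.totient_le q) (Nat.cast_nonneg _)

open Classical in
/-- **near misses of a state**, the modulus contains common primes -/
theorem nm_state2 (hcc : CC2 CL C1 (1 / (2 * c₀)) p₁) {p n : ℕ} (hni : NI D ρ Al P W U CL C1 c₀ p)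
    {u u' : NS} {t₁ t₀ t₁' t₀' : IT}
    (h : StI D sp s u.B u.A (.br p t₁ t₀) u'.B u'.A (.br p t₁' t₀'))
    (hI : IS D sp P W U s u u' (.br p t₁ t₀) (.br p t₁' t₀'))
    (hL : NSd D Al CL c₀ p u (.br p t₁ t₀) s.A) (hR : NSd D Al CL c₀ p u' (.br p t₁' t₀') s.A')
    (hCL : 0 ≤ CL)
    (hp : p₁ ≤ p) (hn : n = ⌊1/4 * Real.log p / Real.log 2⌋₊)
    {stp : St Λ κ → Prop} (hM : Squarefree s.M) (hM' : Squarefree s.M') {N N' : ℕ}
    (mL : MS N u.A (IT.br p t₁ t₀).items s.M s.O') (mR : MS N' u'.A (IT.br p t₁' t₀').items s.M' s.O)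
    (hst : ¬ stp s → ∑ l ∈ s.O, 1/(l:ℝ) ≤ 1 ∧ ∑ l ∈ s.O', 1/(l:ℝ) ≤ 1) :
    eNM stp s ≤ (p:ℝ)^(-(1/3000):ℝ) *
        ((∑ j ∈ s.A.filter (fun j => D.it j ∈ t₀.items), mI s.t j) +
          ∑ j ∈ s.A'.filter (fun j => D.it j ∈ t₀'.items), mI s.t' j) +
      ∑ e ∈ (Qi D Al t₀ s.A ×ˢ Qi D Al t₀' s.A').filter (fun e =>
        0 < D.iF (Ro (D.rho p)) (D.uA s.M (u.B * p) u.A t₀ s.A p)
          (D.uA s.M' (u'.B * p) u'.A t₀' s.A' p) e ∧
        (Dq ρ s.M (u.B * p) u.A p s.M' (u'.B * p) u'.A p e ≤ 1/2^n ∧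
        (ESI D.γ ρ s.M (u.B * p) u.A p s.M' (u'.B * p) u'.A p e ∨
          FSI D.γ ρ n s.M (u.B * p) u.A p s.M' (u'.B * p) u'.A p e))),
        D.iF (Ro (D.rho p)) (D.uA s.M (u.B * p) u.A t₀ s.A p)
          (D.uA s.M' (u'.B * p) u'.A t₀' s.A' p) e := by
  classical
  have hpp : p.Prime := h.L.hF.1
  have hp0 : 0 < p := hpp.pos
  have bB : 0 < u.B := h.L.hb
  have bB' : 0 < u'.B := h.R.hb
  have hL0 := h.L.br₀
  have hR0 := h.R.br₀
  set F : ℕ × ℕ → ℝ := D.iF (Ro (D.rho p)) (D.uA s.M (u.B * p) u.A t₀ s.A p)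
    (D.uA s.M' (u'.B * p) u'.A t₀' s.A' p) with hFdef
  have hF0 : ∀ e, 0 ≤ F e := fun e => D.iF_nonneg _
    (fun j y => (PB_uA h.M0 hL0.hb hL0.hF hL0.hW (Dvd.intro_left u.B rfl) j).nonneg y)
    (fun j y => (PB_uA h.M0' hR0.hb hR0.hF hR0.hW (Dvd.intro_left u'.B rfl) j).nonneg y) e
  have mnn : ∀ (d : DT Λ κ), d.g.Ok → ∀ j, 0 ≤ mI d j := fun d hd j => by
    unfold mI
    exact I_nonneg fun x => (hd.pb j).nonneg x
  have okL : s.t.g.Ok := by rw [h.L.eq, D.toDT_g]; exact D.toG_Ok h.L.hb h.L.hF h.L.hW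
  have okR : s.t'.g.Ok := by rw [h.R.eq, D.toDT_g]; exact D.toG_Ok h.R.hb h.R.hF h.R.hW
  have nΦ : 0 ≤ ∑ j ∈ s.A.filter (fun j => D.it j ∈ t₀.items), mI s.t j :=
    Finset.sum_nonneg fun j _ => mnn _ okL j
  have nΦ' : 0 ≤ ∑ j ∈ s.A'.filter (fun j => D.it j ∈ t₀'.items), mI s.t' j :=
    Finset.sum_nonneg fun j _ => mnn _ okR j
  have hrest : 0 ≤ ∑ e ∈ (Qi D Al t₀ s.A ×ˢ Qi D Al t₀' s.A').filter (fun e => 0 < F e ∧
        (Dq ρ s.M (u.B * p) u.A p s.M' (u'.B * p) u'.A p e ≤ 1/2^n ∧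
        (ESI D.γ ρ s.M (u.B * p) u.A p s.M' (u'.B * p) u'.A p e ∨
          FSI D.γ ρ n s.M (u.B * p) u.A p s.M' (u'.B * p) u'.A p e))), F e :=
    Finset.sum_nonneg fun e _ => hF0 e
  by_cases hstp : stp s
  · have e0 : eNM stp s = 0 := by
      unfold eNM
      split_ifs <;> rfl
    rw [e0]
    have : 0 ≤ (p:ℝ)^(-(1/3000):ℝ) := by positivity
    have := mul_nonneg this (add_nonneg nΦ nΦ')
    linarith
  obtain ⟨hs, hs'⟩ := hst hstp
  refine (eNM_le_iF h stp).trans ?_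
  refine (Finset.sum_le_sum_of_subset_of_nonneg (PE_sub hni.dead h.M0 h.M0' hL0.hb hR0.hb hL0.hF
    hR0.hF hL0.hW hR0.hW (Dvd.intro_left u.B rfl) (Dvd.intro_left u'.B rfl) _ _ _)
    fun e _ _ => hF0 e).trans ?_
  -- the pieces of the estimate
  obtain ⟨G, hG, tL, tR⟩ := hI.tame h.M0 h.M0'
  obtain ⟨H, eM, hH, dH, -, pO⟩ := mL
  obtain ⟨H', eM', hH', dH', -, pO'⟩ := mR
  have q1 := hI.qL.1
  have q2 := hI.qR.1
  have top1 := top_of_nodeOk q1.1 (id : ¬ isL (.br p t₁ t₀))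
  have top2 := top_of_nodeOk q2.1 (id : ¬ isL (.br p t₁' t₀'))
  have lev : ∀ z : ℝ, (p:ℝ) ≤ z → ∀ l : ℕ, l.Prime → z < l → u.n ≤ l := by
    intro z hz l hl hzl
    by_contra hc
    push Not at hc
    have h3 : l ≤ p := top1.2.2 l hl hc
    have : (l:ℝ) ≤ p := by exact_mod_cast h3
    linarith
  have sqL : ∀ q ∈ (IT.br p t₁ t₀).items, Squarefree q := fun q hq => (q1.2 q hq).1
  have sqR : ∀ q ∈ (IT.br p t₁' t₀').items, Squarefree q := fun q hq => (q2.2 q hq).1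
  have itL : ∀ q ∈ Qi D Al t₀ s.A, q ∈ (IT.br p t₁ t₀).items := fun q hq =>
    Finset.mem_union_right _ (mem_Qi.1 hq).1
  have itR : ∀ q ∈ Qi D Al t₀' s.A', q ∈ (IT.br p t₁' t₀').items := fun q hq =>
    Finset.mem_union_right _ (mem_Qi.1 hq).1
  have hMp : ∀ l : ℕ, l.Prime → l ∣ ∏ l ∈ s.O', l → p ≤ l := fun l hl hd =>
    (top1.2.1.le).trans (hI.geM l hl (hd.trans (eM ▸ Dvd.intro_left _ rfl)))
  have hMp' : ∀ l : ℕ, l.Prime → l ∣ ∏ l ∈ s.O, l → p ≤ l := fun l hl hd =>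
    (top1.2.1.le).trans (hI.geM' l hl (hd.trans (eM' ▸ Dvd.intro_left _ rfl)))
  have w0L : ∀ q ∈ Qi D Al t₀ s.A, 0 < q / u.A := fun q hq => by
    have hq0 := (hL0.hF.item q (mem_Qi.1 hq).1)
    exact Nat.div_pos (Nat.le_of_dvd hq0.1 hq0.2.1) (Nat.pos_of_dvd_of_pos hq0.2.1 hq0.1)
  have w0R : ∀ q ∈ Qi D Al t₀' s.A', 0 < q / u'.A := fun q hq => by
    have hq0 := (hR0.hF.item q (mem_Qi.1 hq).1)
    exact Nat.div_pos (Nat.le_of_dvd hq0.1 hq0.2.1) (Nat.pos_of_dvd_of_pos hq0.2.1 hq0.1)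
  have logp : 0 ≤ CL * Real.log p := mul_nonneg hCL (Real.log_natCast_nonneg p)
  have hlogp0 : 0 ≤ Real.log p := Real.log_natCast_nonneg p
  have dvL : ∀ q ∈ Qi D Al t₀ s.A, 0 < q ∧ u.A * H ∣ q := fun q hq => by
    have hq0 := (hL0.hF.item q (mem_Qi.1 hq).1)
    refine ⟨hq0.1, ?_⟩
    obtain ⟨w, hw⟩ := dH q (itL q hq)
    exact ⟨w, by rw [mul_assoc, ← hw, Nat.mul_div_cancel' hq0.2.1]⟩
  have dvR : ∀ q ∈ Qi D Al t₀' s.A', 0 < q ∧ u'.A * H' ∣ q := fun q hq => by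
    have hq0 := (hR0.hF.item q (mem_Qi.1 hq).1)
    refine ⟨hq0.1, ?_⟩
    obtain ⟨w, hw⟩ := dH' q (itR q hq)
    exact ⟨w, by rw [mul_assoc, ← hw, Nat.mul_div_cancel' hq0.2.1]⟩
  have quoL : ∀ q ∈ Qi D Al t₀ s.A, q / u.A / s.M.gcd (q / u.A) =
      q / (u.A * H) / (∏ l ∈ s.O', l).gcd (q / (u.A * H)) := fun q hq => by
    rw [eM]; exact quo_G (dH q (itL q hq)) hH
  have quoR : ∀ q ∈ Qi D Al t₀' s.A', q / u'.A / s.M'.gcd (q / u'.A) =
      q / (u'.A * H') / (∏ l ∈ s.O, l).gcd (q / (u'.A * H')) := fun q hq => by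
    rw [eM']; exact quo_G (dH' q (itR q hq)) hH'
  have hp3 : 16 ≤ p := hcc.cc.big.trans hp
  have hpR0 : (0 : ℝ) < p := by exact_mod_cast hp0
  have hlog1 : 0 < Real.log p := Real.log_pos (by exact_mod_cast (by omega : 1 < p))
  have xtra : ∀ (b pr : ℕ) (S : Finset ℕ), (∀ q ∈ S, 1 ≤ CL * Real.log p * tq (q / pr)) → ∀ K : ℕ,
      0 < b → ∑ q ∈ S, rd (b * p) p ρ q * tq (q / (pr * K)) ≤
      CL * Real.log p * ∑ q ∈ S, rd (b * p) p ρ q * tq (q / pr) := by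
    intro b pr S hS K hb
    rw [Finset.mul_sum]
    refine Finset.sum_le_sum fun q hq => ?_
    have h1 : 0 ≤ rd (b * p) p ρ q := by
      rw [rd_col hp0]
      exact mul_nonneg (Nat.cast_nonneg _) (hni.rad.pos q).le
    calc rd (b * p) p ρ q * tq (q / (pr * K)) ≤ rd (b * p) p ρ q * (CL * Real.log p * tq (q / pr)) :=
          mul_le_mul_of_nonneg_left ((tq_le_one _).trans (hS q hq)) h1
      _ = _ := by ring
  have lgL : ∀ q ∈ Qi D Al t₀ s.A, 1 ≤ CL * Real.log p * tq (q / u.A) := fun q hq =>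
    hL.lg q (mem_Qi.1 hq).2.1 (itL q hq)
  have lgR : ∀ q ∈ Qi D Al t₀' s.A', 1 ≤ CL * Real.log p * tq (q / u'.A) := fun q hq =>
    hR.lg q (mem_Qi.1 hq).2.1 (itR q hq)
  have hnum : CL * Real.log p * ((Real.log p)^C1 / p) ≤ (Real.log p)^(C1 + 2) / p := by
    have h1 : (Real.log p)^(C1 + 2) = Real.log p * Real.log p * (Real.log p)^C1 := by
      rw [Real.rpow_add hlog1]
      have : (Real.log p)^(2 : ℝ) = Real.log p * Real.log p := by
        rw [show (2 : ℝ) = ((2 : ℕ) : ℝ) by norm_num, Real.rpow_natCast, sq]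
      rw [this]; ring
    rw [h1, mul_div_assoc]
    refine mul_le_mul_of_nonneg_right (mul_le_mul_of_nonneg_right (hcc.cl p hp) hlogp0) ?_
    exact div_nonneg (Real.rpow_nonneg hlogp0 _) hpR0.le
  have key := nm_small hcc.cc D (F := F) (G := G) (c := p) (c' := p) (M := ∏ l ∈ s.O', l)
    (M' := ∏ l ∈ s.O, l) (pr := u.A * H) (pr' := u'.A * H') (b := u.B * p) (b' := u'.B * p)
    (V := Qi D Al t₀ s.A) (W := Qi D Al t₀' s.A')
    (Φ := CL * Real.log p * ∑ j ∈ s.A.filter (fun j => D.it j ∈ t₀.items), mI s.t j)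
    (Φ' := CL * Real.log p * ∑ j ∈ s.A'.filter (fun j => D.it j ∈ t₀'.items), mI s.t' j)
    hp hn hG hni.rad.pos hL0.hb hp0 hR0.hb hp0
    (hM.squarefree_of_dvd (eM ▸ Dvd.intro_left _ rfl))
    (hM'.squarefree_of_dvd (eM' ▸ Dvd.intro_left _ rfl)) hMp hMp'
    (by rw [Nat.primeFactors_prod fun l hl => (pO l hl).1]; exact hs')
    (by rw [Nat.primeFactors_prod fun l hl => (pO' l hl).1]; exact hs)
    dvL dvR
    (by
      intro z hz q hq
      rw [← quoL q hq]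
      obtain ⟨h1, h2, j, hj, rfl⟩ := mem_Qi.1 hq
      exact tL j hj (itL _ hq) z (lev z hz) (hni.U _ h2 z hz))
    (by
      intro z hz q hq
      rw [← quoR q hq]
      obtain ⟨h1, h2, j, hj, rfl⟩ := mem_Qi.1 hq
      exact tR j hj (itR _ hq) z (lev z hz) (hni.U _ h2 z hz))
    (by
      intro q hq
      rw [← quoL q hq]
      refine (lgL q hq).trans ?_
      exact mul_le_mul_of_nonneg_left (tq_mono (Nat.div_dvd_of_dvd (Nat.gcd_dvd_right _ _))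
        (w0L q hq)) logp)
    (by
      intro q hq
      rw [← quoR q hq]
      refine (lgR q hq).trans ?_
      exact mul_le_mul_of_nonneg_left (tq_mono (Nat.div_dvd_of_dvd (Nat.gcd_dvd_right _ _))
        (w0R q hq)) logp)
    (by
      intro e he
      obtain ⟨h1, h2⟩ := Finset.mem_product.1 he
      have k1 := iF_le hni.rad h.M0 h.M0' hL0.hb hR0.hb hL0.hF hR0.hF hL0.hW hR0.hW
        (Dvd.intro_left u.B rfl) (Dvd.intro_left u'.B rfl) (Ro (D.rho p)) s.A s.A' e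
        (mem_Qi.1 h1).1 (mem_Qi.1 h2).1
      refine k1.trans (le_of_eq ?_)
      unfold Item758.Par.pb
      rw [eM, eM']
      exact pbd_G (dH _ (itL _ h1)) hH (dH' _ (itR _ h2)) hH')
    ((xtra u.B u.A _ lgL H bB).trans (le_trans (mul_le_mul_of_nonneg_left
      ((share_le q1.1 sqL hni.W0 hni.Wρ hni.sg0 s.A).trans hni.sg) logp) hnum))
    ((xtra u'.B u'.A _ lgR H' bB').trans (le_trans (mul_le_mul_of_nonneg_left
      ((share_le q2.1 sqR hni.W0 hni.Wρ hni.sg0 s.A').trans hni.sg) logp) hnum))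
    ((xtra u.B u.A _ lgL H bB).trans (le_trans (mul_le_mul_of_nonneg_left
      (mass_sum hni.ab h.L sqL hni.c0 hL.mean hni.full hL.il (mnn _ okL)) logp)
      (le_of_eq (by ring))))
    ((xtra u'.B u'.A _ lgR H' bB').trans (le_trans (mul_le_mul_of_nonneg_left
      (mass_sum hni.ab h.R sqR hni.c0 hR.mean hni.full hR.il (mnn _ okR)) logp)
      (le_of_eq (by ring))))
    (mul_nonneg logp nΦ) (mul_nonneg logp nΦ')
  refine key.trans (add_le_add ?_ (le_of_eq ?_))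
  · rw [← mul_add, ← mul_assoc]
    exact mul_le_mul_of_nonneg_right (hcc.num p hp) (add_nonneg nΦ nΦ')
  · refine Finset.sum_congr (Finset.filter_congr fun e he => ?_) fun _ _ => rfl
    obtain ⟨h1, h2⟩ := Finset.mem_product.1 he
    obtain ⟨d1, d2, d3⟩ := dat_G (ρ := ρ) (γ := D.γ) (n := n) (M₀ := ∏ l ∈ s.O', l)
      (M₀' := ∏ l ∈ s.O, l) (b := u.B * p) (b' := u'.B * p) (c := p) (c' := p) (e := e)
      (dH _ (itL _ h1)) hH (dH' _ (itR _ h2)) hH'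
    rw [eM, eM', d1, d2, d3]

end nm

end Crest.Agent.R4.NMW927
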