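import Mathlib
import Crest.Agent.R4.StopCls709

/-!
R4 (S0004), helper709: WEIGHTED sum over groups (245 #15015): Hölder with the weights `Π_{l ∈ S} l^(-1/30)`.
-/

set_option autoImplicit false
open Finset

namespace Crest.Agent.R4.OSCore709
open Crest.Agent.R4.HVW560 Crest.Agent.R4.HVWX793
open Crest.Agent.R4.Schur709 Crest.Agent.R4.StopHvw709 Crest.Agent.R4.StopAsm709

/-- weight of the missing one-sided primes -/
noncomputable def om (O : Finset ℕ) (r : ℕ) : ℝ := ∏ p ∈ O.filter (fun p => ¬ p ∣ r), ((p:ℝ)^(-(1/30):ℝ))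

lemma om_nonneg (O : Finset ℕ) (r : ℕ) : 0 ≤ om O r :=
  Finset.prod_nonneg fun _ _ => by positivity

lemma om_le_one {O : Finset ℕ} (hO : ∀ p ∈ O, 0 < p) (r : ℕ) : om O r ≤ 1 := by
  apply Finset.prod_le_one (fun _ _ => by positivity)
  intro p hp
  have h1 : (1:ℝ) ≤ p := by exact_mod_cast hO p (Finset.mem_filter.1 hp).1
  exact Real.rpow_le_one_of_one_le_of_nonpos h1 (by norm_num)

lemma om_eq {O S : Finset ℕ} {r : ℕ} (h : miss O r = S) : om O r = ∏ p ∈ S, ((p:ℝ)^(-(1/30):ℝ)) := by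
  subst h; rfl

/-- one side of the weighted Hölder -/
lemma side_w {O W : Finset ℕ} {μ : ℕ → ℝ} {α β τ : ℝ} (hα : 0 < α) (hβ : 0 < β) (hab : α + β = 1)
    (hr : β/30 + τ ≤ α/12) (hO : ∀ p ∈ O, 0 < p) (hμ : ∀ r ∈ W, 0 ≤ μ r) (IS : Finset (Finset ℕ))
    (hIS : IS = W.image (miss O)) :
    ∑ S ∈ IS, (∏ p ∈ S, (p:ℝ))^τ *
        ((∏ p ∈ S, (1/(p:ℝ)))^α * (∑ r ∈ W.filter (fun r => miss O r = S), μ r)^β)
      ≤ Real.exp (α * ∑ p ∈ O, (p:ℝ)^(-(11/12):ℝ)) * (∑ r ∈ W, om O r * μ r)^β := by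
  classical
  have hISO : ∀ S ∈ IS, S ⊆ O := by
    intro S hS
    rw [hIS, Finset.mem_image] at hS
    obtain ⟨r, _, rfl⟩ := hS
    exact miss_sub O r
  have hpS : ∀ S ∈ IS, ∀ p ∈ S, (1:ℝ) ≤ p := fun S hS p hp => by
    exact_mod_cast hO p (hISO S hS hp)
  have hA0 : ∀ S ∈ IS, (0:ℝ) ≤ ∏ p ∈ S, ((p:ℝ)^(-(11/12):ℝ)) := fun S hS =>
    Finset.prod_nonneg fun p hp => by positivity
  have hB0 : ∀ S ∈ IS, 0 ≤ ∑ r ∈ W.filter (fun r => miss O r = S), om O r * μ r := fun S _ =>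
    Finset.sum_nonneg fun r hr => mul_nonneg (om_nonneg _ _) (hμ r (Finset.mem_filter.1 hr).1)
  have step : ∀ S ∈ IS, (∏ p ∈ S, (p:ℝ))^τ *
      ((∏ p ∈ S, (1/(p:ℝ)))^α * (∑ r ∈ W.filter (fun r => miss O r = S), μ r)^β)
      ≤ (∏ p ∈ S, ((p:ℝ)^(-(11/12):ℝ)))^α *
        (∑ r ∈ W.filter (fun r => miss O r = S), om O r * μ r)^β := by
    intro S hS
    have e1 : ∑ r ∈ W.filter (fun r => miss O r = S), om O r * μ r
        = (∏ p ∈ S, ((p:ℝ)^(-(1/30):ℝ))) * ∑ r ∈ W.filter (fun r => miss O r = S), μ r := by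
      rw [Finset.mul_sum]
      apply Finset.sum_congr rfl
      intro r hr
      rw [om_eq (Finset.mem_filter.1 hr).2]
    have hy : 0 ≤ ∑ r ∈ W.filter (fun r => miss O r = S), μ r :=
      Finset.sum_nonneg fun r hr => hμ r (Finset.mem_filter.1 hr).1
    have hω : (0:ℝ) ≤ ∏ p ∈ S, ((p:ℝ)^(-(1/30):ℝ)) := Finset.prod_nonneg fun p _ => by positivity
    rw [e1, Real.mul_rpow hω hy, ← mul_assoc, ← mul_assoc]
    apply mul_le_mul_of_nonneg_right _ (Real.rpow_nonneg hy _)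
    rw [← Real.finsetProd_rpow S _ (fun p _ => by positivity), ← Real.finsetProd_rpow S _ (fun p _ => by positivity),
      ← Real.finsetProd_rpow S _ (fun p _ => by positivity), ← Real.finsetProd_rpow S _ (fun p _ => by positivity),
      ← Finset.prod_mul_distrib, ← Finset.prod_mul_distrib]
    apply Finset.prod_le_prod (fun p _ => by positivity)
    intro p hp
    have hp1 := hpS S hS p hp
    have hp0 : (0:ℝ) < p := by linarith
    rw [one_div, Real.inv_rpow hp0.le, ← Real.rpow_neg hp0.le, ← Real.rpow_mul hp0.le,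
      ← Real.rpow_mul hp0.le, ← Real.rpow_add hp0, ← Real.rpow_add hp0]
    apply Real.rpow_le_rpow_of_exponent_le hp1
    nlinarith
  refine (Finset.sum_le_sum step).trans ?_
  refine (holder IS hα hβ hab (fun S => ∏ p ∈ S, ((p:ℝ)^(-(11/12):ℝ)))
    (fun S => ∑ r ∈ W.filter (fun r => miss O r = S), om O r * μ r) hA0 hB0).trans ?_
  rw [Finset.sum_fiberwise_of_maps_to (fun r hr => by rw [hIS]; exact Finset.mem_image_of_mem _ hr)]
  apply mul_le_mul_of_nonneg_right _ (Real.rpow_nonneg (Finset.sum_nonneg fun r hr =>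
    mul_nonneg (om_nonneg _ _) (hμ r hr)) _)
  have h1 : ∑ S ∈ IS, ∏ p ∈ S, ((p:ℝ)^(-(11/12):ℝ)) ≤ Real.exp (∑ p ∈ O, (p:ℝ)^(-(11/12):ℝ)) := by
    calc ∑ S ∈ IS, ∏ p ∈ S, ((p:ℝ)^(-(11/12):ℝ))
        ≤ ∑ S ∈ O.powerset, ∏ p ∈ S, ((p:ℝ)^(-(11/12):ℝ)) := by
          apply Finset.sum_le_sum_of_subset_of_nonneg
          · intro S hS; exact Finset.mem_powerset.2 (hISO S hS)
          · intro S _ _; exact Finset.prod_nonneg fun p _ => by positivity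
      _ = ∏ p ∈ O, (1 + (p:ℝ)^(-(11/12):ℝ)) := (Finset.prod_one_add O).symm
      _ ≤ _ := by
          rw [Real.exp_sum]
          apply Finset.prod_le_prod (fun p _ => by positivity)
          intro p _
          have := Real.add_one_le_exp ((p:ℝ)^(-(11/12):ℝ))
          linarith
  calc (∑ S ∈ IS, ∏ p ∈ S, ((p:ℝ)^(-(11/12):ℝ)))^α
      ≤ (Real.exp (∑ p ∈ O, (p:ℝ)^(-(11/12):ℝ)))^α :=
        Real.rpow_le_rpow (Finset.sum_nonneg hA0) h1 hα.le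
    _ = _ := by rw [← Real.exp_mul, mul_comm]

/-- **weighted sum over groups**, with room `(Π S)^τ` per group -/
theorem group_sum_t {O O' V W : Finset ℕ} {E : Finset (ℕ × ℕ)} {μ μ' : ℕ → ℝ}
    {α β τ : ℝ} (hα : 0 < α) (hβ : 0 < β) (hab : α + β = 1) (hr : β/30 + τ ≤ α/12)
    (hO : ∀ p ∈ O, 0 < p) (hO' : ∀ p ∈ O', 0 < p)
    (hE : E ⊆ V ×ˢ W) (hμ : ∀ q ∈ V, 0 ≤ μ q) (hμ' : ∀ r ∈ W, 0 ≤ μ' r)
    {F : ℕ × ℕ → ℝ} {G : ℝ} (hG : 0 ≤ G)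
    (h : ∀ S ⊆ O, ∀ S' ⊆ O', ∑ e ∈ Eg O O' E S S', F e
      ≤ G * ((∏ p ∈ S, (p:ℝ))^τ * (∏ p ∈ S', (p:ℝ))^τ) *
        (((∏ p ∈ S, (1/(p:ℝ)))^α * (∑ r ∈ Vg O W S, μ' r)^β) *
        ((∏ p ∈ S', (1/(p:ℝ)))^α * (∑ q ∈ Vg O' V S', μ q)^β))) :
    ∑ e ∈ E, F e
      ≤ G * Real.exp (α * ((∑ p ∈ O, (p:ℝ)^(-(11/12):ℝ)) + ∑ p ∈ O', (p:ℝ)^(-(11/12):ℝ))) *
        ((∑ q ∈ V, om O' q * μ q) * (∑ r ∈ W, om O r * μ' r))^β := by
  classical
  set IS : Finset (Finset ℕ) := W.image (miss O) with hIS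
  set IS' : Finset (Finset ℕ) := V.image (miss O') with hIS'
  have hISO : ∀ S ∈ IS, S ⊆ O := by
    intro S hS
    rw [hIS, Finset.mem_image] at hS
    obtain ⟨r, _, rfl⟩ := hS
    exact miss_sub O r
  have hISO' : ∀ S ∈ IS', S ⊆ O' := by
    intro S hS
    rw [hIS', Finset.mem_image] at hS
    obtain ⟨r, _, rfl⟩ := hS
    exact miss_sub O' r
  have split : ∑ e ∈ E, F e
      = ∑ x ∈ IS ×ˢ IS', ∑ e ∈ E.filter (fun e => miss O e.2 = x.1 ∧ miss O' e.1 = x.2), F e := by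
    rw [← Finset.sum_fiberwise_of_maps_to (s := E) (t := IS ×ˢ IS')
      (g := fun e => (miss O e.2, miss O' e.1))]
    · apply Finset.sum_congr rfl
      intro x _
      apply Finset.sum_congr _ (fun _ _ => rfl)
      ext e
      simp only [Finset.mem_filter, Prod.ext_iff]
    · intro e he
      have := Finset.mem_product.1 (hE he)
      exact Finset.mem_product.2 ⟨Finset.mem_image_of_mem _ this.2, Finset.mem_image_of_mem _ this.1⟩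
  rw [split]
  set A : Finset ℕ → ℝ := fun S => (∏ p ∈ S, (p:ℝ))^τ * ((∏ p ∈ S, (1/(p:ℝ)))^α *
    (∑ r ∈ W.filter (fun r => miss O r = S), μ' r)^β) with hA
  set A' : Finset ℕ → ℝ := fun S => (∏ p ∈ S, (p:ℝ))^τ * ((∏ p ∈ S, (1/(p:ℝ)))^α *
    (∑ r ∈ V.filter (fun r => miss O' r = S), μ r)^β) with hA'
  have np : ∀ S : Finset ℕ, (0:ℝ) ≤ ∏ p ∈ S, (1/(p:ℝ)) := fun S =>
    Finset.prod_nonneg fun p _ => by positivity
  have step1 : ∑ x ∈ IS ×ˢ IS', ∑ e ∈ E.filter (fun e => miss O e.2 = x.1 ∧ miss O' e.1 = x.2), F e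
      ≤ G * ((∑ S ∈ IS, A S) * (∑ S ∈ IS', A' S)) := by
    calc _ ≤ ∑ x ∈ IS ×ˢ IS', G * (A x.1 * A' x.2) := by
          apply Finset.sum_le_sum
          intro x hx
          have hx' := Finset.mem_product.1 hx
          have h2 := h _ (hISO _ hx'.1) _ (hISO' _ hx'.2)
          rw [← filter_eq_Eg] at h2
          refine h2.trans (le_of_eq ?_)
          show _ = G * (((∏ p ∈ x.1, (p:ℝ))^τ * ((∏ p ∈ x.1, (1/(p:ℝ)))^α * (∑ r ∈ Vg O W x.1, μ' r)^β)) *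
            ((∏ p ∈ x.2, (p:ℝ))^τ * ((∏ p ∈ x.2, (1/(p:ℝ)))^α * (∑ q ∈ Vg O' V x.2, μ q)^β)))
          ring
      _ = _ := by
          rw [← Finset.mul_sum, Finset.sum_mul_sum, ← Finset.sum_product']
  have nA' : ∀ S, 0 ≤ A' S := fun S => by
    rw [hA']
    exact mul_nonneg (Real.rpow_nonneg (Finset.prod_nonneg fun p _ => by positivity) _)
      (mul_nonneg (Real.rpow_nonneg (np S) _) (Real.rpow_nonneg
      (Finset.sum_nonneg fun r hr => hμ r (Finset.mem_filter.1 hr).1) _))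
  have bd := side_w hα hβ hab hr hO hμ' IS hIS
  have bd' := side_w hα hβ hab hr hO' hμ IS' hIS'
  refine step1.trans ?_
  have hM0 : 0 ≤ ∑ q ∈ V, om O' q * μ q := Finset.sum_nonneg fun q hq => mul_nonneg (om_nonneg _ _) (hμ q hq)
  have hM0' : 0 ≤ ∑ r ∈ W, om O r * μ' r := Finset.sum_nonneg fun q hq => mul_nonneg (om_nonneg _ _) (hμ' q hq)
  calc G * ((∑ S ∈ IS, A S) * (∑ S ∈ IS', A' S))
      ≤ G * ((Real.exp (α * ∑ p ∈ O, (p:ℝ)^(-(11/12):ℝ)) * (∑ r ∈ W, om O r * μ' r)^β) *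
        (Real.exp (α * ∑ p ∈ O', (p:ℝ)^(-(11/12):ℝ)) * (∑ r ∈ V, om O' r * μ r)^β)) := by
        apply mul_le_mul_of_nonneg_left _ hG
        exact mul_le_mul bd bd' (Finset.sum_nonneg fun S _ => nA' S)
          (mul_nonneg (Real.exp_nonneg _) (Real.rpow_nonneg hM0' _))
    _ = _ := by
        rw [Real.mul_rpow hM0 hM0', mul_add, Real.exp_add]
        ring

/-- **weighted sum over groups** -/
theorem group_sum_w {O O' V W : Finset ℕ} {E : Finset (ℕ × ℕ)} {μ μ' : ℕ → ℝ}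
    {α β : ℝ} (hα : 0 < α) (hβ : 0 < β) (hab : α + β = 1) (hr : β ≤ 5/2 * α)
    (hO : ∀ p ∈ O, 0 < p) (hO' : ∀ p ∈ O', 0 < p)
    (hE : E ⊆ V ×ˢ W) (hμ : ∀ q ∈ V, 0 ≤ μ q) (hμ' : ∀ r ∈ W, 0 ≤ μ' r)
    {F : ℕ × ℕ → ℝ} {G : ℝ} (hG : 0 ≤ G)
    (h : ∀ S ⊆ O, ∀ S' ⊆ O', ∑ e ∈ Eg O O' E S S', F e
      ≤ G * (((∏ p ∈ S, (1/(p:ℝ)))^α * (∑ r ∈ Vg O W S, μ' r)^β) *
        ((∏ p ∈ S', (1/(p:ℝ)))^α * (∑ q ∈ Vg O' V S', μ q)^β))) :
    ∑ e ∈ E, F e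
      ≤ G * Real.exp (α * ((∑ p ∈ O, (p:ℝ)^(-(11/12):ℝ)) + ∑ p ∈ O', (p:ℝ)^(-(11/12):ℝ))) *
        ((∑ q ∈ V, om O' q * μ q) * (∑ r ∈ W, om O r * μ' r))^β := by
  refine group_sum_t (τ := 0) hα hβ hab (by linarith) hO hO' hE hμ hμ' hG ?_
  intro S hS S' hS'
  refine (h S hS S' hS').trans (le_of_eq ?_)
  rw [Real.rpow_zero, Real.rpow_zero]
  ring

end Crest.Agent.R4.OSCore709
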