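import Mathlib
import Crest.Agent.R4.OSGrp709

/-!
R4 (S0004), helper709: GROUP LEVEL versions of the HVW / deep / matching bounds (one group `(S, S')`), to be summed by
`StopAsm709.group_sum` or by the weighted `OSCore709.group_sum_w`.
-/

set_option autoImplicit false
open Finset

namespace Crest.Agent.R4.OSCore709
open Crest.Agent.R4.HVW560 Crest.Agent.R4.HVWX793
open Crest.Agent.R4.Schur709 Crest.Agent.R4.StopHvw709 Crest.Agent.R4.StopAsm709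
open Crest.Agent.R4.X734 (Lo)
open Crest.Agent.R4.LF9 (sp rp sp_mul_rp sp_pos rp_pos sp_dvd rp_dvd sp_prime rp_prime)

/-- the factor of a group -/
noncomputable def ZG (α β : ℝ) (O O' V W S S' : Finset ℕ) (μ μ' : ℕ → ℝ) : ℝ :=
  ((∏ p ∈ S, (1/(p:ℝ)))^α * (∑ r ∈ Vg O W S, μ' r)^β) *
   ((∏ p ∈ S', (1/(p:ℝ)))^α * (∑ q ∈ Vg O' V S', μ q)^β)

lemma ZG_nonneg {α β : ℝ} {O O' V W S S' : Finset ℕ} {μ μ' : ℕ → ℝ} (hμ : ∀ q ∈ V, 0 ≤ μ q)
    (hμ' : ∀ r ∈ W, 0 ≤ μ' r) : 0 ≤ ZG α β O O' V W S S' μ μ' := by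
  unfold ZG
  have h1 : 0 ≤ ∑ r ∈ Vg O W S, μ' r := Finset.sum_nonneg fun r hr => hμ' r (Finset.mem_filter.1 hr).1
  have h2 : 0 ≤ ∑ r ∈ Vg O' V S', μ r := Finset.sum_nonneg fun r hr => hμ r (Finset.mem_filter.1 hr).1
  positivity

lemma Eg_of {O O' S S' : Finset ℕ} {E : Finset (ℕ × ℕ)}
    (h : ∀ e ∈ E, miss O e.2 = S ∧ miss O' e.1 = S') : Eg O O' E S S' = E :=
  Finset.filter_true_of_mem h

theorem mid_g {ε : ℝ} (hε : 0 < ε) (hε4 : ε ≤ 1/4) {N : ℕ} {O O' V W : Finset ℕ} {E : Finset (ℕ × ℕ)}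
    {R R' : ℕ → ℝ} (hO : ∀ p ∈ O, p.Prime ∧ N ≤ p) (hO' : ∀ p ∈ O', p.Prime ∧ N ≤ p)
    (hV : ∀ w ∈ V, 0 < w) (hW : ∀ w ∈ W, 0 < w) (hR : ∀ w ∈ V, 0 ≤ R w) (hR' : ∀ w ∈ W, 0 ≤ R' w)
    (hE : E ⊆ V ×ˢ W) {S S' : Finset ℕ} (hS : S ⊆ O) (hS' : S' ⊆ O')
    (hES : ∀ e ∈ E, miss O e.2 = S ∧ miss O' e.1 = S')
    {T K : ℝ} (hT : 0 < T) (hK : 0 ≤ K) {F : ℕ × ℕ → ℝ}
    (h1 : ∀ e ∈ E, (cof (uu O' e.1) (uu O e.2) : ℝ) * Rc O R' e.2 ≤ T)
    (h2 : ∀ e ∈ E, (cof (uu O e.2) (uu O' e.1) : ℝ) * Rc O' R e.1 ≤ T)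
    (hF : ∀ e ∈ E, F e ≤ K * (mu O' R e.1 * mu O R' e.2)) :
    ∑ e ∈ E, F e ≤ K * (KH 1 0 ε * T^(1-2*ε)) *
      ZG (1/2-ε) (1/2+ε) O O' V W S S' (mu O' R) (mu O R') := by
  classical
  have hOp : ∀ p ∈ O, p.Prime := fun p hp => (hO p hp).1
  have hOp' : ∀ p ∈ O', p.Prime := fun p hp => (hO' p hp).1
  have hKH := (KH_pos 1 0 ε).le
  rw [← Eg_of hES]
  unfold ZG
  have ha : 0 < ∏ p ∈ S, (1/(p:ℝ)) := Finset.prod_pos fun p hp => by
    have := (hOp p (hS hp)).pos; positivity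
  have hb : 0 < ∏ p ∈ S', (1/(p:ℝ)) := Finset.prod_pos fun p hp => by
    have := (hOp' p (hS' hp)).pos; positivity
  set a := ∏ p ∈ S, (1/(p:ℝ)) with had
  set b := ∏ p ∈ S', (1/(p:ℝ)) with hbd
  have hs : Sys2 (Vu O' V S') (Vu O W S) (Eu O O' E S S') (ψu O' S' R) (ψu O S R') T T :=
    { hδ₁ := hT
      hδ₂ := hT
      hV := by
        intro v hv
        obtain ⟨w, hw, rfl⟩ := Finset.mem_image.1 hv
        exact uu_pos hOp' (hV w (Finset.mem_filter.1 hw).1)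
      hW := by
        intro v hv
        obtain ⟨w, hw, rfl⟩ := Finset.mem_image.1 hv
        exact uu_pos hOp (hW w (Finset.mem_filter.1 hw).1)
      hψ := by
        intro v hv
        obtain ⟨w, hw, rfl⟩ := Finset.mem_image.1 hv
        rw [ψu_eq hOp' (Finset.mem_filter.1 hw).2]
        exact div_nonneg (hR w (Finset.mem_filter.1 hw).1) (al_nonneg _ _)
      hθ := by
        intro v hv
        obtain ⟨w, hw, rfl⟩ := Finset.mem_image.1 hv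
        rw [ψu_eq hOp (Finset.mem_filter.1 hw).2]
        exact div_nonneg (hR' w (Finset.mem_filter.1 hw).1) (al_nonneg _ _)
      hE := Eu_sub hE S S'
      h1 := by
        intro e he
        obtain ⟨f, hf, rfl⟩ := Finset.mem_image.1 he
        have hf' := Finset.mem_filter.1 hf
        show (cof (uu O' f.1) (uu O f.2) : ℝ) * ψu O S R' (uu O f.2) ≤ T
        rw [ψu_eq hOp hf'.2.1]
        exact h1 f hf'.1
      h2 := by
        intro e he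
        obtain ⟨f, hf, rfl⟩ := Finset.mem_image.1 he
        have hf' := Finset.mem_filter.1 hf
        show (cof (uu O f.2) (uu O' f.1) : ℝ) * ψu O' S' R (uu O' f.1) ≤ T
        rw [ψu_eq hOp' hf'.2.2]
        exact h2 f hf'.1 }
  have key := hvw_cross_plain hε hε4 hs (z₁ := 1) (z₂ := 1) one_pos one_pos
    (fun v _ => ⟨one_dvd _, Nat.coprime_one_left _⟩) (fun v _ => ⟨one_dvd _, Nat.coprime_one_left _⟩)
  rw [zf_one, one_mul, one_mul, Nat.cast_one, mul_one, div_one] at key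
  have eT : (T * T)^(1/2-ε) = T^(1-2*ε) := by
    rw [Real.mul_rpow hT.le hT.le, ← Real.rpow_add hT]; congr 1; ring
  rw [eT, sum_Eu hOp hOp' hE] at key
  set x := ∑ q ∈ Vg O' V S', mu O' R q with hx
  set y := ∑ r ∈ Vg O W S, mu O R' r with hy
  have hx0 : 0 ≤ x := Finset.sum_nonneg fun q hq => mu_nonneg (hR q (Finset.mem_filter.1 hq).1)
  have hy0 : 0 ≤ y := Finset.sum_nonneg fun q hq => mu_nonneg (hR' q (Finset.mem_filter.1 hq).1)
  have ex : ∑ v ∈ Vu O' V S', wt (ψu O' S' R) v = x / b := by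
    rw [eq_div_iff hb.ne']; exact sum_Vu hOp' R
  have ey : ∑ v ∈ Vu O W S, wt (ψu O S R') v = y / a := by
    rw [eq_div_iff ha.ne']; exact sum_Vu hOp R'
  rw [ex, ey] at key
  calc ∑ e ∈ Eg O O' E S S', F e
      ≤ ∑ e ∈ Eg O O' E S S', (K * (a * b)) *
          (wt (ψu O' S' R) (uu O' e.1) * wt (ψu O S R') (uu O e.2)) := by
        apply Finset.sum_le_sum
        intro e he
        have he' := Finset.mem_filter.1 he
        refine (hF e he'.1).trans (le_of_eq ?_)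
        rw [mu_eq hOp', mu_eq hOp, al_eq he'.2.1, al_eq he'.2.2]
        unfold wt
        rw [ψu_eq hOp he'.2.1, ψu_eq hOp' he'.2.2]
        ring
    _ = (K * (a * b)) * ∑ e ∈ Eg O O' E S S',
          (wt (ψu O' S' R) (uu O' e.1) * wt (ψu O S R') (uu O e.2)) := by rw [Finset.mul_sum]
    _ ≤ (K * (a * b)) * (KH 1 0 ε * (T^(1-2*ε) * (x/b * (y/a))^(1/2+ε))) :=
        mul_le_mul_of_nonneg_left key (by positivity)
    _ = (KH 1 0 ε * T^(1-2*ε)) * ((K * (a * b)) * (x/b * (y/a))^(1/2+ε)) := by ring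
    _ = _ := by
        rw [group_alg (α := 1/2-ε) (β := 1/2+ε) ha hb hx0 hy0 (by ring)]
        show _ = K * (KH 1 0 ε * T^(1-2*ε)) * ((a^(1/2-ε) * y^(1/2+ε)) * (b^(1/2-ε) * x^(1/2+ε)))
        ring

theorem mid_x_g {ε : ℝ} (hε : 0 < ε) (hε4 : ε ≤ 1/4) {N : ℕ} {O O' V W : Finset ℕ} {E : Finset (ℕ × ℕ)}
    {R R' : ℕ → ℝ} (hO : ∀ p ∈ O, p.Prime ∧ N ≤ p) (hO' : ∀ p ∈ O', p.Prime ∧ N ≤ p)
    (hV : ∀ w ∈ V, 0 < w) (hW : ∀ w ∈ W, 0 < w) (hR : ∀ w ∈ V, 0 ≤ R w) (hR' : ∀ w ∈ W, 0 ≤ R' w)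
    (hE : E ⊆ V ×ˢ W) {b₀ : ℕ} (hb₀ : b₀.Prime) (hbV : ∀ w ∈ V, b₀ ∣ uu O' w)
    (hbW : ∀ w ∈ W, ¬ b₀ ∣ uu O w) {S S' : Finset ℕ} (hS : S ⊆ O) (hS' : S' ⊆ O')
    (hES : ∀ e ∈ E, miss O e.2 = S ∧ miss O' e.1 = S')
    {T K : ℝ} (hT : 0 < T) (hK : 0 ≤ K) {F : ℕ × ℕ → ℝ}
    (h1 : ∀ e ∈ E, (cof (uu O' e.1) (uu O e.2) : ℝ) * Rc O R' e.2 ≤ T)
    (h2 : ∀ e ∈ E, (cof (uu O e.2) (uu O' e.1) : ℝ) * Rc O' R e.1 ≤ T)
    (hF : ∀ e ∈ E, F e ≤ K * (mu O' R e.1 * mu O R' e.2)) :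
    ∑ e ∈ E, F e ≤ K * (KH 1 0 ε * T^(1-2*ε) * Bf b₀ ε) *
      ZG (1/2-ε) (1/2+ε) O O' V W S S' (mu O' R) (mu O R') := by
  classical
  have hOp : ∀ p ∈ O, p.Prime := fun p hp => (hO p hp).1
  have hOp' : ∀ p ∈ O', p.Prime := fun p hp => (hO' p hp).1
  have hKH := (KH_pos 1 0 ε).le
  rw [← Eg_of hES]
  unfold ZG
  have ha : 0 < ∏ p ∈ S, (1/(p:ℝ)) := Finset.prod_pos fun p hp => by
    have := (hOp p (hS hp)).pos; positivity
  have hb : 0 < ∏ p ∈ S', (1/(p:ℝ)) := Finset.prod_pos fun p hp => by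
    have := (hOp' p (hS' hp)).pos; positivity
  set a := ∏ p ∈ S, (1/(p:ℝ)) with had
  set b := ∏ p ∈ S', (1/(p:ℝ)) with hbd
  have hs : Sys2 (Vu O' V S') (Vu O W S) (Eu O O' E S S') (ψu O' S' R) (ψu O S R') T T :=
    { hδ₁ := hT
      hδ₂ := hT
      hV := by
        intro v hv
        obtain ⟨w, hw, rfl⟩ := Finset.mem_image.1 hv
        exact uu_pos hOp' (hV w (Finset.mem_filter.1 hw).1)
      hW := by
        intro v hv
        obtain ⟨w, hw, rfl⟩ := Finset.mem_image.1 hv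
        exact uu_pos hOp (hW w (Finset.mem_filter.1 hw).1)
      hψ := by
        intro v hv
        obtain ⟨w, hw, rfl⟩ := Finset.mem_image.1 hv
        rw [ψu_eq hOp' (Finset.mem_filter.1 hw).2]
        exact div_nonneg (hR w (Finset.mem_filter.1 hw).1) (al_nonneg _ _)
      hθ := by
        intro v hv
        obtain ⟨w, hw, rfl⟩ := Finset.mem_image.1 hv
        rw [ψu_eq hOp (Finset.mem_filter.1 hw).2]
        exact div_nonneg (hR' w (Finset.mem_filter.1 hw).1) (al_nonneg _ _)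
      hE := Eu_sub hE S S'
      h1 := by
        intro e he
        obtain ⟨f, hf, rfl⟩ := Finset.mem_image.1 he
        have hf' := Finset.mem_filter.1 hf
        show (cof (uu O' f.1) (uu O f.2) : ℝ) * ψu O S R' (uu O f.2) ≤ T
        rw [ψu_eq hOp hf'.2.1]
        exact h1 f hf'.1
      h2 := by
        intro e he
        obtain ⟨f, hf, rfl⟩ := Finset.mem_image.1 he
        have hf' := Finset.mem_filter.1 hf
        show (cof (uu O f.2) (uu O' f.1) : ℝ) * ψu O' S' R (uu O' f.1) ≤ T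
        rw [ψu_eq hOp' hf'.2.2]
        exact h2 f hf'.1 }
  have key := hvw_cross_plain hε hε4 hs (z₁ := b₀) (z₂ := 1) hb₀.pos one_pos
    (by
      intro v hv
      obtain ⟨w, hw, rfl⟩ := Finset.mem_image.1 hv
      exact ⟨hbV w (Finset.mem_filter.1 hw).1, Nat.coprime_one_left _⟩)
    (by
      intro v hv
      obtain ⟨w, hw, rfl⟩ := Finset.mem_image.1 hv
      exact ⟨one_dvd _, (Nat.Prime.coprime_iff_not_dvd hb₀).2 (hbW w (Finset.mem_filter.1 hw).1)⟩)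
  rw [zf_one, one_mul, Nat.cast_one, mul_one] at key
  have eT : (T * T)^(1/2-ε) = T^(1-2*ε) := by
    rw [Real.mul_rpow hT.le hT.le, ← Real.rpow_add hT]; congr 1; ring
  have hb₀r : (0:ℝ) < b₀ := by exact_mod_cast hb₀.pos
  have eT2 : (T * T / (b₀:ℝ))^(1/2-ε) = T^(1-2*ε) * (1/(b₀:ℝ))^(1/2-ε) := by
    rw [← eT, ← Real.mul_rpow (by positivity) (by positivity), mul_one_div]
  rw [eT2, sum_Eu hOp hOp' hE] at key
  set x := ∑ q ∈ Vg O' V S', mu O' R q with hx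
  set y := ∑ r ∈ Vg O W S, mu O R' r with hy
  have hx0 : 0 ≤ x := Finset.sum_nonneg fun q hq => mu_nonneg (hR q (Finset.mem_filter.1 hq).1)
  have hy0 : 0 ≤ y := Finset.sum_nonneg fun q hq => mu_nonneg (hR' q (Finset.mem_filter.1 hq).1)
  have ex : ∑ v ∈ Vu O' V S', wt (ψu O' S' R) v = x / b := by
    rw [eq_div_iff hb.ne']; exact sum_Vu hOp' R
  have ey : ∑ v ∈ Vu O W S, wt (ψu O S R') v = y / a := by
    rw [eq_div_iff ha.ne']; exact sum_Vu hOp R'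
  rw [ex, ey] at key
  have hzf := (zf_pos hb₀.pos).le
  have ez : (zf b₀ * (x / b) * (y / a))^(1/2+ε) = (zf b₀)^(1/2+ε) * (x/b * (y/a))^(1/2+ε) := by
    rw [mul_assoc, Real.mul_rpow hzf (by positivity)]
  rw [ez] at key
  calc ∑ e ∈ Eg O O' E S S', F e
      ≤ ∑ e ∈ Eg O O' E S S', (K * (a * b)) *
          (wt (ψu O' S' R) (uu O' e.1) * wt (ψu O S R') (uu O e.2)) := by
        apply Finset.sum_le_sum
        intro e he
        have he' := Finset.mem_filter.1 he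
        refine (hF e he'.1).trans (le_of_eq ?_)
        rw [mu_eq hOp', mu_eq hOp, al_eq he'.2.1, al_eq he'.2.2]
        unfold wt
        rw [ψu_eq hOp he'.2.1, ψu_eq hOp' he'.2.2]
        ring
    _ = (K * (a * b)) * ∑ e ∈ Eg O O' E S S',
          (wt (ψu O' S' R) (uu O' e.1) * wt (ψu O S R') (uu O e.2)) := by rw [Finset.mul_sum]
    _ ≤ (K * (a * b)) * (KH 1 0 ε * (T^(1-2*ε) * (1/(b₀:ℝ))^(1/2-ε) *
          ((zf b₀)^(1/2+ε) * (x/b * (y/a))^(1/2+ε)))) :=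
        mul_le_mul_of_nonneg_left key (by positivity)
    _ = (KH 1 0 ε * T^(1-2*ε) * Bf b₀ ε) * ((K * (a * b)) * (x/b * (y/a))^(1/2+ε)) := by
        unfold Bf; ring
    _ = _ := by
        rw [group_alg (α := 1/2-ε) (β := 1/2+ε) ha hb hx0 hy0 (by ring)]
        show _ = K * (KH 1 0 ε * T^(1-2*ε) * Bf b₀ ε) *
          ((a^(1/2-ε) * y^(1/2+ε)) * (b^(1/2-ε) * x^(1/2+ε)))
        ring

theorem mid_dyadic_g {ε : ℝ} (hε : 0 < ε) (hε4 : ε ≤ 1/4) {N : ℕ} {O O' V W : Finset ℕ}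
    {R R' : ℕ → ℝ} (hO : ∀ p ∈ O, p.Prime ∧ N ≤ p) (hO' : ∀ p ∈ O', p.Prime ∧ N ≤ p)
    (hV : ∀ w ∈ V, 0 < w ∧ 0 < R w) (hW : ∀ w ∈ W, 0 < w ∧ 0 < R' w)
    {S S' : Finset ℕ} (hS : S ⊆ O) (hS' : S' ⊆ O')
    {K : ℝ} (hK : 0 ≤ K) {F : ℕ × ℕ → ℝ} (n : ℕ) : ∀ E : Finset (ℕ × ℕ), E ⊆ V ×ˢ W →
    (∀ e ∈ E, miss O e.2 = S ∧ miss O' e.1 = S') →
    (∀ e ∈ E, Dc O O' R R' e ≤ 1) → (∀ e ∈ E, (1/2:ℝ)^n < Dc O O' R R' e) →
    (∀ e ∈ E, F e ≤ K * ((mu O' R e.1 * mu O R' e.2) / Dc O O' R R' e)) →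
    ∑ e ∈ E, F e ≤ n * (2 * K * KH 1 0 ε * (2:ℝ)^(2*ε*n)) *
      ZG (1/2-ε) (1/2+ε) O O' V W S S' (mu O' R) (mu O R') := by
  classical
  set Z := ZG (1/2-ε) (1/2+ε) O O' V W S S' (mu O' R) (mu O R') with hZ
  have hKH := (KH_pos 1 0 ε).le
  have hmu : ∀ q ∈ V, 0 ≤ mu O' R q := fun q hq => mu_nonneg (hV q hq).2.le
  have hmu' : ∀ q ∈ W, 0 ≤ mu O R' q := fun q hq => mu_nonneg (hW q hq).2.le
  have hZ0 : 0 ≤ Z := ZG_nonneg hmu hmu'
  induction n with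
  | zero =>
    intro E hE _ h1 h2 _
    have : E = ∅ := by
      rw [Finset.eq_empty_iff_forall_notMem]
      intro e he
      have a := h1 e he
      have b := h2 e he
      simp at b
      linarith
    rw [this]; simp
  | succ n ih =>
    intro E hE hES h1 h2 hF
    set E1 := E.filter (fun e => (1/2:ℝ)^n < Dc O O' R R' e) with hE1
    set E2 := E.filter (fun e => ¬ (1/2:ℝ)^n < Dc O O' R R' e) with hE2
    have hsplit : ∑ e ∈ E, F e = ∑ e ∈ E1, F e + ∑ e ∈ E2, F e := by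
      rw [hE1, hE2, Finset.sum_filter_add_sum_filter_not]
    have s1 : ∀ e ∈ E1, e ∈ E := fun e he => (Finset.mem_filter.1 he).1
    have s2 : ∀ e ∈ E2, e ∈ E := fun e he => (Finset.mem_filter.1 he).1
    have b1 := ih E1 (fun e he => hE (s1 e he)) (fun e he => hES e (s1 e he)) (fun e he => h1 e (s1 e he))
      (fun e he => (Finset.mem_filter.1 he).2) (fun e he => hF e (s1 e he))
    have h2n : (0:ℝ) < (1/2:ℝ)^n := by positivity
    have b2 := mid_g hε hε4 (N := N) (O := O) (O' := O') (V := V) (W := W) (E := E2) (R := R) (R' := R')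
      (T := (1/2:ℝ)^n) (K := K * 2^(n+1)) (F := F) hO hO' (fun w hw => (hV w hw).1)
      (fun w hw => (hW w hw).1) (fun w hw => (hV w hw).2.le) (fun w hw => (hW w hw).2.le)
      (fun e he => hE (s2 e he)) hS hS' (fun e he => hES e (s2 e he)) h2n (by positivity)
      (fun e he => (le_max_right _ _).trans (not_lt.1 (Finset.mem_filter.1 he).2))
      (fun e he => (le_max_left _ _).trans (not_lt.1 (Finset.mem_filter.1 he).2))
      (by
        intro e he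
        have h3 := h2 e (s2 e he)
        have h4 : (0:ℝ) < (1/2:ℝ)^(n+1) := by positivity
        have h5 : 0 < Dc O O' R R' e := h4.trans h3
        have h := Finset.mem_product.1 (hE (s2 e he))
        have h6 : 0 ≤ mu O' R e.1 * mu O R' e.2 := mul_nonneg (hmu _ h.1) (hmu' _ h.2)
        refine (hF e (s2 e he)).trans ?_
        rw [mul_assoc]
        apply mul_le_mul_of_nonneg_left _ hK
        rw [div_le_iff₀ h5]
        have h7 : 1 ≤ 2^(n+1) * Dc O O' R R' e := by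
          have h8 : (2:ℝ)^(n+1) * (1/2:ℝ)^(n+1) = 1 := by rw [← mul_pow]; norm_num
          have h9 : (0:ℝ) < 2^(n+1) := by positivity
          nlinarith [mul_lt_mul_of_pos_left h3 h9]
        calc mu O' R e.1 * mu O R' e.2 = (mu O' R e.1 * mu O R' e.2) * 1 := (mul_one _).symm
          _ ≤ (mu O' R e.1 * mu O R' e.2) * (2^(n+1) * Dc O O' R R' e) :=
              mul_le_mul_of_nonneg_left h7 h6
          _ = _ := by ring)
    have e1 : (2:ℝ)^(n+1) * ((1/2:ℝ)^n)^(1-2*ε) = 2 * (2:ℝ)^(2*ε*n) := by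
      have h2 : (0:ℝ) < 2 := by norm_num
      have a1 : ((1/2:ℝ)^n) = (2:ℝ)^(-(n:ℝ)) := by
        rw [Real.rpow_neg h2.le, Real.rpow_natCast, one_div, inv_pow]
      rw [a1, ← Real.rpow_mul h2.le]
      have a2 : (2:ℝ)^(n+1) = 2 * (2:ℝ)^((n:ℝ)) := by rw [Real.rpow_natCast, pow_succ]; ring
      rw [a2, mul_assoc, ← Real.rpow_add h2]
      congr 2
      ring
    have hb2 : ∑ e ∈ E2, F e ≤ (2 * K * KH 1 0 ε * (2:ℝ)^(2*ε*n)) * Z := by
      refine b2.trans (le_of_eq ?_)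
      have e2 : K * 2^(n+1) * (KH 1 0 ε * ((1/2:ℝ)^n)^(1-2*ε)) = 2 * K * KH 1 0 ε * (2:ℝ)^(2*ε*n) := by
        calc K * 2^(n+1) * (KH 1 0 ε * ((1/2:ℝ)^n)^(1-2*ε))
            = K * KH 1 0 ε * (2^(n+1) * ((1/2:ℝ)^n)^(1-2*ε)) := by ring
          _ = _ := by rw [e1]; ring
      rw [e2, mul_assoc]
    have hmono : (2:ℝ)^(2*ε*n) ≤ (2:ℝ)^(2*ε*((n+1 : ℕ):ℝ)) := by
      apply Real.rpow_le_rpow_of_exponent_le (by norm_num)
      push_cast
      nlinarith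
    have hq : (2 * K * KH 1 0 ε * (2:ℝ)^(2*ε*n)) ≤ (2 * K * KH 1 0 ε * (2:ℝ)^(2*ε*((n+1 : ℕ):ℝ))) :=
      mul_le_mul_of_nonneg_left hmono (by positivity)
    rw [hsplit]
    calc ∑ e ∈ E1, F e + ∑ e ∈ E2, F e
        ≤ n * (2 * K * KH 1 0 ε * (2:ℝ)^(2*ε*n)) * Z + (2 * K * KH 1 0 ε * (2:ℝ)^(2*ε*n)) * Z :=
          add_le_add b1 hb2
      _ = ((n:ℝ) + 1) * ((2 * K * KH 1 0 ε * (2:ℝ)^(2*ε*n)) * Z) := by ring
      _ ≤ ((n:ℝ) + 1) * ((2 * K * KH 1 0 ε * (2:ℝ)^(2*ε*((n+1 : ℕ):ℝ))) * Z) := by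
          apply mul_le_mul_of_nonneg_left _ (by positivity)
          exact mul_le_mul_of_nonneg_right hq hZ0
      _ = _ := by push_cast; ring

theorem mid_dyadic_x_g {ε : ℝ} (hε : 0 < ε) (hε4 : ε ≤ 1/4) {N : ℕ} {O O' V W : Finset ℕ}
    {R R' : ℕ → ℝ} (hO : ∀ p ∈ O, p.Prime ∧ N ≤ p) (hO' : ∀ p ∈ O', p.Prime ∧ N ≤ p)
    (hV : ∀ w ∈ V, 0 < w ∧ 0 < R w) (hW : ∀ w ∈ W, 0 < w ∧ 0 < R' w)
    {b₀ : ℕ} (hb₀ : b₀.Prime) (hbV : ∀ w ∈ V, b₀ ∣ uu O' w)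
    (hbW : ∀ w ∈ W, ¬ b₀ ∣ uu O w)
    {S S' : Finset ℕ} (hS : S ⊆ O) (hS' : S' ⊆ O')
    {K : ℝ} (hK : 0 ≤ K) {F : ℕ × ℕ → ℝ} (n : ℕ) : ∀ E : Finset (ℕ × ℕ), E ⊆ V ×ˢ W →
    (∀ e ∈ E, miss O e.2 = S ∧ miss O' e.1 = S') →
    (∀ e ∈ E, Dc O O' R R' e ≤ 1) → (∀ e ∈ E, (1/2:ℝ)^n < Dc O O' R R' e) →
    (∀ e ∈ E, F e ≤ K * ((mu O' R e.1 * mu O R' e.2) / Dc O O' R R' e)) →
    ∑ e ∈ E, F e ≤ n * (2 * K * KH 1 0 ε * Bf b₀ ε * (2:ℝ)^(2*ε*n)) *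
      ZG (1/2-ε) (1/2+ε) O O' V W S S' (mu O' R) (mu O R') := by
  classical
  set Z := ZG (1/2-ε) (1/2+ε) O O' V W S S' (mu O' R) (mu O R') with hZ
  have hKH := (KH_pos 1 0 ε).le
  have hBf := Bf_nonneg b₀ ε
  have hmu : ∀ q ∈ V, 0 ≤ mu O' R q := fun q hq => mu_nonneg (hV q hq).2.le
  have hmu' : ∀ q ∈ W, 0 ≤ mu O R' q := fun q hq => mu_nonneg (hW q hq).2.le
  have hZ0 : 0 ≤ Z := ZG_nonneg hmu hmu'
  induction n with
  | zero =>
    intro E hE _ h1 h2 _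
    have : E = ∅ := by
      rw [Finset.eq_empty_iff_forall_notMem]
      intro e he
      have a := h1 e he
      have b := h2 e he
      simp at b
      linarith
    rw [this]; simp
  | succ n ih =>
    intro E hE hES h1 h2 hF
    set E1 := E.filter (fun e => (1/2:ℝ)^n < Dc O O' R R' e) with hE1
    set E2 := E.filter (fun e => ¬ (1/2:ℝ)^n < Dc O O' R R' e) with hE2
    have hsplit : ∑ e ∈ E, F e = ∑ e ∈ E1, F e + ∑ e ∈ E2, F e := by
      rw [hE1, hE2, Finset.sum_filter_add_sum_filter_not]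
    have s1 : ∀ e ∈ E1, e ∈ E := fun e he => (Finset.mem_filter.1 he).1
    have s2 : ∀ e ∈ E2, e ∈ E := fun e he => (Finset.mem_filter.1 he).1
    have b1 := ih E1 (fun e he => hE (s1 e he)) (fun e he => hES e (s1 e he)) (fun e he => h1 e (s1 e he))
      (fun e he => (Finset.mem_filter.1 he).2) (fun e he => hF e (s1 e he))
    have h2n : (0:ℝ) < (1/2:ℝ)^n := by positivity
    have b2 := mid_x_g hε hε4 (N := N) (O := O) (O' := O') (V := V) (W := W) (E := E2) (R := R) (R' := R')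
      (T := (1/2:ℝ)^n) (K := K * 2^(n+1)) (F := F) hO hO' (fun w hw => (hV w hw).1)
      (fun w hw => (hW w hw).1) (fun w hw => (hV w hw).2.le) (fun w hw => (hW w hw).2.le)
      (fun e he => hE (s2 e he)) hb₀ hbV hbW hS hS' (fun e he => hES e (s2 e he)) h2n (by positivity)
      (fun e he => (le_max_right _ _).trans (not_lt.1 (Finset.mem_filter.1 he).2))
      (fun e he => (le_max_left _ _).trans (not_lt.1 (Finset.mem_filter.1 he).2))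
      (by
        intro e he
        have h3 := h2 e (s2 e he)
        have h4 : (0:ℝ) < (1/2:ℝ)^(n+1) := by positivity
        have h5 : 0 < Dc O O' R R' e := h4.trans h3
        have h := Finset.mem_product.1 (hE (s2 e he))
        have h6 : 0 ≤ mu O' R e.1 * mu O R' e.2 := mul_nonneg (hmu _ h.1) (hmu' _ h.2)
        refine (hF e (s2 e he)).trans ?_
        rw [mul_assoc]
        apply mul_le_mul_of_nonneg_left _ hK
        rw [div_le_iff₀ h5]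
        have h7 : 1 ≤ 2^(n+1) * Dc O O' R R' e := by
          have h8 : (2:ℝ)^(n+1) * (1/2:ℝ)^(n+1) = 1 := by rw [← mul_pow]; norm_num
          have h9 : (0:ℝ) < 2^(n+1) := by positivity
          nlinarith [mul_lt_mul_of_pos_left h3 h9]
        calc mu O' R e.1 * mu O R' e.2 = (mu O' R e.1 * mu O R' e.2) * 1 := (mul_one _).symm
          _ ≤ (mu O' R e.1 * mu O R' e.2) * (2^(n+1) * Dc O O' R R' e) :=
              mul_le_mul_of_nonneg_left h7 h6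
          _ = _ := by ring)
    have e1 : (2:ℝ)^(n+1) * ((1/2:ℝ)^n)^(1-2*ε) = 2 * (2:ℝ)^(2*ε*n) := by
      have h2 : (0:ℝ) < 2 := by norm_num
      have a1 : ((1/2:ℝ)^n) = (2:ℝ)^(-(n:ℝ)) := by
        rw [Real.rpow_neg h2.le, Real.rpow_natCast, one_div, inv_pow]
      rw [a1, ← Real.rpow_mul h2.le]
      have a2 : (2:ℝ)^(n+1) = 2 * (2:ℝ)^((n:ℝ)) := by rw [Real.rpow_natCast, pow_succ]; ring
      rw [a2, mul_assoc, ← Real.rpow_add h2]
      congr 2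
      ring
    have hb2 : ∑ e ∈ E2, F e ≤ (2 * K * KH 1 0 ε * Bf b₀ ε * (2:ℝ)^(2*ε*n)) * Z := by
      refine b2.trans (le_of_eq ?_)
      have e2 : K * 2^(n+1) * (KH 1 0 ε * ((1/2:ℝ)^n)^(1-2*ε) * Bf b₀ ε)
          = 2 * K * KH 1 0 ε * Bf b₀ ε * (2:ℝ)^(2*ε*n) := by
        calc K * 2^(n+1) * (KH 1 0 ε * ((1/2:ℝ)^n)^(1-2*ε) * Bf b₀ ε)
            = K * KH 1 0 ε * Bf b₀ ε * (2^(n+1) * ((1/2:ℝ)^n)^(1-2*ε)) := by ring
          _ = _ := by rw [e1]; ring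
      rw [e2, mul_assoc]
    have hmono : (2:ℝ)^(2*ε*n) ≤ (2:ℝ)^(2*ε*((n+1 : ℕ):ℝ)) := by
      apply Real.rpow_le_rpow_of_exponent_le (by norm_num)
      push_cast
      nlinarith
    have hq : (2 * K * KH 1 0 ε * Bf b₀ ε * (2:ℝ)^(2*ε*n)) ≤ (2 * K * KH 1 0 ε * Bf b₀ ε * (2:ℝ)^(2*ε*((n+1 : ℕ):ℝ))) :=
      mul_le_mul_of_nonneg_left hmono (by positivity)
    rw [hsplit]
    calc ∑ e ∈ E1, F e + ∑ e ∈ E2, F e
        ≤ n * (2 * K * KH 1 0 ε * Bf b₀ ε * (2:ℝ)^(2*ε*n)) * Z + (2 * K * KH 1 0 ε * Bf b₀ ε * (2:ℝ)^(2*ε*n)) * Z :=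
          add_le_add b1 hb2
      _ = ((n:ℝ) + 1) * ((2 * K * KH 1 0 ε * Bf b₀ ε * (2:ℝ)^(2*ε*n)) * Z) := by ring
      _ ≤ ((n:ℝ) + 1) * ((2 * K * KH 1 0 ε * Bf b₀ ε * (2:ℝ)^(2*ε*((n+1 : ℕ):ℝ))) * Z) := by
          apply mul_le_mul_of_nonneg_left _ (by positivity)
          exact mul_le_mul_of_nonneg_right hq hZ0
      _ = _ := by push_cast; ring

open Crest.Agent.R4.ClsT223 Crest.Agent.R4.ClsS Crest.Agent.R4.ClsB in
theorem deepB_g {Gen : ℝ → ℝ → ℝ → ℕ → ℕ → ℝ → ℝ → Prop} {κ : ℝ} (hGen : DeepHyp Gen κ) : ∃ C c0 : ℝ, 1 ≤ C ∧ 0 < c0 ∧ ∀ c1 : ℝ, 0 < c1 → c1 ≤ c0 → ∃ T0 : ℝ, 1 ≤ T0 ∧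
    ∀ (T X K : ℝ) (N G : ℕ) (O O' V W : Finset ℕ) (E : Finset (ℕ × ℕ)) (R R' : ℕ → ℝ)
    (γ γ' : Finset ℕ → ℝ) (F : ℕ × ℕ → ℝ) (S S' : Finset ℕ),
    T0 ≤ T → X ≤ Real.exp (T^c1) → 0 ≤ K → 0 < G →
    (∀ p ∈ O, p.Prime ∧ N ≤ p) → (∀ p ∈ O', p.Prime ∧ N ≤ p) →
    (∀ w ∈ V, 0 < w ∧ 0 < R w) → (∀ w ∈ W, 0 < w ∧ 0 < R' w) →
    (∀ z : ℝ, X ≤ z → ∀ w ∈ V, Tame z G (uu O' w)) → (∀ z : ℝ, X ≤ z → ∀ w ∈ W, Tame z G (uu O w)) →
    E ⊆ V ×ˢ W →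
    S ⊆ O → S' ⊆ O' → (∀ e ∈ E, miss O e.2 = S ∧ miss O' e.1 = S') →
    (∀ e ∈ E, Dc O O' R R' e ≤ 1/T) →
    (∀ e ∈ E, F e ≤ K * ((mu O' R e.1 * mu O R' e.2) / Dc O O' R R' e)) →
    (∀ e ∈ E, ∀ t : ℝ, T ≤ t → 1/(2*t) < Dc O O' R R' e → Dc O O' R R' e ≤ 1/t → 0 < F e →
      Gen (γ (miss O' e.1)) (γ' (miss O e.2)) t (cof (uu O' e.1) (uu O e.2))
        (cof (uu O e.2) (uu O' e.1)) (Rc O' R e.1) (Rc O R' e.2)) →
    ∑ e ∈ E, F e ≤ C * K * T^(-κ) *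
      ZG (1/2-eps1) (1/2+eps1) O O' V W S S' (mu O' R) (mu O R') := by
  classical
  obtain ⟨C, c0, hC1, hc0, hC⟩ := hGen
  refine ⟨C, c0, hC1, hc0, ?_⟩
  intro c1 hc1 hc10
  obtain ⟨T0, hT01, hT0⟩ := hC c1 hc1 hc10
  refine ⟨T0, hT01, ?_⟩
  intro T X K N G O O' V W E R R' γ γ' F S S' hT hX hK hG hO hO' hV hW hVt hWt hE hS hS' hES hD hF hgen
  have hOp : ∀ p ∈ O, p.Prime := fun p hp => (hO p hp).1
  have hOp' : ∀ p ∈ O', p.Prime := fun p hp => (hO' p hp).1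
  have hTp : 0 < T := by linarith
  have he1 : eps1 = 1/1000 := rfl
  rw [← Eg_of hES]
  unfold ZG
  have ha : 0 < ∏ p ∈ S, (1/(p:ℝ)) := Finset.prod_pos fun p hp => by
    have := (hOp p (hS hp)).pos; positivity
  have hb : 0 < ∏ p ∈ S', (1/(p:ℝ)) := Finset.prod_pos fun p hp => by
    have := (hOp' p (hS' hp)).pos; positivity
  set a := ∏ p ∈ S, (1/(p:ℝ)) with had
  set b := ∏ p ∈ S', (1/(p:ℝ)) with hbd
  have hinv : ∀ e ∈ Eg O O' E S S', ((∏ p ∈ O' \ S', p) * uu O' e.1, (∏ p ∈ O \ S, p) * uu O e.2) = e := by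
    intro e he
    have he' := Finset.mem_filter.1 he
    rw [← zO_eq he'.2.2, ← zO_eq he'.2.1, uu_mul hOp', uu_mul hOp]
  have hDD : ∀ e ∈ Eg O O' E S S', Crest.Agent.R4.LF11.DD (ψu O' S' R) (ψu O S R') (uu O' e.1, uu O e.2)
      = Dc O O' R R' e := by
    intro e he
    have he' := Finset.mem_filter.1 he
    unfold Crest.Agent.R4.LF11.DD Dc
    show max _ _ = max _ _
    rw [ψu_eq hOp he'.2.1, ψu_eq hOp' he'.2.2]
  have hDpos : ∀ e ∈ Eg O O' E S S', 0 < Dc O O' R R' e := by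
    intro e he
    have he' := Finset.mem_filter.1 he
    have h := Finset.mem_product.1 (hE he'.1)
    unfold Dc
    apply lt_max_of_lt_left
    apply mul_pos
    · have := uu_pos hOp (hW _ h.2).1
      exact_mod_cast Deg709.cof_pos this _
    · exact div_pos (hV _ h.1).2 (al_pos hOp' _)
  have key := hT0 (γ S') (γ' S) T X (K * (a * b)) (Vu O' V S') (Vu O W S) (Eu O O' E S S')
    (ψu O' S' R) (ψu O S R')
    (fun f => F ((∏ p ∈ O' \ S', p) * f.1, (∏ p ∈ O \ S, p) * f.2)) G hT hX (by positivity) hG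
    (by
      intro v hv
      obtain ⟨w, hw, rfl⟩ := Finset.mem_image.1 hv
      have hw' := Finset.mem_filter.1 hw
      refine ⟨uu_pos hOp' (hV w hw'.1).1, ?_⟩
      rw [ψu_eq hOp' hw'.2]
      exact div_pos (hV w hw'.1).2 (al_pos hOp' _))
    (by
      intro v hv
      obtain ⟨w, hw, rfl⟩ := Finset.mem_image.1 hv
      have hw' := Finset.mem_filter.1 hw
      refine ⟨uu_pos hOp (hW w hw'.1).1, ?_⟩
      rw [ψu_eq hOp hw'.2]
      exact div_pos (hW w hw'.1).2 (al_pos hOp _))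
    (by
      intro z hz v hv
      obtain ⟨w, hw, rfl⟩ := Finset.mem_image.1 hv
      exact hVt z hz w (Finset.mem_filter.1 hw).1)
    (by
      intro z hz v hv
      obtain ⟨w, hw, rfl⟩ := Finset.mem_image.1 hv
      exact hWt z hz w (Finset.mem_filter.1 hw).1)
    (Eu_sub hE S S')
    (by
      intro f hf
      obtain ⟨e, he, rfl⟩ := Finset.mem_image.1 hf
      rw [hDD e he]
      exact hD e (Finset.mem_filter.1 he).1)
    (by
      intro f hf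
      obtain ⟨e, he, rfl⟩ := Finset.mem_image.1 hf
      have he' := Finset.mem_filter.1 he
      show F ((∏ p ∈ O' \ S', p) * uu O' e.1, (∏ p ∈ O \ S, p) * uu O e.2) ≤ _
      rw [hDD e he, hinv e he]
      refine (hF e he'.1).trans ?_
      rw [mul_assoc K]
      apply mul_le_mul_of_nonneg_left _ hK
      rw [← mul_div_assoc]
      apply div_le_div_of_nonneg_right _ (hDpos e he).le
      have h := Finset.mem_product.1 (hE he'.1)
      unfold Crest.Agent.R4.LF11.ew wt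
      show _ ≤ (a * b) * ((ψu O' S' R (uu O' e.1) * _) * (ψu O S R' (uu O e.2) * _) * _)
      rw [ψu_eq hOp he'.2.1, ψu_eq hOp' he'.2.2, mu_eq hOp', mu_eq hOp, al_eq he'.2.1, al_eq he'.2.2]
      have f1 := one_le_Af (cof (uu O' e.1) (uu O e.2))
      have f2 := one_le_Af (cof (uu O e.2) (uu O' e.1))
      have f3 : 1 ≤ Af (cof (uu O' e.1) (uu O e.2)) * Af (cof (uu O e.2) (uu O' e.1)) := by nlinarith
      have g1 : 0 ≤ Rc O' R e.1 := div_nonneg (hV _ h.1).2.le (al_nonneg _ _)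
      have g2 : 0 ≤ Rc O R' e.2 := div_nonneg (hW _ h.2).2.le (al_nonneg _ _)
      have g3 : 0 ≤ (a * b) * ((Rc O' R e.1 * ((Nat.totient (uu O' e.1) : ℝ)/(uu O' e.1 : ℕ))) *
          (Rc O R' e.2 * ((Nat.totient (uu O e.2) : ℝ)/(uu O e.2 : ℕ)))) := by positivity
      calc b * (Rc O' R e.1 * ((Nat.totient (uu O' e.1) : ℝ)/(uu O' e.1 : ℕ))) *
            (a * (Rc O R' e.2 * ((Nat.totient (uu O e.2) : ℝ)/(uu O e.2 : ℕ))))
          = ((a * b) * ((Rc O' R e.1 * ((Nat.totient (uu O' e.1) : ℝ)/(uu O' e.1 : ℕ))) *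
          (Rc O R' e.2 * ((Nat.totient (uu O e.2) : ℝ)/(uu O e.2 : ℕ))))) * 1 := by ring
        _ ≤ ((a * b) * ((Rc O' R e.1 * ((Nat.totient (uu O' e.1) : ℝ)/(uu O' e.1 : ℕ))) *
          (Rc O R' e.2 * ((Nat.totient (uu O e.2) : ℝ)/(uu O e.2 : ℕ))))) *
            (Af (cof (uu O' e.1) (uu O e.2)) * Af (cof (uu O e.2) (uu O' e.1))) :=
            mul_le_mul_of_nonneg_left f3 g3
        _ = _ := by ring)
    (by
      intro f hf t ht h1 h2 h3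
      obtain ⟨e, he, rfl⟩ := Finset.mem_image.1 hf
      have he' := Finset.mem_filter.1 he
      rw [hDD e he] at h1 h2
      have h3' : 0 < F e := by rw [← hinv e he]; exact h3
      have h4 := hgen e he'.1 t ht h1 h2 h3'
      show Gen (γ S') (γ' S) t (cof (uu O' e.1) (uu O e.2)) (cof (uu O e.2) (uu O' e.1))
        (ψu O' S' R (uu O' e.1)) (ψu O S R' (uu O e.2))
      rw [ψu_eq hOp he'.2.1, ψu_eq hOp' he'.2.2]
      rw [he'.2.1, he'.2.2] at h4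
      exact h4)
  rw [sum_Eu hOp hOp' hE] at key
  have eF : ∑ e ∈ Eg O O' E S S', F ((∏ p ∈ O' \ S', p) * uu O' e.1, (∏ p ∈ O \ S, p) * uu O e.2)
      = ∑ e ∈ Eg O O' E S S', F e :=
    Finset.sum_congr rfl fun e he => by rw [hinv e he]
  have key2 : ∑ e ∈ Eg O O' E S S', F e ≤ C * (K * (a * b)) * T^(-κ) *
      ((∑ v ∈ Vu O' V S', wt (ψu O' S' R) v) * (∑ w ∈ Vu O W S, wt (ψu O S R') w))^(1/2+eps1) := by
    rw [← eF]; exact key
  set x := ∑ q ∈ Vg O' V S', mu O' R q with hx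
  set y := ∑ r ∈ Vg O W S, mu O R' r with hy
  have hx0 : 0 ≤ x := Finset.sum_nonneg fun q hq => mu_nonneg (hV q (Finset.mem_filter.1 hq).1).2.le
  have hy0 : 0 ≤ y := Finset.sum_nonneg fun q hq => mu_nonneg (hW q (Finset.mem_filter.1 hq).1).2.le
  have ex : ∑ v ∈ Vu O' V S', wt (ψu O' S' R) v = x / b := by
    rw [eq_div_iff hb.ne']; exact sum_Vu hOp' R
  have ey : ∑ v ∈ Vu O W S, wt (ψu O S R') v = y / a := by
    rw [eq_div_iff ha.ne']; exact sum_Vu hOp R'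
  rw [ex, ey] at key2
  refine key2.trans (le_of_eq ?_)
  have h5 := group_alg (α := 1/2-eps1) (β := 1/2+eps1) (K := K) ha hb hx0 hy0 (by ring)
  calc C * (K * (a * b)) * T^(-κ) * (x/b * (y/a))^(1/2+eps1)
      = (C * T^(-κ)) * ((K * (a * b)) * (x/b * (y/a))^(1/2+eps1)) := by ring
    _ = _ := by
        rw [h5]
        show _ = C * K * T^(-κ) * ((a^(1/2-eps1) * y^(1/2+eps1)) * (b^(1/2-eps1) * x^(1/2+eps1)))
        ring

open Crest.Agent.R4.ClsT223 Crest.Agent.R4.ClsS Crest.Agent.R4.ClsB in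
theorem crossB_g {Gen : ℝ → ℝ → ℝ → ℕ → ℕ → ℝ → ℝ → Prop} {κ : ℝ} (hGen : CrossHyp Gen κ) : ∃ C c0 : ℝ, 1 ≤ C ∧ 0 < c0 ∧ ∀ c1 : ℝ, 0 < c1 → c1 ≤ c0 → ∃ T0 : ℝ, 1 ≤ T0 ∧
    ∀ (T X K : ℝ) (N G b₀ : ℕ) (O O' V W : Finset ℕ) (E : Finset (ℕ × ℕ)) (R R' : ℕ → ℝ)
    (γ γ' : Finset ℕ → ℝ) (F : ℕ × ℕ → ℝ) (S S' : Finset ℕ),
    b₀.Prime → T0 ≤ T → X ≤ Real.exp (T^c1) → 0 ≤ K → 0 < G →
    (∀ p ∈ O, p.Prime ∧ N ≤ p) → (∀ p ∈ O', p.Prime ∧ N ≤ p) →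
    (∀ w ∈ V, 0 < w ∧ 0 < R w) → (∀ w ∈ W, 0 < w ∧ 0 < R' w) →
    (∀ w ∈ V, b₀ ∣ uu O' w) → (∀ w ∈ W, ¬ b₀ ∣ uu O w) →
    (∀ z : ℝ, X ≤ z → ∀ w ∈ V, Tame z (G * b₀) (uu O' w)) → (∀ z : ℝ, X ≤ z → ∀ w ∈ W, Tame z G (uu O w)) →
    E ⊆ V ×ˢ W →
    S ⊆ O → S' ⊆ O' → (∀ e ∈ E, miss O e.2 = S ∧ miss O' e.1 = S') →
    (∀ e ∈ E, Dc O O' R R' e ≤ 1/T) →
    (∀ e ∈ E, F e ≤ K * ((mu O' R e.1 * mu O R' e.2) / Dc O O' R R' e)) →
    (∀ e ∈ E, ∀ t : ℝ, T ≤ t → 1/(2*t) < Dc O O' R R' e → Dc O O' R R' e ≤ 1/t → 0 < F e →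
      Gen (γ (miss O' e.1)) (b₀ * γ' (miss O e.2)) t (cof (uu O' e.1) (b₀ * uu O e.2))
        (cof (b₀ * uu O e.2) (uu O' e.1)) (Rc O' R e.1) (b₀ * Rc O R' e.2)) →
    ∑ e ∈ E, F e ≤ C * K * T^(-κ) * ((b₀:ℝ) - 1)^(-(1/2-eps1)) *
      ZG (1/2-eps1) (1/2+eps1) O O' V W S S' (mu O' R) (mu O R') := by
  classical
  obtain ⟨C, c0, hC1, hc0, hC⟩ := hGen
  refine ⟨C, c0, hC1, hc0, ?_⟩
  intro c1 hc1 hc10
  obtain ⟨T0, hT01, hT0⟩ := hC c1 hc1 hc10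
  refine ⟨T0, hT01, ?_⟩
  intro T X K N G b₀ O O' V W E R R' γ γ' F S S' hb₀ hT hX hK hG hO hO' hV hW hbV hbW hVt hWt hE hS hS' hES hD hF hgen
  have hbm : (0:ℝ) < (b₀:ℝ) - 1 := by
    have : (2:ℝ) ≤ b₀ := by exact_mod_cast hb₀.two_le
    linarith
  have hOp : ∀ p ∈ O, p.Prime := fun p hp => (hO p hp).1
  have hOp' : ∀ p ∈ O', p.Prime := fun p hp => (hO' p hp).1
  have hTp : 0 < T := by linarith
  have he1 : eps1 = 1/1000 := rfl
  rw [← Eg_of hES]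
  unfold ZG
  have ha : 0 < ∏ p ∈ S, (1/(p:ℝ)) := Finset.prod_pos fun p hp => by
    have := (hOp p (hS hp)).pos; positivity
  have hb : 0 < ∏ p ∈ S', (1/(p:ℝ)) := Finset.prod_pos fun p hp => by
    have := (hOp' p (hS' hp)).pos; positivity
  set a := ∏ p ∈ S, (1/(p:ℝ)) with had
  set b := ∏ p ∈ S', (1/(p:ℝ)) with hbd
  have hinv : ∀ e ∈ Eg O O' E S S', ((∏ p ∈ O' \ S', p) * uu O' e.1, (∏ p ∈ O \ S, p) * uu O e.2) = e := by
    intro e he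
    have he' := Finset.mem_filter.1 he
    rw [← zO_eq he'.2.2, ← zO_eq he'.2.1, uu_mul hOp', uu_mul hOp]
  have hDD : ∀ e ∈ Eg O O' E S S', Crest.Agent.R4.LF11.DD (ψu O' S' R) (ψu O S R') (uu O' e.1, uu O e.2)
      = Dc O O' R R' e := by
    intro e he
    have he' := Finset.mem_filter.1 he
    unfold Crest.Agent.R4.LF11.DD Dc
    show max _ _ = max _ _
    rw [ψu_eq hOp he'.2.1, ψu_eq hOp' he'.2.2]
  have hDpos : ∀ e ∈ Eg O O' E S S', 0 < Dc O O' R R' e := by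
    intro e he
    have he' := Finset.mem_filter.1 he
    have h := Finset.mem_product.1 (hE he'.1)
    unfold Dc
    apply lt_max_of_lt_left
    apply mul_pos
    · have := uu_pos hOp (hW _ h.2).1
      exact_mod_cast Deg709.cof_pos this _
    · exact div_pos (hV _ h.1).2 (al_pos hOp' _)
  have key := hT0 (γ S') (γ' S) T X (K * (a * b)) (Vu O' V S') (Vu O W S) (Eu O O' E S S')
    (ψu O' S' R) (ψu O S R')
    (fun f => F ((∏ p ∈ O' \ S', p) * f.1, (∏ p ∈ O \ S, p) * f.2)) G b₀ hb₀ hT hX (by positivity) hG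
    (by
      intro v hv
      obtain ⟨w, hw, rfl⟩ := Finset.mem_image.1 hv
      have hw' := Finset.mem_filter.1 hw
      refine ⟨uu_pos hOp' (hV w hw'.1).1, ?_, hbV w hw'.1⟩
      rw [ψu_eq hOp' hw'.2]
      exact div_pos (hV w hw'.1).2 (al_pos hOp' _))
    (by
      intro v hv
      obtain ⟨w, hw, rfl⟩ := Finset.mem_image.1 hv
      have hw' := Finset.mem_filter.1 hw
      refine ⟨uu_pos hOp (hW w hw'.1).1, ?_, hbW w hw'.1⟩
      rw [ψu_eq hOp hw'.2]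
      exact div_pos (hW w hw'.1).2 (al_pos hOp _))
    (by
      intro z hz v hv
      obtain ⟨w, hw, rfl⟩ := Finset.mem_image.1 hv
      exact hVt z hz w (Finset.mem_filter.1 hw).1)
    (by
      intro z hz v hv
      obtain ⟨w, hw, rfl⟩ := Finset.mem_image.1 hv
      exact hWt z hz w (Finset.mem_filter.1 hw).1)
    (Eu_sub hE S S')
    (by
      intro f hf
      obtain ⟨e, he, rfl⟩ := Finset.mem_image.1 hf
      rw [hDD e he]
      exact hD e (Finset.mem_filter.1 he).1)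
    (by
      intro f hf
      obtain ⟨e, he, rfl⟩ := Finset.mem_image.1 hf
      have he' := Finset.mem_filter.1 he
      show F ((∏ p ∈ O' \ S', p) * uu O' e.1, (∏ p ∈ O \ S, p) * uu O e.2) ≤ _
      rw [hDD e he, hinv e he]
      refine (hF e he'.1).trans ?_
      rw [mul_assoc K]
      apply mul_le_mul_of_nonneg_left _ hK
      rw [← mul_div_assoc]
      apply div_le_div_of_nonneg_right _ (hDpos e he).le
      have h := Finset.mem_product.1 (hE he'.1)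
      unfold wt
      show _ ≤ (a * b) * ((ψu O' S' R (uu O' e.1) * _) * (ψu O S R' (uu O e.2) * _))
      rw [ψu_eq hOp he'.2.1, ψu_eq hOp' he'.2.2, mu_eq hOp', mu_eq hOp, al_eq he'.2.1, al_eq he'.2.2]
      apply le_of_eq
      ring)
    (by
      intro f hf t ht h1 h2 h3
      obtain ⟨e, he, rfl⟩ := Finset.mem_image.1 hf
      have he' := Finset.mem_filter.1 he
      rw [hDD e he] at h1 h2
      have h3' : 0 < F e := by rw [← hinv e he]; exact h3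
      have h4 := hgen e he'.1 t ht h1 h2 h3'
      show Gen (γ S') (b₀ * γ' S) t (cof (uu O' e.1) (b₀ * uu O e.2)) (cof (b₀ * uu O e.2) (uu O' e.1))
        (ψu O' S' R (uu O' e.1)) (b₀ * ψu O S R' (uu O e.2))
      rw [ψu_eq hOp he'.2.1, ψu_eq hOp' he'.2.2]
      rw [he'.2.1, he'.2.2] at h4
      exact h4)
  rw [sum_Eu hOp hOp' hE] at key
  have eF : ∑ e ∈ Eg O O' E S S', F ((∏ p ∈ O' \ S', p) * uu O' e.1, (∏ p ∈ O \ S, p) * uu O e.2)
      = ∑ e ∈ Eg O O' E S S', F e :=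
    Finset.sum_congr rfl fun e he => by rw [hinv e he]
  have key2 : ∑ e ∈ Eg O O' E S S', F e ≤ C * (K * (a * b)) * T^(-κ) *
      ((b₀:ℝ) - 1)^(-(1/2-eps1)) * ((∑ v ∈ Vu O' V S', wt (ψu O' S' R) v) * (∑ w ∈ Vu O W S, wt (ψu O S R') w))^(1/2+eps1) := by
    rw [← eF]; exact key
  set x := ∑ q ∈ Vg O' V S', mu O' R q with hx
  set y := ∑ r ∈ Vg O W S, mu O R' r with hy
  have hx0 : 0 ≤ x := Finset.sum_nonneg fun q hq => mu_nonneg (hV q (Finset.mem_filter.1 hq).1).2.le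
  have hy0 : 0 ≤ y := Finset.sum_nonneg fun q hq => mu_nonneg (hW q (Finset.mem_filter.1 hq).1).2.le
  have ex : ∑ v ∈ Vu O' V S', wt (ψu O' S' R) v = x / b := by
    rw [eq_div_iff hb.ne']; exact sum_Vu hOp' R
  have ey : ∑ v ∈ Vu O W S, wt (ψu O S R') v = y / a := by
    rw [eq_div_iff ha.ne']; exact sum_Vu hOp R'
  rw [ex, ey] at key2
  refine key2.trans (le_of_eq ?_)
  have h5 := group_alg (α := 1/2-eps1) (β := 1/2+eps1) (K := K) ha hb hx0 hy0 (by ring)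
  calc C * (K * (a * b)) * T^(-κ) * ((b₀:ℝ) - 1)^(-(1/2-eps1)) * (x/b * (y/a))^(1/2+eps1)
      = (C * T^(-κ) * ((b₀:ℝ) - 1)^(-(1/2-eps1))) * ((K * (a * b)) * (x/b * (y/a))^(1/2+eps1)) := by ring
    _ = _ := by
        rw [h5]
        show _ = C * K * T^(-κ) * ((b₀:ℝ) - 1)^(-(1/2-eps1)) * ((a^(1/2-eps1) * y^(1/2+eps1)) * (b^(1/2-eps1) * x^(1/2+eps1)))
        ring

theorem match_g {N : ℕ} {O O' V W : Finset ℕ} {E : Finset (ℕ × ℕ)}
    {R R' : ℕ → ℝ} (hO : ∀ p ∈ O, p.Prime ∧ N ≤ p) (hO' : ∀ p ∈ O', p.Prime ∧ N ≤ p)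
    (hV : ∀ w ∈ V, 0 < w ∧ 0 < R w) (hW : ∀ w ∈ W, 0 < w ∧ 0 < R' w) (hE : E ⊆ V ×ˢ W)
    {S S' : Finset ℕ} (hS : S ⊆ O) (hS' : S' ⊆ O')
    (hES : ∀ e ∈ E, miss O e.2 = S ∧ miss O' e.1 = S')
    (hm1 : ∀ e ∈ E, ∀ f ∈ E, miss O e.2 = miss O f.2 → e.1 = f.1 → e.2 = f.2)
    (hm2 : ∀ e ∈ E, ∀ f ∈ E, miss O' e.1 = miss O' f.1 → e.2 = f.2 → e.1 = f.1)
    {K : ℝ} (hK : 0 ≤ K) {F : ℕ × ℕ → ℝ}
    (hF : ∀ e ∈ E, F e ≤ K * ((R e.1 * R' e.2) / Dc O O' R R' e)) :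
    ∑ e ∈ E, F e ≤ K * ZG (1/2) (1/2) O O' V W S S' R R' := by
  classical
  have hOp : ∀ p ∈ O, p.Prime := fun p hp => (hO p hp).1
  have hOp' : ∀ p ∈ O', p.Prime := fun p hp => (hO' p hp).1
  rw [← Eg_of hES]
  unfold ZG
  have ha : 0 < ∏ p ∈ S, (1/(p:ℝ)) := Finset.prod_pos fun p hp => by
    have := (hOp p (hS hp)).pos; positivity
  have hb : 0 < ∏ p ∈ S', (1/(p:ℝ)) := Finset.prod_pos fun p hp => by
    have := (hOp' p (hS' hp)).pos; positivity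
  set a := ∏ p ∈ S, (1/(p:ℝ)) with had
  set b := ∏ p ∈ S', (1/(p:ℝ)) with hbd
  have hEgE : ∀ e ∈ Eg O O' E S S', e ∈ E := fun e he => (Finset.mem_filter.1 he).1
  have hsubg := Eg_sub (O := O) (O' := O') hE S S'
  have i1 : ∑ e ∈ Eg O O' E S S', R e.1 ≤ ∑ q ∈ Vg O' V S', R q := by
    have hinj : Set.InjOn Prod.fst (Eg O O' E S S' : Set (ℕ × ℕ)) := by
      intro e he f hf hef
      have he' := Finset.mem_filter.1 (Finset.mem_coe.1 he)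
      have hf' := Finset.mem_filter.1 (Finset.mem_coe.1 hf)
      exact Prod.ext hef (hm1 e he'.1 f hf'.1 (he'.2.1.trans hf'.2.1.symm) hef)
    rw [← Finset.sum_image (f := R) (g := Prod.fst) hinj]
    apply Finset.sum_le_sum_of_subset_of_nonneg
    · intro q hq
      obtain ⟨e, he, rfl⟩ := Finset.mem_image.1 hq
      exact (Finset.mem_product.1 (hsubg he)).1
    · intro q hq _
      exact (hV q (Finset.mem_filter.1 hq).1).2.le
  have i2 : ∑ e ∈ Eg O O' E S S', R' e.2 ≤ ∑ q ∈ Vg O W S, R' q := by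
    have hinj : Set.InjOn Prod.snd (Eg O O' E S S' : Set (ℕ × ℕ)) := by
      intro e he f hf hef
      have he' := Finset.mem_filter.1 (Finset.mem_coe.1 he)
      have hf' := Finset.mem_filter.1 (Finset.mem_coe.1 hf)
      exact Prod.ext (hm2 e he'.1 f hf'.1 (he'.2.2.trans hf'.2.2.symm) hef) hef
    rw [← Finset.sum_image (f := R') (g := Prod.snd) hinj]
    apply Finset.sum_le_sum_of_subset_of_nonneg
    · intro q hq
      obtain ⟨e, he, rfl⟩ := Finset.mem_image.1 hq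
      exact (Finset.mem_product.1 (hsubg he)).2
    · intro q hq _
      exact (hW q (Finset.mem_filter.1 hq).1).2.le
  have hn1 : ∀ e ∈ Eg O O' E S S', 0 ≤ R e.1 := fun e he =>
    (hV _ (Finset.mem_product.1 (hE (hEgE e he))).1).2.le
  have hn2 : ∀ e ∈ Eg O O' E S S', 0 ≤ R' e.2 := fun e he =>
    (hW _ (Finset.mem_product.1 (hE (hEgE e he))).2).2.le
  set x := ∑ q ∈ Vg O' V S', R q with hx
  set y := ∑ r ∈ Vg O W S, R' r with hy
  have hx0 : 0 ≤ x := Finset.sum_nonneg fun q hq => (hV q (Finset.mem_filter.1 hq).1).2.le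
  have hy0 : 0 ≤ y := Finset.sum_nonneg fun q hq => (hW q (Finset.mem_filter.1 hq).1).2.le
  calc ∑ e ∈ Eg O O' E S S', F e
      ≤ ∑ e ∈ Eg O O' E S S', K * (Real.sqrt (a * b) * (Real.sqrt (R e.1 * R' e.2))) := by
        apply Finset.sum_le_sum
        intro e he
        have he' := Finset.mem_filter.1 he
        have h := Finset.mem_product.1 (hE he'.1)
        refine (hF e he'.1).trans ?_
        apply mul_le_mul_of_nonneg_left _ hK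
        refine (RR_div_le hO hO' (hV _ h.1).1 (hW _ h.2).1 (hV _ h.1).2 (hW _ h.2).2).trans (le_of_eq ?_)
        rw [al_eq he'.2.1, al_eq he'.2.2]
        rw [← Real.sqrt_mul (mul_nonneg (hn1 e he) hb.le), ← Real.sqrt_mul (mul_nonneg ha.le hb.le)]
        congr 1
        ring
    _ = K * (Real.sqrt (a * b) * ∑ e ∈ Eg O O' E S S', Real.sqrt (R e.1 * R' e.2)) := by
        rw [← Finset.mul_sum, ← Finset.mul_sum]
    _ ≤ K * (Real.sqrt (a * b) * (Real.sqrt x * Real.sqrt y)) := by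
        apply mul_le_mul_of_nonneg_left _ hK
        apply mul_le_mul_of_nonneg_left _ (Real.sqrt_nonneg _)
        refine (sqrt_cs (Eg O O' E S S') (fun e => R e.1) (fun e => R' e.2) hn1 hn2).trans ?_
        exact mul_le_mul (Real.sqrt_le_sqrt i1) (Real.sqrt_le_sqrt i2) (Real.sqrt_nonneg _)
          (Real.sqrt_nonneg _)
    _ = _ := by
        rw [Real.sqrt_mul ha.le]
        simp only [Real.sqrt_eq_rpow]
        show K * (a^(1/2:ℝ) * b^(1/2:ℝ) * (x^(1/2:ℝ) * y^(1/2:ℝ)))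
          = K * ((a^(1/2:ℝ) * y^(1/2:ℝ)) * (b^(1/2:ℝ) * x^(1/2:ℝ)))
        ring

theorem match_x_g {N b₀ : ℕ} (hb₀ : b₀.Prime) {O O' V W : Finset ℕ} {E : Finset (ℕ × ℕ)}
    {R R' : ℕ → ℝ} (hO : ∀ p ∈ O, p.Prime ∧ N ≤ p) (hO' : ∀ p ∈ O', p.Prime ∧ N ≤ p)
    (hV : ∀ w ∈ V, 0 < w ∧ 0 < R w) (hW : ∀ w ∈ W, 0 < w ∧ 0 < R' w) (hE : E ⊆ V ×ˢ W)
    (hbV : ∀ w ∈ V, b₀ ∣ uu O' w) (hbW : ∀ w ∈ W, ¬ b₀ ∣ uu O w)
    {S S' : Finset ℕ} (hS : S ⊆ O) (hS' : S' ⊆ O')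
    (hES : ∀ e ∈ E, miss O e.2 = S ∧ miss O' e.1 = S')
    (hm1 : ∀ e ∈ E, ∀ f ∈ E, miss O e.2 = miss O f.2 → e.1 = f.1 → e.2 = f.2)
    (hm2 : ∀ e ∈ E, ∀ f ∈ E, miss O' e.1 = miss O' f.1 → e.2 = f.2 → e.1 = f.1)
    {K : ℝ} (hK : 0 ≤ K) {F : ℕ × ℕ → ℝ}
    (hF : ∀ e ∈ E, F e ≤ K * ((R e.1 * R' e.2) / Dc O O' R R' e)) :
    ∑ e ∈ E, F e ≤ (K * (1 / Real.sqrt b₀)) * ZG (1/2) (1/2) O O' V W S S' R R' := by
  classical
  have hOp : ∀ p ∈ O, p.Prime := fun p hp => (hO p hp).1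
  have hOp' : ∀ p ∈ O', p.Prime := fun p hp => (hO' p hp).1
  rw [← Eg_of hES]
  unfold ZG
  have ha : 0 < ∏ p ∈ S, (1/(p:ℝ)) := Finset.prod_pos fun p hp => by
    have := (hOp p (hS hp)).pos; positivity
  have hb : 0 < ∏ p ∈ S', (1/(p:ℝ)) := Finset.prod_pos fun p hp => by
    have := (hOp' p (hS' hp)).pos; positivity
  set a := ∏ p ∈ S, (1/(p:ℝ)) with had
  set b := ∏ p ∈ S', (1/(p:ℝ)) with hbd
  have hEgE : ∀ e ∈ Eg O O' E S S', e ∈ E := fun e he => (Finset.mem_filter.1 he).1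
  have hsubg := Eg_sub (O := O) (O' := O') hE S S'
  have i1 : ∑ e ∈ Eg O O' E S S', R e.1 ≤ ∑ q ∈ Vg O' V S', R q := by
    have hinj : Set.InjOn Prod.fst (Eg O O' E S S' : Set (ℕ × ℕ)) := by
      intro e he f hf hef
      have he' := Finset.mem_filter.1 (Finset.mem_coe.1 he)
      have hf' := Finset.mem_filter.1 (Finset.mem_coe.1 hf)
      exact Prod.ext hef (hm1 e he'.1 f hf'.1 (he'.2.1.trans hf'.2.1.symm) hef)
    rw [← Finset.sum_image (f := R) (g := Prod.fst) hinj]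
    apply Finset.sum_le_sum_of_subset_of_nonneg
    · intro q hq
      obtain ⟨e, he, rfl⟩ := Finset.mem_image.1 hq
      exact (Finset.mem_product.1 (hsubg he)).1
    · intro q hq _
      exact (hV q (Finset.mem_filter.1 hq).1).2.le
  have i2 : ∑ e ∈ Eg O O' E S S', R' e.2 ≤ ∑ q ∈ Vg O W S, R' q := by
    have hinj : Set.InjOn Prod.snd (Eg O O' E S S' : Set (ℕ × ℕ)) := by
      intro e he f hf hef
      have he' := Finset.mem_filter.1 (Finset.mem_coe.1 he)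
      have hf' := Finset.mem_filter.1 (Finset.mem_coe.1 hf)
      exact Prod.ext (hm2 e he'.1 f hf'.1 (he'.2.2.trans hf'.2.2.symm) hef) hef
    rw [← Finset.sum_image (f := R') (g := Prod.snd) hinj]
    apply Finset.sum_le_sum_of_subset_of_nonneg
    · intro q hq
      obtain ⟨e, he, rfl⟩ := Finset.mem_image.1 hq
      exact (Finset.mem_product.1 (hsubg he)).2
    · intro q hq _
      exact (hW q (Finset.mem_filter.1 hq).1).2.le
  have hn1 : ∀ e ∈ Eg O O' E S S', 0 ≤ R e.1 := fun e he =>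
    (hV _ (Finset.mem_product.1 (hE (hEgE e he))).1).2.le
  have hn2 : ∀ e ∈ Eg O O' E S S', 0 ≤ R' e.2 := fun e he =>
    (hW _ (Finset.mem_product.1 (hE (hEgE e he))).2).2.le
  set x := ∑ q ∈ Vg O' V S', R q with hx
  set y := ∑ r ∈ Vg O W S, R' r with hy
  have hx0 : 0 ≤ x := Finset.sum_nonneg fun q hq => (hV q (Finset.mem_filter.1 hq).1).2.le
  have hy0 : 0 ≤ y := Finset.sum_nonneg fun q hq => (hW q (Finset.mem_filter.1 hq).1).2.le
  calc ∑ e ∈ Eg O O' E S S', F e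
      ≤ ∑ e ∈ Eg O O' E S S', (K * (1 / Real.sqrt b₀)) * (Real.sqrt (a * b) * (Real.sqrt (R e.1 * R' e.2))) := by
        apply Finset.sum_le_sum
        intro e he
        have he' := Finset.mem_filter.1 he
        have h := Finset.mem_product.1 (hE he'.1)
        refine (hF e he'.1).trans ?_
        rw [mul_assoc]
        apply mul_le_mul_of_nonneg_left _ hK
        refine (RR_div_le_x hb₀ hO hO' (hV _ h.1).1 (hW _ h.2).1 (hV _ h.1).2 (hW _ h.2).2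
          (hbV _ h.1) (hbW _ h.2)).trans (le_of_eq ?_)
        congr 1
        rw [al_eq he'.2.1, al_eq he'.2.2]
        rw [← Real.sqrt_mul (mul_nonneg (hn1 e he) hb.le), ← Real.sqrt_mul (mul_nonneg ha.le hb.le)]
        congr 1
        ring
    _ = (K * (1 / Real.sqrt b₀)) * (Real.sqrt (a * b) * ∑ e ∈ Eg O O' E S S', Real.sqrt (R e.1 * R' e.2)) := by
        rw [← Finset.mul_sum, ← Finset.mul_sum]
    _ ≤ (K * (1 / Real.sqrt b₀)) * (Real.sqrt (a * b) * (Real.sqrt x * Real.sqrt y)) := by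
        apply mul_le_mul_of_nonneg_left _ (by positivity)
        apply mul_le_mul_of_nonneg_left _ (Real.sqrt_nonneg _)
        refine (sqrt_cs (Eg O O' E S S') (fun e => R e.1) (fun e => R' e.2) hn1 hn2).trans ?_
        exact mul_le_mul (Real.sqrt_le_sqrt i1) (Real.sqrt_le_sqrt i2) (Real.sqrt_nonneg _)
          (Real.sqrt_nonneg _)
    _ = _ := by
        rw [Real.sqrt_mul ha.le, Real.sqrt_eq_rpow a, Real.sqrt_eq_rpow b, Real.sqrt_eq_rpow x,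
          Real.sqrt_eq_rpow y]
        show (K * (1 / Real.sqrt b₀)) * (a^(1/2:ℝ) * b^(1/2:ℝ) * (x^(1/2:ℝ) * y^(1/2:ℝ)))
          = (K * (1 / Real.sqrt b₀)) * ((a^(1/2:ℝ) * y^(1/2:ℝ)) * (b^(1/2:ℝ) * x^(1/2:ℝ)))
        ring

end Crest.Agent.R4.OSCore709
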