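import Mathlib
import Crest.Agent.R4.OSLev709

/-!
R4 (S0004), helper709: the core for ONE-SIDED columns (245 #15015): weights `om` (gain `l^(-1/30)` per missing
one-sided prime), the exact-false pairs `PF` (with `1 < 2 m^10 D`, 758 #15008) paid by HVW.
-/

set_option autoImplicit false
open Finset

namespace Crest.Agent.R4.OSCore709
open Crest.Agent.R4.HVW560 Crest.Agent.R4.HVWX793
open Crest.Agent.R4.Schur709 Crest.Agent.R4.StopHvw709 Crest.Agent.R4.StopAsm709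
open Crest.Agent.R4.ClsS (eps1)

/-- the product of the missing one-sided primes of a pair -/
noncomputable def mm (O O' : Finset ℕ) (e : ℕ × ℕ) : ℝ :=
  (∏ p ∈ miss O e.2, (p:ℝ)) * (∏ p ∈ miss O' e.1, (p:ℝ))

lemma one_le_mm {O O' : Finset ℕ} (hO : ∀ p ∈ O, 0 < p) (hO' : ∀ p ∈ O', 0 < p) (e : ℕ × ℕ) :
    1 ≤ mm O O' e := by
  have h : ∀ {O : Finset ℕ} (_ : ∀ p ∈ O, 0 < p) (r : ℕ), (1:ℝ) ≤ ∏ p ∈ miss O r, (p:ℝ) := by
    intro O hO r
    have := Finset.prod_le_prod (s := miss O r) (f := fun _ : ℕ => (1:ℝ)) (g := fun p : ℕ => (p:ℝ))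
      (fun _ _ => zero_le_one) (fun p hp => by exact_mod_cast hO p (miss_sub O r hp))
    simpa using this
  have h1 := h hO e.2
  have h2 := h hO' e.1
  unfold mm
  nlinarith

lemma pow_near {m : ℝ} (hm : 1 ≤ m) : ∃ n : ℕ, 2 * m^10 < 2^n ∧
    (n:ℝ) * (2:ℝ)^(2*eps1*n) ≤ 30000 * m^(22/1000:ℝ) := by
  have he1 : eps1 = 1/1000 := rfl
  have hm10 : (1:ℝ) ≤ m^10 := one_le_pow₀ hm
  obtain ⟨k, hk1, hk2⟩ := exists_nat_pow_near (x := 2 * m^10) (y := (2:ℝ)) (by linarith) (by norm_num)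
  refine ⟨k+1, hk2, ?_⟩
  set n : ℕ := k+1 with hn
  have h2n : (2:ℝ)^n ≤ 4 * m^10 := by
    rw [hn, pow_succ]; linarith
  have hl2 : (0.69:ℝ) ≤ Real.log 2 := by have := Real.log_two_gt_d9; linarith
  have h1 : (n:ℝ) ≤ 7500 * (2:ℝ)^((n:ℝ)/5000) := by
    have h3 : (n:ℝ)/5000 * Real.log 2 + 1 ≤ (2:ℝ)^((n:ℝ)/5000) := by
      rw [Real.rpow_def_of_pos (by norm_num), mul_comm (Real.log 2)]
      exact Real.add_one_le_exp _
    have h4 : (0:ℝ) ≤ n := Nat.cast_nonneg _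
    nlinarith
  have h5 : (2:ℝ)^((n:ℝ)/5000) * (2:ℝ)^(2*eps1*n) = ((2:ℝ)^n)^(22/10000:ℝ) := by
    rw [← Real.rpow_add (by norm_num), ← Real.rpow_natCast, ← Real.rpow_mul (by norm_num)]
    congr 1
    rw [he1]; ring
  have h6 : ((2:ℝ)^n)^(22/10000:ℝ) ≤ 4 * m^(22/1000:ℝ) := by
    calc ((2:ℝ)^n)^(22/10000:ℝ) ≤ (4 * m^10)^(22/10000:ℝ) :=
          Real.rpow_le_rpow (by positivity) h2n (by norm_num)
      _ = 4^(22/10000:ℝ) * m^(22/1000:ℝ) := by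
          rw [Real.mul_rpow (by norm_num) (by positivity)]
          congr 1
          rw [← Real.rpow_natCast, ← Real.rpow_mul (by linarith)]
          norm_num
      _ ≤ 4^(1:ℝ) * m^(22/1000:ℝ) := by
          apply mul_le_mul_of_nonneg_right _ (by positivity)
          exact Real.rpow_le_rpow_of_exponent_le (by norm_num) (by norm_num)
      _ = _ := by rw [Real.rpow_one]
  calc (n:ℝ) * (2:ℝ)^(2*eps1*n) ≤ (7500 * (2:ℝ)^((n:ℝ)/5000)) * (2:ℝ)^(2*eps1*n) :=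
        mul_le_mul_of_nonneg_right h1 (by positivity)
    _ = 7500 * ((2:ℝ)^((n:ℝ)/5000) * (2:ℝ)^(2*eps1*n)) := by ring
    _ ≤ 7500 * (4 * m^(22/1000:ℝ)) := by rw [h5]; exact mul_le_mul_of_nonneg_left h6 (by norm_num)
    _ = _ := by ring

/-- the exact-false pairs of a group, by HVW -/
theorem ff_g {N : ℕ} {O O' V W : Finset ℕ} {E : Finset (ℕ × ℕ)}
    {R R' : ℕ → ℝ} (hO : ∀ p ∈ O, p.Prime ∧ N ≤ p) (hO' : ∀ p ∈ O', p.Prime ∧ N ≤ p)
    (hV : ∀ w ∈ V, 0 < w ∧ 0 < R w) (hW : ∀ w ∈ W, 0 < w ∧ 0 < R' w) (hE : E ⊆ V ×ˢ W)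
    {S S' : Finset ℕ} (hS : S ⊆ O) (hS' : S' ⊆ O')
    (hES : ∀ e ∈ E, miss O e.2 = S ∧ miss O' e.1 = S')
    {K : ℝ} (hK : 0 ≤ K) {F : ℕ × ℕ → ℝ} (h1 : ∀ e ∈ E, Dc O O' R R' e ≤ 1)
    (hm : ∀ e ∈ E, 1 < 2 * (mm O O' e)^10 * Dc O O' R R' e)
    (hF : ∀ e ∈ E, F e ≤ K * ((mu O' R e.1 * mu O R' e.2) / Dc O O' R R' e)) :
    ∑ e ∈ E, F e ≤ K * (60000 * KH 1 0 eps1) * ((∏ p ∈ S, (p:ℝ))^(22/1000:ℝ) *
      (∏ p ∈ S', (p:ℝ))^(22/1000:ℝ)) *
      ZG (1/2-eps1) (1/2+eps1) O O' V W S S' (mu O' R) (mu O R') := by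
  have he1 : eps1 = 1/1000 := rfl
  rcases E.eq_empty_or_nonempty with h0 | ⟨e0, he0⟩
  · rw [h0, Finset.sum_empty]
    have := ZG_nonneg (α := 1/2-eps1) (β := 1/2+eps1) (O := O) (O' := O') (S := S) (S' := S') (V := V) (W := W)
      (μ := mu O' R) (μ' := mu O R') (fun q hq => mu_nonneg (hV q hq).2.le) (fun q hq => mu_nonneg (hW q hq).2.le)
    have := (KH_pos 1 0 eps1).le
    positivity
  set m : ℝ := mm O O' e0 with hmd
  have hm1 : 1 ≤ m := one_le_mm (fun p hp => (hO p hp).1.pos) (fun p hp => (hO' p hp).1.pos) e0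
  have hmE : ∀ e ∈ E, mm O O' e = m := by
    intro e he
    rw [hmd]
    unfold mm
    rw [(hES e he).1, (hES e he).2, (hES e0 he0).1, (hES e0 he0).2]
  have hme : m = (∏ p ∈ S, (p:ℝ)) * (∏ p ∈ S', (p:ℝ)) := by
    rw [hmd]; unfold mm
    rw [(hES e0 he0).1, (hES e0 he0).2]
  obtain ⟨n, hn1, hn2⟩ := pow_near hm1
  have key := mid_dyadic_g (ε := eps1) (by rw [he1]; norm_num) (by rw [he1]; norm_num) hO hO' hV hW hS hS'
    hK (F := F) n E hE hES h1 (by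
      intro e he
      have h3 := hm e he
      rw [hmE e he] at h3
      rw [div_pow, one_pow, div_lt_iff₀ (by positivity)]
      have hD : 0 < Dc O O' R R' e := by
        by_contra hneg
        have : 2 * m^10 * Dc O O' R R' e ≤ 0 := mul_nonpos_of_nonneg_of_nonpos (by positivity) (not_lt.1 hneg)
        linarith
      nlinarith) hF
  refine key.trans ?_
  have hZ := ZG_nonneg (α := 1/2-eps1) (β := 1/2+eps1) (O := O) (O' := O') (S := S) (S' := S') (V := V) (W := W)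
      (μ := mu O' R) (μ' := mu O R') (fun q hq => mu_nonneg (hV q hq).2.le) (fun q hq => mu_nonneg (hW q hq).2.le)
  apply mul_le_mul_of_nonneg_right _ hZ
  have hKH := (KH_pos 1 0 eps1).le
  rw [← Real.mul_rpow (Finset.prod_nonneg fun p _ => by positivity) (Finset.prod_nonneg fun p _ => by positivity),
    ← hme]
  calc (n:ℝ) * (2 * K * KH 1 0 eps1 * (2:ℝ)^(2*eps1*n))
      = (2 * K * KH 1 0 eps1) * ((n:ℝ) * (2:ℝ)^(2*eps1*n)) := by ring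
    _ ≤ (2 * K * KH 1 0 eps1) * (30000 * m^(22/1000:ℝ)) :=
        mul_le_mul_of_nonneg_left hn2 (by positivity)
    _ = _ := by ring

/-- the exact-false pairs of a group crossing at `b₀`, by HVW -/
theorem ff_x_g {N : ℕ} {O O' V W : Finset ℕ} {E : Finset (ℕ × ℕ)}
    {R R' : ℕ → ℝ} (hO : ∀ p ∈ O, p.Prime ∧ N ≤ p) (hO' : ∀ p ∈ O', p.Prime ∧ N ≤ p)
    (hV : ∀ w ∈ V, 0 < w ∧ 0 < R w) (hW : ∀ w ∈ W, 0 < w ∧ 0 < R' w)
    {b₀ : ℕ} (hb₀ : b₀.Prime) (hbV : ∀ w ∈ V, b₀ ∣ uu O' w)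
    (hbW : ∀ w ∈ W, ¬ b₀ ∣ uu O w) (hE : E ⊆ V ×ˢ W)
    {S S' : Finset ℕ} (hS : S ⊆ O) (hS' : S' ⊆ O')
    (hES : ∀ e ∈ E, miss O e.2 = S ∧ miss O' e.1 = S')
    {K : ℝ} (hK : 0 ≤ K) {F : ℕ × ℕ → ℝ} (h1 : ∀ e ∈ E, Dc O O' R R' e ≤ 1)
    (hm : ∀ e ∈ E, 1 < 2 * (mm O O' e)^10 * Dc O O' R R' e)
    (hF : ∀ e ∈ E, F e ≤ K * ((mu O' R e.1 * mu O R' e.2) / Dc O O' R R' e)) :
    ∑ e ∈ E, F e ≤ K * (60000 * KH 1 0 eps1 * Bf b₀ eps1) * ((∏ p ∈ S, (p:ℝ))^(22/1000:ℝ) *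
      (∏ p ∈ S', (p:ℝ))^(22/1000:ℝ)) *
      ZG (1/2-eps1) (1/2+eps1) O O' V W S S' (mu O' R) (mu O R') := by
  have he1 : eps1 = 1/1000 := rfl
  have hBf := Bf_nonneg b₀ eps1
  rcases E.eq_empty_or_nonempty with h0 | ⟨e0, he0⟩
  · rw [h0, Finset.sum_empty]
    have := ZG_nonneg (α := 1/2-eps1) (β := 1/2+eps1) (O := O) (O' := O') (S := S) (S' := S') (V := V) (W := W)
      (μ := mu O' R) (μ' := mu O R') (fun q hq => mu_nonneg (hV q hq).2.le) (fun q hq => mu_nonneg (hW q hq).2.le)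
    have := (KH_pos 1 0 eps1).le
    positivity
  set m : ℝ := mm O O' e0 with hmd
  have hm1 : 1 ≤ m := one_le_mm (fun p hp => (hO p hp).1.pos) (fun p hp => (hO' p hp).1.pos) e0
  have hmE : ∀ e ∈ E, mm O O' e = m := by
    intro e he
    rw [hmd]
    unfold mm
    rw [(hES e he).1, (hES e he).2, (hES e0 he0).1, (hES e0 he0).2]
  have hme : m = (∏ p ∈ S, (p:ℝ)) * (∏ p ∈ S', (p:ℝ)) := by
    rw [hmd]; unfold mm
    rw [(hES e0 he0).1, (hES e0 he0).2]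
  obtain ⟨n, hn1, hn2⟩ := pow_near hm1
  have key := mid_dyadic_x_g (ε := eps1) (by rw [he1]; norm_num) (by rw [he1]; norm_num) hO hO' hV hW
    hb₀ hbV hbW hS hS'
    hK (F := F) n E hE hES h1 (by
      intro e he
      have h3 := hm e he
      rw [hmE e he] at h3
      rw [div_pow, one_pow, div_lt_iff₀ (by positivity)]
      have hD : 0 < Dc O O' R R' e := by
        by_contra hneg
        have : 2 * m^10 * Dc O O' R R' e ≤ 0 := mul_nonpos_of_nonneg_of_nonpos (by positivity) (not_lt.1 hneg)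
        linarith
      nlinarith) hF
  refine key.trans ?_
  have hZ := ZG_nonneg (α := 1/2-eps1) (β := 1/2+eps1) (O := O) (O' := O') (S := S) (S' := S') (V := V) (W := W)
      (μ := mu O' R) (μ' := mu O R') (fun q hq => mu_nonneg (hV q hq).2.le) (fun q hq => mu_nonneg (hW q hq).2.le)
  apply mul_le_mul_of_nonneg_right _ hZ
  have hKH := (KH_pos 1 0 eps1).le
  rw [← Real.mul_rpow (Finset.prod_nonneg fun p _ => by positivity) (Finset.prod_nonneg fun p _ => by positivity),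
    ← hme]
  calc (n:ℝ) * (2 * K * KH 1 0 eps1 * Bf b₀ eps1 * (2:ℝ)^(2*eps1*n))
      = (2 * K * KH 1 0 eps1 * Bf b₀ eps1) * ((n:ℝ) * (2:ℝ)^(2*eps1*n)) := by ring
    _ ≤ (2 * K * KH 1 0 eps1 * Bf b₀ eps1) * (30000 * m^(22/1000:ℝ)) :=
        mul_le_mul_of_nonneg_left hn2 (by positivity)
    _ = _ := by ring

lemma sub_ES {O O' : Finset ℕ} {E : Finset (ℕ × ℕ)} {S S' : Finset ℕ} :
    ∀ e ∈ Eg O O' E S S', miss O e.2 = S ∧ miss O' e.1 = S' := fun _ he => (Finset.mem_filter.1 he).2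

/-- pairs left over by `os_core` -/
def LeftO (O O' : Finset ℕ) (R R' : ℕ → ℝ) (n : ℕ) (PG PF : ℕ × ℕ → Prop) (e : ℕ × ℕ) : Prop :=
  Dc O O' R R' e ≤ 1/2^n ∧ ¬ PG e ∧ ¬ PF e

open Classical in
/-- **OS core** -/
theorem os_core {Gen : ℝ → ℝ → ℝ → ℕ → ℕ → ℝ → ℝ → Prop} {κ : ℝ} (hGen : DeepHyp Gen κ) :
    ∃ C c0 : ℝ, 1 ≤ C ∧ 0 < c0 ∧ ∀ c1 : ℝ, 0 < c1 → c1 ≤ c0 → ∃ T0 : ℝ, 1 ≤ T0 ∧
    ∀ (X K1 K2 L : ℝ) (n N G : ℕ) (O O' V W : Finset ℕ) (R R' : ℕ → ℝ)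
    (γ γ' : Finset ℕ → ℝ) (F : ℕ × ℕ → ℝ) (PG PF : ℕ × ℕ → Prop),
    T0 ≤ (2:ℝ)^n → X ≤ Real.exp (((2:ℝ)^n)^c1) → 0 < G → 0 ≤ K1 → 0 ≤ K2 →
    (∀ p ∈ O, p.Prime ∧ N ≤ p) → (∀ p ∈ O', p.Prime ∧ N ≤ p) →
    (∀ w ∈ V, 0 < w ∧ 0 < R w) → (∀ w ∈ W, 0 < w ∧ 0 < R' w) →
    (∀ w ∈ V, R w ≤ L * mu O' R w) → (∀ w ∈ W, R' w ≤ L * mu O R' w) →
    (∀ z : ℝ, X ≤ z → ∀ w ∈ V, Crest.Agent.R4.ClsB.Tame z G (uu O' w)) →
    (∀ z : ℝ, X ≤ z → ∀ w ∈ W, Crest.Agent.R4.ClsB.Tame z G (uu O w)) →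
    (∀ e ∈ V ×ˢ W, 1 < Dc O O' R R' e → F e ≤ K1 * (R e.1 * R' e.2)) →
    (∀ e ∈ V ×ˢ W, Dc O O' R R' e ≤ 1 → F e ≤ K2 * ((R e.1 * R' e.2) / Dc O O' R R' e)) →
    (∀ e ∈ V ×ˢ W, PG e → ∀ t : ℝ, (2:ℝ)^n ≤ t → 1/(2*t) < Dc O O' R R' e →
      Dc O O' R R' e ≤ 1/t → 0 < F e →
      Gen (γ (miss O' e.1)) (γ' (miss O e.2)) t (cof (uu O' e.1) (uu O e.2))
        (cof (uu O e.2) (uu O' e.1)) (Rc O' R e.1) (Rc O R' e.2)) →
    (∀ e ∈ V ×ˢ W, PF e → 1 < 2 * (mm O O' e)^10 * Dc O O' R R' e) →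
    ∑ e ∈ V ×ˢ W, F e ≤
      K1 * L^2 * ((∑ q ∈ V, mu O' R q) * (∑ r ∈ W, mu O R' r)) +
      K2 * L^2 * (n * (2 * KH 1 0 eps1 * (2:ℝ)^(2*eps1*n)) + C * ((2:ℝ)^n)^(-κ) + 60000 * KH 1 0 eps1) *
        (Real.exp ((1/2-eps1) * ((∑ p ∈ O, (p:ℝ)^(-(11/12):ℝ)) + ∑ p ∈ O', (p:ℝ)^(-(11/12):ℝ))) *
        ((∑ q ∈ V, om O' q * mu O' R q) * (∑ r ∈ W, om O r * mu O R' r))^(1/2+eps1)) +
      ∑ e ∈ (V ×ˢ W).filter (LeftO O O' R R' n PG PF), F e := by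
  obtain ⟨C, c0, hC1, hc0, hC⟩ := deepB_g hGen
  refine ⟨C, c0, hC1, hc0, ?_⟩
  intro c1 hc1 hc10
  obtain ⟨T0, hT01, hT0⟩ := hC c1 hc1 hc10
  refine ⟨T0, hT01, ?_⟩
  intro X K1 K2 L n N G O O' V W R R' γ γ' F PG PF hTn hX hG hK10 hK20 hO hO' hV hW hLV hLW hVt hWt
    hbig hsmall hgen hPF
  have he1 : eps1 = 1/1000 := rfl
  have h2n : (0:ℝ) < (2:ℝ)^n := by positivity
  set D : ℕ × ℕ → ℝ := Dc O O' R R' with hDdef
  have hDpos : ∀ e ∈ V ×ˢ W, 0 < D e := by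
    intro e he
    have h := Finset.mem_product.1 he
    exact Dc_pos hO hO' (hV _ h.1).2 (hW _ h.2).1
  have hmu : ∀ q ∈ V, 0 ≤ mu O' R q := fun q hq => mu_nonneg (hV q hq).2.le
  have hmu' : ∀ q ∈ W, 0 ≤ mu O R' q := fun q hq => mu_nonneg (hW q hq).2.le
  have hKH := (KH_pos 1 0 eps1).le
  set P := V ×ˢ W with hP
  set E1 := P.filter (fun e => 1 < D e) with hE1
  set EN := P.filter (fun e => ¬ 1 < D e) with hEN
  set EY := EN.filter (fun e => (1/2:ℝ)^n < D e) with hEY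
  set EX := EN.filter (fun e => ¬ (1/2:ℝ)^n < D e) with hEX
  set EG := EX.filter (fun e => PG e) with hEG
  set EH := EX.filter (fun e => ¬ PG e) with hEH
  set EF := EH.filter (fun e => PF e) with hEF
  set EK := EH.filter (fun e => ¬ PF e) with hEK
  have hsplit : ∑ e ∈ P, F e = ∑ e ∈ E1, F e + (∑ e ∈ EY, F e +
      (∑ e ∈ EG, F e + (∑ e ∈ EF, F e + ∑ e ∈ EK, F e))) := by
    rw [hEF, hEK, Finset.sum_filter_add_sum_filter_not,
      hEG, hEH, Finset.sum_filter_add_sum_filter_not,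
      hEY, hEX, Finset.sum_filter_add_sum_filter_not, hE1, hEN, Finset.sum_filter_add_sum_filter_not]
  have hENP : ∀ e ∈ EN, e ∈ P ∧ D e ≤ 1 := fun e he =>
    ⟨(Finset.mem_filter.1 he).1, not_lt.1 (Finset.mem_filter.1 he).2⟩
  have hEYP : ∀ e ∈ EY, e ∈ EN := fun e he => (Finset.mem_filter.1 he).1
  have hEXP : ∀ e ∈ EX, e ∈ EN := fun e he => (Finset.mem_filter.1 he).1
  have hEGP : ∀ e ∈ EG, e ∈ EX := fun e he => (Finset.mem_filter.1 he).1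
  have hEHP : ∀ e ∈ EH, e ∈ EX := fun e he => (Finset.mem_filter.1 he).1
  have hEFP : ∀ e ∈ EF, e ∈ EH := fun e he => (Finset.mem_filter.1 he).1
  have hEKP : ∀ e ∈ EK, e ∈ EH := fun e he => (Finset.mem_filter.1 he).1
  have hRR : ∀ e ∈ P, R e.1 * R' e.2 ≤ L^2 * (mu O' R e.1 * mu O R' e.2) := by
    intro e he
    have h := Finset.mem_product.1 he
    have h1 := hLV _ h.1
    have h2 := hLW _ h.2
    have h3 := (hW _ h.2).2
    have h5 : 0 ≤ L * mu O' R e.1 := (hV _ h.1).2.le.trans h1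
    calc R e.1 * R' e.2 ≤ (L * mu O' R e.1) * (L * mu O R' e.2) :=
          mul_le_mul h1 h2 h3.le h5
      _ = _ := by ring
  have hFmu : ∀ e ∈ EN, F e ≤ K2 * L^2 * ((mu O' R e.1 * mu O R' e.2) / D e) := by
    intro e he
    have heP := hENP e he
    calc F e ≤ K2 * ((R e.1 * R' e.2) / D e) := hsmall e heP.1 heP.2
      _ ≤ K2 * ((L^2 * (mu O' R e.1 * mu O R' e.2)) / D e) :=
          mul_le_mul_of_nonneg_left (div_le_div_of_nonneg_right (hRR e heP.1) (hDpos e heP.1).le) hK20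
      _ = K2 * L^2 * ((mu O' R e.1 * mu O R' e.2) / D e) := by ring
  have bound1 : ∑ e ∈ E1, F e ≤ K1 * L^2 * ((∑ q ∈ V, mu O' R q) * (∑ r ∈ W, mu O R' r)) := by
    calc ∑ e ∈ E1, F e ≤ ∑ e ∈ E1, K1 * L^2 * (mu O' R e.1 * mu O R' e.2) := by
          apply Finset.sum_le_sum
          intro e he
          have he' := Finset.mem_filter.1 he
          refine (hbig e he'.1 he'.2).trans ?_
          rw [mul_assoc]
          exact mul_le_mul_of_nonneg_left (hRR e he'.1) hK10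
      _ ≤ ∑ e ∈ P, K1 * L^2 * (mu O' R e.1 * mu O R' e.2) := by
          apply Finset.sum_le_sum_of_subset_of_nonneg (Finset.filter_subset _ _)
          intro e he _
          have h := Finset.mem_product.1 he
          have := hmu _ h.1
          have := hmu' _ h.2
          positivity
      _ = _ := by rw [← Finset.mul_sum, Finset.sum_mul_sum, ← Finset.sum_product']
  have hpow : (1/2:ℝ)^n = 1/2^n := by rw [div_pow, one_pow]
  have hEXD : ∀ e ∈ EX, D e ≤ 1/2^n := by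
    intro e he
    have := not_lt.1 (Finset.mem_filter.1 he).2
    rw [hpow] at this
    exact this
  have hα : (0:ℝ) < 1/2-eps1 := by rw [he1]; norm_num
  have hβ : (0:ℝ) < 1/2+eps1 := by rw [he1]; norm_num
  have hO0 : ∀ p ∈ O, 0 < p := fun p hp => (hO p hp).1.pos
  have hO0' : ∀ p ∈ O', 0 < p := fun p hp => (hO' p hp).1.pos
  have sE : ∀ {E : Finset (ℕ × ℕ)} {S S' : Finset ℕ} (e : ℕ × ℕ), e ∈ Eg O O' E S S' → e ∈ E :=
    fun e he => (Finset.mem_filter.1 he).1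
  have boundY := group_sum_w (E := EY) (F := F) (G := n * (2 * (K2 * L^2) * KH 1 0 eps1 * (2:ℝ)^(2*eps1*n)))
    hα hβ (by ring) (by rw [he1]; norm_num) hO0 hO0' (fun e he => (hENP e (hEYP e he)).1) hmu hmu'
    (by positivity) (by
      intro S hS S' hS'
      exact mid_dyadic_g (ε := eps1) (by rw [he1]; norm_num) (by rw [he1]; norm_num) hO hO' hV hW hS hS'
        (K := K2 * L^2) (by positivity) (F := F) n (Eg O O' EY S S')
        (fun e he => (hENP e (hEYP e (sE e he))).1) sub_ES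
        (fun e he => (hENP e (hEYP e (sE e he))).2)
        (fun e he => (Finset.mem_filter.1 (sE e he)).2)
        (fun e he => hFmu e (hEYP e (sE e he))))
  have boundG := group_sum_w (E := EG) (F := F) (G := C * (K2 * L^2) * ((2:ℝ)^n)^(-κ))
    hα hβ (by ring) (by rw [he1]; norm_num) hO0 hO0' (fun e he => (hENP e (hEXP e (hEGP e he))).1) hmu hmu'
    (by positivity) (by
      intro S hS S' hS'
      exact hT0 ((2:ℝ)^n) X (K2 * L^2) N G O O' V W (Eg O O' EG S S') R R' γ γ' F S S' hTn hX (by positivity)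
        hG hO hO' hV hW hVt hWt (fun e he => (hENP e (hEXP e (hEGP e (sE e he)))).1) hS hS' sub_ES
        (fun e he => hEXD e (hEGP e (sE e he)))
        (fun e he => hFmu e (hEXP e (hEGP e (sE e he))))
        (by
          intro e he t ht h1 h2 h3
          exact hgen e (hENP e (hEXP e (hEGP e (sE e he)))).1 (Finset.mem_filter.1 (sE e he)).2
            t ht h1 h2 h3))
  have boundF := group_sum_t (E := EF) (F := F) (G := K2 * L^2 * (60000 * KH 1 0 eps1)) (τ := 22/1000)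
    hα hβ (by ring) (by rw [he1]; norm_num) hO0 hO0' (fun e he => (hENP e (hEXP e (hEHP e (hEFP e he)))).1) hmu hmu'
    (by positivity) (by
      intro S hS S' hS'
      exact ff_g hO hO' hV hW (fun e he => (hENP e (hEXP e (hEHP e (hEFP e (sE e he))))).1) hS hS' sub_ES
        (by positivity) (fun e he => (hENP e (hEXP e (hEHP e (hEFP e (sE e he))))).2)
        (fun e he => hPF e (hENP e (hEXP e (hEHP e (hEFP e (sE e he))))).1 (Finset.mem_filter.1 (sE e he)).2)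
        (fun e he => hFmu e (hEXP e (hEHP e (hEFP e (sE e he))))))
  have eR : EK = P.filter (LeftO O O' R R' n PG PF) := by
    ext e
    constructor
    · intro he
      have h1 := hEHP e (hEKP e he)
      exact Finset.mem_filter.2 ⟨(hENP e (hEXP e h1)).1, hEXD e h1, (Finset.mem_filter.1 (hEKP e he)).2,
        (Finset.mem_filter.1 he).2⟩
    · intro he
      obtain ⟨h0, h2, h3, h4⟩ := Finset.mem_filter.1 he
      have h2' : D e ≤ 1/2^n := h2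
      have h5 : D e ≤ 1 := by
        refine h2'.trans ?_
        rw [div_le_one h2n]
        exact one_le_pow₀ (by norm_num)
      exact Finset.mem_filter.2 ⟨Finset.mem_filter.2 ⟨Finset.mem_filter.2 ⟨Finset.mem_filter.2
        ⟨h0, not_lt.2 h5⟩, not_lt.2 (by rw [hpow]; exact h2')⟩, h3⟩, h4⟩
  rw [hsplit, ← eR]
  set X1 := Real.exp ((1/2-eps1) * ((∑ p ∈ O, (p:ℝ)^(-(11/12):ℝ)) + ∑ p ∈ O', (p:ℝ)^(-(11/12):ℝ))) with hX1
  set Y1 := ((∑ q ∈ V, om O' q * mu O' R q) * (∑ r ∈ W, om O r * mu O R' r))^(1/2+eps1) with hY1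
  have hfin : K2 * L^2 * (n * (2 * KH 1 0 eps1 * (2:ℝ)^(2*eps1*n)) + C * ((2:ℝ)^n)^(-κ) + 60000 * KH 1 0 eps1) *
        (X1 * Y1)
      = n * (2 * (K2 * L^2) * KH 1 0 eps1 * (2:ℝ)^(2*eps1*n)) * X1 * Y1 +
        C * (K2 * L^2) * ((2:ℝ)^n)^(-κ) * X1 * Y1 + K2 * L^2 * (60000 * KH 1 0 eps1) * X1 * Y1 := by
    ring
  rw [hfin]
  linarith

open Classical in
/-- **OS core, crossing at `b₀`** (`b₀` divides the averaged items of `V`, not those of `W`) -/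
theorem os_core_x {Gen : ℝ → ℝ → ℝ → ℕ → ℕ → ℝ → ℝ → Prop} {κ : ℝ} (hGen : DeepHyp Gen κ) :
    ∃ C c0 : ℝ, 1 ≤ C ∧ 0 < c0 ∧ ∀ c1 : ℝ, 0 < c1 → c1 ≤ c0 → ∃ T0 : ℝ, 1 ≤ T0 ∧
    ∀ (X K1 K2 L : ℝ) (n N G b₀ : ℕ) (O O' V W : Finset ℕ) (R R' : ℕ → ℝ)
    (γ γ' : Finset ℕ → ℝ) (F : ℕ × ℕ → ℝ) (PG PF PE : ℕ × ℕ → Prop),
    b₀.Prime → T0 ≤ (2:ℝ)^n → X ≤ Real.exp (((2:ℝ)^n)^c1) → 0 < G → 0 ≤ K1 → 0 ≤ K2 →
    (∀ p ∈ O, p.Prime ∧ N ≤ p) → (∀ p ∈ O', p.Prime ∧ N ≤ p) →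
    (∀ w ∈ V, 0 < w ∧ 0 < R w) → (∀ w ∈ W, 0 < w ∧ 0 < R' w) →
    (∀ w ∈ V, R w ≤ L * mu O' R w) → (∀ w ∈ W, R' w ≤ L * mu O R' w) →
    (∀ w ∈ V, b₀ ∣ uu O' w) → (∀ w ∈ W, ¬ b₀ ∣ uu O w) →
    (∀ z : ℝ, X ≤ z → ∀ w ∈ V, Crest.Agent.R4.ClsB.Tame z (G * b₀) (uu O' w)) →
    (∀ z : ℝ, X ≤ z → ∀ w ∈ W, Crest.Agent.R4.ClsB.Tame z G (uu O w)) →
    (∀ e ∈ V ×ˢ W, 1 < Dc O O' R R' e → F e ≤ K1 * (R e.1 * R' e.2)) →
    (∀ e ∈ V ×ˢ W, Dc O O' R R' e ≤ 1 → F e ≤ K2 * ((R e.1 * R' e.2) / Dc O O' R R' e)) →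
    (∀ e ∈ V ×ˢ W, PG e → ∀ t : ℝ, (2:ℝ)^n ≤ t → 1/(2*t) < Dc O O' R R' e →
      Dc O O' R R' e ≤ 1/t → 0 < F e →
      Gen (γ (miss O' e.1)) (b₀ * γ' (miss O e.2)) t (cof (uu O' e.1) (b₀ * uu O e.2))
        (cof (b₀ * uu O e.2) (uu O' e.1)) (Rc O' R e.1) (b₀ * Rc O R' e.2)) →
    (∀ e ∈ V ×ˢ W, PF e → 1 < 2 * (mm O O' e)^10 * Dc O O' R R' e) →
    (∀ e ∈ V ×ˢ W, ∀ f ∈ V ×ˢ W, PE e → PE f → miss O e.2 = miss O f.2 → e.1 = f.1 → e.2 = f.2) →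
    (∀ e ∈ V ×ˢ W, ∀ f ∈ V ×ˢ W, PE e → PE f → miss O' e.1 = miss O' f.1 → e.2 = f.2 → e.1 = f.1) →
    ∑ e ∈ V ×ˢ W, F e ≤
      K1 * L^2 * ((∑ q ∈ V, mu O' R q) * (∑ r ∈ W, mu O R' r)) +
      K2 * L^2 * (n * (2 * KH 1 0 eps1 * Bf b₀ eps1 * (2:ℝ)^(2*eps1*n)) +
          C * ((2:ℝ)^n)^(-κ) * ((b₀:ℝ) - 1)^(-(1/2-eps1)) + 60000 * KH 1 0 eps1 * Bf b₀ eps1) *
        (Real.exp ((1/2-eps1) * ((∑ p ∈ O, (p:ℝ)^(-(11/12):ℝ)) + ∑ p ∈ O', (p:ℝ)^(-(11/12):ℝ))) *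
        ((∑ q ∈ V, om O' q * mu O' R q) * (∑ r ∈ W, om O r * mu O R' r))^(1/2+eps1)) +
      K2 * (1 / Real.sqrt b₀) *
        Real.exp ((1/2) * ((∑ p ∈ O, (p:ℝ)^(-(11/12):ℝ)) + ∑ p ∈ O', (p:ℝ)^(-(11/12):ℝ))) *
        ((∑ q ∈ V, om O' q * R q) * (∑ r ∈ W, om O r * R' r))^(1/2:ℝ) +
      ∑ e ∈ (V ×ˢ W).filter (fun e => LeftO O O' R R' n PG PF e ∧ ¬ PE e), F e := by
  obtain ⟨C, c0, hC1, hc0, hC⟩ := crossB_g (crossHyp_of hGen)
  refine ⟨C, c0, hC1, hc0, ?_⟩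
  intro c1 hc1 hc10
  obtain ⟨T0, hT01, hT0⟩ := hC c1 hc1 hc10
  refine ⟨T0, hT01, ?_⟩
  intro X K1 K2 L n N G b₀ O O' V W R R' γ γ' F PG PF PE hb₀ hTn hX hG hK10 hK20 hO hO' hV hW hLV hLW
    hbV hbW hVt hWt hbig hsmall hgen hPF hm1 hm2
  have he1 : eps1 = 1/1000 := rfl
  have h2n : (0:ℝ) < (2:ℝ)^n := by positivity
  set D : ℕ × ℕ → ℝ := Dc O O' R R' with hDdef
  have hDpos : ∀ e ∈ V ×ˢ W, 0 < D e := by
    intro e he
    have h := Finset.mem_product.1 he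
    exact Dc_pos hO hO' (hV _ h.1).2 (hW _ h.2).1
  have hmu : ∀ q ∈ V, 0 ≤ mu O' R q := fun q hq => mu_nonneg (hV q hq).2.le
  have hmu' : ∀ q ∈ W, 0 ≤ mu O R' q := fun q hq => mu_nonneg (hW q hq).2.le
  have hKH := (KH_pos 1 0 eps1).le
  have hBf := Bf_nonneg b₀ eps1
  have hbm : (0:ℝ) < (b₀:ℝ) - 1 := by
    have : (2:ℝ) ≤ b₀ := by exact_mod_cast hb₀.two_le
    linarith
  set P := V ×ˢ W with hP
  set E1 := P.filter (fun e => 1 < D e) with hE1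
  set EN := P.filter (fun e => ¬ 1 < D e) with hEN
  set EY := EN.filter (fun e => (1/2:ℝ)^n < D e) with hEY
  set EX := EN.filter (fun e => ¬ (1/2:ℝ)^n < D e) with hEX
  set EG := EX.filter (fun e => PG e) with hEG
  set EH := EX.filter (fun e => ¬ PG e) with hEH
  set EF := EH.filter (fun e => PF e) with hEF
  set EK := EH.filter (fun e => ¬ PF e) with hEK
  set EM := EK.filter (fun e => PE e) with hEM
  set ER := EK.filter (fun e => ¬ PE e) with hER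
  have hsplit : ∑ e ∈ P, F e = ∑ e ∈ E1, F e + (∑ e ∈ EY, F e +
      (∑ e ∈ EG, F e + (∑ e ∈ EF, F e + (∑ e ∈ EM, F e + ∑ e ∈ ER, F e)))) := by
    rw [hEM, hER, Finset.sum_filter_add_sum_filter_not, hEF, hEK, Finset.sum_filter_add_sum_filter_not,
      hEG, hEH, Finset.sum_filter_add_sum_filter_not,
      hEY, hEX, Finset.sum_filter_add_sum_filter_not, hE1, hEN, Finset.sum_filter_add_sum_filter_not]
  have hENP : ∀ e ∈ EN, e ∈ P ∧ D e ≤ 1 := fun e he =>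
    ⟨(Finset.mem_filter.1 he).1, not_lt.1 (Finset.mem_filter.1 he).2⟩
  have hEYP : ∀ e ∈ EY, e ∈ EN := fun e he => (Finset.mem_filter.1 he).1
  have hEXP : ∀ e ∈ EX, e ∈ EN := fun e he => (Finset.mem_filter.1 he).1
  have hEGP : ∀ e ∈ EG, e ∈ EX := fun e he => (Finset.mem_filter.1 he).1
  have hEHP : ∀ e ∈ EH, e ∈ EX := fun e he => (Finset.mem_filter.1 he).1
  have hEFP : ∀ e ∈ EF, e ∈ EH := fun e he => (Finset.mem_filter.1 he).1
  have hEKP : ∀ e ∈ EK, e ∈ EH := fun e he => (Finset.mem_filter.1 he).1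
  have hEMP : ∀ e ∈ EM, e ∈ EK := fun e he => (Finset.mem_filter.1 he).1
  have hERP : ∀ e ∈ ER, e ∈ EK := fun e he => (Finset.mem_filter.1 he).1
  have hRR : ∀ e ∈ P, R e.1 * R' e.2 ≤ L^2 * (mu O' R e.1 * mu O R' e.2) := by
    intro e he
    have h := Finset.mem_product.1 he
    have h1 := hLV _ h.1
    have h2 := hLW _ h.2
    have h3 := (hW _ h.2).2
    have h5 : 0 ≤ L * mu O' R e.1 := (hV _ h.1).2.le.trans h1
    calc R e.1 * R' e.2 ≤ (L * mu O' R e.1) * (L * mu O R' e.2) :=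
          mul_le_mul h1 h2 h3.le h5
      _ = _ := by ring
  have hFmu : ∀ e ∈ EN, F e ≤ K2 * L^2 * ((mu O' R e.1 * mu O R' e.2) / D e) := by
    intro e he
    have heP := hENP e he
    calc F e ≤ K2 * ((R e.1 * R' e.2) / D e) := hsmall e heP.1 heP.2
      _ ≤ K2 * ((L^2 * (mu O' R e.1 * mu O R' e.2)) / D e) :=
          mul_le_mul_of_nonneg_left (div_le_div_of_nonneg_right (hRR e heP.1) (hDpos e heP.1).le) hK20
      _ = K2 * L^2 * ((mu O' R e.1 * mu O R' e.2) / D e) := by ring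
  have bound1 : ∑ e ∈ E1, F e ≤ K1 * L^2 * ((∑ q ∈ V, mu O' R q) * (∑ r ∈ W, mu O R' r)) := by
    calc ∑ e ∈ E1, F e ≤ ∑ e ∈ E1, K1 * L^2 * (mu O' R e.1 * mu O R' e.2) := by
          apply Finset.sum_le_sum
          intro e he
          have he' := Finset.mem_filter.1 he
          refine (hbig e he'.1 he'.2).trans ?_
          rw [mul_assoc]
          exact mul_le_mul_of_nonneg_left (hRR e he'.1) hK10
      _ ≤ ∑ e ∈ P, K1 * L^2 * (mu O' R e.1 * mu O R' e.2) := by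
          apply Finset.sum_le_sum_of_subset_of_nonneg (Finset.filter_subset _ _)
          intro e he _
          have h := Finset.mem_product.1 he
          have := hmu _ h.1
          have := hmu' _ h.2
          positivity
      _ = _ := by rw [← Finset.mul_sum, Finset.sum_mul_sum, ← Finset.sum_product']
  have hpow : (1/2:ℝ)^n = 1/2^n := by rw [div_pow, one_pow]
  have hEXD : ∀ e ∈ EX, D e ≤ 1/2^n := by
    intro e he
    have := not_lt.1 (Finset.mem_filter.1 he).2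
    rw [hpow] at this
    exact this
  have hα : (0:ℝ) < 1/2-eps1 := by rw [he1]; norm_num
  have hβ : (0:ℝ) < 1/2+eps1 := by rw [he1]; norm_num
  have hO0 : ∀ p ∈ O, 0 < p := fun p hp => (hO p hp).1.pos
  have hO0' : ∀ p ∈ O', 0 < p := fun p hp => (hO' p hp).1.pos
  have sE : ∀ {E : Finset (ℕ × ℕ)} {S S' : Finset ℕ} (e : ℕ × ℕ), e ∈ Eg O O' E S S' → e ∈ E :=
    fun e he => (Finset.mem_filter.1 he).1
  have boundY := group_sum_w (E := EY) (F := F) (G := n * (2 * (K2 * L^2) * KH 1 0 eps1 * Bf b₀ eps1 * (2:ℝ)^(2*eps1*n)))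
    hα hβ (by ring) (by rw [he1]; norm_num) hO0 hO0' (fun e he => (hENP e (hEYP e he)).1) hmu hmu'
    (by positivity) (by
      intro S hS S' hS'
      exact mid_dyadic_x_g (ε := eps1) (by rw [he1]; norm_num) (by rw [he1]; norm_num) hO hO' hV hW
        hb₀ hbV hbW hS hS'
        (K := K2 * L^2) (by positivity) (F := F) n (Eg O O' EY S S')
        (fun e he => (hENP e (hEYP e (sE e he))).1) sub_ES
        (fun e he => (hENP e (hEYP e (sE e he))).2)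
        (fun e he => (Finset.mem_filter.1 (sE e he)).2)
        (fun e he => hFmu e (hEYP e (sE e he))))
  have boundG := group_sum_w (E := EG) (F := F) (G := C * (K2 * L^2) * ((2:ℝ)^n)^(-κ) * ((b₀:ℝ) - 1)^(-(1/2-eps1)))
    hα hβ (by ring) (by rw [he1]; norm_num) hO0 hO0' (fun e he => (hENP e (hEXP e (hEGP e he))).1) hmu hmu'
    (by positivity) (by
      intro S hS S' hS'
      exact hT0 ((2:ℝ)^n) X (K2 * L^2) N G b₀ O O' V W (Eg O O' EG S S') R R' γ γ' F S S' hb₀ hTn hX (by positivity)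
        hG hO hO' hV hW hbV hbW hVt hWt (fun e he => (hENP e (hEXP e (hEGP e (sE e he)))).1) hS hS' sub_ES
        (fun e he => hEXD e (hEGP e (sE e he)))
        (fun e he => hFmu e (hEXP e (hEGP e (sE e he))))
        (by
          intro e he t ht h1 h2 h3
          exact hgen e (hENP e (hEXP e (hEGP e (sE e he)))).1 (Finset.mem_filter.1 (sE e he)).2
            t ht h1 h2 h3))
  have boundF := group_sum_t (E := EF) (F := F) (G := K2 * L^2 * (60000 * KH 1 0 eps1 * Bf b₀ eps1)) (τ := 22/1000)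
    hα hβ (by ring) (by rw [he1]; norm_num) hO0 hO0' (fun e he => (hENP e (hEXP e (hEHP e (hEFP e he)))).1) hmu hmu'
    (by positivity) (by
      intro S hS S' hS'
      exact ff_x_g hO hO' hV hW hb₀ hbV hbW (fun e he => (hENP e (hEXP e (hEHP e (hEFP e (sE e he))))).1) hS hS' sub_ES
        (by positivity) (fun e he => (hENP e (hEXP e (hEHP e (hEFP e (sE e he))))).2)
        (fun e he => hPF e (hENP e (hEXP e (hEHP e (hEFP e (sE e he))))).1 (Finset.mem_filter.1 (sE e he)).2)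
        (fun e he => hFmu e (hEXP e (hEHP e (hEFP e (sE e he))))))
  have boundM := group_sum_w (E := EM) (F := F) (G := K2 * (1 / Real.sqrt b₀)) (α := 1/2) (β := 1/2)
    (μ := R) (μ' := R') (by norm_num) (by norm_num) (by norm_num) (by norm_num) hO0 hO0'
    (fun e he => (hENP e (hEXP e (hEHP e (hEKP e (hEMP e he))))).1)
    (fun q hq => (hV q hq).2.le) (fun q hq => (hW q hq).2.le)
    (by positivity) (by
      intro S hS S' hS'
      have hin : ∀ e ∈ Eg O O' EM S S', e ∈ P ∧ D e ≤ 1 := fun e he =>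
        hENP e (hEXP e (hEHP e (hEKP e (hEMP e (sE e he)))))
      exact match_x_g hb₀ hO hO' hV hW (fun e he => (hin e he).1) hbV hbW hS hS' sub_ES
        (fun e he f hf => hm1 e (hin e he).1 f (hin f hf).1 (Finset.mem_filter.1 (sE e he)).2
          (Finset.mem_filter.1 (sE f hf)).2)
        (fun e he f hf => hm2 e (hin e he).1 f (hin f hf).1 (Finset.mem_filter.1 (sE e he)).2
          (Finset.mem_filter.1 (sE f hf)).2)
        hK20 (fun e he => hsmall e (hin e he).1 (hin e he).2))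
  have eR : ER = P.filter (fun e => LeftO O O' R R' n PG PF e ∧ ¬ PE e) := by
    ext e
    constructor
    · intro he
      have h0 := hERP e he
      have h1 := hEHP e (hEKP e h0)
      exact Finset.mem_filter.2 ⟨(hENP e (hEXP e h1)).1, ⟨hEXD e h1, (Finset.mem_filter.1 (hEKP e h0)).2,
        (Finset.mem_filter.1 h0).2⟩, (Finset.mem_filter.1 he).2⟩
    · intro he
      obtain ⟨h0, ⟨h2, h3, h4⟩, h6⟩ := Finset.mem_filter.1 he
      have h2' : D e ≤ 1/2^n := h2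
      have h5 : D e ≤ 1 := by
        refine h2'.trans ?_
        rw [div_le_one h2n]
        exact one_le_pow₀ (by norm_num)
      exact Finset.mem_filter.2 ⟨Finset.mem_filter.2 ⟨Finset.mem_filter.2 ⟨Finset.mem_filter.2 ⟨Finset.mem_filter.2
        ⟨h0, not_lt.2 h5⟩, not_lt.2 (by rw [hpow]; exact h2')⟩, h3⟩, h4⟩, h6⟩
  rw [hsplit, ← eR]
  set X1 := Real.exp ((1/2-eps1) * ((∑ p ∈ O, (p:ℝ)^(-(11/12):ℝ)) + ∑ p ∈ O', (p:ℝ)^(-(11/12):ℝ))) with hX1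
  set Y1 := ((∑ q ∈ V, om O' q * mu O' R q) * (∑ r ∈ W, om O r * mu O R' r))^(1/2+eps1) with hY1
  have hfin : K2 * L^2 * (n * (2 * KH 1 0 eps1 * Bf b₀ eps1 * (2:ℝ)^(2*eps1*n)) +
          C * ((2:ℝ)^n)^(-κ) * ((b₀:ℝ) - 1)^(-(1/2-eps1)) + 60000 * KH 1 0 eps1 * Bf b₀ eps1) *
        (X1 * Y1)
      = n * (2 * (K2 * L^2) * KH 1 0 eps1 * Bf b₀ eps1 * (2:ℝ)^(2*eps1*n)) * X1 * Y1 +
        C * (K2 * L^2) * ((2:ℝ)^n)^(-κ) * ((b₀:ℝ) - 1)^(-(1/2-eps1)) * X1 * Y1 +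
        K2 * L^2 * (60000 * KH 1 0 eps1 * Bf b₀ eps1) * X1 * Y1 := by
    ring
  rw [hfin]
  linarith

end Crest.Agent.R4.OSCore709
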