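import Mathlib
import Crest.Agent.R4.OSCore709

/-!
R4 (S0004), helper709: ONE-SIDED columns with numbers and classes (245 #15015).
-/

set_option autoImplicit false
open Finset

namespace Crest.Agent.R4.OSCore709
open Crest.Agent.R4.HVW560 Crest.Agent.R4.HVWX793
open Crest.Agent.R4.Schur709 Crest.Agent.R4.StopHvw709 Crest.Agent.R4.StopAsm709
open Crest.Agent.R4.ClsS (eps1)

open Filter in
lemma os_numbers (KHc C c0 T0 CL : ℝ) (hKH : 0 ≤ KHc) (hC : 1 ≤ C) (hc0 : 0 < c0) (hCL : 1 ≤ CL) :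
    ∀ᶠ x : ℝ in atTop, T0 ≤ x^(1/4:ℝ)/2 ∧ x ≤ Real.exp ((x^(1/4:ℝ)/2)^c0) ∧
      6 * (CL * Real.log x)^2 ≤ (Real.log x)^3 ∧
      (∀ n : ℕ, (n:ℝ) * Real.log 2 ≤ 1/4 * Real.log x → ∀ κ : ℝ, 0 ≤ κ →
        6 * (CL * Real.log x)^2 * (n * (2 * KHc * (2:ℝ)^(2*eps1*n)) + C * ((2:ℝ)^n)^(-κ) + 60000 * KHc) *
          Real.exp 1 ≤ x^(3/4000:ℝ)) ∧
      2 * x^(-(499/1000):ℝ) * x^(3/4000:ℝ) ≤ x^(-(498/1000):ℝ) ∧
      6 * (1 / Real.sqrt x) * Real.exp 1 ≤ x^(-(498/1000):ℝ) := by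
  have he1 : eps1 = 1/1000 := rfl
  have t1 : Tendsto (fun x : ℝ => x^(1/4:ℝ)) atTop atTop := tendsto_rpow_atTop (by norm_num)
  have t2 : Tendsto (fun x : ℝ => x^(1/4000:ℝ)) atTop atTop := tendsto_rpow_atTop (by norm_num)
  have t3 : Tendsto (fun x : ℝ => x^(2/1000:ℝ)) atTop atTop := tendsto_rpow_atTop (by norm_num)
  have e1 : ∀ᶠ x : ℝ in atTop, 2 * T0 ≤ x^(1/4:ℝ) := t1.eventually_ge_atTop _
  have e2 : ∀ᶠ x : ℝ in atTop, (2:ℝ)^c0 * (Real.log x)^1 ≤ x^(c0/4) :=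
    ev_log_le _ _ _ (by positivity) (by positivity)
  have e3 : ∀ᶠ x : ℝ in atTop, 6 * CL^2 + 1 ≤ Real.log x :=
    Real.tendsto_log_atTop.eventually_ge_atTop _
  have e4 : ∀ᶠ x : ℝ in atTop, (6 * CL^2 * (60002 * KHc + C) * Real.exp 1) * (Real.log x)^3 ≤ x^(1/4000:ℝ) :=
    ev_log_le _ _ _ (by norm_num) (by positivity)
  have e5 : ∀ᶠ x : ℝ in atTop, 2 ≤ x^(1/4000:ℝ) := t2.eventually_ge_atTop _
  have e6 : ∀ᶠ x : ℝ in atTop, 6 * Real.exp 1 ≤ x^(2/1000:ℝ) := t3.eventually_ge_atTop _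
  filter_upwards [e1, e2, e3, e4, e5, e6, eventually_ge_atTop (1:ℝ)] with x h1 h2 h3 h4 h5 h6 hx1
  have hx0 : 0 < x := by linarith
  have hl1 : 1 ≤ Real.log x := by nlinarith
  refine ⟨by linarith, ?_, ?_, ?_, ?_, ?_⟩
  · rw [← Real.log_le_iff_le_exp hx0, Real.div_rpow (by positivity) (by norm_num), ← Real.rpow_mul hx0.le]
    rw [le_div_iff₀ (by positivity)]
    rw [pow_one] at h2
    calc Real.log x * 2^c0 = 2^c0 * Real.log x := mul_comm _ _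
      _ ≤ x^(c0/4) := h2
      _ = x^(1/4*c0) := by congr 1; ring
  · have : 6 * CL^2 ≤ Real.log x := by linarith
    calc 6 * (CL * Real.log x)^2 = (6 * CL^2) * (Real.log x)^2 := by ring
      _ ≤ Real.log x * (Real.log x)^2 := mul_le_mul_of_nonneg_right this (by positivity)
      _ = _ := by ring
  · intro n hn κ hκ
    have hl2 : (0.5:ℝ) ≤ Real.log 2 := by have := Real.log_two_gt_d9; linarith
    have hn1 : (n:ℝ) ≤ Real.log x := by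
      have h0 : (0:ℝ) ≤ n := Nat.cast_nonneg _
      nlinarith
    have h2n : (2:ℝ)^(2*eps1*n) ≤ x^(1/2000:ℝ) := by
      rw [Real.rpow_def_of_pos (by norm_num), Real.rpow_def_of_pos hx0]
      apply Real.exp_le_exp.2
      rw [he1]; nlinarith
    have hpow : ((2:ℝ)^n)^(-κ) ≤ 1 := by
      apply Real.rpow_le_one_of_one_le_of_nonpos (one_le_pow₀ (by norm_num)) (by linarith)
    have hxs : 1 ≤ x^(1/2000:ℝ) := Real.one_le_rpow hx1 (by norm_num)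
    have hlx : 1 ≤ Real.log x * x^(1/2000:ℝ) := by nlinarith
    have hsum : n * (2 * KHc * (2:ℝ)^(2*eps1*n)) + C * ((2:ℝ)^n)^(-κ) + 60000 * KHc
        ≤ (60002 * KHc + C) * (Real.log x * x^(1/2000:ℝ)) := by
      have p1 : n * (2 * KHc * (2:ℝ)^(2*eps1*n)) ≤ Real.log x * (2 * KHc * x^(1/2000:ℝ)) :=
        mul_le_mul hn1 (mul_le_mul_of_nonneg_left h2n (by positivity)) (by positivity) (by linarith)
      have p2 : C * ((2:ℝ)^n)^(-κ) ≤ C * (Real.log x * x^(1/2000:ℝ)) :=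
        mul_le_mul_of_nonneg_left (hpow.trans hlx) (by linarith)
      have p3 : 60000 * KHc ≤ 60000 * KHc * (Real.log x * x^(1/2000:ℝ)) := by
        have := mul_le_mul_of_nonneg_left hlx (by positivity : 0 ≤ 60000 * KHc)
        linarith
      nlinarith
    calc 6 * (CL * Real.log x)^2 * (n * (2 * KHc * (2:ℝ)^(2*eps1*n)) + C * ((2:ℝ)^n)^(-κ) + 60000 * KHc) *
          Real.exp 1
        ≤ 6 * (CL * Real.log x)^2 * ((60002 * KHc + C) * (Real.log x * x^(1/2000:ℝ))) * Real.exp 1 := by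
          apply mul_le_mul_of_nonneg_right _ (Real.exp_nonneg _)
          exact mul_le_mul_of_nonneg_left hsum (by positivity)
      _ = ((6 * CL^2 * (60002 * KHc + C) * Real.exp 1) * (Real.log x)^3) * x^(1/2000:ℝ) := by ring
      _ ≤ x^(1/4000:ℝ) * x^(1/2000:ℝ) := mul_le_mul_of_nonneg_right h4 (by positivity)
      _ = x^(3/4000:ℝ) := by rw [← Real.rpow_add hx0]; norm_num
  · calc 2 * x^(-(499/1000):ℝ) * x^(3/4000:ℝ) ≤ x^(1/4000:ℝ) * x^(-(499/1000):ℝ) * x^(3/4000:ℝ) := by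
          apply mul_le_mul_of_nonneg_right _ (by positivity)
          exact mul_le_mul_of_nonneg_right h5 (by positivity)
      _ = x^(-(498/1000):ℝ) := by
          rw [← Real.rpow_add hx0, ← Real.rpow_add hx0]; norm_num
  · rw [Real.sqrt_eq_rpow, one_div (x^(1/2:ℝ)), ← Real.rpow_neg hx0.le]
    calc 6 * x^(-(1/2):ℝ) * Real.exp 1 = (6 * Real.exp 1) * x^(-(1/2):ℝ) := by ring
      _ ≤ x^(2/1000:ℝ) * x^(-(1/2):ℝ) := mul_le_mul_of_nonneg_right h6 (by positivity)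
      _ = x^(-(498/1000):ℝ) := by rw [← Real.rpow_add hx0]; norm_num

/-- the level `n` of a column -/
lemma lev_bounds {p n : ℕ} (hp : 2 ≤ p) (hn : n = ⌊1/4 * Real.log p / Real.log 2⌋₊) :
    (n:ℝ) * Real.log 2 ≤ 1/4 * Real.log p ∧ (p:ℝ)^(1/4:ℝ)/2 ≤ (2:ℝ)^n := by
  have hp0 : (0:ℝ) < p := by exact_mod_cast (by omega : 0 < p)
  have hp1 : (1:ℝ) ≤ p := by exact_mod_cast (by omega : 1 ≤ p)
  have hlp : 0 ≤ Real.log p := Real.log_nonneg hp1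
  have hl2 : 0 < Real.log 2 := Real.log_pos (by norm_num)
  have hn1 : (n:ℝ) * Real.log 2 ≤ 1/4 * Real.log p := by
    have : (n:ℝ) ≤ 1/4 * Real.log p / Real.log 2 := by rw [hn]; exact Nat.floor_le (by positivity)
    rwa [le_div_iff₀ hl2] at this
  have hn2 : 1/4 * Real.log p < (n + 1) * Real.log 2 := by
    have : 1/4 * Real.log p / Real.log 2 < n + 1 := by rw [hn]; exact Nat.lt_floor_add_one _
    rwa [div_lt_iff₀ hl2] at this
  refine ⟨hn1, ?_⟩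
  have e1 : (2:ℝ)^n = Real.exp (n * Real.log 2) := by
    rw [Real.exp_nat_mul, Real.exp_log (by norm_num)]
  have e2 : (p:ℝ)^(1/4:ℝ)/2 = Real.exp (1/4 * Real.log p - Real.log 2) := by
    rw [Real.exp_sub, Real.exp_log (by norm_num), Real.rpow_def_of_pos hp0, mul_comm (Real.log p)]
  rw [e1, e2]
  apply Real.exp_le_exp.2
  linarith

lemma lev_400 {p n : ℕ} (hp : 2^1604 ≤ p) (hn : n = ⌊1/4 * Real.log p / Real.log 2⌋₊) : 400 ≤ n := by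
  have hl2 : 0 < Real.log 2 := Real.log_pos (by norm_num)
  have h1 : (2:ℝ)^1604 ≤ p := by exact_mod_cast hp
  have h2 : (1604:ℝ) * Real.log 2 ≤ Real.log p := by
    have := Real.log_le_log (by positivity) h1
    rwa [Real.log_pow] at this
  rw [hn]
  apply Nat.le_floor
  rw [le_div_iff₀ hl2]
  push_cast
  nlinarith

open Classical in
/-- **OS column, classified** (no crossing at `p`). `Q` is a free name for the `[F]` pairs without lower bound for `D`. -/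
theorem os_column_cls {CL : ℝ} (hCL : 1 ≤ CL) : ∃ p₀ : ℕ, 2 ≤ p₀ ∧
    ∀ (n p G : ℕ) (O O' V W : Finset ℕ) (R R' : ℕ → ℝ)
    (γ γ' : Finset ℕ → ℝ) (F : ℕ × ℕ → ℝ) (Q : ℕ × ℕ → Prop),
    p₀ ≤ p → n = ⌊1/4 * Real.log p / Real.log 2⌋₊ → 0 < G →
    (∀ q ∈ O, q.Prime ∧ p ≤ q) → (∀ q ∈ O', q.Prime ∧ p ≤ q) →
    ∑ q ∈ O, (q:ℝ)^(-(11/12):ℝ) ≤ 1 → ∑ q ∈ O', (q:ℝ)^(-(11/12):ℝ) ≤ 1 →
    (∀ w ∈ V, 0 < w ∧ 0 < R w) → (∀ w ∈ W, 0 < w ∧ 0 < R' w) →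
    (∀ w ∈ V, R w ≤ (CL * Real.log p) * mu O' R w) → (∀ w ∈ W, R' w ≤ (CL * Real.log p) * mu O R' w) →
    (∀ z : ℝ, (p:ℝ) ≤ z → ∀ w ∈ V, Crest.Agent.R4.ClsB.Tame z G (uu O' w)) →
    (∀ z : ℝ, (p:ℝ) ≤ z → ∀ w ∈ W, Crest.Agent.R4.ClsB.Tame z G (uu O w)) →
    (∀ e ∈ V ×ˢ W, 1 < Dc O O' R R' e → F e ≤ 6 * (R e.1 * R' e.2)) →
    (∀ e ∈ V ×ˢ W, Dc O O' R R' e ≤ 1 → F e ≤ 6 * ((R e.1 * R' e.2) / Dc O O' R R' e)) →
    (∀ e ∈ V ×ˢ W, Dc O O' R R' e ≤ 1/2^n → 0 < F e → RelG O O' R R' γ γ' e) →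
    (∀ e ∈ V ×ˢ W, Dc O O' R R' e ≤ 1/2^n → 0 < F e → FG O O' R R' γ γ' n e →
      1 < 2 * (mm O O' e)^10 * Dc O O' R R' e ∨ Q e) →
    ∑ e ∈ V ×ˢ W, F e ≤
      (Real.log p)^3 * ((∑ q ∈ V, mu O' R q) * (∑ r ∈ W, mu O R' r)) +
      (p:ℝ)^(3/4000:ℝ) * ((∑ q ∈ V, om O' q * mu O' R q) * (∑ r ∈ W, om O r * mu O R' r))^(1/2+eps1) +
      ∑ e ∈ (V ×ˢ W).filter (fun e => 0 < F e ∧ (Dc O O' R R' e ≤ 1/2^n ∧
        (EG O O' R R' γ γ' e ∨ Q e))), F e := by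
  obtain ⟨C, c0, hC1, hc0, hC⟩ := os_core ClsT2.deepHyp_Gen3
  obtain ⟨T0, hT01, hT0⟩ := hC c0 hc0 le_rfl
  obtain ⟨x0, hx0⟩ := Filter.eventually_atTop.1
    (os_numbers (KH 1 0 eps1) C c0 T0 CL (KH_pos 1 0 eps1).le hC1 hc0 hCL)
  refine ⟨max (max 2 (2^1604)) ⌈x0⌉₊, (le_max_left 2 _).trans (le_max_left _ _), ?_⟩
  intro n p G O O' V W R R' γ γ' F Q hp hn hG hO hO' hsO hsO' hV hW hLV hLW hVt hWt hbig hsmall hrel hFG
  have hp2 : 2 ≤ p := ((le_max_left 2 _).trans (le_max_left _ _)).trans hp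
  have hpL : 2^1604 ≤ p := ((le_max_right 2 _).trans (le_max_left _ _)).trans hp
  have hpx : x0 ≤ (p:ℝ) := (Nat.le_ceil x0).trans (by exact_mod_cast (le_max_right _ _).trans hp)
  obtain ⟨g1, g2, g3, g4, _, _⟩ := hx0 p hpx
  have hp0 : (0:ℝ) < p := by exact_mod_cast (by omega : 0 < p)
  obtain ⟨hn1, h2n⟩ := lev_bounds hp2 hn
  have hn400 := lev_400 hpL hn
  have hOp : ∀ p ∈ O, p.Prime := fun q hq => (hO q hq).1
  have hOp' : ∀ p ∈ O', p.Prime := fun q hq => (hO' q hq).1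
  have main := hT0 p 6 6 (CL * Real.log p) n p G O O' V W R R' γ γ' F (AltG O O' R R' γ γ' n)
    (fun e => 1 < 2 * (mm O O' e)^10 * Dc O O' R R' e) (g1.trans h2n)
    (g2.trans (Real.exp_le_exp.2 (Real.rpow_le_rpow (by positivity) h2n hc0.le))) hG (by norm_num)
    (by norm_num) hO hO' hV hW hLV hLW hVt hWt hbig hsmall (by
      intro e he hA t ht h1 h2 hF
      obtain ⟨m, m', hm⟩ := hrel e he (inv_le_of ht h2) hF
      exact gen3_of hm hA ht h1 h2) (fun e _ h => h)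
  refine main.trans (add_le_add (add_le_add ?_ ?_) ?_)
  · apply mul_le_mul_of_nonneg_right g3
    exact mul_nonneg (Finset.sum_nonneg fun q hq => mu_nonneg (hV q hq).2.le)
      (Finset.sum_nonneg fun q hq => mu_nonneg (hW q hq).2.le)
  · rw [← mul_assoc]
    have hb : 0 ≤ (∑ q ∈ V, om O' q * mu O' R q) * (∑ r ∈ W, om O r * mu O R' r) :=
      mul_nonneg (Finset.sum_nonneg fun q hq => mul_nonneg (om_nonneg _ _) (mu_nonneg (hV q hq).2.le))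
        (Finset.sum_nonneg fun q hq => mul_nonneg (om_nonneg _ _) (mu_nonneg (hW q hq).2.le))
    apply mul_le_mul_of_nonneg_right _ (Real.rpow_nonneg hb _)
    refine le_trans ?_ (g4 n hn1 (1/1000) (by norm_num))
    have hKH := (KH_pos 1 0 eps1).le
    apply mul_le_mul
    · norm_num
    · apply Real.exp_le_exp.2
      have he1 : eps1 = 1/1000 := rfl
      rw [he1]
      linarith
    · exact Real.exp_nonneg _
    · positivity
  · apply rest_le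
    intro e he hQ hF
    have h := Finset.mem_product.1 he
    obtain ⟨hD, hnG, hnF⟩ := hQ
    refine ⟨hD, ?_⟩
    rcases classify_G hn400 hOp hOp' (hV _ h.1) (hW _ h.2) (hrel e he hD hF) with h1 | h1 | h1
    · exact absurd h1 hnG
    · exact Or.inl h1
    · rcases hFG e he hD hF h1 with h2 | h2
      · exact absurd h2 hnF
      · exact Or.inr h2

open Classical in
/-- **OS column, classified, pairs crossing at `p`** (`p` divides the averaged items of `V`, not those of `W`). -/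
theorem os_column_x_cls {CL : ℝ} (hCL : 1 ≤ CL) : ∃ p₀ : ℕ, 2 ≤ p₀ ∧
    ∀ (n p G : ℕ) (O O' V W : Finset ℕ) (R R' : ℕ → ℝ)
    (γ γ' : Finset ℕ → ℝ) (F : ℕ × ℕ → ℝ) (Q : ℕ × ℕ → Prop),
    p₀ ≤ p → n = ⌊1/4 * Real.log p / Real.log 2⌋₊ → 0 < G → p.Prime →
    (∀ q ∈ O, q.Prime ∧ p ≤ q) → (∀ q ∈ O', q.Prime ∧ p ≤ q) →
    ∑ q ∈ O, (q:ℝ)^(-(11/12):ℝ) ≤ 1 → ∑ q ∈ O', (q:ℝ)^(-(11/12):ℝ) ≤ 1 →
    (∀ w ∈ V, 0 < w ∧ 0 < R w) → (∀ w ∈ W, 0 < w ∧ 0 < R' w) →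
    (∀ w ∈ V, R w ≤ (CL * Real.log p) * mu O' R w) → (∀ w ∈ W, R' w ≤ (CL * Real.log p) * mu O R' w) →
    (∀ w ∈ V, p ∣ uu O' w) → (∀ w ∈ W, ¬ p ∣ uu O w) →
    (∀ z : ℝ, (p:ℝ) ≤ z → ∀ w ∈ V, Crest.Agent.R4.ClsB.Tame z (G * p) (uu O' w)) →
    (∀ z : ℝ, (p:ℝ) ≤ z → ∀ w ∈ W, Crest.Agent.R4.ClsB.Tame z G (uu O w)) →
    (∀ e ∈ V ×ˢ W, 1 < Dc O O' R R' e → F e ≤ 6 * (R e.1 * R' e.2)) →
    (∀ e ∈ V ×ˢ W, Dc O O' R R' e ≤ 1 → F e ≤ 6 * ((R e.1 * R' e.2) / Dc O O' R R' e)) →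
    (∀ e ∈ V ×ˢ W, Dc O O' R R' e ≤ 1/2^n → 0 < F e → RelG O O' R R' γ γ' e) →
    (∀ e ∈ V ×ˢ W, Dc O O' R R' e ≤ 1/2^n → 0 < F e → FX p O O' R R' γ γ' n e →
      1 < 2 * (mm O O' e)^10 * Dc O O' R R' e ∨ Q e) →
    ∑ e ∈ V ×ˢ W, F e ≤
      (Real.log p)^3 * ((∑ q ∈ V, mu O' R q) * (∑ r ∈ W, mu O R' r)) +
      (p:ℝ)^(-(498/1000):ℝ) *
        ((∑ q ∈ V, om O' q * mu O' R q) * (∑ r ∈ W, om O r * mu O R' r))^(1/2+eps1) +
      (p:ℝ)^(-(498/1000):ℝ) * ((∑ q ∈ V, om O' q * R q) * (∑ r ∈ W, om O r * R' r))^(1/2:ℝ) +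
      ∑ e ∈ (V ×ˢ W).filter (fun e => 0 < F e ∧ (Dc O O' R R' e ≤ 1/2^n ∧ Q e)), F e := by
  obtain ⟨C, c0, hC1, hc0, hC⟩ := os_core_x ClsT2.deepHyp_Gen3
  obtain ⟨T0, hT01, hT0⟩ := hC c0 hc0 le_rfl
  obtain ⟨x0, hx0⟩ := Filter.eventually_atTop.1
    (os_numbers (KH 1 0 eps1) C c0 T0 CL (KH_pos 1 0 eps1).le hC1 hc0 hCL)
  refine ⟨max (max 2 (2^1604)) ⌈x0⌉₊, (le_max_left 2 _).trans (le_max_left _ _), ?_⟩
  intro n p G O O' V W R R' γ γ' F Q hp hn hG hpp hO hO' hsO hsO' hV hW hLV hLW hbV hbW hVt hWt hbig hsmall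
    hrel hFG
  have hp2 : 2 ≤ p := hpp.two_le
  have hpL : 2^1604 ≤ p := ((le_max_right 2 _).trans (le_max_left _ _)).trans hp
  have hpx : x0 ≤ (p:ℝ) := (Nat.le_ceil x0).trans (by exact_mod_cast (le_max_right _ _).trans hp)
  obtain ⟨g1, g2, g3, g4, g5, g6⟩ := hx0 p hpx
  have hp0 : (0:ℝ) < p := by exact_mod_cast (by omega : 0 < p)
  have hp2r : (2:ℝ) ≤ p := by exact_mod_cast hp2
  obtain ⟨hn1, h2n⟩ := lev_bounds hp2 hn
  have hn400 := lev_400 hpL hn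
  have he1 : eps1 = 1/1000 := rfl
  have hOp : ∀ p ∈ O, p.Prime := fun q hq => (hO q hq).1
  have hOp' : ∀ p ∈ O', p.Prime := fun q hq => (hO' q hq).1
  have main := hT0 p 6 6 (CL * Real.log p) n p G p O O' V W R R' γ γ' F (AltX p O O' R R' γ γ' n)
    (fun e => 1 < 2 * (mm O O' e)^10 * Dc O O' R R' e) (EX p O O' R R' γ γ') hpp (g1.trans h2n)
    (g2.trans (Real.exp_le_exp.2 (Real.rpow_le_rpow (by positivity) h2n hc0.le))) hG (by norm_num)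
    (by norm_num) hO hO' hV hW hLV hLW hbV hbW hVt hWt hbig hsmall (by
      intro e he hA t ht h1 h2 hF
      have h := Finset.mem_product.1 he
      have hb1 := hbV _ h.1
      have hb2 := hbW _ h.2
      obtain ⟨m, m', hm⟩ := hrel e he (inv_le_of ht h2) hF
      have hD := Dx_eq (R := R) (R' := R') hpp hOp' (hV _ h.1).1 hb1 hb2
      obtain ⟨e1, e2⟩ := cof_mul_left hpp hb1 hb2 (uu_pos hOp' (hV _ h.1).1)
      rw [← hD] at h1 h2
      refine gen3_of (m := m) (m' := p * m') ?_ hA ht h1 h2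
      rw [hD, e2]
      rw [← e1] at hm
      convert hm using 2
      push_cast
      ring) (fun e _ h => h)
    (fun e _ f _ he hf hm h1 => EX_partner hpp hOp hOp' he hf hm h1)
    (fun e _ f _ he hf hm h1 => EX_partner' hpp hOp hOp' he hf hm h1)
  have hKH := (KH_pos 1 0 eps1).le
  have hBf : Bf p eps1 ≤ 2 * (p:ℝ)^(-(499/1000):ℝ) := by
    have := Bf_le hpp (ε := eps1) (by rw [he1]; norm_num) (by rw [he1]; norm_num)
    rw [he1] at this ⊢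
    norm_num at this ⊢
    exact this
  have hBf0 := Bf_nonneg p eps1
  have hp1 : ((p:ℝ) - 1)^(-(1/2-eps1)) ≤ 2 * (p:ℝ)^(-(499/1000):ℝ) := by
    have h1 : (p:ℝ)/2 ≤ (p:ℝ) - 1 := by linarith
    have e0 : -(1/2-eps1) = (-(499/1000):ℝ) := by rw [he1]; norm_num
    rw [e0]
    calc ((p:ℝ) - 1)^(-(499/1000):ℝ) ≤ ((p:ℝ)/2)^(-(499/1000):ℝ) :=
          Real.rpow_le_rpow_of_nonpos (by positivity) h1 (by norm_num)
      _ = (p:ℝ)^(-(499/1000):ℝ) * (2:ℝ)^(499/1000:ℝ) := by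
          rw [Real.div_rpow hp0.le (by norm_num), Real.rpow_neg (by norm_num : (0:ℝ) ≤ 2), div_inv_eq_mul]
      _ ≤ (p:ℝ)^(-(499/1000):ℝ) * 2 := by
          apply mul_le_mul_of_nonneg_left _ (by positivity)
          calc (2:ℝ)^(499/1000:ℝ) ≤ (2:ℝ)^(1:ℝ) :=
                Real.rpow_le_rpow_of_exponent_le (by norm_num) (by norm_num)
            _ = 2 := Real.rpow_one _
      _ = _ := by ring
  refine main.trans (add_le_add (add_le_add (add_le_add ?_ ?_) ?_) ?_)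
  · apply mul_le_mul_of_nonneg_right g3
    exact mul_nonneg (Finset.sum_nonneg fun q hq => mu_nonneg (hV q hq).2.le)
      (Finset.sum_nonneg fun q hq => mu_nonneg (hW q hq).2.le)
  · rw [← mul_assoc]
    have hb : 0 ≤ (∑ q ∈ V, om O' q * mu O' R q) * (∑ r ∈ W, om O r * mu O R' r) :=
      mul_nonneg (Finset.sum_nonneg fun q hq => mul_nonneg (om_nonneg _ _) (mu_nonneg (hV q hq).2.le))
        (Finset.sum_nonneg fun q hq => mul_nonneg (om_nonneg _ _) (mu_nonneg (hW q hq).2.le))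
    apply mul_le_mul_of_nonneg_right _ (Real.rpow_nonneg hb _)
    have h5 : Real.exp ((1/2-eps1) * ((∑ p ∈ O, (p:ℝ)^(-(11/12):ℝ)) + ∑ p ∈ O', (p:ℝ)^(-(11/12):ℝ)))
        ≤ Real.exp 1 := by
      apply Real.exp_le_exp.2
      rw [he1]
      linarith
    have hT1 : (0:ℝ) ≤ ((2:ℝ)^n)^(-(1/1000):ℝ) := by positivity
    have hC0 : 0 ≤ C := by linarith
    calc 6 * (CL * Real.log p)^2 * (n * (2 * KH 1 0 eps1 * Bf p eps1 * (2:ℝ)^(2*eps1*n)) +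
          C * ((2:ℝ)^n)^(-(1/1000):ℝ) * ((p:ℝ) - 1)^(-(1/2-eps1)) + 60000 * KH 1 0 eps1 * Bf p eps1) *
          Real.exp ((1/2-eps1) * ((∑ p ∈ O, (p:ℝ)^(-(11/12):ℝ)) + ∑ p ∈ O', (p:ℝ)^(-(11/12):ℝ)))
        ≤ 6 * (CL * Real.log p)^2 * ((n * (2 * KH 1 0 eps1 * (2:ℝ)^(2*eps1*n)) +
          C * ((2:ℝ)^n)^(-(1/1000):ℝ) + 60000 * KH 1 0 eps1) * (2 * (p:ℝ)^(-(499/1000):ℝ))) *
          Real.exp 1 := by
          apply mul_le_mul _ h5 (Real.exp_nonneg _) (by positivity)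
          apply mul_le_mul_of_nonneg_left _ (by positivity)
          have q1 : n * (2 * KH 1 0 eps1 * Bf p eps1 * (2:ℝ)^(2*eps1*n)) ≤
              n * (2 * KH 1 0 eps1 * (2:ℝ)^(2*eps1*n)) * (2 * (p:ℝ)^(-(499/1000):ℝ)) := by
            calc n * (2 * KH 1 0 eps1 * Bf p eps1 * (2:ℝ)^(2*eps1*n))
                = n * (2 * KH 1 0 eps1 * (2:ℝ)^(2*eps1*n)) * Bf p eps1 := by ring
              _ ≤ _ := mul_le_mul_of_nonneg_left hBf (by positivity)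
          have q2 : C * ((2:ℝ)^n)^(-(1/1000):ℝ) * ((p:ℝ) - 1)^(-(1/2-eps1)) ≤
              C * ((2:ℝ)^n)^(-(1/1000):ℝ) * (2 * (p:ℝ)^(-(499/1000):ℝ)) :=
            mul_le_mul_of_nonneg_left hp1 (by positivity)
          have q3 : 60000 * KH 1 0 eps1 * Bf p eps1 ≤ 60000 * KH 1 0 eps1 * (2 * (p:ℝ)^(-(499/1000):ℝ)) :=
            mul_le_mul_of_nonneg_left hBf (by positivity)
          linarith
      _ = (6 * (CL * Real.log p)^2 * (n * (2 * KH 1 0 eps1 * (2:ℝ)^(2*eps1*n)) +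
          C * ((2:ℝ)^n)^(-(1/1000):ℝ) + 60000 * KH 1 0 eps1) * Real.exp 1) *
          (2 * (p:ℝ)^(-(499/1000):ℝ)) := by ring
      _ ≤ (p:ℝ)^(3/4000:ℝ) * (2 * (p:ℝ)^(-(499/1000):ℝ)) :=
          mul_le_mul_of_nonneg_right (g4 n hn1 (1/1000) (by norm_num)) (by positivity)
      _ = 2 * (p:ℝ)^(-(499/1000):ℝ) * (p:ℝ)^(3/4000:ℝ) := by ring
      _ ≤ _ := g5
  · have hb : 0 ≤ (∑ q ∈ V, om O' q * R q) * (∑ r ∈ W, om O r * R' r) :=
      mul_nonneg (Finset.sum_nonneg fun q hq => mul_nonneg (om_nonneg _ _) (hV q hq).2.le)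
        (Finset.sum_nonneg fun q hq => mul_nonneg (om_nonneg _ _) (hW q hq).2.le)
    apply mul_le_mul_of_nonneg_right _ (Real.rpow_nonneg hb _)
    refine le_trans ?_ g6
    apply mul_le_mul_of_nonneg_left _ (by positivity)
    apply Real.exp_le_exp.2
    linarith
  · apply rest_le
    intro e he hQ hF
    have h := Finset.mem_product.1 he
    obtain ⟨⟨hD, hnG, hnF⟩, hnE⟩ := hQ
    refine ⟨hD, ?_⟩
    rcases classify_X hn400 hpp hOp hOp' (hV _ h.1) (hW _ h.2) (hbV _ h.1) (hbW _ h.2)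
      (hrel e he hD hF) with h1 | h1 | h1
    · exact absurd h1 hnG
    · exact absurd h1 hnE
    · rcases hFG e he hD hF h1 with h2 | h2
      · exact absurd h2 hnF
      · exact h2

end Crest.Agent.R4.OSCore709
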