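import Crest.Agent.R4.IMI194
import Crest.Agent.R4.GDef864
import Crest.Agent.R4.Bdry363

/-!
R4 (S0004), helper194, module G: **the local cost of an NM column, critical pairs against the rest**
(`loc_le` of `GHyp` / `GHyp2`).
-/

set_option autoImplicit false
set_option linter.unusedSectionVars false
set_option linter.unusedVariables false

namespace Crest.Agent.R4.GSplit194

open Crest.Agent.R4.Tour104 Crest.Agent.R4.Tour758 Crest.Agent.R4.Avg758 Crest.Agent.R4.Clos758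
open Crest.Agent.R4.ClosL758 Crest.Agent.R4.ClosG758 Crest.Agent.R4.ClosR758
open Crest.Agent.R4.Fam464 Crest.Agent.R4.Cnt588 Crest.Agent.R4.Walk560 Crest.Agent.R4.Piece464
open Crest.Agent.R4.Item758 Crest.Agent.R4.HVW560 Crest.Agent.R4.AvgItem710
open Crest.Agent.R4.GInst194 Crest.Agent.R4.IMI194 Crest.Agent.R4.GWin864
open Crest.Agent.R4.GAgain864 Crest.Agent.R4.LF363

/-! ### bad pairs: large cofactors, unbalanced radii -/

lemma prod_div_max_le {r r' : ℝ} {x y : ℕ} {Z : ℝ} (hr : 0 < r) (hr' : 0 < r') (hx : 0 < x)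
    (hy : 0 < y) (hZ : 1 ≤ Z) (h : Z < (x : ℝ) * y ∨ Z * r' < r ∨ Z * r < r') :
    r * r' / max (y * r) (x * r') ≤ 1 / Real.sqrt Z * (r + r') := by
  have hx1 : (1 : ℝ) ≤ x := by exact_mod_cast hx
  have hy1 : (1 : ℝ) ≤ y := by exact_mod_cast hy
  have hZ0 : 0 < Z := by linarith
  have hs0 : 0 < Real.sqrt Z := Real.sqrt_pos.2 hZ0
  have hss : Real.sqrt Z * Real.sqrt Z = Z := Real.mul_self_sqrt hZ0.le
  have hs1 : 1 ≤ Real.sqrt Z := Real.one_le_sqrt.2 hZ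
  have hm0 : 0 < max (y * r) (x * r') := lt_max_of_lt_left (by positivity)
  rw [div_le_iff₀ hm0, one_div_mul_eq_div, div_mul_eq_mul_div, le_div_iff₀ hs0]
  have m1 : (y : ℝ) * r ≤ max (y * r) (x * r') := le_max_left _ _
  have m2 : (x : ℝ) * r' ≤ max (y * r) (x * r') := le_max_right _ _
  rcases h with h | h | h
  · -- `max² ≥ xy r r' ≥ Z r r'`
    have h1 : Z * (r * r') ≤ max (y * r) (x * r') ^ 2 := by
      calc Z * (r * r') ≤ (x * y) * (r * r') := by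
            refine mul_le_mul_of_nonneg_right h.le (by positivity)
        _ = (y * r) * (x * r') := by ring
        _ ≤ max (y * r) (x * r') * max (y * r) (x * r') :=
            mul_le_mul m1 m2 (by positivity) hm0.le
        _ = _ := by ring
    have h2 : Real.sqrt Z * Real.sqrt (r * r') ≤ max (y * r) (x * r') := by
      rw [← Real.sqrt_mul hZ0.le]
      exact Real.sqrt_le_iff.2 ⟨hm0.le, h1⟩
    have h3 : Real.sqrt (r * r') * Real.sqrt (r * r') = r * r' :=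
      Real.mul_self_sqrt (by positivity)
    have h4 : Real.sqrt (r * r') ≤ r + r' := by
      refine Real.sqrt_le_iff.2 ⟨by positivity, ?_⟩
      nlinarith
    have h5 : 0 ≤ Real.sqrt (r * r') := Real.sqrt_nonneg _
    calc r * r' * Real.sqrt Z = (Real.sqrt (r * r') * Real.sqrt (r * r')) * Real.sqrt Z := by
          rw [h3]
      _ = Real.sqrt (r * r') * (Real.sqrt Z * Real.sqrt (r * r')) := by ring
      _ ≤ (r + r') * max (y * r) (x * r') := mul_le_mul h4 h2 (by positivity) (by positivity)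
  · -- `r' < r / Z`
    have h1 : r' * Real.sqrt Z ≤ r := by nlinarith
    calc r * r' * Real.sqrt Z = r * (r' * Real.sqrt Z) := by ring
      _ ≤ r * r := mul_le_mul_of_nonneg_left h1 hr.le
      _ ≤ (r + r') * (y * r) := by nlinarith [mul_pos hr hr']
      _ ≤ _ := mul_le_mul_of_nonneg_left m1 (by positivity)
  · have h1 : r * Real.sqrt Z ≤ r' := by nlinarith
    calc r * r' * Real.sqrt Z = r' * (r * Real.sqrt Z) := by ring
      _ ≤ r' * r' := mul_le_mul_of_nonneg_left h1 hr'.le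
      _ ≤ (r + r') * (x * r') := by nlinarith [mul_pos hr hr']
      _ ≤ _ := mul_le_mul_of_nonneg_left m2 (by positivity)

section pbd
variable {θ r θ' r' Z : ℝ} {w M w' M' : ℕ}

lemma gcd_pos {w M : ℕ} (hM : 0 < M) (hw : 0 < w) : 0 < w / M.gcd w :=
  Nat.div_pos (Nat.le_of_dvd hw (Nat.gcd_dvd_right _ _)) (Nat.gcd_pos_of_pos_left _ hM)

/-- gain of the bad pairs -/
theorem pbd_gain (hM : 0 < M) (hM' : 0 < M') (hw : 0 < w) (hw' : 0 < w') (hr : 0 < r)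
    (hr' : 0 < r') (h1 : rf w M = 1) (h1' : rf w' M' = 1) (hD : Da w M w' M' r r' ≤ 1 / 2)
    (hZ : 1 ≤ Z)
    (h : Z < (cof (w / M.gcd w) (w' / M'.gcd w') : ℝ) * cof (w' / M'.gcd w') (w / M.gcd w) ∨
      Z * r' < r ∨ Z * r < r') :
    pbd θ r w M θ' r' w' M' ≤ 2 / Real.sqrt Z * (r + r') := by
  have hZ0 : 0 < Real.sqrt Z := Real.sqrt_pos.2 (by linarith)
  unfold pbd
  rw [if_pos hD]
  split_ifs with hR
  · unfold Da Dp
    rw [h1, h1', Nat.cast_one, one_mul, one_mul]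
    have key := prod_div_max_le (x := cof (w / M.gcd w) (w' / M'.gcd w'))
      (y := cof (w' / M'.gcd w') (w / M.gcd w)) hr hr' (AvgItem710.cof_pos (gcd_pos hM hw))
      (AvgItem710.cof_pos (gcd_pos hM' hw')) hZ h
    calc _ ≤ 2 * (1 / Real.sqrt Z * (r + r')) := mul_le_mul_of_nonneg_left key (by norm_num)
      _ = _ := by ring
  · positivity

/-- the relation of a pair with positive bound -/
lemma rel_of_pbd (h1 : rf w M = 1) (h1' : rf w' M' = 1) (hD : Da w M w' M' r r' ≤ 1 / 2)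
    (h : pbd θ r w M θ' r' w' M' ≠ 0) :
    ∃ n : ℤ, |(n : ℝ) - (θ' * (cof (w / M.gcd w) (w' / M'.gcd w') : ℕ) -
      θ * (cof (w' / M'.gcd w') (w / M.gcd w) : ℕ))| ≤
      (cof (w' / M'.gcd w') (w / M.gcd w) : ℕ) * r + (cof (w / M.gcd w) (w' / M'.gcd w') : ℕ) * r' := by
  unfold pbd at h
  rw [if_pos hD] at h
  split_ifs at h with hR
  · unfold Ra at hR
    rw [h1, h1', Nat.cast_one, one_mul, one_mul, one_mul, one_mul] at hR
    exact hR
  · exact absurd rfl h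

/-- **the kinds of a pair with raising factors one** -/
theorem kinds {η δ : ℝ} (hM : 0 < M) (hM' : 0 < M') (hw : 0 < w) (hw' : 0 < w') (hr : 0 < r)
    (hr' : 0 < r') (h1 : rf w M = 1) (h1' : rf w' M' = 1) (hD : Da w M w' M' r r' ≤ 1 / 2)
    (hδ : 2 * Da w M w' M' r r' ≤ δ) (h : pbd θ r w M θ' r' w' M' ≠ 0) :
    ∃ n : ℤ, |(n : ℝ) - (θ' * (cof (w / M.gcd w) (w' / M'.gcd w') : ℕ) -
        θ * (cof (w' / M'.gcd w') (w / M.gcd w) : ℕ))| ≤
        (cof (w' / M'.gcd w') (w / M.gcd w) : ℕ) * r +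
          (cof (w / M.gcd w) (w' / M'.gcd w') : ℕ) * r' ∧
      (CrD Z η δ θ θ' r r' (cof (w / M.gcd w) (w' / M'.gcd w'))
        (cof (w' / M'.gcd w') (w / M.gcd w)) n ∨
      (Z < (cof (w / M.gcd w) (w' / M'.gcd w') : ℝ) * cof (w' / M'.gcd w') (w / M.gcd w) ∨
        Z * r' < r ∨ Z * r < r') ∨
      (∃ ρ ρ' : ℚ, Lab θ r ρ ∧ Lab θ' r' ρ' ∧
        (n : ℚ) = ρ' * (cof (w / M.gcd w) (w' / M'.gcd w') : ℕ) -
          ρ * (cof (w' / M'.gcd w') (w / M.gcd w) : ℕ)) ∨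
      ((∀ ρ : ℚ, ¬ Lab θ r ρ) ∧ (∀ ρ' : ℚ, ¬ Lab θ' r' ρ') ∧
        |(n : ℝ) - (θ' * (cof (w / M.gcd w) (w' / M'.gcd w') : ℕ) -
          θ * (cof (w' / M'.gcd w') (w / M.gcd w) : ℕ))| ≤ η * min r r')) := by
  obtain ⟨n, hn⟩ := rel_of_pbd h1 h1' hD h
  refine ⟨n, hn, ?_⟩
  set x := cof (w / M.gcd w) (w' / M'.gcd w') with hx
  set y := cof (w' / M'.gcd w') (w / M.gcd w) with hy
  by_cases hb : Z < (x : ℝ) * y ∨ Z * r' < r ∨ Z * r < r'
  · exact Or.inr (Or.inl hb)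
  by_cases hl : ∃ ρ ρ' : ℚ, Lab θ r ρ ∧ Lab θ' r' ρ' ∧ (n : ℚ) = ρ' * (x : ℕ) - ρ * (y : ℕ)
  · exact Or.inr (Or.inr (Or.inl hl))
  by_cases hu : (∀ ρ : ℚ, ¬ Lab θ r ρ) ∧ (∀ ρ' : ℚ, ¬ Lab θ' r' ρ') ∧
      |(n : ℝ) - (θ' * (x : ℕ) - θ * (y : ℕ))| ≤ η * min r r'
  · exact Or.inr (Or.inr (Or.inr hu))
  left
  simp only [not_or, not_lt] at hb
  obtain ⟨b1, b2, b3⟩ := hb
  have hx0 : 0 < x := AvgItem710.cof_pos (gcd_pos hM hw)
  have hy0 : 0 < y := AvgItem710.cof_pos (gcd_pos hM' hw')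
  refine ⟨⟨hr, b2, b3, hx0, hy0, ?_, b1, hn⟩, ⟨fun ρ ρ' k1 k2 k3 => hl ⟨ρ, ρ', k1, k2, k3⟩,
    fun k1 k2 => ?_⟩, ?_⟩
  · rw [hx, hy]
    unfold cof
    rw [Nat.gcd_comm (w' / M'.gcd w') (w / M.gcd w)]
    exact Nat.coprime_div_gcd_div_gcd (Nat.gcd_pos_of_pos_left _ (gcd_pos hM hw))
  · by_contra k3
    exact hu ⟨k1, k2, not_lt.1 k3⟩
  · refine le_trans ?_ hδ
    unfold Da Dp
    rw [h1, h1', Nat.cast_one, one_mul, one_mul]
    have m1 : (y : ℝ) * r ≤ max (y * r) (x * r') := le_max_left _ _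
    have m2 : (x : ℝ) * r' ≤ max (y * r) (x * r') := le_max_right _ _
    linarith

end pbd

/-! ### matching with bad pairs -/

/-- sums over a partial matching -/
lemma sum_match_le {V W : Finset ℕ} {B : Finset (ℕ × ℕ)} {f : ℕ × ℕ → ℝ} {a a' : ℕ → ℝ} {ζ : ℝ}
    (hζ : 0 ≤ ζ) (hB : B ⊆ V ×ˢ W) (ha : ∀ q ∈ V, 0 ≤ a q) (ha' : ∀ r ∈ W, 0 ≤ a' r)
    (h : ∀ e ∈ B, f e ≤ ζ * (a e.1 + a' e.2))
    (u1 : ∀ q r₁ r₂, (q, r₁) ∈ B → (q, r₂) ∈ B → r₁ = r₂)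
    (u2 : ∀ q₁ q₂ r, (q₁, r) ∈ B → (q₂, r) ∈ B → q₁ = q₂) :
    ∑ e ∈ B, f e ≤ ζ * (∑ q ∈ V, a q + ∑ r ∈ W, a' r) := by
  classical
  have i1 : Set.InjOn Prod.fst (B : Set (ℕ × ℕ)) := by
    rintro ⟨x1, x2⟩ hx ⟨y1, y2⟩ hy hxy
    simp only at hxy
    subst hxy
    exact Prod.ext rfl (u1 _ _ _ hx hy)
  have i2 : Set.InjOn Prod.snd (B : Set (ℕ × ℕ)) := by
    rintro ⟨x1, x2⟩ hx ⟨y1, y2⟩ hy hxy
    simp only at hxy
    subst hxy
    exact Prod.ext (u2 _ _ _ hx hy) rfl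
  have s1 : ∑ e ∈ B, a e.1 ≤ ∑ q ∈ V, a q := by
    rw [← Finset.sum_image (f := a) i1]
    refine Finset.sum_le_sum_of_subset_of_nonneg (fun q hq => ?_) fun q hq _ => ha q hq
    obtain ⟨e, he, rfl⟩ := Finset.mem_image.1 hq
    exact (Finset.mem_product.1 (hB he)).1
  have s2 : ∑ e ∈ B, a' e.2 ≤ ∑ r ∈ W, a' r := by
    rw [← Finset.sum_image (f := a') i2]
    refine Finset.sum_le_sum_of_subset_of_nonneg (fun q hq => ?_) fun q hq _ => ha' q hq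
    obtain ⟨e, he, rfl⟩ := Finset.mem_image.1 hq
    exact (Finset.mem_product.1 (hB he)).2
  calc ∑ e ∈ B, f e ≤ ∑ e ∈ B, ζ * (a e.1 + a' e.2) := Finset.sum_le_sum h
    _ = ζ * (∑ e ∈ B, a e.1 + ∑ e ∈ B, a' e.2) := by
        rw [← Finset.mul_sum, Finset.sum_add_distrib]
    _ ≤ _ := mul_le_mul_of_nonneg_left (add_le_add s1 s2) hζ

section split
variable {Λ κ : Type*} [Fintype Λ] [DecidableEq Λ] [Fintype κ] [DecidableEq κ]
  [WRel κ] {D : Item758.Par Λ κ} {ρ : ℕ → ℝ} {M M' b pr c b' pr' c' : ℕ} {t t' : IT} {A A' : Finset Λ}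

/-- cofactor of the left modulus (belongs to the right target) -/
def cx (M pr M' pr' : ℕ) (e : ℕ × ℕ) : ℕ :=
  cof (e.1 / pr / M.gcd (e.1 / pr)) (e.2 / pr' / M'.gcd (e.2 / pr'))

/-- cofactor of the right modulus -/
def cy (M pr M' pr' : ℕ) (e : ℕ × ℕ) : ℕ :=
  cof (e.2 / pr' / M'.gcd (e.2 / pr')) (e.1 / pr / M.gcd (e.1 / pr))

/-- **critical pair of a symbol** -/
def CrK (D : Item758.Par Λ κ) (ρ : ℕ → ℝ) (M b pr c M' b' pr' c' : ℕ) (Z η δ : ℝ) (e : ℕ × ℕ) :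
    Prop :=
  (rf (e.1 / pr) M = 1 ∧ rf (e.2 / pr') M' = 1) ∧ ∃ n : ℤ,
    CrD Z η δ ((b : ℝ) / c * D.γ) ((b' : ℝ) / c' * D.γ) ((b : ℝ) / c * ρ e.1)
      ((b' : ℝ) / c' * ρ e.2) (cx M pr M' pr' e) (cy M pr M' pr' e) n

/-- **the world hypothesis at a symbol**: a pair which is exact for labels of both items is not in the
relation; un-labelled pairs in the relation are in different cells -/
structure WH (D : Item758.Par Λ κ) (ρ : ℕ → ℝ) (R : Finset (Λ × Λ)) (M b pr c M' b' pr' c' : ℕ)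
    (ρ₀ : ℝ) (n₀ d : ℕ) (e : ℕ × ℕ) (z : ℝ) : Prop where
  lab : ∀ (n : ℤ) (σ σ' : ℚ), Lab ((b : ℝ) / c * D.γ) ((b : ℝ) / c * ρ e.1) σ →
    Lab ((b' : ℝ) / c' * D.γ) ((b' : ℝ) / c' * ρ e.2) σ' →
    |(n : ℝ) - ((b' : ℝ) / c' * D.γ * cx M pr M' pr' e - (b : ℝ) / c * D.γ * cy M pr M' pr' e)| ≤
      cy M pr M' pr' e * ((b : ℝ) / c * ρ e.1) + cx M pr M' pr' e * ((b' : ℝ) / c' * ρ e.2) →
    (n : ℚ) = σ' * cx M pr M' pr' e - σ * cy M pr M' pr' e → z = 0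
  unl : (∀ σ : ℚ, ¬ Lab ((b : ℝ) / c * D.γ) ((b : ℝ) / c * ρ e.1) σ) →
    (∀ σ' : ℚ, ¬ Lab ((b' : ℝ) / c' * D.γ) ((b' : ℝ) / c' * ρ e.2) σ') →
    ∀ x ∈ R, D.it x.1 = e.1 → D.it x.2 = e.2 → ∀ z z' : ℝ, D.al x.1 ≤ z → z < D.be x.1 →
      D.al x.2 ≤ z' → z' < D.be x.2 →
      W363.cell (W363.brk ρ₀ n₀ d) (z / e.1) ≠ W363.cell (W363.brk ρ₀ n₀ d) (z' / e.2)

/-- close centres of an un-labelled pair with small offset -/
lemma close_of {w w' : ℕ} {s s' ρe ρe' γ η Da : ℝ} {x y g : ℕ} {P P' : ℝ} {n : ℤ}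
    (hs : 0 < s) (hs' : 0 < s') (hρ : 0 < ρe) (hρ' : 0 < ρe') (hx : 0 < x) (hy : 0 < y)
    (hg : 0 < g) (hw : w = g * x) (hw' : w' = g * y) (hP : 0 < P) (hP' : 0 < P')
    (hPs : P * s = P' * s') (hη0 : 0 ≤ η) (hη : η ≤ 1)
    (hD : y * (s * ρe) + x * (s' * ρe') ≤ 1 / 2)
    (hn : |(n : ℝ) - (s' * γ * x - s * γ * y)| ≤ η * min (s * ρe) (s' * ρe'))
    {a a' : ℤ} {z z' Y : ℝ} (hz : |z| ≤ ρe) (hz' : |z'| ≤ ρe')
    (h1 : s * z = (w : ℝ) * Y - s * γ - a) (h2 : s' * z' = (w' : ℝ) * Y - s' * γ - a') :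
    |z / (P * w) - z' / (P' * w')| ≤ η * min (ρe / (P * w)) (ρe' / (P' * w')) := by
  have hx1 : (1 : ℝ) ≤ x := by exact_mod_cast hx
  have hy1 : (1 : ℝ) ≤ y := by exact_mod_cast hy
  have hg1 : (1 : ℝ) ≤ g := by exact_mod_cast hg
  have hR : 0 < s * ρe := mul_pos hs hρ
  have hR' : 0 < s' * ρe' := mul_pos hs' hρ'
  set m : ℤ := y * a - x * a' with hm
  have e1 : (y : ℝ) * (s * z) - x * (s' * z') = (s' * γ * x - s * γ * y) - m := by
    rw [h1, h2, hw, hw', hm]; push_cast; ring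
  have b1 : |(y : ℝ) * (s * z) - x * (s' * z')| ≤ y * (s * ρe) + x * (s' * ρe') := by
    refine (abs_sub _ _).trans (add_le_add ?_ ?_)
    · rw [abs_mul, abs_mul, abs_of_pos (by linarith : (0:ℝ) < y), abs_of_pos hs]
      exact mul_le_mul_of_nonneg_left (mul_le_mul_of_nonneg_left hz hs.le) (by linarith)
    · rw [abs_mul, abs_mul, abs_of_pos (by linarith : (0:ℝ) < x), abs_of_pos hs']
      exact mul_le_mul_of_nonneg_left (mul_le_mul_of_nonneg_left hz' hs'.le) (by linarith)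
  have hmin : min (s * ρe) (s' * ρe') ≤ 1 / 4 := by
    have m1 := min_le_left (s * ρe) (s' * ρe')
    have m2 := min_le_right (s * ρe) (s' * ρe')
    nlinarith
  have hmin0 : 0 < min (s * ρe) (s' * ρe') := lt_min hR hR'
  have hmn : m = n := by
    have h3 : |((m - n : ℤ) : ℝ)| < 1 := by
      have h4 : ((m - n : ℤ) : ℝ) = -((y : ℝ) * (s * z) - x * (s' * z')) -
          ((n : ℝ) - (s' * γ * x - s * γ * y)) := by
        rw [e1]; push_cast; ring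
      rw [h4]
      refine lt_of_le_of_lt (abs_sub _ _) ?_
      rw [abs_neg]
      have : η * min (s * ρe) (s' * ρe') ≤ 1 / 4 := by nlinarith
      linarith
    have h5 : |m - n| < 1 := by exact_mod_cast h3
    have := Int.abs_lt_one_iff.1 h5
    omega
  have e2 : |(y : ℝ) * (s * z) - x * (s' * z')| ≤ η * min (s * ρe) (s' * ρe') := by
    rw [e1, hmn, abs_sub_comm]; exact hn
  have hT : 0 < P * s * g * x * y := by positivity
  have f1 : z / (P * w) - z' / (P' * w') = ((y : ℝ) * (s * z) - x * (s' * z')) /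
      (P * s * g * x * y) := by
    have k1 : z / (P * w) = (y : ℝ) * (s * z) / (P * s * g * x * y) := by
      rw [hw]; push_cast; field_simp
    have k2 : z' / (P' * w') = (x : ℝ) * (s' * z') / (P * s * g * x * y) := by
      rw [hPs, hw']; push_cast; field_simp
    rw [k1, k2, ← sub_div]
  have f2 : ρe / (P * w) = (y : ℝ) * (s * ρe) / (P * s * g * x * y) := by
    rw [hw]; push_cast; field_simp
  have f3 : ρe' / (P' * w') = (x : ℝ) * (s' * ρe') / (P * s * g * x * y) := by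
    rw [hPs, hw']; push_cast; field_simp
  rw [f1, f2, f3, min_div_div_right hT.le, abs_div, abs_of_pos hT, mul_div_assoc']
  refine div_le_div_of_nonneg_right (e2.trans (mul_le_mul_of_nonneg_left ?_ hη0)) hT.le
  refine min_le_min ?_ ?_
  · nlinarith
  · nlinarith

/-- the scale of a pair -/
lemma Da_eq {e : ℕ × ℕ} {r r' : ℝ} (h1 : rf (e.1 / pr) M = 1) (h1' : rf (e.2 / pr') M' = 1) :
    Da (e.1 / pr) M (e.2 / pr') M' r r' =
      max ((cy M pr M' pr' e : ℝ) * r) (cx M pr M' pr' e * r') := by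
  unfold Da Dp
  rw [h1, h1', Nat.cast_one, one_mul, one_mul]
  rfl

lemma gcd_of_rf_one {w M : ℕ} (hM : 0 < M) (h : rf w M = 1) : M.gcd w = M := by
  unfold rf at h
  have h1 : M.gcd w * (M / M.gcd w) = M := Nat.mul_div_cancel' (Nat.gcd_dvd_left _ _)
  rw [h, mul_one] at h1
  exact h1

/-- **a pair with raising factors one which is not critical has a gain** -/
theorem iF_bad (hR : D.Rad ρ) (hM : 0 < M) (hM' : 0 < M') (hb : 0 < b) (hb' : 0 < b')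
    (hF : Fit b pr t) (hF' : Fit b' pr' t') (hW : D.Wts pr t) (hW' : D.Wts pr' t') (hc : c ∣ b)
    (hc' : c' ∣ b') (R : Finset (Λ × Λ)) (A A' : Finset Λ) {e : ℕ × ℕ} (he : e.1 ∈ t.items)
    (he' : e.2 ∈ t'.items) {ρ₀ ε Z η δ : ℝ} {n₀ d : ℕ} (h0 : 0 < ρ₀) (hε : 0 < ε) (hε1 : ε ≤ 1)
    (hη0 : 0 ≤ η) (hη : η ≤ ε / 2 ^ d) (hZ : 1 ≤ Z)
    (hcirc : (M : ℝ) * ((b : ℝ) / c) * pr = M' * ((b' : ℝ) / c') * pr')
    (hδ : 2 * Da (e.1 / pr) M (e.2 / pr') M' ((b : ℝ) / c * ρ e.1) ((b' : ℝ) / c' * ρ e.2) ≤ δ)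
    (hδ1 : δ ≤ 1 / 2) (h1 : rf (e.1 / pr) M = 1) (h1' : rf (e.2 / pr') M' = 1)
    (hwh : WH D ρ R M b pr c M' b' pr' c' ρ₀ n₀ d e
      (D.iF R (D.uA M b pr t A c) (D.uA M' b' pr' t' A' c') e))
    (hcr : ¬ CrK D ρ M b pr c M' b' pr' c' Z η δ e) :
    D.iF R (D.uA M b pr t A c) (D.uA M' b' pr' t' A' c') e ≤
      (2 / Real.sqrt Z + 28 * (ε * (1 + Real.log (1 / ε)))) *
        ((b : ℝ) / c * ρ e.1 + (b' : ℝ) / c' * ρ e.2) := by
  obtain ⟨a1, a2, a3⟩ := hF.item _ he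
  obtain ⟨a1', a2', a3'⟩ := hF'.item _ he'
  have pr0 : 0 < pr := Nat.pos_of_dvd_of_pos a2 a1
  have pr0' : 0 < pr' := Nat.pos_of_dvd_of_pos a2' a1'
  have w0 : 0 < e.1 / pr := Nat.div_pos (Nat.le_of_dvd a1 a2) pr0
  have w0' : 0 < e.2 / pr' := Nat.div_pos (Nat.le_of_dvd a1' a2') pr0'
  have c0 : (0 : ℝ) < c := by exact_mod_cast Nat.pos_of_dvd_of_pos hc hb
  have c0' : (0 : ℝ) < c' := by exact_mod_cast Nat.pos_of_dvd_of_pos hc' hb'
  have b0 : (0 : ℝ) < b := by exact_mod_cast hb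
  have b0' : (0 : ℝ) < b' := by exact_mod_cast hb'
  have r0 : 0 < (b : ℝ) / c * ρ e.1 := mul_pos (by positivity) (hR.pos _)
  have r0' : 0 < (b' : ℝ) / c' * ρ e.2 := mul_pos (by positivity) (hR.pos _)
  have hZs : 0 < Real.sqrt Z := Real.sqrt_pos.2 (by linarith)
  have hlog : 0 ≤ Real.log (1 / ε) := Real.log_nonneg (by rw [le_div_iff₀ hε]; linarith)
  have hg1 : 0 ≤ 2 / Real.sqrt Z * ((b : ℝ) / c * ρ e.1 + (b' : ℝ) / c' * ρ e.2) := by positivity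
  have hg2 : 0 ≤ 28 * (ε * (1 + Real.log (1 / ε))) *
      ((b : ℝ) / c * ρ e.1 + (b' : ℝ) / c' * ρ e.2) := by positivity
  have hD : Da (e.1 / pr) M (e.2 / pr') M' ((b : ℝ) / c * ρ e.1) ((b' : ℝ) / c' * ρ e.2) ≤
      1 / 2 := by
    have h3 : 0 ≤ Da (e.1 / pr) M (e.2 / pr') M' ((b : ℝ) / c * ρ e.1) ((b' : ℝ) / c' * ρ e.2) :=
      Da_nonneg r0.le
    linarith
  have key := iF_le hR hM hM' hb hb' hF hF' hW hW' hc hc' R A A' e he he'
  by_cases hp : D.pb ρ M b pr c e.1 M' b' pr' c' e.2 = 0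
  · rw [hp] at key
    rw [add_mul]
    linarith
  obtain ⟨n, hn, hk⟩ := kinds (Z := Z) (η := η) (δ := δ) hM hM' w0 w0' r0 r0' h1 h1' hD hδ hp
  rcases hk with hk | hk | hk | hk
  · exact absurd ⟨⟨h1, h1'⟩, n, hk⟩ hcr
  · have h2 := pbd_gain (θ := (b : ℝ) / c * D.γ) (θ' := (b' : ℝ) / c' * D.γ) hM hM' w0 w0' r0 r0'
      h1 h1' hD hZ hk
    rw [add_mul]
    have h3 : D.pb ρ M b pr c e.1 M' b' pr' c' e.2 ≤ _ := h2
    linarith
  · obtain ⟨σ, σ', k1, k2, k3⟩ := hk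
    rw [hwh.lab n σ σ' k1 k2 hn k3, add_mul]
    linarith
  · obtain ⟨k1, k2, k3⟩ := hk
    have hM1 := gcd_of_rf_one hM h1
    have hM1' := gcd_of_rf_one hM' h1'
    have hx0 : 0 < cx M pr M' pr' e := AvgItem710.cof_pos (gcd_pos hM w0)
    have hy0 : 0 < cy M pr M' pr' e := AvgItem710.cof_pos (gcd_pos hM' w0')
    have hx1 : (1 : ℝ) ≤ cx M pr M' pr' e := by exact_mod_cast hx0
    have hy1 : (1 : ℝ) ≤ cy M pr M' pr' e := by exact_mod_cast hy0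
    have hDa := Da_eq (M := M) (M' := M') (pr := pr) (pr' := pr') (e := e)
      (r := (b : ℝ) / c * ρ e.1) (r' := (b' : ℝ) / c' * ρ e.2) h1 h1'
    have m1 : (cy M pr M' pr' e : ℝ) * ((b : ℝ) / c * ρ e.1) ≤
        Da (e.1 / pr) M (e.2 / pr') M' ((b : ℝ) / c * ρ e.1) ((b' : ℝ) / c' * ρ e.2) := by
      rw [hDa]; exact le_max_left _ _
    have m2 : (cx M pr M' pr' e : ℝ) * ((b' : ℝ) / c' * ρ e.2) ≤
        Da (e.1 / pr) M (e.2 / pr') M' ((b : ℝ) / c * ρ e.1) ((b' : ℝ) / c' * ρ e.2) := by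
      rw [hDa]; exact le_max_right _ _
    have h2d : (1 : ℝ) ≤ 2 ^ d := one_le_pow₀ (by norm_num)
    have hη1 : η ≤ 1 := hη.trans ((div_le_self hε.le h2d).trans hε1)
    have hbd := Bdry363.iF_bdry (ρ₀ := ρ₀) (ε := ε) (n := n₀) (d := d) hR hM hM' hb hb' hF hF' hW
      hW' hc hc' R A A' e he he' h0 hε hε1 hcirc hD (hwh.unl k1 k2)
      (fun a a' z z' Y hz hz' g1 g2 => by
        have q1 : (e.1 : ℝ) = (pr * M : ℝ) * ((e.1 / pr / M.gcd (e.1 / pr) : ℕ) : ℝ) := by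
          have h4 : e.1 = pr * M * (e.1 / pr / M.gcd (e.1 / pr)) := by
            conv_lhs => rw [← Nat.mul_div_cancel' a2]
            rw [mul_assoc]
            congr 1
            conv_lhs => rw [← Nat.mul_div_cancel' (Nat.gcd_dvd_right M (e.1 / pr))]
            rw [hM1]
          exact_mod_cast h4
        have q2 : (e.2 : ℝ) = (pr' * M' : ℝ) * ((e.2 / pr' / M'.gcd (e.2 / pr') : ℕ) : ℝ) := by
          have h4 : e.2 = pr' * M' * (e.2 / pr' / M'.gcd (e.2 / pr')) := by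
            conv_lhs => rw [← Nat.mul_div_cancel' a2']
            rw [mul_assoc]
            congr 1
            conv_lhs => rw [← Nat.mul_div_cancel' (Nat.gcd_dvd_right M' (e.2 / pr'))]
            rw [hM1']
          exact_mod_cast h4
        have g0 : 0 < (e.1 / pr / M.gcd (e.1 / pr)).gcd (e.2 / pr' / M'.gcd (e.2 / pr')) :=
          Nat.gcd_pos_of_pos_left _ (gcd_pos hM w0)
        have hcl := close_of (w := e.1 / pr / M.gcd (e.1 / pr))
          (w' := e.2 / pr' / M'.gcd (e.2 / pr')) (s := (b : ℝ) / c) (s' := (b' : ℝ) / c')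
          (ρe := ρ e.1) (ρe' := ρ e.2) (γ := D.γ) (η := η) (x := cx M pr M' pr' e)
          (y := cy M pr M' pr' e)
          (g := (e.1 / pr / M.gcd (e.1 / pr)).gcd (e.2 / pr' / M'.gcd (e.2 / pr')))
          (P := (pr * M : ℝ)) (P' := (pr' * M' : ℝ)) (n := n) (Da := 0) (by positivity)
          (by positivity) (hR.pos _) (hR.pos _) hx0 hy0 g0
          (AvgItem710.mul_cof).symm (AvgItem710.mul_cof').symm (by positivity) (by positivity)
          (by rw [mul_comm (pr : ℝ) M, mul_comm (pr' : ℝ) M']; linarith [hcirc]) hη0 hη1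
          (by linarith) k3 (a := a) (a' := a') (z := z) (z' := z') (Y := Y) hz hz'
          (by rw [h1, Nat.cast_one, one_mul, one_mul] at g1; exact g1)
          (by rw [h1', Nat.cast_one, one_mul, one_mul] at g2; exact g2)
        rw [← q1, ← q2] at hcl
        refine hcl.trans (mul_le_mul_of_nonneg_right hη (le_min ?_ ?_))
        · exact div_nonneg (hR.pos _).le (Nat.cast_nonneg _)
        · exact div_nonneg (hR.pos _).le (Nat.cast_nonneg _))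
    have hDpos : 0 < Da (e.1 / pr) M (e.2 / pr') M' ((b : ℝ) / c * ρ e.1)
        ((b' : ℝ) / c' * ρ e.2) := by
      refine lt_of_lt_of_le ?_ m1
      have : (0 : ℝ) < cy M pr M' pr' e := by linarith
      positivity
    have hq : ((b : ℝ) / c * ρ e.1) * ((b' : ℝ) / c' * ρ e.2) /
        Da (e.1 / pr) M (e.2 / pr') M' ((b : ℝ) / c * ρ e.1) ((b' : ℝ) / c' * ρ e.2) ≤
        (b : ℝ) / c * ρ e.1 := by
      rw [div_le_iff₀ hDpos]
      refine mul_le_mul_of_nonneg_left (le_trans ?_ m2) r0.le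
      nlinarith
    have h5 : 0 ≤ 28 * (ε * (1 + Real.log (1 / ε))) := by positivity
    refine hbd.trans ((mul_le_mul_of_nonneg_left hq h5).trans ?_)
    rw [add_mul]
    have h6 : 28 * (ε * (1 + Real.log (1 / ε))) * ((b : ℝ) / c * ρ e.1) ≤
        28 * (ε * (1 + Real.log (1 / ε))) * ((b : ℝ) / c * ρ e.1 + (b' : ℝ) / c' * ρ e.2) :=
      mul_le_mul_of_nonneg_left (by linarith) h5
    linarith

open Classical in
/-- **(H1), critical pairs against the rest**, for any symbol `R` -/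
theorem E_split (hR : D.Rad ρ) (hM : 0 < M) (hM' : 0 < M') (hb : 0 < b) (hb' : 0 < b')
    (hF : Fit b pr t) (hF' : Fit b' pr' t') (hW : D.Wts pr t) (hW' : D.Wts pr' t') (hc : c ∣ b)
    (hc' : c' ∣ b') (R : Finset (Λ × Λ)) {N : ℝ → ℝ} {P : Finset (ℕ × ℕ)} {N₁ N₁' : ℕ}
    (hN : 0 < N₁) (hN' : 0 < N₁')
    (hP : ∀ e ∈ P, e.1 ∈ t.items ∧ e.2 ∈ t'.items ∧
      EP N D.γ ρ M b pr c M' b' pr' c' e ∧ rf (e.1 / pr) M ∣ N₁ ∧ rf (e.2 / pr') M' ∣ N₁')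
    {ρ₀ ε Z η δ L : ℝ} {n₀ d : ℕ} (h0 : 0 < ρ₀) (hε : 0 < ε) (hε1 : ε ≤ 1)
    (hη0 : 0 ≤ η) (hη : η ≤ ε / 2 ^ d) (hZ : 1 ≤ Z) (hδ1 : δ ≤ 1 / 2) (hL0 : 0 ≤ L)
    (hcirc : (M : ℝ) * ((b : ℝ) / c) * pr = M' * ((b' : ℝ) / c') * pr')
    (hδ : ∀ e ∈ P, 2 * Da (e.1 / pr) M (e.2 / pr') M' ((b : ℝ) / c * ρ e.1)
      ((b' : ℝ) / c' * ρ e.2) ≤ δ)
    (hwh : ∀ e ∈ P, WH D ρ R M b pr c M' b' pr' c' ρ₀ n₀ d e
      (D.iF R (D.uA M b pr t A c) (D.uA M' b' pr' t' A' c') e))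
    (hL : ∀ e ∈ P, D.iF R (D.uA M b pr t A c) (D.uA M' b' pr' t' A' c') e ≠ 0 →
      (b : ℝ) / c * ρ e.1 ≤ L * mU D b pr c t A e.1 ∧
        (b' : ℝ) / c' * ρ e.2 ≤ L * mU D b' pr' c' t' A' e.2) :
    ∑ e ∈ P, D.iF R (D.uA M b pr t A c) (D.uA M' b' pr' t' A' c') e ≤
      ∑ e ∈ P.filter (fun e => CrK D ρ M b pr c M' b' pr' c' Z η δ e),
        min (mU D b pr c t A e.1) (mU D b' pr' c' t' A' e.2) +
      ((xs N₁' + (2 / Real.sqrt Z + 28 * (ε * (1 + Real.log (1 / ε)))) * L) *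
          ∑ q ∈ t.items, mU D b pr c t A q +
        (xs N₁ + (2 / Real.sqrt Z + 28 * (ε * (1 + Real.log (1 / ε)))) * L) *
          ∑ r ∈ t'.items, mU D b' pr' c' t' A' r) := by
  set f : ℕ × ℕ → ℝ := fun e => D.iF R (D.uA M b pr t A c) (D.uA M' b' pr' t' A' c') e with hf
  set g : ℝ := 2 / Real.sqrt Z + 28 * (ε * (1 + Real.log (1 / ε))) with hg
  have hZs : 0 < Real.sqrt Z := Real.sqrt_pos.2 (by linarith)
  have hlog : 0 ≤ Real.log (1 / ε) := Real.log_nonneg (by rw [le_div_iff₀ hε]; linarith)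
  have hg0 : 0 ≤ g := by positivity
  set B : ℕ × ℕ → Prop := fun e => (rf (e.1 / pr) M = 1 ∧ rf (e.2 / pr') M' = 1) ∧
    ¬ CrK D ρ M b pr c M' b' pr' c' Z η δ e with hB
  have s1 := Finset.sum_filter_add_sum_filter_not P B f
  have b1 : ∑ e ∈ P.filter (fun e => ¬ B e), f e ≤
      ∑ e ∈ P.filter (fun e => CrK D ρ M b pr c M' b' pr' c' Z η δ e),
        min (mU D b pr c t A e.1) (mU D b' pr' c' t' A' e.2) +
      (xs N₁' * ∑ q ∈ t.items, mU D b pr c t A q +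
        xs N₁ * ∑ r ∈ t'.items, mU D b' pr' c' t' A' r) := by
    have key := E_sum_le (A := A) (A' := A') hR hM hM' hb hb' hF hF' hW hW' hc hc' R hN hN'
      (P := P.filter (fun e => ¬ B e)) fun e he => hP e (Finset.mem_filter.1 he).1
    refine key.trans (add_le_add (le_of_eq ?_) le_rfl)
    congr 1
    ext e
    simp only [Finset.mem_filter]
    constructor
    · rintro ⟨⟨k1, k2⟩, k3⟩
      refine ⟨k1, ?_⟩
      by_contra k4
      exact k2 ⟨k3, k4⟩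
    · rintro ⟨k1, k2⟩
      exact ⟨⟨k1, fun k3 => k3.2 k2⟩, k2.1⟩
  have b2 : ∑ e ∈ P.filter B, f e ≤ g * L * (∑ q ∈ t.items, mU D b pr c t A q +
      ∑ r ∈ t'.items, mU D b' pr' c' t' A' r) := by
    have hm := K_match (N := N) (ρ := ρ) (P := P.filter B) hM hM' hF hF' fun e he => by
      obtain ⟨k1, k2⟩ := Finset.mem_filter.1 he
      obtain ⟨l1, l2, l3, -, -⟩ := hP e k1
      exact ⟨l1, l2, l3, k2.1.1, k2.1.2⟩
    refine sum_match_le (mul_nonneg hg0 hL0) (fun e he => ?_)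
      (fun q _ => mU_nonneg hb hF hW hc A q) (fun r _ => mU_nonneg hb' hF' hW' hc' A' r)
      (fun e he => ?_) hm.1 hm.2
    · obtain ⟨l1, l2, -⟩ := hP e (Finset.mem_filter.1 he).1
      exact Finset.mem_product.2 ⟨l1, l2⟩
    · obtain ⟨k1, k2, k3⟩ := Finset.mem_filter.1 he
      obtain ⟨l1, l2, l3, -, -⟩ := hP e k1
      by_cases hz : f e = 0
      · rw [hz]
        exact mul_nonneg (mul_nonneg hg0 hL0) (add_nonneg (mU_nonneg hb hF hW hc A _)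
          (mU_nonneg hb' hF' hW' hc' A' _))
      obtain ⟨m1, m2⟩ := hL e k1 hz
      have key := iF_bad hR hM hM' hb hb' hF hF' hW hW' hc hc' R A A' l1 l2 h0
        hε hε1 hη0 hη hZ hcirc (hδ e k1) hδ1 k2.1 k2.2 (hwh e k1) k3
      refine key.trans ?_
      calc g * ((b : ℝ) / c * ρ e.1 + (b' : ℝ) / c' * ρ e.2) ≤
          g * (L * mU D b pr c t A e.1 + L * mU D b' pr' c' t' A' e.2) :=
            mul_le_mul_of_nonneg_left (add_le_add m1 m2) hg0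
        _ = _ := by ring
  have e1 : ∑ e ∈ P, f e = ∑ e ∈ P.filter B, f e + ∑ e ∈ P.filter (fun e => ¬ B e), f e := s1.symm
  rw [e1]
  refine (add_le_add b2 b1).trans (le_of_eq ?_)
  ring

/-- **masses against radii** for a full item: `L` from `φ(w)/w` -/
theorem mU_ge (hab : ∀ j, D.al j ≤ D.be j) {n : ℕ} (hO : t.Ok n) (hb : 0 < b) (hF : Fit b pr t)
    (hW : D.Wts pr t) (hc : c ∣ b) {q : ℕ} (hq : q ∈ t.items) (hsq : Squarefree q)
    (hA : ∀ j, D.it j = q → j ∈ A)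
    (hlen : 2 * ρ q ≤ ∑ j ∈ Finset.univ.filter (fun j => D.it j = q), (D.be j - D.al j))
    (hρ : 0 ≤ ρ q) (hdv : pr * pp t q ∣ q) {c₀ L : ℝ} (hc₀ : 0 ≤ c₀)
    (hmn : ∀ j, D.it j = q → c₀ * (((q / (pr * pp t q)).totient : ℝ) /
      ((q / (pr * pp t q) : ℕ) : ℝ)) ≤ mnw (q / (pr * pp t q)) (D.om j))
    (hL : 1 ≤ L * (2 * c₀ * (((q / pr).totient : ℝ) / ((q / pr : ℕ) : ℝ)))) (hL0 : 0 ≤ L) :
    (b : ℝ) / c * ρ q ≤ L * mU D b pr c t A q := by
  obtain ⟨a1, a2, a3⟩ := hF.item _ hq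
  obtain ⟨hpe, hpp, -⟩ := prf_pp t n hO q
  have c0 : (0 : ℝ) < c := by exact_mod_cast Nat.pos_of_dvd_of_pos hc hb
  have b0 : (0 : ℝ) < b := by exact_mod_cast hb
  obtain ⟨w, hw⟩ := hdv
  have hP0 : 0 < pr * pp t q := Nat.pos_of_dvd_of_pos ⟨w, hw⟩ a1
  have hpr0 : 0 < pr := Nat.pos_of_mul_pos_right hP0
  have hw0 : 0 < w := by
    rcases Nat.eq_zero_or_pos w with h | h
    · rw [h, mul_zero] at hw; omega
    · exact h
  have hwd : q / (pr * pp t q) = w := Nat.div_eq_of_eq_mul_right hP0 hw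
  have hwd' : q / pr = pp t q * w := Nat.div_eq_of_eq_mul_right hpr0 (by rw [← mul_assoc]; exact hw)
  rw [hwd] at hmn
  rw [hwd'] at hL
  have hsq' : Squarefree (pp t q * w) := by
    refine hsq.squarefree_of_dvd ?_
    rw [← hwd']
    exact Nat.div_dvd_of_dvd a2
  have hcop : Nat.Coprime (pp t q) w := Nat.coprime_of_squarefree_mul hsq'
  have p2 : (0 : ℝ) < pp t q := by exact_mod_cast hpp
  have p3 : (0 : ℝ) < w := by exact_mod_cast hw0
  have hprf : prf t q = ((pp t q).totient : ℝ) / pp t q := by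
    rw [eq_div_iff p2.ne']; exact hpe
  have hphi : prf t q * ((w.totient : ℝ) / (w : ℝ)) =
      (((pp t q * w).totient : ℝ) / ((pp t q * w : ℕ) : ℝ)) := by
    rw [hprf, Nat.totient_mul hcop]
    push_cast
    field_simp
  have hfil : A.filter (fun j => D.it j = q) = Finset.univ.filter (fun j => D.it j = q) := by
    ext j
    simp only [Finset.mem_filter, Finset.mem_univ, true_and]
    exact ⟨fun h => h.2, fun h => ⟨hA j h, h⟩⟩
  have hprf0 : 0 ≤ prf t q := by rw [hprf]; positivity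
  have key : (b : ℝ) / c * (2 * ρ q) * (prf t q * (c₀ * ((w.totient : ℝ) / (w : ℝ)))) ≤
      mU D b pr c t A q := by
    unfold mU
    rw [hfil]
    calc (b : ℝ) / c * (2 * ρ q) * (prf t q * (c₀ * ((w.totient : ℝ) / (w : ℝ)))) ≤
        (b : ℝ) / c * (∑ j ∈ Finset.univ.filter (fun j => D.it j = q), (D.be j - D.al j)) *
          (prf t q * (c₀ * ((w.totient : ℝ) / (w : ℝ)))) := by
          refine mul_le_mul_of_nonneg_right (mul_le_mul_of_nonneg_left hlen (by positivity))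
            (by positivity)
      _ = ∑ j ∈ Finset.univ.filter (fun j => D.it j = q), (b : ℝ) / c * (D.be j - D.al j) *
          (prf t q * (c₀ * ((w.totient : ℝ) / (w : ℝ)))) := by
          rw [Finset.mul_sum, Finset.sum_mul]
      _ ≤ ∑ j ∈ Finset.univ.filter (fun j => D.it j = q), I ((D.toFT b pr t).U c j) := by
          refine Finset.sum_le_sum fun j hj => ?_
          have hj' : D.it j = q := (Finset.mem_filter.1 hj).2
          rw [D.I_U hab t b pr c hb hF hW hc j (hj' ▸ hq), hj', hwd,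
            mul_assoc ((b : ℝ) / c * (D.be j - D.al j)) (prf t q)]
          refine mul_le_mul_of_nonneg_left (mul_le_mul_of_nonneg_left (hmn j hj') hprf0) ?_
          exact mul_nonneg (by positivity) (sub_nonneg.2 (hab j))
  have hbr : 0 ≤ (b : ℝ) / c * ρ q := by positivity
  calc (b : ℝ) / c * ρ q ≤ (b : ℝ) / c * ρ q * (L * (2 * c₀ *
        (((pp t q * w).totient : ℝ) / ((pp t q * w : ℕ) : ℝ)))) := le_mul_of_one_le_right hbr hL
    _ = L * ((b : ℝ) / c * (2 * ρ q) * (prf t q * (c₀ * ((w.totient : ℝ) / (w : ℝ))))) := by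
        rw [← hphi]; ring
    _ ≤ _ := mul_le_mul_of_nonneg_left key hL0

end split

/-! ### states -/

section state
variable {Λ κ : Type*} [Fintype Λ] [DecidableEq Λ] [Fintype κ] [DecidableEq κ]
  [WRel κ] {D : Item758.Par Λ κ} {sp : ℕ → Finset Λ} {ρ : ℕ → ℝ} {s : St Λ κ} {b pr b' pr' : ℕ}

open Classical in
/-- **(H1) for an NM column**, critical pairs against the rest -/
theorem NM_split (hR : D.Rad ρ) (hab : ∀ j, D.al j ≤ D.be j) {p : ℕ} {t₁ t₀ t₁' t₀' : IT}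
    (h : StI D sp s b pr (.br p t₁ t₀) b' pr' (.br p t₁' t₀')) (R : Finset (Λ × Λ)) {N : ℝ → ℝ}
    {P : Finset (ℕ × ℕ)} {N₁ N₁' : ℕ} (hN : 0 < N₁) (hN' : 0 < N₁')
    (hP : ∀ e ∈ P, e.1 ∈ t₀.items ∧ e.2 ∈ t₀'.items ∧
      EP N D.γ ρ s.M (b * p) pr p s.M' (b' * p) pr' p e ∧
        rf (e.1 / pr) s.M ∣ N₁ ∧ rf (e.2 / pr') s.M' ∣ N₁')
    {ρ₀ ε Z η δ L : ℝ} {n₀ d : ℕ} (h0 : 0 < ρ₀) (hε : 0 < ε) (hε1 : ε ≤ 1)
    (hη0 : 0 ≤ η) (hη : η ≤ ε / 2 ^ d) (hZ : 1 ≤ Z) (hδ1 : δ ≤ 1 / 2) (hL0 : 0 ≤ L)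
    (hcirc : s.M * b * pr = s.M' * b' * pr')
    (hδ : ∀ e ∈ P, 2 * Da (e.1 / pr) s.M (e.2 / pr') s.M' (((b * p : ℕ) : ℝ) / p * ρ e.1)
      (((b' * p : ℕ) : ℝ) / p * ρ e.2) ≤ δ)
    (hwh : ∀ e ∈ P, WH D ρ R s.M (b * p) pr p s.M' (b' * p) pr' p ρ₀ n₀ d e
      (D.iF R (D.uA s.M (b * p) pr t₀ s.A p) (D.uA s.M' (b' * p) pr' t₀' s.A' p) e))
    (hL : ∀ e ∈ P, D.iF R (D.uA s.M (b * p) pr t₀ s.A p)
        (D.uA s.M' (b' * p) pr' t₀' s.A' p) e ≠ 0 →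
      ((b * p : ℕ) : ℝ) / p * ρ e.1 ≤ L * mU D (b * p) pr p t₀ s.A e.1 ∧
        ((b' * p : ℕ) : ℝ) / p * ρ e.2 ≤ L * mU D (b' * p) pr' p t₀' s.A' e.2) :
    ∑ e ∈ P, D.iF R (D.uA s.M (b * p) pr t₀ s.A p) (D.uA s.M' (b' * p) pr' t₀' s.A' p) e ≤
      ∑ e ∈ P.filter (fun e => CrK D ρ s.M (b * p) pr p s.M' (b' * p) pr' p Z η δ e),
        min (mq D s.t s.A e.1) (mq D s.t' s.A' e.2) +
      ((xs N₁' + (2 / Real.sqrt Z + 28 * (ε * (1 + Real.log (1 / ε)))) * L) *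
          ∑ j ∈ s.A.filter (fun j => D.it j ∈ t₀.items), mI s.t j +
        (xs N₁ + (2 / Real.sqrt Z + 28 * (ε * (1 + Real.log (1 / ε)))) * L) *
          ∑ j ∈ s.A'.filter (fun j => D.it j ∈ t₀'.items), mI s.t' j) := by
  have hLs := h.L
  have hRs := h.R
  have hp : p.Prime := hLs.hF.1
  have hpR : (p : ℝ) ≠ 0 := by exact_mod_cast hp.ne_zero
  have k1 : ∀ q ∈ t₀.items, mU D (b * p) pr p t₀ s.A q = mq D s.t s.A q := fun q hq => by
    rw [mU_col hab hLs.hb hLs.hF hLs.hW s.A hq]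
    exact Finset.sum_congr rfl fun j _ => (SideI_mI hLs j).symm
  have k2 : ∀ q ∈ t₀'.items, mU D (b' * p) pr' p t₀' s.A' q = mq D s.t' s.A' q := fun q hq => by
    rw [mU_col hab hRs.hb hRs.hF hRs.hW s.A' hq]
    exact Finset.sum_congr rfl fun j _ => (SideI_mI hRs j).symm
  have key := E_split (A := s.A) (A' := s.A') hR h.M0 h.M0' hLs.br₀.hb hRs.br₀.hb hLs.br₀.hF
    hRs.br₀.hF hLs.br₀.hW hRs.br₀.hW (Dvd.intro_left b rfl) (Dvd.intro_left b' rfl)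
    R hN hN' hP h0 hε hε1 hη0 hη hZ hδ1 hL0 (by
      have : (s.M : ℝ) * b * pr = s.M' * b' * pr' := by exact_mod_cast hcirc
      push_cast
      rw [mul_div_assoc, div_self hpR, mul_one, mul_div_assoc, div_self hpR, mul_one]
      exact this) hδ hwh hL
  refine key.trans (le_of_eq ?_)
  have f1 : ∑ e ∈ P.filter (fun e => CrK D ρ s.M (b * p) pr p s.M' (b' * p) pr' p Z η δ e),
      min (mU D (b * p) pr p t₀ s.A e.1) (mU D (b' * p) pr' p t₀' s.A' e.2) =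
      ∑ e ∈ P.filter (fun e => CrK D ρ s.M (b * p) pr p s.M' (b' * p) pr' p Z η δ e),
        min (mq D s.t s.A e.1) (mq D s.t' s.A' e.2) := by
    refine Finset.sum_congr rfl fun e he => ?_
    obtain ⟨l1, l2, -⟩ := hP e (Finset.mem_filter.1 he).1
    rw [k1 _ l1, k2 _ l2]
  have f2 : ∑ q ∈ t₀.items, mU D (b * p) pr p t₀ s.A q =
      ∑ j ∈ s.A.filter (fun j => D.it j ∈ t₀.items), mI s.t j := by
    rw [sum_mU hLs.br₀.hb hLs.br₀.hF hLs.br₀.hW (Dvd.intro_left b rfl) s.A]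
    refine Finset.sum_congr rfl fun j hj => ?_
    have hj' := (Finset.mem_filter.1 hj).2
    rw [SideI_mI hLs j]
    have q1 := D.I_U hab t₀ (b * p) pr p hLs.br₀.hb hLs.br₀.hF hLs.br₀.hW (Dvd.intro_left b rfl) j
      hj'
    have q2 := D.I_U hab (.br p t₁ t₀) b pr 1 hLs.hb hLs.hF hLs.hW (one_dvd _) j
      (Finset.mem_union_right _ hj')
    have e1 : prf (.br p t₁ t₀) (D.it j) = prf t₀ (D.it j) := if_pos hj'
    have e2 : pp (.br p t₁ t₀) (D.it j) = pp t₀ (D.it j) := if_pos hj'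
    rw [q1, q2, e1, e2]
    push_cast
    rw [mul_div_cancel_right₀ _ hpR, div_one]
  have f3 : ∑ q ∈ t₀'.items, mU D (b' * p) pr' p t₀' s.A' q =
      ∑ j ∈ s.A'.filter (fun j => D.it j ∈ t₀'.items), mI s.t' j := by
    rw [sum_mU hRs.br₀.hb hRs.br₀.hF hRs.br₀.hW (Dvd.intro_left b' rfl) s.A']
    refine Finset.sum_congr rfl fun j hj => ?_
    have hj' := (Finset.mem_filter.1 hj).2
    rw [SideI_mI hRs j]
    have q1 := D.I_U hab t₀' (b' * p) pr' p hRs.br₀.hb hRs.br₀.hF hRs.br₀.hW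
      (Dvd.intro_left b' rfl) j hj'
    have q2 := D.I_U hab (.br p t₁' t₀') b' pr' 1 hRs.hb hRs.hF hRs.hW (one_dvd _) j
      (Finset.mem_union_right _ hj')
    have e1 : prf (.br p t₁' t₀') (D.it j) = prf t₀' (D.it j) := if_pos hj'
    have e2 : pp (.br p t₁' t₀') (D.it j) = pp t₀' (D.it j) := if_pos hj'
    rw [q1, q2, e1, e2]
    push_cast
    rw [mul_div_cancel_right₀ _ hpR, div_one]
  rw [f1, f2, f3]

end state

end Crest.Agent.R4.GSplit194
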