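import Mathlib
import Crest.Agent.R4.StopCls709

/-!
R4 (S0004), helper710: **one-sided columns**: `nm_core` (709) applied to every class `miss O r = S` of the right
items separately (as a black box): the items with missing one-sided primes come with the factor `2^{-|S|}`.
-/

set_option autoImplicit false
open Finset

namespace Crest.Agent.R4.OSCol710
open Crest.Agent.R4.HVW560 Crest.Agent.R4.HVWX793
open Crest.Agent.R4.Schur709 Crest.Agent.R4.StopHvw709 Crest.Agent.R4.StopAsm709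
open Crest.Agent.R4.ClsS (eps1)

section cls
variable {O S : Finset ℕ} {w : ℕ}

lemma zO_sdiff (h : miss O w = S) : zO (O \ S) w = zO O w := by
  unfold zO
  apply Finset.prod_congr _ (fun _ _ => rfl)
  rw [← h]
  unfold miss
  ext p
  simp only [Finset.mem_filter, Finset.mem_sdiff]
  tauto

lemma uu_sdiff (h : miss O w = S) : uu (O \ S) w = uu O w := by
  unfold uu
  rw [zO_sdiff h]

lemma al_sdiff (h : miss O w = S) : al (O \ S) w = 1 := by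
  unfold al
  apply Finset.prod_eq_one
  intro p hp
  exfalso
  obtain ⟨h1, h2⟩ := Finset.mem_filter.1 hp
  obtain ⟨h3, h4⟩ := Finset.mem_sdiff.1 h1
  exact h4 (h ▸ Finset.mem_filter.2 ⟨h3, h2⟩)

lemma Rc_sdiff (h : miss O w = S) (hS : 0 < pz S) (R : ℕ → ℝ) :
    Rc (O \ S) (fun v => (pz S : ℝ) * R v) w = Rc O R w := by
  unfold Rc
  rw [al_sdiff h, al_eq h, ← inv_pz]
  have : (0:ℝ) < pz S := by exact_mod_cast hS
  field_simp

lemma mu_sdiff (h : miss O w = S) (R : ℕ → ℝ) :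
    mu (O \ S) (fun v => (pz S : ℝ) * R v) w = (pz S : ℝ) * mu O R w := by
  unfold mu
  rw [uu_sdiff h]
  ring

end cls

/-- weight of a missing class -/
noncomputable def hw (O : Finset ℕ) (r : ℕ) : ℝ := (1/2:ℝ)^(miss O r).card

lemma hw_nonneg (O : Finset ℕ) (r : ℕ) : 0 ≤ hw O r := by unfold hw; positivity

lemma hw_le_one (O : Finset ℕ) (r : ℕ) : hw O r ≤ 1 :=
  pow_le_one₀ (by norm_num) (by norm_num)

lemma three_two : (2:ℝ)^(1/2+eps1) ≤ (3:ℝ)^(1/2-eps1) := by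
  have he1 : eps1 = 1/1000 := rfl
  have h1 : (2:ℝ)^(1/2+eps1) ≤ (2:ℝ)^(3/5:ℝ) := Real.rpow_le_rpow_of_exponent_le (by norm_num)
    (by rw [he1]; norm_num)
  have h2 : (3:ℝ)^(2/5:ℝ) ≤ (3:ℝ)^(1/2-eps1) := Real.rpow_le_rpow_of_exponent_le (by norm_num)
    (by rw [he1]; norm_num)
  have h3 : (2:ℝ)^(3/5:ℝ) ≤ (3:ℝ)^(2/5:ℝ) := by
    have e1 : (2:ℝ)^(3/5:ℝ) = ((2:ℝ)^(3:ℕ))^(1/5:ℝ) := by
      rw [← Real.rpow_natCast, ← Real.rpow_mul (by norm_num)]; norm_num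
    have e2 : (3:ℝ)^(2/5:ℝ) = ((3:ℝ)^(2:ℕ))^(1/5:ℝ) := by
      rw [← Real.rpow_natCast, ← Real.rpow_mul (by norm_num)]; norm_num
    rw [e1, e2]
    exact Real.rpow_le_rpow (by norm_num) (by norm_num) (by norm_num)
  exact h1.trans (h3.trans h2)

/-- Hölder over the missing classes -/
theorem class_holder {O W : Finset ℕ} {μ : ℕ → ℝ} (hμ : ∀ r ∈ W, 0 ≤ μ r) :
    ∑ S ∈ W.image (miss O), (1/((pz S : ℕ):ℝ))^(1/2-eps1) *
        (∑ r ∈ W.filter (fun r => miss O r = S), μ r)^(1/2+eps1) ≤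
      Real.exp ((1/2-eps1) * (3 * ∑ p ∈ O, 1/(p:ℝ))) * (∑ r ∈ W, hw O r * μ r)^(1/2+eps1) := by
  classical
  have he1 : eps1 = 1/1000 := rfl
  have hα : (0:ℝ) < 1/2-eps1 := by rw [he1]; norm_num
  have hβ : (0:ℝ) < 1/2+eps1 := by rw [he1]; norm_num
  set a : Finset ℕ → ℝ := fun S => ∏ p ∈ S, (3/(p:ℝ)) with ha
  set b : Finset ℕ → ℝ := fun S => (1/2:ℝ)^S.card * ∑ r ∈ W.filter (fun r => miss O r = S), μ r with hb
  have na : ∀ S, 0 ≤ a S := fun S => Finset.prod_nonneg fun p _ => by positivity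
  have nx : ∀ S, 0 ≤ ∑ r ∈ W.filter (fun r => miss O r = S), μ r := fun S =>
    Finset.sum_nonneg fun r hr => hμ r (Finset.mem_filter.1 hr).1
  have nb : ∀ S, 0 ≤ b S := fun S => mul_nonneg (by positivity) (nx S)
  have h1 : ∀ S ∈ W.image (miss O), (1/((pz S : ℕ):ℝ))^(1/2-eps1) *
        (∑ r ∈ W.filter (fun r => miss O r = S), μ r)^(1/2+eps1) ≤ (a S)^(1/2-eps1) * (b S)^(1/2+eps1) := by
    intro S hS
    have e1 : a S = (3:ℝ)^S.card * (1/((pz S : ℕ):ℝ)) := by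
      rw [inv_pz, ha]
      simp only
      rw [← Finset.prod_const, ← Finset.prod_mul_distrib]
      exact Finset.prod_congr rfl fun p _ => by ring
    have hz : (0:ℝ) ≤ 1/((pz S : ℕ):ℝ) := by positivity
    rw [e1, hb]
    simp only
    rw [Real.mul_rpow (by positivity) hz, Real.mul_rpow (by positivity) (nx S)]
    have h3 : (1:ℝ) ≤ ((3:ℝ)^S.card)^(1/2-eps1) * ((1/2:ℝ)^S.card)^(1/2+eps1) := by
      rw [← Real.rpow_natCast 3, ← Real.rpow_natCast (1/2), ← Real.rpow_mul (by norm_num),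
        ← Real.rpow_mul (by norm_num), mul_comm (S.card : ℝ) (1/2-eps1), mul_comm (S.card : ℝ) (1/2+eps1),
        Real.rpow_mul (by norm_num), Real.rpow_mul (by norm_num), ← Real.mul_rpow (by positivity) (by positivity)]
      apply Real.one_le_rpow _ (Nat.cast_nonneg _)
      have h2 := three_two
      have h4 : (1/2:ℝ)^(1/2+eps1) = 1/(2:ℝ)^(1/2+eps1) := by
        rw [Real.div_rpow (by norm_num) (by norm_num), Real.one_rpow]
      rw [h4]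
      have h5 : (0:ℝ) < (2:ℝ)^(1/2+eps1) := by positivity
      rw [mul_one_div, le_div_iff₀ h5, one_mul]
      exact h2
    have h4 : 0 ≤ (1/((pz S : ℕ):ℝ))^(1/2-eps1) * (∑ r ∈ W.filter (fun r => miss O r = S), μ r)^(1/2+eps1) :=
      mul_nonneg (Real.rpow_nonneg hz _) (Real.rpow_nonneg (nx S) _)
    calc _ = 1 * ((1/((pz S : ℕ):ℝ))^(1/2-eps1) *
          (∑ r ∈ W.filter (fun r => miss O r = S), μ r)^(1/2+eps1)) := (one_mul _).symm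
      _ ≤ (((3:ℝ)^S.card)^(1/2-eps1) * ((1/2:ℝ)^S.card)^(1/2+eps1)) * ((1/((pz S : ℕ):ℝ))^(1/2-eps1) *
          (∑ r ∈ W.filter (fun r => miss O r = S), μ r)^(1/2+eps1)) := mul_le_mul_of_nonneg_right h3 h4
      _ = _ := by ring
  refine (Finset.sum_le_sum h1).trans ?_
  refine (holder _ hα hβ (by ring) a b (fun S _ => na S) (fun S _ => nb S)).trans ?_
  have hb2 : ∑ S ∈ W.image (miss O), b S = ∑ r ∈ W, hw O r * μ r := by
    rw [← Finset.sum_fiberwise_of_maps_to (s := W) (t := W.image (miss O)) (g := miss O)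
      (fun r hr => Finset.mem_image_of_mem _ hr)]
    refine Finset.sum_congr rfl fun S _ => ?_
    rw [hb]
    simp only
    rw [Finset.mul_sum]
    refine Finset.sum_congr rfl fun r hr => ?_
    rw [← (Finset.mem_filter.1 hr).2]
    rfl
  rw [hb2]
  apply mul_le_mul_of_nonneg_right _ (Real.rpow_nonneg (Finset.sum_nonneg fun r hr =>
    mul_nonneg (hw_nonneg _ _) (hμ r hr)) _)
  have h5 : ∑ S ∈ W.image (miss O), a S ≤ Real.exp (3 * ∑ p ∈ O, 1/(p:ℝ)) := by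
    calc ∑ S ∈ W.image (miss O), a S ≤ ∑ S ∈ O.powerset, a S := by
          apply Finset.sum_le_sum_of_subset_of_nonneg
          · intro S hS
            obtain ⟨r, _, rfl⟩ := Finset.mem_image.1 hS
            exact Finset.mem_powerset.2 (miss_sub O r)
          · intro S _ _; exact na S
      _ = ∏ p ∈ O, (1 + 3/(p:ℝ)) := by
          rw [Finset.prod_one_add]
      _ ≤ ∏ p ∈ O, Real.exp (3 * (1/(p:ℝ))) := by
          apply Finset.prod_le_prod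
          · intro p _; positivity
          · intro p _
            have := Real.add_one_le_exp (3 * (1/(p:ℝ)))
            calc 1 + 3/(p:ℝ) = 3 * (1/(p:ℝ)) + 1 := by ring
              _ ≤ _ := this
      _ = Real.exp (3 * ∑ p ∈ O, 1/(p:ℝ)) := by rw [← Real.exp_sum, Finset.mul_sum]
  calc (∑ S ∈ W.image (miss O), a S)^(1/2-eps1) ≤ (Real.exp (3 * ∑ p ∈ O, 1/(p:ℝ)))^(1/2-eps1) :=
        Real.rpow_le_rpow (Finset.sum_nonneg fun S _ => na S) h5 hα.le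
    _ = _ := by rw [← Real.exp_mul]; congr 1; ring

open Classical in
/-- **OS core** -/
theorem os_core {Gen : ℝ → ℝ → ℝ → ℕ → ℕ → ℝ → ℝ → Prop} {κ : ℝ} (hGen : DeepHyp Gen κ) :
    ∃ C c0 : ℝ, 1 ≤ C ∧ 0 < c0 ∧ ∀ c1 : ℝ, 0 < c1 → c1 ≤ c0 → ∃ T0 : ℝ, 1 ≤ T0 ∧
    ∀ (X K1 K2 L : ℝ) (n N G : ℕ) (O O' V W : Finset ℕ) (R R' : ℕ → ℝ)
    (γ γ' : Finset ℕ → ℝ) (F : ℕ × ℕ → ℝ) (PG : ℕ × ℕ → Prop),
    T0 ≤ (2:ℝ)^n → X ≤ Real.exp (((2:ℝ)^n)^c1) → 0 < G → 0 ≤ K1 → 0 ≤ K2 →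
    (∀ p ∈ O, p.Prime ∧ N ≤ p) → (∀ p ∈ O', p.Prime ∧ N ≤ p) →
    (∀ w ∈ V, 0 < w ∧ 0 < R w) → (∀ w ∈ W, 0 < w ∧ 0 < R' w) →
    (∀ w ∈ V, R w ≤ L * mu O' R w) → (∀ w ∈ W, R' w ≤ L * mu O R' w) →
    (∀ z : ℝ, X ≤ z → ∀ w ∈ V, Crest.Agent.R4.ClsB.Tame z G (uu O' w)) →
    (∀ z : ℝ, X ≤ z → ∀ w ∈ W, Crest.Agent.R4.ClsB.Tame z G (uu O w)) →
    (∀ e ∈ V ×ˢ W, 1 < Dc O O' R R' e → F e ≤ K1 * (R e.1 * R' e.2)) →
    (∀ e ∈ V ×ˢ W, Dc O O' R R' e ≤ 1 → F e ≤ K2 * ((R e.1 * R' e.2) / Dc O O' R R' e)) →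
    (∀ e ∈ V ×ˢ W, PG e → ∀ t : ℝ, (2:ℝ)^n ≤ t → 1/(2*t) < Dc O O' R R' e →
      Dc O O' R R' e ≤ 1/t → 0 < F e →
      Gen (γ (miss O' e.1)) (γ' (miss O e.2)) t (cof (uu O' e.1) (uu O e.2))
        (cof (uu O e.2) (uu O' e.1)) (Rc O' R e.1) (Rc O R' e.2)) →
    ∑ e ∈ V ×ˢ W, F e ≤
      K1 * L^2 * ((∑ q ∈ V, mu O' R q) * (∑ r ∈ W, mu O R' r)) +
      K2 * L^2 * (n * (2 * KH 1 0 eps1 * (2:ℝ)^(2*eps1*n)) + C * ((2:ℝ)^n)^(-κ)) *
        (Real.exp ((1/2-eps1) * (6 * (∑ p ∈ O, 1/(p:ℝ)) + 3 * ∑ p ∈ O', 1/(p:ℝ))) *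
        ((∑ q ∈ V, mu O' R q) * (∑ r ∈ W, hw O r * mu O R' r))^(1/2+eps1)) +
      ∑ e ∈ (V ×ˢ W).filter (Left O O' R R' n PG), F e := by
  obtain ⟨C, c0, hC1, hc0, hC⟩ := nm_core hGen
  refine ⟨C, c0, hC1, hc0, ?_⟩
  intro c1 hc1 hc10
  obtain ⟨T0, hT01, hT0⟩ := hC c1 hc1 hc10
  refine ⟨T0, hT01, ?_⟩
  intro X K1 K2 L n N G O O' V W R R' γ γ' F PG hTn hX hG hK10 hK20 hO hO' hV hW hLV hLW hVt hWt
    hbig hsmall hgen
  have he1 : eps1 = 1/1000 := rfl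
  have hα : (0:ℝ) < 1/2-eps1 := by rw [he1]; norm_num
  have hβ : (0:ℝ) < 1/2+eps1 := by rw [he1]; norm_num
  have hOp : ∀ p ∈ O, p.Prime := fun p hp => (hO p hp).1
  have nV : ∀ q ∈ V, 0 ≤ mu O' R q := fun q hq => mu_nonneg (hV q hq).2.le
  have nW : ∀ q ∈ W, 0 ≤ mu O R' q := fun q hq => mu_nonneg (hW q hq).2.le
  set A := ∑ q ∈ V, mu O' R q with hA
  have nA : 0 ≤ A := Finset.sum_nonneg nV
  set Z := n * (2 * KH 1 0 eps1 * (2:ℝ)^(2*eps1*n)) + C * ((2:ℝ)^n)^(-κ) with hZ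
  have nZ : 0 ≤ Z := by
    have := (KH_pos 1 0 eps1).le
    positivity
  set x : Finset ℕ → ℝ := fun S => ∑ r ∈ W.filter (fun r => miss O r = S), mu O R' r with hx
  have nx : ∀ S, 0 ≤ x S := fun S => Finset.sum_nonneg fun r hr => nW r (Finset.mem_filter.1 hr).1
  -- one class
  have one : ∀ S ∈ W.image (miss O), ∑ e ∈ V ×ˢ W.filter (fun r => miss O r = S), F e ≤
      K1 * L^2 * (A * x S) + K2 * L^2 * Z * (Real.exp ((1/2-eps1) * (3 * (∑ p ∈ O, 1/(p:ℝ)) +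
        3 * ∑ p ∈ O', 1/(p:ℝ))) * (A^(1/2+eps1) * ((1/((pz S : ℕ):ℝ))^(1/2-eps1) * (x S)^(1/2+eps1)))) +
      ∑ e ∈ (V ×ˢ W.filter (fun r => miss O r = S)).filter (Left O O' R R' n PG), F e := by
    intro S hS
    obtain ⟨r0, hr0, hrS⟩ := Finset.mem_image.1 hS
    have hSO : S ⊆ O := hrS ▸ miss_sub O r0
    have hSp : 0 < pz S := pz_pos fun p hp => hOp p (hSO hp)
    have hSr : (0:ℝ) < pz S := by exact_mod_cast hSp
    have mW : ∀ r ∈ W.filter (fun r => miss O r = S), r ∈ W ∧ miss O r = S := fun r hr =>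
      Finset.mem_filter.1 hr
    have mP : ∀ e ∈ V ×ˢ W.filter (fun r => miss O r = S), e ∈ V ×ˢ W ∧ miss O e.2 = S := fun e he => by
      obtain ⟨k1, k2⟩ := Finset.mem_product.1 he
      obtain ⟨k3, k4⟩ := mW _ k2
      exact ⟨Finset.mem_product.2 ⟨k1, k3⟩, k4⟩
    have hD : ∀ e ∈ V ×ˢ W.filter (fun r => miss O r = S),
        Dc (O \ S) O' R (fun v => (pz S : ℝ) * R' v) e = Dc O O' R R' e := fun e he => by
      obtain ⟨-, k4⟩ := mP e he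
      unfold Dc
      rw [uu_sdiff k4, Rc_sdiff k4 hSp]
    have key := hT0 X K1 K2 L n N G (O \ S) O' V (W.filter (fun r => miss O r = S)) R
      (fun v => (pz S : ℝ) * R' v) γ (fun _ => γ' S) (fun e => (pz S : ℝ) * F e) PG hTn hX hG hK10 hK20
      (fun p hp => hO p (Finset.mem_sdiff.1 hp).1) hO' hV
      (fun w hw => ⟨(hW w (mW w hw).1).1, mul_pos hSr (hW w (mW w hw).1).2⟩) hLV
      (fun w hw => by
        rw [mu_sdiff (mW w hw).2]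
        have := mul_le_mul_of_nonneg_left (hLW w (mW w hw).1) hSr.le
        calc (pz S : ℝ) * R' w ≤ (pz S : ℝ) * (L * mu O R' w) := this
          _ = _ := by ring)
      hVt
      (fun z hz w hw => by
        rw [uu_sdiff (mW w hw).2]
        exact hWt z hz w (mW w hw).1)
      (fun e he h1 => by
        rw [hD e he] at h1
        have := mul_le_mul_of_nonneg_left (hbig e (mP e he).1 h1) hSr.le
        calc (pz S : ℝ) * F e ≤ (pz S : ℝ) * (K1 * (R e.1 * R' e.2)) := this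
          _ = _ := by ring)
      (fun e he h1 => by
        rw [hD e he] at h1 ⊢
        have := mul_le_mul_of_nonneg_left (hsmall e (mP e he).1 h1) hSr.le
        calc (pz S : ℝ) * F e ≤ (pz S : ℝ) * (K2 * ((R e.1 * R' e.2) / Dc O O' R R' e)) := this
          _ = _ := by ring)
      (fun e he hP t ht h1 h2 h3 => by
        rw [hD e he] at h1 h2
        obtain ⟨k3, k4⟩ := mP e he
        have h4 := hgen e k3 hP t ht h1 h2 ((mul_pos_iff_of_pos_left hSr).1 h3)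
        rw [uu_sdiff k4, Rc_sdiff k4 hSp]
        rw [k4] at h4
        exact h4)
    have e1 : ∑ e ∈ V ×ˢ W.filter (fun r => miss O r = S), (pz S : ℝ) * F e =
        (pz S : ℝ) * ∑ e ∈ V ×ˢ W.filter (fun r => miss O r = S), F e := by rw [Finset.mul_sum]
    have e2 : ∑ r ∈ W.filter (fun r => miss O r = S), mu (O \ S) (fun v => (pz S : ℝ) * R' v) r =
        (pz S : ℝ) * x S := by
      rw [hx]; simp only
      rw [Finset.mul_sum]
      exact Finset.sum_congr rfl fun r hr => mu_sdiff (mW r hr).2 R'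
    have e3 : ∑ e ∈ (V ×ˢ W.filter (fun r => miss O r = S)).filter
        (Left (O \ S) O' R (fun v => (pz S : ℝ) * R' v) n PG), (pz S : ℝ) * F e =
        (pz S : ℝ) * ∑ e ∈ (V ×ˢ W.filter (fun r => miss O r = S)).filter (Left O O' R R' n PG), F e := by
      rw [← Finset.mul_sum]
      congr 1
      apply Finset.sum_congr _ (fun _ _ => rfl)
      apply Finset.filter_congr
      intro e he
      unfold Left
      rw [hD e he]
    rw [e1, e2, e3] at key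
    have hexp : Real.exp ((1/2-eps1) * (3 * (∑ p ∈ O \ S, 1/(p:ℝ)) + 3 * ∑ p ∈ O', 1/(p:ℝ))) ≤
        Real.exp ((1/2-eps1) * (3 * (∑ p ∈ O, 1/(p:ℝ)) + 3 * ∑ p ∈ O', 1/(p:ℝ))) := by
      apply Real.exp_le_exp.2
      apply mul_le_mul_of_nonneg_left _ hα.le
      have : ∑ p ∈ O \ S, 1/(p:ℝ) ≤ ∑ p ∈ O, 1/(p:ℝ) :=
        Finset.sum_le_sum_of_subset_of_nonneg Finset.sdiff_subset fun p _ _ => by positivity
      linarith
    have hpw : (A * ((pz S : ℝ) * x S))^(1/2+eps1) =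
        (pz S : ℝ) * (A^(1/2+eps1) * ((1/((pz S : ℕ):ℝ))^(1/2-eps1) * (x S)^(1/2+eps1))) := by
      rw [Real.mul_rpow nA (mul_nonneg hSr.le (nx S)), Real.mul_rpow hSr.le (nx S)]
      have : (pz S : ℝ)^(1/2+eps1) = (pz S : ℝ) * (1/((pz S : ℕ):ℝ))^(1/2-eps1) := by
        rw [Real.div_rpow (by norm_num) hSr.le, Real.one_rpow, mul_one_div, eq_div_iff (by positivity),
          ← Real.rpow_add hSr]
        have : (1/2+eps1) + (1/2-eps1) = 1 := by ring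
        rw [this, Real.rpow_one]
      rw [this]; ring
    rw [hpw] at key
    have nq : 0 ≤ A^(1/2+eps1) * ((1/((pz S : ℕ):ℝ))^(1/2-eps1) * (x S)^(1/2+eps1)) :=
      mul_nonneg (Real.rpow_nonneg nA _) (mul_nonneg (by positivity) (Real.rpow_nonneg (nx S) _))
    have key2 : (pz S : ℝ) * ∑ e ∈ V ×ˢ W.filter (fun r => miss O r = S), F e ≤ (pz S : ℝ) *
        (K1 * L^2 * (A * x S) + K2 * L^2 * Z * (Real.exp ((1/2-eps1) * (3 * (∑ p ∈ O, 1/(p:ℝ)) +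
        3 * ∑ p ∈ O', 1/(p:ℝ))) * (A^(1/2+eps1) * ((1/((pz S : ℕ):ℝ))^(1/2-eps1) * (x S)^(1/2+eps1)))) +
      ∑ e ∈ (V ×ˢ W.filter (fun r => miss O r = S)).filter (Left O O' R R' n PG), F e) := by
      refine key.trans ?_
      have h9 : K2 * L^2 * Z * (Real.exp ((1/2-eps1) * (3 * (∑ p ∈ O \ S, 1/(p:ℝ)) +
          3 * ∑ p ∈ O', 1/(p:ℝ))) * ((pz S : ℝ) * (A^(1/2+eps1) * ((1/((pz S : ℕ):ℝ))^(1/2-eps1) *
          (x S)^(1/2+eps1))))) ≤ K2 * L^2 * Z * (Real.exp ((1/2-eps1) * (3 * (∑ p ∈ O, 1/(p:ℝ)) +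
          3 * ∑ p ∈ O', 1/(p:ℝ))) * ((pz S : ℝ) * (A^(1/2+eps1) * ((1/((pz S : ℕ):ℝ))^(1/2-eps1) *
          (x S)^(1/2+eps1))))) := by
        apply mul_le_mul_of_nonneg_left _ (by positivity)
        exact mul_le_mul_of_nonneg_right hexp (mul_nonneg hSr.le nq)
      calc _ ≤ K1 * L^2 * (A * ((pz S : ℝ) * x S)) + K2 * L^2 * Z * (Real.exp ((1/2-eps1) *
          (3 * (∑ p ∈ O, 1/(p:ℝ)) + 3 * ∑ p ∈ O', 1/(p:ℝ))) * ((pz S : ℝ) * (A^(1/2+eps1) *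
          ((1/((pz S : ℕ):ℝ))^(1/2-eps1) * (x S)^(1/2+eps1))))) + (pz S : ℝ) *
          ∑ e ∈ (V ×ˢ W.filter (fun r => miss O r = S)).filter (Left O O' R R' n PG), F e := by
            linarith
        _ = _ := by ring
    exact le_of_mul_le_mul_left key2 hSr
  -- sum over the classes
  have split : ∀ Q : ℕ × ℕ → Prop, ∑ e ∈ (V ×ˢ W).filter Q, F e =
      ∑ S ∈ W.image (miss O), ∑ e ∈ (V ×ˢ W.filter (fun r => miss O r = S)).filter Q, F e := by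
    intro Q
    rw [← Finset.sum_fiberwise_of_maps_to (s := (V ×ˢ W).filter Q) (t := W.image (miss O))
      (g := fun e => miss O e.2)
      (fun e he => Finset.mem_image_of_mem _ (Finset.mem_product.1 (Finset.mem_filter.1 he).1).2)]
    refine Finset.sum_congr rfl fun S _ => ?_
    apply Finset.sum_congr _ (fun _ _ => rfl)
    ext e
    simp only [Finset.mem_filter, Finset.mem_product]
    tauto
  have split1 : ∑ e ∈ V ×ˢ W, F e =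
      ∑ S ∈ W.image (miss O), ∑ e ∈ V ×ˢ W.filter (fun r => miss O r = S), F e := by
    have := split (fun _ => True)
    simpa using this
  rw [split1, split (Left O O' R R' n PG)]
  refine (Finset.sum_le_sum one).trans ?_
  rw [Finset.sum_add_distrib, Finset.sum_add_distrib]
  have hsx : ∑ S ∈ W.image (miss O), x S = ∑ r ∈ W, mu O R' r := by
    rw [hx]
    exact Finset.sum_fiberwise_of_maps_to (fun r hr => Finset.mem_image_of_mem _ hr) _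
  have t1 : ∑ S ∈ W.image (miss O), K1 * L^2 * (A * x S) =
      K1 * L^2 * (A * ∑ r ∈ W, mu O R' r) := by
    rw [← hsx, Finset.mul_sum, Finset.mul_sum]
  have hH := class_holder (O := O) (W := W) nW
  have t2 : ∑ S ∈ W.image (miss O), K2 * L^2 * Z * (Real.exp ((1/2-eps1) * (3 * (∑ p ∈ O, 1/(p:ℝ)) +
        3 * ∑ p ∈ O', 1/(p:ℝ))) * (A^(1/2+eps1) * ((1/((pz S : ℕ):ℝ))^(1/2-eps1) * (x S)^(1/2+eps1)))) ≤
      K2 * L^2 * Z * (Real.exp ((1/2-eps1) * (6 * (∑ p ∈ O, 1/(p:ℝ)) + 3 * ∑ p ∈ O', 1/(p:ℝ))) *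
        (A * (∑ r ∈ W, hw O r * mu O R' r))^(1/2+eps1)) := by
    rw [← Finset.mul_sum, ← Finset.mul_sum, ← Finset.mul_sum]
    apply mul_le_mul_of_nonneg_left _ (by positivity)
    have nh : 0 ≤ ∑ r ∈ W, hw O r * mu O R' r := Finset.sum_nonneg fun r hr =>
      mul_nonneg (hw_nonneg _ _) (nW r hr)
    rw [Real.mul_rpow nA nh]
    calc Real.exp ((1/2-eps1) * (3 * (∑ p ∈ O, 1/(p:ℝ)) + 3 * ∑ p ∈ O', 1/(p:ℝ))) * (A^(1/2+eps1) *
          ∑ S ∈ W.image (miss O), (1/((pz S : ℕ):ℝ))^(1/2-eps1) * (x S)^(1/2+eps1))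
        ≤ Real.exp ((1/2-eps1) * (3 * (∑ p ∈ O, 1/(p:ℝ)) + 3 * ∑ p ∈ O', 1/(p:ℝ))) * (A^(1/2+eps1) *
          (Real.exp ((1/2-eps1) * (3 * ∑ p ∈ O, 1/(p:ℝ))) *
            (∑ r ∈ W, hw O r * mu O R' r)^(1/2+eps1))) := by
          apply mul_le_mul_of_nonneg_left _ (Real.exp_nonneg _)
          exact mul_le_mul_of_nonneg_left hH (Real.rpow_nonneg nA _)
      _ = (Real.exp ((1/2-eps1) * (3 * (∑ p ∈ O, 1/(p:ℝ)) + 3 * ∑ p ∈ O', 1/(p:ℝ))) *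
          Real.exp ((1/2-eps1) * (3 * ∑ p ∈ O, 1/(p:ℝ)))) * (A^(1/2+eps1) *
            (∑ r ∈ W, hw O r * mu O R' r)^(1/2+eps1)) := by ring
      _ = _ := by
          rw [← Real.exp_add]
          congr 2
          ring
  rw [t1]
  linarith


/-! ### numbers for a column -/

open Filter in
lemma os_numbers (KHc C c0 T0 CL : ℝ) (hKH : 0 ≤ KHc) (hC : 1 ≤ C) (hc0 : 0 < c0) (hCL : 1 ≤ CL) :
    ∀ᶠ x : ℝ in atTop, T0 ≤ x^(1/4:ℝ)/2 ∧ x ≤ Real.exp ((x^(1/4:ℝ)/2)^c0) ∧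
      6 * (CL * Real.log x)^2 ≤ (Real.log x)^3 ∧
      ∀ n : ℕ, (n:ℝ) * Real.log 2 ≤ 1/4 * Real.log x → ∀ κ : ℝ, 0 ≤ κ →
        6 * (CL * Real.log x)^2 * (n * (2 * KHc * (2:ℝ)^(2*eps1*n)) + C * ((2:ℝ)^n)^(-κ)) * Real.exp 6
          ≤ x^(3/4000:ℝ) := by
  have he1 : eps1 = 1/1000 := rfl
  have e0 := col_numbers KHc C c0 T0 CL hKH hC hc0 hCL
  have e4 : ∀ᶠ x : ℝ in atTop, (6 * CL^2 * (2 * KHc + C) * Real.exp 6) * (Real.log x)^3 ≤ x^(1/4000:ℝ) :=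
    ev_log_le _ _ _ (by norm_num) (by positivity)
  have e3 : ∀ᶠ x : ℝ in atTop, 1 ≤ Real.log x :=
    Real.tendsto_log_atTop.eventually_ge_atTop _
  filter_upwards [e0, e3, e4, eventually_ge_atTop (1:ℝ)] with x h0 hl1 h4 hx1
  have hx0 : 0 < x := by linarith
  obtain ⟨a1, a2, a3, -⟩ := h0
  refine ⟨a1, a2, a3, ?_⟩
  intro n hn κ hκ
  have hl2 : (0.5:ℝ) ≤ Real.log 2 := by have := Real.log_two_gt_d9; linarith
  have hn1 : (n:ℝ) ≤ Real.log x := by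
    have h0 : (0:ℝ) ≤ n := Nat.cast_nonneg _
    nlinarith
  have h2n : (2:ℝ)^(2*eps1*n) ≤ x^(1/2000:ℝ) := by
    rw [Real.rpow_def_of_pos (by norm_num), Real.rpow_def_of_pos hx0]
    apply Real.exp_le_exp.2
    rw [he1]; nlinarith
  have hpow : ((2:ℝ)^n)^(-κ) ≤ 1 := by
    apply Real.rpow_le_one_of_one_le_of_nonpos (one_le_pow₀ (by norm_num)) (by linarith)
  have hxs : 1 ≤ x^(1/2000:ℝ) := Real.one_le_rpow hx1 (by norm_num)
  have hsum : n * (2 * KHc * (2:ℝ)^(2*eps1*n)) + C * ((2:ℝ)^n)^(-κ)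
      ≤ (2 * KHc + C) * (Real.log x * x^(1/2000:ℝ)) := by
    have p1 : n * (2 * KHc * (2:ℝ)^(2*eps1*n)) ≤ Real.log x * (2 * KHc * x^(1/2000:ℝ)) :=
      mul_le_mul hn1 (mul_le_mul_of_nonneg_left h2n (by positivity)) (by positivity) (by linarith)
    have p2 : C * ((2:ℝ)^n)^(-κ) ≤ C * (Real.log x * x^(1/2000:ℝ)) := by
      apply mul_le_mul_of_nonneg_left _ (by linarith)
      nlinarith
    nlinarith
  calc 6 * (CL * Real.log x)^2 * (n * (2 * KHc * (2:ℝ)^(2*eps1*n)) + C * ((2:ℝ)^n)^(-κ)) * Real.exp 6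
      ≤ 6 * (CL * Real.log x)^2 * ((2 * KHc + C) * (Real.log x * x^(1/2000:ℝ))) * Real.exp 6 := by
        apply mul_le_mul_of_nonneg_right _ (Real.exp_nonneg _)
        exact mul_le_mul_of_nonneg_left hsum (by positivity)
    _ = ((6 * CL^2 * (2 * KHc + C) * Real.exp 6) * (Real.log x)^3) * x^(1/2000:ℝ) := by ring
    _ ≤ x^(1/4000:ℝ) * x^(1/2000:ℝ) := mul_le_mul_of_nonneg_right h4 (by positivity)
    _ = x^(3/4000:ℝ) := by rw [← Real.rpow_add hx0]; norm_num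

open Classical in
/-- **OS column with numbers** -/
theorem os_column {Gen : ℝ → ℝ → ℝ → ℕ → ℕ → ℝ → ℝ → Prop} {κ : ℝ} (hGen : DeepHyp Gen κ) (hκ : 0 ≤ κ)
    {CL : ℝ} (hCL : 1 ≤ CL) : ∃ p₀ : ℕ, 2 ≤ p₀ ∧
    ∀ (n p G : ℕ) (O O' V W : Finset ℕ) (R R' : ℕ → ℝ)
    (γ γ' : Finset ℕ → ℝ) (F : ℕ × ℕ → ℝ) (PG : ℕ × ℕ → Prop),
    p₀ ≤ p → n = ⌊1/4 * Real.log p / Real.log 2⌋₊ → 0 < G →
    (∀ q ∈ O, q.Prime ∧ p ≤ q) → (∀ q ∈ O', q.Prime ∧ p ≤ q) →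
    ∑ q ∈ O, 1/(q:ℝ) ≤ 1 → ∑ q ∈ O', 1/(q:ℝ) ≤ 1 →
    (∀ w ∈ V, 0 < w ∧ 0 < R w) → (∀ w ∈ W, 0 < w ∧ 0 < R' w) →
    (∀ w ∈ V, R w ≤ (CL * Real.log p) * mu O' R w) → (∀ w ∈ W, R' w ≤ (CL * Real.log p) * mu O R' w) →
    (∀ z : ℝ, (p:ℝ) ≤ z → ∀ w ∈ V, Crest.Agent.R4.ClsB.Tame z G (uu O' w)) →
    (∀ z : ℝ, (p:ℝ) ≤ z → ∀ w ∈ W, Crest.Agent.R4.ClsB.Tame z G (uu O w)) →
    (∀ e ∈ V ×ˢ W, 1 < Dc O O' R R' e → F e ≤ 6 * (R e.1 * R' e.2)) →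
    (∀ e ∈ V ×ˢ W, Dc O O' R R' e ≤ 1 → F e ≤ 6 * ((R e.1 * R' e.2) / Dc O O' R R' e)) →
    (∀ e ∈ V ×ˢ W, PG e → ∀ t : ℝ, (2:ℝ)^n ≤ t → 1/(2*t) < Dc O O' R R' e →
      Dc O O' R R' e ≤ 1/t → 0 < F e →
      Gen (γ (miss O' e.1)) (γ' (miss O e.2)) t (cof (uu O' e.1) (uu O e.2))
        (cof (uu O e.2) (uu O' e.1)) (Rc O' R e.1) (Rc O R' e.2)) →
    ∑ e ∈ V ×ˢ W, F e ≤
      (Real.log p)^3 * ((∑ q ∈ V, mu O' R q) * (∑ r ∈ W, mu O R' r)) +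
      (p:ℝ)^(3/4000:ℝ) * ((∑ q ∈ V, mu O' R q) * (∑ r ∈ W, hw O r * mu O R' r))^(1/2+eps1) +
      ∑ e ∈ (V ×ˢ W).filter (Left O O' R R' n PG), F e := by
  obtain ⟨C, c0, hC1, hc0, hC⟩ := os_core hGen
  obtain ⟨T0, hT01, hT0⟩ := hC c0 hc0 le_rfl
  obtain ⟨x0, hx0⟩ := Filter.eventually_atTop.1
    (os_numbers (KH 1 0 eps1) C c0 T0 CL (KH_pos 1 0 eps1).le hC1 hc0 hCL)
  refine ⟨max 2 ⌈x0⌉₊, le_max_left _ _, ?_⟩
  intro n p G O O' V W R R' γ γ' F PG hp hn hG hO hO' hsO hsO' hV hW hLV hLW hVt hWt hbig hsmall hgen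
  have hp2 : 2 ≤ p := (le_max_left _ _).trans hp
  have hpx : x0 ≤ (p:ℝ) := (Nat.le_ceil x0).trans (by exact_mod_cast (le_max_right _ _).trans hp)
  obtain ⟨g1, g2, g3, g4⟩ := hx0 p hpx
  have hp0 : (0:ℝ) < p := by exact_mod_cast (by omega : 0 < p)
  have hp1 : (1:ℝ) ≤ p := by exact_mod_cast (by omega : 1 ≤ p)
  have hlp : 0 ≤ Real.log p := Real.log_nonneg hp1
  have hl2 : 0 < Real.log 2 := Real.log_pos (by norm_num)
  have hn1 : (n:ℝ) * Real.log 2 ≤ 1/4 * Real.log p := by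
    have : (n:ℝ) ≤ 1/4 * Real.log p / Real.log 2 := by rw [hn]; exact Nat.floor_le (by positivity)
    rwa [le_div_iff₀ hl2] at this
  have hn2 : 1/4 * Real.log p < (n + 1) * Real.log 2 := by
    have : 1/4 * Real.log p / Real.log 2 < n + 1 := by rw [hn]; exact Nat.lt_floor_add_one _
    rwa [div_lt_iff₀ hl2] at this
  have h2n : (p:ℝ)^(1/4:ℝ)/2 ≤ (2:ℝ)^n := by
    have e1 : (2:ℝ)^n = Real.exp (n * Real.log 2) := by
      rw [Real.exp_nat_mul, Real.exp_log (by norm_num)]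
    have e2 : (p:ℝ)^(1/4:ℝ)/2 = Real.exp (1/4 * Real.log p - Real.log 2) := by
      rw [Real.exp_sub, Real.exp_log (by norm_num), Real.rpow_def_of_pos hp0, mul_comm (Real.log p)]
    rw [e1, e2]
    apply Real.exp_le_exp.2
    linarith
  have main := hT0 p 6 6 (CL * Real.log p) n p G O O' V W R R' γ γ' F PG (g1.trans h2n)
    (g2.trans (Real.exp_le_exp.2 (Real.rpow_le_rpow (by positivity) h2n hc0.le))) hG (by norm_num)
    (by norm_num) hO hO' hV hW hLV hLW hVt hWt hbig hsmall hgen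
  have hmu : 0 ≤ ∑ q ∈ V, mu O' R q := Finset.sum_nonneg fun q hq => mu_nonneg (hV q hq).2.le
  have hmu' : 0 ≤ ∑ q ∈ W, mu O R' q := Finset.sum_nonneg fun q hq => mu_nonneg (hW q hq).2.le
  have hmh' : 0 ≤ ∑ q ∈ W, hw O q * mu O R' q := Finset.sum_nonneg fun q hq =>
    mul_nonneg (hw_nonneg _ _) (mu_nonneg (hW q hq).2.le)
  set A := ∑ q ∈ V, mu O' R q with hA
  set A' := ∑ q ∈ W, mu O R' q with hA'
  set B' := ∑ q ∈ W, hw O q * mu O R' q with hB'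
  have he1 : eps1 = 1/1000 := rfl
  have b1 : 6 * (CL * Real.log p)^2 * (A * A') ≤ (Real.log p)^3 * (A * A') :=
    mul_le_mul_of_nonneg_right g3 (by positivity)
  have b2 : 6 * (CL * Real.log p)^2 * (n * (2 * KH 1 0 eps1 * (2:ℝ)^(2*eps1*n)) + C * ((2:ℝ)^n)^(-κ)) *
        (Real.exp ((1/2-eps1) * (6 * (∑ p ∈ O, 1/(p:ℝ)) + 3 * ∑ p ∈ O', 1/(p:ℝ))) *
        (A * B')^(1/2+eps1)) ≤ (p:ℝ)^(3/4000:ℝ) * (A * B')^(1/2+eps1) := by
    rw [← mul_assoc]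
    apply mul_le_mul_of_nonneg_right _ (by positivity)
    refine le_trans ?_ (g4 n hn1 κ hκ)
    apply mul_le_mul_of_nonneg_left
    · apply Real.exp_le_exp.2
      rw [he1]
      linarith
    · have := (KH_pos 1 0 eps1).le
      positivity
  linarith

open Classical in
/-- the statement of `os_column_cls` for fixed constants -/
def OSCls (CL : ℝ) (p₀ : ℕ) : Prop :=
    ∀ (n p G : ℕ) (O O' V W : Finset ℕ) (R R' : ℕ → ℝ)
    (γ γ' : Finset ℕ → ℝ) (F : ℕ × ℕ → ℝ),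
    p₀ ≤ p → n = ⌊1/4 * Real.log p / Real.log 2⌋₊ → 0 < G →
    (∀ q ∈ O, q.Prime ∧ p ≤ q) → (∀ q ∈ O', q.Prime ∧ p ≤ q) →
    ∑ q ∈ O, 1/(q:ℝ) ≤ 1 → ∑ q ∈ O', 1/(q:ℝ) ≤ 1 →
    (∀ w ∈ V, 0 < w ∧ 0 < R w) → (∀ w ∈ W, 0 < w ∧ 0 < R' w) →
    (∀ w ∈ V, R w ≤ (CL * Real.log p) * mu O' R w) → (∀ w ∈ W, R' w ≤ (CL * Real.log p) * mu O R' w) →
    (∀ z : ℝ, (p:ℝ) ≤ z → ∀ w ∈ V, Crest.Agent.R4.ClsB.Tame z G (uu O' w)) →
    (∀ z : ℝ, (p:ℝ) ≤ z → ∀ w ∈ W, Crest.Agent.R4.ClsB.Tame z G (uu O w)) →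
    (∀ e ∈ V ×ˢ W, 1 < Dc O O' R R' e → F e ≤ 6 * (R e.1 * R' e.2)) →
    (∀ e ∈ V ×ˢ W, Dc O O' R R' e ≤ 1 → F e ≤ 6 * ((R e.1 * R' e.2) / Dc O O' R R' e)) →
    (∀ e ∈ V ×ˢ W, Dc O O' R R' e ≤ 1/2^n → 0 < F e → RelG O O' R R' γ γ' e) →
    ∑ e ∈ V ×ˢ W, F e ≤
      (Real.log p)^3 * ((∑ q ∈ V, mu O' R q) * (∑ r ∈ W, mu O R' r)) +
      (p:ℝ)^(3/4000:ℝ) * ((∑ q ∈ V, mu O' R q) * (∑ r ∈ W, hw O r * mu O R' r))^(1/2+eps1) +
      ∑ e ∈ (V ×ˢ W).filter (fun e => 0 < F e ∧ (Dc O O' R R' e ≤ 1/2^n ∧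
        (EG O O' R R' γ γ' e ∨ FG O O' R R' γ γ' n e))), F e

open Classical in
/-- **OS column, classified**: the rest is the sum over the `[E]` and `[F]` pairs with `D ≤ 2^{-n}`. -/
theorem os_column_cls {CL : ℝ} (hCL : 1 ≤ CL) : ∃ p₀ : ℕ, 2 ≤ p₀ ∧ OSCls CL p₀ := by
  obtain ⟨p₀, hp₀, h0⟩ := os_column ClsT2.deepHyp_Gen3 (by norm_num) hCL
  refine ⟨max p₀ (2^1604), hp₀.trans (le_max_left _ _), ?_⟩
  intro n p G O O' V W R R' γ γ' F hp hn hG hO hO' hsO hsO' hV hW hLV hLW hVt hWt hbig hsmall hrel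
  have hOp : ∀ p ∈ O, p.Prime := fun q hq => (hO q hq).1
  have hOp' : ∀ p ∈ O', p.Prime := fun q hq => (hO' q hq).1
  have hn400 : 400 ≤ n := by
    have hl2 : 0 < Real.log 2 := Real.log_pos (by norm_num)
    have h1 : (2:ℝ)^1604 ≤ p := by exact_mod_cast (le_max_right _ _).trans hp
    have h2 : (1604:ℝ) * Real.log 2 ≤ Real.log p := by
      have := Real.log_le_log (by positivity) h1
      rwa [Real.log_pow] at this
    rw [hn]
    apply Nat.le_floor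
    rw [le_div_iff₀ hl2]
    push_cast
    nlinarith
  have main := h0 n p G O O' V W R R' γ γ' F (AltG O O' R R' γ γ' n) ((le_max_left _ _).trans hp) hn hG hO hO'
    hsO hsO' hV hW hLV hLW hVt hWt hbig hsmall (by
      intro e he hA t ht h1 h2 hF
      obtain ⟨m, m', hm⟩ := hrel e he (inv_le_of ht h2) hF
      exact gen3_of hm hA ht h1 h2)
  refine main.trans (add_le_add le_rfl ?_)
  apply rest_le
  intro e he hQ hF
  have h := Finset.mem_product.1 he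
  refine ⟨hQ.1, ?_⟩
  rcases classify_G hn400 hOp hOp' (hV _ h.1) (hW _ h.2) (hrel e he hQ.1 hF) with h1 | h1
  · exact absurd h1 hQ.2
  · exact h1

end Crest.Agent.R4.OSCol710
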