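import Mathlib
import Crest.Agent.R4.NMW710
import Crest.Agent.R4.OSCore710
import Crest.Agent.R4.GSplit194

/-!
R4 (S0004), helper710: **one-sided columns of a state** (symbol `eOS`): `os_column_cls` on the item pairs.

* `os_items`, `os_small` : item pairs, with numbers.
* `eOS_le_iF` / `eOS_le_iF'` : exact form of the symbol (left / right tie).
* `os_side` : bound for a one-sided column, symmetric in the state (sides only).
* `os_state`, `os_state'` : `eOS stp s ≤ p^(-11/12) Σ_{A', t'} mI + p^(-1/5000) (Σ_{A, t₀} mI +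
  Σ_{A', t'} 2^{-miss} mI) + ∑_{[E] or [F]} iF`.
-/

set_option autoImplicit false
set_option linter.unusedSectionVars false
set_option linter.unusedVariables false
open Finset

namespace Crest.Agent.R4.OSCol710

open Crest.Agent.R4.HVW560 Crest.Agent.R4.Schur709 Crest.Agent.R4.StopHvw709
open Crest.Agent.R4.StopAsm709 Crest.Agent.R4.AvgItem710 Crest.Agent.R4.DeepSt579
open Crest.Agent.R4.Item758 Crest.Agent.R4.NMW710
open Crest.Agent.R4.ClsS (eps1)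

section items
variable {Λ κι : Type*}

open Classical in
/-- **item pairs of a one-sided column** (left side misses `p`) -/
theorem os_items {CL : ℝ} {p₀ : ℕ}
    (hcol : OSCls CL p₀) (D : Par Λ κι) {ρ : ℕ → ℝ} {F : ℕ × ℕ → ℝ}
    {n p G M b pr c M' b' pr' c' : ℕ} {V W : Finset ℕ}
    (hp : p₀ ≤ p) (hn : n = ⌊1/4 * Real.log p / Real.log 2⌋₊) (hn1 : 1 ≤ n) (hG : 0 < G)
    (hρ : ∀ q, 0 < ρ q) (hb : 0 < b) (hc : 0 < c) (hb' : 0 < b') (hc' : 0 < c')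
    (hM : Squarefree M) (hM' : Squarefree M')
    (hMp : ∀ l : ℕ, l.Prime → l ∣ M → p ≤ l) (hMp' : ∀ l : ℕ, l.Prime → l ∣ M' → p ≤ l)
    (hs : ∑ l ∈ M.primeFactors, 1/(l:ℝ) ≤ 1) (hs' : ∑ l ∈ M'.primeFactors, 1/(l:ℝ) ≤ 1)
    (hV : ∀ q ∈ V, 0 < q ∧ pr ∣ q) (hW : ∀ q ∈ W, 0 < q ∧ pr' ∣ q)
    (tV : ∀ z : ℝ, (p:ℝ) ≤ z → ∀ q ∈ V, ClsB.Tame z G (q / pr / M.gcd (q / pr)))
    (tW : ∀ z : ℝ, (p:ℝ) ≤ z → ∀ q ∈ W, ClsB.Tame z G (q / pr' / M'.gcd (q / pr')))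
    (lV : ∀ q ∈ V, 1 ≤ CL * Real.log p * tq (q / pr / M.gcd (q / pr)))
    (lW : ∀ q ∈ W, 1 ≤ CL * Real.log p * tq (q / pr' / M'.gcd (q / pr')))
    (hF : ∀ e ∈ V ×ˢ W, F e ≤ D.pb ρ M b pr c e.1 M' b' pr' c' e.2) :
    ∑ e ∈ V ×ˢ W, F e ≤
      (Real.log p)^3 * ((8 * ∑ q ∈ V, rd b c ρ q * tq (q / pr)) *
        (8 * ∑ q ∈ W, rd b' c' ρ q * tq (q / pr'))) +
      (p:ℝ)^(3/4000:ℝ) * ((8 * ∑ q ∈ V, rd b c ρ q * tq (q / pr)) *
        (8 * ∑ q ∈ W, hw M'.primeFactors (q / pr') * (rd b' c' ρ q * tq (q / pr'))))^(1/2+eps1) +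
      ∑ e ∈ (V ×ˢ W).filter (fun e => 0 < F e ∧ (Dq ρ M b pr c M' b' pr' c' e ≤ 1/2^n ∧
        (ESI D.γ ρ M b pr c M' b' pr' c' e ∨ FSI D.γ ρ n M b pr c M' b' pr' c' e))), F e := by
  classical
  have hb0 : (0:ℝ) < b := by exact_mod_cast hb
  have hc0' : (0:ℝ) < c := by exact_mod_cast hc
  have hbb0 : (0:ℝ) < b' := by exact_mod_cast hb'
  have hcc0 : (0:ℝ) < c' := by exact_mod_cast hc'
  have hR : ∀ q, 0 < rd b c ρ q := fun q => mul_pos (div_pos hb0 hc0') (hρ q)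
  have hR' : ∀ q, 0 < rd b' c' ρ q := fun q => mul_pos (div_pos hbb0 hcc0) (hρ q)
  have hMp0 : 0 < M := Nat.pos_of_ne_zero hM.ne_zero
  have hMp0' : 0 < M' := Nat.pos_of_ne_zero hM'.ne_zero
  have hVw : ∀ q ∈ V, 0 < q / pr := fun q hq =>
    Nat.div_pos (Nat.le_of_dvd (hV q hq).1 (hV q hq).2) (Nat.pos_of_dvd_of_pos (hV q hq).2 (hV q hq).1)
  have hWw : ∀ q ∈ W, 0 < q / pr' := fun q hq =>
    Nat.div_pos (Nat.le_of_dvd (hW q hq).1 (hW q hq).2) (Nat.pos_of_dvd_of_pos (hW q hq).2 (hW q hq).1)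
  have hVm : ∀ q ∈ V, pr * (q / pr) = q := fun q hq => Nat.mul_div_cancel' (hV q hq).2
  have hWm : ∀ q ∈ W, pr' * (q / pr') = q := fun q hq => Nat.mul_div_cancel' (hW q hq).2
  set V0 := V.image (fun q => q / pr) with hV0
  set W0 := W.image (fun q => q / pr') with hW0
  set O' := M.primeFactors with hO'd
  set O := M'.primeFactors with hOd
  have hO : ∀ l ∈ O, l.Prime ∧ p ≤ l := fun l hl =>
    ⟨Nat.prime_of_mem_primeFactors hl, hMp' l (Nat.prime_of_mem_primeFactors hl)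
      (Nat.dvd_of_mem_primeFactors hl)⟩
  have hO' : ∀ l ∈ O', l.Prime ∧ p ≤ l := fun l hl =>
    ⟨Nat.prime_of_mem_primeFactors hl, hMp l (Nat.prime_of_mem_primeFactors hl)
      (Nat.dvd_of_mem_primeFactors hl)⟩
  set R : ℕ → ℝ := fun w => rd b c ρ (pr * w) with hRd
  set R' : ℕ → ℝ := fun w => rd b' c' ρ (pr' * w) with hRd'
  have hRe : ∀ q ∈ V, R (q / pr) = rd b c ρ q := fun q hq => by rw [hRd]; simp only; rw [hVm q hq]
  have hRe' : ∀ q ∈ W, R' (q / pr') = rd b' c' ρ q := fun q hq => by rw [hRd']; simp only; rw [hWm q hq]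
  set F0 : ℕ × ℕ → ℝ := fun f => F (pr * f.1, pr' * f.2) with hF0
  have hF0e : ∀ e ∈ V ×ˢ W, F0 (e.1 / pr, e.2 / pr') = F e := fun e he => by
    obtain ⟨h1, h2⟩ := Finset.mem_product.1 he
    rw [hF0]; simp only; rw [hVm _ h1, hWm _ h2]
  have hDc : ∀ e ∈ V ×ˢ W, Dc O O' R R' (e.1 / pr, e.2 / pr') = Dq ρ M b pr c M' b' pr' c' e :=
    fun e he => by
    obtain ⟨k1, k2⟩ := Finset.mem_product.1 he
    have h1 := Dc_pf hM hM' R R' (e.1 / pr, e.2 / pr') (hVw _ k1) (hWw _ k2)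
    rw [hRe _ k1, hRe' _ k2] at h1
    exact h1
  have hinjV : Set.InjOn (fun q => q / pr) (V : Set ℕ) := by
    intro e he f hf hef
    simp only at hef
    rw [← hVm _ (Finset.mem_coe.1 he), ← hVm _ (Finset.mem_coe.1 hf), hef]
  have hinjW : Set.InjOn (fun q => q / pr') (W : Set ℕ) := by
    intro e he f hf hef
    simp only at hef
    rw [← hWm _ (Finset.mem_coe.1 he), ← hWm _ (Finset.mem_coe.1 hf), hef]
  have hinj : Set.InjOn (fun e : ℕ × ℕ => (e.1 / pr, e.2 / pr')) ((V ×ˢ W : Finset (ℕ × ℕ)) : Set (ℕ × ℕ)) := by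
    intro e he f hf hef
    obtain ⟨h1, h2⟩ := Finset.mem_product.1 (Finset.mem_coe.1 he)
    obtain ⟨h3, h4⟩ := Finset.mem_product.1 (Finset.mem_coe.1 hf)
    simp only [Prod.mk.injEq] at hef
    exact Prod.ext (hinjV h1 h3 hef.1) (hinjW h2 h4 hef.2)
  have himg : V0 ×ˢ W0 = (V ×ˢ W).image (fun e : ℕ × ℕ => (e.1 / pr, e.2 / pr')) := by
    ext f
    simp only [Finset.mem_product, Finset.mem_image, hV0, hW0]
    constructor
    · rintro ⟨⟨a, ha, ha'⟩, ⟨d, hd, hd'⟩⟩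
      exact ⟨(a, d), ⟨ha, hd⟩, Prod.ext ha' hd'⟩
    · rintro ⟨e, ⟨h1, h2⟩, rfl⟩
      exact ⟨⟨_, h1, rfl⟩, ⟨_, h2, rfl⟩⟩
  have hsum : ∀ Q : ℕ × ℕ → Prop, ∀ Q0 : ℕ × ℕ → Prop,
      (∀ e ∈ V ×ˢ W, Q0 (e.1 / pr, e.2 / pr') → Q e) →
      (∀ e ∈ V ×ˢ W, Q e → Q0 (e.1 / pr, e.2 / pr')) →
      ∑ f ∈ (V0 ×ˢ W0).filter Q0, F0 f = ∑ e ∈ (V ×ˢ W).filter Q, F e := by
    intro Q Q0 h1 h2
    rw [himg, Finset.filter_image, Finset.sum_image
      (hinj.mono (by intro x hx; exact (Finset.mem_filter.1 (Finset.mem_coe.1 hx)).1))]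
    have e1 : (V ×ˢ W).filter (fun a => Q0 (a.1 / pr, a.2 / pr')) = (V ×ˢ W).filter Q := by
      ext e
      simp only [Finset.mem_filter]
      exact ⟨fun h => ⟨h.1, h1 e h.1 h.2⟩, fun h => ⟨h.1, h2 e h.1 h.2⟩⟩
    rw [e1]
    exact Finset.sum_congr rfl fun e he => hF0e e (Finset.mem_filter.1 he).1
  have hsumT : ∑ f ∈ V0 ×ˢ W0, F0 f = ∑ e ∈ V ×ˢ W, F e := by
    have := hsum (fun _ => True) (fun _ => True) (fun _ _ _ => trivial) (fun _ _ _ => trivial)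
    simpa using this
  have mem0 : ∀ f ∈ V0 ×ˢ W0, ∃ e ∈ V ×ˢ W, f = (e.1 / pr, e.2 / pr') := fun f hf => by
    rw [himg] at hf
    obtain ⟨e, he, rfl⟩ := Finset.mem_image.1 hf
    exact ⟨e, he, rfl⟩
  have hpb : ∀ e ∈ V ×ˢ W, F e ≤ 4 * (rd b c ρ e.1 * rd b' c' ρ e.2) +
      2 * (rd b c ρ e.1 * rd b' c' ρ e.2 / Dq ρ M b pr c M' b' pr' c' e) := fun e he => by
    refine (hF e he).trans ?_
    rw [pb_rd]
    exact pbd_le_all (hR _).le (hR' _).le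
  have muV : ∀ q ∈ V, mu O' R (q / pr) = rd b c ρ q * tq (q / pr / M.gcd (q / pr)) := fun q hq => by
    unfold mu tq
    rw [hRe q hq, uu_pf hM _ (hVw q hq)]
  have muW : ∀ q ∈ W, mu O R' (q / pr') = rd b' c' ρ q * tq (q / pr' / M'.gcd (q / pr')) := fun q hq => by
    unfold mu tq
    rw [hRe' q hq, uu_pf hM' _ (hWw q hq)]
  set gL : Finset ℕ → ℝ := fun S => (∏ l ∈ S, l : ℕ) * ((b : ℝ) / c * D.γ) with hgL
  set gR : Finset ℕ → ℝ := fun S => (∏ l ∈ S, l : ℕ) * ((b' : ℝ) / c' * D.γ) with hgR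
  have hES : ∀ e ∈ V ×ˢ W, EG O O' R R' gL gR (e.1 / pr, e.2 / pr') ↔
      ESI D.γ ρ M b pr c M' b' pr' c' e := fun e he => by
    obtain ⟨k1, k2⟩ := Finset.mem_product.1 he
    have hw1 := hVw _ k1
    have hw2 := hWw _ k2
    show ES ((∏ l ∈ miss O' (e.1 / pr), l : ℕ) * ((b : ℝ) / c * D.γ))
        ((∏ l ∈ miss O (e.2 / pr'), l : ℕ) * ((b' : ℝ) / c' * D.γ))
        (cof (uu O' (e.1 / pr)) (uu O (e.2 / pr'))) (cof (uu O (e.2 / pr')) (uu O' (e.1 / pr)))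
        (Rc O' R (e.1 / pr)) (Rc O R' (e.2 / pr')) ↔ _
    rw [miss_pf_prod hM _ hw1, miss_pf_prod hM' _ hw2, uu_pf hM _ hw1, uu_pf hM' _ hw2,
      Rc_pf hM _ _ hw1, Rc_pf hM' _ _ hw2, hRe _ k1, hRe' _ k2]
    exact Iff.rfl
  have hFS : ∀ e ∈ V ×ˢ W, FG O O' R R' gL gR n (e.1 / pr, e.2 / pr') ↔
      FSI D.γ ρ n M b pr c M' b' pr' c' e := fun e he => by
    obtain ⟨k1, k2⟩ := Finset.mem_product.1 he
    have hw1 := hVw _ k1
    have hw2 := hWw _ k2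
    show FS n ((∏ l ∈ miss O' (e.1 / pr), l : ℕ) * ((b : ℝ) / c * D.γ))
        ((∏ l ∈ miss O (e.2 / pr'), l : ℕ) * ((b' : ℝ) / c' * D.γ))
        (cof (uu O' (e.1 / pr)) (uu O (e.2 / pr'))) (cof (uu O (e.2 / pr')) (uu O' (e.1 / pr)))
        (Rc O' R (e.1 / pr)) (Rc O R' (e.2 / pr')) ↔ _
    rw [miss_pf_prod hM _ hw1, miss_pf_prod hM' _ hw2, uu_pf hM _ hw1, uu_pf hM' _ hw2,
      Rc_pf hM _ _ hw1, Rc_pf hM' _ _ hw2, hRe _ k1, hRe' _ k2]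
    exact Iff.rfl
  have key := hcol n p G O O' V0 W0 R R' gL gR F0 hp hn hG hO hO' hs' hs
    (by
      intro w hw
      obtain ⟨q, hq, rfl⟩ := Finset.mem_image.1 hw
      exact ⟨hVw q hq, by rw [hRe q hq]; exact hR q⟩)
    (by
      intro w hw
      obtain ⟨q, hq, rfl⟩ := Finset.mem_image.1 hw
      exact ⟨hWw q hq, by rw [hRe' q hq]; exact hR' q⟩)
    (by
      intro w hw
      obtain ⟨q, hq, rfl⟩ := Finset.mem_image.1 hw
      rw [hRe q hq, muV q hq]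
      have := mul_le_mul_of_nonneg_left (lV q hq) (hR q).le
      calc rd b c ρ q = rd b c ρ q * 1 := (mul_one _).symm
        _ ≤ _ := this
        _ = _ := by ring)
    (by
      intro w hw
      obtain ⟨q, hq, rfl⟩ := Finset.mem_image.1 hw
      rw [hRe' q hq, muW q hq]
      have := mul_le_mul_of_nonneg_left (lW q hq) (hR' q).le
      calc rd b' c' ρ q = rd b' c' ρ q * 1 := (mul_one _).symm
        _ ≤ _ := this
        _ = _ := by ring)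
    (by
      intro z hz w hw
      obtain ⟨q, hq, rfl⟩ := Finset.mem_image.1 hw
      rw [uu_pf hM _ (hVw q hq)]
      exact tV z hz q hq)
    (by
      intro z hz w hw
      obtain ⟨q, hq, rfl⟩ := Finset.mem_image.1 hw
      rw [uu_pf hM' _ (hWw q hq)]
      exact tW z hz q hq)
    (by
      intro f hf h1
      obtain ⟨e, he, rfl⟩ := mem0 f hf
      obtain ⟨k1, k2⟩ := Finset.mem_product.1 he
      rw [hDc e he] at h1
      rw [hF0e e he, hRe _ k1, hRe' _ k2]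
      have h2 := hpb e he
      have h3 : 0 ≤ rd b c ρ e.1 * rd b' c' ρ e.2 := mul_nonneg (hR _).le (hR' _).le
      have h4 : rd b c ρ e.1 * rd b' c' ρ e.2 / Dq ρ M b pr c M' b' pr' c' e ≤
          rd b c ρ e.1 * rd b' c' ρ e.2 := div_le_self h3 h1.le
      linarith)
    (by
      intro f hf h1
      obtain ⟨e, he, rfl⟩ := mem0 f hf
      obtain ⟨k1, k2⟩ := Finset.mem_product.1 he
      have hd0 : 0 < Dc O O' R R' (e.1 / pr, e.2 / pr') := by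
        refine Dc_pos (N := p) hO hO' ?_ (hWw _ k2)
        rw [hRe _ k1]; exact hR _
      rw [hDc e he] at h1 hd0 ⊢
      rw [hF0e e he, hRe _ k1, hRe' _ k2]
      have h2 := hpb e he
      have h3 : 0 ≤ rd b c ρ e.1 * rd b' c' ρ e.2 := mul_nonneg (hR _).le (hR' _).le
      have h4 : rd b c ρ e.1 * rd b' c' ρ e.2 ≤
          rd b c ρ e.1 * rd b' c' ρ e.2 / Dq ρ M b pr c M' b' pr' c' e := by
        rw [le_div_iff₀ hd0]; nlinarith
      linarith)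
    (by
      intro f hf h1 h3
      obtain ⟨e, he, rfl⟩ := mem0 f hf
      obtain ⟨k1, k2⟩ := Finset.mem_product.1 he
      rw [hDc e he] at h1
      rw [hF0e e he] at h3
      have hw1 := hVw _ k1
      have hw2 := hWw _ k2
      have hhalf : Dq ρ M b pr c M' b' pr' c' e ≤ 1/2 := by
        refine h1.trans ?_
        apply one_div_le_one_div_of_le (by norm_num)
        calc (2:ℝ) = 2^1 := (pow_one _).symm
          _ ≤ 2^n := pow_le_pow_right₀ (by norm_num) hn1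
      have hRa : Ra ((b : ℝ) / c * D.γ) (rd b c ρ e.1) (e.1 / pr) M ((b' : ℝ) / c' * D.γ)
          (rd b' c' ρ e.2) (e.2 / pr') M' := by
        by_contra hneg
        have h4 := hF e he
        rw [pb_rd] at h4
        unfold pbd at h4
        unfold Dq at hhalf
        rw [if_pos hhalf, if_neg hneg] at h4
        linarith
      have hu : 0 < e.1 / pr / M.gcd (e.1 / pr) := div_pos' hw1 hMp0
      obtain ⟨m, m', hmm⟩ := rel_two (AvgItem710.cof_coprime hu) hRa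
      refine ⟨m, m', ?_⟩
      show |(m + ((∏ l ∈ miss O' (e.1 / pr), l : ℕ) * ((b : ℝ) / c * D.γ))) *
          (cof (uu O (e.2 / pr')) (uu O' (e.1 / pr)) : ℕ) -
          (m' + ((∏ l ∈ miss O (e.2 / pr'), l : ℕ) * ((b' : ℝ) / c' * D.γ))) *
          (cof (uu O' (e.1 / pr)) (uu O (e.2 / pr')) : ℕ)| ≤ 2 * Dc O O' R R' (e.1 / pr, e.2 / pr')
      rw [hDc e he, miss_pf_prod hM _ hw1, miss_pf_prod hM' _ hw2, uu_pf hM _ hw1, uu_pf hM' _ hw2]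
      exact hmm)
  have hleft : ∑ f ∈ (V0 ×ˢ W0).filter (fun f => 0 < F0 f ∧ (Dc O O' R R' f ≤ 1/2^n ∧
      (EG O O' R R' gL gR f ∨ FG O O' R R' gL gR n f))), F0 f =
      ∑ e ∈ (V ×ˢ W).filter (fun e => 0 < F e ∧ (Dq ρ M b pr c M' b' pr' c' e ≤ 1/2^n ∧
        (ESI D.γ ρ M b pr c M' b' pr' c' e ∨ FSI D.γ ρ n M b pr c M' b' pr' c' e))), F e := by
    have hh := hsum (fun e => 0 < F e ∧ (Dq ρ M b pr c M' b' pr' c' e ≤ 1/2^n ∧
        (ESI D.γ ρ M b pr c M' b' pr' c' e ∨ FSI D.γ ρ n M b pr c M' b' pr' c' e)))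
      (fun f => 0 < F0 f ∧ (Dc O O' R R' f ≤ 1/2^n ∧
        (EG O O' R R' gL gR f ∨ FG O O' R R' gL gR n f))) (fun e he h => by
        obtain ⟨h0, h1, h2⟩ := h
        rw [hDc e he] at h1
        rw [hF0e e he] at h0
        rw [hES e he, hFS e he] at h2
        exact ⟨h0, h1, h2⟩) (fun e he h => by
        obtain ⟨h0, h1, h2⟩ := h
        refine ⟨?_, ?_, ?_⟩
        · rw [hF0e e he]; exact h0
        · rw [hDc e he]; exact h1
        · rw [hES e he, hFS e he]; exact h2)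
    convert hh
  rw [hsumT, hleft] at key
  refine key.trans ?_
  have he8 : Real.exp 2 ≤ 8 := by
    have h := Real.exp_one_lt_d9
    have : Real.exp 2 = Real.exp 1 * Real.exp 1 := by rw [← Real.exp_add]; norm_num
    rw [this]
    have h0 := Real.exp_pos 1
    nlinarith
  have hexp : ∀ x : ℝ, x ≤ 1 → Real.exp (2 * x) ≤ 8 := fun x hx =>
    (Real.exp_le_exp.2 (by linarith)).trans he8
  have sV : ∑ w ∈ V0, mu O' R w ≤ 8 * ∑ q ∈ V, rd b c ρ q * tq (q / pr) := by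
    rw [hV0, Finset.sum_image hinjV, Finset.mul_sum]
    refine Finset.sum_le_sum fun q hq => ?_
    rw [muV q hq]
    have h1 := tq_div_le hMp0 (hVw q hq)
    have h2 := hexp _ hs
    have h3 : tq (q / pr / M.gcd (q / pr)) ≤ tq (q / pr) * 8 :=
      h1.trans (mul_le_mul_of_nonneg_left h2 (tq_nonneg _))
    have h4 := mul_le_mul_of_nonneg_left h3 (hR q).le
    linarith
  have sW : ∑ w ∈ W0, mu O R' w ≤ 8 * ∑ q ∈ W, rd b' c' ρ q * tq (q / pr') := by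
    rw [hW0, Finset.sum_image hinjW, Finset.mul_sum]
    refine Finset.sum_le_sum fun q hq => ?_
    rw [muW q hq]
    have h1 := tq_div_le hMp0' (hWw q hq)
    have h2 := hexp _ hs'
    have h3 : tq (q / pr' / M'.gcd (q / pr')) ≤ tq (q / pr') * 8 :=
      h1.trans (mul_le_mul_of_nonneg_left h2 (tq_nonneg _))
    have h4 := mul_le_mul_of_nonneg_left h3 (hR' q).le
    linarith
  have nV : 0 ≤ ∑ w ∈ V0, mu O' R w := Finset.sum_nonneg fun w hw => by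
    obtain ⟨q, hq, rfl⟩ := Finset.mem_image.1 hw
    rw [muV q hq]; exact mul_nonneg (hR q).le (tq_nonneg _)
  have nW : 0 ≤ ∑ w ∈ W0, mu O R' w := Finset.sum_nonneg fun w hw => by
    obtain ⟨q, hq, rfl⟩ := Finset.mem_image.1 hw
    rw [muW q hq]; exact mul_nonneg (hR' q).le (tq_nonneg _)
  have hprod : (∑ w ∈ V0, mu O' R w) * (∑ w ∈ W0, mu O R' w) ≤
      (8 * ∑ q ∈ V, rd b c ρ q * tq (q / pr)) * (8 * ∑ q ∈ W, rd b' c' ρ q * tq (q / pr')) :=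
    mul_le_mul sV sW nW (nV.trans sV)
  have sH : ∑ w ∈ W0, hw O w * mu O R' w ≤
      8 * ∑ q ∈ W, hw M'.primeFactors (q / pr') * (rd b' c' ρ q * tq (q / pr')) := by
    rw [hW0, Finset.sum_image hinjW, Finset.mul_sum]
    refine Finset.sum_le_sum fun q hq => ?_
    rw [muW q hq]
    have h1 := tq_div_le hMp0' (hWw q hq)
    have h2 := hexp _ hs'
    have h3 : tq (q / pr' / M'.gcd (q / pr')) ≤ tq (q / pr') * 8 :=
      h1.trans (mul_le_mul_of_nonneg_left h2 (tq_nonneg _))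
    have h4 := mul_le_mul_of_nonneg_left h3 (hR' q).le
    have h5 := mul_le_mul_of_nonneg_left h4 (hw_nonneg O (q / pr'))
    calc _ ≤ hw O (q / pr') * (rd b' c' ρ q * (tq (q / pr') * 8)) := h5
      _ = _ := by ring
  have nH : 0 ≤ ∑ w ∈ W0, hw O w * mu O R' w := Finset.sum_nonneg fun w hw' => by
    obtain ⟨q, hq, rfl⟩ := Finset.mem_image.1 hw'
    rw [muW q hq]; exact mul_nonneg (hw_nonneg _ _) (mul_nonneg (hR' q).le (tq_nonneg _))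
  have hprod2 : (∑ w ∈ V0, mu O' R w) * (∑ w ∈ W0, hw O w * mu O R' w) ≤
      (8 * ∑ q ∈ V, rd b c ρ q * tq (q / pr)) *
        (8 * ∑ q ∈ W, hw M'.primeFactors (q / pr') * (rd b' c' ρ q * tq (q / pr'))) :=
    mul_le_mul sV sH nH (nV.trans sV)
  have hlog : 0 ≤ (Real.log p)^3 := pow_nonneg (Real.log_natCast_nonneg p) 3
  have he1 : eps1 = 1/1000 := rfl
  refine add_le_add (add_le_add (mul_le_mul_of_nonneg_left hprod hlog) ?_) le_rfl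
  refine mul_le_mul_of_nonneg_left ?_ (by positivity)
  exact Real.rpow_le_rpow (mul_nonneg nV nH) hprod2 (by rw [he1]; norm_num)

end items

/-! ### numbers -/

open Filter in
/-- numbers of a one-sided column -/
lemma num_os (C1 Cm : ℝ) (hCm : 0 ≤ Cm) : ∃ p₁ : ℕ, 2 ≤ p₁ ∧ ∀ p : ℕ, p₁ ≤ p →
    ∀ X X' H' Φ Φ' Ψ' : ℝ,
    0 ≤ X → 0 ≤ X' → 0 ≤ H' → X ≤ (Real.log p)^C1 / p → X' ≤ (Real.log p)^C1 → H' ≤ X' →
    X ≤ Cm * Φ → X' ≤ Cm * Φ' → H' ≤ Cm * Ψ' → 0 ≤ Φ → 0 ≤ Φ' → 0 ≤ Ψ' →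
    (Real.log p)^3 * ((8 * X) * (8 * X')) + (p:ℝ)^(3/4000:ℝ) * ((8 * X) * (8 * H'))^(1/2+eps1) ≤
      (p:ℝ)^(-(11/12):ℝ) * Φ' + (p:ℝ)^(-(1/5000):ℝ) * (Φ + Ψ') := by
  have he1 : eps1 = 1/1000 := rfl
  have e1 := ev_log_rpow (64 * Cm) (C1 + 3) (1/12) (by norm_num)
  have e2 := ev_log_rpow 64 (C1 + C1) (1/100) (by norm_num)
  have e3 := ev_log_rpow (4 * Cm) 0 (1/25000) (by norm_num)
  obtain ⟨x0, hx0⟩ := eventually_atTop.1 (e1.and (e2.and (e3.and (eventually_ge_atTop (3:ℝ)))))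
  refine ⟨max 2 ⌈x0⌉₊, le_max_left _ _, ?_⟩
  intro p hp X X' H' Φ Φ' Ψ' hX hX' hH' hXs hXs' hHX hXm hXm' hHm hΦ1 hΦ2 hΨ
  have hpx : x0 ≤ (p:ℝ) := (Nat.le_ceil x0).trans (by exact_mod_cast (le_max_right _ _).trans hp)
  obtain ⟨g1, g2, g3, g4⟩ := hx0 p hpx
  have hp0 : (0:ℝ) < p := by linarith
  have hp1 : (1:ℝ) ≤ p := by linarith
  have hl1 : 1 ≤ Real.log p := by
    rw [Real.le_log_iff_exp_le hp0]
    have := Real.exp_one_lt_d9
    linarith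
  have hl0 : 0 < Real.log p := by linarith
  rw [Real.rpow_zero, mul_one] at g3
  set L := Real.log (p:ℝ) with hL
  have hLC : 0 < L^C1 := Real.rpow_pos_of_pos hl0 _
  -- first term
  have a1 : L^3 * ((8 * X) * (8 * X')) ≤ (p:ℝ)^(-(11/12):ℝ) * Φ' := by
    have d0 : X * X' ≤ (L^C1 / p) * (Cm * Φ') := mul_le_mul hXs hXm' hX' (by positivity)
    have d1 : L^3 * ((8 * X) * (8 * X')) ≤ (64 * Cm * (L^(C1+3))) / p * Φ' := by
      have d2 : L^(C1+3) = L^C1 * L^3 := by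
        rw [Real.rpow_add hl0]
        have : L^(3:ℝ) = L^(3:ℕ) := by
          rw [← Real.rpow_natCast]; norm_num
        rw [this]
      rw [d2]
      calc L^3 * ((8 * X) * (8 * X')) = 64 * L^3 * (X * X') := by ring
        _ ≤ 64 * L^3 * ((L^C1 / p) * (Cm * Φ')) := mul_le_mul_of_nonneg_left d0 (by positivity)
        _ = _ := by ring
    refine d1.trans (mul_le_mul_of_nonneg_right ?_ hΦ2)
    rw [div_le_iff₀ hp0]
    refine g1.trans (le_of_eq ?_)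
    nth_rewrite 3 [← Real.rpow_one (p:ℝ)]
    rw [← Real.rpow_add hp0]; norm_num
  -- second term
  have a2 : (p:ℝ)^(3/4000:ℝ) * ((8 * X) * (8 * H'))^(1/2+eps1) ≤ (p:ℝ)^(-(1/5000):ℝ) * (Φ + Ψ') := by
    have hYY0 : 0 ≤ (8 * X) * (8 * H') := by positivity
    have b1 : ((8 * X) * (8 * H'))^(1/2+eps1) =
        ((8 * X) * (8 * H'))^(1/2:ℝ) * ((8 * X) * (8 * H'))^(1/1000:ℝ) := by
      rw [he1, Real.rpow_add_of_nonneg hYY0 (by norm_num) (by norm_num)]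
    have b2 : ((8 * X) * (8 * H'))^(1/2:ℝ) ≤ 4 * Cm * (Φ + Ψ') := by
      rw [← Real.sqrt_eq_rpow]
      have b4 : 8 * X ≤ 8 * (Cm * Φ) := by linarith
      have b5 : 8 * H' ≤ 8 * (Cm * Ψ') := by linarith
      have b6 : Real.sqrt ((8 * X) * (8 * H')) ≤ (8 * X + 8 * H') / 2 := by
        apply Real.sqrt_le_iff.2
        refine ⟨by positivity, ?_⟩
        nlinarith [sq_nonneg (8 * X - 8 * H')]
      linarith
    have b3 : ((8 * X) * (8 * H'))^(1/1000:ℝ) ≤ (p:ℝ)^(-(99/100000):ℝ) := by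
      have c0 : X * H' ≤ (L^C1 / p) * L^C1 := mul_le_mul hXs (hHX.trans hXs') hH' (by positivity)
      have c1 : (8 * X) * (8 * H') ≤ (p:ℝ)^(-(99/100):ℝ) := by
        have c2 : 64 * ((L^C1 / p) * L^C1) ≤ (p:ℝ)^(-(99/100):ℝ) := by
          have c3 : 64 * ((L^C1 / p) * L^C1) = (64 * L^(C1+C1)) / p := by
            rw [Real.rpow_add hl0]; ring
          rw [c3, div_le_iff₀ hp0]
          refine g2.trans (le_of_eq ?_)
          nth_rewrite 3 [← Real.rpow_one (p:ℝ)]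
          rw [← Real.rpow_add hp0]; norm_num
        calc (8 * X) * (8 * H') = 64 * (X * H') := by ring
          _ ≤ 64 * ((L^C1 / p) * L^C1) := by linarith
          _ ≤ _ := c2
      refine (Real.rpow_le_rpow hYY0 c1 (by norm_num)).trans (le_of_eq ?_)
      rw [← Real.rpow_mul hp0.le]; norm_num
    have hS : 0 ≤ Φ + Ψ' := by positivity
    rw [b1]
    calc (p:ℝ)^(3/4000:ℝ) * (((8 * X) * (8 * H'))^(1/2:ℝ) * ((8 * X) * (8 * H'))^(1/1000:ℝ))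
        ≤ (p:ℝ)^(3/4000:ℝ) * ((4 * Cm * (Φ + Ψ')) * (p:ℝ)^(-(99/100000):ℝ)) := by
          apply mul_le_mul_of_nonneg_left _ (by positivity)
          exact mul_le_mul b2 b3 (Real.rpow_nonneg hYY0 _) (by positivity)
      _ = ((p:ℝ)^(3/4000:ℝ) * (p:ℝ)^(-(99/100000):ℝ)) * (4 * Cm) * (Φ + Ψ') := by ring
      _ ≤ ((p:ℝ)^(3/4000:ℝ) * (p:ℝ)^(-(99/100000):ℝ)) * (p:ℝ)^(1/25000:ℝ) * (Φ + Ψ') := by
          apply mul_le_mul_of_nonneg_right _ hS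
          exact mul_le_mul_of_nonneg_left g3 (by positivity)
      _ = (p:ℝ)^(-(1/5000):ℝ) * (Φ + Ψ') := by
          rw [← Real.rpow_add hp0, ← Real.rpow_add hp0]; norm_num
  linarith

/-- constants of a one-sided column: independent of types -/
structure CO (CL C1 Cm : ℝ) (p₁ : ℕ) : Prop where
  big : 16 ≤ p₁
  col : OSCls CL p₁
  num : ∀ p : ℕ, p₁ ≤ p → ∀ X X' H' Φ Φ' Ψ' : ℝ,
    0 ≤ X → 0 ≤ X' → 0 ≤ H' → X ≤ (Real.log p)^C1 / p → X' ≤ (Real.log p)^C1 → H' ≤ X' →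
    X ≤ Cm * Φ → X' ≤ Cm * Φ' → H' ≤ Cm * Ψ' → 0 ≤ Φ → 0 ≤ Φ' → 0 ≤ Ψ' →
    (Real.log p)^3 * ((8 * X) * (8 * X')) + (p:ℝ)^(3/4000:ℝ) * ((8 * X) * (8 * H'))^(1/2+eps1) ≤
      (p:ℝ)^(-(11/12):ℝ) * Φ' + (p:ℝ)^(-(1/5000):ℝ) * (Φ + Ψ')

theorem exists_CO {CL : ℝ} (hCL : 1 ≤ CL) (C1 Cm : ℝ) (hCm : 0 ≤ Cm) : ∃ p₁ : ℕ, CO CL C1 Cm p₁ := by
  obtain ⟨p₀, hp0, h0⟩ := os_column_cls hCL
  obtain ⟨p₁, hp1, h1⟩ := num_os C1 Cm hCm
  refine ⟨max (max p₀ p₁) 16, le_max_right _ _, ?_, ?_⟩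
  · intro n p G O O' V W R R' γ γ' F hp
    exact h0 n p G O O' V W R R' γ γ' F ((le_max_left _ _).trans ((le_max_left _ _).trans hp))
  · intro p hp
    exact h1 p ((le_max_right _ _).trans ((le_max_left _ _).trans hp))

lemma CO.mono {CL C1 Cm : ℝ} {p₁ p₂ : ℕ} (h : CO CL C1 Cm p₁) (h2 : p₁ ≤ p₂) : CO CL C1 Cm p₂ :=
  ⟨h.big.trans h2, fun n p G O O' V W R R' γ γ' F hp => h.col n p G O O' V W R R' γ γ' F (h2.trans hp),
    fun p hp => h.num p (h2.trans hp)⟩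

section items
variable {Λ κι : Type*}

open Classical in
/-- **one-sided column with numbers** -/
theorem os_small {CL C1 Cm : ℝ} {p₁ : ℕ} (hcc : CO CL C1 Cm p₁) (D : Par Λ κι) {ρ : ℕ → ℝ}
    {F : ℕ × ℕ → ℝ} {n p G M b pr c M' b' pr' c' : ℕ} {V W : Finset ℕ} {Φ Φ' Ψ' : ℝ}
    (hp : p₁ ≤ p) (hn : n = ⌊1/4 * Real.log p / Real.log 2⌋₊) (hG : 0 < G)
    (hρ : ∀ q, 0 < ρ q) (hb : 0 < b) (hc : 0 < c) (hb' : 0 < b') (hc' : 0 < c')
    (hM : Squarefree M) (hM' : Squarefree M')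
    (hMp : ∀ l : ℕ, l.Prime → l ∣ M → p ≤ l) (hMp' : ∀ l : ℕ, l.Prime → l ∣ M' → p ≤ l)
    (hs : ∑ l ∈ M.primeFactors, 1/(l:ℝ) ≤ 1) (hs' : ∑ l ∈ M'.primeFactors, 1/(l:ℝ) ≤ 1)
    (hV : ∀ q ∈ V, 0 < q ∧ pr ∣ q) (hW : ∀ q ∈ W, 0 < q ∧ pr' ∣ q)
    (tV : ∀ z : ℝ, (p:ℝ) ≤ z → ∀ q ∈ V, ClsB.Tame z G (q / pr / M.gcd (q / pr)))
    (tW : ∀ z : ℝ, (p:ℝ) ≤ z → ∀ q ∈ W, ClsB.Tame z G (q / pr' / M'.gcd (q / pr')))
    (lV : ∀ q ∈ V, 1 ≤ CL * Real.log p * tq (q / pr / M.gcd (q / pr)))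
    (lW : ∀ q ∈ W, 1 ≤ CL * Real.log p * tq (q / pr' / M'.gcd (q / pr')))
    (hF : ∀ e ∈ V ×ˢ W, F e ≤ D.pb ρ M b pr c e.1 M' b' pr' c' e.2)
    (xV : ∑ q ∈ V, rd b c ρ q * tq (q / pr) ≤ (Real.log p)^C1 / p)
    (xW : ∑ q ∈ W, rd b' c' ρ q * tq (q / pr') ≤ (Real.log p)^C1)
    (mV : ∑ q ∈ V, rd b c ρ q * tq (q / pr) ≤ Cm * Φ)
    (mW : ∑ q ∈ W, rd b' c' ρ q * tq (q / pr') ≤ Cm * Φ')
    (mH : ∑ q ∈ W, hw M'.primeFactors (q / pr') * (rd b' c' ρ q * tq (q / pr')) ≤ Cm * Ψ')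
    (hΦ : 0 ≤ Φ) (hΦ' : 0 ≤ Φ') (hΨ' : 0 ≤ Ψ') :
    ∑ e ∈ V ×ˢ W, F e ≤ ((p:ℝ)^(-(11/12):ℝ) * Φ' + (p:ℝ)^(-(1/5000):ℝ) * (Φ + Ψ')) +
      ∑ e ∈ (V ×ˢ W).filter (fun e => 0 < F e ∧ (Dq ρ M b pr c M' b' pr' c' e ≤ 1/2^n ∧
        (ESI D.γ ρ M b pr c M' b' pr' c' e ∨ FSI D.γ ρ n M b pr c M' b' pr' c' e))), F e := by
  have hp16 : 16 ≤ p := hcc.big.trans hp
  have hn1 : 1 ≤ n := by
    rw [hn]
    apply Nat.le_floor
    have hl2 : 0 < Real.log 2 := Real.log_pos (by norm_num)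
    rw [Nat.cast_one, le_div_iff₀ hl2]
    have h16 : Real.log 16 ≤ Real.log p := Real.log_le_log (by norm_num) (by exact_mod_cast hp16)
    have : Real.log 16 = 4 * Real.log 2 := by
      rw [show (16:ℝ) = 2^4 by norm_num, Real.log_pow]; norm_num
    linarith
  have key := os_items hcc.col D (F := F) hp hn hn1 hG
    hρ hb hc hb' hc' hM hM' hMp hMp' hs hs' hV hW tV tW lV lW hF
  refine key.trans (add_le_add ?_ le_rfl)
  have tV0 : ∀ q, 0 ≤ rd b c ρ q * tq (q / pr) := fun q =>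
    mul_nonneg (mul_nonneg (by positivity) (hρ q).le) (tq_nonneg _)
  have tW0 : ∀ q, 0 ≤ rd b' c' ρ q * tq (q / pr') := fun q =>
    mul_nonneg (mul_nonneg (by positivity) (hρ q).le) (tq_nonneg _)
  have nV : 0 ≤ ∑ q ∈ V, rd b c ρ q * tq (q / pr) := Finset.sum_nonneg fun q _ => tV0 q
  have nW : 0 ≤ ∑ q ∈ W, rd b' c' ρ q * tq (q / pr') := Finset.sum_nonneg fun q _ => tW0 q
  have nH : 0 ≤ ∑ q ∈ W, hw M'.primeFactors (q / pr') * (rd b' c' ρ q * tq (q / pr')) :=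
    Finset.sum_nonneg fun q _ => mul_nonneg (hw_nonneg _ _) (tW0 q)
  have hHX : ∑ q ∈ W, hw M'.primeFactors (q / pr') * (rd b' c' ρ q * tq (q / pr')) ≤
      ∑ q ∈ W, rd b' c' ρ q * tq (q / pr') :=
    Finset.sum_le_sum fun q _ => mul_le_of_le_one_left (tW0 q) (hw_le_one _ _)
  exact hcc.num p hp _ _ _ Φ Φ' Ψ' nV nW nH xV xW hHX mV mW mH hΦ hΦ' hΨ'

end items

/-! ### the `[E]` part, abstract bookkeeping -/

section absE
open Crest.Agent.R4.GInst194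

lemma sum_inv_div {N : ℕ} (hN : 0 < N) : ∑ d ∈ N.divisors, (1 : ℝ) / d = 1 + xs N := by
  unfold xs
  have h1 : 1 ∈ N.divisors := Nat.one_mem_divisors.2 hN.ne'
  rw [← Finset.add_sum_erase _ _ h1]
  simp

lemma xs_one : xs 1 = 0 := by
  unfold xs
  simp

/-- pairs with a gain on both sides, one partner per group on the left -/
lemma cross_sum {V W : Finset ℕ} {P : Finset (ℕ × ℕ)} {f : ℕ × ℕ → ℝ} {x x' : ℕ → ℝ} {m : ℕ → ℕ}
    {N : ℕ} {κ : ℝ} (hN : 0 < N) (hκ : 0 ≤ κ) (hP : P ⊆ V ×ˢ W) (hm : ∀ e ∈ P, m e.1 ∣ N)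
    (hx : ∀ q ∈ V, 0 ≤ x q) (hx' : ∀ r ∈ W, 0 ≤ x' r)
    (h : ∀ e ∈ P, f e ≤ κ * (x e.1 + x' e.2 / m e.1))
    (u1 : ∀ q r₁ r₂, (q, r₁) ∈ P → (q, r₂) ∈ P → r₁ = r₂)
    (u2 : ∀ q₁ q₂ r, (q₁, r) ∈ P → (q₂, r) ∈ P → m q₁ = m q₂ → q₁ = q₂) :
    ∑ e ∈ P, f e ≤ κ * (∑ q ∈ V, x q + (1 + xs N) * ∑ r ∈ W, x' r) := by
  classical
  refine (Finset.sum_le_sum h).trans ?_
  rw [← Finset.mul_sum, Finset.sum_add_distrib]
  apply mul_le_mul_of_nonneg_left _ hκ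
  refine add_le_add ?_ ?_
  · have inj : Set.InjOn (fun e : ℕ × ℕ => e.1) (P : Set (ℕ × ℕ)) := by
      intro a ha b hb hab
      obtain ⟨a1, a2⟩ := a
      obtain ⟨b1, b2⟩ := b
      simp only at hab
      subst hab
      exact Prod.ext rfl (u1 _ _ _ ha hb)
    rw [← Finset.sum_image (f := x) inj]
    refine Finset.sum_le_sum_of_subset_of_nonneg (fun q hq => ?_) fun q hq _ => hx q hq
    obtain ⟨e, he, rfl⟩ := Finset.mem_image.1 hq
    exact (Finset.mem_product.1 (hP he)).1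
  · have inj : Set.InjOn (fun e : ℕ × ℕ => (e.2, m e.1)) (P : Set (ℕ × ℕ)) := by
      intro a ha b hb hab
      obtain ⟨a1, a2⟩ := a
      obtain ⟨b1, b2⟩ := b
      simp only [Prod.mk.injEq] at hab
      obtain ⟨h1, h2⟩ := hab
      subst h1
      exact Prod.ext (u2 _ _ _ ha hb h2) rfl
    calc ∑ e ∈ P, x' e.2 / m e.1 = ∑ z ∈ P.image (fun e : ℕ × ℕ => (e.2, m e.1)), x' z.1 / z.2 :=
          (Finset.sum_image (f := fun z : ℕ × ℕ => x' z.1 / z.2) inj).symm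
      _ ≤ ∑ z ∈ W ×ˢ N.divisors, x' z.1 / z.2 := by
          refine Finset.sum_le_sum_of_subset_of_nonneg (fun z hz => ?_) fun z hz _ => ?_
          · obtain ⟨e, he, rfl⟩ := Finset.mem_image.1 hz
            exact Finset.mem_product.2 ⟨(Finset.mem_product.1 (hP he)).2,
              Nat.mem_divisors.2 ⟨hm e he, hN.ne'⟩⟩
          · exact div_nonneg (hx' _ (Finset.mem_product.1 hz).1) (Nat.cast_nonneg _)
      _ = (1 + xs N) * ∑ r ∈ W, x' r := by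
          rw [Finset.sum_product, ← sum_inv_div hN, Finset.mul_sum]
          refine Finset.sum_congr rfl fun r _ => ?_
          rw [Finset.sum_mul]
          exact Finset.sum_congr rfl fun d _ => by ring

/-- **one-sided bookkeeping of unique partners** -/
theorem os_match {V W : Finset ℕ} {P : Finset (ℕ × ℕ)} {f : ℕ × ℕ → ℝ} {a a' x x' : ℕ → ℝ}
    {m m' : ℕ → ℕ} {N N' : ℕ} {κ : ℝ} (Q : ℕ → Prop) [DecidablePred Q] (hN : 0 < N) (hN' : 0 < N')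
    (hκ : 0 ≤ κ) (hP : P ⊆ V ×ˢ W) (ha : ∀ q ∈ V, 0 ≤ a q) (ha' : ∀ r ∈ W, 0 ≤ a' r)
    (hx : ∀ q ∈ V, 0 ≤ x q) (hx' : ∀ r ∈ W, 0 ≤ x' r)
    (hm : ∀ e ∈ P, m e.1 ∣ N) (hm' : ∀ e ∈ P, m' e.2 ∣ N')
    (h1 : ∀ e ∈ P, f e ≤ 1 / (m' e.2 : ℝ) * a e.1) (h2 : ∀ e ∈ P, f e ≤ 1 / (m e.1 : ℝ) * a' e.2)
    (h3 : ∀ e ∈ P, m' e.2 = 1 → Q e.2 → f e ≤ κ * (x e.1 + x' e.2 / m e.1))
    (u1 : ∀ q r₁ r₂, (q, r₁) ∈ P → (q, r₂) ∈ P → m' r₁ = m' r₂ → r₁ = r₂)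
    (u2 : ∀ q₁ q₂ r, (q₁, r) ∈ P → (q₂, r) ∈ P → m q₁ = m q₂ → q₁ = q₂) :
    ∑ e ∈ P, f e ≤ ∑ e ∈ P.filter (fun e => m e.1 = 1 ∧ m' e.2 = 1 ∧ ¬ Q e.2), min (a e.1) (a' e.2) +
      (xs N' * ∑ q ∈ V, a q + xs N * ∑ r ∈ W.filter (fun r => m' r = 1 ∧ ¬ Q r), a' r) +
      κ * (∑ q ∈ V, x q + (1 + xs N) * ∑ r ∈ W.filter (fun r => m' r = 1 ∧ Q r), x' r) := by
  classical
  have s1 := Finset.sum_filter_add_sum_filter_not P (fun e => m' e.2 = 1) f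
  set P1 := P.filter (fun e => ¬ m' e.2 = 1) with hP1
  set P0 := P.filter (fun e => m' e.2 = 1) with hP0
  have s2 := Finset.sum_filter_add_sum_filter_not P0 (fun e => Q e.2) f
  set P4 := P0.filter (fun e => Q e.2) with hP4
  set P2 := P0.filter (fun e => ¬ Q e.2) with hP2
  have b1 : ∑ e ∈ P1, f e ≤ xs N' * ∑ q ∈ V, a q := by
    refine one_side (m' := m') hN' (fun e he => ?_) ha (fun e he => ?_) fun q r₁ r₂ k1 k2 k3 => ?_
    · obtain ⟨k1, k2⟩ := Finset.mem_filter.1 he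
      exact ⟨(Finset.mem_product.1 (hP k1)).1, hm' e k1, k2⟩
    · exact h1 e (Finset.mem_filter.1 he).1
    · exact u1 q r₁ r₂ (Finset.mem_filter.1 k1).1 (Finset.mem_filter.1 k2).1 k3
  have m2 : ∀ e ∈ P2, e ∈ P ∧ m' e.2 = 1 ∧ ¬ Q e.2 := fun e he => by
    obtain ⟨k1, k2⟩ := Finset.mem_filter.1 he
    obtain ⟨k3, k4⟩ := Finset.mem_filter.1 k1
    exact ⟨k3, k4, k2⟩
  have m4 : ∀ e ∈ P4, e ∈ P ∧ m' e.2 = 1 ∧ Q e.2 := fun e he => by
    obtain ⟨k1, k2⟩ := Finset.mem_filter.1 he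
    obtain ⟨k3, k4⟩ := Finset.mem_filter.1 k1
    exact ⟨k3, k4, k2⟩
  have b2 : ∑ e ∈ P2, f e ≤
      ∑ e ∈ P.filter (fun e => m e.1 = 1 ∧ m' e.2 = 1 ∧ ¬ Q e.2), min (a e.1) (a' e.2) +
      xs N * ∑ r ∈ W.filter (fun r => m' r = 1 ∧ ¬ Q r), a' r := by
    have key := match_sum (V := V) (W := W.filter (fun r => m' r = 1 ∧ ¬ Q r)) (P := P2) (f := f)
      (a := a) (a' := a') (m := m) (m' := m') (N := N) (N' := 1) hN one_pos
      (fun e he => by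
        obtain ⟨k1, k2, k3⟩ := m2 e he
        obtain ⟨k4, k5⟩ := Finset.mem_product.1 (hP k1)
        exact Finset.mem_product.2 ⟨k4, Finset.mem_filter.2 ⟨k5, k2, k3⟩⟩) ha
      (fun r hr => ha' r (Finset.mem_filter.1 hr).1) (fun e he => hm e (m2 e he).1)
      (fun e he => by rw [(m2 e he).2.1]) (fun e he => h1 e (m2 e he).1)
      (fun e he => h2 e (m2 e he).1)
      (fun q r₁ r₂ k1 k2 k3 => u1 q r₁ r₂ (m2 _ k1).1 (m2 _ k2).1 k3)
      (fun q₁ q₂ r k1 k2 k3 => u2 q₁ q₂ r (m2 _ k1).1 (m2 _ k2).1 k3)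
    rw [xs_one, zero_mul, zero_add] at key
    have e1 : P2.filter (fun e => m e.1 = 1 ∧ m' e.2 = 1) =
        P.filter (fun e => m e.1 = 1 ∧ m' e.2 = 1 ∧ ¬ Q e.2) := by
      ext e
      simp only [hP2, hP0, Finset.mem_filter]
      tauto
    rwa [e1] at key
  have b4 : ∑ e ∈ P4, f e ≤
      κ * (∑ q ∈ V, x q + (1 + xs N) * ∑ r ∈ W.filter (fun r => m' r = 1 ∧ Q r), x' r) := by
    refine cross_sum (m := m) hN hκ (fun e he => ?_) (fun e he => hm e (m4 e he).1) hx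
      (fun r hr => hx' r (Finset.mem_filter.1 hr).1)
      (fun e he => h3 e (m4 e he).1 (m4 e he).2.1 (m4 e he).2.2)
      (fun q r₁ r₂ k1 k2 => u1 q r₁ r₂ (m4 _ k1).1 (m4 _ k2).1
        ((m4 _ k1).2.1.trans (m4 _ k2).2.1.symm))
      (fun q₁ q₂ r k1 k2 k3 => u2 q₁ q₂ r (m4 _ k1).1 (m4 _ k2).1 k3)
    obtain ⟨k1, k2, k3⟩ := m4 e he
    obtain ⟨k4, k5⟩ := Finset.mem_product.1 (hP k1)
    exact Finset.mem_product.2 ⟨k4, Finset.mem_filter.2 ⟨k5, k2, k3⟩⟩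
  linarith

end absE

section pbd
variable {θ r θ' r' Z : ℝ} {w M w' M' : ℕ}

/-- pairs with large cofactors, any raising factors -/
theorem pbd_raised (hM : 0 < M) (hM' : 0 < M') (hw : 0 < w) (hw' : 0 < w') (hr : 0 < r)
    (hr' : 0 < r') (hD : Da w M w' M' r r' ≤ 1 / 2) (hZ : 1 ≤ Z)
    (h : Z < (cof (w / M.gcd w) (w' / M'.gcd w') : ℝ) * cof (w' / M'.gcd w') (w / M.gcd w)) :
    pbd θ r w M θ' r' w' M' ≤ 2 / Real.sqrt Z * (r / rf w' M' + r' / rf w M) := by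
  have hZ0 : 0 < Real.sqrt Z := Real.sqrt_pos.2 (by linarith)
  have m0 : (0 : ℝ) < rf w M := by exact_mod_cast rf_pos hM
  have m0' : (0 : ℝ) < rf w' M' := by exact_mod_cast rf_pos hM'
  unfold pbd
  rw [if_pos hD]
  split_ifs with hR
  · unfold Da Dp
    have key := Crest.Agent.R4.GSplit194.prod_div_max_le (r := rf w M * r) (r' := rf w' M' * r')
      (x := cof (w / M.gcd w) (w' / M'.gcd w')) (y := cof (w' / M'.gcd w') (w / M.gcd w))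
      (mul_pos m0 hr) (mul_pos m0' hr')
      (AvgItem710.cof_pos (Crest.Agent.R4.GSplit194.gcd_pos hM hw))
      (AvgItem710.cof_pos (Crest.Agent.R4.GSplit194.gcd_pos hM' hw')) hZ (Or.inl h)
    set X := max ((cof (w' / M'.gcd w') (w / M.gcd w) : ℝ) * (rf w M * r))
      ((cof (w / M.gcd w) (w' / M'.gcd w') : ℝ) * (rf w' M' * r')) with hX
    have e1 : r * r' / X = (rf w M * r) * (rf w' M' * r') / X / (rf w M * rf w' M') := by
      field_simp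
    rw [e1]
    calc 2 * ((rf w M * r) * (rf w' M' * r') / X / (rf w M * rf w' M'))
        ≤ 2 * (1 / Real.sqrt Z * (rf w M * r + rf w' M' * r') / (rf w M * rf w' M')) := by
          apply mul_le_mul_of_nonneg_left _ (by norm_num)
          exact div_le_div_of_nonneg_right key (by positivity)
      _ = _ := by field_simp
  · positivity

end pbd

/-! ### a state -/

section state
open Crest.Agent.R4.Tour104 Crest.Agent.R4.Tour758 Crest.Agent.R4.Avg758 Crest.Agent.R4.Clos758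
open Crest.Agent.R4.ClosL758 Crest.Agent.R4.ClosG758 Crest.Agent.R4.ClosR758
open Crest.Agent.R4.Fam464 Crest.Agent.R4.Cnt588 Crest.Agent.R4.Walk560 Crest.Agent.R4.Piece464
open Crest.Agent.R4.GInst194 Crest.Agent.R4.WalkIT579
open Crest.Agent.R4.Bld532 (NS All NodeOk Bk)

variable {Λ κ : Type*} [Fintype Λ] [DecidableEq Λ] [Fintype κ] [DecidableEq κ]
variable {D : Par Λ κ} {ρ : ℕ → ℝ} {Al : Finset ℕ}

lemma rd_one (b : ℕ) (ρ : ℕ → ℝ) (q : ℕ) : rd b 1 ρ q = b * ρ q := by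
  unfold rd
  simp

/-- the share of a node in terms of the raw mass of the builder -/
lemma share_node {W : ℕ → ℝ} {u : NS} {τ : IT} (hk : Bk τ.items u)
    (hsq : ∀ q ∈ τ.items, Squarefree q)
    (hW0 : ∀ q, 0 ≤ W q) (hWρ : ∀ q ∈ Al, ρ q * tq q ≤ W q) (A : Finset Λ) :
    ∑ q ∈ Qi D Al τ A, rd u.B 1 ρ q * tq (q / u.A) ≤ u.c * Ws W τ.items := by
  have hA0 : 0 < u.A := Nat.pos_of_ne_zero hk.sfA.ne_zero
  have hB0 : 0 < u.B := Nat.pos_of_ne_zero hk.sfB.ne_zero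
  have htA : (0:ℝ) < (u.A.totient : ℝ) := by exact_mod_cast Nat.totient_pos.2 hA0
  have hAR : (0:ℝ) < u.A := by exact_mod_cast hA0
  have hc0 : 0 ≤ u.c := by
    have h1 : 0 ≤ u.c * (u.A.totient : ℝ) := by rw [hk.ceq]; positivity
    by_contra hneg
    push Not at hneg
    nlinarith
  have h1 : ∀ q ∈ Qi D Al τ A, rd u.B 1 ρ q * tq (q / u.A) ≤ u.c * W q := by
    intro q hq
    obtain ⟨hqt, hqA, -⟩ := mem_Qi.1 hq
    have hd : u.A ∣ q := hk.dvd q hqt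
    have hsf := hsq q hqt
    have hq0 : 0 < q := Nat.pos_of_ne_zero hsf.ne_zero
    rw [rd_one]
    obtain ⟨w, rfl⟩ := hd
    rw [Nat.mul_div_cancel_left _ hA0]
    have hcop : Nat.Coprime u.A w := Nat.coprime_of_squarefree_mul hsf
    have hw0 : 0 < w := Nat.pos_of_mul_pos_left hq0
    have e1 : tq (u.A * w) = ((u.A.totient : ℝ) / u.A) * tq w := by
      unfold tq
      rw [Nat.totient_mul hcop]
      push_cast
      have : (w:ℝ) ≠ 0 := by exact_mod_cast hw0.ne'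
      field_simp
    have h2 := hWρ _ hqA
    rw [e1] at h2
    have h3 : (u.B : ℝ) * ρ (u.A * w) * tq w =
        u.c * (ρ (u.A * w) * (((u.A.totient : ℝ) / u.A) * tq w)) := by
      have h4 : u.c * ((u.A.totient : ℝ) / u.A) = u.B := by
        rw [← mul_div_assoc, hk.ceq]
        field_simp
      calc (u.B : ℝ) * ρ (u.A * w) * tq w = (u.c * ((u.A.totient : ℝ) / u.A)) * ρ (u.A * w) * tq w := by
            rw [h4]
        _ = _ := by ring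
    rw [h3]
    exact mul_le_mul_of_nonneg_left h2 hc0
  calc ∑ q ∈ Qi D Al τ A, rd u.B 1 ρ q * tq (q / u.A)
      ≤ ∑ q ∈ Qi D Al τ A, u.c * W q := Finset.sum_le_sum h1
    _ ≤ ∑ q ∈ τ.items, u.c * W q := Finset.sum_le_sum_of_subset_of_nonneg
        (fun q hq => (mem_Qi.1 hq).1) fun q _ _ => mul_nonneg hc0 (hW0 q)
    _ = u.c * Ws W τ.items := by rw [← Finset.mul_sum]; rfl

/-- sum over the items of a population, with a weight -/
lemma mass_node {sp : ℕ → Finset Λ} {d : DT Λ κ} (hab : ∀ j, D.al j ≤ D.be j) {b pr : ℕ}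
    {τ : IT} {A : Finset Λ} (h : SideI D sp b pr τ A d)
    (hsq : ∀ q ∈ τ.items, Squarefree q) {c₀ : ℝ} (hc₀ : 0 < c₀)
    (hmean : ∀ j, D.it j ∈ Al → D.it j ∈ τ.items →
      c₀ * tq (D.it j / (pr * pp τ (D.it j))) ≤ mnw (D.it j / (pr * pp τ (D.it j))) (D.om j))
    (hfull : ∀ q ∈ Al, 2 * ρ q ≤
      ∑ j ∈ Finset.univ.filter (fun j => D.it j = q), (D.be j - D.al j))
    (hil : IL D.it A) (hnn : ∀ j, 0 ≤ mI d j) {f : ℕ → ℝ} (hf : ∀ q, 0 ≤ f q) :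
    ∑ q ∈ Qi D Al τ A, f q * (rd b 1 ρ q * tq (q / pr)) ≤
      1 / (2 * c₀) * ∑ j ∈ A.filter (fun j => D.it j ∈ τ.items), f (D.it j) * mI d j := by
  classical
  obtain ⟨n, hO⟩ := h.ok
  have h1 : ∀ q ∈ Qi D Al τ A, f q * (rd b 1 ρ q * tq (q / pr)) ≤
      1 / (2 * c₀) * ∑ j ∈ A.filter (fun j => D.it j = q), f (D.it j) * mI d j := by
    intro q hq
    obtain ⟨h2, h3, h4⟩ := mem_Qi.1 hq
    rw [rd_one]
    have h5 := mass_ge hO hab h.hb h.hF h.hW h2 (hsq q h2) hc₀ (fun j hj => by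
      have := hmean j (hj ▸ h3) (hj ▸ h2)
      rw [hj] at this
      exact this) (hfull q h3) hil h4
    refine (mul_le_mul_of_nonneg_left h5 (hf q)).trans (le_of_eq ?_)
    rw [mul_left_comm]
    congr 1
    rw [Finset.mul_sum]
    refine Finset.sum_congr rfl fun j hj => ?_
    rw [(Finset.mem_filter.1 hj).2, SideI_mI h j]
  refine (Finset.sum_le_sum h1).trans ?_
  rw [← Finset.mul_sum]
  refine mul_le_mul_of_nonneg_left ?_ (by positivity)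
  have h2 := Finset.sum_fiberwise_of_maps_to (s := A.filter fun j => D.it j ∈ Qi D Al τ A)
    (t := Qi D Al τ A) (g := D.it) (fun j hj => (Finset.mem_filter.1 hj).2)
    (fun j => f (D.it j) * mI d j)
  have h3 : ∑ q ∈ Qi D Al τ A, ∑ j ∈ A.filter (fun j => D.it j = q), f (D.it j) * mI d j =
      ∑ j ∈ A.filter (fun j => D.it j ∈ Qi D Al τ A), f (D.it j) * mI d j := by
    rw [← h2]
    refine Finset.sum_congr rfl fun q hq => Finset.sum_congr ?_ fun _ _ => rfl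
    ext j
    simp only [Finset.mem_filter]
    exact ⟨fun k => ⟨⟨k.1, k.2 ▸ hq⟩, k.2⟩, fun k => ⟨k.1.1, k.2⟩⟩
  rw [h3]
  refine Finset.sum_le_sum_of_subset_of_nonneg (fun j hj => ?_) fun j _ _ =>
    mul_nonneg (hf _) (hnn j)
  obtain ⟨k1, k2⟩ := Finset.mem_filter.1 hj
  exact Finset.mem_filter.2 ⟨k1, (mem_Qi.1 k2).1⟩

variable [WRel κ] {sp : ℕ → Finset Λ} {s : St Λ κ}

/-- exact form of the one-sided columns, left tie -/
theorem eOS_le_iF {b pr b' pr' p : ℕ} {t₁ t₀ t' : IT}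
    (h : StI D sp s b pr (.br p t₁ t₀) b' pr' t') (hB : Blw p t') (stp : St Λ κ → Prop) :
    eOS stp s ≤ ∑ e ∈ D.PE (Ro (D.rho p)) (D.uA s.M (b * p) pr t₀ s.A p)
        (D.uA s.M' b' pr' t' s.A' 1),
      D.iF (Ro (D.rho p)) (D.uA s.M (b * p) pr t₀ s.A p) (D.uA s.M' b' pr' t' s.A' 1) e := by
  have hL := h.L
  have hR' := h.R
  have h0 : 0 ≤ ∑ e ∈ D.PE (Ro (D.rho p)) (D.uA s.M (b * p) pr t₀ s.A p)
        (D.uA s.M' b' pr' t' s.A' 1),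
      D.iF (Ro (D.rho p)) (D.uA s.M (b * p) pr t₀ s.A p) (D.uA s.M' b' pr' t' s.A' 1) e :=
    Finset.sum_nonneg fun e _ => D.iF_nonneg _
      (fun j y => (PB_uA h.M0 hL.br₀.hb hL.br₀.hF hL.br₀.hW (Dvd.intro_left b rfl) j).nonneg y)
      (fun j y => (PB_uA h.M0' hR'.hb hR'.hF hR'.hW (one_dvd _) j).nonneg y) e
  unfold eOS
  split_ifs with k1 k2
  · exact h0
  · exact h0
  · rcases hv : vw s.p s.t with ⟨w, r, u₁, u₀, v, B, G⟩ | ⟨r, u₁, u₀⟩ | ⟨Sp, u⟩ <;>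
    rcases hv' : vw s.p s.t' with ⟨w', r', u₁', u₀', v', B', G'⟩ | ⟨r', u₁', u₀'⟩ | ⟨Sp', u'⟩ <;>
    try exact h0
    · -- br, up
      have e1 := h.L.eq.symm.trans (vw_br hv)
      obtain ⟨τ₁, τ₀, hτ, hr, -, -, -, hG⟩ := toDT_br e1
      injection hτ with a1 a2 a3
      subst a2 a3
      rw [← D.Q_eq]
      have pF : ∀ j, PB (avg s.M' (rv s.A' fun j => (D.toFT b' pr' t').U 1 j) j) := fun j =>
        PB_uA h.M0' hR'.hb hR'.hF hR'.hW (one_dvd _) j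
      show os (orel κ) s.p (avg s.M (rk s.A r G)) (sm r (avg s.M' (rv s.A' s.t'.g.val))) ≤ _
      rw [h.R.val, hr, hG, ← a1]
      exact os_le_Q hL.sat_br h.M0 hL.hF.1.pos hL.pb_G hL.pb_g pF hL.G_le
    · -- up, br : impossible
      exfalso
      have e2 := h.R.eq.symm.trans (vw_br hv')
      obtain ⟨τ₁, τ₀, rfl, -⟩ := toDT_br e2
      have h2 : s.t.top ≤ s.p := le_max_left _ _
      rw [h.L.eq] at h2
      have h3 : p ≤ s.p := h2
      have h4 : s.p < p := hB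
      omega

/-- exact form of the one-sided columns, right tie -/
theorem eOS_le_iF' {b pr b' pr' p : ℕ} {t t₁' t₀' : IT}
    (h : StI D sp s b pr t b' pr' (.br p t₁' t₀')) (hB : Blw p t) (stp : St Λ κ → Prop) :
    eOS stp s ≤ ∑ e ∈ D.PE (Ro (D.rho p)) (D.uA s.M' (b' * p) pr' t₀' s.A' p)
        (D.uA s.M b pr t s.A 1),
      D.iF (Ro (D.rho p)) (D.uA s.M' (b' * p) pr' t₀' s.A' p) (D.uA s.M b pr t s.A 1) e := by
  have hL := h.L
  have hR' := h.R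
  have h0 : 0 ≤ ∑ e ∈ D.PE (Ro (D.rho p)) (D.uA s.M' (b' * p) pr' t₀' s.A' p)
        (D.uA s.M b pr t s.A 1),
      D.iF (Ro (D.rho p)) (D.uA s.M' (b' * p) pr' t₀' s.A' p) (D.uA s.M b pr t s.A 1) e :=
    Finset.sum_nonneg fun e _ => D.iF_nonneg _
      (fun j y => (PB_uA h.M0' hR'.br₀.hb hR'.br₀.hF hR'.br₀.hW (Dvd.intro_left b' rfl) j).nonneg y)
      (fun j y => (PB_uA h.M0 hL.hb hL.hF hL.hW (one_dvd _) j).nonneg y) e
  unfold eOS
  split_ifs with k1 k2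
  · exact h0
  · exact h0
  · rcases hv : vw s.p s.t with ⟨w, r, u₁, u₀, v, B, G⟩ | ⟨r, u₁, u₀⟩ | ⟨Sp, u⟩ <;>
    rcases hv' : vw s.p s.t' with ⟨w', r', u₁', u₀', v', B', G'⟩ | ⟨r', u₁', u₀'⟩ | ⟨Sp', u'⟩ <;>
    try exact h0
    · -- br, up : impossible
      exfalso
      have e2 := h.L.eq.symm.trans (vw_br hv)
      obtain ⟨τ₁, τ₀, rfl, -⟩ := toDT_br e2
      have h2 : s.t'.top ≤ s.p := le_max_right _ _
      rw [h.R.eq] at h2
      have h3 : p ≤ s.p := h2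
      have h4 : s.p < p := hB
      omega
    · -- up, br
      have e1 := h.R.eq.symm.trans (vw_br hv')
      obtain ⟨τ₁, τ₀, hτ, hr, -, -, -, hG⟩ := toDT_br e1
      injection hτ with a1 a2 a3
      subst a2 a3
      rw [← D.Q_eq]
      have pF : ∀ j, PB (avg s.M (rv s.A fun j => (D.toFT b pr t).U 1 j) j) := fun j =>
        PB_uA h.M0 hL.hb hL.hF hL.hW (one_dvd _) j
      show os (orel κ) s.p (avg s.M' (rk s.A' r' G')) (sm r' (avg s.M (rv s.A s.t.g.val))) ≤ _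
      rw [h.L.val, hr, hG, ← a1]
      exact os_le_Q hR'.sat_br h.M0' hR'.hF.1.pos hR'.pb_G hR'.pb_g pF hR'.G_le

variable {P : Bld532.Par} {W : ℕ → ℝ} {U : ℕ → Finset ℕ} {CL C1 c₀ : ℝ} {p₁ : ℕ}

open Classical in
/-- pairs of a one-sided column which are left over: `[E]` or `[F]` pairs with `D ≤ 2^{-n}` -/
noncomputable def RS (D : Par Λ κ) (ρ : ℕ → ℝ) (Al : Finset ℕ) (n p : ℕ) (M M' : ℕ)
    (A A' : Finset Λ) (u u' : NS) (t₀ τ' : IT) (X : ℕ × ℕ → Prop) : Finset (ℕ × ℕ) :=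
  (Qi D Al t₀ A ×ˢ Qi D Al τ' A').filter (fun e =>
    0 < D.iF (Ro (D.rho p)) (D.uA M (u.B * p) u.A t₀ A p) (D.uA M' u'.B u'.A τ' A' 1) e ∧
    (Dq ρ M (u.B * p) u.A p M' u'.B u'.A 1 e ≤ 1/2^n ∧ X e))

open Classical in
/-- **ONE-SIDED COLUMN**, in terms of the two sides -/
theorem os_side (hco : CO CL C1 (1 / (2 * c₀)) p₁) {p n : ℕ} (hni : NI D ρ Al P W U CL C1 c₀ p)
    {u u' : NS} {t₁ t₀ τ' : IT} {M M' G : ℕ} {A A' : Finset Λ} {d d' : DT Λ κ}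
    (h : SideI D sp u.B u.A (.br p t₁ t₀) A d) (h' : SideI D sp u'.B u'.A τ' A' d')
    (hM0 : 0 < M) (hM0' : 0 < M')
    (q1 : NQ P W U u (.br p t₁ t₀)) (q2 : NQ P W U u' τ')
    (hhi' : u'.c * Ws W τ'.items ≤ (Real.log p)^C1)
    (geM : ∀ l : ℕ, l.Prime → l ∣ M → p ≤ l) (geM' : ∀ l : ℕ, l.Prime → l ∣ M' → p ≤ l)
    (hG : 0 < G)
    (tL : ∀ j ∈ A, D.it j ∈ (IT.br p t₁ t₀).items → ∀ y : ℝ, (∀ l : ℕ, l.Prime → y < l → u.n ≤ l) →
        ∑ l ∈ (U (D.it j)).filter (fun l : ℕ => y < (l : ℝ)), (1 : ℝ) / l ≤ y ^ (-(1 / 2 : ℝ)) →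
        ClsB.Tame y G (D.it j / u.A / M.gcd (D.it j / u.A)))
    (tR : ∀ j ∈ A', D.it j ∈ τ'.items → ∀ y : ℝ, (∀ l : ℕ, l.Prime → y < l → u.n ≤ l) →
        ∑ l ∈ (U (D.it j)).filter (fun l : ℕ => y < (l : ℝ)), (1 : ℝ) / l ≤ y ^ (-(1 / 2 : ℝ)) →
        ClsB.Tame y G (D.it j / u'.A / M'.gcd (D.it j / u'.A)))
    (hL : NSd D Al CL c₀ p u (.br p t₁ t₀) A) (hR : NSd D Al CL c₀ p u' τ' A')
    (hCL : 0 ≤ CL)
    (hp : p₁ ≤ p) (hn : n = ⌊1/4 * Real.log p / Real.log 2⌋₊)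
    (hM : Squarefree M) (hM' : Squarefree M')
    (hs : ∑ l ∈ M.primeFactors, 1/(l:ℝ) ≤ 1) (hs' : ∑ l ∈ M'.primeFactors, 1/(l:ℝ) ≤ 1) :
    ∑ e ∈ D.PE (Ro (D.rho p)) (D.uA M (u.B * p) u.A t₀ A p) (D.uA M' u'.B u'.A τ' A' 1),
      D.iF (Ro (D.rho p)) (D.uA M (u.B * p) u.A t₀ A p) (D.uA M' u'.B u'.A τ' A' 1) e ≤
      ((p:ℝ)^(-(11/12):ℝ) * (∑ j ∈ A'.filter (fun j => D.it j ∈ τ'.items), mI d' j) +
        (p:ℝ)^(-(1/5000):ℝ) * ((∑ j ∈ A.filter (fun j => D.it j ∈ t₀.items), mI d j) +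
          ∑ j ∈ A'.filter (fun j => D.it j ∈ τ'.items), hw M'.primeFactors (D.it j / u'.A) * mI d' j)) +
      ∑ e ∈ RS D ρ Al n p M M' A A' u u' t₀ τ' (fun e =>
        ESI D.γ ρ M (u.B * p) u.A p M' u'.B u'.A 1 e ∨
          FSI D.γ ρ n M (u.B * p) u.A p M' u'.B u'.A 1 e),
        D.iF (Ro (D.rho p)) (D.uA M (u.B * p) u.A t₀ A p) (D.uA M' u'.B u'.A τ' A' 1) e := by
  classical
  have hpp : p.Prime := h.hF.1
  have hp0 : 0 < p := hpp.pos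
  have hL0 := h.br₀
  set F : ℕ × ℕ → ℝ := D.iF (Ro (D.rho p)) (D.uA M (u.B * p) u.A t₀ A p)
    (D.uA M' u'.B u'.A τ' A' 1) with hFdef
  have hF0 : ∀ e, 0 ≤ F e := fun e => D.iF_nonneg _
    (fun j y => (PB_uA hM0 hL0.hb hL0.hF hL0.hW (Dvd.intro_left u.B rfl) j).nonneg y)
    (fun j y => (PB_uA hM0' h'.hb h'.hF h'.hW (one_dvd _) j).nonneg y) e
  have mnn : ∀ (d : DT Λ κ), d.g.Ok → ∀ j, 0 ≤ mI d j := fun d hd j => by
    unfold mI
    exact I_nonneg fun x => (hd.pb j).nonneg x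
  have okL : d.g.Ok := by rw [h.eq, D.toDT_g]; exact D.toG_Ok h.hb h.hF h.hW
  have okR : d'.g.Ok := by rw [h'.eq, D.toDT_g]; exact D.toG_Ok h'.hb h'.hF h'.hW
  have nΦ : 0 ≤ ∑ j ∈ A.filter (fun j => D.it j ∈ t₀.items), mI d j :=
    Finset.sum_nonneg fun j _ => mnn _ okL j
  have nΦ' : 0 ≤ ∑ j ∈ A'.filter (fun j => D.it j ∈ τ'.items), mI d' j :=
    Finset.sum_nonneg fun j _ => mnn _ okR j
  have nΨ' : 0 ≤ ∑ j ∈ A'.filter (fun j => D.it j ∈ τ'.items),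
      hw M'.primeFactors (D.it j / u'.A) * mI d' j :=
    Finset.sum_nonneg fun j _ => mul_nonneg (hw_nonneg _ _) (mnn _ okR j)
  refine (Finset.sum_le_sum_of_subset_of_nonneg (PE_sub hni.dead hM0 hM0' hL0.hb h'.hb hL0.hF
    h'.hF hL0.hW h'.hW (Dvd.intro_left u.B rfl) (one_dvd _) _ _ _)
    fun e _ _ => hF0 e).trans ?_
  have top1 := top_of_nodeOk q1.1 (id : ¬ isL (.br p t₁ t₀))
  have lev : ∀ z : ℝ, (p:ℝ) ≤ z → ∀ l : ℕ, l.Prime → z < l → u.n ≤ l := by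
    intro z hz l hl hzl
    by_contra hc
    push Not at hc
    have h3 : l ≤ p := top1.2.2 l hl hc
    have : (l:ℝ) ≤ p := by exact_mod_cast h3
    linarith
  have sqL : ∀ q ∈ (IT.br p t₁ t₀).items, Squarefree q := fun q hq => (q1.2 q hq).1
  have sqR : ∀ q ∈ τ'.items, Squarefree q := fun q hq => (q2.2 q hq).1
  have itL : ∀ q ∈ Qi D Al t₀ A, q ∈ (IT.br p t₁ t₀).items := fun q hq =>
    Finset.mem_union_right _ (mem_Qi.1 hq).1
  have w0L : ∀ q ∈ Qi D Al t₀ A, 0 < q / u.A := fun q hq => by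
    have hq0 := (hL0.hF.item q (mem_Qi.1 hq).1)
    exact Nat.div_pos (Nat.le_of_dvd hq0.1 hq0.2.1) (Nat.pos_of_dvd_of_pos hq0.2.1 hq0.1)
  have w0R : ∀ q ∈ Qi D Al τ' A', 0 < q / u'.A := fun q hq => by
    have hq0 := (h'.hF.item q (mem_Qi.1 hq).1)
    exact Nat.div_pos (Nat.le_of_dvd hq0.1 hq0.2.1) (Nat.pos_of_dvd_of_pos hq0.2.1 hq0.1)
  have logp : 0 ≤ CL * Real.log p := mul_nonneg hCL (Real.log_natCast_nonneg p)
  have key := os_small hco D (F := F) (G := G) (c := p) (c' := 1) hp hn hG hni.rad.pos hL0.hb hp0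
    h'.hb one_pos hM hM' geM geM' hs hs'
    (fun q hq => ⟨(hL0.hF.item q (mem_Qi.1 hq).1).1, (hL0.hF.item q (mem_Qi.1 hq).1).2.1⟩)
    (fun q hq => ⟨(h'.hF.item q (mem_Qi.1 hq).1).1, (h'.hF.item q (mem_Qi.1 hq).1).2.1⟩)
    (V := Qi D Al t₀ A) (W := Qi D Al τ' A') (pr := u.A) (pr' := u'.A)
    (Φ := ∑ j ∈ A.filter (fun j => D.it j ∈ t₀.items), mI d j)
    (Φ' := ∑ j ∈ A'.filter (fun j => D.it j ∈ τ'.items), mI d' j)
    (Ψ' := ∑ j ∈ A'.filter (fun j => D.it j ∈ τ'.items),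
      hw M'.primeFactors (D.it j / u'.A) * mI d' j)
    (by
      intro z hz q hq
      obtain ⟨h1, h2, j, hj, rfl⟩ := mem_Qi.1 hq
      exact tL j hj (itL _ hq) z (lev z hz) (hni.U _ h2 z hz))
    (by
      intro z hz q hq
      obtain ⟨h1, h2, j, hj, rfl⟩ := mem_Qi.1 hq
      exact tR j hj h1 z (lev z hz) (hni.U _ h2 z hz))
    (by
      intro q hq
      refine (hL.lg q (mem_Qi.1 hq).2.1 (itL q hq)).trans ?_
      exact mul_le_mul_of_nonneg_left (tq_mono (Nat.div_dvd_of_dvd (Nat.gcd_dvd_right _ _)) (w0L q hq)) logp)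
    (by
      intro q hq
      refine (hR.lg q (mem_Qi.1 hq).2.1 (mem_Qi.1 hq).1).trans ?_
      exact mul_le_mul_of_nonneg_left (tq_mono (Nat.div_dvd_of_dvd (Nat.gcd_dvd_right _ _)) (w0R q hq)) logp)
    (by
      intro e he
      obtain ⟨h1, h2⟩ := Finset.mem_product.1 he
      exact iF_le hni.rad hM0 hM0' hL0.hb h'.hb hL0.hF h'.hF hL0.hW h'.hW
        (Dvd.intro_left u.B rfl) (one_dvd _) _ _ _ e (mem_Qi.1 h1).1 (mem_Qi.1 h2).1)
    ((share_le q1.1 sqL hni.W0 hni.Wρ hni.sg0 A).trans hni.sg)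
    ((share_node (bk_of_nodeOk q2.1) sqR hni.W0 hni.Wρ A').trans hhi')
    (mass_sum hni.ab h sqL hni.c0 hL.mean hni.full hL.il (mnn _ okL))
    (by
      have := mass_node hni.ab h' sqR hni.c0 hR.mean hni.full hR.il (mnn _ okR) (f := fun _ => 1)
        (fun _ => zero_le_one)
      simpa only [one_mul] using this)
    (mass_node hni.ab h' sqR hni.c0 hR.mean hni.full hR.il (mnn _ okR)
      (f := fun q => hw M'.primeFactors (q / u'.A)) (fun _ => hw_nonneg _ _))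
    nΦ nΦ' nΨ'
  unfold RS
  rw [← hFdef]
  refine key.trans (le_of_eq ?_)
  congr!

end state

end Crest.Agent.R4.OSCol710
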