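import Mathlib
import Crest.Agent.R4.NMW710
import Crest.Agent.R4.OSCol709
import Crest.Agent.R4.OSCol710
import Crest.Agent.R4.NMW927
import Crest.Agent.R4.GStJ927

/-!
R4 (S0004), helper710: **columns at a state, final form** (near misses and one-sided columns):
709's `os_column_cls` (weights, `[F]` pairs paid per group) on the item pairs of two nodes, moduli
`H ∏ O'`, `H' ∏ O` (927's `MS`).
-/

set_option autoImplicit false
set_option linter.unusedSectionVars false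
set_option linter.unusedVariables false
open Finset

namespace Crest.Agent.R4.ColW710

open Crest.Agent.R4.HVW560 Crest.Agent.R4.Schur709 Crest.Agent.R4.StopHvw709
open Crest.Agent.R4.StopAsm709 Crest.Agent.R4.AvgItem710 Crest.Agent.R4.DeepSt579
open Crest.Agent.R4.Item758 Crest.Agent.R4.NMW710
open Crest.Agent.R4.OSCore709 (om om_nonneg om_le_one mm)
open Crest.Agent.R4.ClsS (eps1)

open Classical in
/-- the statement of 709's `os_column_cls` for fixed constants -/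
def KCls (CL : ℝ) (p₀ : ℕ) : Prop :=
    ∀ (n p G : ℕ) (O O' V W : Finset ℕ) (R R' : ℕ → ℝ)
    (γ γ' : Finset ℕ → ℝ) (F : ℕ × ℕ → ℝ) (Q : ℕ × ℕ → Prop),
    p₀ ≤ p → n = ⌊1/4 * Real.log p / Real.log 2⌋₊ → 0 < G →
    (∀ q ∈ O, q.Prime ∧ p ≤ q) → (∀ q ∈ O', q.Prime ∧ p ≤ q) →
    ∑ q ∈ O, (q:ℝ)^(-(11/12):ℝ) ≤ 1 → ∑ q ∈ O', (q:ℝ)^(-(11/12):ℝ) ≤ 1 →
    (∀ w ∈ V, 0 < w ∧ 0 < R w) → (∀ w ∈ W, 0 < w ∧ 0 < R' w) →
    (∀ w ∈ V, R w ≤ (CL * Real.log p) * mu O' R w) → (∀ w ∈ W, R' w ≤ (CL * Real.log p) * mu O R' w) →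
    (∀ z : ℝ, (p:ℝ) ≤ z → ∀ w ∈ V, Crest.Agent.R4.ClsB.Tame z G (uu O' w)) →
    (∀ z : ℝ, (p:ℝ) ≤ z → ∀ w ∈ W, Crest.Agent.R4.ClsB.Tame z G (uu O w)) →
    (∀ e ∈ V ×ˢ W, 1 < Dc O O' R R' e → F e ≤ 6 * (R e.1 * R' e.2)) →
    (∀ e ∈ V ×ˢ W, Dc O O' R R' e ≤ 1 → F e ≤ 6 * ((R e.1 * R' e.2) / Dc O O' R R' e)) →
    (∀ e ∈ V ×ˢ W, Dc O O' R R' e ≤ 1/2^n → 0 < F e → RelG O O' R R' γ γ' e) →
    (∀ e ∈ V ×ˢ W, Dc O O' R R' e ≤ 1/2^n → 0 < F e → FG O O' R R' γ γ' n e →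
      1 < 2 * (mm O O' e)^10 * Dc O O' R R' e ∨ Q e) →
    ∑ e ∈ V ×ˢ W, F e ≤
      (Real.log p)^3 * ((∑ q ∈ V, mu O' R q) * (∑ r ∈ W, mu O R' r)) +
      (p:ℝ)^(3/4000:ℝ) * ((∑ q ∈ V, om O' q * mu O' R q) * (∑ r ∈ W, om O r * mu O R' r))^(1/2+eps1) +
      ∑ e ∈ (V ×ˢ W).filter (fun e => 0 < F e ∧ (Dc O O' R R' e ≤ 1/2^n ∧
        (EG O O' R R' γ γ' e ∨ Q e))), F e

theorem exists_KCls {CL : ℝ} (hCL : 1 ≤ CL) : ∃ p₀ : ℕ, 2 ≤ p₀ ∧ KCls CL p₀ :=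
  Crest.Agent.R4.OSCore709.os_column_cls hCL

section items
variable {Λ κι : Type*}

open Classical in
/-- **item pairs of a column**, weighted groups, `[F]` pairs paid -/
theorem k_items {CL : ℝ} {p₀ : ℕ}
    (hcol : KCls CL p₀) (D : Par Λ κι) {ρ : ℕ → ℝ} {F : ℕ × ℕ → ℝ}
    {n p G M b pr c M' b' pr' c' : ℕ} {V W : Finset ℕ}
    (hp : p₀ ≤ p) (hn : n = ⌊1/4 * Real.log p / Real.log 2⌋₊) (hn1 : 1 ≤ n) (hG : 0 < G)
    (hρ : ∀ q, 0 < ρ q) (hb : 0 < b) (hc : 0 < c) (hb' : 0 < b') (hc' : 0 < c')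
    (hM : Squarefree M) (hM' : Squarefree M')
    (hMp : ∀ l : ℕ, l.Prime → l ∣ M → p ≤ l) (hMp' : ∀ l : ℕ, l.Prime → l ∣ M' → p ≤ l)
    (hs : ∑ l ∈ M.primeFactors, (l:ℝ)^(-(11/12):ℝ) ≤ 1)
    (hs' : ∑ l ∈ M'.primeFactors, (l:ℝ)^(-(11/12):ℝ) ≤ 1)
    (hV : ∀ q ∈ V, 0 < q ∧ pr ∣ q) (hW : ∀ q ∈ W, 0 < q ∧ pr' ∣ q)
    (tV : ∀ z : ℝ, (p:ℝ) ≤ z → ∀ q ∈ V, ClsB.Tame z G (q / pr / M.gcd (q / pr)))
    (tW : ∀ z : ℝ, (p:ℝ) ≤ z → ∀ q ∈ W, ClsB.Tame z G (q / pr' / M'.gcd (q / pr')))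
    (lV : ∀ q ∈ V, 1 ≤ CL * Real.log p * tq (q / pr / M.gcd (q / pr)))
    (lW : ∀ q ∈ W, 1 ≤ CL * Real.log p * tq (q / pr' / M'.gcd (q / pr')))
    (hF : ∀ e ∈ V ×ˢ W, F e ≤ D.pb ρ M b pr c e.1 M' b' pr' c' e.2) {Qf : ℕ × ℕ → Prop}
    (hFS' : ∀ e ∈ V ×ˢ W, Dq ρ M b pr c M' b' pr' c' e ≤ 1/2^n → 0 < F e →
      FSI D.γ ρ n M b pr c M' b' pr' c' e →
      1 < 2 * ((rf (e.1 / pr) M : ℝ) * rf (e.2 / pr') M')^10 * Dq ρ M b pr c M' b' pr' c' e ∨ Qf e) :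
    ∑ e ∈ V ×ˢ W, F e ≤
      (Real.log p)^3 * ((8 * ∑ q ∈ V, rd b c ρ q * tq (q / pr)) *
        (8 * ∑ q ∈ W, rd b' c' ρ q * tq (q / pr'))) +
      (p:ℝ)^(3/4000:ℝ) * ((8 * ∑ q ∈ V, rd b c ρ q * tq (q / pr)) *
        (8 * ∑ q ∈ W, om M'.primeFactors (q / pr') * (rd b' c' ρ q * tq (q / pr'))))^(1/2+eps1) +
      ∑ e ∈ (V ×ˢ W).filter (fun e => 0 < F e ∧ (Dq ρ M b pr c M' b' pr' c' e ≤ 1/2^n ∧
        (ESI D.γ ρ M b pr c M' b' pr' c' e ∨ Qf e))), F e := by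
  classical
  have hb0 : (0:ℝ) < b := by exact_mod_cast hb
  have hc0' : (0:ℝ) < c := by exact_mod_cast hc
  have hbb0 : (0:ℝ) < b' := by exact_mod_cast hb'
  have hcc0 : (0:ℝ) < c' := by exact_mod_cast hc'
  have hR : ∀ q, 0 < rd b c ρ q := fun q => mul_pos (div_pos hb0 hc0') (hρ q)
  have hR' : ∀ q, 0 < rd b' c' ρ q := fun q => mul_pos (div_pos hbb0 hcc0) (hρ q)
  have hMp0 : 0 < M := Nat.pos_of_ne_zero hM.ne_zero
  have hMp0' : 0 < M' := Nat.pos_of_ne_zero hM'.ne_zero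
  have hVw : ∀ q ∈ V, 0 < q / pr := fun q hq =>
    Nat.div_pos (Nat.le_of_dvd (hV q hq).1 (hV q hq).2) (Nat.pos_of_dvd_of_pos (hV q hq).2 (hV q hq).1)
  have hWw : ∀ q ∈ W, 0 < q / pr' := fun q hq =>
    Nat.div_pos (Nat.le_of_dvd (hW q hq).1 (hW q hq).2) (Nat.pos_of_dvd_of_pos (hW q hq).2 (hW q hq).1)
  have hVm : ∀ q ∈ V, pr * (q / pr) = q := fun q hq => Nat.mul_div_cancel' (hV q hq).2
  have hWm : ∀ q ∈ W, pr' * (q / pr') = q := fun q hq => Nat.mul_div_cancel' (hW q hq).2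
  have h1112 : ∀ K : ℕ, ∑ l ∈ K.primeFactors, 1/(l:ℝ) ≤ ∑ l ∈ K.primeFactors, (l:ℝ)^(-(11/12):ℝ) :=
    fun K => Finset.sum_le_sum fun l hl => by
      have h1 : (1:ℝ) ≤ l := by exact_mod_cast (Nat.prime_of_mem_primeFactors hl).pos
      rw [one_div, ← Real.rpow_neg_one]
      exact Real.rpow_le_rpow_of_exponent_le h1 (by norm_num)
  have hsI := (h1112 M).trans hs
  have hsI' := (h1112 M').trans hs'
  set V0 := V.image (fun q => q / pr) with hV0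
  set W0 := W.image (fun q => q / pr') with hW0
  set O' := M.primeFactors with hO'd
  set O := M'.primeFactors with hOd
  have hO : ∀ l ∈ O, l.Prime ∧ p ≤ l := fun l hl =>
    ⟨Nat.prime_of_mem_primeFactors hl, hMp' l (Nat.prime_of_mem_primeFactors hl)
      (Nat.dvd_of_mem_primeFactors hl)⟩
  have hO' : ∀ l ∈ O', l.Prime ∧ p ≤ l := fun l hl =>
    ⟨Nat.prime_of_mem_primeFactors hl, hMp l (Nat.prime_of_mem_primeFactors hl)
      (Nat.dvd_of_mem_primeFactors hl)⟩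
  set R : ℕ → ℝ := fun w => rd b c ρ (pr * w) with hRd
  set R' : ℕ → ℝ := fun w => rd b' c' ρ (pr' * w) with hRd'
  have hRe : ∀ q ∈ V, R (q / pr) = rd b c ρ q := fun q hq => by rw [hRd]; simp only; rw [hVm q hq]
  have hRe' : ∀ q ∈ W, R' (q / pr') = rd b' c' ρ q := fun q hq => by rw [hRd']; simp only; rw [hWm q hq]
  set F0 : ℕ × ℕ → ℝ := fun f => F (pr * f.1, pr' * f.2) with hF0
  have hF0e : ∀ e ∈ V ×ˢ W, F0 (e.1 / pr, e.2 / pr') = F e := fun e he => by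
    obtain ⟨h1, h2⟩ := Finset.mem_product.1 he
    rw [hF0]; simp only; rw [hVm _ h1, hWm _ h2]
  have hDc : ∀ e ∈ V ×ˢ W, Dc O O' R R' (e.1 / pr, e.2 / pr') = Dq ρ M b pr c M' b' pr' c' e :=
    fun e he => by
    obtain ⟨k1, k2⟩ := Finset.mem_product.1 he
    have h1 := Dc_pf hM hM' R R' (e.1 / pr, e.2 / pr') (hVw _ k1) (hWw _ k2)
    rw [hRe _ k1, hRe' _ k2] at h1
    exact h1
  have hinjV : Set.InjOn (fun q => q / pr) (V : Set ℕ) := by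
    intro e he f hf hef
    simp only at hef
    rw [← hVm _ (Finset.mem_coe.1 he), ← hVm _ (Finset.mem_coe.1 hf), hef]
  have hinjW : Set.InjOn (fun q => q / pr') (W : Set ℕ) := by
    intro e he f hf hef
    simp only at hef
    rw [← hWm _ (Finset.mem_coe.1 he), ← hWm _ (Finset.mem_coe.1 hf), hef]
  have hinj : Set.InjOn (fun e : ℕ × ℕ => (e.1 / pr, e.2 / pr')) ((V ×ˢ W : Finset (ℕ × ℕ)) : Set (ℕ × ℕ)) := by
    intro e he f hf hef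
    obtain ⟨h1, h2⟩ := Finset.mem_product.1 (Finset.mem_coe.1 he)
    obtain ⟨h3, h4⟩ := Finset.mem_product.1 (Finset.mem_coe.1 hf)
    simp only [Prod.mk.injEq] at hef
    exact Prod.ext (hinjV h1 h3 hef.1) (hinjW h2 h4 hef.2)
  have himg : V0 ×ˢ W0 = (V ×ˢ W).image (fun e : ℕ × ℕ => (e.1 / pr, e.2 / pr')) := by
    ext f
    simp only [Finset.mem_product, Finset.mem_image, hV0, hW0]
    constructor
    · rintro ⟨⟨a, ha, ha'⟩, ⟨d, hd, hd'⟩⟩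
      exact ⟨(a, d), ⟨ha, hd⟩, Prod.ext ha' hd'⟩
    · rintro ⟨e, ⟨h1, h2⟩, rfl⟩
      exact ⟨⟨_, h1, rfl⟩, ⟨_, h2, rfl⟩⟩
  have hsum : ∀ Q : ℕ × ℕ → Prop, ∀ Q0 : ℕ × ℕ → Prop,
      (∀ e ∈ V ×ˢ W, Q0 (e.1 / pr, e.2 / pr') → Q e) →
      (∀ e ∈ V ×ˢ W, Q e → Q0 (e.1 / pr, e.2 / pr')) →
      ∑ f ∈ (V0 ×ˢ W0).filter Q0, F0 f = ∑ e ∈ (V ×ˢ W).filter Q, F e := by
    intro Q Q0 h1 h2
    rw [himg, Finset.filter_image, Finset.sum_image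
      (hinj.mono (by intro x hx; exact (Finset.mem_filter.1 (Finset.mem_coe.1 hx)).1))]
    have e1 : (V ×ˢ W).filter (fun a => Q0 (a.1 / pr, a.2 / pr')) = (V ×ˢ W).filter Q := by
      ext e
      simp only [Finset.mem_filter]
      exact ⟨fun h => ⟨h.1, h1 e h.1 h.2⟩, fun h => ⟨h.1, h2 e h.1 h.2⟩⟩
    rw [e1]
    exact Finset.sum_congr rfl fun e he => hF0e e (Finset.mem_filter.1 he).1
  have hsumT : ∑ f ∈ V0 ×ˢ W0, F0 f = ∑ e ∈ V ×ˢ W, F e := by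
    have := hsum (fun _ => True) (fun _ => True) (fun _ _ _ => trivial) (fun _ _ _ => trivial)
    simpa using this
  have mem0 : ∀ f ∈ V0 ×ˢ W0, ∃ e ∈ V ×ˢ W, f = (e.1 / pr, e.2 / pr') := fun f hf => by
    rw [himg] at hf
    obtain ⟨e, he, rfl⟩ := Finset.mem_image.1 hf
    exact ⟨e, he, rfl⟩
  have hpb : ∀ e ∈ V ×ˢ W, F e ≤ 4 * (rd b c ρ e.1 * rd b' c' ρ e.2) +
      2 * (rd b c ρ e.1 * rd b' c' ρ e.2 / Dq ρ M b pr c M' b' pr' c' e) := fun e he => by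
    refine (hF e he).trans ?_
    rw [pb_rd]
    exact pbd_le_all (hR _).le (hR' _).le
  have muV : ∀ q ∈ V, mu O' R (q / pr) = rd b c ρ q * tq (q / pr / M.gcd (q / pr)) := fun q hq => by
    unfold mu tq
    rw [hRe q hq, uu_pf hM _ (hVw q hq)]
  have muW : ∀ q ∈ W, mu O R' (q / pr') = rd b' c' ρ q * tq (q / pr' / M'.gcd (q / pr')) := fun q hq => by
    unfold mu tq
    rw [hRe' q hq, uu_pf hM' _ (hWw q hq)]
  set gL : Finset ℕ → ℝ := fun S => (∏ l ∈ S, l : ℕ) * ((b : ℝ) / c * D.γ) with hgL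
  set gR : Finset ℕ → ℝ := fun S => (∏ l ∈ S, l : ℕ) * ((b' : ℝ) / c' * D.γ) with hgR
  have hES : ∀ e ∈ V ×ˢ W, EG O O' R R' gL gR (e.1 / pr, e.2 / pr') ↔
      ESI D.γ ρ M b pr c M' b' pr' c' e := fun e he => by
    obtain ⟨k1, k2⟩ := Finset.mem_product.1 he
    have hw1 := hVw _ k1
    have hw2 := hWw _ k2
    show ES ((∏ l ∈ miss O' (e.1 / pr), l : ℕ) * ((b : ℝ) / c * D.γ))
        ((∏ l ∈ miss O (e.2 / pr'), l : ℕ) * ((b' : ℝ) / c' * D.γ))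
        (cof (uu O' (e.1 / pr)) (uu O (e.2 / pr'))) (cof (uu O (e.2 / pr')) (uu O' (e.1 / pr)))
        (Rc O' R (e.1 / pr)) (Rc O R' (e.2 / pr')) ↔ _
    rw [miss_pf_prod hM _ hw1, miss_pf_prod hM' _ hw2, uu_pf hM _ hw1, uu_pf hM' _ hw2,
      Rc_pf hM _ _ hw1, Rc_pf hM' _ _ hw2, hRe _ k1, hRe' _ k2]
    exact Iff.rfl
  have hFS : ∀ e ∈ V ×ˢ W, FG O O' R R' gL gR n (e.1 / pr, e.2 / pr') ↔
      FSI D.γ ρ n M b pr c M' b' pr' c' e := fun e he => by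
    obtain ⟨k1, k2⟩ := Finset.mem_product.1 he
    have hw1 := hVw _ k1
    have hw2 := hWw _ k2
    show FS n ((∏ l ∈ miss O' (e.1 / pr), l : ℕ) * ((b : ℝ) / c * D.γ))
        ((∏ l ∈ miss O (e.2 / pr'), l : ℕ) * ((b' : ℝ) / c' * D.γ))
        (cof (uu O' (e.1 / pr)) (uu O (e.2 / pr'))) (cof (uu O (e.2 / pr')) (uu O' (e.1 / pr)))
        (Rc O' R (e.1 / pr)) (Rc O R' (e.2 / pr')) ↔ _
    rw [miss_pf_prod hM _ hw1, miss_pf_prod hM' _ hw2, uu_pf hM _ hw1, uu_pf hM' _ hw2,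
      Rc_pf hM _ _ hw1, Rc_pf hM' _ _ hw2, hRe _ k1, hRe' _ k2]
    exact Iff.rfl
  have key := hcol n p G O O' V0 W0 R R' gL gR F0 (fun f => Qf (pr * f.1, pr' * f.2)) hp hn hG hO hO' hs' hs
    (by
      intro w hw
      obtain ⟨q, hq, rfl⟩ := Finset.mem_image.1 hw
      exact ⟨hVw q hq, by rw [hRe q hq]; exact hR q⟩)
    (by
      intro w hw
      obtain ⟨q, hq, rfl⟩ := Finset.mem_image.1 hw
      exact ⟨hWw q hq, by rw [hRe' q hq]; exact hR' q⟩)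
    (by
      intro w hw
      obtain ⟨q, hq, rfl⟩ := Finset.mem_image.1 hw
      rw [hRe q hq, muV q hq]
      have := mul_le_mul_of_nonneg_left (lV q hq) (hR q).le
      calc rd b c ρ q = rd b c ρ q * 1 := (mul_one _).symm
        _ ≤ _ := this
        _ = _ := by ring)
    (by
      intro w hw
      obtain ⟨q, hq, rfl⟩ := Finset.mem_image.1 hw
      rw [hRe' q hq, muW q hq]
      have := mul_le_mul_of_nonneg_left (lW q hq) (hR' q).le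
      calc rd b' c' ρ q = rd b' c' ρ q * 1 := (mul_one _).symm
        _ ≤ _ := this
        _ = _ := by ring)
    (by
      intro z hz w hw
      obtain ⟨q, hq, rfl⟩ := Finset.mem_image.1 hw
      rw [uu_pf hM _ (hVw q hq)]
      exact tV z hz q hq)
    (by
      intro z hz w hw
      obtain ⟨q, hq, rfl⟩ := Finset.mem_image.1 hw
      rw [uu_pf hM' _ (hWw q hq)]
      exact tW z hz q hq)
    (by
      intro f hf h1
      obtain ⟨e, he, rfl⟩ := mem0 f hf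
      obtain ⟨k1, k2⟩ := Finset.mem_product.1 he
      rw [hDc e he] at h1
      rw [hF0e e he, hRe _ k1, hRe' _ k2]
      have h2 := hpb e he
      have h3 : 0 ≤ rd b c ρ e.1 * rd b' c' ρ e.2 := mul_nonneg (hR _).le (hR' _).le
      have h4 : rd b c ρ e.1 * rd b' c' ρ e.2 / Dq ρ M b pr c M' b' pr' c' e ≤
          rd b c ρ e.1 * rd b' c' ρ e.2 := div_le_self h3 h1.le
      linarith)
    (by
      intro f hf h1
      obtain ⟨e, he, rfl⟩ := mem0 f hf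
      obtain ⟨k1, k2⟩ := Finset.mem_product.1 he
      have hd0 : 0 < Dc O O' R R' (e.1 / pr, e.2 / pr') := by
        refine Dc_pos (N := p) hO hO' ?_ (hWw _ k2)
        rw [hRe _ k1]; exact hR _
      rw [hDc e he] at h1 hd0 ⊢
      rw [hF0e e he, hRe _ k1, hRe' _ k2]
      have h2 := hpb e he
      have h3 : 0 ≤ rd b c ρ e.1 * rd b' c' ρ e.2 := mul_nonneg (hR _).le (hR' _).le
      have h4 : rd b c ρ e.1 * rd b' c' ρ e.2 ≤
          rd b c ρ e.1 * rd b' c' ρ e.2 / Dq ρ M b pr c M' b' pr' c' e := by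
        rw [le_div_iff₀ hd0]; nlinarith
      linarith)
    (by
      intro f hf h1 h3
      obtain ⟨e, he, rfl⟩ := mem0 f hf
      obtain ⟨k1, k2⟩ := Finset.mem_product.1 he
      rw [hDc e he] at h1
      rw [hF0e e he] at h3
      have hw1 := hVw _ k1
      have hw2 := hWw _ k2
      have hhalf : Dq ρ M b pr c M' b' pr' c' e ≤ 1/2 := by
        refine h1.trans ?_
        apply one_div_le_one_div_of_le (by norm_num)
        calc (2:ℝ) = 2^1 := (pow_one _).symm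
          _ ≤ 2^n := pow_le_pow_right₀ (by norm_num) hn1
      have hRa : Ra ((b : ℝ) / c * D.γ) (rd b c ρ e.1) (e.1 / pr) M ((b' : ℝ) / c' * D.γ)
          (rd b' c' ρ e.2) (e.2 / pr') M' := by
        by_contra hneg
        have h4 := hF e he
        rw [pb_rd] at h4
        unfold pbd at h4
        unfold Dq at hhalf
        rw [if_pos hhalf, if_neg hneg] at h4
        linarith
      have hu : 0 < e.1 / pr / M.gcd (e.1 / pr) := div_pos' hw1 hMp0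
      obtain ⟨m, m', hmm⟩ := rel_two (AvgItem710.cof_coprime hu) hRa
      refine ⟨m, m', ?_⟩
      show |(m + ((∏ l ∈ miss O' (e.1 / pr), l : ℕ) * ((b : ℝ) / c * D.γ))) *
          (cof (uu O (e.2 / pr')) (uu O' (e.1 / pr)) : ℕ) -
          (m' + ((∏ l ∈ miss O (e.2 / pr'), l : ℕ) * ((b' : ℝ) / c' * D.γ))) *
          (cof (uu O' (e.1 / pr)) (uu O (e.2 / pr')) : ℕ)| ≤ 2 * Dc O O' R R' (e.1 / pr, e.2 / pr')
      rw [hDc e he, miss_pf_prod hM _ hw1, miss_pf_prod hM' _ hw2, uu_pf hM _ hw1, uu_pf hM' _ hw2]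
      exact hmm)
    (by
      intro f hf h1 h3 h4
      obtain ⟨e, he, rfl⟩ := mem0 f hf
      obtain ⟨k1, k2⟩ := Finset.mem_product.1 he
      rw [hDc e he] at h1 ⊢
      rw [hF0e e he] at h3
      rw [hFS e he] at h4
      have hw1 := hVw _ k1
      have hw2 := hWw _ k2
      have e1 : mm O O' (e.1 / pr, e.2 / pr') = (rf (e.1 / pr) M : ℝ) * rf (e.2 / pr') M' := by
        unfold mm
        rw [← miss_pf_prod hM _ hw1, ← miss_pf_prod hM' _ hw2]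
        push_cast
        exact mul_comm _ _
      rw [e1]
      simp only [hVm _ k1, hWm _ k2]
      exact hFS' e he h1 h3 h4)
  have hleft : ∑ f ∈ (V0 ×ˢ W0).filter (fun f => 0 < F0 f ∧ (Dc O O' R R' f ≤ 1/2^n ∧
      (EG O O' R R' gL gR f ∨ Qf (pr * f.1, pr' * f.2)))), F0 f =
      ∑ e ∈ (V ×ˢ W).filter (fun e => 0 < F e ∧ (Dq ρ M b pr c M' b' pr' c' e ≤ 1/2^n ∧
        (ESI D.γ ρ M b pr c M' b' pr' c' e ∨ Qf e))), F e := by
    have hh := hsum (fun e => 0 < F e ∧ (Dq ρ M b pr c M' b' pr' c' e ≤ 1/2^n ∧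
        (ESI D.γ ρ M b pr c M' b' pr' c' e ∨ Qf e)))
      (fun f => 0 < F0 f ∧ (Dc O O' R R' f ≤ 1/2^n ∧
        (EG O O' R R' gL gR f ∨ Qf (pr * f.1, pr' * f.2)))) (fun e he h => by
        obtain ⟨h0, h1, h2⟩ := h
        obtain ⟨k1, k2⟩ := Finset.mem_product.1 he
        rw [hDc e he] at h1
        rw [hF0e e he] at h0
        simp only [hVm _ k1, hWm _ k2] at h2
        rw [hES e he] at h2
        exact ⟨h0, h1, h2⟩) (fun e he h => by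
        obtain ⟨h0, h1, h2⟩ := h
        obtain ⟨k1, k2⟩ := Finset.mem_product.1 he
        refine ⟨?_, ?_, ?_⟩
        · rw [hF0e e he]; exact h0
        · rw [hDc e he]; exact h1
        · simp only [hVm _ k1, hWm _ k2]
          rw [hES e he]; exact h2)
    convert hh
  rw [hsumT, hleft] at key
  refine key.trans ?_
  have he8 : Real.exp 2 ≤ 8 := by
    have h := Real.exp_one_lt_d9
    have : Real.exp 2 = Real.exp 1 * Real.exp 1 := by rw [← Real.exp_add]; norm_num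
    rw [this]
    have h0 := Real.exp_pos 1
    nlinarith
  have hexp : ∀ x : ℝ, x ≤ 1 → Real.exp (2 * x) ≤ 8 := fun x hx =>
    (Real.exp_le_exp.2 (by linarith)).trans he8
  have sV : ∑ w ∈ V0, mu O' R w ≤ 8 * ∑ q ∈ V, rd b c ρ q * tq (q / pr) := by
    rw [hV0, Finset.sum_image hinjV, Finset.mul_sum]
    refine Finset.sum_le_sum fun q hq => ?_
    rw [muV q hq]
    have h1 := tq_div_le hMp0 (hVw q hq)
    have h2 := hexp _ hsI
    have h3 : tq (q / pr / M.gcd (q / pr)) ≤ tq (q / pr) * 8 :=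
      h1.trans (mul_le_mul_of_nonneg_left h2 (tq_nonneg _))
    have h4 := mul_le_mul_of_nonneg_left h3 (hR q).le
    linarith
  have sW : ∑ w ∈ W0, mu O R' w ≤ 8 * ∑ q ∈ W, rd b' c' ρ q * tq (q / pr') := by
    rw [hW0, Finset.sum_image hinjW, Finset.mul_sum]
    refine Finset.sum_le_sum fun q hq => ?_
    rw [muW q hq]
    have h1 := tq_div_le hMp0' (hWw q hq)
    have h2 := hexp _ hsI'
    have h3 : tq (q / pr' / M'.gcd (q / pr')) ≤ tq (q / pr') * 8 :=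
      h1.trans (mul_le_mul_of_nonneg_left h2 (tq_nonneg _))
    have h4 := mul_le_mul_of_nonneg_left h3 (hR' q).le
    linarith
  have nV : 0 ≤ ∑ w ∈ V0, mu O' R w := Finset.sum_nonneg fun w hw => by
    obtain ⟨q, hq, rfl⟩ := Finset.mem_image.1 hw
    rw [muV q hq]; exact mul_nonneg (hR q).le (tq_nonneg _)
  have nW : 0 ≤ ∑ w ∈ W0, mu O R' w := Finset.sum_nonneg fun w hw => by
    obtain ⟨q, hq, rfl⟩ := Finset.mem_image.1 hw
    rw [muW q hq]; exact mul_nonneg (hR' q).le (tq_nonneg _)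
  have hprod : (∑ w ∈ V0, mu O' R w) * (∑ w ∈ W0, mu O R' w) ≤
      (8 * ∑ q ∈ V, rd b c ρ q * tq (q / pr)) * (8 * ∑ q ∈ W, rd b' c' ρ q * tq (q / pr')) :=
    mul_le_mul sV sW nW (nV.trans sV)
  have omL : ∀ w, om O' w ≤ 1 := fun w => om_le_one (fun l hl => (hO' l hl).1.pos) w
  have sVo : ∑ w ∈ V0, om O' w * mu O' R w ≤ 8 * ∑ q ∈ V, rd b c ρ q * tq (q / pr) := by
    refine (Finset.sum_le_sum fun w hw => ?_).trans sV
    have h0 : 0 ≤ mu O' R w := by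
      obtain ⟨q, hq, rfl⟩ := Finset.mem_image.1 hw
      rw [muV q hq]; exact mul_nonneg (hR q).le (tq_nonneg _)
    exact mul_le_of_le_one_left h0 (omL w)
  have nVo : 0 ≤ ∑ w ∈ V0, om O' w * mu O' R w := Finset.sum_nonneg fun w hw => by
    obtain ⟨q, hq, rfl⟩ := Finset.mem_image.1 hw
    rw [muV q hq]; exact mul_nonneg (om_nonneg _ _) (mul_nonneg (hR q).le (tq_nonneg _))
  have sH : ∑ w ∈ W0, om O w * mu O R' w ≤
      8 * ∑ q ∈ W, om M'.primeFactors (q / pr') * (rd b' c' ρ q * tq (q / pr')) := by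
    rw [hW0, Finset.sum_image hinjW, Finset.mul_sum]
    refine Finset.sum_le_sum fun q hq => ?_
    rw [muW q hq]
    have h1 := tq_div_le hMp0' (hWw q hq)
    have h2 := hexp _ hsI'
    have h3 : tq (q / pr' / M'.gcd (q / pr')) ≤ tq (q / pr') * 8 :=
      h1.trans (mul_le_mul_of_nonneg_left h2 (tq_nonneg _))
    have h4 := mul_le_mul_of_nonneg_left h3 (hR' q).le
    have h5 := mul_le_mul_of_nonneg_left h4 (om_nonneg O (q / pr'))
    calc _ ≤ om O (q / pr') * (rd b' c' ρ q * (tq (q / pr') * 8)) := h5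
      _ = _ := by ring
  have nH : 0 ≤ ∑ w ∈ W0, om O w * mu O R' w := Finset.sum_nonneg fun w hw' => by
    obtain ⟨q, hq, rfl⟩ := Finset.mem_image.1 hw'
    rw [muW q hq]; exact mul_nonneg (om_nonneg _ _) (mul_nonneg (hR' q).le (tq_nonneg _))
  have hprod2 : (∑ w ∈ V0, om O' w * mu O' R w) * (∑ w ∈ W0, om O w * mu O R' w) ≤
      (8 * ∑ q ∈ V, rd b c ρ q * tq (q / pr)) *
        (8 * ∑ q ∈ W, om M'.primeFactors (q / pr') * (rd b' c' ρ q * tq (q / pr'))) :=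
    mul_le_mul sVo sH nH (nVo.trans sVo)
  have hlog : 0 ≤ (Real.log p)^3 := pow_nonneg (Real.log_natCast_nonneg p) 3
  have he1 : eps1 = 1/1000 := rfl
  refine add_le_add (add_le_add (mul_le_mul_of_nonneg_left hprod hlog) ?_) le_rfl
  refine mul_le_mul_of_nonneg_left ?_ (by positivity)
  exact Real.rpow_le_rpow (mul_nonneg nVo nH) hprod2 (by rw [he1]; norm_num)

end items

/-! ### weights -/

lemma om_anti {O : Finset ℕ} (hO : ∀ l ∈ O, 0 < l) {v w : ℕ} (h : v ∣ w) : om O v ≤ om O w := by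
  unfold om
  have hsub : O.filter (fun l => ¬ l ∣ w) ⊆ O.filter (fun l => ¬ l ∣ v) := fun l hl => by
    obtain ⟨h1, h2⟩ := Finset.mem_filter.1 hl
    exact Finset.mem_filter.2 ⟨h1, fun h3 => h2 (h3.trans h)⟩
  rw [← Finset.prod_sdiff hsub]
  refine mul_le_of_le_one_left (Finset.prod_nonneg fun _ _ => by positivity) ?_
  apply Finset.prod_le_one (fun _ _ => by positivity)
  intro l hl
  have h1 : (1:ℝ) ≤ l := by
    exact_mod_cast hO l (Finset.mem_filter.1 (Finset.mem_sdiff.1 hl).1).1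
  exact Real.rpow_le_one_of_one_le_of_nonpos h1 (by norm_num)

/-! ### numbers -/

open Filter in
/-- numbers of a column -/
lemma num_k (C1 Cm : ℝ) (hCm : 0 ≤ Cm) : ∃ p₁ : ℕ, 2 ≤ p₁ ∧ ∀ p : ℕ, p₁ ≤ p →
    ∀ X X' H' Φ Φ' Ψ' : ℝ,
    0 ≤ X → 0 ≤ X' → 0 ≤ H' → X ≤ (Real.log p)^C1 / p → X' ≤ (Real.log p)^C1 → H' ≤ X' →
    X ≤ Cm * Φ → X' ≤ Cm * Φ' → H' ≤ Cm * Ψ' → 0 ≤ Φ → 0 ≤ Φ' → 0 ≤ Ψ' →
    (Real.log p)^3 * ((8 * X) * (8 * X')) + (p:ℝ)^(3/4000:ℝ) * ((8 * X) * (8 * H'))^(1/2+eps1) ≤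
      (p:ℝ)^(-(23/24):ℝ) * Φ' + (p:ℝ)^(-(1/5000):ℝ) * (Φ + Ψ') := by
  have he1 : eps1 = 1/1000 := rfl
  have e1 := ev_log_rpow (64 * Cm) (C1 + 3) (1/24) (by norm_num)
  have e2 := ev_log_rpow 64 (C1 + C1) (1/100) (by norm_num)
  have e3 := ev_log_rpow (4 * Cm) 0 (1/25000) (by norm_num)
  obtain ⟨x0, hx0⟩ := eventually_atTop.1 (e1.and (e2.and (e3.and (eventually_ge_atTop (3:ℝ)))))
  refine ⟨max 2 ⌈x0⌉₊, le_max_left _ _, ?_⟩
  intro p hp X X' H' Φ Φ' Ψ' hX hX' hH' hXs hXs' hHX hXm hXm' hHm hΦ1 hΦ2 hΨ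
  have hpx : x0 ≤ (p:ℝ) := (Nat.le_ceil x0).trans (by exact_mod_cast (le_max_right _ _).trans hp)
  obtain ⟨g1, g2, g3, g4⟩ := hx0 p hpx
  have hp0 : (0:ℝ) < p := by linarith
  have hp1 : (1:ℝ) ≤ p := by linarith
  have hl1 : 1 ≤ Real.log p := by
    rw [Real.le_log_iff_exp_le hp0]
    have := Real.exp_one_lt_d9
    linarith
  have hl0 : 0 < Real.log p := by linarith
  rw [Real.rpow_zero, mul_one] at g3
  set L := Real.log (p:ℝ) with hL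
  have hLC : 0 < L^C1 := Real.rpow_pos_of_pos hl0 _
  -- first term
  have a1 : L^3 * ((8 * X) * (8 * X')) ≤ (p:ℝ)^(-(23/24):ℝ) * Φ' := by
    have d0 : X * X' ≤ (L^C1 / p) * (Cm * Φ') := mul_le_mul hXs hXm' hX' (by positivity)
    have d1 : L^3 * ((8 * X) * (8 * X')) ≤ (64 * Cm * (L^(C1+3))) / p * Φ' := by
      have d2 : L^(C1+3) = L^C1 * L^3 := by
        rw [Real.rpow_add hl0]
        have : L^(3:ℝ) = L^(3:ℕ) := by
          rw [← Real.rpow_natCast]; norm_num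
        rw [this]
      rw [d2]
      calc L^3 * ((8 * X) * (8 * X')) = 64 * L^3 * (X * X') := by ring
        _ ≤ 64 * L^3 * ((L^C1 / p) * (Cm * Φ')) := mul_le_mul_of_nonneg_left d0 (by positivity)
        _ = _ := by ring
    refine d1.trans (mul_le_mul_of_nonneg_right ?_ hΦ2)
    rw [div_le_iff₀ hp0]
    refine g1.trans (le_of_eq ?_)
    nth_rewrite 3 [← Real.rpow_one (p:ℝ)]
    rw [← Real.rpow_add hp0]; norm_num
  -- second term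
  have a2 : (p:ℝ)^(3/4000:ℝ) * ((8 * X) * (8 * H'))^(1/2+eps1) ≤ (p:ℝ)^(-(1/5000):ℝ) * (Φ + Ψ') := by
    have hYY0 : 0 ≤ (8 * X) * (8 * H') := by positivity
    have b1 : ((8 * X) * (8 * H'))^(1/2+eps1) =
        ((8 * X) * (8 * H'))^(1/2:ℝ) * ((8 * X) * (8 * H'))^(1/1000:ℝ) := by
      rw [he1, Real.rpow_add_of_nonneg hYY0 (by norm_num) (by norm_num)]
    have b2 : ((8 * X) * (8 * H'))^(1/2:ℝ) ≤ 4 * Cm * (Φ + Ψ') := by
      rw [← Real.sqrt_eq_rpow]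
      have b4 : 8 * X ≤ 8 * (Cm * Φ) := by linarith
      have b5 : 8 * H' ≤ 8 * (Cm * Ψ') := by linarith
      have b6 : Real.sqrt ((8 * X) * (8 * H')) ≤ (8 * X + 8 * H') / 2 := by
        apply Real.sqrt_le_iff.2
        refine ⟨by positivity, ?_⟩
        nlinarith [sq_nonneg (8 * X - 8 * H')]
      linarith
    have b3 : ((8 * X) * (8 * H'))^(1/1000:ℝ) ≤ (p:ℝ)^(-(99/100000):ℝ) := by
      have c0 : X * H' ≤ (L^C1 / p) * L^C1 := mul_le_mul hXs (hHX.trans hXs') hH' (by positivity)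
      have c1 : (8 * X) * (8 * H') ≤ (p:ℝ)^(-(99/100):ℝ) := by
        have c2 : 64 * ((L^C1 / p) * L^C1) ≤ (p:ℝ)^(-(99/100):ℝ) := by
          have c3 : 64 * ((L^C1 / p) * L^C1) = (64 * L^(C1+C1)) / p := by
            rw [Real.rpow_add hl0]; ring
          rw [c3, div_le_iff₀ hp0]
          refine g2.trans (le_of_eq ?_)
          nth_rewrite 3 [← Real.rpow_one (p:ℝ)]
          rw [← Real.rpow_add hp0]; norm_num
        calc (8 * X) * (8 * H') = 64 * (X * H') := by ring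
          _ ≤ 64 * ((L^C1 / p) * L^C1) := by linarith
          _ ≤ _ := c2
      refine (Real.rpow_le_rpow hYY0 c1 (by norm_num)).trans (le_of_eq ?_)
      rw [← Real.rpow_mul hp0.le]; norm_num
    have hS : 0 ≤ Φ + Ψ' := by positivity
    rw [b1]
    calc (p:ℝ)^(3/4000:ℝ) * (((8 * X) * (8 * H'))^(1/2:ℝ) * ((8 * X) * (8 * H'))^(1/1000:ℝ))
        ≤ (p:ℝ)^(3/4000:ℝ) * ((4 * Cm * (Φ + Ψ')) * (p:ℝ)^(-(99/100000):ℝ)) := by
          apply mul_le_mul_of_nonneg_left _ (by positivity)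
          exact mul_le_mul b2 b3 (Real.rpow_nonneg hYY0 _) (by positivity)
      _ = ((p:ℝ)^(3/4000:ℝ) * (p:ℝ)^(-(99/100000):ℝ)) * (4 * Cm) * (Φ + Ψ') := by ring
      _ ≤ ((p:ℝ)^(3/4000:ℝ) * (p:ℝ)^(-(99/100000):ℝ)) * (p:ℝ)^(1/25000:ℝ) * (Φ + Ψ') := by
          apply mul_le_mul_of_nonneg_right _ hS
          exact mul_le_mul_of_nonneg_left g3 (by positivity)
      _ = (p:ℝ)^(-(1/5000):ℝ) * (Φ + Ψ') := by
          rw [← Real.rpow_add hp0, ← Real.rpow_add hp0]; norm_num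
  linarith

/-- constants of a column: independent of types -/
structure CK (CL C1 Cm : ℝ) (p₁ : ℕ) : Prop where
  big : 16 ≤ p₁
  col : KCls CL p₁
  cl : ∀ p : ℕ, p₁ ≤ p → CL ≤ Real.log p
  num : ∀ p : ℕ, p₁ ≤ p → ∀ X X' H' Φ Φ' Ψ' : ℝ,
    0 ≤ X → 0 ≤ X' → 0 ≤ H' → X ≤ (Real.log p)^(C1+2) / p → X' ≤ (Real.log p)^(C1+2) → H' ≤ X' →
    X ≤ Cm * Φ → X' ≤ Cm * Φ' → H' ≤ Cm * Ψ' → 0 ≤ Φ → 0 ≤ Φ' → 0 ≤ Ψ' →
    (Real.log p)^3 * ((8 * X) * (8 * X')) + (p:ℝ)^(3/4000:ℝ) * ((8 * X) * (8 * H'))^(1/2+eps1) ≤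
      (p:ℝ)^(-(23/24):ℝ) * Φ' + (p:ℝ)^(-(1/5000):ℝ) * (Φ + Ψ')
  n1 : ∀ p : ℕ, p₁ ≤ p → (p:ℝ)^(-(23/24):ℝ) * (CL * Real.log p) ≤ (p:ℝ)^(-(11/12):ℝ)
  n2 : ∀ p : ℕ, p₁ ≤ p → (p:ℝ)^(-(1/5000):ℝ) * (CL * Real.log p) ≤ (p:ℝ)^(-(1/6000):ℝ)
  n3 : ∀ p : ℕ, p₁ ≤ p → 2 * (p:ℝ)^(-(1/6000):ℝ) ≤ (p:ℝ)^(-(1/7000):ℝ)

theorem exists_CK {CL : ℝ} (hCL : 1 ≤ CL) (C1 Cm : ℝ) (hCm : 0 ≤ Cm) : ∃ p₁ : ℕ, CK CL C1 Cm p₁ := by
  obtain ⟨p₀, hp0, h0⟩ := exists_KCls hCL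
  obtain ⟨p₁, hp1, h1⟩ := num_k (C1 + 2) Cm hCm
  have e1 := ev_log_rpow CL 1 (1 / 24) (by norm_num)
  have e2 := ev_log_rpow CL 1 (1 / 30000) (by norm_num)
  have e3 := ev_log_rpow 2 0 (1 / 42000) (by norm_num)
  have e4 := Real.tendsto_log_atTop.eventually_ge_atTop CL
  obtain ⟨x0, hx0⟩ := Filter.eventually_atTop.1
    (e1.and (e2.and (e3.and (e4.and (Filter.eventually_ge_atTop (3 : ℝ))))))
  have hx : ∀ p : ℕ, max (max (max p₀ p₁) 16) ⌈x0⌉₊ ≤ p → x0 ≤ (p : ℝ) := fun p hp =>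
    (Nat.le_ceil x0).trans (by exact_mod_cast (le_max_right _ _).trans hp)
  refine ⟨max (max (max p₀ p₁) 16) ⌈x0⌉₊, ?_, ?_, ?_, ?_, ?_, ?_, ?_⟩
  · exact (le_max_right _ _).trans (le_max_left _ _)
  · intro n p G O O' V W R R' γ γ' F Q hp
    exact h0 n p G O O' V W R R' γ γ' F Q ((le_max_left _ _).trans ((le_max_left _ _).trans
      ((le_max_left _ _).trans hp)))
  · intro p hp
    exact (hx0 p (hx p hp)).2.2.2.1
  · intro p hp
    exact h1 p ((le_max_right _ _).trans ((le_max_left _ _).trans ((le_max_left _ _).trans hp)))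
  · intro p hp
    obtain ⟨g1, -, -, -, g5⟩ := hx0 p (hx p hp)
    rw [Real.rpow_one] at g1
    have hp0 : (0 : ℝ) < p := by linarith
    calc (p : ℝ) ^ (-(23 / 24) : ℝ) * (CL * Real.log p) ≤
        (p : ℝ) ^ (-(23 / 24) : ℝ) * (p : ℝ) ^ (1 / 24 : ℝ) :=
          mul_le_mul_of_nonneg_left g1 (by positivity)
      _ = (p : ℝ) ^ (-(11 / 12) : ℝ) := by
          rw [← Real.rpow_add hp0]; norm_num
  · intro p hp
    obtain ⟨-, g2, -, -, g5⟩ := hx0 p (hx p hp)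
    rw [Real.rpow_one] at g2
    have hp0 : (0 : ℝ) < p := by linarith
    calc (p : ℝ) ^ (-(1 / 5000) : ℝ) * (CL * Real.log p) ≤
        (p : ℝ) ^ (-(1 / 5000) : ℝ) * (p : ℝ) ^ (1 / 30000 : ℝ) :=
          mul_le_mul_of_nonneg_left g2 (by positivity)
      _ = (p : ℝ) ^ (-(1 / 6000) : ℝ) := by
          rw [← Real.rpow_add hp0]; norm_num
  · intro p hp
    obtain ⟨-, -, g3, -, g5⟩ := hx0 p (hx p hp)
    rw [Real.rpow_zero, mul_one] at g3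
    have hp0 : (0 : ℝ) < p := by linarith
    calc 2 * (p : ℝ) ^ (-(1 / 6000) : ℝ) ≤ (p : ℝ) ^ (1 / 42000 : ℝ) * (p : ℝ) ^ (-(1 / 6000) : ℝ) :=
          mul_le_mul_of_nonneg_right g3 (by positivity)
      _ = (p : ℝ) ^ (-(1 / 7000) : ℝ) := by
          rw [← Real.rpow_add hp0]; norm_num

lemma CK.mono {CL C1 Cm : ℝ} {p₁ p₂ : ℕ} (h : CK CL C1 Cm p₁) (h2 : p₁ ≤ p₂) : CK CL C1 Cm p₂ :=
  ⟨h.big.trans h2, fun n p G O O' V W R R' γ γ' F Q hp =>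
      h.col n p G O O' V W R R' γ γ' F Q (h2.trans hp),
    fun p hp => h.cl p (h2.trans hp), fun p hp => h.num p (h2.trans hp),
    fun p hp => h.n1 p (h2.trans hp), fun p hp => h.n2 p (h2.trans hp),
    fun p hp => h.n3 p (h2.trans hp)⟩

section items
variable {Λ κι : Type*}

open Classical in
/-- **a column on item pairs**: moduli `H M₀`, `H' M₀'`, only the primes of `M₀`, `M₀'` enter -/
theorem k_core {CL C1 Cm : ℝ} {p₁ : ℕ} (hk : CK CL C1 Cm p₁) (D : Par Λ κι) {ρ : ℕ → ℝ}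
    {F : ℕ × ℕ → ℝ} {n p G H M₀ b pr c H' M₀' b' pr' c' : ℕ} {V W : Finset ℕ} {Φ Φ' Ψ' : ℝ}
    (hCL : 0 ≤ CL) (hp : p₁ ≤ p) (hn : n = ⌊1/4 * Real.log p / Real.log 2⌋₊) (hG : 0 < G)
    (hρ : ∀ q, 0 < ρ q) (hb : 0 < b) (hc : 0 < c) (hb' : 0 < b') (hc' : 0 < c')
    (hM : Squarefree M₀) (hM' : Squarefree M₀')
    (hMp : ∀ l : ℕ, l.Prime → l ∣ M₀ → p ≤ l) (hMp' : ∀ l : ℕ, l.Prime → l ∣ M₀' → p ≤ l)
    (hs : ∑ l ∈ M₀.primeFactors, (l:ℝ)^(-(11/12):ℝ) ≤ 1)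
    (hs' : ∑ l ∈ M₀'.primeFactors, (l:ℝ)^(-(11/12):ℝ) ≤ 1)
    (hH : 0 < H) (hH' : 0 < H')
    (hV : ∀ q ∈ V, 0 < q ∧ pr ∣ q ∧ H ∣ q / pr) (hW : ∀ q ∈ W, 0 < q ∧ pr' ∣ q ∧ H' ∣ q / pr')
    (tV : ∀ z : ℝ, (p:ℝ) ≤ z → ∀ q ∈ V, ClsB.Tame z G (q / pr / (H * M₀).gcd (q / pr)))
    (tW : ∀ z : ℝ, (p:ℝ) ≤ z → ∀ q ∈ W, ClsB.Tame z G (q / pr' / (H' * M₀').gcd (q / pr')))
    (lV : ∀ q ∈ V, 1 ≤ CL * Real.log p * tq (q / pr))
    (lW : ∀ q ∈ W, 1 ≤ CL * Real.log p * tq (q / pr'))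
    (hF : ∀ e ∈ V ×ˢ W, F e ≤ D.pb ρ (H * M₀) b pr c e.1 (H' * M₀') b' pr' c' e.2)
    {Qf : ℕ × ℕ → Prop}
    (hFS : ∀ e ∈ V ×ˢ W, Dq ρ (H * M₀) b pr c (H' * M₀') b' pr' c' e ≤ 1/2^n → 0 < F e →
      FSI D.γ ρ n (H * M₀) b pr c (H' * M₀') b' pr' c' e →
      1 < 2 * ((rf (e.1 / pr) (H * M₀) : ℝ) * rf (e.2 / pr') (H' * M₀'))^10 *
        Dq ρ (H * M₀) b pr c (H' * M₀') b' pr' c' e ∨ Qf e)
    (xV : ∑ q ∈ V, rd b c ρ q * tq (q / pr) ≤ (Real.log p)^C1 / p)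
    (xW : ∑ q ∈ W, rd b' c' ρ q * tq (q / pr') ≤ (Real.log p)^C1)
    (mV : ∑ q ∈ V, rd b c ρ q * tq (q / pr) ≤ Cm * Φ)
    (mW : ∑ q ∈ W, rd b' c' ρ q * tq (q / pr') ≤ Cm * Φ')
    (mH : ∑ q ∈ W, om M₀'.primeFactors q * (rd b' c' ρ q * tq (q / pr')) ≤ Cm * Ψ')
    (hΦ : 0 ≤ Φ) (hΦ' : 0 ≤ Φ') (hΨ' : 0 ≤ Ψ') :
    ∑ e ∈ V ×ˢ W, F e ≤ ((p:ℝ)^(-(11/12):ℝ) * Φ' + (p:ℝ)^(-(1/6000):ℝ) * (Φ + Ψ')) +
      ∑ e ∈ (V ×ˢ W).filter (fun e => 0 < F e ∧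
        (Dq ρ (H * M₀) b pr c (H' * M₀') b' pr' c' e ≤ 1/2^n ∧
        (ESI D.γ ρ (H * M₀) b pr c (H' * M₀') b' pr' c' e ∨ Qf e))), F e := by
  have hp16 : 16 ≤ p := hk.big.trans hp
  have hn1 : 1 ≤ n := by
    rw [hn]
    apply Nat.le_floor
    have hl2 : 0 < Real.log 2 := Real.log_pos (by norm_num)
    rw [Nat.cast_one, le_div_iff₀ hl2]
    have h16 : Real.log 16 ≤ Real.log p := Real.log_le_log (by norm_num) (by exact_mod_cast hp16)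
    have : Real.log 16 = 4 * Real.log 2 := by
      rw [show (16:ℝ) = 2^4 by norm_num, Real.log_pow]; norm_num
    linarith
  have hpR0 : (0 : ℝ) < p := by exact_mod_cast (by omega : 0 < p)
  have hlog1 : 0 < Real.log p := Real.log_pos (by exact_mod_cast (by omega : 1 < p))
  have logp : 0 ≤ CL * Real.log p := mul_nonneg hCL hlog1.le
  have rV : ∀ q, 0 ≤ rd b c ρ q := fun q => mul_nonneg (by positivity) (hρ q).le
  have rW : ∀ q, 0 ≤ rd b' c' ρ q := fun q => mul_nonneg (by positivity) (hρ q).le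
  have dV : ∀ q ∈ V, 0 < q ∧ pr * H ∣ q := fun q hq => by
    obtain ⟨h1, h2, w, hw⟩ := hV q hq
    exact ⟨h1, w, by rw [mul_assoc, ← hw, Nat.mul_div_cancel' h2]⟩
  have dW : ∀ q ∈ W, 0 < q ∧ pr' * H' ∣ q := fun q hq => by
    obtain ⟨h1, h2, w, hw⟩ := hW q hq
    exact ⟨h1, w, by rw [mul_assoc, ← hw, Nat.mul_div_cancel' h2]⟩
  have quoV : ∀ q ∈ V, q / pr / (H * M₀).gcd (q / pr) = q / (pr * H) / M₀.gcd (q / (pr * H)) :=
    fun q hq => NMW927.quo_G (hV q hq).2.2 hH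
  have quoW : ∀ q ∈ W, q / pr' / (H' * M₀').gcd (q / pr') =
      q / (pr' * H') / M₀'.gcd (q / (pr' * H')) := fun q hq => NMW927.quo_G (hW q hq).2.2 hH'
  have wV : ∀ q ∈ V, 0 < q / pr := fun q hq =>
    Nat.div_pos (Nat.le_of_dvd (hV q hq).1 (hV q hq).2.1)
      (Nat.pos_of_dvd_of_pos (hV q hq).2.1 (hV q hq).1)
  have wW : ∀ q ∈ W, 0 < q / pr' := fun q hq =>
    Nat.div_pos (Nat.le_of_dvd (hW q hq).1 (hW q hq).2.1)
      (Nat.pos_of_dvd_of_pos (hW q hq).2.1 (hW q hq).1)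
  have dat : ∀ e ∈ V ×ˢ W, _ := fun e he =>
    NMW927.dat_G (ρ := ρ) (γ := D.γ) (n := n) (M₀ := M₀) (M₀' := M₀') (b := b) (b' := b') (c := c)
      (c' := c') (e := e) (hV _ (Finset.mem_product.1 he).1).2.2 hH
      (hW _ (Finset.mem_product.1 he).2).2.2 hH'
  have hxt : CL * Real.log p * (Real.log p)^C1 ≤ (Real.log p)^(C1 + 2) := by
    have h1 : (Real.log p)^(C1 + 2) = Real.log p * Real.log p * (Real.log p)^C1 := by
      rw [Real.rpow_add hlog1]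
      have : (Real.log p)^(2 : ℝ) = Real.log p * Real.log p := by
        rw [show (2 : ℝ) = ((2 : ℕ) : ℝ) by norm_num, Real.rpow_natCast, sq]
      rw [this]; ring
    rw [h1]
    exact mul_le_mul_of_nonneg_right (mul_le_mul_of_nonneg_right (hk.cl p hp) hlog1.le)
      (Real.rpow_nonneg hlog1.le _)
  -- the sums with `pr H`
  have sV : ∑ q ∈ V, rd b c ρ q * tq (q / (pr * H)) ≤
      CL * Real.log p * ∑ q ∈ V, rd b c ρ q * tq (q / pr) := by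
    rw [Finset.mul_sum]
    refine Finset.sum_le_sum fun q hq => ?_
    calc rd b c ρ q * tq (q / (pr * H)) ≤ rd b c ρ q * (CL * Real.log p * tq (q / pr)) :=
          mul_le_mul_of_nonneg_left ((NMW927.tq_le_one _).trans (lV q hq)) (rV q)
      _ = _ := by ring
  have sW : ∑ q ∈ W, rd b' c' ρ q * tq (q / (pr' * H')) ≤
      CL * Real.log p * ∑ q ∈ W, rd b' c' ρ q * tq (q / pr') := by
    rw [Finset.mul_sum]
    refine Finset.sum_le_sum fun q hq => ?_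
    calc rd b' c' ρ q * tq (q / (pr' * H')) ≤ rd b' c' ρ q * (CL * Real.log p * tq (q / pr')) :=
          mul_le_mul_of_nonneg_left ((NMW927.tq_le_one _).trans (lW q hq)) (rW q)
      _ = _ := by ring
  have oP : ∀ l ∈ M₀'.primeFactors, 0 < l := fun l hl => (Nat.prime_of_mem_primeFactors hl).pos
  have sH : ∑ q ∈ W, om M₀'.primeFactors (q / (pr' * H')) * (rd b' c' ρ q * tq (q / (pr' * H'))) ≤
      CL * Real.log p * ∑ q ∈ W, om M₀'.primeFactors q * (rd b' c' ρ q * tq (q / pr')) := by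
    rw [Finset.mul_sum]
    refine Finset.sum_le_sum fun q hq => ?_
    have h1 : om M₀'.primeFactors (q / (pr' * H')) ≤ om M₀'.primeFactors q :=
      om_anti oP (Nat.div_dvd_of_dvd (dW q hq).2)
    have h2 : rd b' c' ρ q * tq (q / (pr' * H')) ≤ CL * Real.log p * (rd b' c' ρ q * tq (q / pr')) := by
      calc rd b' c' ρ q * tq (q / (pr' * H')) ≤ rd b' c' ρ q * (CL * Real.log p * tq (q / pr')) :=
            mul_le_mul_of_nonneg_left ((NMW927.tq_le_one _).trans (lW q hq)) (rW q)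
        _ = _ := by ring
    calc _ ≤ om M₀'.primeFactors q * (CL * Real.log p * (rd b' c' ρ q * tq (q / pr'))) :=
          mul_le_mul h1 h2 (mul_nonneg (rW q) (tq_nonneg _)) (om_nonneg _ _)
      _ = _ := by ring
  have key := k_items hk.col D (F := F) (n := n) (p := p) (G := G) (M := M₀) (b := b) (pr := pr * H)
    (c := c) (M' := M₀') (b' := b') (pr' := pr' * H') (c' := c') (V := V) (W := W) hp hn hn1 hG
    hρ hb hc hb' hc' hM hM' hMp hMp' hs hs' dV dW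
    (fun z hz q hq => by rw [← quoV q hq]; exact tV z hz q hq)
    (fun z hz q hq => by rw [← quoW q hq]; exact tW z hz q hq)
    (fun q hq => by
      rw [← quoV q hq]
      refine (lV q hq).trans ?_
      exact mul_le_mul_of_nonneg_left (tq_mono (Nat.div_dvd_of_dvd (Nat.gcd_dvd_right _ _))
        (wV q hq)) logp)
    (fun q hq => by
      rw [← quoW q hq]
      refine (lW q hq).trans ?_
      exact mul_le_mul_of_nonneg_left (tq_mono (Nat.div_dvd_of_dvd (Nat.gcd_dvd_right _ _))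
        (wW q hq)) logp)
    (fun e he => by
      refine (hF e he).trans (le_of_eq ?_)
      unfold Item758.Par.pb
      exact NMW927.pbd_G (hV _ (Finset.mem_product.1 he).1).2.2 hH
        (hW _ (Finset.mem_product.1 he).2).2.2 hH')
    (Qf := Qf)
    (fun e he h1 h2 h3 => by
      obtain ⟨d1, d2, d3⟩ := dat e he
      have a1 := NMW927.rf_G (M₀ := M₀) (hV _ (Finset.mem_product.1 he).1).2.2 hH
      have a2 := NMW927.rf_G (M₀ := M₀') (hW _ (Finset.mem_product.1 he).2).2.2 hH'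
      have h4 := hFS e he (by rw [d1]; exact h1) h2 (d3.2 h3)
      rw [d1, a1, a2] at h4
      exact h4)
  refine key.trans (add_le_add ?_ (le_of_eq ?_))
  · have nX : 0 ≤ ∑ q ∈ V, rd b c ρ q * tq (q / (pr * H)) := Finset.sum_nonneg fun q _ =>
      mul_nonneg (rV q) (tq_nonneg _)
    have nX' : 0 ≤ ∑ q ∈ W, rd b' c' ρ q * tq (q / (pr' * H')) := Finset.sum_nonneg fun q _ =>
      mul_nonneg (rW q) (tq_nonneg _)
    have nH' : 0 ≤ ∑ q ∈ W, om M₀'.primeFactors (q / (pr' * H')) *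
        (rd b' c' ρ q * tq (q / (pr' * H'))) := Finset.sum_nonneg fun q _ =>
      mul_nonneg (om_nonneg _ _) (mul_nonneg (rW q) (tq_nonneg _))
    have hHX : ∑ q ∈ W, om M₀'.primeFactors (q / (pr' * H')) *
        (rd b' c' ρ q * tq (q / (pr' * H'))) ≤ ∑ q ∈ W, rd b' c' ρ q * tq (q / (pr' * H')) :=
      Finset.sum_le_sum fun q _ => mul_le_of_le_one_left (mul_nonneg (rW q) (tq_nonneg _))
        (om_le_one oP _)
    have hnum := hk.num p hp _ _ _ (CL * Real.log p * Φ) (CL * Real.log p * Φ')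
      (CL * Real.log p * Ψ') nX nX' nH'
      (sV.trans (by
        refine (mul_le_mul_of_nonneg_left xV logp).trans ?_
        rw [← mul_div_assoc]
        exact div_le_div_of_nonneg_right hxt hpR0.le))
      (sW.trans ((mul_le_mul_of_nonneg_left xW logp).trans hxt)) hHX
      (sV.trans ((mul_le_mul_of_nonneg_left mV logp).trans (le_of_eq (by ring))))
      (sW.trans ((mul_le_mul_of_nonneg_left mW logp).trans (le_of_eq (by ring))))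
      (sH.trans ((mul_le_mul_of_nonneg_left mH logp).trans (le_of_eq (by ring))))
      (mul_nonneg logp hΦ) (mul_nonneg logp hΦ') (mul_nonneg logp hΨ')
    refine hnum.trans ?_
    have i1 := mul_le_mul_of_nonneg_right (hk.n1 p hp) hΦ'
    have i2 := mul_le_mul_of_nonneg_right (hk.n2 p hp) (add_nonneg hΦ hΨ')
    calc _ = (p:ℝ)^(-(23/24):ℝ) * (CL * Real.log p) * Φ' +
          (p:ℝ)^(-(1/5000):ℝ) * (CL * Real.log p) * (Φ + Ψ') := by ring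
      _ ≤ _ := add_le_add i1 i2
  · refine Finset.sum_congr (Finset.filter_congr fun e he => ?_) fun _ _ => rfl
    obtain ⟨d1, d2, d3⟩ := dat e he
    rw [d1, d2]

end items

/-! ### a state -/

section state
open Crest.Agent.R4.Tour104 Crest.Agent.R4.Tour758 Crest.Agent.R4.Avg758 Crest.Agent.R4.Clos758
open Crest.Agent.R4.ClosL758 Crest.Agent.R4.ClosG758 Crest.Agent.R4.ClosR758
open Crest.Agent.R4.Fam464 Crest.Agent.R4.Cnt588 Crest.Agent.R4.Walk560 Crest.Agent.R4.Piece464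
open Crest.Agent.R4.GInst194 Crest.Agent.R4.WalkIT579 Crest.Agent.R4.GSt927
open Crest.Agent.R4.OSCol710 (share_node mass_node eOS_le_iF eOS_le_iF')
open Crest.Agent.R4.Bld532 (NS All NodeOk Bk)

variable {Λ κ : Type*} [Fintype Λ] [DecidableEq Λ] [Fintype κ] [DecidableEq κ] [WRel κ]
  {D : Par Λ κ} {ρ : ℕ → ℝ} {Al : Finset ℕ} {sp : ℕ → Finset Λ} {s : St Λ κ} {P : Bld532.Par}
  {W : ℕ → ℝ} {U : ℕ → Finset ℕ} {CL C1 c₀ : ℝ} {p₁ : ℕ}

open Classical in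
/-- pairs of a column which are left over -/
noncomputable def KR (D : Par Λ κ) (ρ : ℕ → ℝ) (Al : Finset ℕ) (n p : ℕ) (M b pr c : ℕ) (t : IT)
    (A : Finset Λ) (M' b' pr' c' : ℕ) (t' : IT) (A' : Finset Λ) (Qf : ℕ × ℕ → Prop) :
    Finset (ℕ × ℕ) :=
  (Qi D Al t A ×ˢ Qi D Al t' A').filter (fun e =>
    0 < D.iF (Ro (D.rho p)) (D.uA M b pr t A c) (D.uA M' b' pr' t' A' c') e ∧
    (Dq ρ M b pr c M' b' pr' c' e ≤ 1/2^n ∧ (ESI D.γ ρ M b pr c M' b' pr' c' e ∨ Qf e)))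

/-- the `[F]` pairs of a column: payable or named by `Qf` (758's `PE_FS_lower`) -/
def FSOk (D : Par Λ κ) (ρ : ℕ → ℝ) (n p : ℕ) (M b pr c : ℕ) (t : IT)
    (A : Finset Λ) (M' b' pr' c' : ℕ) (t' : IT) (A' : Finset Λ) (Qf : ℕ × ℕ → Prop) : Prop :=
  ∀ e : ℕ × ℕ, e.1 ∈ t.items → e.2 ∈ t'.items → Dq ρ M b pr c M' b' pr' c' e ≤ 1/2^n →
    0 < D.iF (Ro (D.rho p)) (D.uA M b pr t A c) (D.uA M' b' pr' t' A' c') e →
    FSI D.γ ρ n M b pr c M' b' pr' c' e →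
    1 < 2 * ((rf (e.1 / pr) M : ℝ) * rf (e.2 / pr') M')^10 * Dq ρ M b pr c M' b' pr' c' e ∨ Qf e

open Classical in
/-- **A COLUMN**: left side below a tie, right side at any node -/
theorem col_node (hk : CK CL C1 (1 / (2 * c₀)) p₁) {p n : ℕ} (hni : NI D ρ Al P W U CL C1 c₀ p)
    (hCL : 0 ≤ CL) (hp : p₁ ≤ p) (hn : n = ⌊1/4 * Real.log p / Real.log 2⌋₊)
    {u : NS} {t₁ t₀ : IT} {M G N : ℕ} {A : Finset Λ} {O O' : Finset ℕ} {d : DT Λ κ}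
    (h : SideI D sp u.B u.A (.br p t₁ t₀) A d) (q1 : NQ P W U u (.br p t₁ t₀))
    (hL : NSd D Al CL c₀ p u (.br p t₁ t₀) A) (sqM : Squarefree M)
    (mL : MS N u.A (IT.br p t₁ t₀).items M O') (geM : ∀ l : ℕ, l.Prime → l ∣ M → p ≤ l)
    (hs : ∑ l ∈ O', (l:ℝ)^(-(11/12):ℝ) ≤ 1) (hG : 0 < G)
    (tL : ∀ z : ℝ, (p:ℝ) ≤ z → ∀ q ∈ Qi D Al t₀ A, ClsB.Tame z G (q / u.A / M.gcd (q / u.A)))
    {M' b' pr' c' N' : ℕ} {τ' : IT} {A' : Finset Λ} (hb' : 0 < b') (hF' : Fit b' pr' τ')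
    (hW' : D.Wts pr' τ') (hc' : c' ∣ b') (sqM' : Squarefree M') (mR : MS N' pr' τ'.items M' O)
    (geM' : ∀ l : ℕ, l.Prime → l ∣ M' → p ≤ l) (hs' : ∑ l ∈ O, (l:ℝ)^(-(11/12):ℝ) ≤ 1)
    (tR : ∀ z : ℝ, (p:ℝ) ≤ z → ∀ q ∈ Qi D Al τ' A', ClsB.Tame z G (q / pr' / M'.gcd (q / pr')))
    (lR : ∀ q ∈ Qi D Al τ' A', 1 ≤ CL * Real.log p * tq (q / pr'))
    (xR : ∑ q ∈ Qi D Al τ' A', rd b' c' ρ q * tq (q / pr') ≤ (Real.log p)^C1) {Φ' Ψ' : ℝ}
    (mW : ∑ q ∈ Qi D Al τ' A', rd b' c' ρ q * tq (q / pr') ≤ 1 / (2 * c₀) * Φ')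
    (mH : ∑ q ∈ Qi D Al τ' A', om O q * (rd b' c' ρ q * tq (q / pr')) ≤ 1 / (2 * c₀) * Ψ')
    (hΦ' : 0 ≤ Φ') (hΨ' : 0 ≤ Ψ') {Qf : ℕ × ℕ → Prop}
    (hFS : FSOk D ρ n p M (u.B * p) u.A p t₀ A M' b' pr' c' τ' A' Qf) :
    ∑ e ∈ D.PE (Ro (D.rho p)) (D.uA M (u.B * p) u.A t₀ A p) (D.uA M' b' pr' τ' A' c'),
      D.iF (Ro (D.rho p)) (D.uA M (u.B * p) u.A t₀ A p) (D.uA M' b' pr' τ' A' c') e ≤
      ((p:ℝ)^(-(11/12):ℝ) * Φ' + (p:ℝ)^(-(1/6000):ℝ) *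
        ((∑ j ∈ A.filter (fun j => D.it j ∈ t₀.items), mI d j) + Ψ')) +
      ∑ e ∈ KR D ρ Al n p M (u.B * p) u.A p t₀ A M' b' pr' c' τ' A' Qf,
        D.iF (Ro (D.rho p)) (D.uA M (u.B * p) u.A t₀ A p) (D.uA M' b' pr' τ' A' c') e := by
  classical
  have hpp : p.Prime := h.hF.1
  have hp0 : 0 < p := hpp.pos
  have hL0 := h.br₀
  have hM0 : 0 < M := mL.pos
  have hM0' : 0 < M' := mR.pos
  have hc0' : 0 < c' := Nat.pos_of_dvd_of_pos hc' hb'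
  obtain ⟨H, eM, hH, dH, -, pO⟩ := mL
  obtain ⟨H', eM', hH', dH', -, pO'⟩ := mR
  set F : ℕ × ℕ → ℝ := D.iF (Ro (D.rho p)) (D.uA M (u.B * p) u.A t₀ A p)
    (D.uA M' b' pr' τ' A' c') with hFdef
  have hF0 : ∀ e, 0 ≤ F e := fun e => D.iF_nonneg _
    (fun j y => (PB_uA hM0 hL0.hb hL0.hF hL0.hW (Dvd.intro_left u.B rfl) j).nonneg y)
    (fun j y => (PB_uA hM0' hb' hF' hW' hc' j).nonneg y) e
  have mnn : ∀ (d : DT Λ κ), d.g.Ok → ∀ j, 0 ≤ mI d j := fun d hd j => by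
    unfold mI
    exact I_nonneg fun x => (hd.pb j).nonneg x
  have okL : d.g.Ok := by rw [h.eq, D.toDT_g]; exact D.toG_Ok h.hb h.hF h.hW
  have nΦ : 0 ≤ ∑ j ∈ A.filter (fun j => D.it j ∈ t₀.items), mI d j :=
    Finset.sum_nonneg fun j _ => mnn _ okL j
  refine (Finset.sum_le_sum_of_subset_of_nonneg (PE_sub hni.dead hM0 hM0' hL0.hb hb' hL0.hF
    hF' hL0.hW hW' (Dvd.intro_left u.B rfl) hc' _ _ _)
    fun e _ _ => hF0 e).trans ?_
  have sqL : ∀ q ∈ (IT.br p t₁ t₀).items, Squarefree q := fun q hq => (q1.2 q hq).1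
  have itL : ∀ q ∈ Qi D Al t₀ A, q ∈ (IT.br p t₁ t₀).items := fun q hq =>
    Finset.mem_union_right _ (mem_Qi.1 hq).1
  have pfO : (∏ l ∈ O, l).primeFactors = O := Nat.primeFactors_prod fun l hl => (pO' l hl).1
  have pfO' : (∏ l ∈ O', l).primeFactors = O' := Nat.primeFactors_prod fun l hl => (pO l hl).1
  have key := k_core hk D (F := F) (n := n) (p := p) (G := G) (H := H) (M₀ := ∏ l ∈ O', l)
    (b := u.B * p) (pr := u.A) (c := p) (H' := H') (M₀' := ∏ l ∈ O, l) (b' := b') (pr' := pr')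
    (c' := c') (V := Qi D Al t₀ A) (W := Qi D Al τ' A')
    (Φ := ∑ j ∈ A.filter (fun j => D.it j ∈ t₀.items), mI d j) (Φ' := Φ') (Ψ' := Ψ')
    hCL hp hn hG hni.rad.pos hL0.hb hp0 hb' hc0'
    (sqM.squarefree_of_dvd (eM ▸ Dvd.intro_left _ rfl))
    (sqM'.squarefree_of_dvd (eM' ▸ Dvd.intro_left _ rfl))
    (fun l hl hd => geM l hl (hd.trans (eM ▸ Dvd.intro_left _ rfl)))
    (fun l hl hd => geM' l hl (hd.trans (eM' ▸ Dvd.intro_left _ rfl)))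
    (by rw [pfO']; exact hs) (by rw [pfO]; exact hs') hH hH'
    (fun q hq => ⟨(hL0.hF.item q (mem_Qi.1 hq).1).1, (hL0.hF.item q (mem_Qi.1 hq).1).2.1,
      dH q (itL q hq)⟩)
    (fun q hq => ⟨(hF'.item q (mem_Qi.1 hq).1).1, (hF'.item q (mem_Qi.1 hq).1).2.1,
      dH' q (mem_Qi.1 hq).1⟩)
    (by rw [← eM]; exact tL) (by rw [← eM']; exact tR)
    (fun q hq => hL.lg q (mem_Qi.1 hq).2.1 (itL q hq)) lR
    (fun e he => by
      obtain ⟨h1, h2⟩ := Finset.mem_product.1 he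
      rw [← eM, ← eM']
      exact iF_le hni.rad hM0 hM0' hL0.hb hb' hL0.hF hF' hL0.hW hW'
        (Dvd.intro_left u.B rfl) hc' _ _ _ e (mem_Qi.1 h1).1 (mem_Qi.1 h2).1)
    (Qf := Qf)
    (fun e he h1 h2 h3 => by
      obtain ⟨k1, k2⟩ := Finset.mem_product.1 he
      rw [← eM, ← eM'] at h1 h3 ⊢
      exact hFS e (mem_Qi.1 k1).1 (mem_Qi.1 k2).1 h1 h2 h3)
    ((share_le q1.1 sqL hni.W0 hni.Wρ hni.sg0 A).trans hni.sg) xR
    (mass_sum hni.ab h sqL hni.c0 hL.mean hni.full hL.il (mnn _ okL)) mW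
    (by rw [pfO]; exact mH) nΦ hΦ' hΨ'
  rw [← eM, ← eM'] at key
  refine key.trans (le_of_eq ?_)
  unfold KR
  rw [← hFdef]

lemma ms_sub {n pr : ℕ} {S S' : Finset ℕ} {M : ℕ} {O : Finset ℕ} (h : MS n pr S M O) (hS : S' ⊆ S) :
    MS n pr S' M O := by
  obtain ⟨G, h1, h2, h3, h4, h5⟩ := h
  exact ⟨G, h1, h2, fun q hq => h3 q (hS hq), h4, h5⟩

lemma mI_nn {b pr : ℕ} {t : IT} {A : Finset Λ} {d : DT Λ κ} (h : SideI D sp b pr t A d) (j : Λ) :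
    0 ≤ mI d j := by
  have ok : d.g.Ok := by rw [h.eq, D.toDT_g]; exact D.toG_Ok h.hb h.hF h.hW
  unfold mI
  exact I_nonneg fun x => (ok.pb j).nonneg x

open Classical in
/-- **NEAR MISSES OF A STATE**, final form: generic part + `[E]` pairs (+ named pairs) -/
theorem nm_state3 (hk : CK CL C1 (1 / (2 * c₀)) p₁) {p n : ℕ} (hni : NI D ρ Al P W U CL C1 c₀ p)
    {u u' : NS} {t₁ t₀ t₁' t₀' : IT}
    (h : StI D sp s u.B u.A (.br p t₁ t₀) u'.B u'.A (.br p t₁' t₀'))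
    (hI : IS D sp P W U s u u' (.br p t₁ t₀) (.br p t₁' t₀'))
    (hL : NSd D Al CL c₀ p u (.br p t₁ t₀) s.A) (hR : NSd D Al CL c₀ p u' (.br p t₁' t₀') s.A')
    (hCL : 0 ≤ CL)
    (hp : p₁ ≤ p) (hn : n = ⌊1/4 * Real.log p / Real.log 2⌋₊)
    {stp : St Λ κ → Prop} (hM : Squarefree s.M) (hM' : Squarefree s.M') {N N' : ℕ}
    (mL : MS N u.A (IT.br p t₁ t₀).items s.M s.O') (mR : MS N' u'.A (IT.br p t₁' t₀').items s.M' s.O)
    (hst : ¬ stp s → ∑ l ∈ s.O, (l:ℝ)^(-(11/12):ℝ) ≤ 1 ∧ ∑ l ∈ s.O', (l:ℝ)^(-(11/12):ℝ) ≤ 1)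
    {Qf : ℕ × ℕ → Prop}
    (hFS : FSOk D ρ n p s.M (u.B * p) u.A p t₀ s.A s.M' (u'.B * p) u'.A p t₀' s.A' Qf) :
    eNM stp s ≤ (p:ℝ)^(-(1/7000):ℝ) *
        ((∑ j ∈ s.A.filter (fun j => D.it j ∈ t₀.items), mI s.t j) +
          ∑ j ∈ s.A'.filter (fun j => D.it j ∈ t₀'.items), mI s.t' j) +
      ∑ e ∈ KR D ρ Al n p s.M (u.B * p) u.A p t₀ s.A s.M' (u'.B * p) u'.A p t₀' s.A' Qf,
        D.iF (Ro (D.rho p)) (D.uA s.M (u.B * p) u.A t₀ s.A p)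
          (D.uA s.M' (u'.B * p) u'.A t₀' s.A' p) e := by
  classical
  have hL0 := h.L.br₀
  have hR0 := h.R.br₀
  have hp0 : 0 < p := h.L.hF.1.pos
  have hF0 : ∀ e, 0 ≤ D.iF (Ro (D.rho p)) (D.uA s.M (u.B * p) u.A t₀ s.A p)
      (D.uA s.M' (u'.B * p) u'.A t₀' s.A' p) e := fun e => D.iF_nonneg _
    (fun j y => (PB_uA h.M0 hL0.hb hL0.hF hL0.hW (Dvd.intro_left u.B rfl) j).nonneg y)
    (fun j y => (PB_uA h.M0' hR0.hb hR0.hF hR0.hW (Dvd.intro_left u'.B rfl) j).nonneg y) e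
  have nΦ : 0 ≤ ∑ j ∈ s.A.filter (fun j => D.it j ∈ t₀.items), mI s.t j :=
    Finset.sum_nonneg fun j _ => mI_nn h.L j
  have nΦ' : 0 ≤ ∑ j ∈ s.A'.filter (fun j => D.it j ∈ t₀'.items), mI s.t' j :=
    Finset.sum_nonneg fun j _ => mI_nn h.R j
  have hrest : 0 ≤ ∑ e ∈ KR D ρ Al n p s.M (u.B * p) u.A p t₀ s.A s.M' (u'.B * p) u'.A p t₀' s.A' Qf,
        D.iF (Ro (D.rho p)) (D.uA s.M (u.B * p) u.A t₀ s.A p)
          (D.uA s.M' (u'.B * p) u'.A t₀' s.A' p) e := Finset.sum_nonneg fun e _ => hF0 e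
  by_cases hstp : stp s
  · have e0 : eNM stp s = 0 := by
      unfold eNM
      split_ifs <;> rfl
    rw [e0]
    have : 0 ≤ (p:ℝ)^(-(1/7000):ℝ) := by positivity
    have := mul_nonneg this (add_nonneg nΦ nΦ')
    linarith
  obtain ⟨hs, hs'⟩ := hst hstp
  refine (eNM_le_iF h stp).trans ?_
  obtain ⟨G, hG, tL, tR⟩ := hI.tame h.M0 h.M0'
  have q1 := hI.qL.1
  have q2 := hI.qR.1
  have top1 := top_of_nodeOk q1.1 (id : ¬ isL (.br p t₁ t₀))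
  have lev : ∀ z : ℝ, (p:ℝ) ≤ z → ∀ l : ℕ, l.Prime → z < l → u.n ≤ l := by
    intro z hz l hl hzl
    by_contra hc
    push Not at hc
    have h3 : l ≤ p := top1.2.2 l hl hc
    have : (l:ℝ) ≤ p := by exact_mod_cast h3
    linarith
  have sqR : ∀ q ∈ (IT.br p t₁' t₀').items, Squarefree q := fun q hq => (q2.2 q hq).1
  have itL : ∀ q ∈ Qi D Al t₀ s.A, q ∈ (IT.br p t₁ t₀).items := fun q hq =>
    Finset.mem_union_right _ (mem_Qi.1 hq).1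
  have itR : ∀ q ∈ Qi D Al t₀' s.A', q ∈ (IT.br p t₁' t₀').items := fun q hq =>
    Finset.mem_union_right _ (mem_Qi.1 hq).1
  have hp16 : 16 ≤ p := hk.big.trans hp
  have hp1 : (1:ℝ) ≤ p := by exact_mod_cast (by omega : 1 ≤ p)
  have hlog : 0 ≤ (Real.log p)^C1 := Real.rpow_nonneg (Real.log_nonneg hp1) _
  have omle : ∀ q, om s.O q ≤ 1 := fun q => om_le_one (fun l hl => by
    obtain ⟨-, -, -, -, -, h5⟩ := mR
    exact (h5 l hl).1.pos) q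
  have mR' := mass_sum hni.ab h.R sqR hni.c0 hR.mean hni.full hR.il (mI_nn h.R)
  have key := col_node hk hni hCL hp hn (O := s.O) (O' := s.O') (N := N) (N' := N')
    h.L q1 hL hM mL
    (fun l hl hd => (top1.2.1.le).trans (hI.geM l hl hd)) hs' hG
    (fun z hz q hq => by
      obtain ⟨h1, h2, j, hj, rfl⟩ := mem_Qi.1 hq
      exact tL j hj (itL _ hq) z (lev z hz) (hni.U _ h2 z hz))
    (τ' := t₀') (A' := s.A') (M' := s.M') (b' := u'.B * p) (pr' := u'.A) (c' := p)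
    hR0.hb hR0.hF hR0.hW (Dvd.intro_left u'.B rfl) hM'
    (ms_sub mR (fun q hq => Finset.mem_union_right _ hq))
    (fun l hl hd => (top1.2.1.le).trans (hI.geM' l hl hd)) hs
    (fun z hz q hq => by
      obtain ⟨h1, h2, j, hj, rfl⟩ := mem_Qi.1 hq
      exact tR j hj (itR _ hq) z (lev z hz) (hni.U _ h2 z hz))
    (fun q hq => hR.lg q (mem_Qi.1 hq).2.1 (itR q hq))
    (((share_le q2.1 sqR hni.W0 hni.Wρ hni.sg0 s.A').trans hni.sg).trans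
      (div_le_self hlog hp1))
    (Φ' := ∑ j ∈ s.A'.filter (fun j => D.it j ∈ t₀'.items), mI s.t' j)
    (Ψ' := ∑ j ∈ s.A'.filter (fun j => D.it j ∈ t₀'.items), mI s.t' j)
    mR'
    (le_trans (Finset.sum_le_sum fun q hq => mul_le_of_le_one_left (mul_nonneg
      (mul_nonneg (by positivity) (hni.rad.pos q).le) (tq_nonneg _)) (omle q)) mR')
    nΦ' nΦ' hFS
  refine key.trans (add_le_add ?_ le_rfl)
  have i1 : (p:ℝ)^(-(11/12):ℝ) ≤ (p:ℝ)^(-(1/6000):ℝ) :=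
    Real.rpow_le_rpow_of_exponent_le hp1 (by norm_num)
  have i2 := hk.n3 p hp
  have i3 : 0 ≤ (p:ℝ)^(-(1/6000):ℝ) := by positivity
  have i4 := mul_le_mul_of_nonneg_right i1 nΦ'
  have i5 := mul_le_mul_of_nonneg_right i2 (add_nonneg nΦ nΦ')
  nlinarith [mul_nonneg i3 nΦ]

open Classical in
/-- **ONE-SIDED COLUMN OF A STATE, left tie** -/
theorem os_state3 (hk : CK CL C1 (1 / (2 * c₀)) p₁) {p n : ℕ} (hni : NI D ρ Al P W U CL C1 c₀ p)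
    {u u' : NS} {t₁ t₀ τ' : IT}
    (h : StI D sp s u.B u.A (.br p t₁ t₀) u'.B u'.A τ') (hB : Blw p τ')
    (hI : IS D sp P W U s u u' (.br p t₁ t₀) τ')
    (hL : NSd D Al CL c₀ p u (.br p t₁ t₀) s.A) (hR : NSd D Al CL c₀ p u' τ' s.A')
    (hhi : u'.c * Ws W τ'.items ≤ (Real.log p)^C1)
    (hCL : 0 ≤ CL)
    (hp : p₁ ≤ p) (hn : n = ⌊1/4 * Real.log p / Real.log 2⌋₊)
    {stp : St Λ κ → Prop} (hM : Squarefree s.M) (hM' : Squarefree s.M') {N N' : ℕ}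
    (mL : MS N u.A (IT.br p t₁ t₀).items s.M s.O') (mR : MS N' u'.A τ'.items s.M' s.O)
    (hst : ¬ stp s → ∑ l ∈ s.O, (l:ℝ)^(-(11/12):ℝ) ≤ 1 ∧ ∑ l ∈ s.O', (l:ℝ)^(-(11/12):ℝ) ≤ 1)
    {Qf : ℕ × ℕ → Prop}
    (hFS : FSOk D ρ n p s.M (u.B * p) u.A p t₀ s.A s.M' u'.B u'.A 1 τ' s.A' Qf) :
    eOS stp s ≤ ((p:ℝ)^(-(11/12):ℝ) * (∑ j ∈ s.A'.filter (fun j => D.it j ∈ τ'.items), mI s.t' j) +
        (p:ℝ)^(-(1/6000):ℝ) * ((∑ j ∈ s.A.filter (fun j => D.it j ∈ t₀.items), mI s.t j) +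
          ∑ j ∈ s.A'.filter (fun j => D.it j ∈ τ'.items), om s.O (D.it j) * mI s.t' j)) +
      ∑ e ∈ KR D ρ Al n p s.M (u.B * p) u.A p t₀ s.A s.M' u'.B u'.A 1 τ' s.A' Qf,
        D.iF (Ro (D.rho p)) (D.uA s.M (u.B * p) u.A t₀ s.A p)
          (D.uA s.M' u'.B u'.A τ' s.A' 1) e := by
  classical
  have hL0 := h.L.br₀
  have hF0 : ∀ e, 0 ≤ D.iF (Ro (D.rho p)) (D.uA s.M (u.B * p) u.A t₀ s.A p)
      (D.uA s.M' u'.B u'.A τ' s.A' 1) e := fun e => D.iF_nonneg _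
    (fun j y => (PB_uA h.M0 hL0.hb hL0.hF hL0.hW (Dvd.intro_left u.B rfl) j).nonneg y)
    (fun j y => (PB_uA h.M0' h.R.hb h.R.hF h.R.hW (one_dvd _) j).nonneg y) e
  have nΦ : 0 ≤ ∑ j ∈ s.A.filter (fun j => D.it j ∈ t₀.items), mI s.t j :=
    Finset.sum_nonneg fun j _ => mI_nn h.L j
  have nΦ' : 0 ≤ ∑ j ∈ s.A'.filter (fun j => D.it j ∈ τ'.items), mI s.t' j :=
    Finset.sum_nonneg fun j _ => mI_nn h.R j
  have nΨ' : 0 ≤ ∑ j ∈ s.A'.filter (fun j => D.it j ∈ τ'.items), om s.O (D.it j) * mI s.t' j :=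
    Finset.sum_nonneg fun j _ => mul_nonneg (om_nonneg _ _) (mI_nn h.R j)
  have hrest : 0 ≤ ∑ e ∈ KR D ρ Al n p s.M (u.B * p) u.A p t₀ s.A s.M' u'.B u'.A 1 τ' s.A' Qf,
        D.iF (Ro (D.rho p)) (D.uA s.M (u.B * p) u.A t₀ s.A p)
          (D.uA s.M' u'.B u'.A τ' s.A' 1) e := Finset.sum_nonneg fun e _ => hF0 e
  by_cases hstp : stp s
  · have e0 : eOS stp s = 0 := by
      unfold eOS
      split_ifs <;> rfl
    rw [e0]
    positivity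
  obtain ⟨hs, hs'⟩ := hst hstp
  refine (eOS_le_iF h hB stp).trans ?_
  obtain ⟨G, hG, tL, tR⟩ := hI.tame h.M0 h.M0'
  have q1 := hI.qL.1
  have q2 := hI.qR.self
  have top1 := top_of_nodeOk q1.1 (id : ¬ isL (.br p t₁ t₀))
  have lev : ∀ z : ℝ, (p:ℝ) ≤ z → ∀ l : ℕ, l.Prime → z < l → u.n ≤ l := by
    intro z hz l hl hzl
    by_contra hc
    push Not at hc
    have h3 : l ≤ p := top1.2.2 l hl hc
    have : (l:ℝ) ≤ p := by exact_mod_cast h3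
    linarith
  have sqR : ∀ q ∈ τ'.items, Squarefree q := fun q hq => (q2.2 q hq).1
  have itL : ∀ q ∈ Qi D Al t₀ s.A, q ∈ (IT.br p t₁ t₀).items := fun q hq =>
    Finset.mem_union_right _ (mem_Qi.1 hq).1
  exact col_node hk hni hCL hp hn (O := s.O) (O' := s.O') (N := N) (N' := N')
    h.L q1 hL hM mL
    (fun l hl hd => (top1.2.1.le).trans (hI.geM l hl hd)) hs' hG
    (fun z hz q hq => by
      obtain ⟨h1, h2, j, hj, rfl⟩ := mem_Qi.1 hq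
      exact tL j hj (itL _ hq) z (lev z hz) (hni.U _ h2 z hz))
    (τ' := τ') (A' := s.A') (M' := s.M') (b' := u'.B) (pr' := u'.A) (c' := 1)
    h.R.hb h.R.hF h.R.hW (one_dvd _) hM' mR
    (fun l hl hd => (top1.2.1.le).trans (hI.geM' l hl hd)) hs
    (fun z hz q hq => by
      obtain ⟨h1, h2, j, hj, rfl⟩ := mem_Qi.1 hq
      exact tR j hj h1 z (lev z hz) (hni.U _ h2 z hz))
    (fun q hq => hR.lg q (mem_Qi.1 hq).2.1 (mem_Qi.1 hq).1)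
    ((share_node (bk_of_nodeOk q2.1) sqR hni.W0 hni.Wρ s.A').trans hhi)
    (Φ' := ∑ j ∈ s.A'.filter (fun j => D.it j ∈ τ'.items), mI s.t' j)
    (Ψ' := ∑ j ∈ s.A'.filter (fun j => D.it j ∈ τ'.items), om s.O (D.it j) * mI s.t' j)
    (by
      have := mass_node hni.ab h.R sqR hni.c0 hR.mean hni.full hR.il (mI_nn h.R) (f := fun _ => 1)
        (fun _ => zero_le_one)
      simpa only [one_mul] using this)
    (mass_node hni.ab h.R sqR hni.c0 hR.mean hni.full hR.il (mI_nn h.R)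
      (f := fun q => om s.O q) (fun _ => om_nonneg _ _))
    nΦ' nΨ' hFS

open Classical in
/-- **ONE-SIDED COLUMN OF A STATE, right tie** -/
theorem os_state3' (hk : CK CL C1 (1 / (2 * c₀)) p₁) {p n : ℕ} (hni : NI D ρ Al P W U CL C1 c₀ p)
    {u u' : NS} {τ t₁' t₀' : IT}
    (h : StI D sp s u.B u.A τ u'.B u'.A (.br p t₁' t₀')) (hB : Blw p τ)
    (hI : IS D sp P W U s u u' τ (.br p t₁' t₀'))
    (hL : NSd D Al CL c₀ p u τ s.A) (hR : NSd D Al CL c₀ p u' (.br p t₁' t₀') s.A')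
    (hhi : u.c * Ws W τ.items ≤ (Real.log p)^C1)
    (hCL : 0 ≤ CL)
    (hp : p₁ ≤ p) (hn : n = ⌊1/4 * Real.log p / Real.log 2⌋₊)
    {stp : St Λ κ → Prop} (hM : Squarefree s.M) (hM' : Squarefree s.M') {N N' : ℕ}
    (mL : MS N u.A τ.items s.M s.O') (mR : MS N' u'.A (IT.br p t₁' t₀').items s.M' s.O)
    (hst : ¬ stp s → ∑ l ∈ s.O, (l:ℝ)^(-(11/12):ℝ) ≤ 1 ∧ ∑ l ∈ s.O', (l:ℝ)^(-(11/12):ℝ) ≤ 1)
    {Qf : ℕ × ℕ → Prop}
    (hFS : FSOk D ρ n p s.M' (u'.B * p) u'.A p t₀' s.A' s.M u.B u.A 1 τ s.A Qf) :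
    eOS stp s ≤ ((p:ℝ)^(-(11/12):ℝ) * (∑ j ∈ s.A.filter (fun j => D.it j ∈ τ.items), mI s.t j) +
        (p:ℝ)^(-(1/6000):ℝ) * ((∑ j ∈ s.A'.filter (fun j => D.it j ∈ t₀'.items), mI s.t' j) +
          ∑ j ∈ s.A.filter (fun j => D.it j ∈ τ.items), om s.O' (D.it j) * mI s.t j)) +
      ∑ e ∈ KR D ρ Al n p s.M' (u'.B * p) u'.A p t₀' s.A' s.M u.B u.A 1 τ s.A Qf,
        D.iF (Ro (D.rho p)) (D.uA s.M' (u'.B * p) u'.A t₀' s.A' p)
          (D.uA s.M u.B u.A τ s.A 1) e := by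
  classical
  have hR0 := h.R.br₀
  have hF0 : ∀ e, 0 ≤ D.iF (Ro (D.rho p)) (D.uA s.M' (u'.B * p) u'.A t₀' s.A' p)
      (D.uA s.M u.B u.A τ s.A 1) e := fun e => D.iF_nonneg _
    (fun j y => (PB_uA h.M0' hR0.hb hR0.hF hR0.hW (Dvd.intro_left u'.B rfl) j).nonneg y)
    (fun j y => (PB_uA h.M0 h.L.hb h.L.hF h.L.hW (one_dvd _) j).nonneg y) e
  have nΦ : 0 ≤ ∑ j ∈ s.A'.filter (fun j => D.it j ∈ t₀'.items), mI s.t' j :=
    Finset.sum_nonneg fun j _ => mI_nn h.R j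
  have nΦ' : 0 ≤ ∑ j ∈ s.A.filter (fun j => D.it j ∈ τ.items), mI s.t j :=
    Finset.sum_nonneg fun j _ => mI_nn h.L j
  have nΨ' : 0 ≤ ∑ j ∈ s.A.filter (fun j => D.it j ∈ τ.items), om s.O' (D.it j) * mI s.t j :=
    Finset.sum_nonneg fun j _ => mul_nonneg (om_nonneg _ _) (mI_nn h.L j)
  have hrest : 0 ≤ ∑ e ∈ KR D ρ Al n p s.M' (u'.B * p) u'.A p t₀' s.A' s.M u.B u.A 1 τ s.A Qf,
        D.iF (Ro (D.rho p)) (D.uA s.M' (u'.B * p) u'.A t₀' s.A' p)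
          (D.uA s.M u.B u.A τ s.A 1) e := Finset.sum_nonneg fun e _ => hF0 e
  by_cases hstp : stp s
  · have e0 : eOS stp s = 0 := by
      unfold eOS
      split_ifs <;> rfl
    rw [e0]
    positivity
  obtain ⟨hs, hs'⟩ := hst hstp
  refine (eOS_le_iF' h hB stp).trans ?_
  obtain ⟨G, hG, tL, tR⟩ := hI.tame h.M0 h.M0'
  have q1 := hI.qR.1
  have q2 := hI.qL.self
  have top1 := top_of_nodeOk q1.1 (id : ¬ isL (.br p t₁' t₀'))
  have lev : ∀ z : ℝ, (p:ℝ) ≤ z → ∀ l : ℕ, l.Prime → z < l → u.n ≤ l := by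
    intro z hz l hl hzl
    rw [hI.n_eq]
    by_contra hc
    push Not at hc
    have h3 : l ≤ p := top1.2.2 l hl hc
    have : (l:ℝ) ≤ p := by exact_mod_cast h3
    linarith
  have lepn : p ≤ u.n := by rw [hI.n_eq]; exact top1.2.1.le
  have sqL : ∀ q ∈ τ.items, Squarefree q := fun q hq => (q2.2 q hq).1
  have itR : ∀ q ∈ Qi D Al t₀' s.A', q ∈ (IT.br p t₁' t₀').items := fun q hq =>
    Finset.mem_union_right _ (mem_Qi.1 hq).1
  exact col_node hk hni hCL hp hn (O := s.O') (O' := s.O) (N := N') (N' := N)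
    h.R q1 hR hM' mR
    (fun l hl hd => lepn.trans (hI.geM' l hl hd)) hs hG
    (fun z hz q hq => by
      obtain ⟨h1, h2, j, hj, rfl⟩ := mem_Qi.1 hq
      exact tR j hj (itR _ hq) z (lev z hz) (hni.U _ h2 z hz))
    (τ' := τ) (A' := s.A) (M' := s.M) (b' := u.B) (pr' := u.A) (c' := 1)
    h.L.hb h.L.hF h.L.hW (one_dvd _) hM mL
    (fun l hl hd => lepn.trans (hI.geM l hl hd)) hs'
    (fun z hz q hq => by
      obtain ⟨h1, h2, j, hj, rfl⟩ := mem_Qi.1 hq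
      exact tL j hj h1 z (lev z hz) (hni.U _ h2 z hz))
    (fun q hq => hL.lg q (mem_Qi.1 hq).2.1 (mem_Qi.1 hq).1)
    ((share_node (bk_of_nodeOk q2.1) sqL hni.W0 hni.Wρ s.A).trans hhi)
    (Φ' := ∑ j ∈ s.A.filter (fun j => D.it j ∈ τ.items), mI s.t j)
    (Ψ' := ∑ j ∈ s.A.filter (fun j => D.it j ∈ τ.items), om s.O' (D.it j) * mI s.t j)
    (by
      have := mass_node hni.ab h.L sqL hni.c0 hL.mean hni.full hL.il (mI_nn h.L) (f := fun _ => 1)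
        (fun _ => zero_le_one)
      simpa only [one_mul] using this)
    (mass_node hni.ab h.L sqL hni.c0 hL.mean hni.full hL.il (mI_nn h.L)
      (f := fun q => om s.O' q) (fun _ => om_nonneg _ _))
    nΦ' nΨ' hFS

end state

end Crest.Agent.R4.ColW710
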