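import Crest.Agent.R4.GSt927
import Crest.Agent.R4.GEv812
import Crest.Agent.R4.IMI194

/-!
# R4 (S0004), module G, helper927: G-FINAL for the `[E]` part of the NM columns

`GN` = what the walk / world / arithmetic modules supply per state (both sides ties at the same
column): local cost = exact energies of a set `EB` of `[E]` pairs + small parts of the missing
masses, one-sided columns small (`xs`), every pair with raising factors one is critical or small,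
critical again is an event. `J` = further invariant of the states (e.g. `GStJ927.JS`).
`gfin_NM` : walk sum `≤ ∑_{j ∈ A} m_j (1 + κ_j) + ∑_{j ∈ A'} m_j κ'_j`.
-/

set_option autoImplicit false
set_option linter.unusedSectionVars false
set_option linter.unusedVariables false
set_option linter.unusedSimpArgs false

namespace Crest.Agent.R4.GFin927

open Crest.Agent.R4.Tour104 Crest.Agent.R4.Tour758 Crest.Agent.R4.Avg758 Crest.Agent.R4.Clos758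
open Crest.Agent.R4.ClosL758 Crest.Agent.R4.ClosG758 Crest.Agent.R4.ClosR758
open Crest.Agent.R4.Cnt588 Crest.Agent.R4.Walk560 Crest.Agent.R4.Item758 Crest.Agent.R4.AvgItem710
open Crest.Agent.R4.Bld532 (NS All NodeOk Bk)
open Crest.Agent.R4.AdvWin560 Crest.Agent.R4.AdvWin560.WT Crest.Agent.R4.Own927
open Crest.Agent.R4.Res927 Crest.Agent.R4.GInst194 Crest.Agent.R4.WalkIT579 Crest.Agent.R4.GSt927
open Crest.Agent.R4

/-- data of a pair of tie nodes at one column -/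
structure Dt where
  u : NS
  u' : NS
  p : ℕ
  t₁ : IT
  t₀ : IT
  t₁' : IT
  t₀' : IT

variable {Λ κ : Type*} [Fintype Λ] [DecidableEq Λ] [Fintype κ] [DecidableEq κ] [WRel κ]

/-- the state is a pair of ties with the data `d` -/
def HD (D : Par Λ κ) (sp : ℕ → Finset Λ) (Qp : NS → IT → Prop)
    (J : XSt Λ κ → NS → NS → IT → IT → Prop) (B₀ B₀' : ℕ) (x : XSt Λ κ) (d : Dt) : Prop :=
  HI D sp Qp B₀ B₀' x d.u d.u' (.br d.p d.t₁ d.t₀) (.br d.p d.t₁' d.t₀') ∧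
    J x d.u d.u' (.br d.p d.t₁ d.t₀) (.br d.p d.t₁' d.t₀')

/-- item form, some data -/
def HX (D : Par Λ κ) (sp : ℕ → Finset Λ) (Qp : NS → IT → Prop)
    (J : XSt Λ κ → NS → NS → IT → IT → Prop) (B₀ B₀' : ℕ) (x : XSt Λ κ) : Prop :=
  ∃ u u' τ τ', HI D sp Qp B₀ B₀' x u u' τ τ' ∧ J x u u' τ τ'

/-- exact energy of an item pair at the column -/
noncomputable def FN (D : Par Λ κ) (x : XSt Λ κ) (d : Dt) (e : ℕ × ℕ) : ℝ :=
  D.iF (Ro (D.rho d.p)) (D.uA x.s.M (d.u.B * d.p) d.u.A d.t₀ x.s.A d.p)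
    (D.uA x.s.M' (d.u'.B * d.p) d.u'.A d.t₀' x.s.A' d.p) e

/-- `[E]` pair at the column -/
def EN (D : Par Λ κ) (N : ℝ → ℝ) (ρ : ℕ → ℝ) (x : XSt Λ κ) (d : Dt) (e : ℕ × ℕ) : Prop :=
  EP N D.γ ρ x.s.M (d.u.B * d.p) d.u.A d.p x.s.M' (d.u'.B * d.p) d.u'.A d.p e

open Classical in
/-- the `[E]` pairs of the column with a nonzero energy -/
noncomputable def EE (D : Par Λ κ) (N : ℝ → ℝ) (ρ : ℕ → ℝ) (x : XSt Λ κ) (d : Dt) :
    Finset (ℕ × ℕ) :=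
  (d.t₀.items ×ˢ d.t₀'.items).filter fun e => 0 < FN D x d e ∧ EN D N ρ x d e

/-- raising factors one -/
def R1 (x : XSt Λ κ) (d : Dt) (e : ℕ × ℕ) : Prop :=
  rf (e.1 / d.u.A) x.s.M = 1 ∧ rf (e.2 / d.u'.A) x.s.M' = 1

/-- **hypotheses per state**: `EB` = the `[E]` pairs to be paid -/
structure GN (D : Par Λ κ) (sp : ℕ → Finset Λ) (Qp : NS → IT → Prop)
    (J : XSt Λ κ → NS → NS → IT → IT → Prop) (B₀ B₀' : ℕ)
    (stp : St Λ κ → Prop) (s₀ : St Λ κ) (N : ℝ → ℝ) (ρ : ℕ → ℝ) (loc : XSt Λ κ → ℝ)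
    (EB : XSt Λ κ → Dt → Finset (ℕ × ℕ))
    (EvR EvL : ℕ → ℕ → Finset ℕ → Finset ℕ → Prop)
    (Cr : ℕ → ℕ → ℕ → Finset ℕ → Finset ℕ → Prop) (εx gs : ℕ → ℝ) : Prop where
  εx0 : ∀ p, 0 ≤ εx p
  gs0 : ∀ p, 0 ≤ gs p
  l0 : ∀ x, GI (dvI D) mI s₀ (HX D sp Qp J B₀ B₀') x →
    (stp x.s ∨ ¬ ∃ d, HD D sp Qp J B₀ B₀' x d) → loc x ≤ 0
  sub : ∀ x, GI (dvI D) mI s₀ (HX D sp Qp J B₀ B₀') x → ¬ stp x.s → ∀ d,
    HD D sp Qp J B₀ B₀' x d → EB x d ⊆ EE D N ρ x d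
  l1 : ∀ x, GI (dvI D) mI s₀ (HX D sp Qp J B₀ B₀') x → ¬ stp x.s → ∀ d,
    HD D sp Qp J B₀ B₀' x d → ∃ a a' : ℝ, loc x ≤ ∑ e ∈ EB x d, FN D x d e +
      (a * (∑ j ∈ x.s.A.filter (fun j => D.it j ∈ d.t₀.items), mI x.s.t j) +
      a' * ∑ j ∈ x.s.A'.filter (fun j => D.it j ∈ d.t₀'.items), mI x.s.t' j) ∧
      a + GInst194.xs (∏ l ∈ x.s.O, l) ≤ εx d.p ∧ a' + GInst194.xs (∏ l ∈ x.s.O', l) ≤ εx d.p
  cls : ∀ x, GI (dvI D) mI s₀ (HX D sp Qp J B₀ B₀') x → ¬ stp x.s → ∀ d,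
    HD D sp Qp J B₀ B₀' x d → ∀ e ∈ EB x d, R1 x d e → Cr d.p e.1 e.2 x.u x.u' ∨
      FN D x d e ≤ gs d.p * mq D x.s.t x.s.A e.1 + gs d.p * mq D x.s.t' x.s.A' e.2
  again : ∀ x, GI (dvI D) mI s₀ (HX D sp Qp J B₀ B₀') x → ¬ stp x.s → ∀ d,
    HD D sp Qp J B₀ B₀' x d → ∀ e ∈ EB x d, R1 x d e → ∀ P₁ r₁, d.p < P₁ → P₁ ∈ x.u →
      Cr P₁ e.1 r₁ (x.u.filter (P₁ < ·)) (x.u'.filter (P₁ < ·)) → Cr d.p e.1 e.2 x.u x.u' →
      EvR e.2 d.p x.u x.u' ∨ EvL e.1 d.p x.u' x.u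

section
variable {D : Par Λ κ} {sp : ℕ → Finset Λ} {P : Bld532.Par} {W₀ : ℕ → ℝ} {Qp : NS → IT → Prop}
  {J : XSt Λ κ → NS → NS → IT → IT → Prop} {EB : XSt Λ κ → Dt → Finset (ℕ × ℕ)}
  {B₀ B₀' : ℕ} {stp : St Λ κ → Prop} {s₀ : St Λ κ} {N : ℝ → ℝ} {ρ : ℕ → ℝ} {loc : XSt Λ κ → ℝ}
  {EvR EvL : ℕ → ℕ → Finset ℕ → Finset ℕ → Prop}
  {Cr : ℕ → ℕ → ℕ → Finset ℕ → Finset ℕ → Prop} {εx gs : ℕ → ℝ}

lemma HD.p_eq {x : XSt Λ κ} {d : Dt} (h : HD D sp Qp J B₀ B₀' x d) : x.p = d.p := by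
  have e1 : x.s.t.top = d.p := by rw [h.1.L.eq]; rfl
  have e2 : x.s.t'.top = d.p := by rw [h.1.R.eq]; rfl
  show max x.s.t.top x.s.t'.top = d.p
  rw [e1, e2, max_self]

open Classical in
/-- the critical pairs of a state at a level -/
noncomputable def KN (D : Par Λ κ) (sp : ℕ → Finset Λ) (Qp : NS → IT → Prop)
    (J : XSt Λ κ → NS → NS → IT → IT → Prop) (B₀ B₀' : ℕ)
    (stp : St Λ κ → Prop) (EB : XSt Λ κ → Dt → Finset (ℕ × ℕ))
    (Cr : ℕ → ℕ → ℕ → Finset ℕ → Finset ℕ → Prop) (x : XSt Λ κ) (P : ℕ) : Finset (ℕ × ℕ) :=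
  if h : ¬ stp x.s ∧ P = x.p ∧ ∃ d, HD D sp Qp J B₀ B₀' x d then
    (EB x h.2.2.choose).filter fun e => R1 x h.2.2.choose e ∧
      Cr h.2.2.choose.p e.1 e.2 x.u x.u' ∧ mL mI D.it x e.1 ≠ 0 ∧ mR mI D.it x e.2 ≠ 0
  else ∅

lemma mem_KN {x : XSt Λ κ} {P : ℕ} {e : ℕ × ℕ} (h : e ∈ KN D sp Qp J B₀ B₀' stp EB Cr x P) :
    ¬ stp x.s ∧ P = x.p ∧ ∃ d, HD D sp Qp J B₀ B₀' x d ∧ d.p = P ∧
      (∀ e' ∈ KN D sp Qp J B₀ B₀' stp EB Cr x P, e' ∈ EB x d ∧ R1 x d e' ∧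
        Cr P e'.1 e'.2 x.u x.u' ∧ mL mI D.it x e'.1 ≠ 0 ∧ mR mI D.it x e'.2 ≠ 0) := by
  classical
  unfold KN at h
  split_ifs at h with hc
  · have hd := hc.2.2.choose_spec
    refine ⟨hc.1, hc.2.1, hc.2.2.choose, hd, by rw [← hd.p_eq, hc.2.1], fun e' he' => ?_⟩
    unfold KN at he'
    rw [dif_pos hc] at he'
    obtain ⟨h1, h2, h3, h4⟩ := Finset.mem_filter.1 he'
    refine ⟨h1, h2, ?_, h4⟩
    rw [hc.2.1, hd.p_eq]
    exact h3
  · simp at h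

/-- missing ties of an item in the start tree -/
def Mt (D : Par Λ κ) (t : DT Λ κ) (P q : ℕ) : Prop := ∃ j, D.it j = q ∧ P ∈ mtD (dvI D) j t

lemma EE_items {x : XSt Λ κ} {d : Dt} {e : ℕ × ℕ} (h : e ∈ EE D N ρ x d) :
    e.1 ∈ d.t₀.items ∧ e.2 ∈ d.t₀'.items ∧ 0 < FN D x d e ∧ EN D N ρ x d e := by
  classical
  obtain ⟨h1, h2, h3⟩ := Finset.mem_filter.1 h
  obtain ⟨h4, h5⟩ := Finset.mem_product.1 h1
  exact ⟨h4, h5, h2, h3⟩

/-- pairs of one column: `[E]` partners are unique -/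
lemma R1_inj1 {x : XSt Λ κ} {d : Dt} (h : HD D sp Qp J B₀ B₀' x d) {e e' : ℕ × ℕ}
    (he : e ∈ EE D N ρ x d) (he' : e' ∈ EE D N ρ x d) (r : R1 x d e) (r' : R1 x d e')
    (h1 : e.1 = e'.1) : e = e' := by
  obtain ⟨q, r₁⟩ := e
  obtain ⟨q', r₂⟩ := e'
  simp only at h1
  subst h1
  obtain ⟨a1, a2, a3, a4⟩ := EE_items he
  obtain ⟨b1, b2, b3, b4⟩ := EE_items he'
  have hF := h.1.R.hF.2.2.2.2
  have := EP.uniq h.1.mR.pos (hF.item _ a2).2.1 (hF.item _ b2).2.1 a4 b4 (r.2.trans r'.2.symm)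
  exact Prod.ext rfl this

lemma R1_inj2 {x : XSt Λ κ} {d : Dt} (h : HD D sp Qp J B₀ B₀' x d) {e e' : ℕ × ℕ}
    (he : e ∈ EE D N ρ x d) (he' : e' ∈ EE D N ρ x d) (r : R1 x d e) (r' : R1 x d e')
    (h1 : e.2 = e'.2) : e = e' := by
  obtain ⟨q, r₁⟩ := e
  obtain ⟨q', r₂⟩ := e'
  simp only at h1
  subst h1
  obtain ⟨a1, a2, a3, a4⟩ := EE_items he
  obtain ⟨b1, b2, b3, b4⟩ := EE_items he'
  have hF := h.1.L.hF.2.2.2.2
  have := EP.uniq' h.1.mL.pos (hF.item _ a1).2.1 (hF.item _ b1).2.1 a4 b4 (r.1.trans r'.1.symm)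
  exact Prod.ext this rfl

/-- an alive missing item of the column: the column is a missing tie of the start tree (left) -/
lemma mt_left (hQ : ∀ u τ, Qp u τ → NodeOk P W₀ u τ) {x : XSt Λ κ}
    (hx : GI (dvI D) mI s₀ (HX D sp Qp J B₀ B₀') x) {d : Dt} (h : HD D sp Qp J B₀ B₀' x d) {j : Λ}
    (hj : j ∈ x.s.A) (hm : mI x.s.t j ≠ 0) (ht : D.it j ∈ d.t₀.items) :
    d.p ∈ mtD (dvI D) j s₀.t := by
  have h1 := (hx.fw.L j hj hm).2
  rw [← h1]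
  refine Finset.mem_union_right _ ?_
  have hn := hQ _ _ h.1.qL.self
  have hnd : ¬ d.p ∣ D.it j := by
    obtain ⟨-, -, -, -, -, -, h0, -⟩ := hn
    rw [h0] at ht
    exact (Bld532.mem_ms.1 ht).2
  rw [h.1.L.eq]
  unfold Par.toDT mtD
  rw [if_neg (show ¬ dvI D d.p j from hnd)]
  exact Finset.mem_insert_self _ _

lemma mt_right (hQ : ∀ u τ, Qp u τ → NodeOk P W₀ u τ) {x : XSt Λ κ}
    (hx : GI (dvI D) mI s₀ (HX D sp Qp J B₀ B₀') x) {d : Dt} (h : HD D sp Qp J B₀ B₀' x d) {j : Λ}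
    (hj : j ∈ x.s.A') (hm : mI x.s.t' j ≠ 0) (ht : D.it j ∈ d.t₀'.items) :
    d.p ∈ mtD (dvI D) j s₀.t' := by
  have h1 := (hx.fw.R j hj hm).2
  rw [← h1]
  refine Finset.mem_union_right _ ?_
  have hn := hQ _ _ h.1.qR.self
  have hnd : ¬ d.p ∣ D.it j := by
    obtain ⟨-, -, -, -, -, -, h0, -⟩ := hn
    rw [h0] at ht
    exact (Bld532.mem_ms.1 ht).2
  rw [h.1.R.eq]
  unfold Par.toDT mtD
  rw [if_neg (show ¬ dvI D d.p j from hnd)]
  exact Finset.mem_insert_self _ _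

open Classical in
/-- small costs of the missing ties -/
noncomputable def gg (D : Par Λ κ) (t : DT Λ κ) (εx gs : ℕ → ℝ) (j : Λ) (P : ℕ)
    (_ _ : Finset ℕ) : ℝ :=
  if P ∈ mtD (dvI D) j t then εx P + gs P else 0

lemma gg_nonneg (h1 : ∀ p, 0 ≤ εx p) (h2 : ∀ p, 0 ≤ gs p) (t : DT Λ κ) (j : Λ) (P : ℕ)
    (a b : Finset ℕ) : 0 ≤ gg D t εx gs j P a b := by
  unfold gg
  split_ifs
  · exact add_nonneg (h1 P) (h2 P)
  · exact le_rfl

open Classical in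
/-- the small costs of a side -/
lemma side_sum {t : DT Λ κ} {A : Finset Λ} {d : DT Λ κ} {S : Finset ℕ} {p n : ℕ} (hpn : p < n)
    (h1 : ∀ p, 0 ≤ εx p) (h2 : ∀ p, 0 ≤ gs p) (nn : ∀ j, 0 ≤ mI d j)
    (hmt : ∀ j ∈ A, mI d j ≠ 0 → D.it j ∈ S → p ∈ mtD (dvI D) j t) (a b : Finset ℕ) :
    (εx p + gs p) * ∑ j ∈ A.filter (fun j => D.it j ∈ S), mI d j ≤
      ∑ j ∈ A, mI d j * ∑ P ∈ Finset.Ico p n, gg D t εx gs j P a b := by
  rw [Finset.mul_sum, Finset.sum_filter]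
  refine Finset.sum_le_sum fun j hj => ?_
  have h0 : 0 ≤ mI d j * ∑ P ∈ Finset.Ico p n, gg D t εx gs j P a b :=
    mul_nonneg (nn j) (Finset.sum_nonneg fun P _ => gg_nonneg h1 h2 t j P a b)
  split_ifs with hS
  · by_cases hm : mI d j = 0
    · rw [hm]; simp
    · have h3 : gg D t εx gs j p a b ≤ ∑ P ∈ Finset.Ico p n, gg D t εx gs j P a b :=
        Finset.single_le_sum (f := fun P => gg D t εx gs j P a b)
          (fun P _ => gg_nonneg h1 h2 t j P a b) (Finset.mem_Ico.2 ⟨le_rfl, hpn⟩)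
      have h4 : gg D t εx gs j p a b = εx p + gs p := if_pos (hmt j hj hm hS)
      rw [h4] at h3
      rw [mul_comm]
      exact mul_le_mul_of_nonneg_left h3 (nn j)
  · exact h0

open Classical in
/-- masses over a set of pairs with distinct first resp. second items -/
lemma charge_le {A : Finset Λ} {d : DT Λ κ} {S : Finset ℕ} (nn : ∀ j, 0 ≤ mI d j)
    {B : Finset (ℕ × ℕ)} (g : ℕ × ℕ → ℕ) (hg : ∀ b ∈ B, ∀ b' ∈ B, g b = g b' → b = b')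
    (hS : ∀ b ∈ B, g b ∈ S) :
    ∑ e ∈ B, mq D d A (g e) ≤ ∑ j ∈ A.filter (fun j => D.it j ∈ S), mI d j := by
  unfold mq
  rw [charge D.it B g hg]
  refine Finset.sum_le_sum_of_subset_of_nonneg (fun j hj => ?_) fun j _ _ => nn j
  obtain ⟨h1, b, hb, h2⟩ := Finset.mem_filter.1 hj
  exact Finset.mem_filter.2 ⟨h1, h2 ▸ hS b hb⟩

open Classical in
/-- **local cost** -/
lemma loc_le_N (hR : D.Rad ρ) (hab : ∀ j, D.al j ≤ D.be j)
    (hQ : ∀ u τ, Qp u τ → NodeOk P W₀ u τ)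
    (H : GN D sp Qp J B₀ B₀' stp s₀ N ρ loc EB EvR EvL Cr εx gs) (x : XSt Λ κ)
    (hx : GI (dvI D) mI s₀ (HX D sp Qp J B₀ B₀') x) :
    loc x ≤
      (∑ P ∈ Finset.Ico x.p x.n, ∑ e ∈ KN D sp Qp J B₀ B₀' stp EB Cr x P,
        min (mL mI D.it x e.1) (mR mI D.it x e.2)) +
      (∑ j ∈ x.s.A, mI x.s.t j * ∑ P ∈ Finset.Ico x.p x.n, gg D s₀.t εx gs j P x.u' x.u) +
      ∑ j ∈ x.s.A', mI x.s.t' j * ∑ P ∈ Finset.Ico x.p x.n, gg D s₀.t' εx gs j P x.u x.u' := by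
  have nnL : ∀ j, 0 ≤ mI x.s.t j := fun j => hx.tc.L.self.nn j
  have nnR : ∀ j, 0 ≤ mI x.s.t' j := fun j => hx.tc.R.self.nn j
  have mL0 : ∀ q, 0 ≤ mL mI D.it x q := fun q => Finset.sum_nonneg fun j _ => nnL j
  have mR0 : ∀ q, 0 ≤ mR mI D.it x q := fun q => Finset.sum_nonneg fun j _ => nnR j
  have g0 : ∀ (t : DT Λ κ) (j : Λ) (P : ℕ) (a b : Finset ℕ), 0 ≤ gg D t εx gs j P a b :=
    fun t j P a b => gg_nonneg H.εx0 H.gs0 t j P a b
  have r1 : 0 ≤ ∑ P ∈ Finset.Ico x.p x.n, ∑ e ∈ KN D sp Qp J B₀ B₀' stp EB Cr x P,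
      min (mL mI D.it x e.1) (mR mI D.it x e.2) :=
    Finset.sum_nonneg fun P _ => Finset.sum_nonneg fun e _ => le_min (mL0 _) (mR0 _)
  have r2 : 0 ≤ ∑ j ∈ x.s.A, mI x.s.t j * ∑ P ∈ Finset.Ico x.p x.n, gg D s₀.t εx gs j P x.u' x.u :=
    Finset.sum_nonneg fun j _ => mul_nonneg (nnL j) (Finset.sum_nonneg fun P _ => g0 _ _ _ _ _)
  have r3 : 0 ≤ ∑ j ∈ x.s.A', mI x.s.t' j *
      ∑ P ∈ Finset.Ico x.p x.n, gg D s₀.t' εx gs j P x.u x.u' :=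
    Finset.sum_nonneg fun j _ => mul_nonneg (nnR j) (Finset.sum_nonneg fun P _ => g0 _ _ _ _ _)
  by_cases hc : stp x.s ∨ ¬ ∃ d, HD D sp Qp J B₀ B₀' x d
  · have := H.l0 x hx hc
    linarith
  rw [not_or, not_not] at hc
  obtain ⟨hs, hex⟩ := hc
  have hd := hex.choose_spec
  set d := hex.choose with hdd
  have hp : x.p = d.p := hd.p_eq
  have hl : ¬ x.s.t.isLeaf := by rw [hd.1.L.eq]; exact id
  have hl' : ¬ x.s.t'.isLeaf := by rw [hd.1.R.eq]; exact id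
  have hpn : x.p < x.n := (hd.1.tops hQ hl hl').2.2.2
  obtain ⟨a, a', h1, hxa, hxa'⟩ := H.l1 x hx hs d hd
  have hsub := H.sub x hx hs d hd
  -- split
  set E := EB x d with hE
  set B := E.filter (fun e => R1 x d e ∧ ¬ Cr d.p e.1 e.2 x.u x.u') with hB
  set A := E.filter (fun e => ¬ (R1 x d e ∧ ¬ Cr d.p e.1 e.2 x.u x.u')) with hA
  have hsp := Finset.sum_filter_add_sum_filter_not E
    (fun e => R1 x d e ∧ ¬ Cr d.p e.1 e.2 x.u x.u') (fun e => FN D x d e)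
  have hAE : ∀ e ∈ A, e ∈ E := fun e he => (Finset.mem_filter.1 he).1
  have hBE : ∀ e ∈ B, e ∈ E := fun e he => (Finset.mem_filter.1 he).1
  have kA := NM_E_le hR hab hd.1.st (N := N) (P := A) (N₁ := ∏ l ∈ x.s.O', l)
    (N₁' := ∏ l ∈ x.s.O, l)
    (Finset.prod_pos fun l hl => by
      obtain ⟨G, -, -, -, -, h5⟩ := hd.1.mL
      exact (h5 l hl).1.pos)
    (Finset.prod_pos fun l hl => by
      obtain ⟨G, -, -, -, -, h5⟩ := hd.1.mR
      exact (h5 l hl).1.pos)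
    (fun e he => by
      obtain ⟨a1, a2, a3, a4⟩ := EE_items (hsub (hAE e he))
      exact ⟨a1, a2, a4, rf_dvd hd.1.mL (Finset.mem_union_right _ a1),
        rf_dvd hd.1.mR (Finset.mem_union_right _ a2)⟩)
  -- critical pairs
  have kC : ∑ e ∈ A.filter (fun e => rf (e.1 / d.u.A) x.s.M = 1 ∧ rf (e.2 / d.u'.A) x.s.M' = 1),
      min (mq D x.s.t x.s.A e.1) (mq D x.s.t' x.s.A' e.2) ≤
      ∑ P ∈ Finset.Ico x.p x.n, ∑ e ∈ KN D sp Qp J B₀ B₀' stp EB Cr x P,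
        min (mL mI D.it x e.1) (mR mI D.it x e.2) := by
    have s1 : ∑ e ∈ KN D sp Qp J B₀ B₀' stp EB Cr x x.p,
        min (mL mI D.it x e.1) (mR mI D.it x e.2) ≤
        ∑ P ∈ Finset.Ico x.p x.n, ∑ e ∈ KN D sp Qp J B₀ B₀' stp EB Cr x P,
        min (mL mI D.it x e.1) (mR mI D.it x e.2) :=
      Finset.single_le_sum (f := fun P => ∑ e ∈ KN D sp Qp J B₀ B₀' stp EB Cr x P,
        min (mL mI D.it x e.1) (mR mI D.it x e.2))
        (fun P _ => Finset.sum_nonneg fun e _ => le_min (mL0 _) (mR0 _))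
        (Finset.mem_Ico.2 ⟨le_rfl, hpn⟩)
    refine le_trans ?_ s1
    have hcond : ¬ stp x.s ∧ x.p = x.p ∧ ∃ d, HD D sp Qp J B₀ B₀' x d := ⟨hs, rfl, hex⟩
    have eK : KN D sp Qp J B₀ B₀' stp EB Cr x x.p = E.filter fun e => R1 x d e ∧
        Cr d.p e.1 e.2 x.u x.u' ∧ mL mI D.it x e.1 ≠ 0 ∧ mR mI D.it x e.2 ≠ 0 := by
      unfold KN
      rw [dif_pos hcond]
    rw [eK]
    have s2 : ∀ e ∈ A.filter (fun e => rf (e.1 / d.u.A) x.s.M = 1 ∧ rf (e.2 / d.u'.A) x.s.M' = 1),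
        min (mq D x.s.t x.s.A e.1) (mq D x.s.t' x.s.A' e.2) ≤
        if (mL mI D.it x e.1 ≠ 0 ∧ mR mI D.it x e.2 ≠ 0) then
          min (mL mI D.it x e.1) (mR mI D.it x e.2) else 0 := by
      intro e he
      split_ifs with hm
      · exact le_rfl
      · rw [not_and_or, not_not, not_not] at hm
        rcases hm with hm | hm
        · exact (min_le_left _ _).trans (le_of_eq hm)
        · exact (min_le_right _ _).trans (le_of_eq hm)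
    refine (Finset.sum_le_sum s2).trans ?_
    rw [← Finset.sum_filter]
    refine Finset.sum_le_sum_of_subset_of_nonneg (fun e he => ?_)
      fun e _ _ => le_min (mL0 _) (mR0 _)
    obtain ⟨he, hm⟩ := Finset.mem_filter.1 he
    obtain ⟨he, hr⟩ := Finset.mem_filter.1 he
    obtain ⟨he, hn⟩ := Finset.mem_filter.1 he
    refine Finset.mem_filter.2 ⟨he, hr, ?_, hm⟩
    by_contra hcr
    exact hn ⟨hr, hcr⟩
  -- non-critical pairs
  have kB : ∑ e ∈ B, FN D x d e ≤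
      gs d.p * ∑ j ∈ x.s.A.filter (fun j => D.it j ∈ d.t₀.items), mI x.s.t j +
      gs d.p * ∑ j ∈ x.s.A'.filter (fun j => D.it j ∈ d.t₀'.items), mI x.s.t' j := by
    have s1 : ∑ e ∈ B, FN D x d e ≤ ∑ e ∈ B, (gs d.p * mq D x.s.t x.s.A e.1 +
        gs d.p * mq D x.s.t' x.s.A' e.2) := by
      refine Finset.sum_le_sum fun e he => ?_
      obtain ⟨he1, hr, hn⟩ := Finset.mem_filter.1 he
      exact (H.cls x hx hs d hd e he1 hr).resolve_left hn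
    refine s1.trans ?_
    rw [Finset.sum_add_distrib, ← Finset.mul_sum, ← Finset.mul_sum]
    refine add_le_add (mul_le_mul_of_nonneg_left ?_ (H.gs0 _))
      (mul_le_mul_of_nonneg_left ?_ (H.gs0 _))
    · refine charge_le nnL Prod.fst (fun b hb b' hb' hg => ?_)
        (fun b hb => (EE_items (hsub (hBE b hb))).1)
      exact R1_inj1 hd (hsub (hBE b hb)) (hsub (hBE b' hb')) (Finset.mem_filter.1 hb).2.1
        (Finset.mem_filter.1 hb').2.1 hg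
    · refine charge_le nnR Prod.snd (fun b hb b' hb' hg => ?_)
        (fun b hb => (EE_items (hsub (hBE b hb))).2.1)
      exact R1_inj2 hd (hsub (hBE b hb)) (hsub (hBE b' hb')) (Finset.mem_filter.1 hb).2.1
        (Finset.mem_filter.1 hb').2.1 hg
  have sL := side_sum (D := D) (t := s₀.t) (A := x.s.A) (d := x.s.t) (S := d.t₀.items) hpn H.εx0
    H.gs0 nnL (fun j hj hm hS => by
      rw [hp]
      exact mt_left hQ hx hd hj hm hS) x.u' x.u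
  have sR := side_sum (D := D) (t := s₀.t') (A := x.s.A') (d := x.s.t') (S := d.t₀'.items) hpn H.εx0
    H.gs0 nnR (fun j hj hm hS => by
      rw [hp]
      exact mt_right hQ hx hd hj hm hS) x.u x.u'
  rw [hp] at sL sR
  have fL : 0 ≤ ∑ j ∈ x.s.A.filter (fun j => D.it j ∈ d.t₀.items), mI x.s.t j :=
    Finset.sum_nonneg fun j _ => nnL j
  have fR : 0 ≤ ∑ j ∈ x.s.A'.filter (fun j => D.it j ∈ d.t₀'.items), mI x.s.t' j :=
    Finset.sum_nonneg fun j _ => nnR j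
  have xL := mul_le_mul_of_nonneg_right hxa fL
  have xR := mul_le_mul_of_nonneg_right hxa' fR
  have hEsum : ∑ e ∈ E, FN D x d e = ∑ e ∈ B, FN D x d e + ∑ e ∈ A, FN D x d e := hsp.symm
  have kA' : ∑ e ∈ A, FN D x d e ≤ _ := kA
  rw [hp] at r1 r2 r3 kC ⊢
  nlinarith [h1, kA', kC, kB, sL, sR, xL, xR]

/-- the invariants are preserved by the steps -/
def JNext (D : Par Λ κ) (sp : ℕ → Finset Λ) (Qp : NS → IT → Prop)
    (J : XSt Λ κ → NS → NS → IT → IT → Prop) (stp : St Λ κ → Prop) (B₀ B₀' : ℕ) : Prop :=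
  ∀ (x : XSt Λ κ), XI x.n x → ∀ (u u' : NS) (τ τ' : IT), HI D sp Qp B₀ B₀' x u u' τ τ' →
    J x u u' τ τ' → ∀ e ∈ steps stp (dvI D) x, ∃ v v' σ σ', HI D sp Qp B₀ B₀' e.y v v' σ σ' ∧
      J e.y v v' σ σ'

/-- **the assembly hypotheses of `GAsm927`** -/
theorem ghyp_N (hR : D.Rad ρ) (hab : ∀ j, D.al j ≤ D.be j) (hsp : D.SpOk sp)
    (hil : ∀ b, IL D.it (sp b)) (hQ : ∀ u τ, Qp u τ → NodeOk P W₀ u τ)
    (hJ : JNext D sp Qp J stp B₀ B₀') (H : GN D sp Qp J B₀ B₀' stp s₀ N ρ loc EB EvR EvL Cr εx gs) :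
    GHyp stp (dvI D) mI s₀ (HX D sp Qp J B₀ B₀') D.it (KN D sp Qp J B₀ B₀' stp EB Cr)
      (fun r P a b => Mt D s₀.t' P r ∧ EvR r P a b) (fun q P a b => Mt D s₀.t P q ∧ EvL q P a b)
      (fun P q r a b => Mt D s₀.t P q ∧ Mt D s₀.t' P r ∧ Cr P q r a b)
      (gg D s₀.t' εx gs) (gg D s₀.t εx gs) loc where
  inv := by
    rintro x hx e he
    obtain ⟨u, u', τ, τ', h, hj⟩ := hx.i
    exact hJ x hx.xi u u' τ τ' h hj e he
  gR0 := fun j P a b => gg_nonneg H.εx0 H.gs0 _ _ _ _ _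
  gL0 := fun j P a b => gg_nonneg H.εx0 H.gs0 _ _ _ _ _
  loc_le := fun x hx => loc_le_N hR hab hQ H x hx
  inj1 := by
    intro x hx P hP e he e' he' h
    obtain ⟨hs, hp, d, hd, hdp, hall⟩ := mem_KN he
    have hsb := H.sub x hx hs d hd
    exact R1_inj1 hd (hsb (hall e he).1) (hsb (hall e' he').1) (hall e he).2.1 (hall e' he').2.1 h
  inj2 := by
    intro x hx P hP e he e' he' h
    obtain ⟨hs, hp, d, hd, hdp, hall⟩ := mem_KN he
    have hsb := H.sub x hx hs d hd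
    exact R1_inj2 hd (hsb (hall e he).1) (hsb (hall e' he').1) (hall e he).2.1 (hall e' he').2.1 h
  cases := by
    intro x hx P hP e he
    obtain ⟨hs, hp, d, hd, hdp, hall⟩ := mem_KN he
    obtain ⟨h1, h2, h3, h4, h5⟩ := hall e he
    obtain ⟨a1, a2, -, -⟩ := EE_items (H.sub x hx hs d hd h1)
    obtain ⟨j, hj, hjm⟩ := Finset.exists_ne_zero_of_sum_ne_zero h4
    obtain ⟨j', hj', hjm'⟩ := Finset.exists_ne_zero_of_sum_ne_zero h5
    obtain ⟨b1, b2⟩ := Finset.mem_filter.1 hj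
    obtain ⟨b1', b2'⟩ := Finset.mem_filter.1 hj'
    refine Or.inr (Or.inr ⟨⟨j, b2, ?_⟩, ⟨j', b2', ?_⟩, h3⟩)
    · rw [← hdp]
      exact mt_left hQ hx hd b1 hjm (b2 ▸ a1)
    · rw [← hdp]
      exact mt_right hQ hx hd b1' hjm' (b2' ▸ a2)
  again := by
    intro x hx P hP e he P₁ r₁ hlt hc1 hc
    obtain ⟨hs, hp, d, hd, hdp, hall⟩ := mem_KN he
    obtain ⟨h1, h2, h3, h4, h5⟩ := hall e he
    obtain ⟨a1, a2, -, -⟩ := EE_items (H.sub x hx hs d hd h1)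
    obtain ⟨j, hj, hjm⟩ := Finset.exists_ne_zero_of_sum_ne_zero h4
    obtain ⟨b1, b2⟩ := Finset.mem_filter.1 hj
    -- the upper level is a missing tie of the left item seen so far
    obtain ⟨⟨j₁, hj₁, hP₁⟩, -, hc1⟩ := hc1
    have e1 : mtD (dvI D) j₁ s₀.t = mtD (dvI D) j s₀.t := mtD_it (hj₁.trans b2.symm) _
    have e2 := (hx.fw.L j b1 hjm).2
    have hu : P₁ ∈ x.u := by
      rw [e1, ← e2] at hP₁
      rcases Finset.mem_union.1 hP₁ with h | h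
      · exact h
      · exfalso
        have k1 := mtD_le_top hx.xi.cL _ h
        have k2 : x.s.t.top ≤ x.p := le_max_left _ _
        omega
    rw [← hdp] at hlt hc ⊢
    rcases H.again x hx hs d hd e h1 h2 P₁ r₁ hlt hu hc1 hc.2.2 with h | h
    · exact Or.inl ⟨hc.2.1, h⟩
    · exact Or.inr ⟨hc.1, h⟩

open Classical in
/-- expectation of the events and small costs of one item -/
lemma E_item {Ev : ℕ → ℕ → Finset ℕ → Finset ℕ → Prop} (h1 : ∀ p, 0 ≤ εx p) (h2 : ∀ p, 0 ≤ gs p)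
    {t : DT Λ κ} {j : Λ} {n : ℕ} {w : WT} (hw : w.Ok n) {eE : ℕ → ℝ}
    (h0 : ∀ P ∈ mtD (dvI D) j t, 0 ≤ eE P)
    (hE : ∀ P ∈ mtD (dvI D) j t, P < n →
      E (fun v => ind (Ev (D.it j) P (v.filter (P < ·)) ((mtD (dvI D) j t).filter (P < ·)))) w ∅ ≤
        eE P) :
    E (GG (fun P a b => ind (Mt D t P (D.it j) ∧ Ev (D.it j) P a b) + gg D t εx gs j P a b) n
      (mtD (dvI D) j t)) w ∅ ≤ ∑ P ∈ mtD (dvI D) j t, (eE P + (εx P + gs P)) := by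
  have hMt : ∀ P, Mt D t P (D.it j) ↔ P ∈ mtD (dvI D) j t := by
    intro P
    constructor
    · rintro ⟨j', h3, h4⟩
      rwa [mtD_it h3] at h4
    · intro h
      exact ⟨j, rfl, h⟩
  refine GEv812.GG_bound (mtD (dvI D) j t) (fun P => eE P + (εx P + gs P)) ?_ ?_ hw ?_
  · intro P _ hP a
    have h3 : ¬ (Mt D t P (D.it j) ∧ Ev (D.it j) P a ((mtD (dvI D) j t).filter (P < ·))) :=
      fun h => hP ((hMt P).1 h.1)
    unfold ind gg
    rw [if_neg h3, if_neg hP]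
    simp
  · intro P hP
    have := h0 P hP
    have := h1 P
    have := h2 P
    linarith
  · intro P hP hPn
    have e1 : (fun v : Finset ℕ => ind (Mt D t P (D.it j) ∧ Ev (D.it j) P (v.filter (P < ·))
        ((mtD (dvI D) j t).filter (P < ·))) + gg D t εx gs j P (v.filter (P < ·))
          ((mtD (dvI D) j t).filter (P < ·))) =
        fun v : Finset ℕ => ind (Ev (D.it j) P (v.filter (P < ·))
          ((mtD (dvI D) j t).filter (P < ·))) + (εx P + gs P) := by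
      funext v
      have h3 : (Mt D t P (D.it j) ∧ Ev (D.it j) P (v.filter (P < ·))
          ((mtD (dvI D) j t).filter (P < ·))) ↔ Ev (D.it j) P (v.filter (P < ·))
          ((mtD (dvI D) j t).filter (P < ·)) := ⟨fun h => h.2, fun h => ⟨(hMt P).2 hP, h⟩⟩
      unfold ind gg
      rw [if_pos hP]
      simp only [h3]
    rw [e1, E_add]
    have h4 := hE P hP hPn
    have h5 : E (fun _ : Finset ℕ => εx P + gs P) w ∅ = εx P + gs P := E_const _ _ _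
    linarith

/-- **G-FINAL for the NM columns.** `eL P q`, `eR P r` = bounds of the probabilities of the events. -/
theorem gfin_NM (hR : D.Rad ρ) (hab : ∀ j, D.al j ≤ D.be j) (hsp : D.SpOk sp)
    (hil : ∀ b, IL D.it (sp b)) (hQ : ∀ u τ, Qp u τ → NodeOk P W₀ u τ)
    (hJ : JNext D sp Qp J stp B₀ B₀') (H : GN D sp Qp J B₀ B₀' stp s₀ N ρ loc EB EvR EvL Cr εx gs) {n : ℕ}
    (hx : GI (dvI D) mI s₀ (HX D sp Qp J B₀ B₀') (XSt.st n s₀)) {eL eR : ℕ → Λ → ℝ} {κL κR : Λ → ℝ}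
    (eL0 : ∀ j ∈ s₀.A, ∀ P ∈ mtD (dvI D) j s₀.t, 0 ≤ eL P j)
    (eR0 : ∀ j ∈ s₀.A', ∀ P ∈ mtD (dvI D) j s₀.t', 0 ≤ eR P j)
    (hL : ∀ j ∈ s₀.A, ∀ P ∈ mtD (dvI D) j s₀.t, P < n → ∀ w : WT, w.Ok n →
      E (fun v => ind (EvL (D.it j) P (v.filter (P < ·)) ((mtD (dvI D) j s₀.t).filter (P < ·))))
        w ∅ ≤ eL P j)
    (hRr : ∀ j ∈ s₀.A', ∀ P ∈ mtD (dvI D) j s₀.t', P < n → ∀ w : WT, w.Ok n →
      E (fun v => ind (EvR (D.it j) P (v.filter (P < ·)) ((mtD (dvI D) j s₀.t').filter (P < ·))))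
        w ∅ ≤ eR P j)
    (hκL : ∀ j ∈ s₀.A, mI s₀.t j ≠ 0 →
      ∑ P ∈ mtD (dvI D) j s₀.t, (eL P j + (εx P + gs P)) ≤ κL j)
    (hκR : ∀ j ∈ s₀.A', mI s₀.t' j ≠ 0 →
      ∑ P ∈ mtD (dvI D) j s₀.t', (eR P j + (εx P + gs P)) ≤ κR j) :
    W (nxH stp (dvI D)) XSt.rank loc (XSt.st n s₀) ≤
      (∑ j ∈ s₀.A, mI s₀.t j * (1 + κL j)) + ∑ j ∈ s₀.A', mI s₀.t' j * κR j := by
  have h1 := gasm (ghyp_N hR hab hsp hil hQ hJ H) hx
  have e : (XSt.st n s₀).s = s₀ := rfl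
  have eu : (XSt.st n s₀).u = ∅ := rfl
  have eu' : (XSt.st n s₀).u' = ∅ := rfl
  have en : (XSt.st n s₀).n = n := rfl
  simp only [e, eu, eu', en, Finset.empty_union] at h1
  refine h1.trans (add_le_add ?_ ?_)
  · refine Finset.sum_le_sum fun j hj => ?_
    by_cases hm : mI s₀.t j = 0
    · rw [hm]; simp
    · refine mul_le_mul_of_nonneg_left (add_le_add le_rfl ?_) (hx.tc.L.self.nn j)
      refine le_trans ?_ (hκL j hj hm)
      exact E_item (Ev := EvL) H.εx0 H.gs0 (wtI_Ok hx.xi j) (eL0 j hj)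
        fun P hP hPn => hL j hj P hP hPn _ (wtI_Ok hx.xi j)
  · refine Finset.sum_le_sum fun j hj => ?_
    by_cases hm : mI s₀.t' j = 0
    · rw [hm]; simp
    · refine mul_le_mul_of_nonneg_left ?_ (hx.tc.R.self.nn j)
      refine le_trans ?_ (hκR j hj hm)
      exact E_item (Ev := EvR) H.εx0 H.gs0 (wtJ_Ok hx.xi j) (eR0 j hj)
        fun P hP hPn => hRr j hj P hP hPn _ (wtJ_Ok hx.xi j)

/-- columns of a decorated item tree -/
lemma toDT_Col (τ : IT) : ∀ {b pr n : ℕ}, τ.Ok n → (D.toDT sp b pr τ).Col n := by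
  induction τ with
  | leaf S => intro b pr n h; trivial
  | br p t₁ t₀ ih₁ ih₀ => intro b pr n h; exact ⟨h.1, h.2.1, ih₁ h.2.2.2.1, ih₀ h.2.2.2.2⟩
  | add p t₁ t₀ ih₁ ih₀ => intro b pr n h; exact ⟨h.1, h.2.1, ih₁ h.2.2.2.1, ih₀ h.2.2.2.2⟩
  | up p S t ih => intro b pr n h; exact ⟨h.1, h.2.1, ih h.2.2.2⟩

/-- the invariants at a self state -/
lemma GI_self (hab : ∀ j, D.al j ≤ D.be j) {u : NS} {τ : IT} {A : Finset Λ}
    (hs : SideI D sp u.B u.A τ A (D.toDT sp u.B u.A τ)) (hq : All Qp u τ) (hil : IL D.it A)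
    (hO : τ.Ok u.n) (hD : IMI194.Dv τ)
    (hj : J (XSt.st u.n (selfSt (D.toDT sp u.B u.A τ) A)) u u τ τ) :
    GI (dvI D) mI (selfSt (D.toDT sp u.B u.A τ) A) (HX D sp Qp J u.B u.B)
      (XSt.st u.n (selfSt (D.toDT sp u.B u.A τ) A)) := by
  have h1 := IMI194.IM_toDT (sp := sp) hab τ u.B u.A u.n hs.hb hO hs.hF hs.hW hD
  exact GI.st ⟨u, u, τ, τ, HI.self hs hq hil, hj⟩ h1 h1 (toDT_Col τ hO) (toDT_Col τ hO)

/-- **G-FINAL for the NM columns, self states.** -/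
theorem gfin_NM_self (hR : D.Rad ρ) (hab : ∀ j, D.al j ≤ D.be j) (hsp : D.SpOk sp)
    (hil : ∀ b, IL D.it (sp b)) (hQ : ∀ u τ, Qp u τ → NodeOk P W₀ u τ) {u : NS} {τ : IT}
    {A : Finset Λ} (hs : SideI D sp u.B u.A τ A (D.toDT sp u.B u.A τ)) (hq : All Qp u τ)
    (hilA : IL D.it A) (hO : τ.Ok u.n) (hD : IMI194.Dv τ)
    (hj : J (XSt.st u.n (selfSt (D.toDT sp u.B u.A τ) A)) u u τ τ)
    (hJ : JNext D sp Qp J stp u.B u.B)
    (H : GN D sp Qp J u.B u.B stp (selfSt (D.toDT sp u.B u.A τ) A) N ρ loc EB EvR EvL Cr εx gs)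
    {eL eR : ℕ → Λ → ℝ} {K : ℝ}
    (eL0 : ∀ j ∈ A, ∀ P ∈ mtD (dvI D) j (D.toDT sp u.B u.A τ), 0 ≤ eL P j)
    (eR0 : ∀ j ∈ A, ∀ P ∈ mtD (dvI D) j (D.toDT sp u.B u.A τ), 0 ≤ eR P j)
    (hL : ∀ j ∈ A, ∀ P ∈ mtD (dvI D) j (D.toDT sp u.B u.A τ), P < u.n → ∀ w : WT, w.Ok u.n →
      E (fun v => ind (EvL (D.it j) P (v.filter (P < ·))
        ((mtD (dvI D) j (D.toDT sp u.B u.A τ)).filter (P < ·)))) w ∅ ≤ eL P j)
    (hRr : ∀ j ∈ A, ∀ P ∈ mtD (dvI D) j (D.toDT sp u.B u.A τ), P < u.n → ∀ w : WT, w.Ok u.n →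
      E (fun v => ind (EvR (D.it j) P (v.filter (P < ·))
        ((mtD (dvI D) j (D.toDT sp u.B u.A τ)).filter (P < ·)))) w ∅ ≤ eR P j)
    (hK : ∀ j ∈ A, mI (D.toDT sp u.B u.A τ) j ≠ 0 →
      ∑ P ∈ mtD (dvI D) j (D.toDT sp u.B u.A τ), (eL P j + eR P j + 2 * (εx P + gs P)) ≤ K) :
    W (nxH stp (dvI D)) XSt.rank loc (XSt.st u.n (selfSt (D.toDT sp u.B u.A τ) A)) ≤
      (1 + K) * ∑ j ∈ A, mI (D.toDT sp u.B u.A τ) j := by
  classical
  set d := D.toDT sp u.B u.A τ with hd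
  have hx := GI_self hab hs hq hilA hO hD hj
  rw [← hd] at hx
  have key := gfin_NM hR hab hsp hil hQ hJ H hx (κL := fun j =>
      ∑ P ∈ mtD (dvI D) j d, (eL P j + (εx P + gs P)))
    (κR := fun j => ∑ P ∈ mtD (dvI D) j d, (eR P j + (εx P + gs P)))
    eL0 eR0 hL hRr (fun j _ _ => le_rfl) (fun j _ _ => le_rfl)
  refine key.trans ?_
  have e1 : (selfSt d A).A = A := rfl
  have e2 : (selfSt d A).A' = A := rfl
  have e3 : (selfSt d A).t = d := rfl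
  have e4 : (selfSt d A).t' = d := rfl
  rw [e1, e2, e3, e4, ← Finset.sum_add_distrib, Finset.mul_sum]
  refine Finset.sum_le_sum fun j hj => ?_
  by_cases hm : mI d j = 0
  · rw [hm]; simp
  · have h1 := hK j hj hm
    have h0 : 0 ≤ mI d j := hx.tc.L.self.nn j
    have h2 : ∑ P ∈ mtD (dvI D) j d, (eL P j + (εx P + gs P)) +
        ∑ P ∈ mtD (dvI D) j d, (eR P j + (εx P + gs P)) ≤ K := by
      refine le_trans (le_of_eq ?_) h1
      rw [← Finset.sum_add_distrib]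
      exact Finset.sum_congr rfl fun P _ => by ring
    calc mI d j * (1 + ∑ P ∈ mtD (dvI D) j d, (eL P j + (εx P + gs P))) +
          mI d j * ∑ P ∈ mtD (dvI D) j d, (eR P j + (εx P + gs P))
        = mI d j * (1 + (∑ P ∈ mtD (dvI D) j d, (eL P j + (εx P + gs P)) +
          ∑ P ∈ mtD (dvI D) j d, (eR P j + (εx P + gs P)))) := by ring
      _ ≤ mI d j * (1 + K) := mul_le_mul_of_nonneg_left (by linarith) h0
      _ = (1 + K) * mI d j := by ring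

end

/-! ### the one-sided columns -/

/-- `∑_{d ∣ ∏ O} 1/d = ∏ (1 + 1/l)` -/
lemma sum_div_prod (O : Finset ℕ) (hO : ∀ l ∈ O, l.Prime) :
    ∑ d ∈ (∏ l ∈ O, l).divisors, (1 : ℝ) / d = ∏ l ∈ O, (1 + 1 / (l : ℝ)) := by
  classical
  induction O using Finset.induction_on with
  | empty => simp
  | insert p O hp ih =>
    have hpp := hO p (Finset.mem_insert_self _ _)
    have hO' : ∀ l ∈ O, l.Prime := fun l hl => hO l (Finset.mem_insert_of_mem hl)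
    have hcop : Nat.Coprime p (∏ l ∈ O, l) := by
      rw [Nat.coprime_prod_right_iff]
      intro l hl
      exact (Nat.coprime_primes hpp (hO' l hl)).2 fun e => hp (e ▸ hl)
    rw [Finset.prod_insert hp, Finset.prod_insert hp, ← ih hO']
    have e1 : (p * ∏ l ∈ O, l).divisors =
        (p.divisors ×ˢ (∏ l ∈ O, l).divisors).image fun x => x.1 * x.2 := by
      rw [Nat.divisors_mul, Finset.mul_def]
    rw [e1, Finset.sum_image hcop.mul_injOn_divisors, Finset.sum_product]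
    have e2 : ∀ a ∈ p.divisors, ∑ y ∈ (∏ l ∈ O, l).divisors, (1 : ℝ) / ((a * y : ℕ) : ℝ) =
        1 / (a : ℝ) * ∑ y ∈ (∏ l ∈ O, l).divisors, (1 : ℝ) / y := by
      intro a _
      rw [Finset.mul_sum]
      refine Finset.sum_congr rfl fun y _ => ?_
      push_cast
      rw [one_div_mul_one_div]
    rw [Finset.sum_congr rfl e2, ← Finset.sum_mul, hpp.sum_divisors]
    push_cast
    ring

/-- `xs (∏ O) ≤ 2 ∑_{l ∈ O} 1/l` if the sum is at most one -/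
lemma xs_prod_le (O : Finset ℕ) (hO : ∀ l ∈ O, l.Prime) (h1 : ∑ l ∈ O, (1 : ℝ) / l ≤ 1) :
    GInst194.xs (∏ l ∈ O, l) ≤ 2 * ∑ l ∈ O, (1 : ℝ) / l := by
  classical
  have hN : 0 < ∏ l ∈ O, l := Finset.prod_pos fun l hl => (hO l hl).pos
  have h2 := sum_div_prod O hO
  have h3 : ∑ d ∈ (∏ l ∈ O, l).divisors, (1 : ℝ) / d = GInst194.xs (∏ l ∈ O, l) + 1 := by
    unfold GInst194.xs
    rw [← Finset.sum_erase_add _ _ (Nat.one_mem_divisors.2 hN.ne')]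
    simp
  have h4 : ∏ l ∈ O, (1 + 1 / (l : ℝ)) ≤ Real.exp (∑ l ∈ O, (1 : ℝ) / l) := by
    rw [Real.exp_sum]
    refine Finset.prod_le_prod (fun l _ => by positivity) fun l _ => ?_
    have := Real.add_one_le_exp (1 / (l : ℝ))
    linarith
  have h0 : 0 ≤ ∑ l ∈ O, (1 : ℝ) / l := Finset.sum_nonneg fun l _ => by positivity
  have h6 : Real.exp (∑ l ∈ O, (1 : ℝ) / l) ≤ 1 + 2 * ∑ l ∈ O, (1 : ℝ) / l := by
    have h7 := Real.abs_exp_sub_one_le (x := ∑ l ∈ O, (1 : ℝ) / l) (by rw [abs_of_nonneg h0]; exact h1)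
    rw [abs_of_nonneg h0] at h7
    have h8 := le_abs_self (Real.exp (∑ l ∈ O, (1 : ℝ) / l) - 1)
    linarith
  linarith

end Crest.Agent.R4.GFin927
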