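import Crest.Agent.R4.OSWS245
import Crest.Agent.R4.IMI194
import Crest.Agent.R4.PrunePar33

/-!
R4 (S0004), helper245: `OSWS245.WS_eOS` for decorated item trees, with numbers.

* `mtD_toDT`, `upD_toDT`, `topGe_toDT` : the missing ties, up primes, columns of `D.toDT`.
* `OSN`, `exists_OSN` : all numbers; `WS_eOS_num` : `WS(eOS) ≤ (κ + C) (∑ m + ∑ m')`.
-/

set_option autoImplicit false
set_option linter.unusedSectionVars false
set_option linter.unusedVariables false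
set_option linter.unusedSimpArgs false

namespace Crest.Agent.R4.OSWI245

open Crest.Agent.R4.Tour104 Crest.Agent.R4.Tour758 Crest.Agent.R4.Avg758 Crest.Agent.R4.Clos758
open Crest.Agent.R4.ClosL758 Crest.Agent.R4.ClosG758 Crest.Agent.R4.ClosR758
open Crest.Agent.R4.Cnt588 Crest.Agent.R4.Item758 Crest.Agent.R4.Fam464
open Crest.Agent.R4.Walk560 Crest.Agent.R4.Res927 Crest.Agent.R4.OSWS245 Crest.Agent.R4.IMI194
open Crest.Agent.R4.Bld532 (NS NodeOk Bk)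

/-- the up sets contain every item divisible by the prime -/
def UpOk : IT → Prop
  | .leaf _ => True
  | .br _ t₁ t₀ => UpOk t₁ ∧ UpOk t₀
  | .add _ t₁ t₀ => UpOk t₁ ∧ UpOk t₀
  | .up b Sp t => (∀ q ∈ t.items, b ∣ q → q ∈ Sp) ∧ UpOk t

lemma UpOk_of_All {P : Bld532.Par} {W : ℕ → ℝ} {t : IT} :
    ∀ {s : NS}, Bld532.All (NodeOk P W) s t → UpOk t := by
  induction t with
  | leaf S => intro s _; trivial
  | br p t₁ t₀ ih₁ ih₀ => intro s h; exact ⟨ih₁ h.2.1, ih₀ h.2.2⟩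
  | add p t₁ t₀ ih₁ ih₀ => intro s h; exact ⟨ih₁ h.2.1, ih₀ h.2.2⟩
  | up p Sp t ih =>
    intro s h
    obtain ⟨⟨-, -, -, -, -, h1, -⟩, h2⟩ := h
    refine ⟨fun q hq hd => ?_, ih h2⟩
    rw [h1]
    exact Finset.mem_filter.2 ⟨hq, hd⟩

section
variable {Λ κ : Type*} [Fintype Λ] [DecidableEq Λ] [Fintype κ] [DecidableEq κ]
  {D : Item758.Par Λ κ} {sp : ℕ → Finset Λ}

/-- missing ties of a decorated item tree -/
theorem mtD_toDT {t : IT} (hD : Dv t) : ∀ (b pr : ℕ) {j : Λ}, D.it j ∈ t.items →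
    mtD (fun p j => p ∣ D.it j) j (D.toDT sp b pr t) = t.mt (D.it j) := by
  induction t with
  | leaf S => intro b pr j _; rfl
  | br p t₁ t₀ ih₁ ih₀ =>
    intro b pr j hj
    obtain ⟨h1, h0, k1, k0⟩ := hD
    simp only [Item758.Par.toDT, mtD]
    rcases Finset.mem_union.1 hj with hj | hj
    · have hd := h1 _ hj
      have hn : D.it j ∉ t₀.items := fun h => h0 _ h hd
      rw [if_pos hd, ih₁ k1 _ _ hj]
      simp only [IT.mt, if_neg hn]
    · rw [if_neg (h0 _ hj), ih₀ k0 _ _ hj]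
      simp only [IT.mt, if_pos hj]
  | add p t₁ t₀ ih₁ ih₀ =>
    intro b pr j hj
    obtain ⟨h1, h0, k1, k0⟩ := hD
    simp only [Item758.Par.toDT, mtD]
    rcases Finset.mem_union.1 hj with hj | hj
    · have hd := h1 _ hj
      have hn : D.it j ∉ t₀.items := fun h => h0 _ h hd
      rw [if_pos hd, ih₁ k1 _ _ hj]
      simp only [IT.mt, if_neg hn]
    · rw [if_neg (h0 _ hj), ih₀ k0 _ _ hj]
      simp only [IT.mt, if_pos hj]
  | up p Sp t ih => intro b pr j hj; exact ih hD b pr hj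

/-- up primes of a decorated item tree -/
theorem upD_toDT (hsp : ∀ b, ∀ j ∈ sp b, b ∣ D.it j) {t : IT} (hD : Dv t) (hU : UpOk t) :
    ∀ (b pr : ℕ) {j : Λ}, D.it j ∈ t.items →
    upD (fun p j => p ∣ D.it j) j (D.toDT sp b pr t) ⊆ t.uq (D.it j) := by
  classical
  induction t with
  | leaf S => intro b pr j _; exact Finset.Subset.refl _
  | br p t₁ t₀ ih₁ ih₀ =>
    intro b pr j hj
    obtain ⟨h1, h0, k1, k0⟩ := hD
    simp only [Item758.Par.toDT, upD]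
    rcases Finset.mem_union.1 hj with hj | hj
    · have hd := h1 _ hj
      have hn : D.it j ∉ t₀.items := fun h => h0 _ h hd
      rw [if_pos hd]
      simp only [IT.uq, if_neg hn]
      exact ih₁ k1 hU.1 _ _ hj
    · rw [if_neg (h0 _ hj)]
      simp only [IT.uq, if_pos hj]
      exact ih₀ k0 hU.2 _ _ hj
  | add p t₁ t₀ ih₁ ih₀ =>
    intro b pr j hj
    obtain ⟨h1, h0, k1, k0⟩ := hD
    simp only [Item758.Par.toDT, upD]
    rcases Finset.mem_union.1 hj with hj | hj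
    · have hd := h1 _ hj
      have hn : D.it j ∉ t₀.items := fun h => h0 _ h hd
      rw [if_pos hd]
      simp only [IT.uq, if_neg hn]
      exact ih₁ k1 hU.1 _ _ hj
    · rw [if_neg (h0 _ hj)]
      simp only [IT.uq, if_pos hj]
      exact ih₀ k0 hU.2 _ _ hj
  | up p Sp t ih =>
    intro b pr j hj
    have h1 := ih hD hU.2 b pr hj
    simp only [Item758.Par.toDT, upD]
    by_cases hs : j ∈ sp p
    · have h2 : D.it j ∈ Sp := hU.1 _ hj (hsp p j hs)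
      rw [if_pos hs]
      simp only [IT.uq, if_pos h2]
      exact Finset.insert_subset_insert _ h1
    · rw [if_neg hs]
      simp only [IT.uq]
      split_ifs
      · exact h1.trans (Finset.subset_insert _ _)
      · exact h1

/-- the columns are above `p0` -/
theorem topGe_toDT {P : Bld532.Par} {W : ℕ → ℝ} {s : NS} {t : IT}
    (h : Bld532.All (NodeOk P W) s t) : (D.toDT sp s.B s.A t).All (TopGe P.p0) := by
  refine D.toDT_All sp (Qp := NodeOk P W) (fun s t ht => ?_) t s h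
  intro hl
  cases t with
  | leaf S => exact absurd trivial hl
  | br p t₁ t₀ => exact ht.2.2.1.le
  | add p t₁ t₀ => exact ht.2.2.1.le
  | up p Sp t => exact ht.2.2.1.le

end

/-! ### numbers -/

/-- numbers of the one-sided columns -/
structure OSN (c D E K κ : ℝ) (p0 : ℕ) : Prop where
  ge : 8 ≤ p0
  beta : ∀ p : ℕ, p0 ≤ p → 0 ≤ K * Real.log p ^ E / p ∧
    K * Real.log p ^ E / p ≤ 1 * (p : ℝ) ^ (-(11/12) : ℝ)
  sm : 4 * 1 * (p0 : ℝ) ^ (-(1/4) : ℝ) + 2 * (p0 : ℝ) ^ (-c) ≤ κ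
  tail : ∀ M : Finset ℕ, (∀ q ∈ M, p0 < q) →
    (∀ P : ℕ, p0 ≤ P → ((M.filter (· ≤ P)).card : ℝ) ≤ Real.log P ^ D) →
    ∑ q ∈ M, (q : ℝ) ^ (-c) ≤ κ

theorem exists_OSN (c D E K κ : ℝ) (hc : 0 < c) (hK : 0 ≤ K) (hκ : 0 < κ) :
    ∃ p₁ : ℕ, ∀ p0 ≥ p₁, OSN c D E K κ p0 := by
  obtain ⟨p1, h1⟩ := PrunePar33.tail_pow D c hc
  -- `K log^E ≤ p^(1/12)`
  have e1 := (isLittleO_log_rpow_rpow_atTop E (show (0 : ℝ) < 1 / 12 by norm_num)).bound
    (c := 1 / (K + 1)) (by positivity)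
  have t1 : Filter.Tendsto (fun x : ℝ => x ^ (-(1/4) : ℝ)) Filter.atTop (nhds 0) := by
    have := tendsto_rpow_neg_atTop (show (0:ℝ) < 1/4 by norm_num)
    simpa using this
  have t2 : Filter.Tendsto (fun x : ℝ => x ^ (-c)) Filter.atTop (nhds 0) := tendsto_rpow_neg_atTop hc
  have t3 : Filter.Tendsto (fun x : ℝ => x ^ (-(c/2))) Filter.atTop (nhds 0) :=
    tendsto_rpow_neg_atTop (by positivity)
  have e2 := t1.eventually_lt_const (show (0:ℝ) < κ/8 by positivity)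
  have e3 := t2.eventually_lt_const (show (0:ℝ) < κ/4 by positivity)
  have e4 := t3.eventually_lt_const hκ
  obtain ⟨x0, hx0⟩ := Filter.eventually_atTop.1
    ((e1.and e2).and ((e3.and e4).and (Filter.eventually_ge_atTop (1:ℝ))))
  refine ⟨max (max p1 8) ⌈x0⌉₊, fun p0 hp0 => ?_⟩
  have q1 : p1 ≤ p0 := (le_max_left _ _).trans ((le_max_left _ _).trans hp0)
  have q2 : 8 ≤ p0 := (le_max_right _ _).trans ((le_max_left _ _).trans hp0)
  have q3 : ∀ p : ℕ, p0 ≤ p → x0 ≤ (p : ℝ) := fun p hp => (Nat.le_ceil x0).trans (by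
    exact_mod_cast ((le_max_right _ _).trans hp0).trans hp)
  refine ⟨q2, fun p hp => ?_, ?_, fun M hM hc' => ?_⟩
  · obtain ⟨⟨g1, -⟩, -, g5⟩ := hx0 p (q3 p hp)
    have hp0' : (0:ℝ) < p := by linarith
    have hl : 0 ≤ Real.log p := Real.log_nonneg g5
    rw [Real.norm_of_nonneg (Real.rpow_nonneg hl _), Real.norm_of_nonneg (by positivity)] at g1
    refine ⟨by positivity, ?_⟩
    rw [one_mul, div_le_iff₀ hp0']
    have h2 : (p : ℝ) ^ (-(11/12) : ℝ) * p = (p : ℝ) ^ (1/12 : ℝ) := by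
      nth_rewrite 2 [← Real.rpow_one (p : ℝ)]
      rw [← Real.rpow_add hp0']; norm_num
    rw [h2]
    have hK1 : 0 < K + 1 := by linarith
    calc K * Real.log p ^ E ≤ (K + 1) * Real.log p ^ E :=
          mul_le_mul_of_nonneg_right (by linarith) (Real.rpow_nonneg hl _)
      _ ≤ (K + 1) * (1 / (K + 1) * (p : ℝ) ^ (1/12 : ℝ)) := mul_le_mul_of_nonneg_left g1 hK1.le
      _ = (p : ℝ) ^ (1/12 : ℝ) := by field_simp
  · obtain ⟨⟨-, g2⟩, ⟨g3, -⟩, -⟩ := hx0 p0 (q3 p0 le_rfl)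
    linarith
  · obtain ⟨-, ⟨-, g4⟩, -⟩ := hx0 p0 (q3 p0 le_rfl)
    have h2 := h1 p0 q1 M hc' p0 le_rfl
    rw [Finset.filter_true_of_mem hM] at h2
    exact h2.trans g4.le

section
variable {Λ κ : Type*} [Fintype Λ] [DecidableEq Λ] [Fintype κ] [DecidableEq κ] [WRel κ]
  {stp : St Λ κ → Prop} {dv : ℕ → Λ → Prop} {m : DT Λ κ → Λ → ℝ} {p0 : ℕ}

/-- a sparse set above `p0` -/
def Spr (p0 : ℕ) (D : ℝ) (M : Finset ℕ) : Prop :=
  (∀ q ∈ M, p0 < q) ∧ ∀ P : ℕ, p0 ≤ P → ((M.filter (· ≤ P)).card : ℝ) ≤ Real.log P ^ D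

/-- **walk sum of the one-sided columns, with numbers** -/
theorem WS_eOS_num {c Dm E K κ₀ : ℝ} (hN : OSN c Dm E K κ₀ p0)
    (hst : ∀ s : St Λ κ, ¬ stp s → ¬ stpM s) {I : XSt Λ κ → Prop}
    (hI : ∀ x, I x → ∀ e ∈ steps stp dv x, I e.y) {C : ℝ} (hC : 0 ≤ C) {loc : St Λ κ → ℝ}
    (hl : ∀ x, I x → IX p0 dv m x → loc x.s ≤
      ∑ j ∈ x.s.A, m x.s.t j * costL stp dv (fun p => K * Real.log p ^ E / p)
        (fun _ p => (p : ℝ) ^ (-c)) (fun _ p => (p : ℝ) ^ (-c)) ((p0 : ℝ) ^ (-c)) C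
        (fun _ => 1/2) j x +
      ∑ j ∈ x.s.A', m x.s.t' j * costR stp dv (fun p => K * Real.log p ^ E / p)
        (fun _ p => (p : ℝ) ^ (-c)) (fun _ p => (p : ℝ) ^ (-c)) ((p0 : ℝ) ^ (-c)) C
        (fun _ => 1/2) j x)
    {x : XSt Λ κ} (hx : I x) (hX : IX p0 dv m x) (hO : x.s.O = ∅) (hO' : x.s.O' = ∅)
    (hL : ∀ j ∈ x.s.A, m x.s.t j ≠ 0 → Spr p0 Dm (mtD dv j x.s.t) ∧ Spr p0 Dm (upD dv j x.s.t))
    (hR : ∀ j ∈ x.s.A', m x.s.t' j ≠ 0 →
      Spr p0 Dm (mtD dv j x.s.t') ∧ Spr p0 Dm (upD dv j x.s.t')) :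
    WS stp loc x.s ≤ (3 * κ₀ + C) * (∑ j ∈ x.s.A, m x.s.t j + ∑ j ∈ x.s.A', m x.s.t' j) := by
  have h1 := WS_eOS (p0 := p0) (by have := hN.ge; omega) hst hI (K := 1) zero_le_one hN.beta
    (ε := fun _ p => (p : ℝ) ^ (-c)) (ε' := fun _ p => (p : ℝ) ^ (-c))
    (fun j p => by positivity) (fun j p => by positivity) (ε₀ := (p0 : ℝ) ^ (-c)) (by positivity)
    (ω := fun _ => 1/2) (fun l => by norm_num) (fun l _ => le_rfl) hC hl hx hX hO hO'
  refine h1.trans ?_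
  have hsm := hN.sm
  rw [mul_add]
  refine add_le_add ?_ ?_
  · rw [Finset.mul_sum]
    refine Finset.sum_le_sum fun j hj => ?_
    by_cases h0 : m x.s.t j = 0
    · rw [h0]; simp
    · obtain ⟨k1, k2⟩ := hL j hj h0
      have g1 := hN.tail _ k1.1 k1.2
      have g2 := hN.tail _ k2.1 k2.2
      rw [mul_comm (3 * κ₀ + C)]
      refine mul_le_mul_of_nonneg_left ?_ (hX.tc.L.self.nn j)
      linarith
  · rw [Finset.mul_sum]
    refine Finset.sum_le_sum fun j hj => ?_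
    by_cases h0 : m x.s.t' j = 0
    · rw [h0]; simp
    · obtain ⟨k1, k2⟩ := hR j hj h0
      have g1 := hN.tail _ k1.1 k1.2
      have g2 := hN.tail _ k2.1 k2.2
      rw [mul_comm (3 * κ₀ + C)]
      refine mul_le_mul_of_nonneg_left ?_ (hX.tc.R.self.nn j)
      linarith

end

end Crest.Agent.R4.OSWI245
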