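import Mathlib
import Crest.Agent.R4.StopCore2_709

/-!
R4 (S0004), helper223, module D: the low-`D` part of a crossing pair of nodes, **exact groups**
(all items of `V` miss exactly the primes `S0'` of `O'`, all items of `W` miss exactly the primes
`S0` of `O`): full gain `(∏_{S0} 1/p ∏_{S0'} 1/p)^{1/2-ε}` instead of Rankin.  The proofs of
`mid_x`, `mid_dyadic_x`, `match_x`, `deepB_x` are those of helper709 (`StopAsm709`, `StopCore2_709`)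
with `group_exact` in place of `group_sum`.
-/

set_option autoImplicit false
open Finset

namespace Crest.Agent.R4.CrossCore223
open Crest.Agent.R4.HVW560 Crest.Agent.R4.HVWX793
open Crest.Agent.R4.Schur709 Crest.Agent.R4.StopHvw709 Crest.Agent.R4.StopAsm709
open Crest.Agent.R4.X734 (Lo)
open Crest.Agent.R4.LF9 (sp rp sp_mul_rp sp_pos rp_pos sp_dvd rp_dvd sp_prime rp_prime)

/-- the gain of a group -/
noncomputable def gg (S S' : Finset ℕ) : ℝ := (∏ p ∈ S, (1/(p:ℝ))) * (∏ p ∈ S', (1/(p:ℝ)))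

theorem gg_nonneg (S S' : Finset ℕ) : 0 ≤ gg S S' :=
  mul_nonneg (Finset.prod_nonneg fun p _ => by positivity) (Finset.prod_nonneg fun p _ => by positivity)

/-- one exact group -/
theorem group_exact {O O' S0 S0' V W : Finset ℕ} {E : Finset (ℕ × ℕ)} {μ μ' : ℕ → ℝ}
    {α β : ℝ} (hE : E ⊆ V ×ˢ W) (hμ : ∀ q ∈ V, 0 ≤ μ q) (hμ' : ∀ r ∈ W, 0 ≤ μ' r)
    {F : ℕ × ℕ → ℝ} {G : ℝ} (hG : 0 ≤ G)
    (hc : ∀ r ∈ W, miss O r = S0) (hc' : ∀ q ∈ V, miss O' q = S0')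
    (h : ∀ S ⊆ O, ∀ S' ⊆ O', ∑ e ∈ E.filter (fun e => miss O e.2 = S ∧ miss O' e.1 = S'), F e
      ≤ G * (((∏ p ∈ S, (1/(p:ℝ)))^α * (∑ r ∈ W.filter (fun r => miss O r = S), μ' r)^β) *
        ((∏ p ∈ S', (1/(p:ℝ)))^α * (∑ q ∈ V.filter (fun q => miss O' q = S'), μ q)^β))) :
    ∑ e ∈ E, F e ≤ G * (gg S0 S0')^α * ((∑ q ∈ V, μ q) * (∑ r ∈ W, μ' r))^β := by
  classical
  have hn : ∀ S : Finset ℕ, (0:ℝ) ≤ ∏ p ∈ S, (1/(p:ℝ)) := fun S =>
    Finset.prod_nonneg fun p _ => by positivity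
  have hrhs : 0 ≤ G * (gg S0 S0')^α * ((∑ q ∈ V, μ q) * (∑ r ∈ W, μ' r))^β :=
    mul_nonneg (mul_nonneg hG (Real.rpow_nonneg (gg_nonneg _ _) _))
      (Real.rpow_nonneg (mul_nonneg (Finset.sum_nonneg hμ) (Finset.sum_nonneg hμ')) _)
  rcases E.eq_empty_or_nonempty with rfl | ⟨e0, he0⟩
  · rw [Finset.sum_empty]; exact hrhs
  have hm := Finset.mem_product.1 (hE he0)
  have hS : S0 ⊆ O := by rw [← hc _ hm.2]; exact miss_sub O _
  have hS' : S0' ⊆ O' := by rw [← hc' _ hm.1]; exact miss_sub O' _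
  have key := h S0 hS S0' hS'
  have e1 : E.filter (fun e => miss O e.2 = S0 ∧ miss O' e.1 = S0') = E :=
    Finset.filter_true_of_mem fun e he =>
      ⟨hc _ (Finset.mem_product.1 (hE he)).2, hc' _ (Finset.mem_product.1 (hE he)).1⟩
  have e2 : W.filter (fun r => miss O r = S0) = W := Finset.filter_true_of_mem hc
  have e3 : V.filter (fun q => miss O' q = S0') = V := Finset.filter_true_of_mem hc'
  rw [e1, e2, e3] at key
  refine key.trans (le_of_eq ?_)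
  unfold gg
  rw [Real.mul_rpow (hn _) (hn _),
    Real.mul_rpow (Finset.sum_nonneg hμ) (Finset.sum_nonneg hμ')]
  ring

/-- middle scales -/
theorem mid_x {ε : ℝ} (hε : 0 < ε) (hε4 : ε ≤ 1/4) {O O' S0 S0' V W : Finset ℕ} {E : Finset (ℕ × ℕ)}
    {R R' : ℕ → ℝ} (hO : ∀ p ∈ O, p.Prime) (hO' : ∀ p ∈ O', p.Prime)
    (hV : ∀ w ∈ V, 0 < w) (hW : ∀ w ∈ W, 0 < w) (hR : ∀ w ∈ V, 0 ≤ R w) (hR' : ∀ w ∈ W, 0 ≤ R' w)
    (hE : E ⊆ V ×ˢ W)
    (hc : ∀ r ∈ W, miss O r = S0) (hc' : ∀ q ∈ V, miss O' q = S0')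
    {T K : ℝ} (hT : 0 < T) (hK : 0 ≤ K) {F : ℕ × ℕ → ℝ}
    (h1 : ∀ e ∈ E, (cof (uu O' e.1) (uu O e.2) : ℝ) * Rc O R' e.2 ≤ T)
    (h2 : ∀ e ∈ E, (cof (uu O e.2) (uu O' e.1) : ℝ) * Rc O' R e.1 ≤ T)
    (hF : ∀ e ∈ E, F e ≤ K * (mu O' R e.1 * mu O R' e.2)) :
    ∑ e ∈ E, F e ≤ K * (KH 1 0 ε * T^(1-2*ε)) *
      (gg S0 S0')^(1/2-ε) *
      ((∑ q ∈ V, mu O' R q) * (∑ r ∈ W, mu O R' r))^(1/2+ε) := by
  classical
  have hOp : ∀ p ∈ O, p.Prime := hO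
  have hOp' : ∀ p ∈ O', p.Prime := hO'
  have hKH := (KH_pos 1 0 ε).le
  apply group_exact (α := 1/2-ε) (β := 1/2+ε) hE
    (fun q hq => mu_nonneg (hR q hq)) (fun q hq => mu_nonneg (hR' q hq)) (by positivity) hc hc'
  intro S hS S' hS'
  rw [filter_eq_Eg]
  have ha : 0 < ∏ p ∈ S, (1/(p:ℝ)) := Finset.prod_pos fun p hp => by
    have := (hOp p (hS hp)).pos; positivity
  have hb : 0 < ∏ p ∈ S', (1/(p:ℝ)) := Finset.prod_pos fun p hp => by
    have := (hOp' p (hS' hp)).pos; positivity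
  set a := ∏ p ∈ S, (1/(p:ℝ)) with had
  set b := ∏ p ∈ S', (1/(p:ℝ)) with hbd
  have hs : Sys2 (Vu O' V S') (Vu O W S) (Eu O O' E S S') (ψu O' S' R) (ψu O S R') T T :=
    { hδ₁ := hT
      hδ₂ := hT
      hV := by
        intro v hv
        obtain ⟨w, hw, rfl⟩ := Finset.mem_image.1 hv
        exact uu_pos hOp' (hV w (Finset.mem_filter.1 hw).1)
      hW := by
        intro v hv
        obtain ⟨w, hw, rfl⟩ := Finset.mem_image.1 hv
        exact uu_pos hOp (hW w (Finset.mem_filter.1 hw).1)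
      hψ := by
        intro v hv
        obtain ⟨w, hw, rfl⟩ := Finset.mem_image.1 hv
        rw [ψu_eq hOp' (Finset.mem_filter.1 hw).2]
        exact div_nonneg (hR w (Finset.mem_filter.1 hw).1) (al_nonneg _ _)
      hθ := by
        intro v hv
        obtain ⟨w, hw, rfl⟩ := Finset.mem_image.1 hv
        rw [ψu_eq hOp (Finset.mem_filter.1 hw).2]
        exact div_nonneg (hR' w (Finset.mem_filter.1 hw).1) (al_nonneg _ _)
      hE := Eu_sub hE S S'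
      h1 := by
        intro e he
        obtain ⟨f, hf, rfl⟩ := Finset.mem_image.1 he
        have hf' := Finset.mem_filter.1 hf
        show (cof (uu O' f.1) (uu O f.2) : ℝ) * ψu O S R' (uu O f.2) ≤ T
        rw [ψu_eq hOp hf'.2.1]
        exact h1 f hf'.1
      h2 := by
        intro e he
        obtain ⟨f, hf, rfl⟩ := Finset.mem_image.1 he
        have hf' := Finset.mem_filter.1 hf
        show (cof (uu O f.2) (uu O' f.1) : ℝ) * ψu O' S' R (uu O' f.1) ≤ T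
        rw [ψu_eq hOp' hf'.2.2]
        exact h2 f hf'.1 }
  have key := hvw_cross_plain hε hε4 hs (z₁ := 1) (z₂ := 1) one_pos one_pos
    (fun v _ => ⟨one_dvd _, Nat.coprime_one_left _⟩) (fun v _ => ⟨one_dvd _, Nat.coprime_one_left _⟩)
  rw [zf_one, one_mul, one_mul, Nat.cast_one, mul_one, div_one] at key
  have eT : (T * T)^(1/2-ε) = T^(1-2*ε) := by
    rw [Real.mul_rpow hT.le hT.le, ← Real.rpow_add hT]; congr 1; ring
  rw [eT, sum_Eu hOp hOp' hE] at key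
  set x := ∑ q ∈ Vg O' V S', mu O' R q with hx
  set y := ∑ r ∈ Vg O W S, mu O R' r with hy
  have hx0 : 0 ≤ x := Finset.sum_nonneg fun q hq => mu_nonneg (hR q (Finset.mem_filter.1 hq).1)
  have hy0 : 0 ≤ y := Finset.sum_nonneg fun q hq => mu_nonneg (hR' q (Finset.mem_filter.1 hq).1)
  have ex : ∑ v ∈ Vu O' V S', wt (ψu O' S' R) v = x / b := by
    rw [eq_div_iff hb.ne']; exact sum_Vu hOp' R
  have ey : ∑ v ∈ Vu O W S, wt (ψu O S R') v = y / a := by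
    rw [eq_div_iff ha.ne']; exact sum_Vu hOp R'
  rw [ex, ey] at key
  calc ∑ e ∈ Eg O O' E S S', F e
      ≤ ∑ e ∈ Eg O O' E S S', (K * (a * b)) *
          (wt (ψu O' S' R) (uu O' e.1) * wt (ψu O S R') (uu O e.2)) := by
        apply Finset.sum_le_sum
        intro e he
        have he' := Finset.mem_filter.1 he
        refine (hF e he'.1).trans (le_of_eq ?_)
        rw [mu_eq hOp', mu_eq hOp, al_eq he'.2.1, al_eq he'.2.2]
        unfold wt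
        rw [ψu_eq hOp he'.2.1, ψu_eq hOp' he'.2.2]
        ring
    _ = (K * (a * b)) * ∑ e ∈ Eg O O' E S S',
          (wt (ψu O' S' R) (uu O' e.1) * wt (ψu O S R') (uu O e.2)) := by rw [Finset.mul_sum]
    _ ≤ (K * (a * b)) * (KH 1 0 ε * (T^(1-2*ε) * (x/b * (y/a))^(1/2+ε))) :=
        mul_le_mul_of_nonneg_left key (by positivity)
    _ = (KH 1 0 ε * T^(1-2*ε)) * ((K * (a * b)) * (x/b * (y/a))^(1/2+ε)) := by ring
    _ = _ := by
        rw [group_alg (α := 1/2-ε) (β := 1/2+ε) ha hb hx0 hy0 (by ring)]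
        show _ = K * (KH 1 0 ε * T^(1-2*ε)) * ((a^(1/2-ε) * y^(1/2+ε)) * (b^(1/2-ε) * x^(1/2+ε)))
        ring


theorem mid_dyadic_x {ε : ℝ} (hε : 0 < ε) (hε4 : ε ≤ 1/4) {O O' S0 S0' V W : Finset ℕ}
    {R R' : ℕ → ℝ} (hO : ∀ p ∈ O, p.Prime) (hO' : ∀ p ∈ O', p.Prime)
    (hV : ∀ w ∈ V, 0 < w ∧ 0 < R w) (hW : ∀ w ∈ W, 0 < w ∧ 0 < R' w)
    (hc : ∀ r ∈ W, miss O r = S0) (hc' : ∀ q ∈ V, miss O' q = S0')
    {K : ℝ} (hK : 0 ≤ K) {F : ℕ × ℕ → ℝ} (n : ℕ) : ∀ E : Finset (ℕ × ℕ), E ⊆ V ×ˢ W →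
    (∀ e ∈ E, Dc O O' R R' e ≤ 1) → (∀ e ∈ E, (1/2:ℝ)^n < Dc O O' R R' e) →
    (∀ e ∈ E, F e ≤ K * ((mu O' R e.1 * mu O R' e.2) / Dc O O' R R' e)) →
    ∑ e ∈ E, F e ≤ n * (2 * K * KH 1 0 ε * (2:ℝ)^(2*ε*n)) *
      ((gg S0 S0')^(1/2-ε) *
      ((∑ q ∈ V, mu O' R q) * (∑ r ∈ W, mu O R' r))^(1/2+ε)) := by
  classical
  set Z := (gg S0 S0')^(1/2-ε) *
      ((∑ q ∈ V, mu O' R q) * (∑ r ∈ W, mu O R' r))^(1/2+ε) with hZ
  have hKH := (KH_pos 1 0 ε).le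
  have hmu : ∀ q ∈ V, 0 ≤ mu O' R q := fun q hq => mu_nonneg (hV q hq).2.le
  have hmu' : ∀ q ∈ W, 0 ≤ mu O R' q := fun q hq => mu_nonneg (hW q hq).2.le
  have hZ0 : 0 ≤ Z := by
    apply mul_nonneg (Real.rpow_nonneg (gg_nonneg _ _) _)
    apply Real.rpow_nonneg
    exact mul_nonneg (Finset.sum_nonneg hmu) (Finset.sum_nonneg hmu')
  induction n with
  | zero =>
    intro E hE h1 h2 _
    have : E = ∅ := by
      rw [Finset.eq_empty_iff_forall_notMem]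
      intro e he
      have a := h1 e he
      have b := h2 e he
      simp at b
      linarith
    rw [this]; simp
  | succ n ih =>
    intro E hE h1 h2 hF
    set E1 := E.filter (fun e => (1/2:ℝ)^n < Dc O O' R R' e) with hE1
    set E2 := E.filter (fun e => ¬ (1/2:ℝ)^n < Dc O O' R R' e) with hE2
    have hsplit : ∑ e ∈ E, F e = ∑ e ∈ E1, F e + ∑ e ∈ E2, F e := by
      rw [hE1, hE2, Finset.sum_filter_add_sum_filter_not]
    have s1 : ∀ e ∈ E1, e ∈ E := fun e he => (Finset.mem_filter.1 he).1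
    have s2 : ∀ e ∈ E2, e ∈ E := fun e he => (Finset.mem_filter.1 he).1
    have b1 := ih E1 (fun e he => hE (s1 e he)) (fun e he => h1 e (s1 e he))
      (fun e he => (Finset.mem_filter.1 he).2) (fun e he => hF e (s1 e he))
    have h2n : (0:ℝ) < (1/2:ℝ)^n := by positivity
    have b2 := mid_x hε hε4 (O := O) (O' := O') (V := V) (W := W) (E := E2) (R := R) (R' := R')
      (T := (1/2:ℝ)^n) (K := K * 2^(n+1)) (F := F) hO hO' (fun w hw => (hV w hw).1)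
      (fun w hw => (hW w hw).1) (fun w hw => (hV w hw).2.le) (fun w hw => (hW w hw).2.le)
      (fun e he => hE (s2 e he)) hc hc' h2n (by positivity)
      (fun e he => (le_max_right _ _).trans (not_lt.1 (Finset.mem_filter.1 he).2))
      (fun e he => (le_max_left _ _).trans (not_lt.1 (Finset.mem_filter.1 he).2))
      (by
        intro e he
        have h3 := h2 e (s2 e he)
        have h4 : (0:ℝ) < (1/2:ℝ)^(n+1) := by positivity
        have h5 : 0 < Dc O O' R R' e := h4.trans h3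
        have h := Finset.mem_product.1 (hE (s2 e he))
        have h6 : 0 ≤ mu O' R e.1 * mu O R' e.2 := mul_nonneg (hmu _ h.1) (hmu' _ h.2)
        refine (hF e (s2 e he)).trans ?_
        rw [mul_assoc]
        apply mul_le_mul_of_nonneg_left _ hK
        rw [div_le_iff₀ h5]
        have h7 : 1 ≤ 2^(n+1) * Dc O O' R R' e := by
          have h8 : (2:ℝ)^(n+1) * (1/2:ℝ)^(n+1) = 1 := by rw [← mul_pow]; norm_num
          have h9 : (0:ℝ) < 2^(n+1) := by positivity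
          nlinarith [mul_lt_mul_of_pos_left h3 h9]
        calc mu O' R e.1 * mu O R' e.2 = (mu O' R e.1 * mu O R' e.2) * 1 := (mul_one _).symm
          _ ≤ (mu O' R e.1 * mu O R' e.2) * (2^(n+1) * Dc O O' R R' e) :=
              mul_le_mul_of_nonneg_left h7 h6
          _ = _ := by ring)
    have e1 : (2:ℝ)^(n+1) * ((1/2:ℝ)^n)^(1-2*ε) = 2 * (2:ℝ)^(2*ε*n) := by
      have h2 : (0:ℝ) < 2 := by norm_num
      have a1 : ((1/2:ℝ)^n) = (2:ℝ)^(-(n:ℝ)) := by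
        rw [Real.rpow_neg h2.le, Real.rpow_natCast, one_div, inv_pow]
      rw [a1, ← Real.rpow_mul h2.le]
      have a2 : (2:ℝ)^(n+1) = 2 * (2:ℝ)^((n:ℝ)) := by rw [Real.rpow_natCast, pow_succ]; ring
      rw [a2, mul_assoc, ← Real.rpow_add h2]
      congr 2
      ring
    have hb2 : ∑ e ∈ E2, F e ≤ (2 * K * KH 1 0 ε * (2:ℝ)^(2*ε*n)) * Z := by
      refine b2.trans (le_of_eq ?_)
      have e2 : K * 2^(n+1) * (KH 1 0 ε * ((1/2:ℝ)^n)^(1-2*ε)) = 2 * K * KH 1 0 ε * (2:ℝ)^(2*ε*n) := by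
        calc K * 2^(n+1) * (KH 1 0 ε * ((1/2:ℝ)^n)^(1-2*ε))
            = K * KH 1 0 ε * (2^(n+1) * ((1/2:ℝ)^n)^(1-2*ε)) := by ring
          _ = _ := by rw [e1]; ring
      rw [e2, mul_assoc]
    have hmono : (2:ℝ)^(2*ε*n) ≤ (2:ℝ)^(2*ε*((n+1 : ℕ):ℝ)) := by
      apply Real.rpow_le_rpow_of_exponent_le (by norm_num)
      push_cast
      nlinarith
    have hq : (2 * K * KH 1 0 ε * (2:ℝ)^(2*ε*n)) ≤ (2 * K * KH 1 0 ε * (2:ℝ)^(2*ε*((n+1 : ℕ):ℝ))) :=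
      mul_le_mul_of_nonneg_left hmono (by positivity)
    rw [hsplit]
    calc ∑ e ∈ E1, F e + ∑ e ∈ E2, F e
        ≤ n * (2 * K * KH 1 0 ε * (2:ℝ)^(2*ε*n)) * Z + (2 * K * KH 1 0 ε * (2:ℝ)^(2*ε*n)) * Z :=
          add_le_add b1 hb2
      _ = ((n:ℝ) + 1) * ((2 * K * KH 1 0 ε * (2:ℝ)^(2*ε*n)) * Z) := by ring
      _ ≤ ((n:ℝ) + 1) * ((2 * K * KH 1 0 ε * (2:ℝ)^(2*ε*((n+1 : ℕ):ℝ))) * Z) := by
          apply mul_le_mul_of_nonneg_left _ (by positivity)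
          exact mul_le_mul_of_nonneg_right hq hZ0
      _ = _ := by push_cast; ring


theorem match_x {O O' S0 S0' V W : Finset ℕ} {E : Finset (ℕ × ℕ)}
    {R R' : ℕ → ℝ} (hO : ∀ p ∈ O, p.Prime) (hO' : ∀ p ∈ O', p.Prime)
    (hV : ∀ w ∈ V, 0 < w ∧ 0 < R w) (hW : ∀ w ∈ W, 0 < w ∧ 0 < R' w) (hE : E ⊆ V ×ˢ W)
    (hc : ∀ r ∈ W, miss O r = S0) (hc' : ∀ q ∈ V, miss O' q = S0')
    (hm1 : ∀ e ∈ E, ∀ f ∈ E, miss O e.2 = miss O f.2 → e.1 = f.1 → e.2 = f.2)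
    (hm2 : ∀ e ∈ E, ∀ f ∈ E, miss O' e.1 = miss O' f.1 → e.2 = f.2 → e.1 = f.1)
    {K : ℝ} (hK : 0 ≤ K) {F : ℕ × ℕ → ℝ}
    (hF : ∀ e ∈ E, F e ≤ K * ((R e.1 * R' e.2) / Dc O O' R R' e)) :
    ∑ e ∈ E, F e ≤ K *
      (gg S0 S0')^(1/2:ℝ) *
      ((∑ q ∈ V, R q) * (∑ r ∈ W, R' r))^(1/2:ℝ) := by
  classical
  have hOp : ∀ p ∈ O, p.Prime := hO
  have hOp' : ∀ p ∈ O', p.Prime := hO'
  apply group_exact (α := 1/2) (β := 1/2) hE
    (fun q hq => (hV q hq).2.le) (fun q hq => (hW q hq).2.le) hK hc hc'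
  intro S hS S' hS'
  rw [filter_eq_Eg]
  have ha : 0 < ∏ p ∈ S, (1/(p:ℝ)) := Finset.prod_pos fun p hp => by
    have := (hOp p (hS hp)).pos; positivity
  have hb : 0 < ∏ p ∈ S', (1/(p:ℝ)) := Finset.prod_pos fun p hp => by
    have := (hOp' p (hS' hp)).pos; positivity
  set a := ∏ p ∈ S, (1/(p:ℝ)) with had
  set b := ∏ p ∈ S', (1/(p:ℝ)) with hbd
  have hEgE : ∀ e ∈ Eg O O' E S S', e ∈ E := fun e he => (Finset.mem_filter.1 he).1
  have hsubg := Eg_sub (O := O) (O' := O') hE S S'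
  have i1 : ∑ e ∈ Eg O O' E S S', R e.1 ≤ ∑ q ∈ Vg O' V S', R q := by
    have hinj : Set.InjOn Prod.fst (Eg O O' E S S' : Set (ℕ × ℕ)) := by
      intro e he f hf hef
      have he' := Finset.mem_filter.1 (Finset.mem_coe.1 he)
      have hf' := Finset.mem_filter.1 (Finset.mem_coe.1 hf)
      exact Prod.ext hef (hm1 e he'.1 f hf'.1 (he'.2.1.trans hf'.2.1.symm) hef)
    rw [← Finset.sum_image (f := R) (g := Prod.fst) hinj]
    apply Finset.sum_le_sum_of_subset_of_nonneg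
    · intro q hq
      obtain ⟨e, he, rfl⟩ := Finset.mem_image.1 hq
      exact (Finset.mem_product.1 (hsubg he)).1
    · intro q hq _
      exact (hV q (Finset.mem_filter.1 hq).1).2.le
  have i2 : ∑ e ∈ Eg O O' E S S', R' e.2 ≤ ∑ q ∈ Vg O W S, R' q := by
    have hinj : Set.InjOn Prod.snd (Eg O O' E S S' : Set (ℕ × ℕ)) := by
      intro e he f hf hef
      have he' := Finset.mem_filter.1 (Finset.mem_coe.1 he)
      have hf' := Finset.mem_filter.1 (Finset.mem_coe.1 hf)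
      exact Prod.ext (hm2 e he'.1 f hf'.1 (he'.2.2.trans hf'.2.2.symm) hef) hef
    rw [← Finset.sum_image (f := R') (g := Prod.snd) hinj]
    apply Finset.sum_le_sum_of_subset_of_nonneg
    · intro q hq
      obtain ⟨e, he, rfl⟩ := Finset.mem_image.1 hq
      exact (Finset.mem_product.1 (hsubg he)).2
    · intro q hq _
      exact (hW q (Finset.mem_filter.1 hq).1).2.le
  have hn1 : ∀ e ∈ Eg O O' E S S', 0 ≤ R e.1 := fun e he =>
    (hV _ (Finset.mem_product.1 (hE (hEgE e he))).1).2.le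
  have hn2 : ∀ e ∈ Eg O O' E S S', 0 ≤ R' e.2 := fun e he =>
    (hW _ (Finset.mem_product.1 (hE (hEgE e he))).2).2.le
  set x := ∑ q ∈ Vg O' V S', R q with hx
  set y := ∑ r ∈ Vg O W S, R' r with hy
  have hx0 : 0 ≤ x := Finset.sum_nonneg fun q hq => (hV q (Finset.mem_filter.1 hq).1).2.le
  have hy0 : 0 ≤ y := Finset.sum_nonneg fun q hq => (hW q (Finset.mem_filter.1 hq).1).2.le
  calc ∑ e ∈ Eg O O' E S S', F e
      ≤ ∑ e ∈ Eg O O' E S S', K * (Real.sqrt (a * b) * (Real.sqrt (R e.1 * R' e.2))) := by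
        apply Finset.sum_le_sum
        intro e he
        have he' := Finset.mem_filter.1 he
        have h := Finset.mem_product.1 (hE he'.1)
        refine (hF e he'.1).trans ?_
        apply mul_le_mul_of_nonneg_left _ hK
        refine (RR_div_le (N := 0) (fun p hp => ⟨hO p hp, Nat.zero_le _⟩) (fun p hp => ⟨hO' p hp, Nat.zero_le _⟩) (hV _ h.1).1 (hW _ h.2).1 (hV _ h.1).2 (hW _ h.2).2).trans (le_of_eq ?_)
        rw [al_eq he'.2.1, al_eq he'.2.2]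
        rw [← Real.sqrt_mul (mul_nonneg (hn1 e he) hb.le), ← Real.sqrt_mul (mul_nonneg ha.le hb.le)]
        congr 1
        ring
    _ = K * (Real.sqrt (a * b) * ∑ e ∈ Eg O O' E S S', Real.sqrt (R e.1 * R' e.2)) := by
        rw [← Finset.mul_sum, ← Finset.mul_sum]
    _ ≤ K * (Real.sqrt (a * b) * (Real.sqrt x * Real.sqrt y)) := by
        apply mul_le_mul_of_nonneg_left _ hK
        apply mul_le_mul_of_nonneg_left _ (Real.sqrt_nonneg _)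
        refine (sqrt_cs (Eg O O' E S S') (fun e => R e.1) (fun e => R' e.2) hn1 hn2).trans ?_
        exact mul_le_mul (Real.sqrt_le_sqrt i1) (Real.sqrt_le_sqrt i2) (Real.sqrt_nonneg _)
          (Real.sqrt_nonneg _)
    _ = _ := by
        rw [Real.sqrt_mul ha.le]
        simp only [Real.sqrt_eq_rpow]
        show K * (a^(1/2:ℝ) * b^(1/2:ℝ) * (x^(1/2:ℝ) * y^(1/2:ℝ)))
          = K * ((a^(1/2:ℝ) * y^(1/2:ℝ)) * (b^(1/2:ℝ) * x^(1/2:ℝ)))
        ring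


open Crest.Agent.R4.ClsT223 Crest.Agent.R4.ClsS Crest.Agent.R4.ClsB in
/-- deep pairs -/
theorem deepB_x {Gen : ℝ → ℝ → ℝ → ℕ → ℕ → ℝ → ℝ → Prop} {κ : ℝ} (hGen : DeepHyp Gen κ) : ∃ C c0 : ℝ, 1 ≤ C ∧ 0 < c0 ∧ ∀ c1 : ℝ, 0 < c1 → c1 ≤ c0 → ∃ T0 : ℝ, 1 ≤ T0 ∧
    ∀ (T X K : ℝ) (G : ℕ) (O O' S0 S0' V W : Finset ℕ) (E : Finset (ℕ × ℕ)) (R R' : ℕ → ℝ)
    (γ γ' : Finset ℕ → ℝ) (F : ℕ × ℕ → ℝ),
    T0 ≤ T → X ≤ Real.exp (T^c1) → 0 ≤ K → 0 < G →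
    (∀ p ∈ O, p.Prime) → (∀ p ∈ O', p.Prime) →
    (∀ w ∈ V, 0 < w ∧ 0 < R w) → (∀ w ∈ W, 0 < w ∧ 0 < R' w) →
    (∀ z : ℝ, X ≤ z → ∀ w ∈ V, Tame z G (uu O' w)) → (∀ z : ℝ, X ≤ z → ∀ w ∈ W, Tame z G (uu O w)) →
    E ⊆ V ×ˢ W →
    (∀ r ∈ W, miss O r = S0) → (∀ q ∈ V, miss O' q = S0') →
    (∀ e ∈ E, Dc O O' R R' e ≤ 1/T) →
    (∀ e ∈ E, F e ≤ K * ((mu O' R e.1 * mu O R' e.2) / Dc O O' R R' e)) →
    (∀ e ∈ E, ∀ t : ℝ, T ≤ t → 1/(2*t) < Dc O O' R R' e → Dc O O' R R' e ≤ 1/t → 0 < F e →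
      Gen (γ (miss O' e.1)) (γ' (miss O e.2)) t (cof (uu O' e.1) (uu O e.2))
        (cof (uu O e.2) (uu O' e.1)) (Rc O' R e.1) (Rc O R' e.2)) →
    ∑ e ∈ E, F e ≤ C * K * T^(-κ) *
      (gg S0 S0')^(1/2-eps1) *
      ((∑ q ∈ V, mu O' R q) * (∑ r ∈ W, mu O R' r))^(1/2+eps1) := by
  classical
  obtain ⟨C, c0, hC1, hc0, hC⟩ := hGen
  refine ⟨C, c0, hC1, hc0, ?_⟩
  intro c1 hc1 hc10
  obtain ⟨T0, hT01, hT0⟩ := hC c1 hc1 hc10
  refine ⟨T0, hT01, ?_⟩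
  intro T X K G O O' S0 S0' V W E R R' γ γ' F hT hX hK hG hO hO' hV hW hVt hWt hE hc hc' hD hF hgen
  have hOp : ∀ p ∈ O, p.Prime := hO
  have hOp' : ∀ p ∈ O', p.Prime := hO'
  have hTp : 0 < T := by linarith
  have he1 : eps1 = 1/1000 := rfl
  apply group_exact (α := 1/2-eps1) (β := 1/2+eps1) hE
    (fun q hq => mu_nonneg (hV q hq).2.le) (fun q hq => mu_nonneg (hW q hq).2.le) (by positivity) hc hc'
  intro S hS S' hS'
  rw [filter_eq_Eg]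
  have ha : 0 < ∏ p ∈ S, (1/(p:ℝ)) := Finset.prod_pos fun p hp => by
    have := (hOp p (hS hp)).pos; positivity
  have hb : 0 < ∏ p ∈ S', (1/(p:ℝ)) := Finset.prod_pos fun p hp => by
    have := (hOp' p (hS' hp)).pos; positivity
  set a := ∏ p ∈ S, (1/(p:ℝ)) with had
  set b := ∏ p ∈ S', (1/(p:ℝ)) with hbd
  have hinv : ∀ e ∈ Eg O O' E S S', ((∏ p ∈ O' \ S', p) * uu O' e.1, (∏ p ∈ O \ S, p) * uu O e.2) = e := by
    intro e he
    have he' := Finset.mem_filter.1 he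
    rw [← zO_eq he'.2.2, ← zO_eq he'.2.1, uu_mul hOp', uu_mul hOp]
  have hDD : ∀ e ∈ Eg O O' E S S', Crest.Agent.R4.LF11.DD (ψu O' S' R) (ψu O S R') (uu O' e.1, uu O e.2)
      = Dc O O' R R' e := by
    intro e he
    have he' := Finset.mem_filter.1 he
    unfold Crest.Agent.R4.LF11.DD Dc
    show max _ _ = max _ _
    rw [ψu_eq hOp he'.2.1, ψu_eq hOp' he'.2.2]
  have hDpos : ∀ e ∈ Eg O O' E S S', 0 < Dc O O' R R' e := by
    intro e he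
    have he' := Finset.mem_filter.1 he
    have h := Finset.mem_product.1 (hE he'.1)
    unfold Dc
    apply lt_max_of_lt_left
    apply mul_pos
    · have := uu_pos hOp (hW _ h.2).1
      exact_mod_cast Deg709.cof_pos this _
    · exact div_pos (hV _ h.1).2 (al_pos hOp' _)
  have key := hT0 (γ S') (γ' S) T X (K * (a * b)) (Vu O' V S') (Vu O W S) (Eu O O' E S S')
    (ψu O' S' R) (ψu O S R')
    (fun f => F ((∏ p ∈ O' \ S', p) * f.1, (∏ p ∈ O \ S, p) * f.2)) G hT hX (by positivity) hG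
    (by
      intro v hv
      obtain ⟨w, hw, rfl⟩ := Finset.mem_image.1 hv
      have hw' := Finset.mem_filter.1 hw
      refine ⟨uu_pos hOp' (hV w hw'.1).1, ?_⟩
      rw [ψu_eq hOp' hw'.2]
      exact div_pos (hV w hw'.1).2 (al_pos hOp' _))
    (by
      intro v hv
      obtain ⟨w, hw, rfl⟩ := Finset.mem_image.1 hv
      have hw' := Finset.mem_filter.1 hw
      refine ⟨uu_pos hOp (hW w hw'.1).1, ?_⟩
      rw [ψu_eq hOp hw'.2]
      exact div_pos (hW w hw'.1).2 (al_pos hOp _))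
    (by
      intro z hz v hv
      obtain ⟨w, hw, rfl⟩ := Finset.mem_image.1 hv
      exact hVt z hz w (Finset.mem_filter.1 hw).1)
    (by
      intro z hz v hv
      obtain ⟨w, hw, rfl⟩ := Finset.mem_image.1 hv
      exact hWt z hz w (Finset.mem_filter.1 hw).1)
    (Eu_sub hE S S')
    (by
      intro f hf
      obtain ⟨e, he, rfl⟩ := Finset.mem_image.1 hf
      rw [hDD e he]
      exact hD e (Finset.mem_filter.1 he).1)
    (by
      intro f hf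
      obtain ⟨e, he, rfl⟩ := Finset.mem_image.1 hf
      have he' := Finset.mem_filter.1 he
      show F ((∏ p ∈ O' \ S', p) * uu O' e.1, (∏ p ∈ O \ S, p) * uu O e.2) ≤ _
      rw [hDD e he, hinv e he]
      refine (hF e he'.1).trans ?_
      rw [mul_assoc K]
      apply mul_le_mul_of_nonneg_left _ hK
      rw [← mul_div_assoc]
      apply div_le_div_of_nonneg_right _ (hDpos e he).le
      have h := Finset.mem_product.1 (hE he'.1)
      unfold Crest.Agent.R4.LF11.ew wt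
      show _ ≤ (a * b) * ((ψu O' S' R (uu O' e.1) * _) * (ψu O S R' (uu O e.2) * _) * _)
      rw [ψu_eq hOp he'.2.1, ψu_eq hOp' he'.2.2, mu_eq hOp', mu_eq hOp, al_eq he'.2.1, al_eq he'.2.2]
      have f1 := one_le_Af (cof (uu O' e.1) (uu O e.2))
      have f2 := one_le_Af (cof (uu O e.2) (uu O' e.1))
      have f3 : 1 ≤ Af (cof (uu O' e.1) (uu O e.2)) * Af (cof (uu O e.2) (uu O' e.1)) := by nlinarith
      have g1 : 0 ≤ Rc O' R e.1 := div_nonneg (hV _ h.1).2.le (al_nonneg _ _)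
      have g2 : 0 ≤ Rc O R' e.2 := div_nonneg (hW _ h.2).2.le (al_nonneg _ _)
      have g3 : 0 ≤ (a * b) * ((Rc O' R e.1 * ((Nat.totient (uu O' e.1) : ℝ)/(uu O' e.1 : ℕ))) *
          (Rc O R' e.2 * ((Nat.totient (uu O e.2) : ℝ)/(uu O e.2 : ℕ)))) := by positivity
      calc b * (Rc O' R e.1 * ((Nat.totient (uu O' e.1) : ℝ)/(uu O' e.1 : ℕ))) *
            (a * (Rc O R' e.2 * ((Nat.totient (uu O e.2) : ℝ)/(uu O e.2 : ℕ))))
          = ((a * b) * ((Rc O' R e.1 * ((Nat.totient (uu O' e.1) : ℝ)/(uu O' e.1 : ℕ))) *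
          (Rc O R' e.2 * ((Nat.totient (uu O e.2) : ℝ)/(uu O e.2 : ℕ))))) * 1 := by ring
        _ ≤ ((a * b) * ((Rc O' R e.1 * ((Nat.totient (uu O' e.1) : ℝ)/(uu O' e.1 : ℕ))) *
          (Rc O R' e.2 * ((Nat.totient (uu O e.2) : ℝ)/(uu O e.2 : ℕ))))) *
            (Af (cof (uu O' e.1) (uu O e.2)) * Af (cof (uu O e.2) (uu O' e.1))) :=
            mul_le_mul_of_nonneg_left f3 g3
        _ = _ := by ring)
    (by
      intro f hf t ht h1 h2 h3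
      obtain ⟨e, he, rfl⟩ := Finset.mem_image.1 hf
      have he' := Finset.mem_filter.1 he
      rw [hDD e he] at h1 h2
      have h3' : 0 < F e := by rw [← hinv e he]; exact h3
      have h4 := hgen e he'.1 t ht h1 h2 h3'
      show Gen (γ S') (γ' S) t (cof (uu O' e.1) (uu O e.2)) (cof (uu O e.2) (uu O' e.1))
        (ψu O' S' R (uu O' e.1)) (ψu O S R' (uu O e.2))
      rw [ψu_eq hOp he'.2.1, ψu_eq hOp' he'.2.2]
      rw [he'.2.1, he'.2.2] at h4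
      exact h4)
  rw [sum_Eu hOp hOp' hE] at key
  have eF : ∑ e ∈ Eg O O' E S S', F ((∏ p ∈ O' \ S', p) * uu O' e.1, (∏ p ∈ O \ S, p) * uu O e.2)
      = ∑ e ∈ Eg O O' E S S', F e :=
    Finset.sum_congr rfl fun e he => by rw [hinv e he]
  have key2 : ∑ e ∈ Eg O O' E S S', F e ≤ C * (K * (a * b)) * T^(-κ) *
      ((∑ v ∈ Vu O' V S', wt (ψu O' S' R) v) * (∑ w ∈ Vu O W S, wt (ψu O S R') w))^(1/2+eps1) := by
    rw [← eF]; exact key
  set x := ∑ q ∈ Vg O' V S', mu O' R q with hx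
  set y := ∑ r ∈ Vg O W S, mu O R' r with hy
  have hx0 : 0 ≤ x := Finset.sum_nonneg fun q hq => mu_nonneg (hV q (Finset.mem_filter.1 hq).1).2.le
  have hy0 : 0 ≤ y := Finset.sum_nonneg fun q hq => mu_nonneg (hW q (Finset.mem_filter.1 hq).1).2.le
  have ex : ∑ v ∈ Vu O' V S', wt (ψu O' S' R) v = x / b := by
    rw [eq_div_iff hb.ne']; exact sum_Vu hOp' R
  have ey : ∑ v ∈ Vu O W S, wt (ψu O S R') v = y / a := by
    rw [eq_div_iff ha.ne']; exact sum_Vu hOp R'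
  rw [ex, ey] at key2
  refine key2.trans (le_of_eq ?_)
  have h5 := group_alg (α := 1/2-eps1) (β := 1/2+eps1) (K := K) ha hb hx0 hy0 (by ring)
  calc C * (K * (a * b)) * T^(-κ) * (x/b * (y/a))^(1/2+eps1)
      = (C * T^(-κ)) * ((K * (a * b)) * (x/b * (y/a))^(1/2+eps1)) := by ring
    _ = _ := by
        rw [h5]
        show _ = C * K * T^(-κ) * ((a^(1/2-eps1) * y^(1/2+eps1)) * (b^(1/2-eps1) * x^(1/2+eps1)))
        ring




open Classical Crest.Agent.R4.ClsS in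
/-- **low-`D` part of a crossing pair of nodes, exact groups**. -/
theorem cross_core {Gen : ℝ → ℝ → ℝ → ℕ → ℕ → ℝ → ℝ → Prop} {κ : ℝ} (hGen : DeepHyp Gen κ)
    {ε : ℝ} (hε : 0 < ε) (hε4 : ε ≤ 1/4) :
    ∃ C c0 : ℝ, 1 ≤ C ∧ 0 < c0 ∧ ∀ c1 : ℝ, 0 < c1 → c1 ≤ c0 → ∃ T0 : ℝ, 1 ≤ T0 ∧
    ∀ (X K2 L : ℝ) (n G : ℕ) (O O' S0 S0' V W : Finset ℕ) (E : Finset (ℕ × ℕ)) (R R' : ℕ → ℝ)
    (γ γ' : Finset ℕ → ℝ) (F : ℕ × ℕ → ℝ) (PG PE : ℕ × ℕ → Prop),
    T0 ≤ (2:ℝ)^n → X ≤ Real.exp (((2:ℝ)^n)^c1) → 0 < G → 0 ≤ K2 →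
    (∀ p ∈ O, p.Prime) → (∀ p ∈ O', p.Prime) →
    (∀ w ∈ V, 0 < w ∧ 0 < R w) → (∀ w ∈ W, 0 < w ∧ 0 < R' w) →
    (∀ w ∈ V, R w ≤ L * mu O' R w) → (∀ w ∈ W, R' w ≤ L * mu O R' w) →
    (∀ z : ℝ, X ≤ z → ∀ w ∈ V, Crest.Agent.R4.ClsB.Tame z G (uu O' w)) →
    (∀ z : ℝ, X ≤ z → ∀ w ∈ W, Crest.Agent.R4.ClsB.Tame z G (uu O w)) →
    (∀ r ∈ W, miss O r = S0) → (∀ q ∈ V, miss O' q = S0') →
    E ⊆ V ×ˢ W → (∀ e ∈ E, Dc O O' R R' e ≤ 1) →
    (∀ e ∈ E, F e ≤ K2 * ((R e.1 * R' e.2) / Dc O O' R R' e)) →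
    (∀ e ∈ E, PG e → ∀ t : ℝ, (2:ℝ)^n ≤ t → 1/(2*t) < Dc O O' R R' e →
      Dc O O' R R' e ≤ 1/t → 0 < F e →
      Gen (γ (miss O' e.1)) (γ' (miss O e.2)) t (cof (uu O' e.1) (uu O e.2))
        (cof (uu O e.2) (uu O' e.1)) (Rc O' R e.1) (Rc O R' e.2)) →
    (∀ e ∈ E, ∀ f ∈ E, PE e → PE f → e.1 = f.1 → e.2 = f.2) →
    (∀ e ∈ E, ∀ f ∈ E, PE e → PE f → e.2 = f.2 → e.1 = f.1) →
    ∑ e ∈ E, F e ≤
      K2 * L^2 * (n * (2 * KH 1 0 ε * (2:ℝ)^(2*ε*n))) *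
        ((gg S0 S0')^(1/2-ε) * ((∑ q ∈ V, mu O' R q) * (∑ r ∈ W, mu O R' r))^(1/2+ε)) +
      K2 * L^2 * (C * ((2:ℝ)^n)^(-κ)) *
        ((gg S0 S0')^(1/2-eps1) * ((∑ q ∈ V, mu O' R q) * (∑ r ∈ W, mu O R' r))^(1/2+eps1)) +
      K2 * (gg S0 S0')^(1/2:ℝ) * ((∑ q ∈ V, R q) * (∑ r ∈ W, R' r))^(1/2:ℝ) +
      ∑ e ∈ E.filter (fun e => Dc O O' R R' e ≤ 1/2^n ∧ ¬ PG e ∧ ¬ PE e), F e := by
  obtain ⟨C, c0, hC1, hc0, hC⟩ := deepB_x hGen
  refine ⟨C, c0, hC1, hc0, ?_⟩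
  intro c1 hc1 hc10
  obtain ⟨T0, hT01, hT0⟩ := hC c1 hc1 hc10
  refine ⟨T0, hT01, ?_⟩
  intro X K2 L n G O O' S0 S0' V W E R R' γ γ' F PG PE hTn hX hG hK20 hO hO' hV hW
    hLV hLW hVt hWt hc hc' hE hD1 hsmall hgen hm1 hm2
  have h2n : (0:ℝ) < (2:ℝ)^n := by positivity
  set D : ℕ × ℕ → ℝ := Dc O O' R R' with hDdef
  have hDpos : ∀ e ∈ E, 0 < D e := by
    intro e he
    have h := Finset.mem_product.1 (hE he)
    exact Dc_pos (N := 0) (fun p hp => ⟨hO p hp, Nat.zero_le _⟩) (fun p hp => ⟨hO' p hp, Nat.zero_le _⟩)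
      (hV _ h.1).2 (hW _ h.2).1
  have hmu : ∀ q ∈ V, 0 ≤ mu O' R q := fun q hq => mu_nonneg (hV q hq).2.le
  have hmu' : ∀ q ∈ W, 0 ≤ mu O R' q := fun q hq => mu_nonneg (hW q hq).2.le
  set EY := E.filter (fun e => (1/2:ℝ)^n < D e) with hEY
  set EX := E.filter (fun e => ¬ (1/2:ℝ)^n < D e) with hEX
  set EG := EX.filter (fun e => PG e) with hEG
  set EH := EX.filter (fun e => ¬ PG e) with hEH
  set EE := EH.filter (fun e => PE e) with hEE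
  set ER := EH.filter (fun e => ¬ PE e) with hER
  have hsplit : ∑ e ∈ E, F e = ∑ e ∈ EY, F e +
      (∑ e ∈ EG, F e + (∑ e ∈ EE, F e + ∑ e ∈ ER, F e)) := by
    rw [hEE, hER, Finset.sum_filter_add_sum_filter_not, hEG, hEH, Finset.sum_filter_add_sum_filter_not,
      hEY, hEX, Finset.sum_filter_add_sum_filter_not]
  have hYE : ∀ e ∈ EY, e ∈ E := fun e he => (Finset.mem_filter.1 he).1
  have hXE : ∀ e ∈ EX, e ∈ E := fun e he => (Finset.mem_filter.1 he).1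
  have hGX : ∀ e ∈ EG, e ∈ EX := fun e he => (Finset.mem_filter.1 he).1
  have hHX : ∀ e ∈ EH, e ∈ EX := fun e he => (Finset.mem_filter.1 he).1
  have hEEH : ∀ e ∈ EE, e ∈ EH := fun e he => (Finset.mem_filter.1 he).1
  have hRR : ∀ e ∈ E, R e.1 * R' e.2 ≤ L^2 * (mu O' R e.1 * mu O R' e.2) := by
    intro e he
    have h := Finset.mem_product.1 (hE he)
    have h1 := hLV _ h.1
    have h2 := hLW _ h.2
    have h3 := (hW _ h.2).2
    have h5 : 0 ≤ L * mu O' R e.1 := (hV _ h.1).2.le.trans h1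
    calc R e.1 * R' e.2 ≤ (L * mu O' R e.1) * (L * mu O R' e.2) :=
          mul_le_mul h1 h2 h3.le h5
      _ = _ := by ring
  have hFmu : ∀ e ∈ E, F e ≤ K2 * L^2 * ((mu O' R e.1 * mu O R' e.2) / D e) := by
    intro e he
    calc F e ≤ K2 * ((R e.1 * R' e.2) / D e) := hsmall e he
      _ ≤ K2 * ((L^2 * (mu O' R e.1 * mu O R' e.2)) / D e) :=
          mul_le_mul_of_nonneg_left (div_le_div_of_nonneg_right (hRR e he) (hDpos e he).le) hK20
      _ = K2 * L^2 * ((mu O' R e.1 * mu O R' e.2) / D e) := by ring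
  have boundY := mid_dyadic_x hε hε4 hO hO'
    hV hW hc hc' (K := K2 * L^2) (by positivity) (F := F) n EY
    (fun e he => hE (hYE e he)) (fun e he => hD1 e (hYE e he))
    (fun e he => (Finset.mem_filter.1 he).2) (fun e he => hFmu e (hYE e he))
  have hpow : (1/2:ℝ)^n = 1/2^n := by rw [div_pow, one_pow]
  have hEXD : ∀ e ∈ EX, D e ≤ 1/2^n := by
    intro e he
    have := not_lt.1 (Finset.mem_filter.1 he).2
    rw [hpow] at this
    exact this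
  have boundG := hT0 ((2:ℝ)^n) X (K2 * L^2) G O O' S0 S0' V W EG R R' γ γ' F hTn hX (by positivity) hG hO hO'
    hV hW hVt hWt (fun e he => hE (hXE e (hGX e he))) hc hc'
    (fun e he => hEXD e (hGX e he))
    (fun e he => hFmu e (hXE e (hGX e he)))
    (by
      intro e he t ht h1 h2 h3
      exact hgen e (hXE e (hGX e he)) (Finset.mem_filter.1 he).2 t ht h1 h2 h3)
  have boundE := match_x (E := EE) hO hO' hV hW
    (fun e he => hE (hXE e (hHX e (hEEH e he)))) hc hc'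
    (by
      intro e he f hf _
      exact hm1 e (hXE e (hHX e (hEEH e he))) f (hXE f (hHX f (hEEH f hf)))
        (Finset.mem_filter.1 he).2 (Finset.mem_filter.1 hf).2)
    (by
      intro e he f hf _
      exact hm2 e (hXE e (hHX e (hEEH e he))) f (hXE f (hHX f (hEEH f hf)))
        (Finset.mem_filter.1 he).2 (Finset.mem_filter.1 hf).2) (K := K2) hK20 (F := F)
    (fun e he => hsmall e (hXE e (hHX e (hEEH e he))))
  have eR : ER = E.filter (fun e => D e ≤ 1/2^n ∧ ¬ PG e ∧ ¬ PE e) := by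
    ext e
    constructor
    · intro he
      have h1 : e ∈ EH := (Finset.mem_filter.1 he).1
      have h2 := hHX e h1
      exact Finset.mem_filter.2 ⟨hXE e h2, hEXD e h2, (Finset.mem_filter.1 h1).2,
        (Finset.mem_filter.1 he).2⟩
    · intro he
      obtain ⟨h0, h2, h3, h4⟩ := Finset.mem_filter.1 he
      exact Finset.mem_filter.2 ⟨Finset.mem_filter.2 ⟨Finset.mem_filter.2
        ⟨h0, not_lt.2 (by rw [hpow]; exact h2)⟩, h3⟩, h4⟩
  rw [hsplit, ← eR]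
  set Y1 := ((∑ q ∈ V, mu O' R q) * (∑ r ∈ W, mu O R' r))^(1/2+eps1) with hY1
  set Y2 := ((∑ q ∈ V, mu O' R q) * (∑ r ∈ W, mu O R' r))^(1/2+ε) with hY2
  have f1 : K2 * L^2 * (n * (2 * KH 1 0 ε * (2:ℝ)^(2*ε*n))) * ((gg S0 S0')^(1/2-ε) * Y2)
      = n * (2 * (K2 * L^2) * KH 1 0 ε * (2:ℝ)^(2*ε*n)) * ((gg S0 S0')^(1/2-ε) * Y2) := by ring
  have f2 : K2 * L^2 * (C * ((2:ℝ)^n)^(-κ)) * ((gg S0 S0')^(1/2-eps1) * Y1)
      = C * (K2 * L^2) * ((2:ℝ)^n)^(-κ) * (gg S0 S0')^(1/2-eps1) * Y1 := by ring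
  rw [f1, f2]
  linarith

end Crest.Agent.R4.CrossCore223
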