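import Mathlib
import Crest.Agent.R4.NMW710

/-!
R4 (S0004), helper709, module D: INVARIANCE along the cross walk. The side datum of an item at a node is
`(u, g) = (w / gcd(M, w), rf w M * β)`, `w = q / pr`, `β = b / c`. At a prime `p` a side either DROPS `p`
(`p ∣ u`, `u → u / p`: pull, or average with `p ∣ w`) or RAISES (`p ∤ u`, `g → p g`: missing branch, or average with
`p ∤ w`). Unless both raise, the scale pair `sc = (y g, x g')` does not change.
-/

set_option autoImplicit false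

namespace Crest.Agent.R4.CrossInv709
open Crest.Agent.R4.HVW560 Crest.Agent.R4.AvgItem710 Crest.Agent.R4.Deg709

/-- side datum -/
noncomputable def sd (w M : ℕ) (β : ℝ) : ℕ × ℝ := (w / M.gcd w, (rf w M : ℝ) * β)

/-- a move of one side at `p`: `true` = drop, `false` = raise -/
inductive Mv (p : ℕ) : Bool → ℕ × ℝ → ℕ × ℝ → Prop
  | drop (u : ℕ) (g : ℝ) : Mv p true (p * u, g) (u, g)
  | raise (u : ℕ) (g : ℝ) (h : ¬ p ∣ u) : Mv p false (u, g) (u, p * g)

lemma gcd_mul_right' {p M w : ℕ} (hp : p.Prime) (hM : ¬ p ∣ M) : M.gcd (p * w) = M.gcd w := by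
  have hc : Nat.Coprime p M := (Nat.Prime.coprime_iff_not_dvd hp).2 hM
  exact Nat.Coprime.gcd_mul_left_cancel_right w hc

/-- the present branch (`pr → p pr`, `w → w / p`) drops `p` -/
theorem mv_pull {p M w : ℕ} (hp : p.Prime) (hM : ¬ p ∣ M) (β : ℝ) :
    Mv p true (sd (p * w) M β) (sd w M β) := by
  have h1 : M.gcd (p * w) = M.gcd w := gcd_mul_right' hp hM
  have e : sd (p * w) M β = (p * (w / M.gcd w), (rf w M : ℝ) * β) := by
    unfold sd rf
    rw [h1, Nat.mul_div_assoc _ (Nat.gcd_dvd_right M w)]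
  rw [e]
  exact Mv.drop _ _

/-- the missing branch (`b → p b`) raises -/
theorem mv_miss {p M w : ℕ} (hw : ¬ p ∣ w) (β : ℝ) : Mv p false (sd w M β) (sd w M (p * β)) := by
  have e : sd w M (p * β) = (w / M.gcd w, p * ((rf w M : ℝ) * β)) := by
    unfold sd
    rw [Prod.mk.injEq]
    exact ⟨rfl, by ring⟩
  rw [e]
  refine Mv.raise _ _ fun h => hw ?_
  exact h.trans (Nat.div_dvd_of_dvd (Nat.gcd_dvd_right _ _))

/-- averaging over `p` an item divisible by `p` drops `p` -/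
theorem mv_avg_dvd {p M w : ℕ} (hp : p.Prime) (hM : ¬ p ∣ M) (β : ℝ) :
    Mv p true (sd (p * w) M β) (sd (p * w) (p * M) β) := by
  have h1 : M.gcd (p * w) = M.gcd w := gcd_mul_right' hp hM
  have h2 : (p * M).gcd (p * w) = p * M.gcd w := Nat.gcd_mul_left _ _ _
  have e : sd (p * w) M β = (p * (w / M.gcd w), (rf w M : ℝ) * β) := by
    unfold sd rf
    rw [h1, Nat.mul_div_assoc _ (Nat.gcd_dvd_right M w)]
  have e2 : sd (p * w) (p * M) β = (w / M.gcd w, (rf w M : ℝ) * β) := by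
    unfold sd rf
    rw [h2, Nat.mul_div_mul_left _ _ hp.pos, Nat.mul_div_mul_left _ _ hp.pos]
  rw [e, e2]
  exact Mv.drop _ _

/-- averaging over `p` an item not divisible by `p` raises -/
theorem mv_avg_not {p M w : ℕ} (hp : p.Prime) (hw : ¬ p ∣ w) (β : ℝ) :
    Mv p false (sd w M β) (sd w (p * M) β) := by
  have hc : Nat.Coprime p w := (Nat.Prime.coprime_iff_not_dvd hp).2 hw
  have h1 : (p * M).gcd w = M.gcd w := Nat.Coprime.gcd_mul_left_cancel M hc
  have e : sd w (p * M) β = (w / M.gcd w, p * ((rf w M : ℝ) * β)) := by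
    unfold sd rf
    rw [h1, Prod.mk.injEq]
    refine ⟨rfl, ?_⟩
    rw [Nat.mul_div_assoc _ (Nat.gcd_dvd_left M w)]
    push_cast
    ring
  rw [e]
  refine Mv.raise _ _ fun h => hw ?_
  exact h.trans (Nat.div_dvd_of_dvd (Nat.gcd_dvd_right _ _))

/-- the scale pair `(y g, x g')` -/
noncomputable def sc (a a' : ℕ × ℝ) : ℝ × ℝ :=
  ((cof a'.1 a.1 : ℝ) * a.2, (cof a.1 a'.1 : ℝ) * a'.2)

lemma cof_mul_mul {p : ℕ} (hp : 0 < p) (u v : ℕ) : cof (p * u) (p * v) = cof u v := by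
  unfold cof
  rw [Nat.gcd_mul_left, Nat.mul_div_mul_left _ _ hp]

lemma cof_mul_r {p u v : ℕ} (hp : p.Prime) (hu : ¬ p ∣ u) : cof u (p * v) = cof u v := by
  unfold cof
  rw [gcd_mul_right' hp hu]

lemma cof_mul_l {p u v : ℕ} (hp : p.Prime) (hv : ¬ p ∣ v) : cof (p * u) v = p * cof u v := by
  unfold cof
  have : (p * u).gcd v = u.gcd v := by
    rw [Nat.gcd_comm, gcd_mul_right' hp hv, Nat.gcd_comm]
  rw [this, Nat.mul_div_assoc _ (Nat.gcd_dvd_left u v)]

/-- **the scale pair is invariant** unless both sides raise -/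
theorem sc_inv {p : ℕ} (hp : p.Prime) {i i' : Bool} {a a' c c' : ℕ × ℝ} (h : Mv p i a c)
    (h' : Mv p i' a' c') (hi : i = true ∨ i' = true) : sc c c' = sc a a' := by
  have hp0 : (p:ℝ) ≠ 0 := by exact_mod_cast hp.ne_zero
  cases h with
  | drop u g =>
    cases h' with
    | drop u' g' =>
      unfold sc
      simp only [cof_mul_mul hp.pos]
    | raise u' g' hu' =>
      unfold sc
      simp only [cof_mul_r hp hu', cof_mul_l hp hu']
      push_cast
      rw [Prod.mk.injEq]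
      exact ⟨rfl, by ring⟩
  | raise u g hu =>
    cases h' with
    | drop u' g' =>
      unfold sc
      simp only [cof_mul_r hp hu, cof_mul_l hp hu]
      push_cast
      rw [Prod.mk.injEq]
      exact ⟨by ring, rfl⟩
    | raise u' g' hu' => simp at hi

/-- **exits** multiply the scale pair by `p` -/
theorem sc_exit {p : ℕ} {a a' c c' : ℕ × ℝ} (h : Mv p false a c) (h' : Mv p false a' c') :
    sc c c' = (p * (sc a a').1, p * (sc a a').2) := by
  cases h with
  | raise u g hu =>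
    cases h' with
    | raise u' g' hu' =>
      unfold sc
      rw [Prod.mk.injEq]
      exact ⟨by ring, by ring⟩

/-- the scale `Da` of a pair in the letters of `sc` -/
theorem Da_eq_sc (w M w' M' : ℕ) (β β' r r' : ℝ) :
    Da w M w' M' (β * r) (β' * r') = max ((sc (sd w M β) (sd w' M' β')).1 * r)
      ((sc (sd w M β) (sd w' M' β')).2 * r') := by
  unfold Da Dp sc sd
  congr 1 <;> ring

/-- the scale `Dq` of 710 -/
theorem Dq_eq_sc (ρ : ℕ → ℝ) (M b pr c M' b' pr' c' : ℕ) (e : ℕ × ℕ) :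
    NMW710.Dq ρ M b pr c M' b' pr' c' e =
      max ((sc (sd (e.1 / pr) M ((b:ℝ) / c)) (sd (e.2 / pr') M' ((b':ℝ) / c'))).1 * ρ e.1)
        ((sc (sd (e.1 / pr) M ((b:ℝ) / c)) (sd (e.2 / pr') M' ((b':ℝ) / c'))).2 * ρ e.2) :=
  Da_eq_sc _ _ _ _ _ _ _ _

/-- the relation in the letters of `sc`: no cofactors left -/
def RelSc (s : ℝ × ℝ) (γ r r' : ℝ) : Prop :=
  ∃ k : ℤ, |k + (s.1 - s.2) * γ| ≤ 2 * max (s.1 * r) (s.2 * r')

/-- **the relation is a relation of the scale pair** -/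
theorem rel_iff_sc {a a' : ℕ × ℝ} (h : 0 < a.1) (γ r r' : ℝ) :
    (∃ m m' : ℤ, |(m + a.2 * γ) * (cof a'.1 a.1 : ℕ) - (m' + a'.2 * γ) * (cof a.1 a'.1 : ℕ)| ≤
      2 * max ((cof a'.1 a.1 : ℕ) * (a.2 * r)) ((cof a.1 a'.1 : ℕ) * (a'.2 * r'))) ↔
    RelSc (sc a a') γ r r' := by
  have hD : max (((cof a'.1 a.1 : ℕ):ℝ) * (a.2 * r)) (((cof a.1 a'.1 : ℕ):ℝ) * (a'.2 * r'))
      = max ((sc a a').1 * r) ((sc a a').2 * r') := by
    unfold sc; congr 1 <;> ring
  unfold RelSc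
  rw [← hD]
  constructor
  · rintro ⟨m, m', hm⟩
    refine ⟨m * (cof a'.1 a.1 : ℕ) - m' * (cof a.1 a'.1 : ℕ), ?_⟩
    convert hm using 2
    unfold sc
    push_cast
    ring
  · rintro ⟨k, hk⟩
    have hcop : IsCoprime ((cof a'.1 a.1 : ℕ) : ℤ) ((cof a.1 a'.1 : ℕ) : ℤ) :=
      (Nat.isCoprime_iff_coprime.2 (AvgItem710.cof_coprime (w := a.1) (w' := a'.1) h)).symm
    obtain ⟨s, t, hst⟩ := hcop
    refine ⟨k * s, -(k * t), ?_⟩
    have e : ((k * s : ℤ):ℝ) * (cof a'.1 a.1 : ℕ) - ((-(k * t) : ℤ):ℝ) * (cof a.1 a'.1 : ℕ) = k := by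
      have : (k * s) * ((cof a'.1 a.1 : ℕ) : ℤ) - (-(k * t)) * ((cof a.1 a'.1 : ℕ) : ℤ) = k := by
        linear_combination k * hst
      exact_mod_cast this
    convert hk using 2
    unfold sc
    simp only
    linear_combination e

/-! ### the bound of an item pair in the letters of the crossing level -/

lemma pbd_six {θ r θ' r' : ℝ} {w M w' M' : ℕ} (hr : 0 ≤ r) (hr' : 0 ≤ r') (hD : 0 < Da w M w' M' r r') :
    pbd θ r w M θ' r' w' M' ≤ 6 * (r * r') * max 1 (1 / Da w M w' M' r r') := by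
  have h := pbd_le_all (θ := θ) (θ' := θ') (w := w) (M := M) (w' := w') (M' := M') hr hr'
  refine h.trans ?_
  have h0 : 0 ≤ r * r' := mul_nonneg hr hr'
  have h1 := le_max_left 1 (1 / Da w M w' M' r r')
  have h2 := le_max_right 1 (1 / Da w M w' M' r r')
  have h3 : r * r' / Da w M w' M' r r' = r * r' * (1 / Da w M w' M' r r') := by ring
  rw [h3]
  nlinarith [mul_le_mul_of_nonneg_left h1 h0, mul_le_mul_of_nonneg_left h2 h0]

/-- **un-raised columns and stops**: at the crossing scale `D ≤ 1`, `6 R R' max(1, 1/D) ≤ 6 R R'/D`; **raised exits**: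
radii `p R`, `p R'`, scale `p D`, path weight `1/p²` -/
lemma raised_le {p D : ℝ} (hp : 1 ≤ p) (hD : 0 < D) (hD1 : D ≤ 1) {RR : ℝ} (hR : 0 ≤ RR) :
    1 / p ^ 2 * (6 * (p ^ 2 * RR) * max 1 (1 / (p * D))) ≤ 6 * RR / D := by
  have hp0 : 0 < p := by linarith
  have e : 1 / p ^ 2 * (6 * (p ^ 2 * RR) * max 1 (1 / (p * D))) = 6 * RR * max 1 (1 / (p * D)) := by
    field_simp
  rw [e, mul_div_assoc, mul_assoc]
  have h1 : max 1 (1 / (p * D)) ≤ 1 / D := by
    apply max_le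
    · rw [le_div_iff₀ hD]; linarith
    · apply one_div_le_one_div_of_le hD
      nlinarith
  calc 6 * (RR * max 1 (1 / (p * D))) ≤ 6 * (RR * (1 / D)) := by gcongr
    _ = 6 * (RR / D) := by ring

end Crest.Agent.R4.CrossInv709
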