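import Mathlib
import Crest.Agent.R4.CrossInv709
import Crest.Agent.R4.WalkYR560
import Crest.Agent.R4.OSCol710

/-!
R4 (S0004), helper709, module D: LOCAL BOUNDS of the cross walk (`WalkYR560`) at one state, in the letters of the
invariant scale pair `sc` of `CrossInv709`.

* `Fsc γ r r' s` : value of an item pair with radii `r, r'` (leaf radii) and scale pair `s`; `Flo` its low part
  (`D ≤ 1/2`, related), `Fsc ≤ 8 r r' + Flo`.
* `pb_sc` : `D.pb … = (b/c) (b'/c') Fsc`.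
* `nm_loc`, `os_loc`, `qs_loc`, `exit_tt`, `exit_t2` : the symbols.
-/

set_option autoImplicit false
set_option linter.unusedSectionVars false
set_option linter.unusedVariables false
open Finset

namespace Crest.Agent.R4.CrossLoc709

open Crest.Agent.R4.HVW560 Crest.Agent.R4.AvgItem710 Crest.Agent.R4.Deg709
open Crest.Agent.R4.CrossInv709

/-- the relation in the letters of the scale pair -/
def RelN (γ r r' : ℝ) (s : ℝ × ℝ) : Prop :=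
  ∃ n : ℤ, |(n:ℝ) - (s.2 * γ - s.1 * γ)| ≤ s.1 * r + s.2 * r'

/-- the scale -/
noncomputable def Dsc (r r' : ℝ) (s : ℝ × ℝ) : ℝ := max (s.1 * r) (s.2 * r')

open Classical in
/-- value of an item pair in the letters of the scale pair, radii of the leaves -/
noncomputable def Fsc (γ r r' : ℝ) (s : ℝ × ℝ) : ℝ :=
  if Dsc r r' s ≤ 1 / 2 then (if RelN γ r r' s then 2 * (r * r' / Dsc r r' s) else 0)
  else 4 * (r * r') + 2 * (r * r' / Dsc r r' s)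

open Classical in
/-- its low part -/
noncomputable def Flo (γ r r' : ℝ) (s : ℝ × ℝ) : ℝ :=
  if Dsc r r' s ≤ 1 / 2 ∧ RelN γ r r' s then 2 * (r * r' / Dsc r r' s) else 0

lemma Flo_nonneg {γ r r' : ℝ} {s : ℝ × ℝ} (hr : 0 ≤ r) (hr' : 0 ≤ r') (hs : 0 ≤ s.1) :
    0 ≤ Flo γ r r' s := by
  have h0 : 0 ≤ Dsc r r' s := le_max_of_le_left (mul_nonneg hs hr)
  unfold Flo
  split_ifs
  · positivity
  · exact le_rfl

lemma Fsc_nonneg {γ r r' : ℝ} {s : ℝ × ℝ} (hr : 0 ≤ r) (hr' : 0 ≤ r') (hs : 0 ≤ s.1) :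
    0 ≤ Fsc γ r r' s := by
  have h0 : 0 ≤ Dsc r r' s := le_max_of_le_left (mul_nonneg hs hr)
  unfold Fsc
  split_ifs
  · positivity
  · exact le_rfl
  · positivity

/-- high pairs pay `8 r r'`, low pairs are related -/
lemma Fsc_le {γ r r' : ℝ} {s : ℝ × ℝ} (hr : 0 ≤ r) (hr' : 0 ≤ r') :
    Fsc γ r r' s ≤ 8 * (r * r') + Flo γ r r' s := by
  have h0 : 0 ≤ r * r' := mul_nonneg hr hr'
  unfold Fsc Flo
  by_cases h1 : Dsc r r' s ≤ 1 / 2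
  · by_cases h2 : RelN γ r r' s
    · rw [if_pos h1, if_pos h2, if_pos ⟨h1, h2⟩]; linarith
    · rw [if_pos h1, if_neg h2, if_neg (fun h => h2 h.2)]; linarith
  · rw [if_neg h1, if_neg (fun h => h1 h.1)]
    push Not at h1
    have h3 : r * r' / Dsc r r' s ≤ 2 * (r * r') := by
      rw [div_le_iff₀ (by linarith)]
      nlinarith
    linarith

lemma Dsc_mul (r r' p : ℝ) (hp : 0 ≤ p) (s : ℝ × ℝ) :
    Dsc r r' (p * s.1, p * s.2) = p * Dsc r r' s := by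
  unfold Dsc
  rw [mul_max_of_nonneg _ _ hp]
  congr 1 <;> ring

open Classical in
/-- **`pbd` in the letters of the scale pair** -/
theorem pbd_sc (w M w' M' : ℕ) (β β' γ r r' : ℝ) :
    pbd (β * γ) (β * r) w M (β' * γ) (β' * r') w' M' =
      β * β' * Fsc γ r r' (sc (sd w M β) (sd w' M' β')) := by
  have hD : Da w M w' M' (β * r) (β' * r') = Dsc r r' (sc (sd w M β) (sd w' M' β')) :=
    Da_eq_sc w M w' M' β β' r r'
  have hR : Ra (β * γ) (β * r) w M (β' * γ) (β' * r') w' M' ↔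
      RelN γ r r' (sc (sd w M β) (sd w' M' β')) := by
    unfold Ra AvgItem710.Rel RelN sc sd
    constructor
    · rintro ⟨n, hn⟩
      refine ⟨n, ?_⟩
      convert hn using 2 <;> ring
    · rintro ⟨n, hn⟩
      refine ⟨n, ?_⟩
      convert hn using 2 <;> ring
  unfold pbd Fsc
  rw [hD]
  by_cases h1 : Dsc r r' (sc (sd w M β) (sd w' M' β')) ≤ 1 / 2
  · rw [if_pos h1, if_pos h1]
    by_cases h2 : RelN γ r r' (sc (sd w M β) (sd w' M' β'))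
    · rw [if_pos h2, if_pos (hR.2 h2)]
      ring
    · rw [if_neg h2, if_neg (fun h => h2 (hR.1 h))]
      ring
  · rw [if_neg h1, if_neg h1]
    ring


/-- multiplying both sides by `p` (exits of type tie, tie) -/
lemma sc_raise2 {w M w' M' : ℕ} (p β β' : ℝ) :
    sc (sd w M (p * β)) (sd w' M' (p * β')) =
      (p * (sc (sd w M β) (sd w' M' β')).1, p * (sc (sd w M β) (sd w' M' β')).2) := by
  unfold sc sd
  rw [Prod.mk.injEq]
  exact ⟨by ring, by ring⟩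

/-- exits of type (tie, other): the right side is averaged over `p`, `p ∤ w'` -/
lemma sc_raiseL {p w M w' M' : ℕ} (hp : p.Prime) (hw' : ¬ p ∣ w') (β β' : ℝ) :
    sc (sd w M (p * β)) (sd w' (p * M') β') =
      (p * (sc (sd w M β) (sd w' M' β')).1, p * (sc (sd w M β) (sd w' M' β')).2) := by
  have hc : Nat.Coprime p w' := (Nat.Prime.coprime_iff_not_dvd hp).2 hw'
  have h1 : (p * M').gcd w' = M'.gcd w' := Nat.Coprime.gcd_mul_left_cancel M' hc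
  have h2 : rf w' (p * M') = p * rf w' M' := by
    unfold rf
    rw [h1, Nat.mul_div_assoc _ (Nat.gcd_dvd_left M' w')]
  unfold sc sd
  rw [h1, h2, Prod.mk.injEq]
  push_cast
  exact ⟨by ring, by ring⟩

lemma sc_raiseR {p w M w' M' : ℕ} (hp : p.Prime) (hw : ¬ p ∣ w) (β β' : ℝ) :
    sc (sd w (p * M) β) (sd w' M' (p * β')) =
      (p * (sc (sd w M β) (sd w' M' β')).1, p * (sc (sd w M β) (sd w' M' β')).2) := by
  have hc : Nat.Coprime p w := (Nat.Prime.coprime_iff_not_dvd hp).2 hw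
  have h1 : (p * M).gcd w = M.gcd w := Nat.Coprime.gcd_mul_left_cancel M hc
  have h2 : rf w (p * M) = p * rf w M := by
    unfold rf
    rw [h1, Nat.mul_div_assoc _ (Nat.gcd_dvd_left M w)]
  unfold sc sd
  rw [h1, h2, Prod.mk.injEq]
  push_cast
  exact ⟨by ring, by ring⟩

section state
open Crest.Agent.R4.Tour104 Crest.Agent.R4.Tour758 Crest.Agent.R4.Avg758 Crest.Agent.R4.Clos758
open Crest.Agent.R4.ClosL758 Crest.Agent.R4.ClosG758 Crest.Agent.R4.ClosR758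
open Crest.Agent.R4.Fam464 Crest.Agent.R4.Cnt588 Crest.Agent.R4.Walk560 Crest.Agent.R4.Piece464
open Crest.Agent.R4.GInst194 Crest.Agent.R4.WalkIT579 Crest.Agent.R4.Item758
open Crest.Agent.R4.NMW710
open Crest.Agent.R4.Bld532 (NS All NodeOk Bk)

variable {Λ κ : Type*} [Fintype Λ] [DecidableEq Λ] [Fintype κ] [DecidableEq κ]

/-- the scale pair of an item pair at a state -/
noncomputable def SE (M b pr M' b' pr' : ℕ) (e : ℕ × ℕ) : ℝ × ℝ :=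
  sc (sd (e.1 / pr) M (b:ℝ)) (sd (e.2 / pr') M' (b':ℝ))

/-- the value of an item pair at a state -/
noncomputable def vE (γ : ℝ) (ρ : ℕ → ℝ) (M b pr M' b' pr' : ℕ) (e : ℕ × ℕ) : ℝ :=
  (b:ℝ) * b' * Fsc γ (ρ e.1) (ρ e.2) (SE M b pr M' b' pr' e)

/-- the value of an item pair at an exit at `p` -/
noncomputable def vX (γ : ℝ) (ρ : ℕ → ℝ) (p : ℕ) (M b pr M' b' pr' : ℕ) (e : ℕ × ℕ) : ℝ :=
  (b:ℝ) * b' * Fsc γ (ρ e.1) (ρ e.2) (p * (SE M b pr M' b' pr' e).1, p * (SE M b pr M' b' pr' e).2)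

variable {D : Par Λ κ} {ρ : ℕ → ℝ} {Al : Finset ℕ}

/-- `pb` at a state -/
lemma pb_one (M b pr M' b' pr' : ℕ) (e : ℕ × ℕ) :
    D.pb ρ M b pr 1 e.1 M' b' pr' 1 e.2 = vE D.γ ρ M b pr M' b' pr' e := by
  unfold Par.pb vE SE
  rw [Nat.cast_one, div_one, div_one]
  exact pbd_sc _ _ _ _ _ _ _ _ _

lemma pb_colL {p : ℕ} (hp : 0 < p) (M b pr M' b' pr' : ℕ) (e : ℕ × ℕ) :
    D.pb ρ M (b * p) pr p e.1 M' b' pr' 1 e.2 = vE D.γ ρ M b pr M' b' pr' e := by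
  rw [← pb_one (D := D)]
  unfold Par.pb
  have h : ((b * p : ℕ):ℝ) / p = (b:ℝ) / (1:ℕ) := by
    have : (p:ℝ) ≠ 0 := by exact_mod_cast hp.ne'
    push_cast
    field_simp
  rw [h]

lemma pb_col2 {p : ℕ} (hp : 0 < p) (M b pr M' b' pr' : ℕ) (e : ℕ × ℕ) :
    D.pb ρ M (b * p) pr p e.1 M' (b' * p) pr' p e.2 = vE D.γ ρ M b pr M' b' pr' e := by
  rw [← pb_one (D := D)]
  unfold Par.pb
  have h : ∀ b : ℕ, ((b * p : ℕ):ℝ) / p = (b:ℝ) / (1:ℕ) := fun b => by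
    have : (p:ℝ) ≠ 0 := by exact_mod_cast hp.ne'
    push_cast
    field_simp
  rw [h, h]

/-- exit of type (tie, tie) -/
lemma pb_exit_tt {p : ℕ} (hp : 0 < p) (M b pr M' b' pr' : ℕ) (e : ℕ × ℕ) :
    1 / (p:ℝ) * (1 / (p:ℝ)) * D.pb ρ M (b * p) pr 1 e.1 M' (b' * p) pr' 1 e.2 =
      vX D.γ ρ p M b pr M' b' pr' e := by
  have hp0 : (p:ℝ) ≠ 0 := by exact_mod_cast hp.ne'
  rw [pb_one]
  unfold vE vX SE
  have h : ∀ b : ℕ, ((b * p : ℕ):ℝ) = (p:ℝ) * b := fun b => by push_cast; ring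
  rw [h, h, sc_raise2]
  field_simp

/-- exit of type (tie, other) -/
lemma pb_exit_t2 {p : ℕ} (hp : p.Prime) (M b pr M' b' pr' : ℕ) (e : ℕ × ℕ) (he : ¬ p ∣ e.2 / pr') :
    1 / (p:ℝ) * D.pb ρ M (b * p) pr 1 e.1 (p * M') b' pr' 1 e.2 =
      vX D.γ ρ p M b pr M' b' pr' e := by
  have hp0 : (p:ℝ) ≠ 0 := by exact_mod_cast hp.ne_zero
  rw [pb_one]
  unfold vE vX SE
  have h : ∀ b : ℕ, ((b * p : ℕ):ℝ) = (p:ℝ) * b := fun b => by push_cast; ring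
  rw [h, sc_raiseL hp he]
  field_simp

/-- exit of type (other, tie) -/
lemma pb_exit_2t {p : ℕ} (hp : p.Prime) (M b pr M' b' pr' : ℕ) (e : ℕ × ℕ) (he : ¬ p ∣ e.1 / pr) :
    1 / (p:ℝ) * D.pb ρ (p * M) b pr 1 e.1 M' (b' * p) pr' 1 e.2 =
      vX D.γ ρ p M b pr M' b' pr' e := by
  have hp0 : (p:ℝ) ≠ 0 := by exact_mod_cast hp.ne_zero
  rw [pb_one]
  unfold vE vX SE
  have h : ∀ b : ℕ, ((b * p : ℕ):ℝ) = (p:ℝ) * b := fun b => by push_cast; ring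
  rw [h, sc_raiseR hp he]
  field_simp


/-! ### the symbols -/

variable [WRel κ] {sp : ℕ → Finset Λ} {pres : ℕ → Finset Λ} {p : ℕ}

/-- class functions of a column of an item tree -/
noncomputable def GD (D : Par Λ κ) (b pr p : ℕ) (t₁ t₀ : IT) : κ → ℝ → ℝ := fun a =>
  Lam368.DW p (fun j => (D.toFT b (pr * p) t₁).U 1 j) (fun j => (D.toFT (b * p) pr t₀).U p j)
    (fun j => (D.toFT (b * p) pr t₀).U 1 j) (fun _ => D.rho p) (0 + 1) (clz (D.rho p) a)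

open Classical in
/-- item energies below item values -/
lemma PE_le (hR : D.Rad ρ) (hdead : ∀ j, D.it j ∉ Al → ∀ a, D.om j a = 0)
    {M M' b pr c b' pr' c' : ℕ} {t t' : IT} (hM : 0 < M) (hM' : 0 < M') (hb : 0 < b) (hb' : 0 < b')
    (hF : Fit b pr t) (hF' : Fit b' pr' t') (hW : D.Wts pr t) (hW' : D.Wts pr' t') (hc : c ∣ b)
    (hc' : c' ∣ b') (R : Finset (Λ × Λ)) (A A' : Finset Λ) (P : ℕ × ℕ → Prop)
    (hP : ∀ e ∈ D.PE R (D.uA M b pr t A c) (D.uA M' b' pr' t' A' c'), P e) :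
    ∑ e ∈ D.PE R (D.uA M b pr t A c) (D.uA M' b' pr' t' A' c'),
      D.iF R (D.uA M b pr t A c) (D.uA M' b' pr' t' A' c') e ≤
    ∑ e ∈ (Qi D Al t A ×ˢ Qi D Al t' A').filter P, D.pb ρ M b pr c e.1 M' b' pr' c' e.2 := by
  have hsub := PE_sub hdead hM hM' hb hb' hF hF' hW hW' hc hc' R A A'
  refine le_trans (Finset.sum_le_sum fun e he => ?_)
    (Finset.sum_le_sum_of_subset_of_nonneg
      (s := D.PE R (D.uA M b pr t A c) (D.uA M' b' pr' t' A' c')) ?_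
      fun e _ _ => Par.pb_nonneg hR.pos _ _ _ _ _ _ _ _ _ _)
  · have h := Finset.mem_product.1 (hsub he)
    exact iF_le hR hM hM' hb hb' hF hF' hW hW' hc hc' R A A' e (mem_Qi.1 h.1).1 (mem_Qi.1 h.2).1
  · intro e he
    exact Finset.mem_filter.2 ⟨hsub he, hP e he⟩

open Classical in
/-- **(NM)**: both sides tie -/
theorem nm_loc (hR : D.Rad ρ) (hdead : ∀ j, D.it j ∉ Al → ∀ a, D.om j a = 0)
    {M M' b pr b' pr' : ℕ} {t₁ t₀ t₁' t₀' : IT} {A A' : Finset Λ} {d d' : DT Λ κ}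
    (h : SideI D sp b pr (.br p t₁ t₀) A d) (h' : SideI D sp b' pr' (.br p t₁' t₀') A' d')
    (hM : 0 < M) (hM' : 0 < M') (P : ℕ × ℕ → Prop)
    (hP : ∀ e ∈ D.PE (Ro (D.rho p)) (D.uA M (b * p) pr t₀ A p) (D.uA M' (b' * p) pr' t₀' A' p),
      P e) :
    Q (orel κ) (avg M (rk A (D.rho p) (GD D b pr p t₁ t₀)))
      (avg M' (rk A' (D.rho p) (GD D b' pr' p t₁' t₀'))) ≤
    ∑ e ∈ (Qi D Al t₀ A ×ˢ Qi D Al t₀' A').filter P, vE D.γ ρ M b pr M' b' pr' e := by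
  have hp0 : 0 < p := h.hF.1.pos
  have e1 := Q_offd_le h.sat_br h'.sat_br hM hM' h.pb_G h'.pb_G h.pb_g h'.pb_g h.G_le h'.G_le
  refine e1.trans ?_
  have e2 : Q (Ro (D.rho p)) (avg M (rv A fun j => (D.toFT (b * p) pr t₀).U p j))
      (avg M' (rv A' fun j => (D.toFT (b' * p) pr' t₀').U p j)) =
      ∑ e ∈ D.PE (Ro (D.rho p)) (D.uA M (b * p) pr t₀ A p) (D.uA M' (b' * p) pr' t₀' A' p),
        D.iF (Ro (D.rho p)) (D.uA M (b * p) pr t₀ A p) (D.uA M' (b' * p) pr' t₀' A' p) e :=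
    D.Q_eq _ _ _
  refine e2.le.trans ((PE_le hR hdead hM hM' h.br₀.hb h'.br₀.hb h.br₀.hF h'.br₀.hF h.br₀.hW
    h'.br₀.hW (Dvd.intro_left b rfl) (Dvd.intro_left b' rfl) _ A A' P hP).trans (le_of_eq ?_))
  exact Finset.sum_congr rfl fun e _ => pb_col2 hp0 M b pr M' b' pr' e

open Classical in
/-- **(ONE), (RET)**: left tie against any part of the right side -/
theorem os_loc (hR : D.Rad ρ) (hdead : ∀ j, D.it j ∉ Al → ∀ a, D.om j a = 0)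
    {M M' b pr b' pr' : ℕ} {t₁ t₀ τ' : IT} {A A' : Finset Λ} {d d' : DT Λ κ}
    (h : SideI D sp b pr (.br p t₁ t₀) A d) (h' : SideI D sp b' pr' τ' A' d')
    (hM : 0 < M) (hM' : 0 < M') (P : ℕ × ℕ → Prop)
    (hP : ∀ e ∈ D.PE (Ro (D.rho p)) (D.uA M (b * p) pr t₀ A p) (D.uA M' b' pr' τ' A' 1), P e) :
    os (orel κ) p (avg M (rk A (D.rho p) (GD D b pr p t₁ t₀)))
      (sm (D.rho p) (avg M' (rv A' d'.g.val))) ≤
    ∑ e ∈ (Qi D Al t₀ A ×ˢ Qi D Al τ' A').filter P, vE D.γ ρ M b pr M' b' pr' e := by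
  have hp0 : 0 < p := h.hF.1.pos
  rw [h'.val]
  have pF : ∀ j, PB (avg M' (rv A' fun j => (D.toFT b' pr' τ').U 1 j) j) := fun j =>
    PB_uA hM' h'.hb h'.hF h'.hW (one_dvd _) j
  refine (os_le_Q h.sat_br hM hp0 h.pb_G h.pb_g pF h.G_le).trans ?_
  have e2 : Q (Ro (D.rho p)) (avg M (rv A fun j => (D.toFT (b * p) pr t₀).U p j))
      (avg M' (rv A' fun j => (D.toFT b' pr' τ').U 1 j)) =
      ∑ e ∈ D.PE (Ro (D.rho p)) (D.uA M (b * p) pr t₀ A p) (D.uA M' b' pr' τ' A' 1),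
        D.iF (Ro (D.rho p)) (D.uA M (b * p) pr t₀ A p) (D.uA M' b' pr' τ' A' 1) e :=
    D.Q_eq _ _ _
  refine e2.le.trans ((PE_le hR hdead hM hM' h.br₀.hb h'.hb h.br₀.hF h'.hF h.br₀.hW
    h'.hW (Dvd.intro_left b rfl) (one_dvd _) _ A A' P hP).trans (le_of_eq ?_))
  exact Finset.sum_congr rfl fun e _ => pb_colL hp0 M b pr M' b' pr' e

open Classical in
/-- cross energy of a state -/
theorem qs_loc (hR : D.Rad ρ) (hdead : ∀ j, D.it j ∉ Al → ∀ a, D.om j a = 0)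
    {s : St Λ κ} {b pr b' pr' : ℕ} {τ τ' : IT} (h : StI D sp s b pr τ b' pr' τ')
    (P : ℕ × ℕ → Prop)
    (hP : ∀ e ∈ D.PE s.R (D.uA s.M b pr τ s.A 1) (D.uA s.M' b' pr' τ' s.A' 1), P e) :
    Qs s ≤ ∑ e ∈ (Qi D Al τ s.A ×ˢ Qi D Al τ' s.A').filter P,
      vE D.γ ρ s.M b pr s.M' b' pr' e := by
  unfold Qs
  rw [h.L.val, h.R.val]
  have e2 : Q s.R (avg s.M (rv s.A fun j => (D.toFT b pr τ).U 1 j))
      (avg s.M' (rv s.A' fun j => (D.toFT b' pr' τ').U 1 j)) =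
      ∑ e ∈ D.PE s.R (D.uA s.M b pr τ s.A 1) (D.uA s.M' b' pr' τ' s.A' 1),
        D.iF s.R (D.uA s.M b pr τ s.A 1) (D.uA s.M' b' pr' τ' s.A' 1) e :=
    D.Q_eq _ _ _
  refine e2.le.trans ((PE_le hR hdead h.M0 h.M0' h.L.hb h.R.hb h.L.hF h.R.hF h.L.hW
    h.R.hW (one_dvd _) (one_dvd _) _ _ _ P hP).trans (le_of_eq ?_))
  exact Finset.sum_congr rfl fun e _ => pb_one s.M b pr s.M' b' pr' e


lemma vE_nonneg (hρ : ∀ q, 0 < ρ q) (γ : ℝ) (M b pr M' b' pr' : ℕ) (e : ℕ × ℕ) :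
    0 ≤ vE γ ρ M b pr M' b' pr' e := by
  unfold vE SE sc sd
  exact mul_nonneg (by positivity) (Fsc_nonneg (hρ _).le (hρ _).le (by positivity))

lemma vX_nonneg (hρ : ∀ q, 0 < ρ q) (γ : ℝ) (p M b pr M' b' pr' : ℕ) (e : ℕ × ℕ) :
    0 ≤ vX γ ρ p M b pr M' b' pr' e := by
  unfold vX SE sc sd
  exact mul_nonneg (by positivity) (Fsc_nonneg (hρ _).le (hρ _).le (by positivity))

/-- low part of the value at a state -/
noncomputable def vEl (γ : ℝ) (ρ : ℕ → ℝ) (M b pr M' b' pr' : ℕ) (e : ℕ × ℕ) : ℝ :=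
  (b:ℝ) * b' * Flo γ (ρ e.1) (ρ e.2) (SE M b pr M' b' pr' e)

/-- low part of the value at an exit at `p` -/
noncomputable def vXl (γ : ℝ) (ρ : ℕ → ℝ) (p : ℕ) (M b pr M' b' pr' : ℕ) (e : ℕ × ℕ) : ℝ :=
  (b:ℝ) * b' * Flo γ (ρ e.1) (ρ e.2) (p * (SE M b pr M' b' pr' e).1, p * (SE M b pr M' b' pr' e).2)

lemma vE_le (hρ : ∀ q, 0 < ρ q) (γ : ℝ) (M b pr M' b' pr' : ℕ) (e : ℕ × ℕ) :
    vE γ ρ M b pr M' b' pr' e ≤ 8 * ((b * ρ e.1) * (b' * ρ e.2)) + vEl γ ρ M b pr M' b' pr' e := by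
  unfold vE vEl
  have h := Fsc_le (γ := γ) (s := SE M b pr M' b' pr' e) (hρ e.1).le (hρ e.2).le
  have hb : (0:ℝ) ≤ (b:ℝ) * b' := by positivity
  nlinarith [mul_le_mul_of_nonneg_left h hb]

lemma vX_le (hρ : ∀ q, 0 < ρ q) (γ : ℝ) (p M b pr M' b' pr' : ℕ) (e : ℕ × ℕ) :
    vX γ ρ p M b pr M' b' pr' e ≤
      8 * ((b * ρ e.1) * (b' * ρ e.2)) + vXl γ ρ p M b pr M' b' pr' e := by
  unfold vX vXl
  have h := Fsc_le (γ := γ) (s := (p * (SE M b pr M' b' pr' e).1, p * (SE M b pr M' b' pr' e).2))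
    (hρ e.1).le (hρ e.2).le
  have hb : (0:ℝ) ≤ (b:ℝ) * b' := by positivity
  nlinarith [mul_le_mul_of_nonneg_left h hb]

open Classical in
/-- **high pairs are generic** -/
lemma sum_gen (hρ : ∀ q, 0 < ρ q) (V W : Finset ℕ) (P : ℕ × ℕ → Prop) {b b' : ℕ}
    {F G : ℕ × ℕ → ℝ} (h : ∀ e, F e ≤ 8 * ((b * ρ e.1) * (b' * ρ e.2)) + G e) :
    ∑ e ∈ (V ×ˢ W).filter P, F e ≤
      8 * ((∑ q ∈ V, (b:ℝ) * ρ q) * ∑ r ∈ W, (b':ℝ) * ρ r) + ∑ e ∈ (V ×ˢ W).filter P, G e := by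
  have h1 : ∑ e ∈ (V ×ˢ W).filter P, F e ≤
      ∑ e ∈ (V ×ˢ W).filter P, 8 * ((b * ρ e.1) * (b' * ρ e.2)) + ∑ e ∈ (V ×ˢ W).filter P, G e := by
    rw [← Finset.sum_add_distrib]
    exact Finset.sum_le_sum fun e _ => h e
  refine h1.trans (add_le_add ?_ le_rfl)
  have h2 : ∑ e ∈ V ×ˢ W, 8 * ((b * ρ e.1) * (b' * ρ e.2)) =
      8 * ((∑ q ∈ V, (b:ℝ) * ρ q) * ∑ r ∈ W, (b':ℝ) * ρ r) := by
    rw [Finset.sum_mul_sum, ← Finset.sum_product', Finset.mul_sum]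
  rw [← h2]
  refine Finset.sum_le_sum_of_subset_of_nonneg (Finset.filter_subset _ _) fun e _ _ => ?_
  have := (hρ e.1).le
  have := (hρ e.2).le
  positivity

open Classical in
lemma Xs_le_of {μ : TrG Λ κ → Finset Λ → ℝ} {B : ℝ} (hB : 0 ≤ B) (hμ : ∀ t A, 0 ≤ μ t A)
    {s : St Λ κ} {y : ℝ} (h : Qs s ≤ y) (hy : 0 ≤ y) : Xs μ B s ≤ y := by
  unfold Xs
  refine max_le hy ?_
  have := mul_nonneg hB (mul_nonneg (hμ s.t.g s.A) (hμ s.t'.g s.A'))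
  linarith

open Classical in
/-- **exit of type (tie, tie)** -/
theorem exit_tt (hR : D.Rad ρ) (hdead : ∀ j, D.it j ∉ Al → ∀ a, D.om j a = 0)
    {μ : TrG Λ κ → Finset Λ → ℝ} {B : ℝ} (hB : 0 ≤ B) (hμ : ∀ t A, 0 ≤ μ t A)
    {s : St Λ κ} {b pr b' pr' : ℕ} {t₁ t₀ t₁' t₀' : IT} {d d' : DT Λ κ} (R : Finset (Λ × Λ))
    (h : SideI D sp b pr (.br p t₁ t₀) s.A d) (h' : SideI D sp b' pr' (.br p t₁' t₀') s.A' d')
    (hM : 0 < s.M) (hM' : 0 < s.M') (P : ℕ × ℕ → Prop)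
    (hP : ∀ e ∈ D.PE R (D.uA s.M (b * p) pr t₀ s.A 1) (D.uA s.M' (b' * p) pr' t₀' s.A' 1), P e) :
    1 / (p:ℝ) * (1 / (p:ℝ)) * Xs μ B { s with R := R, t := D.toDT sp (b * p) pr t₀, t' := D.toDT sp (b' * p) pr' t₀' } ≤
    ∑ e ∈ (Qi D Al t₀ s.A ×ˢ Qi D Al t₀' s.A').filter P,
      vX D.γ ρ p s.M b pr s.M' b' pr' e := by
  have hp0 : 0 < p := h.hF.1.pos
  have hst : StI D sp { s with R := R, t := D.toDT sp (b * p) pr t₀, t' := D.toDT sp (b' * p) pr' t₀' }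
      (b * p) pr t₀ (b' * p) pr' t₀' := ⟨h.br₀, h'.br₀, hM, hM'⟩
  have k1 := qs_loc hR hdead hst P hP
  have k2 := Xs_le_of hB hμ k1 (Finset.sum_nonneg fun e _ => vE_nonneg hR.pos _ _ _ _ _ _ _ _)
  have hq : (0:ℝ) ≤ 1 / (p:ℝ) * (1 / (p:ℝ)) := by positivity
  refine (mul_le_mul_of_nonneg_left k2 hq).trans (le_of_eq ?_)
  rw [Finset.mul_sum]
  refine Finset.sum_congr rfl fun e _ => ?_
  rw [← pb_one (D := D)]
  exact pb_exit_tt hp0 s.M b pr s.M' b' pr' e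

open Classical in
/-- **exit of type (tie, other)** -/
theorem exit_t2 (hR : D.Rad ρ) (hdead : ∀ j, D.it j ∉ Al → ∀ a, D.om j a = 0)
    {μ : TrG Λ κ → Finset Λ → ℝ} {B : ℝ} (hB : 0 ≤ B) (hμ : ∀ t A, 0 ≤ μ t A)
    {s : St Λ κ} {b pr b' pr' : ℕ} {t₁ t₀ τ' : IT} {A' : Finset Λ} {d d' : DT Λ κ}
    (R : Finset (Λ × Λ)) (O : Finset ℕ)
    (h : SideI D sp b pr (.br p t₁ t₀) s.A d) (h' : SideI D sp b' pr' τ' A' d')
    (hM : 0 < s.M) (hM' : 0 < s.M')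
    (hd : ∀ r ∈ Qi D Al τ' A', ¬ p ∣ r / pr') (P : ℕ × ℕ → Prop)
    (hP : ∀ e ∈ D.PE R (D.uA s.M (b * p) pr t₀ s.A 1) (D.uA (p * s.M') b' pr' τ' A' 1), P e) :
    1 / (p:ℝ) * Xs μ B { s with M' := p * s.M', O := O, R := R, t := D.toDT sp (b * p) pr t₀, t' := d', A' := A' } ≤
    ∑ e ∈ (Qi D Al t₀ s.A ×ˢ Qi D Al τ' A').filter P,
      vX D.γ ρ p s.M b pr s.M' b' pr' e := by
  have hpp : p.Prime := h.hF.1
  have hp0 : 0 < p := hpp.pos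
  have hst : StI D sp { s with M' := p * s.M', O := O, R := R, t := D.toDT sp (b * p) pr t₀, t' := d', A' := A' }
      (b * p) pr t₀ b' pr' τ' := ⟨h.br₀, h', hM, Nat.mul_pos hp0 hM'⟩
  have k1 := qs_loc hR hdead hst P hP
  have k2 := Xs_le_of hB hμ k1 (Finset.sum_nonneg fun e _ => vE_nonneg hR.pos _ _ _ _ _ _ _ _)
  have hq : (0:ℝ) ≤ 1 / (p:ℝ) := by positivity
  refine (mul_le_mul_of_nonneg_left k2 hq).trans (le_of_eq ?_)
  rw [Finset.mul_sum]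
  refine Finset.sum_congr rfl fun e he => ?_
  have h2 := (Finset.mem_product.1 (Finset.mem_filter.1 he).1).2
  rw [← pb_one (D := D)]
  exact pb_exit_t2 hpp s.M b pr s.M' b' pr' e (hd _ h2)

open Classical in
/-- **exit of type (other, tie)** -/
theorem exit_2t (hR : D.Rad ρ) (hdead : ∀ j, D.it j ∉ Al → ∀ a, D.om j a = 0)
    {μ : TrG Λ κ → Finset Λ → ℝ} {B : ℝ} (hB : 0 ≤ B) (hμ : ∀ t A, 0 ≤ μ t A)
    {s : St Λ κ} {b pr b' pr' : ℕ} {τ t₁' t₀' : IT} {A : Finset Λ} {d d' : DT Λ κ}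
    (R : Finset (Λ × Λ)) (O' : Finset ℕ)
    (h : SideI D sp b pr τ A d) (h' : SideI D sp b' pr' (.br p t₁' t₀') s.A' d')
    (hM : 0 < s.M) (hM' : 0 < s.M')
    (hd : ∀ q ∈ Qi D Al τ A, ¬ p ∣ q / pr) (P : ℕ × ℕ → Prop)
    (hP : ∀ e ∈ D.PE R (D.uA (p * s.M) b pr τ A 1) (D.uA s.M' (b' * p) pr' t₀' s.A' 1), P e) :
    1 / (p:ℝ) * Xs μ B { s with M := p * s.M, O' := O', R := R, t := d, A := A, t' := D.toDT sp (b' * p) pr' t₀' } ≤
    ∑ e ∈ (Qi D Al τ A ×ˢ Qi D Al t₀' s.A').filter P,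
      vX D.γ ρ p s.M b pr s.M' b' pr' e := by
  have hpp : p.Prime := h'.hF.1
  have hp0 : 0 < p := hpp.pos
  have hst : StI D sp { s with M := p * s.M, O' := O', R := R, t := d, A := A, t' := D.toDT sp (b' * p) pr' t₀' }
      b pr τ (b' * p) pr' t₀' := ⟨h, h'.br₀, Nat.mul_pos hp0 hM, hM'⟩
  have k1 := qs_loc hR hdead hst P hP
  have k2 := Xs_le_of hB hμ k1 (Finset.sum_nonneg fun e _ => vE_nonneg hR.pos _ _ _ _ _ _ _ _)
  have hq : (0:ℝ) ≤ 1 / (p:ℝ) := by positivity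
  refine (mul_le_mul_of_nonneg_left k2 hq).trans (le_of_eq ?_)
  rw [Finset.mul_sum]
  refine Finset.sum_congr rfl fun e he => ?_
  have h2 := (Finset.mem_product.1 (Finset.mem_filter.1 he).1).1
  rw [← pb_one (D := D)]
  exact pb_exit_2t hpp s.M b pr s.M' b' pr' e (hd _ h2)


/-! ### transport along a column: `SE` is invariant -/

/-- one side moves at the column `p` (`true`: drops `p`, `false`: raises) -/
def SMv (p : ℕ) (i : Bool) (M b pr M₂ b₂ pr₂ q : ℕ) : Prop :=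
  Mv p i (sd (q / pr) M (b:ℝ)) (sd (q / pr₂) M₂ (b₂:ℝ))

/-- present branch of a tie -/
lemma smv_present {M b pr q : ℕ} (hp : p.Prime) (hM : ¬ p ∣ M) (h : p ∣ q / pr) :
    SMv p true M b pr M b (pr * p) q := by
  have e : q / pr = p * (q / (pr * p)) := by
    rw [← Nat.div_div_eq_div_mul, Nat.mul_div_cancel' h]
  unfold SMv
  rw [e]
  exact mv_pull hp hM _

/-- missing branch of a tie -/
lemma smv_missing {M b pr q : ℕ} (h : ¬ p ∣ q / pr) : SMv p false M b pr M (b * p) pr q := by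
  unfold SMv
  have e : ((b * p : ℕ):ℝ) = (p:ℝ) * b := by push_cast; ring
  rw [e]
  exact mv_miss h _

/-- averaging over `p`, present part -/
lemma smv_avg_dvd {M b pr q : ℕ} (hp : p.Prime) (hM : ¬ p ∣ M) (h : p ∣ q / pr) :
    SMv p true M b pr (p * M) b pr q := by
  unfold SMv
  have e : q / pr = p * (q / pr / p) := (Nat.mul_div_cancel' h).symm
  rw [e]
  exact mv_avg_dvd hp hM _

/-- averaging over `p`, missing part -/
lemma smv_avg_not {M b pr q : ℕ} (hp : p.Prime) (h : ¬ p ∣ q / pr) :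
    SMv p false M b pr (p * M) b pr q :=
  mv_avg_not hp h _

lemma SE_inv {i i' : Bool} {M b pr M₂ b₂ pr₂ M' b' pr' M₂' b₂' pr₂' : ℕ} {e : ℕ × ℕ} (hp : p.Prime)
    (h : SMv p i M b pr M₂ b₂ pr₂ e.1) (h' : SMv p i' M' b' pr' M₂' b₂' pr₂' e.2)
    (hi : i = true ∨ i' = true) :
    SE M₂ b₂ pr₂ M₂' b₂' pr₂' e = SE M b pr M' b' pr' e :=
  sc_inv hp h h' hi

lemma vE_inv {i i' : Bool} {M b pr M₂ b₂ pr₂ M' b' pr' M₂' b₂' pr₂' : ℕ} {e : ℕ × ℕ}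
    (hρ : ∀ q, 0 < ρ q) (γ : ℝ) (hp : p.Prime)
    (h : SMv p i M b pr M₂ b₂ pr₂ e.1) (h' : SMv p i' M' b' pr' M₂' b₂' pr₂' e.2)
    (hi : i = true ∨ i' = true) {w : ℝ} (hw : w * ((b₂:ℝ) * b₂') ≤ b * b') :
    w * vE γ ρ M₂ b₂ pr₂ M₂' b₂' pr₂' e ≤ vE γ ρ M b pr M' b' pr' e := by
  unfold vE
  rw [SE_inv hp h h' hi, ← mul_assoc]
  exact mul_le_mul_of_nonneg_right hw (Fsc_nonneg (hρ _).le (hρ _).le (by unfold SE sc sd; positivity))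

lemma vEl_inv {i i' : Bool} {M b pr M₂ b₂ pr₂ M' b' pr' M₂' b₂' pr₂' : ℕ} {e : ℕ × ℕ}
    (hρ : ∀ q, 0 < ρ q) (γ : ℝ) (hp : p.Prime)
    (h : SMv p i M b pr M₂ b₂ pr₂ e.1) (h' : SMv p i' M' b' pr' M₂' b₂' pr₂' e.2)
    (hi : i = true ∨ i' = true) {w : ℝ} (hw : w * ((b₂:ℝ) * b₂') ≤ b * b') :
    w * vEl γ ρ M₂ b₂ pr₂ M₂' b₂' pr₂' e ≤ vEl γ ρ M b pr M' b' pr' e := by
  unfold vEl
  rw [SE_inv hp h h' hi, ← mul_assoc]
  exact mul_le_mul_of_nonneg_right hw (Flo_nonneg (hρ _).le (hρ _).le (by unfold SE sc sd; positivity))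

lemma vXl_inv {i i' : Bool} {M b pr M₂ b₂ pr₂ M' b' pr' M₂' b₂' pr₂' : ℕ} {e : ℕ × ℕ}
    (hρ : ∀ q, 0 < ρ q) (γ : ℝ) (l : ℕ) (hp : p.Prime)
    (h : SMv p i M b pr M₂ b₂ pr₂ e.1) (h' : SMv p i' M' b' pr' M₂' b₂' pr₂' e.2)
    (hi : i = true ∨ i' = true) {w : ℝ} (hw : w * ((b₂:ℝ) * b₂') ≤ b * b') :
    w * vXl γ ρ l M₂ b₂ pr₂ M₂' b₂' pr₂' e ≤ vXl γ ρ l M b pr M' b' pr' e := by
  unfold vXl
  rw [SE_inv hp h h' hi, ← mul_assoc]
  exact mul_le_mul_of_nonneg_right hw (Flo_nonneg (hρ _).le (hρ _).le (by unfold SE sc sd; positivity))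

end state

end Crest.Agent.R4.CrossLoc709
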