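import Mathlib
import Crest.Agent.R4.CrossLoc709
import Crest.Agent.R4.ZWalkY812
import Crest.Agent.R4.Ret0_709

/-!
R4 (S0004), helper709, module D: **local cost of the cross walk at a state** in the form of 560 #15584:
`eNMYR + eRETYR + eONEYR + eXITYR ≤ cy + Σ_{e ∈ Qi τ A ×ˢ Qi τ' A'} lc e`.
-/

set_option autoImplicit false
set_option linter.unusedSectionVars false
set_option linter.unusedVariables false
open Finset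

namespace Crest.Agent.R4.CrossLocY709

open Crest.Agent.R4.HVW560 Crest.Agent.R4.AvgItem710 Crest.Agent.R4.Deg709
open Crest.Agent.R4.CrossInv709 Crest.Agent.R4.CrossLoc709

/-! ### scalars -/

open Classical in
/-- low part, threshold `D ≤ 1` -/
noncomputable def F1 (γ r r' : ℝ) (s : ℝ × ℝ) : ℝ := if Dsc r r' s ≤ 1 then Fsc γ r r' s else 0

lemma F1_nonneg {γ r r' : ℝ} {s : ℝ × ℝ} (hr : 0 ≤ r) (hr' : 0 ≤ r') (hs : 0 ≤ s.1) :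
    0 ≤ F1 γ r r' s := by
  unfold F1
  split_ifs
  · exact Fsc_nonneg hr hr' hs
  · exact le_rfl

lemma Fsc_le1 {γ r r' : ℝ} {s : ℝ × ℝ} (hr : 0 ≤ r) (hr' : 0 ≤ r') :
    Fsc γ r r' s ≤ 6 * (r * r') + F1 γ r r' s := by
  have h0 : 0 ≤ r * r' := mul_nonneg hr hr'
  unfold F1
  split_ifs with h1
  · linarith
  · unfold Fsc
    rw [if_neg (fun h => h1 (by linarith))]
    push Not at h1
    have h3 : r * r' / Dsc r r' s ≤ r * r' := by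
      rw [div_le_iff₀ (by linarith)]
      nlinarith
    linarith

/-- `F1 ≤ 6 r r'/D` -/
lemma F1_le {γ r r' : ℝ} {s : ℝ × ℝ} (hr : 0 ≤ r) (hr' : 0 ≤ r') (hs : 0 ≤ s.1) :
    F1 γ r r' s ≤ 6 * (r * r' / Dsc r r' s) := by
  have h0 : 0 ≤ r * r' := mul_nonneg hr hr'
  have hD : 0 ≤ Dsc r r' s := le_max_of_le_left (mul_nonneg hs hr)
  have h1 : 0 ≤ r * r' / Dsc r r' s := div_nonneg h0 hD
  unfold F1
  split_ifs with h2
  · unfold Fsc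
    split_ifs with h3 h4
    · linarith
    · linarith
    · push Not at h3
      have h4 : 0 < Dsc r r' s := by linarith
      have h5 : r * r' ≤ r * r' / Dsc r r' s := by
        rw [le_div_iff₀ h4]; nlinarith
      linarith
  · linarith

lemma Dsc_swap (r r' : ℝ) (s : ℝ × ℝ) : Dsc r' r (s.2, s.1) = Dsc r r' s := by
  unfold Dsc; exact max_comm _ _

lemma RelN_swap' {γ r r' : ℝ} {s : ℝ × ℝ} (h : RelN γ r r' s) : RelN γ r' r (s.2, s.1) := by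
  obtain ⟨n, hn⟩ := h
  refine ⟨-n, ?_⟩
  have e : ((-n : ℤ):ℝ) - (s.1 * γ - s.2 * γ) = -((n:ℝ) - (s.2 * γ - s.1 * γ)) := by
    push_cast; ring
  show |((-n : ℤ):ℝ) - (s.1 * γ - s.2 * γ)| ≤ s.2 * r' + s.1 * r
  rw [e, abs_neg, add_comm]
  exact hn

lemma RelN_swap (γ r r' : ℝ) (s : ℝ × ℝ) : RelN γ r' r (s.2, s.1) ↔ RelN γ r r' s :=
  ⟨fun h => RelN_swap' h, RelN_swap'⟩

lemma Fsc_swap (γ r r' : ℝ) (s : ℝ × ℝ) : Fsc γ r' r (s.2, s.1) = Fsc γ r r' s := by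
  unfold Fsc
  rw [Dsc_swap, mul_comm r' r]
  by_cases h1 : Dsc r r' s ≤ 1 / 2
  · rw [if_pos h1, if_pos h1]
    by_cases h2 : RelN γ r r' s
    · rw [if_pos h2, if_pos ((RelN_swap γ r r' s).2 h2)]
    · rw [if_neg h2, if_neg (fun h => h2 ((RelN_swap γ r r' s).1 h))]
  · rw [if_neg h1, if_neg h1]

lemma sc_swap (a a' : ℕ × ℝ) : sc a' a = ((sc a a').2, (sc a a').1) := rfl

section state
open Crest.Agent.R4.Tour104 Crest.Agent.R4.Tour758 Crest.Agent.R4.Avg758 Crest.Agent.R4.Clos758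
open Crest.Agent.R4.ClosL758 Crest.Agent.R4.ClosG758 Crest.Agent.R4.ClosR758
open Crest.Agent.R4.Fam464 Crest.Agent.R4.Cnt588 Crest.Agent.R4.Walk560 Crest.Agent.R4.Piece464
open Crest.Agent.R4.GInst194 Crest.Agent.R4.WalkIT579 Crest.Agent.R4.Item758
open Crest.Agent.R4.NMW710 Crest.Agent.R4.Ret0_709
open Crest.Agent.R4.PXB560 Crest.Agent.R4.WalkX560 Crest.Agent.R4.WalkR560
open Crest.Agent.R4.WalkY560 Crest.Agent.R4.WalkYR560 Crest.Agent.R4.ZWalk812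
open Crest.Agent.R4.Bld532 (NS All NodeOk Bk)

variable {Λ κ : Type*} [Fintype Λ] [DecidableEq Λ] [Fintype κ] [DecidableEq κ]
variable {D : Par Λ κ} {ρ : ℕ → ℝ} {Al : Finset ℕ}

lemma vE_swap (γ : ℝ) (M b pr M' b' pr' q r : ℕ) :
    vE γ ρ M' b' pr' M b pr (r, q) = vE γ ρ M b pr M' b' pr' (q, r) := by
  unfold vE SE
  show (b':ℝ) * b * Fsc γ (ρ r) (ρ q) (sc (sd (r / pr') M' (b':ℝ)) (sd (q / pr) M (b:ℝ))) =
    (b:ℝ) * b' * Fsc γ (ρ q) (ρ r) (sc (sd (q / pr) M (b:ℝ)) (sd (r / pr') M' (b':ℝ)))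
  rw [sc_swap (sd (q / pr) M (b:ℝ)) (sd (r / pr') M' (b':ℝ)), Fsc_swap]
  ring

variable [WRel κ] {sp : ℕ → Finset Λ} {p : ℕ}

/-- a pair of items with a pair of pieces related at the column `p` -/
def Pc (D : Par Λ κ) (p : ℕ) (e : ℕ × ℕ) : Prop :=
  ∃ j j', (j, j') ∈ Ro (D.rho p) ∧ D.it j = e.1 ∧ D.it j' = e.2

lemma Pc_swap {D : Par Λ κ} {p q r : ℕ} (h : Pc D p (r, q)) : Pc D p (q, r) := by
  obtain ⟨j, j', h1, h2, h3⟩ := h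
  refine ⟨j', j, ?_, h3, h2⟩
  rw [mem_Ro] at h1 ⊢
  exact WRel.symm h1

lemma Pc_of_PE {M M' b pr c b' pr' c' : ℕ} {t t' : IT} {A A' : Finset Λ} (hM : 0 < M) (hM' : 0 < M') :
    ∀ e ∈ D.PE (Ro (D.rho p)) (D.uA M b pr t A c) (D.uA M' b' pr' t' A' c'), Pc D p e := by
  intro e he
  obtain ⟨j, j', h1, -, -, h3, h4, -⟩ := Par.PE_ex hM hM' he
  exact ⟨j, j', h1, h3, h4⟩

open Classical in
/-- value function of a column -/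
noncomputable def Vc (D : Par Λ κ) (ρ : ℕ → ℝ) (p : ℕ) (s : ℝ × ℝ) (e : ℕ × ℕ) : ℝ :=
  if Pc D p e then F1 D.γ (ρ e.1) (ρ e.2) s else 0

open Classical in
/-- value function of an exit -/
noncomputable def Vx (D : Par Λ κ) (ρ : ℕ → ℝ) (p : ℕ) (s : ℝ × ℝ) (e : ℕ × ℕ) : ℝ :=
  if Pc D p e then F1 D.γ (ρ e.1) (ρ e.2) (p * s.1, p * s.2) else 0

lemma SE_pos (M b pr M' b' pr' : ℕ) (e : ℕ × ℕ) : 0 ≤ (SE M b pr M' b' pr' e).1 := by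
  unfold SE sc sd; positivity

lemma Vc_nonneg (hρ : ∀ q, 0 < ρ q) (p M b pr M' b' pr' : ℕ) (e : ℕ × ℕ) :
    0 ≤ Vc D ρ p (SE M b pr M' b' pr' e) e := by
  unfold Vc; split_ifs
  · exact F1_nonneg (hρ _).le (hρ _).le (SE_pos _ _ _ _ _ _ _)
  · exact le_rfl

lemma Vx_nonneg (hρ : ∀ q, 0 < ρ q) (p M b pr M' b' pr' : ℕ) (e : ℕ × ℕ) :
    0 ≤ Vx D ρ p (SE M b pr M' b' pr' e) e := by
  unfold Vx; split_ifs
  · exact F1_nonneg (hρ _).le (hρ _).le (mul_nonneg (Nat.cast_nonneg _) (SE_pos _ _ _ _ _ _ _))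
  · exact le_rfl

open Classical in
/-- the local cost of a pair -/
noncomputable def lcY (D : Par Λ κ) (ρ : ℕ → ℝ) (p M b pr M' b' pr' : ℕ) (τ τ' : IT) (e : ℕ × ℕ) : ℝ :=
  (b:ℝ) * b' * (if p ∈ τ.mt e.1 ∪ τ'.mt e.2 then 2 * Vc D ρ p (SE M b pr M' b' pr' e) e +
    (if p ∣ e.1 ∨ p ∣ e.2 then 0 else Vx D ρ p (SE M b pr M' b' pr' e) e) else 0)

lemma lcY_nonneg (hρ : ∀ q, 0 < ρ q) (p M b pr M' b' pr' : ℕ) (τ τ' : IT) (e : ℕ × ℕ) :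
    0 ≤ lcY D ρ p M b pr M' b' pr' τ τ' e := by
  have h1 := Vc_nonneg (D := D) hρ p M b pr M' b' pr' e
  have h2 := Vx_nonneg (D := D) hρ p M b pr M' b' pr' e
  unfold lcY
  refine mul_nonneg (by positivity) ?_
  split_ifs <;> linarith

open Classical in
/-- blocks: high pairs are generic, threshold one -/
lemma blk (hρ : ∀ q, 0 < ρ q) (V W : Finset ℕ) (P : ℕ × ℕ → Prop) {b b' : ℕ} {F G : ℕ × ℕ → ℝ}
    (h : ∀ e ∈ V ×ˢ W, P e → F e ≤ 6 * ((b * ρ e.1) * (b' * ρ e.2)) + G e) (hG : ∀ e, 0 ≤ G e) :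
    ∑ e ∈ (V ×ˢ W).filter P, F e ≤
      6 * ((∑ q ∈ V, (b:ℝ) * ρ q) * ∑ r ∈ W, (b':ℝ) * ρ r) + ∑ e ∈ V ×ˢ W, G e := by
  have h1 : ∑ e ∈ (V ×ˢ W).filter P, F e ≤
      ∑ e ∈ (V ×ˢ W).filter P, (6 * ((b * ρ e.1) * (b' * ρ e.2)) + G e) :=
    Finset.sum_le_sum fun e he => h e (Finset.mem_filter.1 he).1 (Finset.mem_filter.1 he).2
  have h2 : ∑ e ∈ (V ×ˢ W).filter P, (6 * ((b * ρ e.1) * (b' * ρ e.2)) + G e) ≤
      ∑ e ∈ V ×ˢ W, (6 * ((b * ρ e.1) * (b' * ρ e.2)) + G e) := by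
    refine Finset.sum_le_sum_of_subset_of_nonneg (Finset.filter_subset _ _) fun e _ _ => ?_
    have := (hρ e.1).le
    have := (hρ e.2).le
    have := hG e
    positivity
  refine h1.trans (h2.trans (le_of_eq ?_))
  rw [Finset.sum_add_distrib]
  congr 1
  rw [Finset.sum_mul_sum, ← Finset.sum_product', Finset.mul_sum]


/-! ### item views -/

/-- item view of a side without a tie at `p` -/
lemma sv_item_two {b pr : ℕ} {τ : IT} {A : Finset Λ} {d : DT Λ κ} (h : SideI D sp b pr τ A d)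
    (hsp : D.SpOk sp) {d₁ d₀ : DT Λ κ} {A₁ A₀ : Finset Λ}
    (hv : sv (fun _ => ∅) p d A = .two d₁ A₁ d₀ A₀) :
    ∃ σ₁ σ₀, SideI D sp b pr σ₁ A₁ d₁ ∧ SideI D sp b pr σ₀ A₀ d₀ ∧
      ((τ = .add p σ₁ σ₀ ∧ isAdd p d ∧ A₁ = A ∧ A₀ = A) ∨
       (¬ isAdd p d ∧ (∃ S, τ = .up p S σ₀) ∧ σ₁ = σ₀ ∧ A₁ = A ∩ sp p ∧ A₀ = A \ sp p) ∨
       (¬ isAdd p d ∧ σ₁ = τ ∧ σ₀ = τ ∧ A₁ = ∅ ∧ A₀ = A)) := by
  have hd := h.eq
  cases τ with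
  | leaf S =>
    have e : D.toDT sp b pr (.leaf S) = d := hd.symm
    unfold Par.toDT at e
    rw [← e] at hv
    simp only [sv, SV.two.injEq] at hv
    obtain ⟨h1, h2, h3, h4⟩ := hv
    rw [e] at h1 h3
    subst h1 h3
    refine ⟨.leaf S, .leaf S, ?_, ?_, Or.inr (Or.inr ⟨?_, rfl, rfl, ?_, ?_⟩)⟩
    · rw [← h2, Finset.inter_empty]; exact h.pop (AdS_empty _)
    · rw [← h4, Finset.sdiff_empty]; exact h
    · rw [← e]; exact id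
    · rw [← h2, Finset.inter_empty]
    · rw [← h4, Finset.sdiff_empty]
  | br q t₁ t₀ =>
    have e : D.toDT sp b pr (.br q t₁ t₀) = d := hd.symm
    unfold Par.toDT at e
    rw [← e] at hv
    simp only [sv] at hv
    split_ifs at hv with hq
    simp only [SV.two.injEq] at hv
    obtain ⟨h1, h2, h3, h4⟩ := hv
    rw [e] at h1 h3
    subst h1 h3
    refine ⟨.br q t₁ t₀, .br q t₁ t₀, ?_, ?_, Or.inr (Or.inr ⟨?_, rfl, rfl, h2.symm, h4.symm⟩)⟩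
    · rw [← h2]; exact h.pop (AdS_empty _)
    · rw [← h4]; exact h
    · rw [← e]; exact id
  | add q t₁ t₀ =>
    have e : D.toDT sp b pr (.add q t₁ t₀) = d := hd.symm
    unfold Par.toDT at e
    rw [← e] at hv
    simp only [sv] at hv
    split_ifs at hv with hq
    · simp only [SV.two.injEq] at hv
      obtain ⟨h1, h2, h3, h4⟩ := hv
      subst h1 h2 h3 h4 hq
      refine ⟨t₁, t₀, h.add₁, h.add₀, Or.inl ⟨rfl, ?_, rfl, rfl⟩⟩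
      rw [← e]; exact rfl
    · simp only [SV.two.injEq] at hv
      obtain ⟨h1, h2, h3, h4⟩ := hv
      rw [e] at h1 h3
      subst h1 h3
      refine ⟨.add q t₁ t₀, .add q t₁ t₀, ?_, ?_, Or.inr (Or.inr ⟨?_, rfl, rfl, h2.symm, h4.symm⟩)⟩
      · rw [← h2]; exact h.pop (AdS_empty _)
      · rw [← h4]; exact h
      · rw [← e]; exact hq
  | up q S t =>
    have e : D.toDT sp b pr (.up q S t) = d := hd.symm
    unfold Par.toDT at e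
    rw [← e] at hv
    simp only [sv] at hv
    split_ifs at hv with hq
    · simp only [SV.two.injEq] at hv
      obtain ⟨h1, h2, h3, h4⟩ := hv
      subst h1 h2 h3 h4 hq
      refine ⟨t, t, (h.spl hsp).1, (h.spl hsp).2, Or.inr (Or.inl ⟨?_, ⟨S, rfl⟩, rfl, rfl, rfl⟩)⟩
      rw [← e]; exact id
    · simp only [SV.two.injEq] at hv
      obtain ⟨h1, h2, h3, h4⟩ := hv
      rw [e] at h1 h3
      subst h1 h3
      refine ⟨.up q S t, .up q S t, ?_, ?_, Or.inr (Or.inr ⟨?_, rfl, rfl, h2.symm, h4.symm⟩)⟩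
      · rw [← h2]; exact h.pop (AdS_empty _)
      · rw [← h4]; exact h
      · rw [← e]; exact id


/-! ### symbols in the letters of `Vc`, `Vx` -/

/-- `Σ_q b ρ q` -/
noncomputable def SR (ρ : ℕ → ℝ) (b : ℕ) (V : Finset ℕ) : ℝ := ∑ q ∈ V, (b:ℝ) * ρ q

lemma SR_nonneg (hρ : ∀ q, 0 < ρ q) (b : ℕ) (V : Finset ℕ) : 0 ≤ SR ρ b V :=
  Finset.sum_nonneg fun q _ => mul_nonneg (Nat.cast_nonneg _) (hρ q).le

lemma vE_le1 (hρ : ∀ q, 0 < ρ q) {M b pr M' b' pr' : ℕ} {e : ℕ × ℕ} (h : Pc D p e) :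
    vE D.γ ρ M b pr M' b' pr' e ≤ 6 * ((b * ρ e.1) * (b' * ρ e.2)) +
      (b:ℝ) * b' * Vc D ρ p (SE M b pr M' b' pr' e) e := by
  unfold vE Vc
  rw [if_pos h]
  have h1 := Fsc_le1 (γ := D.γ) (s := SE M b pr M' b' pr' e) (hρ e.1).le (hρ e.2).le
  have hb : (0:ℝ) ≤ (b:ℝ) * b' := by positivity
  nlinarith [mul_le_mul_of_nonneg_left h1 hb]

lemma vX_le1 (hρ : ∀ q, 0 < ρ q) {M b pr M' b' pr' : ℕ} {e : ℕ × ℕ} (h : Pc D p e) :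
    vX D.γ ρ p M b pr M' b' pr' e ≤ 6 * ((b * ρ e.1) * (b' * ρ e.2)) +
      (b:ℝ) * b' * Vx D ρ p (SE M b pr M' b' pr' e) e := by
  unfold vX Vx
  rw [if_pos h]
  have h1 := Fsc_le1 (γ := D.γ) (s := (p * (SE M b pr M' b' pr' e).1, p * (SE M b pr M' b' pr' e).2))
    (hρ e.1).le (hρ e.2).le
  have hb : (0:ℝ) ≤ (b:ℝ) * b' := by positivity
  nlinarith [mul_le_mul_of_nonneg_left h1 hb]

open Classical in
/-- (NM) -/
theorem nm_Y (hR : D.Rad ρ) (hdead : ∀ j, D.it j ∉ Al → ∀ a, D.om j a = 0)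
    {M M' b pr b' pr' : ℕ} {t₁ t₀ t₁' t₀' : IT} {A A' : Finset Λ} {d d' : DT Λ κ}
    (h : SideI D sp b pr (.br p t₁ t₀) A d) (h' : SideI D sp b' pr' (.br p t₁' t₀') A' d')
    (hM : 0 < M) (hM' : 0 < M') :
    Q (orel κ) (avg M (rk A (D.rho p) (GD D b pr p t₁ t₀)))
      (avg M' (rk A' (D.rho p) (GD D b' pr' p t₁' t₀'))) ≤
    6 * (SR ρ b (Qi D Al t₀ A) * SR ρ b' (Qi D Al t₀' A')) +
      ∑ e ∈ Qi D Al t₀ A ×ˢ Qi D Al t₀' A', (b:ℝ) * b' * Vc D ρ p (SE M b pr M' b' pr' e) e :=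
  (nm_loc hR hdead h h' hM hM' (Pc D p) (Pc_of_PE hM hM')).trans
    (blk hR.pos _ _ _ (fun e _ he => vE_le1 hR.pos he) fun e =>
      mul_nonneg (by positivity) (Vc_nonneg hR.pos _ _ _ _ _ _ _ _))

open Classical in
/-- (ONE), (RET), left tie -/
theorem os_Y (hR : D.Rad ρ) (hdead : ∀ j, D.it j ∉ Al → ∀ a, D.om j a = 0)
    {M M' b pr b' pr' : ℕ} {t₁ t₀ τ' : IT} {A A' : Finset Λ} {d d' : DT Λ κ}
    (h : SideI D sp b pr (.br p t₁ t₀) A d) (h' : SideI D sp b' pr' τ' A' d')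
    (hM : 0 < M) (hM' : 0 < M') :
    os (orel κ) p (avg M (rk A (D.rho p) (GD D b pr p t₁ t₀)))
      (sm (D.rho p) (avg M' (rv A' d'.g.val))) ≤
    6 * (SR ρ b (Qi D Al t₀ A) * SR ρ b' (Qi D Al τ' A')) +
      ∑ e ∈ Qi D Al t₀ A ×ˢ Qi D Al τ' A', (b:ℝ) * b' * Vc D ρ p (SE M b pr M' b' pr' e) e :=
  (os_loc hR hdead h h' hM hM' (Pc D p) (Pc_of_PE hM hM')).trans
    (blk hR.pos _ _ _ (fun e _ he => vE_le1 hR.pos he) fun e =>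
      mul_nonneg (by positivity) (Vc_nonneg hR.pos _ _ _ _ _ _ _ _))

lemma Vc_swap (M b pr M' b' pr' q r : ℕ) :
    Vc D ρ p (SE M' b' pr' M b pr (r, q)) (r, q) = Vc D ρ p (SE M b pr M' b' pr' (q, r)) (q, r) := by
  have e1 : SE M' b' pr' M b pr (r, q) =
      ((SE M b pr M' b' pr' (q, r)).2, (SE M b pr M' b' pr' (q, r)).1) := rfl
  unfold Vc F1
  rw [e1]
  by_cases h : Pc D p (q, r)
  · rw [if_pos h, if_pos (Pc_swap h)]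
    show (if Dsc (ρ r) (ρ q) _ ≤ 1 then Fsc D.γ (ρ r) (ρ q) _ else 0) = _
    rw [Dsc_swap, Fsc_swap]
  · rw [if_neg h, if_neg (fun h' => h (Pc_swap h'))]

lemma sum_prod_swap (V W : Finset ℕ) (F : ℕ × ℕ → ℝ) :
    ∑ e ∈ W ×ˢ V, F e = ∑ e ∈ V ×ˢ W, F (e.2, e.1) := by
  rw [Finset.sum_product_right, Finset.sum_product]

open Classical in
/-- (ONE), (RET), right tie -/
theorem os_Y' (hR : D.Rad ρ) (hdead : ∀ j, D.it j ∉ Al → ∀ a, D.om j a = 0)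
    {M M' b pr b' pr' : ℕ} {τ t₁' t₀' : IT} {A A' : Finset Λ} {d d' : DT Λ κ}
    (h : SideI D sp b pr τ A d) (h' : SideI D sp b' pr' (.br p t₁' t₀') A' d')
    (hM : 0 < M) (hM' : 0 < M') :
    os (orel κ) p (avg M' (rk A' (D.rho p) (GD D b' pr' p t₁' t₀')))
      (sm (D.rho p) (avg M (rv A d.g.val))) ≤
    6 * (SR ρ b (Qi D Al τ A) * SR ρ b' (Qi D Al t₀' A')) +
      ∑ e ∈ Qi D Al τ A ×ˢ Qi D Al t₀' A', (b:ℝ) * b' * Vc D ρ p (SE M b pr M' b' pr' e) e := by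
  have key := os_Y hR hdead (Al := Al) h' h hM' hM
  refine key.trans (le_of_eq ?_)
  rw [sum_prod_swap (Qi D Al τ A) (Qi D Al t₀' A')]
  congr 1
  · ring
  · refine Finset.sum_congr rfl fun e _ => ?_
    show (b':ℝ) * b * Vc D ρ p (SE M' b' pr' M b pr (e.2, e.1)) (e.2, e.1) = _
    rw [Vc_swap]
    ring

/-- un-raised exits: the left side raises, the right side drops -/
lemma vE_drop {M b pr M₂ b₂ pr₂ M' b' pr' M₂' b₂' pr₂' : ℕ} {e : ℕ × ℕ} {i i' : Bool} (hp : p.Prime)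
    (γ : ℝ) (h : SMv p i M b pr M₂ b₂ pr₂ e.1) (h' : SMv p i' M' b' pr' M₂' b₂' pr₂' e.2)
    (hi : i = true ∨ i' = true) (hb : (b₂:ℝ) * b₂' = p * (b * b')) :
    1 / (p:ℝ) * vE γ ρ M₂ b₂ pr₂ M₂' b₂' pr₂' e = vE γ ρ M b pr M' b' pr' e := by
  have hp0 : (p:ℝ) ≠ 0 := by exact_mod_cast hp.ne_zero
  unfold vE
  rw [SE_inv hp h h' hi, hb]
  field_simp

open Classical in
/-- cost function of a one-sided exit -/
noncomputable def VT (D : Par Λ κ) (ρ : ℕ → ℝ) (p : ℕ) (z : ℕ) (s : ℝ × ℝ) (e : ℕ × ℕ) : ℝ :=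
  if p ∣ z then Vc D ρ p s e else Vx D ρ p s e

open Classical in
/-- **exit of type (tie, other)**, all right items -/
theorem exit_Y (hR : D.Rad ρ) (hdead : ∀ j, D.it j ∉ Al → ∀ a, D.om j a = 0)
    {μ : TrG Λ κ → Finset Λ → ℝ} {B : ℝ} (hB : 0 ≤ B) (hμ : ∀ t A, 0 ≤ μ t A)
    {s : St Λ κ} {b pr b' pr' : ℕ} {t₁ t₀ τ' : IT} {A' : Finset Λ} {d d' : DT Λ κ} (O : Finset ℕ)
    (h : SideI D sp b pr (.br p t₁ t₀) s.A d) (h' : SideI D sp b' pr' τ' A' d')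
    (hM : 0 < s.M) (hM' : 0 < s.M') (hc : ¬ p ∣ s.M') (fL : ∀ q ∈ t₀.items, ¬ p ∣ q / pr) :
    1 / (p:ℝ) * Xs μ B { s with M' := p * s.M', O := O, R := Ro (D.rho p), t := D.toDT sp (b * p) pr t₀, t' := d', A' := A' } ≤
    6 * (SR ρ b (Qi D Al t₀ s.A) * SR ρ b' (Qi D Al τ' A')) +
      ∑ e ∈ Qi D Al t₀ s.A ×ˢ Qi D Al τ' A',
        (b:ℝ) * b' * VT D ρ p (e.2 / pr') (SE s.M b pr s.M' b' pr' e) e := by
  have hpp : p.Prime := h.hF.1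
  have hp0 : 0 < p := hpp.pos
  have hst : StI D sp { s with M' := p * s.M', O := O, R := Ro (D.rho p), t := D.toDT sp (b * p) pr t₀, t' := d', A' := A' }
      (b * p) pr t₀ b' pr' τ' := ⟨h.br₀, h', hM, Nat.mul_pos hp0 hM'⟩
  have k1 := qs_loc (Al := Al) hR hdead hst (Pc D p) (Pc_of_PE hM (Nat.mul_pos hp0 hM'))
  have k2 := Xs_le_of hB hμ k1 (Finset.sum_nonneg fun e _ => vE_nonneg hR.pos _ _ _ _ _ _ _ _)
  have hq : (0:ℝ) ≤ 1 / (p:ℝ) := by positivity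
  refine (mul_le_mul_of_nonneg_left k2 hq).trans ?_
  rw [Finset.mul_sum]
  refine blk hR.pos _ _ _ (fun e he hPe => ?_) fun e => mul_nonneg (by positivity) ?_
  · obtain ⟨a1, a2⟩ := Finset.mem_product.1 he
    have f1 : ¬ p ∣ e.1 / pr := fL _ (mem_Qi.1 a1).1
    show 1 / (p:ℝ) * vE D.γ ρ s.M (b * p) pr (p * s.M') b' pr' e ≤ _
    unfold VT
    by_cases hd : p ∣ e.2 / pr'
    · rw [if_pos hd, vE_drop hpp D.γ (smv_missing f1) (smv_avg_dvd hpp hc hd) (Or.inr rfl)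
        (by push_cast; ring)]
      exact vE_le1 hR.pos hPe
    · rw [if_neg hd, ← pb_one (D := D), pb_exit_t2 hpp _ _ _ _ _ _ _ hd]
      exact vX_le1 hR.pos hPe
  · unfold VT
    split_ifs
    · exact Vc_nonneg hR.pos _ _ _ _ _ _ _ _
    · exact Vx_nonneg hR.pos _ _ _ _ _ _ _ _

open Classical in
/-- **exit of type (other, tie)**, all left items -/
theorem exit_Y' (hR : D.Rad ρ) (hdead : ∀ j, D.it j ∉ Al → ∀ a, D.om j a = 0)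
    {μ : TrG Λ κ → Finset Λ → ℝ} {B : ℝ} (hB : 0 ≤ B) (hμ : ∀ t A, 0 ≤ μ t A)
    {s : St Λ κ} {b pr b' pr' : ℕ} {τ t₁' t₀' : IT} {A : Finset Λ} {d d' : DT Λ κ} (O' : Finset ℕ)
    (h : SideI D sp b pr τ A d) (h' : SideI D sp b' pr' (.br p t₁' t₀') s.A' d')
    (hM : 0 < s.M) (hM' : 0 < s.M') (hc : ¬ p ∣ s.M) (fR : ∀ q ∈ t₀'.items, ¬ p ∣ q / pr') :
    1 / (p:ℝ) * Xs μ B { s with M := p * s.M, O' := O', R := Ro (D.rho p), t := d, A := A, t' := D.toDT sp (b' * p) pr' t₀' } ≤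
    6 * (SR ρ b (Qi D Al τ A) * SR ρ b' (Qi D Al t₀' s.A')) +
      ∑ e ∈ Qi D Al τ A ×ˢ Qi D Al t₀' s.A',
        (b:ℝ) * b' * VT D ρ p (e.1 / pr) (SE s.M b pr s.M' b' pr' e) e := by
  have hpp : p.Prime := h'.hF.1
  have hp0 : 0 < p := hpp.pos
  have hst : StI D sp { s with M := p * s.M, O' := O', R := Ro (D.rho p), t := d, A := A, t' := D.toDT sp (b' * p) pr' t₀' }
      b pr τ (b' * p) pr' t₀' := ⟨h, h'.br₀, Nat.mul_pos hp0 hM, hM'⟩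
  have k1 := qs_loc (Al := Al) hR hdead hst (Pc D p) (Pc_of_PE (Nat.mul_pos hp0 hM) hM')
  have k2 := Xs_le_of hB hμ k1 (Finset.sum_nonneg fun e _ => vE_nonneg hR.pos _ _ _ _ _ _ _ _)
  have hq : (0:ℝ) ≤ 1 / (p:ℝ) := by positivity
  refine (mul_le_mul_of_nonneg_left k2 hq).trans ?_
  rw [Finset.mul_sum]
  refine blk hR.pos _ _ _ (fun e he hPe => ?_) fun e => mul_nonneg (by positivity) ?_
  · obtain ⟨a1, a2⟩ := Finset.mem_product.1 he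
    have f1 : ¬ p ∣ e.2 / pr' := fR _ (mem_Qi.1 a2).1
    show 1 / (p:ℝ) * vE D.γ ρ (p * s.M) b pr s.M' (b' * p) pr' e ≤ _
    unfold VT
    by_cases hd : p ∣ e.1 / pr
    · rw [if_pos hd, vE_drop hpp D.γ (smv_avg_dvd hpp hc hd) (smv_missing f1) (Or.inl rfl)
        (by push_cast; ring)]
      exact vE_le1 hR.pos hPe
    · rw [if_neg hd, ← pb_one (D := D), pb_exit_2t hpp _ _ _ _ _ _ _ hd]
      exact vX_le1 hR.pos hPe
  · unfold VT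
    split_ifs
    · exact Vc_nonneg hR.pos _ _ _ _ _ _ _ _
    · exact Vx_nonneg hR.pos _ _ _ _ _ _ _ _

open Classical in
/-- **exit of type (tie, tie)** -/
theorem exit_YY (hR : D.Rad ρ) (hdead : ∀ j, D.it j ∉ Al → ∀ a, D.om j a = 0)
    {μ : TrG Λ κ → Finset Λ → ℝ} {B : ℝ} (hB : 0 ≤ B) (hμ : ∀ t A, 0 ≤ μ t A)
    {s : St Λ κ} {b pr b' pr' : ℕ} {t₁ t₀ t₁' t₀' : IT} {d d' : DT Λ κ}
    (h : SideI D sp b pr (.br p t₁ t₀) s.A d) (h' : SideI D sp b' pr' (.br p t₁' t₀') s.A' d')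
    (hM : 0 < s.M) (hM' : 0 < s.M') :
    1 / (p:ℝ) * (1 / (p:ℝ)) * Xs μ B { s with R := Ro (D.rho p), t := D.toDT sp (b * p) pr t₀, t' := D.toDT sp (b' * p) pr' t₀' } ≤
    6 * (SR ρ b (Qi D Al t₀ s.A) * SR ρ b' (Qi D Al t₀' s.A')) +
      ∑ e ∈ Qi D Al t₀ s.A ×ˢ Qi D Al t₀' s.A',
        (b:ℝ) * b' * Vx D ρ p (SE s.M b pr s.M' b' pr' e) e :=
  (exit_tt hR hdead hB hμ (Ro (D.rho p)) h h' hM hM' (Pc D p) (Pc_of_PE hM hM')).trans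
    (blk hR.pos _ _ _ (fun e _ he => vX_le1 hR.pos he) fun e =>
      mul_nonneg (by positivity) (Vx_nonneg hR.pos _ _ _ _ _ _ _ _))


/-! ### the theorem -/

/-- facts of one side of a state at the column `p` -/
structure SdF (D : Par Λ κ) (ρ : ℕ → ℝ) (Al : Finset ℕ) (sp : ℕ → Finset Λ) (κp : ℝ)
    (me : TrG Λ κ → Finset Λ → ℝ) (p b pr : ℕ) (τ : IT) (A : Finset Λ) : Prop where
  cop : ¬ p ∣ pr
  ms : ∀ t₁ t₀, τ = .br p t₁ t₀ → ∀ q ∈ t₀.items, ¬ p ∣ q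
  up : ∀ S σ, τ = .up p S σ → ∀ j ∈ A, D.it j ∈ σ.items → p ∣ D.it j → j ∈ sp p
  sep : SepTop D pr τ
  k0 : ∀ t₁ t₀, τ = .br p t₁ t₀ → SR ρ (b * p) (Qi D Al t₀ A) ≤ κp * me (D.toDT sp (b * p) pr t₀).g A
  k1 : ∀ σ A₂, ((σ = τ ∧ A₂ = A) ∨ (∃ t₁, τ = .add p t₁ σ ∧ A₂ = A) ∨
    ((∃ S, τ = .up p S σ) ∧ (A₂ = A ∩ sp p ∨ A₂ = A \ sp p))) →
    SR ρ b (Qi D Al σ A₂) ≤ κp * me (D.toDT sp b pr σ).g A₂

lemma SR_col {b : ℕ} (hp : 0 < p) (V : Finset ℕ) : SR ρ b V = 1 / (p:ℝ) * SR ρ (b * p) V := by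
  unfold SR
  have : (p:ℝ) ≠ 0 := by exact_mod_cast hp.ne'
  rw [Finset.mul_sum]
  refine Finset.sum_congr rfl fun q _ => ?_
  push_cast
  field_simp

lemma Qi_sub {σ τ : IT} {A A₂ : Finset Λ} (h : σ.items ⊆ τ.items) (hA : A₂ ⊆ A) :
    Qi D Al σ A₂ ⊆ Qi D Al τ A := by
  intro q hq
  obtain ⟨h1, h2, j, hj, rfl⟩ := mem_Qi.1 hq
  exact mem_Qi.2 ⟨h h1, h2, j, hA hj, rfl⟩

lemma lcY_ret (hρ : ∀ q, 0 < ρ q) {M b pr M' b' pr' : ℕ} {τ τ' : IT} {e : ℕ × ℕ}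
    (h : p ∈ τ.mt e.1 ∪ τ'.mt e.2) :
    (b:ℝ) * b' * Vc D ρ p (SE M b pr M' b' pr' e) e ≤ lcY D ρ p M b pr M' b' pr' τ τ' e := by
  have h1 := Vc_nonneg (D := D) hρ p M b pr M' b' pr' e
  have h2 := Vx_nonneg (D := D) hρ p M b pr M' b' pr' e
  unfold lcY
  rw [if_pos h]
  refine mul_le_mul_of_nonneg_left ?_ (by positivity)
  split_ifs <;> linarith

lemma lcY_tt (hρ : ∀ q, 0 < ρ q) {M b pr M' b' pr' : ℕ} {τ τ' : IT} {e : ℕ × ℕ}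
    (h : p ∈ τ.mt e.1 ∪ τ'.mt e.2) (f1 : ¬ p ∣ e.1) (f2 : ¬ p ∣ e.2) :
    (b:ℝ) * b' * Vc D ρ p (SE M b pr M' b' pr' e) e +
      (b:ℝ) * b' * Vx D ρ p (SE M b pr M' b' pr' e) e ≤ lcY D ρ p M b pr M' b' pr' τ τ' e := by
  have h1 := Vc_nonneg (D := D) hρ p M b pr M' b' pr' e
  have h2 := Vx_nonneg (D := D) hρ p M b pr M' b' pr' e
  unfold lcY
  rw [if_pos h, if_neg (fun h' => h'.elim f1 f2), ← mul_add]
  refine mul_le_mul_of_nonneg_left ?_ (by positivity)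
  linarith

lemma lcY_t2 (hρ : ∀ q, 0 < ρ q) {M b pr M' b' pr' : ℕ} {τ τ' : IT} {e : ℕ × ℕ} {z : ℕ}
    (h : p ∈ τ.mt e.1 ∪ τ'.mt e.2) (f : ¬ p ∣ z → ¬ p ∣ e.1 ∧ ¬ p ∣ e.2) :
    (b:ℝ) * b' * Vc D ρ p (SE M b pr M' b' pr' e) e +
      (b:ℝ) * b' * VT D ρ p z (SE M b pr M' b' pr' e) e ≤ lcY D ρ p M b pr M' b' pr' τ τ' e := by
  unfold VT
  split_ifs with hz
  · have h1 := Vc_nonneg (D := D) hρ p M b pr M' b' pr' e
    have h2 := Vx_nonneg (D := D) hρ p M b pr M' b' pr' e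
    unfold lcY
    rw [if_pos h, ← mul_add]
    refine mul_le_mul_of_nonneg_left ?_ (by positivity)
    split_ifs <;> linarith
  · exact lcY_tt hρ h (f hz).1 (f hz).2

lemma ndiv_of {p q pr : ℕ} (hp : p.Prime) (h1 : pr ∣ q) (hc : ¬ p ∣ pr) (h : ¬ p ∣ q / pr) :
    ¬ p ∣ q := by
  intro hd
  obtain ⟨k, rfl⟩ := h1
  rcases Nat.eq_zero_or_pos pr with h0 | h0
  · subst h0; exact hc (dvd_zero p)
  · rw [Nat.mul_div_cancel_left _ h0] at h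
    rcases (Nat.Prime.dvd_mul hp).1 hd with h2 | h2
    · exact hc h2
    · exact h h2

lemma ndiv_div {p q pr : ℕ} (h1 : pr ∣ q) (h : ¬ p ∣ q) : ¬ p ∣ q / pr :=
  fun hd => h (hd.trans (Nat.div_dvd_of_dvd h1))


lemma Qi_empty (σ : IT) : Qi D Al σ (∅ : Finset Λ) = ∅ := by
  rw [Finset.eq_empty_iff_forall_notMem]
  intro q hq
  obtain ⟨-, -, j, hj, -⟩ := mem_Qi.1 hq
  exact absurd hj (Finset.notMem_empty j)

/-- the three parts of a side without tie: masses and disjointness -/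
lemma two_parts {κp : ℝ} {me : TrG Λ κ → Finset Λ → ℝ} (hspd : ∀ j ∈ sp p, p ∣ D.it j)
    {b pr : ℕ} {τ : IT} {A : Finset Λ} {d d₁ d₀ : DT Λ κ} {A₁ A₀ : Finset Λ} {σ₁ σ₀ : IT}
    (f : SdF D ρ Al sp κp me p b pr τ A)
    (h₁ : SideI D sp b pr σ₁ A₁ d₁) (h₀ : SideI D sp b pr σ₀ A₀ d₀)
    (hv : (τ = .add p σ₁ σ₀ ∧ isAdd p d ∧ A₁ = A ∧ A₀ = A) ∨
       (¬ isAdd p d ∧ (∃ S, τ = .up p S σ₀) ∧ σ₁ = σ₀ ∧ A₁ = A ∩ sp p ∧ A₀ = A \ sp p) ∨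
       (¬ isAdd p d ∧ σ₁ = τ ∧ σ₀ = τ ∧ A₁ = ∅ ∧ A₀ = A)) :
    Qi D Al σ₀ A₀ ⊆ Qi D Al τ A ∧ SR ρ b (Qi D Al σ₀ A₀) ≤ κp * me d₀.g A₀ ∧
    ((τ = .add p σ₁ σ₀ ∧ isAdd p d) ∨
     (¬ isAdd p d ∧ Qi D Al σ₁ A₁ ⊆ Qi D Al τ A ∧ Disjoint (Qi D Al σ₁ A₁) (Qi D Al σ₀ A₀) ∧
      SR ρ b (Qi D Al σ₁ A₁) ≤ κp * me d₁.g A₁) ∨ (¬ isAdd p d ∧ Qi D Al σ₁ A₁ = ∅)) := by
  rcases hv with ⟨rfl, ha, rfl, rfl⟩ | ⟨ha, ⟨S, rfl⟩, rfl, rfl, rfl⟩ | ⟨ha, rfl, rfl, rfl, rfl⟩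
  · refine ⟨Qi_sub Finset.subset_union_right (Finset.Subset.refl _), ?_, Or.inl ⟨rfl, ha⟩⟩
    rw [h₀.eq]
    exact f.k1 _ _ (Or.inr (Or.inl ⟨_, rfl, rfl⟩))
  · refine ⟨Qi_sub (Finset.Subset.refl _) Finset.sdiff_subset, ?_, Or.inr (Or.inl ⟨ha,
      Qi_sub (Finset.Subset.refl _) Finset.inter_subset_left, ?_, ?_⟩)⟩
    · rw [h₀.eq]
      exact f.k1 _ _ (Or.inr (Or.inr ⟨⟨S, rfl⟩, Or.inr rfl⟩))
    · rw [Finset.disjoint_left]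
      intro q hq hq'
      obtain ⟨-, -, j, hj, hjq⟩ := mem_Qi.1 hq
      obtain ⟨i0, -, k, hk, hkq⟩ := mem_Qi.1 hq'
      have h1 : p ∣ D.it k := by
        rw [hkq, ← hjq]; exact hspd j (Finset.mem_inter.1 hj).2
      exact (Finset.mem_sdiff.1 hk).2 (f.up S _ rfl k (Finset.mem_sdiff.1 hk).1 (by rw [hkq]; exact i0) h1)
    · rw [h₁.eq]
      exact f.k1 _ _ (Or.inr (Or.inr ⟨⟨S, rfl⟩, Or.inl rfl⟩))
  · refine ⟨Finset.Subset.refl _, ?_, Or.inr (Or.inr ⟨ha, Qi_empty _⟩)⟩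
    rw [h₀.eq]
    exact f.k1 _ _ (Or.inl ⟨rfl, rfl⟩)

/-- sums over two disjoint blocks -/
lemma two_blocks {V V₀ V' W₁ W₀ : Finset ℕ} (hV : V₀ ⊆ V) (hW₁ : W₁ ⊆ V') (hW₀ : W₀ ⊆ V')
    (hd : Disjoint W₁ W₀) {F G H : ℕ × ℕ → ℝ} (hH : ∀ e, 0 ≤ H e)
    (hF : ∀ e ∈ V₀ ×ˢ W₁, F e ≤ H e) (hG : ∀ e ∈ V₀ ×ˢ W₀, G e ≤ H e) :
    ∑ e ∈ V₀ ×ˢ W₁, F e + ∑ e ∈ V₀ ×ˢ W₀, G e ≤ ∑ e ∈ V ×ˢ V', H e := by
  have h1 := Finset.sum_le_sum hF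
  have h2 := Finset.sum_le_sum hG
  have hdj : Disjoint (V₀ ×ˢ W₁) (V₀ ×ˢ W₀) := by
    rw [Finset.disjoint_left]
    intro e he he'
    exact Finset.disjoint_left.1 hd (Finset.mem_product.1 he).2 (Finset.mem_product.1 he').2
  have h3 : ∑ e ∈ V₀ ×ˢ W₁, H e + ∑ e ∈ V₀ ×ˢ W₀, H e ≤ ∑ e ∈ V ×ˢ V', H e := by
    rw [← Finset.sum_union hdj]
    refine Finset.sum_le_sum_of_subset_of_nonneg ?_ fun e _ _ => hH e
    exact Finset.union_subset (Finset.product_subset_product hV hW₁)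
      (Finset.product_subset_product hV hW₀)
  linarith

lemma two_blocks' {V V' W₀' V₁ V₀ : Finset ℕ} (hV : W₀' ⊆ V') (hW₁ : V₁ ⊆ V) (hW₀ : V₀ ⊆ V)
    (hd : Disjoint V₁ V₀) {F G H : ℕ × ℕ → ℝ} (hH : ∀ e, 0 ≤ H e)
    (hF : ∀ e ∈ V₁ ×ˢ W₀', F e ≤ H e) (hG : ∀ e ∈ V₀ ×ˢ W₀', G e ≤ H e) :
    ∑ e ∈ V₁ ×ˢ W₀', F e + ∑ e ∈ V₀ ×ˢ W₀', G e ≤ ∑ e ∈ V ×ˢ V', H e := by
  have h1 := Finset.sum_le_sum hF
  have h2 := Finset.sum_le_sum hG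
  have hdj : Disjoint (V₁ ×ˢ W₀') (V₀ ×ˢ W₀') := by
    rw [Finset.disjoint_left]
    intro e he he'
    exact Finset.disjoint_left.1 hd (Finset.mem_product.1 he).1 (Finset.mem_product.1 he').1
  have h3 : ∑ e ∈ V₁ ×ˢ W₀', H e + ∑ e ∈ V₀ ×ˢ W₀', H e ≤ ∑ e ∈ V ×ˢ V', H e := by
    rw [← Finset.sum_union hdj]
    refine Finset.sum_le_sum_of_subset_of_nonneg ?_ fun e _ _ => hH e
    exact Finset.union_subset (Finset.product_subset_product hW₁ hV)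
      (Finset.product_subset_product hW₀ hV)
  linarith

lemma mt_mem {t₁ t₀ : IT} {q : ℕ} (h : q ∈ t₀.items) : p ∈ (IT.br p t₁ t₀).mt q := by
  simp only [IT.mt, if_pos h]
  exact Finset.mem_insert_self _ _

lemma pm_mul {a x y z κp u v : ℝ} (ha : 12 * κp ^ 2 ≤ a) (hκ : 0 ≤ κp) (hx : 0 ≤ x)
    (hy : 0 ≤ y) (hu0 : 0 ≤ u) (hv0 : 0 ≤ v) (hu : u ≤ κp * x) (hv : v ≤ κp * y) :
    12 * (u * v) ≤ a * x * y := by
  have h1 : u * v ≤ (κp * x) * (κp * y) := mul_le_mul hu hv hv0 (mul_nonneg hκ hx)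
  have h2 : 12 * κp ^ 2 * (x * y) ≤ a * (x * y) := mul_le_mul_of_nonneg_right ha (mul_nonneg hx hy)
  nlinarith


/-- RET against SEP-present is zero, left tie -/
lemma ret0 {M M' b pr b' pr' : ℕ} {t₁ t₀ τ₁' τ₀' : IT} {A A' : Finset Λ} {d d' : DT Λ κ}
    (h : SideI D sp b pr (.br p t₁ t₀) A d) (h' : SideI D sp b' pr' τ₁' A' d')
    (hM : 0 < M) (hM' : 0 < M') (hc : Nat.Coprime p M') (hS : SepTop D pr' (.add p τ₁' τ₀')) :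
    os (orel κ) p (avg M (rk A (D.rho p) (GD D b pr p t₁ t₀)))
      (sm (D.rho p) (avg M' (rv A' d'.g.val))) = 0 := by
  rw [h'.val]
  exact os_per h.hF.1.pos (PB_avg hM (PB_rk h.pb_G))
    (PB_sm (fun j => PB_uA hM' h'.hb h'.hF h'.hW (one_dvd _) j) _)
    (sm_per _ h'.hb h'.hF h'.hW hM' hc hS)

open Classical in
/-- **(tie, other)** -/
theorem case_t2 (hR : D.Rad ρ) (hdead : ∀ j, D.it j ∉ Al → ∀ a, D.om j a = 0) (hsp : D.SpOk sp)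
    (hspd : ∀ j ∈ sp p, p ∣ D.it j) {μ me : TrG Λ κ → Finset Λ → ℝ} {B : ℝ} (hB : 0 ≤ B)
    (hμ : ∀ t A, 0 ≤ μ t A) (hme : ∀ t A, 0 ≤ me t A) {κp ap : ℝ} (hκ : 0 ≤ κp)
    (ha : 12 * κp ^ 2 ≤ ap) {s : St Λ κ} {b pr b' pr' : ℕ} {t₁ t₀ τ' : IT}
    (h : SideI D sp b pr (.br p t₁ t₀) s.A s.t) (h' : SideI D sp b' pr' τ' s.A' s.t')
    (hM : 0 < s.M) (hM' : 0 < s.M') (hc' : Nat.Coprime p s.M')
    (fL : SdF D ρ Al sp κp me p b pr (.br p t₁ t₀) s.A)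
    (fR : SdF D ρ Al sp κp me p b' pr' τ' s.A')
    {d₁ d₀ : DT Λ κ} {A₁ A₀ : Finset Λ} (hv : sv (fun _ => ∅) p s.t' s.A' = .two d₁ A₁ d₀ A₀)
    (O : Finset ℕ) :
    os (orel κ) p (avg s.M (rk s.A (D.rho p) (GD D b pr p t₁ t₀)))
      (sm (D.rho p) (avg s.M' (rv A₁ d₁.g.val))) +
    os (orel κ) p (avg s.M (rk s.A (D.rho p) (GD D b pr p t₁ t₀)))
      (sm (D.rho p) (avg s.M' (rv A₀ d₀.g.val))) +
    1 / (p:ℝ) * Xs μ B { s with M' := p * s.M', O := O, R := Ro (D.rho p), t := D.toDT sp (b * p) pr t₀, t' := d₀, A' := A₀ } ≤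
    ap * (1 / (p:ℝ) * me (D.toDT sp (b * p) pr t₀).g s.A) * (me d₀.g A₀ + mP me p s.t' d₁ A₁) +
      ∑ e ∈ Qi D Al (.br p t₁ t₀) s.A ×ˢ Qi D Al τ' s.A',
        lcY D ρ p s.M b pr s.M' b' pr' (.br p t₁ t₀) τ' e := by
  have hpp : p.Prime := h.hF.1
  have hp0 : 0 < p := hpp.pos
  have hpM : ¬ p ∣ s.M' := (Nat.Prime.coprime_iff_not_dvd hpp).1 hc'
  obtain ⟨σ₁, σ₀, h₁, h₀, hcases⟩ := sv_item_two h' hsp hv
  obtain ⟨sub0, m0, hrest⟩ := two_parts hspd fR h₁ h₀ hcases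
  have one := os_Y hR hdead (Al := Al) h h₀ hM hM'
  have fd : ∀ q ∈ t₀.items, ¬ p ∣ q / pr := fun q hq =>
    ndiv_div (h.br₀.hF.item q hq).2.1 (fL.ms _ _ rfl q hq)
  have ex := exit_Y hR hdead (Al := Al) hB hμ O h h₀ hM hM' hpM fd
  set V₀ := Qi D Al t₀ s.A with hV₀
  set V := Qi D Al (.br p t₁ t₀) s.A with hV
  set V' := Qi D Al τ' s.A' with hV'
  set W₀ := Qi D Al σ₀ A₀ with hW₀
  set W₁ := Qi D Al σ₁ A₁ with hW₁
  have sV : V₀ ⊆ V := Qi_sub Finset.subset_union_right (Finset.Subset.refl _)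
  have nV := SR_nonneg hR.pos b V₀
  have nW := SR_nonneg hR.pos b' W₀
  have nW1 := SR_nonneg hR.pos b' W₁
  have mV : SR ρ b V₀ ≤ κp * (1 / (p:ℝ) * me (D.toDT sp (b * p) pr t₀).g s.A) := by
    rw [SR_col hp0]
    have := mul_le_mul_of_nonneg_left (fL.k0 _ _ rfl) (by positivity : (0:ℝ) ≤ 1 / (p:ℝ))
    refine this.trans (le_of_eq (by ring))
  have nX : 0 ≤ 1 / (p:ℝ) * me (D.toDT sp (b * p) pr t₀).g s.A :=
    mul_nonneg (by positivity) (hme _ _)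
  set X := 1 / (p:ℝ) * me (D.toDT sp (b * p) pr t₀).g s.A with hX
  have g0 := pm_mul (z := 0) ha hκ nX (hme d₀.g A₀) nV nW mV m0
  have hH : ∀ e, 0 ≤ lcY D ρ p s.M b pr s.M' b' pr' (.br p t₁ t₀) τ' e := fun e =>
    lcY_nonneg hR.pos _ _ _ _ _ _ _ _ _ e
  have hap : 0 ≤ ap := le_trans (by positivity) ha
  -- pairs of the missing block
  have c0 : ∀ e ∈ V₀ ×ˢ W₀, (b:ℝ) * b' * Vc D ρ p (SE s.M b pr s.M' b' pr' e) e +
      (b:ℝ) * b' * VT D ρ p (e.2 / pr') (SE s.M b pr s.M' b' pr' e) e ≤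
      lcY D ρ p s.M b pr s.M' b' pr' (.br p t₁ t₀) τ' e := by
    intro e he
    obtain ⟨a1, a2⟩ := Finset.mem_product.1 he
    have i1 : e.1 ∈ t₀.items := (mem_Qi.1 a1).1
    have i2 : e.2 ∈ τ'.items := (mem_Qi.1 (sub0 a2)).1
    exact lcY_t2 hR.pos (Finset.mem_union_left _ (mt_mem i1)) fun hz =>
      ⟨fL.ms _ _ rfl _ i1, ndiv_of hpp (h'.hF.item _ i2).2.1 fR.cop hz⟩
  have c1 : ∀ e ∈ V₀ ×ˢ W₁, (b:ℝ) * b' * Vc D ρ p (SE s.M b pr s.M' b' pr' e) e ≤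
      lcY D ρ p s.M b pr s.M' b' pr' (.br p t₁ t₀) τ' e := by
    intro e he
    obtain ⟨a1, a2⟩ := Finset.mem_product.1 he
    exact lcY_ret hR.pos (Finset.mem_union_left _ (mt_mem (mem_Qi.1 a1).1))
  have s0 : ∑ e ∈ V₀ ×ˢ W₀, (b:ℝ) * b' * Vc D ρ p (SE s.M b pr s.M' b' pr' e) e +
      ∑ e ∈ V₀ ×ˢ W₀, (b:ℝ) * b' * VT D ρ p (e.2 / pr') (SE s.M b pr s.M' b' pr' e) e ≤
      ∑ e ∈ V₀ ×ˢ W₀, lcY D ρ p s.M b pr s.M' b' pr' (.br p t₁ t₀) τ' e := by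
    rw [← Finset.sum_add_distrib]
    exact Finset.sum_le_sum c0
  have s0' : ∑ e ∈ V₀ ×ˢ W₀, lcY D ρ p s.M b pr s.M' b' pr' (.br p t₁ t₀) τ' e ≤
      ∑ e ∈ V ×ˢ V', lcY D ρ p s.M b pr s.M' b' pr' (.br p t₁ t₀) τ' e :=
    Finset.sum_le_sum_of_subset_of_nonneg (Finset.product_subset_product sV sub0) fun e _ _ => hH e
  rcases hrest with ⟨hτ, hadd⟩ | ⟨hadd, sub1, hdj, m1⟩ | ⟨hadd, hemp⟩
  · -- SEP
    subst hτ
    have r0 := ret0 (sp := sp) h h₁ hM hM' hc' fR.sep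
    have e3 : mP me p s.t' d₁ A₁ = 0 := by unfold mP; rw [if_pos hadd]
    rw [r0, e3, zero_add, add_zero]
    linarith
  · -- up
    have ret := os_Y hR hdead (Al := Al) h h₁ hM hM'
    have e3 : mP me p s.t' d₁ A₁ = me d₁.g A₁ := by unfold mP; rw [if_neg hadd]
    have g1 := pm_mul (z := 0) ha hκ nX (hme d₁.g A₁) nV nW1 mV m1
    have sb := two_blocks sV sub1 sub0 hdj hH c1 (fun e he => c0 e he)
    rw [Finset.sum_add_distrib] at sb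
    rw [e3]
    have nn1 := mul_nonneg nV nW1
    have ret' : os (orel κ) p (avg s.M (rk s.A (D.rho p) (GD D b pr p t₁ t₀)))
        (sm (D.rho p) (avg s.M' (rv A₁ d₁.g.val))) ≤ 12 * (SR ρ b V₀ * SR ρ b' W₁) +
        ∑ e ∈ V₀ ×ˢ W₁, (b:ℝ) * b' * Vc D ρ p (SE s.M b pr s.M' b' pr' e) e := by linarith
    have e4 : ap * X * (me d₀.g A₀ + me d₁.g A₁) = ap * X * me d₀.g A₀ + ap * X * me d₁.g A₁ := by
      ring
    rw [e4]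
    linarith
  · -- absent
    have ret := os_Y hR hdead (Al := Al) h h₁ hM hM'
    rw [← hW₁] at ret
    rw [hemp, Finset.product_empty, Finset.sum_empty] at ret
    have e5 : SR ρ b' (∅ : Finset ℕ) = 0 := by unfold SR; exact Finset.sum_empty
    rw [e5, mul_zero, mul_zero, add_zero] at ret
    have e3 : 0 ≤ mP me p s.t' d₁ A₁ := by
      unfold mP; rw [if_neg hadd]; exact hme _ _
    have g2 : 0 ≤ ap * X * mP me p s.t' d₁ A₁ := mul_nonneg (mul_nonneg hap nX) e3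
    have e4 : ap * X * (me d₀.g A₀ + mP me p s.t' d₁ A₁) =
        ap * X * me d₀.g A₀ + ap * X * mP me p s.t' d₁ A₁ := by ring
    rw [e4]
    linarith


open Classical in
/-- **(other, tie)** -/
theorem case_2t (hR : D.Rad ρ) (hdead : ∀ j, D.it j ∉ Al → ∀ a, D.om j a = 0) (hsp : D.SpOk sp)
    (hspd : ∀ j ∈ sp p, p ∣ D.it j) {μ me : TrG Λ κ → Finset Λ → ℝ} {B : ℝ} (hB : 0 ≤ B)
    (hμ : ∀ t A, 0 ≤ μ t A) (hme : ∀ t A, 0 ≤ me t A) {κp ap : ℝ} (hκ : 0 ≤ κp)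
    (ha : 12 * κp ^ 2 ≤ ap) {s : St Λ κ} {b pr b' pr' : ℕ} {τ t₁' t₀' : IT}
    (h : SideI D sp b pr τ s.A s.t) (h' : SideI D sp b' pr' (.br p t₁' t₀') s.A' s.t')
    (hM : 0 < s.M) (hM' : 0 < s.M') (hc : Nat.Coprime p s.M)
    (fL : SdF D ρ Al sp κp me p b pr τ s.A)
    (fR : SdF D ρ Al sp κp me p b' pr' (.br p t₁' t₀') s.A')
    {d₁ d₀ : DT Λ κ} {A₁ A₀ : Finset Λ} (hv : sv (fun _ => ∅) p s.t s.A = .two d₁ A₁ d₀ A₀)
    (O : Finset ℕ) :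
    os (orel κ) p (avg s.M' (rk s.A' (D.rho p) (GD D b' pr' p t₁' t₀')))
      (sm (D.rho p) (avg s.M (rv A₁ d₁.g.val))) +
    os (orel κ) p (avg s.M' (rk s.A' (D.rho p) (GD D b' pr' p t₁' t₀')))
      (sm (D.rho p) (avg s.M (rv A₀ d₀.g.val))) +
    1 / (p:ℝ) * Xs μ B { s with M := p * s.M, O' := O, R := Ro (D.rho p), t := d₀, A := A₀, t' := D.toDT sp (b' * p) pr' t₀' } ≤
    ap * (me d₀.g A₀ + mP me p s.t d₁ A₁) * (1 / (p:ℝ) * me (D.toDT sp (b' * p) pr' t₀').g s.A') +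
      ∑ e ∈ Qi D Al τ s.A ×ˢ Qi D Al (.br p t₁' t₀') s.A',
        lcY D ρ p s.M b pr s.M' b' pr' τ (.br p t₁' t₀') e := by
  have hpp : p.Prime := h'.hF.1
  have hp0 : 0 < p := hpp.pos
  have hpM : ¬ p ∣ s.M := (Nat.Prime.coprime_iff_not_dvd hpp).1 hc
  obtain ⟨σ₁, σ₀, h₁, h₀, hcases⟩ := sv_item_two h hsp hv
  obtain ⟨sub0, m0, hrest⟩ := two_parts hspd fL h₁ h₀ hcases
  have one := os_Y' hR hdead (Al := Al) h₀ h' hM hM'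
  have fd : ∀ q ∈ t₀'.items, ¬ p ∣ q / pr' := fun q hq =>
    ndiv_div (h'.br₀.hF.item q hq).2.1 (fR.ms _ _ rfl q hq)
  have ex := exit_Y' hR hdead (Al := Al) hB hμ O h₀ h' hM hM' hpM fd
  set V₀' := Qi D Al t₀' s.A' with hV₀
  set V := Qi D Al τ s.A with hV
  set V' := Qi D Al (.br p t₁' t₀') s.A' with hV'
  set W₀ := Qi D Al σ₀ A₀ with hW₀
  set W₁ := Qi D Al σ₁ A₁ with hW₁
  have sV : V₀' ⊆ V' := Qi_sub Finset.subset_union_right (Finset.Subset.refl _)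
  have nV := SR_nonneg hR.pos b' V₀'
  have nW := SR_nonneg hR.pos b W₀
  have nW1 := SR_nonneg hR.pos b W₁
  have mV : SR ρ b' V₀' ≤ κp * (1 / (p:ℝ) * me (D.toDT sp (b' * p) pr' t₀').g s.A') := by
    rw [SR_col hp0]
    have := mul_le_mul_of_nonneg_left (fR.k0 _ _ rfl) (by positivity : (0:ℝ) ≤ 1 / (p:ℝ))
    refine this.trans (le_of_eq (by ring))
  have nX : 0 ≤ 1 / (p:ℝ) * me (D.toDT sp (b' * p) pr' t₀').g s.A' :=
    mul_nonneg (by positivity) (hme _ _)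
  set X := 1 / (p:ℝ) * me (D.toDT sp (b' * p) pr' t₀').g s.A' with hX
  have g0 := pm_mul (z := 0) ha hκ (hme d₀.g A₀) nX nW nV m0 mV
  have hH : ∀ e, 0 ≤ lcY D ρ p s.M b pr s.M' b' pr' τ (.br p t₁' t₀') e := fun e =>
    lcY_nonneg hR.pos _ _ _ _ _ _ _ _ _ e
  have hap : 0 ≤ ap := le_trans (by positivity) ha
  have c0 : ∀ e ∈ W₀ ×ˢ V₀', (b:ℝ) * b' * Vc D ρ p (SE s.M b pr s.M' b' pr' e) e +
      (b:ℝ) * b' * VT D ρ p (e.1 / pr) (SE s.M b pr s.M' b' pr' e) e ≤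
      lcY D ρ p s.M b pr s.M' b' pr' τ (.br p t₁' t₀') e := by
    intro e he
    obtain ⟨a1, a2⟩ := Finset.mem_product.1 he
    have i1 : e.1 ∈ τ.items := (mem_Qi.1 (sub0 a1)).1
    have i2 : e.2 ∈ t₀'.items := (mem_Qi.1 a2).1
    exact lcY_t2 hR.pos (Finset.mem_union_right _ (mt_mem i2)) fun hz =>
      ⟨ndiv_of hpp (h.hF.item _ i1).2.1 fL.cop hz, fR.ms _ _ rfl _ i2⟩
  have c1 : ∀ e ∈ W₁ ×ˢ V₀', (b:ℝ) * b' * Vc D ρ p (SE s.M b pr s.M' b' pr' e) e ≤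
      lcY D ρ p s.M b pr s.M' b' pr' τ (.br p t₁' t₀') e := by
    intro e he
    obtain ⟨a1, a2⟩ := Finset.mem_product.1 he
    exact lcY_ret hR.pos (Finset.mem_union_right _ (mt_mem (mem_Qi.1 a2).1))
  have s0 : ∑ e ∈ W₀ ×ˢ V₀', (b:ℝ) * b' * Vc D ρ p (SE s.M b pr s.M' b' pr' e) e +
      ∑ e ∈ W₀ ×ˢ V₀', (b:ℝ) * b' * VT D ρ p (e.1 / pr) (SE s.M b pr s.M' b' pr' e) e ≤
      ∑ e ∈ W₀ ×ˢ V₀', lcY D ρ p s.M b pr s.M' b' pr' τ (.br p t₁' t₀') e := by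
    rw [← Finset.sum_add_distrib]
    exact Finset.sum_le_sum c0
  have s0' : ∑ e ∈ W₀ ×ˢ V₀', lcY D ρ p s.M b pr s.M' b' pr' τ (.br p t₁' t₀') e ≤
      ∑ e ∈ V ×ˢ V', lcY D ρ p s.M b pr s.M' b' pr' τ (.br p t₁' t₀') e :=
    Finset.sum_le_sum_of_subset_of_nonneg (Finset.product_subset_product sub0 sV) fun e _ _ => hH e
  rcases hrest with ⟨hτ, hadd⟩ | ⟨hadd, sub1, hdj, m1⟩ | ⟨hadd, hemp⟩
  · -- SEP
    subst hτ
    have r0 := ret0 (sp := sp) h' h₁ hM' hM hc fL.sep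
    have e3 : mP me p s.t d₁ A₁ = 0 := by unfold mP; rw [if_pos hadd]
    rw [r0, e3, zero_add, add_zero]
    linarith
  · -- up
    have ret := os_Y' hR hdead (Al := Al) h₁ h' hM hM'
    have e3 : mP me p s.t d₁ A₁ = me d₁.g A₁ := by unfold mP; rw [if_neg hadd]
    have g1 := pm_mul (z := 0) ha hκ (hme d₁.g A₁) nX nW1 nV m1 mV
    have sb := two_blocks' sV sub1 sub0 hdj hH c1 (fun e he => c0 e he)
    rw [Finset.sum_add_distrib] at sb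
    rw [e3]
    have nn1 := mul_nonneg nW1 nV
    have ret' : os (orel κ) p (avg s.M' (rk s.A' (D.rho p) (GD D b' pr' p t₁' t₀')))
        (sm (D.rho p) (avg s.M (rv A₁ d₁.g.val))) ≤ 12 * (SR ρ b W₁ * SR ρ b' V₀') +
        ∑ e ∈ W₁ ×ˢ V₀', (b:ℝ) * b' * Vc D ρ p (SE s.M b pr s.M' b' pr' e) e := by linarith
    have e4 : ap * (me d₀.g A₀ + me d₁.g A₁) * X = ap * me d₀.g A₀ * X + ap * me d₁.g A₁ * X := by
      ring
    rw [e4]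
    linarith
  · -- absent
    have ret := os_Y' hR hdead (Al := Al) h₁ h' hM hM'
    rw [← hW₁] at ret
    rw [hemp, Finset.empty_product, Finset.sum_empty] at ret
    have e5 : SR ρ b (∅ : Finset ℕ) = 0 := by unfold SR; exact Finset.sum_empty
    rw [e5, zero_mul, mul_zero, add_zero] at ret
    have e3 : 0 ≤ mP me p s.t d₁ A₁ := by
      unfold mP; rw [if_neg hadd]; exact hme _ _
    have g2 : 0 ≤ ap * mP me p s.t d₁ A₁ * X := mul_nonneg (mul_nonneg hap e3) nX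
    have e4 : ap * (me d₀.g A₀ + mP me p s.t d₁ A₁) * X =
        ap * me d₀.g A₀ * X + ap * mP me p s.t d₁ A₁ * X := by ring
    rw [e4]
    linarith

open Classical in
/-- **(tie, tie)** -/
theorem case_tt (hR : D.Rad ρ) (hdead : ∀ j, D.it j ∉ Al → ∀ a, D.om j a = 0)
    {μ me : TrG Λ κ → Finset Λ → ℝ} {B : ℝ} (hB : 0 ≤ B)
    (hμ : ∀ t A, 0 ≤ μ t A) (hme : ∀ t A, 0 ≤ me t A) {κp ap : ℝ} (hκ : 0 ≤ κp)
    (ha : 12 * κp ^ 2 ≤ ap) {s : St Λ κ} {b pr b' pr' : ℕ} {t₁ t₀ t₁' t₀' : IT}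
    (h : SideI D sp b pr (.br p t₁ t₀) s.A s.t) (h' : SideI D sp b' pr' (.br p t₁' t₀') s.A' s.t')
    (hM : 0 < s.M) (hM' : 0 < s.M')
    (fL : SdF D ρ Al sp κp me p b pr (.br p t₁ t₀) s.A)
    (fR : SdF D ρ Al sp κp me p b' pr' (.br p t₁' t₀') s.A') :
    Q (orel κ) (avg s.M (rk s.A (D.rho p) (GD D b pr p t₁ t₀)))
      (avg s.M' (rk s.A' (D.rho p) (GD D b' pr' p t₁' t₀'))) +
    1 / (p:ℝ) * (1 / (p:ℝ)) * Xs μ B { s with R := Ro (D.rho p), t := D.toDT sp (b * p) pr t₀, t' := D.toDT sp (b' * p) pr' t₀' } ≤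
    ap * (1 / (p:ℝ) * me (D.toDT sp (b * p) pr t₀).g s.A) *
      (1 / (p:ℝ) * me (D.toDT sp (b' * p) pr' t₀').g s.A') +
      ∑ e ∈ Qi D Al (.br p t₁ t₀) s.A ×ˢ Qi D Al (.br p t₁' t₀') s.A',
        lcY D ρ p s.M b pr s.M' b' pr' (.br p t₁ t₀) (.br p t₁' t₀') e := by
  have hpp : p.Prime := h'.hF.1
  have hp0 : 0 < p := hpp.pos
  have nm := nm_Y hR hdead (Al := Al) h h' hM hM'
  have ex := exit_YY hR hdead (Al := Al) hB hμ h h' hM hM'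
  have mV : ∀ {b pr : ℕ} {t₁ t₀ : IT} {A : Finset Λ}, SdF D ρ Al sp κp me p b pr (.br p t₁ t₀) A →
      SR ρ b (Qi D Al t₀ A) ≤ κp * (1 / (p:ℝ) * me (D.toDT sp (b * p) pr t₀).g A) := by
    intro b pr t₁ t₀ A f
    rw [SR_col hp0]
    have := mul_le_mul_of_nonneg_left (f.k0 _ _ rfl) (by positivity : (0:ℝ) ≤ 1 / (p:ℝ))
    refine this.trans (le_of_eq (by ring))
  have g0 := pm_mul (z := 0) ha hκ (mul_nonneg (by positivity : (0:ℝ) ≤ 1 / (p:ℝ)) (hme _ _))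
    (mul_nonneg (by positivity : (0:ℝ) ≤ 1 / (p:ℝ)) (hme _ _)) (SR_nonneg hR.pos _ _)
    (SR_nonneg hR.pos _ _) (mV fL) (mV fR)
  have s0 : ∑ e ∈ Qi D Al t₀ s.A ×ˢ Qi D Al t₀' s.A',
        (b:ℝ) * b' * Vc D ρ p (SE s.M b pr s.M' b' pr' e) e +
      ∑ e ∈ Qi D Al t₀ s.A ×ˢ Qi D Al t₀' s.A',
        (b:ℝ) * b' * Vx D ρ p (SE s.M b pr s.M' b' pr' e) e ≤
      ∑ e ∈ Qi D Al (.br p t₁ t₀) s.A ×ˢ Qi D Al (.br p t₁' t₀') s.A',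
        lcY D ρ p s.M b pr s.M' b' pr' (.br p t₁ t₀) (.br p t₁' t₀') e := by
    rw [← Finset.sum_add_distrib]
    refine le_trans (Finset.sum_le_sum fun e he => ?_)
      (Finset.sum_le_sum_of_subset_of_nonneg (s := Qi D Al t₀ s.A ×ˢ Qi D Al t₀' s.A')
        (Finset.product_subset_product (Qi_sub Finset.subset_union_right (Finset.Subset.refl _))
          (Qi_sub Finset.subset_union_right (Finset.Subset.refl _)))
        fun e _ _ => lcY_nonneg hR.pos _ _ _ _ _ _ _ _ _ e)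
    obtain ⟨a1, a2⟩ := Finset.mem_product.1 he
    have i1 : e.1 ∈ t₀.items := (mem_Qi.1 a1).1
    have i2 : e.2 ∈ t₀'.items := (mem_Qi.1 a2).1
    exact lcY_tt hR.pos (Finset.mem_union_left _ (mt_mem i1)) (fL.ms _ _ rfl _ i1)
      (fR.ms _ _ rfl _ i2)
  linarith


set_option maxHeartbeats 2000000 in
open Classical in
/-- **LOCAL COST OF THE CROSS WALK AT A STATE** (560 #15584) -/
theorem loc_YR (hR : D.Rad ρ) (hdead : ∀ j, D.it j ∉ Al → ∀ a, D.om j a = 0) (hsp : D.SpOk sp)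
    {μ me : TrG Λ κ → Finset Λ → ℝ} {B : ℝ} (hB : 0 ≤ B)
    (hμ : ∀ t A, 0 ≤ μ t A) (hme : ∀ t A, 0 ≤ me t A) {κp : ℝ} (hκ : 0 ≤ κp)
    {a : ℕ → ℝ} {x : YR Λ κ} (hspd : ∀ j ∈ sp (lp x.n), lp x.n ∣ D.it j)
    (ha : 12 * κp ^ 2 ≤ a (lp x.n)) {b pr b' pr' : ℕ} {τ τ' : IT}
    (hst : StI D sp x.s b pr τ b' pr' τ') (hcL : Nat.Coprime (lp x.n) x.s.M)
    (hcR : Nat.Coprime (lp x.n) x.s.M') (fL : SdF D ρ Al sp κp me (lp x.n) b pr τ x.s.A)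
    (fR : SdF D ρ Al sp κp me (lp x.n) b' pr' τ' x.s.A')
    (stp : YR Λ κ → Prop) (h1 : ¬ (stp x ∨ lp x.n = 0)) :
    eNMYR (fun _ => ∅) stp x + eRETYR (fun _ => ∅) stp x + eONEYR (fun _ => ∅) stp x +
      eXITYR (fun _ => ∅) stp μ B x ≤
    cy (fun _ => ∅) stp a me x + ∑ e ∈ Qi D Al τ x.s.A ×ˢ Qi D Al τ' x.s.A',
      lcY D ρ (lp x.n) x.s.M b pr x.s.M' b' pr' τ τ' e := by
  have hH : 0 ≤ ∑ e ∈ Qi D Al τ x.s.A ×ˢ Qi D Al τ' x.s.A',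
      lcY D ρ (lp x.n) x.s.M b pr x.s.M' b' pr' τ τ' e :=
    Finset.sum_nonneg fun e _ => lcY_nonneg hR.pos _ _ _ _ _ _ _ _ _ e
  unfold eNMYR eRETYR eONEYR eXITYR cy
  rw [if_neg h1, if_neg h1, if_neg h1, if_neg h1, if_neg h1]
  rcases hv : sv (fun _ => ∅) (lp x.n) x.s.t x.s.A with
    ⟨w, r, t₁, t₀, v, B₁, G⟩ | ⟨t₁, A₁, t₀, A₀⟩ <;>
  rcases hv' : sv (fun _ => ∅) (lp x.n) x.s.t' x.s.A' with
    ⟨w', r', t₁', t₀', v', B₁', G'⟩ | ⟨t₁', A₁', t₀', A₀'⟩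
  · -- tie, tie
    have e1 := hst.L.eq.symm.trans (sv_tie hv)
    have e2 := hst.R.eq.symm.trans (sv_tie hv')
    obtain ⟨τ₁, τ₀, hτ, rfl, rfl, rfl, rfl, rfl⟩ := toDT_br e1
    obtain ⟨τ₁', τ₀', hτ', rfl, rfl, rfl, rfl, rfl⟩ := toDT_br e2
    subst hτ hτ'
    have key := case_tt hR hdead (Al := Al) hB hμ hme hκ ha hst.L hst.R hst.M0 hst.M0' fL fR
    simp only [add_zero]
    exact key
  · -- tie, two
    have e1 := hst.L.eq.symm.trans (sv_tie hv)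
    obtain ⟨τ₁, τ₀, hτ, rfl, rfl, rfl, rfl, rfl⟩ := toDT_br e1
    subst hτ
    have key := case_t2 hR hdead (Al := Al) hsp hspd hB hμ hme hκ ha hst.L hst.R hst.M0 hst.M0' hcR
      fL fR hv' (insert (lp x.n) x.s.O)
    simp only [zero_add]
    exact key
  · -- two, tie
    have e2 := hst.R.eq.symm.trans (sv_tie hv')
    obtain ⟨τ₁', τ₀', hτ', rfl, rfl, rfl, rfl, rfl⟩ := toDT_br e2
    subst hτ'
    have key := case_2t hR hdead (Al := Al) hsp hspd hB hμ hme hκ ha hst.L hst.R hst.M0 hst.M0' hcL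
      fL fR hv (insert (lp x.n) x.s.O')
    simp only [zero_add]
    exact key
  · simp only [add_zero, zero_add]
    exact hH

end state

end Crest.Agent.R4.CrossLocY709
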