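import Mathlib
import Crest.Agent.R4.OSCol709

/-!
R4 (S0004), helper709, module D: the ONE-SHOT NUMBER of 560 #15123 (3): everything of a crossing at `b` with `D ≤ 1`
(`D` of the crossing level) in one application of `cross_low_cls`, with numbers in `b` only.
-/

set_option autoImplicit false
open Finset

namespace Crest.Agent.R4.CrossShot709
open Crest.Agent.R4.HVW560 Crest.Agent.R4.HVWX793
open Crest.Agent.R4.Schur709 Crest.Agent.R4.StopHvw709 Crest.Agent.R4.StopAsm709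
open Crest.Agent.R4.ClsS (eps1)

/-- the dyadic depth for a crossing at `b`: `2^n = polylog b` -/
noncomputable def lev (c : ℝ) (b : ℕ) : ℕ := ⌈c * Real.log (Real.log b) / Real.log 2⌉₊

open Filter in
lemma lev_num (c0 T0 : ℝ) (hc0 : 0 < c0) : ∃ x0 : ℝ, ∀ b : ℕ, x0 ≤ (b:ℝ) →
    400 ≤ lev (2/c0) b ∧ T0 ≤ (2:ℝ)^(lev (2/c0) b) ∧
    (b:ℝ) ≤ Real.exp (((2:ℝ)^(lev (2/c0) b))^c0) ∧
    (2:ℝ)^(lev (2/c0) b) ≤ (Real.log b)^(2/c0+1) := by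
  have tl := Real.tendsto_log_atTop
  have tll := tl.comp tl
  have t3 : Tendsto (fun x : ℝ => (Real.log x)^(2/c0)) atTop atTop :=
    (tendsto_rpow_atTop (by positivity)).comp tl
  have e1 : ∀ᶠ x : ℝ in atTop, 400 * c0 ≤ Real.log (Real.log x) := tll.eventually_ge_atTop _
  have e2 : ∀ᶠ x : ℝ in atTop, T0 ≤ (Real.log x)^(2/c0) := t3.eventually_ge_atTop _
  have e3 : ∀ᶠ x : ℝ in atTop, 2 ≤ Real.log x := tl.eventually_ge_atTop _
  obtain ⟨x0, hx0⟩ := eventually_atTop.1 (e1.and (e2.and (e3.and (eventually_ge_atTop (1:ℝ)))))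
  refine ⟨x0, ?_⟩
  intro b hb
  obtain ⟨h1, h2, h3, h4⟩ := hx0 b hb
  have hb0 : (0:ℝ) < b := by linarith
  have hl2 : 0 < Real.log 2 := Real.log_pos (by norm_num)
  have hl2' : Real.log 2 ≤ 1 := by have := Real.log_two_lt_d9; linarith
  have hll : 0 ≤ Real.log (Real.log b) := Real.log_nonneg (by linarith)
  have hlp : 0 < Real.log b := by linarith
  set n := lev (2/c0) b with hn
  have hn1 : 2/c0 * Real.log (Real.log b) / Real.log 2 ≤ n := Nat.le_ceil _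
  have hn2 : (n:ℝ) < 2/c0 * Real.log (Real.log b) / Real.log 2 + 1 := Nat.ceil_lt_add_one (by positivity)
  have e2n : (2:ℝ)^n = Real.exp (n * Real.log 2) := by
    rw [Real.exp_nat_mul, Real.exp_log (by norm_num)]
  have elo : (Real.log b)^(2/c0) ≤ (2:ℝ)^n := by
    rw [e2n, Real.rpow_def_of_pos hlp]
    apply Real.exp_le_exp.2
    rw [div_le_iff₀ hl2] at hn1
    linarith
  have ehi : (2:ℝ)^n ≤ (Real.log b)^(2/c0+1) := by
    rw [Real.rpow_add hlp, Real.rpow_one]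
    have : (2:ℝ)^n ≤ (Real.log b)^(2/c0) * 2 := by
      rw [e2n, Real.rpow_def_of_pos hlp]
      have : Real.exp (Real.log (Real.log b) * (2/c0)) * 2
          = Real.exp (Real.log (Real.log b) * (2/c0) + Real.log 2) := by
        rw [Real.exp_add, Real.exp_log (by norm_num)]
      rw [this]
      apply Real.exp_le_exp.2
      have h5 : (n:ℝ) * Real.log 2 ≤ (2/c0 * Real.log (Real.log b) / Real.log 2 + 1) * Real.log 2 :=
        mul_le_mul_of_nonneg_right hn2.le hl2.le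
      have h6 : (2/c0 * Real.log (Real.log b) / Real.log 2 + 1) * Real.log 2
          = 2/c0 * Real.log (Real.log b) + Real.log 2 := by
        field_simp
      linarith
    refine this.trans ?_
    exact mul_le_mul_of_nonneg_left h3 (by positivity)
  refine ⟨?_, h2.trans elo, ?_, ehi⟩
  · have : (400:ℝ) ≤ n := by
      refine le_trans ?_ hn1
      rw [le_div_iff₀ hl2]
      have h7 : 2/c0 * Real.log (Real.log b) ≥ 2/c0 * (400 * c0) :=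
        mul_le_mul_of_nonneg_left h1 (by positivity)
      have h8 : 2/c0 * (400 * c0) = 800 := by field_simp; norm_num
      nlinarith
    exact_mod_cast this
  · rw [← Real.log_le_iff_le_exp hb0]
    calc Real.log b ≤ (Real.log b)^(2:ℝ) := by
          rw [Real.rpow_two]; nlinarith
      _ = ((Real.log b)^(2/c0))^c0 := by
          rw [← Real.rpow_mul hlp.le]
          congr 1
          field_simp
      _ ≤ _ := Real.rpow_le_rpow (by positivity) elo hc0.le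

open Classical in
/-- **the one-shot number** -/
theorem one_shot {CL C0 : ℝ} (hCL : 1 ≤ CL) (hC0 : 0 ≤ C0) : ∃ (cl C1 : ℝ) (b₁ : ℕ), 0 ≤ C1 ∧ 2 ≤ b₁ ∧
    (∀ b : ℕ, b₁ ≤ b → (2:ℝ)^(lev cl b) ≤ (Real.log b)^C1) ∧
    ∀ (N G b : ℕ) (O O' V W : Finset ℕ) (R R' : ℕ → ℝ)
    (γ γ' : Finset ℕ → ℝ) (F : ℕ × ℕ → ℝ),
    b₁ ≤ b → b.Prime → 0 < G →
    (∀ p ∈ O, p.Prime ∧ N ≤ p) → (∀ p ∈ O', p.Prime ∧ N ≤ p) →
    ∑ p ∈ O, 1/(p:ℝ) ≤ 1 → ∑ p ∈ O', 1/(p:ℝ) ≤ 1 →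
    (∀ w ∈ V, 0 < w ∧ 0 < R w) → (∀ w ∈ W, 0 < w ∧ 0 < R' w) →
    (∀ w ∈ V, R w ≤ (CL * Real.log b) * mu O' R w) → (∀ w ∈ W, R' w ≤ (CL * Real.log b) * mu O R' w) →
    (∀ w ∈ V, b ∣ uu O' w) → (∀ w ∈ W, ¬ b ∣ uu O w) →
    (∀ z : ℝ, (b:ℝ) ≤ z → ∀ w ∈ V, Crest.Agent.R4.ClsB.Tame z (G * b) (uu O' w)) →
    (∀ z : ℝ, (b:ℝ) ≤ z → ∀ w ∈ W, Crest.Agent.R4.ClsB.Tame z G (uu O w)) →
    (∀ e ∈ V ×ˢ W, Dc O O' R R' e ≤ 1 →
      F e ≤ (Real.log b)^C0 * ((R e.1 * R' e.2) / Dc O O' R R' e)) →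
    (∀ e ∈ V ×ˢ W, Dc O O' R R' e ≤ 1/2^(lev cl b) → 0 < F e → RelG O O' R R' γ γ' e) →
    ∑ e ∈ (V ×ˢ W).filter (fun e => Dc O O' R R' e ≤ 1), F e ≤
      (Real.log b)^C1 * ((b:ℝ)^(-(1/2-eps1)) *
        ((∑ q ∈ V, mu O' R q) * (∑ r ∈ W, mu O R' r))^(1/2+eps1) +
        (b:ℝ)^(-(1/2):ℝ) * ((∑ q ∈ V, R q) * (∑ r ∈ W, R' r))^(1/2:ℝ)) +
      ∑ e ∈ (V ×ˢ W).filter (fun e => 0 < F e ∧ (Dc O O' R R' e ≤ 1/2^(lev cl b) ∧
        FX b O O' R R' γ γ' (lev cl b) e)), F e := by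
  obtain ⟨C, c0, hC1, hc0, hC⟩ := cross_low_cls
  obtain ⟨T0, hT01, hT0⟩ := hC c0 hc0 le_rfl
  obtain ⟨x0, hx0⟩ := lev_num c0 T0 hc0
  have hKH := (KH_pos 1 0 eps1).le
  have he1 : eps1 = 1/1000 := rfl
  set C2 : ℝ := 2/c0+1 with hC2
  have hC20 : 0 < C2 := by positivity
  obtain ⟨x1, hx1⟩ := Filter.eventually_atTop.1
    ((Real.tendsto_log_atTop.eventually_ge_atTop
      (1 + CL^2 * (4 * KH 1 0 eps1 + 2 * C) * Real.exp 3 + Real.exp 3)))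
  refine ⟨2/c0, C0 + 3 + 2 * C2, max 2 ⌈max x0 x1⌉₊, by positivity, le_max_left _ _, ?_, ?_⟩
  · intro b hb
    have hbx : max x0 x1 ≤ (b:ℝ) := (Nat.le_ceil _).trans (by exact_mod_cast (le_max_right _ _).trans hb)
    obtain ⟨_, _, _, g4⟩ := hx0 b ((le_max_left _ _).trans hbx)
    have hlog := hx1 b ((le_max_right _ _).trans hbx)
    have hl1 : 1 ≤ Real.log b := by
      have : 0 ≤ CL^2 * (4 * KH 1 0 eps1 + 2 * C) * Real.exp 3 := by positivity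
      have := Real.exp_nonneg 3
      linarith
    refine g4.trans (Real.rpow_le_rpow_of_exponent_le hl1 ?_)
    linarith
  intro N G b O O' V W R R' γ γ' F hb hbp hG hO hO' hsO hsO' hV hW hLV hLW hbV hbW hVt hWt hsmall hrel
  have hbx : max x0 x1 ≤ (b:ℝ) := (Nat.le_ceil _).trans (by exact_mod_cast (le_max_right _ _).trans hb)
  obtain ⟨g1, g2, g3, g4⟩ := hx0 b ((le_max_left _ _).trans hbx)
  have hlog := hx1 b ((le_max_right _ _).trans hbx)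
  have hP0 : 0 ≤ CL^2 * (4 * KH 1 0 eps1 + 2 * C) * Real.exp 3 := by positivity
  have hl1 : 1 ≤ Real.log b := by
    have := Real.exp_nonneg 3
    linarith
  have hlc : CL^2 * (4 * KH 1 0 eps1 + 2 * C) * Real.exp 3 ≤ Real.log b := by
    have := Real.exp_nonneg 3
    linarith
  have hle : Real.exp 3 ≤ Real.log b := by linarith
  have hb0 : (0:ℝ) < b := by exact_mod_cast hbp.pos
  have hb2 : (2:ℝ) ≤ b := by exact_mod_cast hbp.two_le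
  set n := lev (2/c0) b with hn
  set ℓ := Real.log b with hℓ
  have main := hT0 b (ℓ^C0) (CL * ℓ) n N G b O O' V W R R' γ γ' F g1 hbp g2 g3 hG (by positivity)
    hO hO' hV hW hLV hLW hbV hbW hVt hWt hsmall hrel
  refine main.trans (add_le_add ?_ le_rfl)
  have hmm : 0 ≤ (∑ q ∈ V, mu O' R q) * (∑ r ∈ W, mu O R' r) :=
    mul_nonneg (Finset.sum_nonneg fun q hq => mu_nonneg (hV q hq).2.le)
      (Finset.sum_nonneg fun q hq => mu_nonneg (hW q hq).2.le)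
  have hRR : 0 ≤ (∑ q ∈ V, R q) * (∑ r ∈ W, R' r) :=
    mul_nonneg (Finset.sum_nonneg fun q hq => (hV q hq).2.le)
      (Finset.sum_nonneg fun q hq => (hW q hq).2.le)
  have hZ := Real.rpow_nonneg hmm (1/2+eps1)
  have hZ' := Real.rpow_nonneg hRR (1/2:ℝ)
  set Z := ((∑ q ∈ V, mu O' R q) * (∑ r ∈ W, mu O R' r))^(1/2+eps1) with hZd
  set Z' := ((∑ q ∈ V, R q) * (∑ r ∈ W, R' r))^(1/2:ℝ) with hZd'
  rw [mul_add]
  have h2n : (0:ℝ) < (2:ℝ)^n := by positivity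
  have h2n1 : (1:ℝ) ≤ (2:ℝ)^n := one_le_pow₀ (by norm_num)
  have hBf : Bf b eps1 ≤ 2 * (b:ℝ)^(-(1/2-eps1)) :=
    Bf_le hbp (ε := eps1) (by rw [he1]; norm_num) (by rw [he1]; norm_num)
  have hBf0 := Bf_nonneg b eps1
  have hbm : ((b:ℝ) - 1)^(-(1/2-eps1)) ≤ 2 * (b:ℝ)^(-(1/2-eps1)) := by
    have h1 : (b:ℝ)/2 ≤ (b:ℝ) - 1 := by linarith
    have hneg : -(1/2-eps1) ≤ 0 := by rw [he1]; norm_num
    calc ((b:ℝ) - 1)^(-(1/2-eps1)) ≤ ((b:ℝ)/2)^(-(1/2-eps1)) :=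
          Real.rpow_le_rpow_of_nonpos (by positivity) h1 hneg
      _ = (b:ℝ)^(-(1/2-eps1)) * (2:ℝ)^(1/2-eps1) := by
          rw [Real.div_rpow hb0.le (by norm_num), Real.rpow_neg (by norm_num : (0:ℝ) ≤ 2), div_inv_eq_mul]
      _ ≤ (b:ℝ)^(-(1/2-eps1)) * 2 := by
          apply mul_le_mul_of_nonneg_left _ (by positivity)
          calc (2:ℝ)^(1/2-eps1) ≤ (2:ℝ)^(1:ℝ) :=
                Real.rpow_le_rpow_of_exponent_le (by norm_num) (by rw [he1]; norm_num)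
            _ = 2 := Real.rpow_one _
      _ = _ := by ring
  have hnn : (n:ℝ) * (2:ℝ)^(2*eps1*n) ≤ ℓ^(2*C2) := by
    have a1 : (n:ℝ) ≤ (2:ℝ)^n := by exact_mod_cast Nat.lt_two_pow_self.le
    have a2 : (2:ℝ)^(2*eps1*n) ≤ (2:ℝ)^n := by
      rw [← Real.rpow_natCast 2 n]
      apply Real.rpow_le_rpow_of_exponent_le (by norm_num)
      rw [he1]
      have : (0:ℝ) ≤ n := Nat.cast_nonneg _
      linarith
    calc (n:ℝ) * (2:ℝ)^(2*eps1*n) ≤ (2:ℝ)^n * (2:ℝ)^n := mul_le_mul a1 a2 (by positivity) h2n.le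
      _ ≤ ℓ^C2 * ℓ^C2 := mul_le_mul g4 g4 h2n.le (by positivity)
      _ = ℓ^(2*C2) := by rw [← Real.rpow_add (by linarith)]; congr 1; ring
  have hpow : ((2:ℝ)^n)^(-(1/1000):ℝ) ≤ 1 :=
    Real.rpow_le_one_of_one_le_of_nonpos h2n1 (by norm_num)
  have hℓ1 : 1 ≤ ℓ^(2*C2) := Real.one_le_rpow hl1 (by positivity)
  have hC0' : 0 ≤ C := by linarith
  have hcoef : n * (2 * KH 1 0 eps1 * Bf b eps1 * (2:ℝ)^(2*eps1*n)) +
        C * ((2:ℝ)^n)^(-(1/1000):ℝ) * ((b:ℝ) - 1)^(-(1/2-eps1))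
      ≤ (4 * KH 1 0 eps1 + 2 * C) * ℓ^(2*C2) * (b:ℝ)^(-(1/2-eps1)) := by
    have q1 : n * (2 * KH 1 0 eps1 * Bf b eps1 * (2:ℝ)^(2*eps1*n)) ≤
        4 * KH 1 0 eps1 * ℓ^(2*C2) * (b:ℝ)^(-(1/2-eps1)) := by
      calc n * (2 * KH 1 0 eps1 * Bf b eps1 * (2:ℝ)^(2*eps1*n))
          = 2 * KH 1 0 eps1 * ((n:ℝ) * (2:ℝ)^(2*eps1*n)) * Bf b eps1 := by ring
        _ ≤ 2 * KH 1 0 eps1 * ℓ^(2*C2) * (2 * (b:ℝ)^(-(1/2-eps1))) := by
            apply mul_le_mul _ hBf hBf0 (by positivity)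
            exact mul_le_mul_of_nonneg_left hnn (by positivity)
        _ = _ := by ring
    have q2 : C * ((2:ℝ)^n)^(-(1/1000):ℝ) * ((b:ℝ) - 1)^(-(1/2-eps1)) ≤
        2 * C * ℓ^(2*C2) * (b:ℝ)^(-(1/2-eps1)) := by
      calc C * ((2:ℝ)^n)^(-(1/1000):ℝ) * ((b:ℝ) - 1)^(-(1/2-eps1))
          ≤ C * 1 * (2 * (b:ℝ)^(-(1/2-eps1))) := by
            apply mul_le_mul _ hbm (Real.rpow_nonneg (by linarith) _) (by positivity)
            exact mul_le_mul_of_nonneg_left hpow hC0'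
        _ = 2 * C * 1 * (b:ℝ)^(-(1/2-eps1)) := by ring
        _ ≤ 2 * C * ℓ^(2*C2) * (b:ℝ)^(-(1/2-eps1)) := by
            apply mul_le_mul_of_nonneg_right _ (by positivity)
            exact mul_le_mul_of_nonneg_left hℓ1 (by positivity)
    linarith
  have hexp1 : Real.exp ((1/2-eps1) * (3 * (∑ p ∈ O, 1/(p:ℝ)) + 3 * ∑ p ∈ O', 1/(p:ℝ))) ≤ Real.exp 3 := by
    apply Real.exp_le_exp.2
    rw [he1]; linarith
  have hexp2 : Real.exp ((1/2) * (3 * (∑ p ∈ O, 1/(p:ℝ)) + 3 * ∑ p ∈ O', 1/(p:ℝ))) ≤ Real.exp 3 := by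
    apply Real.exp_le_exp.2
    linarith
  have hT1 : (0:ℝ) ≤ ((2:ℝ)^n)^(-(1/1000):ℝ) := by positivity
  have hbm0 : 0 ≤ ((b:ℝ) - 1)^(-(1/2-eps1)) := Real.rpow_nonneg (by linarith) _
  have hfirst : ℓ^C0 * (CL * ℓ)^2 * (n * (2 * KH 1 0 eps1 * Bf b eps1 * (2:ℝ)^(2*eps1*n)) +
        C * ((2:ℝ)^n)^(-(1/1000):ℝ) * ((b:ℝ) - 1)^(-(1/2-eps1))) *
        (Real.exp ((1/2-eps1) * (3 * (∑ p ∈ O, 1/(p:ℝ)) + 3 * ∑ p ∈ O', 1/(p:ℝ))) * Z)
      ≤ ℓ^(C0 + 3 + 2*C2) * ((b:ℝ)^(-(1/2-eps1)) * Z) := by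
    calc _ ≤ ℓ^C0 * (CL * ℓ)^2 * ((4 * KH 1 0 eps1 + 2 * C) * ℓ^(2*C2) * (b:ℝ)^(-(1/2-eps1))) *
          (Real.exp 3 * Z) := by
          apply mul_le_mul _ (mul_le_mul_of_nonneg_right hexp1 hZ) (by positivity) (by positivity)
          exact mul_le_mul_of_nonneg_left hcoef (by positivity)
      _ = (ℓ^C0 * ℓ^2 * ℓ^(2*C2) * (CL^2 * (4 * KH 1 0 eps1 + 2 * C) * Real.exp 3)) *
          ((b:ℝ)^(-(1/2-eps1)) * Z) := by ring
      _ ≤ (ℓ^C0 * ℓ^2 * ℓ^(2*C2) * ℓ) * ((b:ℝ)^(-(1/2-eps1)) * Z) := by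
          apply mul_le_mul_of_nonneg_right _ (by positivity)
          exact mul_le_mul_of_nonneg_left hlc (by positivity)
      _ = _ := by
          congr 1
          have hℓ0 : 0 < ℓ := by linarith
          rw [show C0 + 3 + 2*C2 = C0 + 2 + 2*C2 + 1 by ring, Real.rpow_add hℓ0, Real.rpow_add hℓ0,
            Real.rpow_add hℓ0, Real.rpow_one, Real.rpow_two]
  have hsecond : ℓ^C0 * (1 / Real.sqrt b) *
        Real.exp ((1/2) * (3 * (∑ p ∈ O, 1/(p:ℝ)) + 3 * ∑ p ∈ O', 1/(p:ℝ))) * Z'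
      ≤ ℓ^(C0 + 3 + 2*C2) * ((b:ℝ)^(-(1/2):ℝ) * Z') := by
    have es : 1 / Real.sqrt b = (b:ℝ)^(-(1/2):ℝ) := by
      rw [Real.sqrt_eq_rpow, Real.rpow_neg hb0.le, one_div]
    rw [es]
    calc _ ≤ ℓ^C0 * (b:ℝ)^(-(1/2):ℝ) * Real.exp 3 * Z' := by
          apply mul_le_mul_of_nonneg_right _ hZ'
          exact mul_le_mul_of_nonneg_left hexp2 (by positivity)
      _ = (ℓ^C0 * Real.exp 3) * ((b:ℝ)^(-(1/2):ℝ) * Z') := by ring
      _ ≤ (ℓ^C0 * ℓ) * ((b:ℝ)^(-(1/2):ℝ) * Z') := by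
          apply mul_le_mul_of_nonneg_right _ (by positivity)
          exact mul_le_mul_of_nonneg_left hle (by positivity)
      _ ≤ ℓ^(C0 + 3 + 2*C2) * ((b:ℝ)^(-(1/2):ℝ) * Z') := by
          apply mul_le_mul_of_nonneg_right _ (by positivity)
          have hℓ0 : 0 < ℓ := by linarith
          calc ℓ^C0 * ℓ = ℓ^(C0+1) := by rw [Real.rpow_add hℓ0, Real.rpow_one]
            _ ≤ _ := Real.rpow_le_rpow_of_exponent_le hl1 (by linarith)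
  linarith

end Crest.Agent.R4.CrossShot709
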