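import Crest.Agent.R4.StepItem2_588
import Crest.Agent.R4.StepRes189
import Crest.Agent.R4.StepUV189

/-!
R4 (S0004), helper189: **`item_step2` at a node of a context**.

* `item_step2_al` : 588's `item_step2` with hypotheses for the alive mates only.
* `ctx_item` : the majorant `IZ2` of an item of a context, for any flat weights.
-/

set_option autoImplicit false
set_option linter.unusedSectionVars false
set_option linter.unusedVariables false
open MeasureTheory Filter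

namespace Crest.Agent.R4.Step588

open Crest.Agent.R4.Tour104 Crest.Agent.R4.Tour758 Crest.Agent.R4.Avg758 Crest.Agent.R4.Clos758
open Crest.Agent.R4.ClosL758 Crest.Agent.R4.ClosG758 Crest.Agent.R4.Lam368
open Crest.Agent.R4.Piece464 Crest.Agent.R4.Fam464 Crest.Agent.R4.Cnt588 Crest.Agent.R4.Item758
open Crest.Agent.R4.W363 Crest.Agent.R4.Data758
open Crest.Agent.R4.Bld532 (NS All NodeOk Bk)

section
variable {Λ κ : Type*} {D : Par Λ κ} {Al : Finset ℕ} [Fintype Λ] [DecidableEq κ] [DecidableEq Λ]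

/-- **`item_step2` with hypotheses for the alive mates only** -/
theorem item_step2_al (hdead : ∀ j, D.it j ∉ Al → ∀ a, D.om j a = 0)
    {P : WP} {stt : ℕ → ℕ → Option ℚ} {rtt : ℕ → ℕ → ℕ}
    {C : Finset ℕ} {dm b pr N y K V0 u NR q : ℕ} {R : ℕ → ℝ} {t : IT} (hC : Cov D R)
    (hom : ∀ j a, D.om j a ≤ 1)
    (hab : ∀ j, D.al j ≤ D.be j) (hw : Wld D P stt rtt C) (hρ : 0 < P.ρ₀) (hb : 0 < b)
    (hF : Fit b pr t) (hW : D.Wts pr t) (hO : t.Ok N) (hy : y ≤ N) (hq : q ∈ t.items)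
    (hqA : q ∈ Al)
    (ho : WOk D P stt C (subt y t q).items dm (mpc y t q * pml y * b))
    (hfine : ∀ j, (b : ℝ) * (D.be j - D.al j) * ((mpc y t q * pml y : ℕ) : ℝ) ≤ 1)
    (hcols : cols (subt y t q) ⊆ C)
    {rp : ℕ → ℕ} (hrp : ∀ p ∈ cols (subt y t q), ∀ q' ∈ (subt y t q).items,
      ∀ r ∈ (subt y t q).items, rtt p q' = rtt p r → rp q' = rp r)
    (hK : 0 < K) (hu : 0 < u) {v : ℕ → ℕ}
    (hv : ∀ r ∈ (subt y t q).items, r ∈ Al → rp r = rp q → r / (pr * ppc y t q) = u * v r)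
    (hV : ∀ r ∈ (subt y t q).items, r ∈ Al → rp r = rp q → v r ≤ V0)
    (hper : ∀ j, D.it j ∈ (subt y t q).items → D.it j ∈ Al → rp (D.it j) = rp q →
      ∀ a, D.om j (a + v (D.it j)) = D.om j a) {E0 : ℝ} (hE0 : 1 / 2 ≤ E0)
    (hR : ∀ r ∈ (subt y t q).items, r ∈ Al → rp r = rp q → 0 < R r ∧ (b : ℝ) * R r ≤ E0)
    (hNR : ((subt y t q).items.filter (fun r => r ∈ Al ∧ rp r = rp q)).card ≤ NR)
    (homc : OmCA D P (subt y t q) dm (mpc y t q) b (pr * ppc y t q) (mpc y t q * pml y) R rp q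
      Al) :
    IZ2 (Fq D b pr t 1 q) (b * R q) K (v q) (q / pr) (b * D.γ)
      (I (Fq D b pr t 1 q) / prfc y t q +
          60 * E0 * NR * ((mpc y t q * pml y : ℕ) : ℝ) * (V0 : ℝ) ^ 2 * (2 ^ (dm + 2) + 1) * √K *
            (2 * (3 * (b * R q)) / (K * v q))) (2 * E0) := by
  classical
  set rp' : ℕ → ℕ := fun r => if r ∈ Al then rp r + 1 else 0 with hrp'
  have key : ∀ r, rp' r = rp' q → r ∈ Al ∧ rp r = rp q := by
    intro r h
    simp only [hrp', if_pos hqA] at h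
    by_cases hr : r ∈ Al
    · rw [if_pos hr] at h
      exact ⟨hr, Nat.add_right_cancel h⟩
    · rw [if_neg hr] at h
      omega
  rw [Fq_res D hdead hb hF hW 1 q]
  refine item_step2 (D := D.res Al) (P := P) (stt := stt) (rtt := rttA Al rtt) (C := C) (dm := dm)
    (N := N) (u := u) (NR := NR) (rp := rp') hC.res (fun j a => hom j.1 a) (fun j => hab j.1)
    hw.res hρ hb hF (fun j hj => hW j.1 hj) hO hy hq ho.res (fun j => hfine j.1) hcols ?_ hK hu
    (fun r hr e => hv r hr (key r e).1 (key r e).2) (fun r hr e => hV r hr (key r e).1 (key r e).2)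
    (fun j hj e => hper j.1 hj j.2 (key _ e).2) hE0
    (fun r hr e => hR r hr (key r e).1 (key r e).2) ?_ ?_
  · intro p hp q' hq' r hr e
    unfold rttA at e
    simp only [hrp']
    by_cases h1 : q' ∈ Al
    · by_cases h2 : r ∈ Al
      · rw [if_pos h1, if_pos h2] at e
        rw [if_pos h1, if_pos h2, hrp p hp q' hq' r hr (Nat.add_right_cancel e)]
      · rw [if_pos h1, if_neg h2] at e
        omega
    · by_cases h2 : r ∈ Al
      · rw [if_neg h1, if_pos h2] at e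
        omega
      · rw [if_neg h1, if_neg h2]
  · refine le_trans (Finset.card_le_card fun r hr => ?_) hNR
    obtain ⟨h1, h2⟩ := Finset.mem_filter.1 hr
    exact Finset.mem_filter.2 ⟨h1, key r h2⟩
  · intro x x' hfl j k M hj hj2 ek a1 a2 z hz
    refine homc x x' (fun r hr hrA hre e he => ?_) j.1 k.1 M hj j.2 (key _ hj2).2 ek a1 a2 z hz
    refine hfl r hr ?_ e he
    simp only [hrp', if_pos hrA, if_pos hqA, hre]

end

/-! ### nodes -/

section
variable {P : Bld532.Par} {W : ℕ → ℝ} {t' : IT} {u : NS} {τ : IT}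

lemma NDt.fit (h : NDt P W t' u τ) : Fit u.B u.A τ :=
  Fit_of_All τ u (All.mono (fun _ _ hh => hh.node) h.all) fun q hq =>
    Nat.pos_of_ne_zero (h.sq q (h.self.sub hq)).ne_zero

lemma NDt.B_pos (h : NDt P W t' u τ) : 0 < u.B := Nat.pos_of_ne_zero h.bk.sfB.ne_zero

/-- leaf weights of the tree are weights of the node -/
lemma NDt.wts {Λ κ : Type*} {D : Par Λ κ} (h : NDt P W t' u τ)
    (hW : ∀ j, D.it j ∈ t'.items → Wt (D.it j / pp t' (D.it j)) (D.om j)) : D.Wts u.A τ := by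
  intro j hj
  rw [← h.self.pp _ hj]
  exact hW j (h.self.sub hj)

end

/-! ### contexts -/

section ctx
open Crest.Agent.R4.Skel189
open Crest.Agent.R4.Soft104 (w)

variable {N : Skel189.Num} {γ : ℝ} {p0 P₀ : ℕ} {X : Ctx N γ p0 P₀} {u : NS} {τ : IT}

/-- the item family with the weights `f` -/
noncomputable abbrev fl (X : Ctx N γ p0 P₀) (Y : Finset (ℕ × ℕ × Finset ℕ))
    (f : X.c.Lam → ℤ → ℝ) : Par X.c.Lam (Lb (WL X.c.Lam) Y) := (X.c.D.par Y).flat f

/-- mates of `q` at the cut below `y` of the node `(u, τ)` -/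
def mate (u : NS) (τ : IT) (y q r : ℕ) : Prop :=
  rgh y (r / (u.A * ppc y τ q)) = rgh y (q / (u.A * ppc y τ q))

/-- **THE MAJORANT OF AN ITEM OF A CONTEXT**, for any flat weights `f` (`0` off `S'`, `≤ 1`,
periodic modulo `vN` for the mates) -/
theorem ctx_item (h : NDt X.par (w X.ψ) X.c.t u τ) (Y : Finset (ℕ × ℕ × Finset ℕ)) {y dm K V0 : ℕ}
    (hy : y ≤ u.n) (hyt : y ≤ top X.S) (hdep : ∀ p, p < y → X.c.wp.dep p ≤ dm)
    (hd1 : X.c.d1 * Kc X.S ≤ 1) {q : ℕ} (hq : q ∈ τ.items) (hqS : q ∈ X.S')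
    {f : X.c.Lam → ℤ → ℝ} (hf0 : ∀ j : X.c.Lam, j.1.1 ∉ X.S' → ∀ a, f j a = 0)
    (hf1 : ∀ j a, f j a ≤ 1) (hfW : ∀ j : X.c.Lam, Wt (j.1.1 / pp X.c.t j.1.1) (f j))
    (E : ℕ → Prop)
    (hper : ∀ j : X.c.Lam, j.1.1 ∈ (subt y τ q).items → j.1.1 ∈ X.S' → mate u τ y q j.1.1 →
      ∀ a, f j (a + vN X.c.t y E (u.A * ppc y τ q) j.1.1) = f j a)
    (hK : 0 < K)
    (hV : ∀ r ∈ (subt y τ q).items, r ∈ X.S' → mate u τ y q r →
      vN X.c.t y E (u.A * ppc y τ q) r ≤ V0) {E0 : ℝ} (hE0 : 1 / 2 ≤ E0)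
    (hR : ∀ r ∈ (subt y τ q).items, r ∈ X.S' → mate u τ y q r → (u.B : ℝ) * X.c.rr r ≤ E0)
    (homc : OmCA (fl X Y f) X.c.wp (subt y τ q) dm (mpc y τ q) u.B (u.A * ppc y τ q)
      (mpc y τ q * pml y) X.c.rr (fun r => rgh y (r / (u.A * ppc y τ q))) q X.S') :
    IZ2 (Fq (fl X Y f) u.B u.A τ 1 q) (u.B * X.c.rr q) K (vN X.c.t y E (u.A * ppc y τ q) q)
      (q / u.A) (u.B * X.c.γ)
      (I (Fq (fl X Y f) u.B u.A τ 1 q) / prfc y τ q +
          60 * E0 * (2 ^ y : ℕ) * ((mpc y τ q * pml y : ℕ) : ℝ) * (V0 : ℝ) ^ 2 *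
            (2 ^ (dm + 2) + 1) * √K *
            (2 * (3 * (u.B * X.c.rr q)) / (K * vN X.c.t y E (u.A * ppc y τ q) q))) (2 * E0) := by
  classical
  obtain ⟨h1, h2, h3, h4⟩ := ctx_step h Y hy hyt hdep hd1 hq
  have hab : ∀ j, (fl X Y f).al j ≤ (fl X Y f).be j := fun j =>
    X.ok.bpm _ (Cf.mem_S j) (Cf.r_pos j) (Nat.le_succ _)
  have hrr : ∀ r, 0 < X.c.rr r := fun r => by
    unfold Cf.rr; split_ifs with hr
    · exact hr
    · exact one_pos
  have hW : (fl X Y f).Wts u.A τ := h.wts (D := fl X Y f) fun j _ => hfW j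
  refine item_step2_al (D := fl X Y f) (Al := X.S') hf0 (P := X.c.wp) (stt := X.c.st)
    (rtt := ret X.c.t) (C := cols (subt y τ q)) (dm := dm) (N := u.n)
    (u := uN X.c.t y E (u.A * ppc y τ q) q) (NR := 2 ^ y)
    (rp := fun r => rgh y (r / (u.A * ppc y τ q)))
    (v := vN X.c.t y E (u.A * ppc y τ q)) (ctx_Cov X Y).flat hf1 hab h1.flat X.fine.ρ0 h.B_pos
    h.fit hW h.self.ok hy hq hqS h2.flat h3 (Finset.Subset.refl _) h4 hK uN_pos ?_
    (fun r hr hrS e => hV r hr hrS e) (fun j hj hjS e => hper j hj hjS e) hE0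
    (fun r hr hrS e => ⟨hrr r, hR r hr hrS e⟩) ?_ homc
  · intro r hr _ e
    exact h.uv X.tOk hy E hq hr e
  · refine le_trans (Finset.card_le_card fun r hr => ?_) (h.card_mates hy q
      (rgh y (q / (u.A * ppc y τ q))))
    obtain ⟨a1, a2⟩ := Finset.mem_filter.1 hr
    exact Finset.mem_filter.2 ⟨a1, a2.2⟩

end ctx

end Crest.Agent.R4.Step588
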