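import Crest.Agent.R4.GFinC927
import Crest.Agent.R4.OF927
import Crest.Agent.R4.OSWI245

/-!
# R4 (S0004), module G, helper927: the numbers of G-FINAL

`cG` : parameters of module G; `εG`; `exists_num` : all numerical hypotheses of `eNM_self` hold for
`p0` large.
-/

set_option autoImplicit false
set_option linter.unusedSectionVars false
set_option linter.unusedVariables false
set_option linter.unusedSimpArgs false

namespace Crest.Agent.R4.GFinK927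

open Crest.Agent.R4.GDef864 Crest.Agent.R4.GFinC927 Crest.Agent.R4.GKap812 Crest.Agent.R4.ColW710
open Crest.Agent.R4.AdvWin560 Crest.Agent.R4.AdvWin560.WT Crest.Agent.R4.Own927
open Crest.Agent.R4.Res927

lemma rt_log_two : Real.log 2 ≤ rt (Real.log 2) := by
  have h1 := Real.log_two_lt_d9
  have h2 := Real.log_two_gt_d9
  rw [rt_eq (by linarith)]
  calc Real.log 2 = Real.log 2 ^ (1 : ℝ) := (Real.rpow_one _).symm
    _ ≤ Real.log 2 ^ eG :=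
      Real.rpow_le_rpow_of_exponent_ge (by linarith) (by linarith) eG_lt.le

lemma two_le_exp {P : ℕ} (hP : 2 ≤ P) : 2 ≤ Real.exp (rt (Real.log P)) := by
  have h1 : Real.log 2 ≤ Real.log P := Real.log_le_log (by norm_num) (by exact_mod_cast hP)
  calc (2 : ℝ) = Real.exp (Real.log 2) := (Real.exp_log (by norm_num)).symm
    _ ≤ Real.exp (rt (Real.log P)) :=
      Real.exp_le_exp.2 (rt_log_two.trans (rt_le_rt h1))

/-- parameters of module G -/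
noncomputable def cG : GDef864.Par where
  c' := 1 / 600
  Cd := 120
  C := 2
  Z := fun P => ⌈Real.exp (rt (Real.log P))⌉₊
  η := fun P => Real.exp (-(2 * rt (Real.log P)))

noncomputable def εG (P : ℕ) : ℝ := Real.exp (-(rt (Real.log P)))

lemma cG_good : cG.Good where
  c'0 := by norm_num [cG]
  c'1 := by norm_num [cG]
  Cd := by norm_num [cG]
  C0 := by norm_num [cG]
  Z1 := fun P => Nat.one_le_ceil_iff.2 (Real.exp_pos _)
  Zle := by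
    intro P hP
    have h1 := two_le_exp hP
    have h2 : (⌈Real.exp (rt (Real.log P))⌉₊ : ℝ) < Real.exp (rt (Real.log P)) + 1 :=
      Nat.ceil_lt_add_one (Real.exp_pos _).le
    have h3 : Real.exp (2 * rt (Real.log P)) =
        Real.exp (rt (Real.log P)) * Real.exp (rt (Real.log P)) := by
      rw [← Real.exp_add]; ring_nf
    show (⌈Real.exp (rt (Real.log P))⌉₊ : ℝ) ≤ Real.exp (2 * rt (Real.log P))
    rw [h3]
    nlinarith
  η0 := fun P => Real.exp_pos _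
  η1 := fun P => Real.exp_le_one_iff.2 (by
    have := rt_nonneg (Real.log P)
    linarith)
  ηge := fun P hP => le_rfl

lemma εG_pos (P : ℕ) : 0 < εG P := Real.exp_pos _

lemma εG_le (P : ℕ) : εG P ≤ 1 := Real.exp_le_one_iff.2 (by
  have := rt_nonneg (Real.log P)
  linarith)

lemma η_le {P d : ℕ} (h : (2 : ℝ) ^ d ≤ Real.exp (rt (Real.log P))) :
    cG.η P ≤ εG P / 2 ^ d := by
  rw [le_div_iff₀ (by positivity)]
  show Real.exp (-(2 * rt (Real.log P))) * 2 ^ d ≤ Real.exp (-(rt (Real.log P)))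
  calc Real.exp (-(2 * rt (Real.log P))) * 2 ^ d ≤
      Real.exp (-(2 * rt (Real.log P))) * Real.exp (rt (Real.log P)) :=
        mul_le_mul_of_nonneg_left h (Real.exp_pos _).le
    _ = Real.exp (-(rt (Real.log P))) := by
        rw [← Real.exp_add]; ring_nf

/-- the gain of the non-critical pairs -/
lemma gsG_le {CL c₀ : ℝ} (hCL : 0 ≤ CL) (hc₀ : 0 < c₀) {P : ℕ} (hP : 3 ≤ P) :
    |gsC cG εG CL c₀ P| ≤ (58 * (CL * (1 / (2 * c₀)))) *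
      (Real.exp (-(1 / 2 * Real.sqrt (Real.log (P : ℕ)))) * Real.log P ^ (2 : ℝ)) := by
  have hP0 : (0 : ℝ) < P := by exact_mod_cast (by omega : 0 < P)
  have hl1 : 1 ≤ Real.log P := by
    rw [Real.le_log_iff_exp_le hP0]
    have h1 := Real.exp_one_lt_d9
    have h2 : (3 : ℝ) ≤ P := by exact_mod_cast hP
    linarith
  have hrt := sqrt_le_rt hl1
  refine le_trans ?_ (mul_le_mul_of_nonneg_left (mul_le_mul_of_nonneg_right
    (Real.exp_le_exp.2 (show -(1 / 2 * rt (Real.log (P : ℕ))) ≤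
      -(1 / 2 * Real.sqrt (Real.log (P : ℕ))) by linarith)) (by positivity)) (by positivity))
  set s := rt (Real.log P) with hs
  have hs0 : 0 ≤ s := rt_nonneg _
  have hs1 : s ≤ Real.log P := rt_le_self hl1
  have hZ : Real.exp s ≤ (cG.Z P : ℝ) := Nat.le_ceil _
  have hZ1 : Real.exp (1 / 2 * s) ≤ Real.sqrt (cG.Z P) := by
    refine Real.le_sqrt_of_sq_le ?_
    refine le_trans (le_of_eq ?_) hZ
    rw [← Real.exp_nat_mul]
    congr 1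
    push_cast; ring
  have h1 : 2 / Real.sqrt (cG.Z P) ≤ 2 * Real.exp (-(1 / 2 * s)) := by
    rw [Real.exp_neg, ← div_eq_mul_inv]
    exact div_le_div_of_nonneg_left (by norm_num) (Real.exp_pos _) hZ1
  have h2 : Real.log (1 / εG P) = s := by
    unfold εG
    rw [one_div, Real.exp_neg, inv_inv, Real.log_exp]
  have h3 : εG P ≤ Real.exp (-(1 / 2 * s)) := Real.exp_le_exp.2 (by
    show -(rt (Real.log P)) ≤ -(1 / 2 * s)
    rw [← hs]; linarith)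
  have hε0 := (εG_pos P).le
  have hZ0 : 0 < Real.sqrt (cG.Z P) := lt_of_lt_of_le (Real.exp_pos _) hZ1
  have e0 := (Real.exp_pos (-(1 / 2 * s))).le
  have h4 : 2 / Real.sqrt (cG.Z P) + 28 * (εG P * (1 + Real.log (1 / εG P))) ≤
      58 * Real.exp (-(1 / 2 * s)) * Real.log P := by
    rw [h2]
    have h5 : εG P * (1 + s) ≤ Real.exp (-(1 / 2 * s)) * (2 * Real.log P) :=
      mul_le_mul h3 (by linarith) (by linarith) e0
    nlinarith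
  have h6 : 0 ≤ 2 / Real.sqrt (cG.Z P) + 28 * (εG P * (1 + Real.log (1 / εG P))) := by
    rw [h2]; positivity
  have h7 : 0 ≤ CL * Real.log P * (1 / (2 * c₀)) := by positivity
  unfold gsC
  rw [abs_of_nonneg (mul_nonneg h6 h7)]
  have e2 : Real.log P ^ (2 : ℝ) = Real.log P * Real.log P := by
    rw [show (2 : ℝ) = ((2 : ℕ) : ℝ) by norm_num, Real.rpow_natCast, sq]
  rw [e2]
  calc _ ≤ 58 * Real.exp (-(1 / 2 * s)) * Real.log P * (CL * Real.log P * (1 / (2 * c₀))) :=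
        mul_le_mul_of_nonneg_right h4 h7
    _ = _ := by ring

/-- empty count -/
lemma Cnt_empty {p0 : ℕ} {D : ℝ} (hp : 1 ≤ p0) : Cnt ∅ p0 D := by
  intro P hP
  simp only [Finset.filter_empty, Finset.card_empty, Nat.cast_zero]
  exact Real.rpow_nonneg (Real.log_natCast_nonneg P) _

/-- count from the previous integer -/
lemma Cnt_pred {F : Finset ℕ} {p0 : ℕ} {D : ℝ} (h : Cnt F p0 D) (hF : ∀ x ∈ F, p0 ≤ x) :
    Cnt F (p0 - 1) D := by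
  intro P hP
  rcases Nat.lt_or_ge P p0 with h1 | h1
  · have : F.filter (· ≤ P) = ∅ := by
      rw [Finset.filter_eq_empty_iff]
      intro x hx hxP
      have := hF x hx
      omega
    rw [this]
    simp only [Finset.card_empty, Nat.cast_zero]
    exact Real.rpow_nonneg (Real.log_natCast_nonneg P) _
  · exact h P h1

/-- small powers -/
lemma kapP (D c K κ : ℝ) (hc : 0 < c) (hK : 0 ≤ K) (hκ : 0 < κ) : ∃ p₁ : ℕ, ∀ p0 ≥ p₁,
    ∀ F : Finset ℕ, (∀ x ∈ F, p0 < x) → Cnt F p0 D → ∑ P ∈ F, K * (P : ℝ) ^ (-c) ≤ κ := by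
  obtain ⟨p₁, h⟩ := kap D c K κ hc hK hκ
  refine ⟨max p₁ 1, fun p0 hp0 F hF hC => ?_⟩
  have := h p0 ((le_max_left _ _).trans hp0) ∅ F (by simp) hF
    (Cnt_empty ((le_max_right _ _).trans hp0)) hC
  simpa using this

/-- **all the numbers**: `hK` of `eNM_self` -/
theorem num_K {CL c₀ Dc κ : ℝ} (hCL : 0 ≤ CL) (hc₀ : 0 < c₀) (hD : 0 ≤ Dc)
    (hκ : 0 < κ) : ∃ p₁ : ℕ, ∀ p0 ≥ p₁, ∀ F : Finset ℕ, (∀ x ∈ F, p0 ≤ x) →
    Cnt F p0 Dc →
    ∑ P ∈ F, (2 * (∑ x ∈ F.filter (P < ·), 1 / (x:ℝ) + 4 * (P:ℝ)^(-(cG.c'/20000))) +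
      2 * (εC P + |gsC cG εG CL c₀ P|)) ≤ κ := by
  have hκ' : 0 < κ / 16 := by positivity
  obtain ⟨a1, h1⟩ := kap Dc (cG.c'/20000) 4 (κ / 16) (by norm_num [cG]) (by norm_num) hκ'
  obtain ⟨a2, h2⟩ := kapP Dc (1 / 7000) 1 (κ / 16) (by norm_num) (by norm_num) hκ'
  obtain ⟨a4, h4⟩ := kapP Dc (1 / 3) 2 (κ / 16) (by norm_num) (by norm_num) hκ'
  obtain ⟨a5, h5⟩ := GKap812.kapS Dc 2 (1 / 2) (58 * (CL * (1 / (2 * c₀)))) (κ / 16) hD (by norm_num)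
    (by positivity) hκ'
  refine ⟨a1 + a2 + a4 + a5 + 4, fun p0 hp0 F hF hC => ?_⟩
  have hF' : ∀ x ∈ F, p0 - 1 < x := fun x hx => by
    have := hF x hx
    omega
  have hC' := Cnt_pred hC hF
  have k1 := h1 (p0 - 1) (by omega) F F hF' hF' hC' hC'
  have k2 := h2 (p0 - 1) (by omega) F hF' hC'
  have k4 := h4 (p0 - 1) (by omega) F hF' hC'
  have k5 := h5 (p0 - 1) (by omega) F hF' hC'
  have key : ∑ P ∈ F, (2 * (∑ x ∈ F.filter (P < ·), 1 / (x:ℝ) + 4 * (P:ℝ)^(-(cG.c'/20000))) +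
      2 * (εC P + |gsC cG εG CL c₀ P|)) ≤
      2 * ∑ P ∈ F, (∑ x ∈ F.filter (P < ·), 1 / (x:ℝ) + 4 * (P:ℝ)^(-(cG.c'/20000))) +
      2 * (∑ P ∈ F, 1 * (P : ℝ) ^ (-(1 / 7000) : ℝ) +
        ∑ P ∈ F, 2 * (P : ℝ) ^ (-(1 / 3) : ℝ) +
        ∑ P ∈ F, (58 * (CL * (1 / (2 * c₀)))) *
          (Real.exp (-(1 / 2 * Real.sqrt (Real.log (P : ℕ)))) * Real.log P ^ (2 : ℝ))) := by
    rw [← Finset.sum_add_distrib, ← Finset.sum_add_distrib,
      Finset.mul_sum, Finset.mul_sum, ← Finset.sum_add_distrib]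
    refine Finset.sum_le_sum fun P hP => ?_
    have g2 := gsG_le (P := P) hCL hc₀ (by have := hF P hP; omega)
    unfold εC
    linarith
  refine key.trans ?_
  linarith

/-! ### all numbers in one structure -/

/-- **numbers of G-FINAL** at `p0` -/
structure NumG (CL C1 c₀ Dc κ : ℝ) (p0 : ℕ) : Prop where
  cc : CK CL C1 (1 / (2 * c₀)) p0
  p2 : 2 ^ 40 ≤ p0
  again : ∀ (P P₁ : ℕ) (θ₀ rq rr rr₁ : ℝ) (a a' : Finset ℕ),
    p0 ≤ P → P < P₁ → (∀ s ∈ a, P < s) → (∀ s ∈ a', P < s) → P₁ ∈ a →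
    Cr cG θ₀ rq rr₁ P₁ (a.filter (P₁ < ·)) (a'.filter (P₁ < ·)) →
    Cr cG θ₀ rq rr P a a' →
    EvN cG θ₀ rr P a a' ∨ EvN cG θ₀ rq P a' a
  ev : ∀ P : ℕ, p0 ≤ P → ∀ (θ₀ ρ : ℝ) (F : Finset ℕ) (t : WT) (n : ℕ), t.Ok n →
    E (fun v => ind (EvN cG θ₀ ρ P (v.filter (P < ·)) (F.filter (P < ·)))) t ∅ ≤
      ∑ x ∈ F.filter (P < ·), 1 / (x:ℝ) + 4 * (P:ℝ)^(-(cG.c'/20000))
  num : ∀ F : Finset ℕ, (∀ x ∈ F, p0 ≤ x) → Cnt F p0 Dc →
    ∑ P ∈ F, (2 * (∑ x ∈ F.filter (P < ·), 1 / (x:ℝ) + 4 * (P:ℝ)^(-(cG.c'/20000))) +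
      2 * (εC P + |gsC cG εG CL c₀ P|)) ≤ κ

theorem exists_NumG {CL C1 c₀ Dc κ : ℝ} (hCL : 1 ≤ CL) (hc₀ : 0 < c₀) (hD : 0 ≤ Dc)
    (hκ : 0 < κ) : ∃ p₁ : ℕ, ∀ p0 ≥ p₁, NumG CL C1 c₀ Dc κ p0 := by
  obtain ⟨a1, h1⟩ := exists_CK hCL C1 (1 / (2 * c₀)) (by positivity)
  obtain ⟨a2, -, h2⟩ := GEv864.again_N cG cG_good
  obtain ⟨a3, h3⟩ := GEvW812.W3 cG cG_good
  obtain ⟨a4, h4⟩ := num_K (CL := CL) (by linarith) hc₀ hD hκ
  refine ⟨a1 + 2 ^ 40 + a2 + ⌈|a3|⌉₊ + a4, fun p0 hp0 =>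
    ⟨h1.mono (by omega), by omega, ?_, ?_, h4 p0 (by omega)⟩⟩
  · intro P P₁ θ₀ rq rr rr₁ a a' hP
    exact h2 P P₁ θ₀ rq rr rr₁ a a' (by omega)
  · intro P hP θ₀ ρ F t n ht
    have b1 : a3 ≤ (P : ℝ) := by
      have c1 : a3 ≤ |a3| := le_abs_self _
      have c2 : |a3| ≤ ⌈|a3|⌉₊ := Nat.le_ceil _
      have c3 : ((⌈|a3|⌉₊ : ℕ) : ℝ) ≤ P := by exact_mod_cast (by omega : ⌈|a3|⌉₊ ≤ P)
      linarith
    have := h3 P b1 θ₀ ρ F t n ht
    refine le_trans (le_of_eq ?_) this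
    congr 1

/-! ### the final theorem -/

open Crest.Agent.R4.Tour104 Crest.Agent.R4.Tour758 Crest.Agent.R4.Avg758 Crest.Agent.R4.Clos758
open Crest.Agent.R4.ClosL758 Crest.Agent.R4.ClosG758 Crest.Agent.R4.ClosR758
open Crest.Agent.R4.Fam464 Crest.Agent.R4.Cnt588 Crest.Agent.R4.Walk560 Crest.Agent.R4.Piece464
open Crest.Agent.R4.Item758 Crest.Agent.R4.AvgItem710
open Crest.Agent.R4.Bld532 (NS All NodeOk Bk)
open Crest.Agent.R4.GInst194 Crest.Agent.R4.WalkIT579 Crest.Agent.R4.GSt927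
open Crest.Agent.R4.GStJ927 Crest.Agent.R4.GFin927 Crest.Agent.R4.NMW710 Crest.Agent.R4.DeepSt579
open Crest.Agent.R4.GSplit194 Crest.Agent.R4.GAgain864
open Crest.Agent.R4

section
variable {Λ κ : Type*} [Fintype Λ] [DecidableEq Λ] [Fintype κ] [DecidableEq κ] [WRel κ]
variable {D : Item758.Par Λ κ} {sp : ℕ → Finset Λ} {ρ : ℕ → ℝ} {Al : Finset ℕ} {P : Bld532.Par}
  {W : ℕ → ℝ} {U : ℕ → Finset ℕ} {CL C1 c₀ Dc κ' : ℝ} {p0 : ℕ}
  {dd : ℕ → ℕ} {stp : St Λ κ → Prop} {Ix : XSt Λ κ → Prop} {Qp : NS → IT → Prop}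

/-- the constants of `GFinC927` -/
lemma NumG.gnm (hN : NumG CL C1 c₀ Dc κ' p0) (hCL : 0 ≤ CL)
    (ni : ∀ p, p0 ≤ p → NI D ρ Al P W U CL C1 c₀ p) (spo : D.SpOk sp)
    (il : ∀ b, IL D.it (sp b)) (spd : ∀ b, ∀ j ∈ sp b, b ∣ D.it j)
    (hdd : ∀ p : ℕ, p0 ≤ p → (2 : ℝ) ^ dd p ≤ Real.exp (rt (Real.log p)))
    (hst : ∀ s : St Λ κ, ¬ stp s → ¬ OSWS245.stpM s)
    (ix : ∀ x, XI x.n x → Ix x → ∀ e ∈ steps stp (dvI D) x, Ix e.y)
    (of : ∀ x, Ix x → OF927.OF p0 x) :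
    GNM D sp ρ Al P W U CL C1 c₀ p0 cG εG dd stp Ix where
  cc := hN.cc
  CL0 := hCL
  p2 := hN.p2
  good := cG_good
  again := hN.again
  ni := ni
  spo := spo
  il := il
  spd := spd
  ε0 := fun p _ => εG_pos p
  ε1 := fun p _ => εG_le p
  η := fun p hp => η_le (hdd p hp)
  st := fun s hs => OF927.sum_le_third (hst s hs)
  ix := ix
  of := fun x hx _ hn => (of x hx).le_one (by have := hN.p2; omega)

/-- **the inputs of the world** at a self state: no literal `[F]` pairs, 194's `WH` -/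
structure Wld (D : Item758.Par Λ κ) (sp : ℕ → Finset Λ) (ρ : ℕ → ℝ) (Al : Finset ℕ)
    (U : ℕ → Finset ℕ) (stp : St Λ κ → Prop) (Qp : NS → IT → Prop) (Ix : XSt Λ κ → Prop)
    (dd : ℕ → ℕ) (B₀ : ℕ) (s₀ : St Λ κ) : Prop where
  fs : ∀ x, GI (dvI D) mI s₀ (HX D sp Qp (JJ D U Ix) B₀ B₀) x → ¬ stp x.s → ∀ d,
    HD D sp Qp (JJ D U Ix) B₀ B₀ x d → FSx D ρ x d
  wh : ∀ x, GI (dvI D) mI s₀ (HX D sp Qp (JJ D U Ix) B₀ B₀) x → ¬ stp x.s → ∀ d,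
    HD D sp Qp (JJ D U Ix) B₀ B₀ x d → ∀ e ∈ EB D ρ Al x d, R1 x d e → ∃ (ρ₀ : ℝ) (n₀ : ℕ), 0 < ρ₀ ∧
      WH D ρ (Ro (D.rho d.p)) x.s.M (d.u.B * d.p) d.u.A d.p x.s.M' (d.u'.B * d.p) d.u'.A d.p
        ρ₀ n₀ (dd d.p) e (FN D x d e)

/-- **G-FINAL FOR THE NEAR MISSES**: `W (eNM) ≤ (1 + κ') ∑ mI` at a self state -/
theorem eNM_final (hN : NumG CL C1 c₀ Dc κ' p0) (hCL : 0 ≤ CL)
    (ni : ∀ p, p0 ≤ p → NI D ρ Al P W U CL C1 c₀ p) (spo : D.SpOk sp)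
    (il : ∀ b, IL D.it (sp b)) (spd : ∀ b, ∀ j ∈ sp b, b ∣ D.it j)
    (hdd : ∀ p : ℕ, p0 ≤ p → (2 : ℝ) ^ dd p ≤ Real.exp (rt (Real.log p)))
    (hst : ∀ s : St Λ κ, ¬ stp s → ¬ OSWS245.stpM s)
    (ix : ∀ x, XI x.n x → Ix x → ∀ e ∈ steps stp (dvI D) x, Ix e.y)
    (of : ∀ x, Ix x → OF927.OF p0 x)
    (hQ : ∀ u τ, Qp u τ → NB D Al P W U CL c₀ p0 u τ) {u : NS} {τ : IT} {A : Finset Λ}
    (hs : SideI D sp u.B u.A τ A (D.toDT sp u.B u.A τ)) (hq : All Qp u τ)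
    (hilA : IL D.it A) (hO : τ.Ok u.n) (hG : NG U u τ)
    (hix : Ix (XSt.st u.n (selfSt (D.toDT sp u.B u.A τ) A)))
    (hw : Wld D sp ρ Al U stp Qp Ix dd u.B (selfSt (D.toDT sp u.B u.A τ) A))
    (hcnt : ∀ j ∈ A, mI (D.toDT sp u.B u.A τ) j ≠ 0 →
      Cnt (mtD (dvI D) j (D.toDT sp u.B u.A τ)) p0 Dc) :
    WS stp (eNM stp) (selfSt (D.toDT sp u.B u.A τ) A) ≤
      (1 + κ') * ∑ j ∈ A, mI (D.toDT sp u.B u.A τ) j := by
  have H := hN.gnm hCL ni spo il spd hdd hst ix of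
  rw [show selfSt (D.toDT sp u.B u.A τ) A =
    (XSt.st u.n (selfSt (D.toDT sp u.B u.A τ) A)).s from rfl, WS_eq_H stp (dvI D)]
  refine eNM_self H hQ hs hq hilA hO hG hix hw.fs hw.wh hN.ev fun j hj hm => ?_
  exact hN.num _ (fun x hx => mtD_big hQ j τ hq x hx) (hcnt j hj hm)

end

end Crest.Agent.R4.GFinK927
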