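import Crest.Agent.R4.T9464
import Crest.Agent.R4.NI927

/-!
R4 (S0004), helper464: **the means of a context** (927's `Mean`), `c₀ = 1/2`.
-/

set_option autoImplicit false

namespace Crest.Agent.R4.NI927

open Crest.Agent.R4.Skel189

/-- **`Mean X (1/2)`** -/
theorem ctx_Mean (N : Skel189.Num) : ∃ p₁ : ℕ, ∀ p0 ≥ p₁, ∀ (γ : ℝ) (P₀ : ℕ), 2 ≤ P₀ →
    ∀ X : Ctx N γ p0 P₀, Mean X (1 / 2) := by
  obtain ⟨p1, h1⟩ := ctx_cond N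
  exact ⟨p1, fun p0 hp0 γ P₀ hP X q hq z => (h1 p0 hp0 γ P₀ hP X q hq z).1⟩

end Crest.Agent.R4.NI927
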