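import Crest.Agent.R4.GFinN927
import Crest.Agent.R4.GStJ927
import Crest.Agent.R4.ColW710
import Crest.Agent.R4.GSplit194
import Crest.Agent.R4.GEv864
import Crest.Agent.R4.GNum812
import Crest.Agent.R4.GKapL812

/-!
# R4 (S0004), module G, helper927: **G-FINAL for `eNM`, concrete**

`GNM` = what is used about the world and the tree; `gn_NM` : the hypotheses `GN` of `GFinN927` for
`loc = eNM`, the events of `GDef864`, the pairs of `NMW710`, 710's final column bound `nm_state3`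
(`[F]` pairs paid); `eNM_self` : at a self state the walk sum of `eNM` is `≤ (1 + κ) ∑_{j ∈ A} mI`.
`Ix` = further invariant of the states (245's `OI`, `OF927`, ..).
-/

set_option autoImplicit false
set_option linter.unusedSectionVars false
set_option linter.unusedVariables false
set_option linter.unusedSimpArgs false

namespace Crest.Agent.R4.GFinC927

open Crest.Agent.R4.Tour104 Crest.Agent.R4.Tour758 Crest.Agent.R4.Avg758 Crest.Agent.R4.Clos758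
open Crest.Agent.R4.ClosL758 Crest.Agent.R4.ClosG758 Crest.Agent.R4.ClosR758
open Crest.Agent.R4.Fam464 Crest.Agent.R4.Cnt588 Crest.Agent.R4.Walk560 Crest.Agent.R4.Piece464
open Crest.Agent.R4.Item758 Crest.Agent.R4.AvgItem710
open Crest.Agent.R4.Bld532 (NS All NodeOk Bk)
open Crest.Agent.R4.AdvWin560 Crest.Agent.R4.AdvWin560.WT Crest.Agent.R4.Own927
open Crest.Agent.R4.Res927 Crest.Agent.R4.GInst194 Crest.Agent.R4.WalkIT579 Crest.Agent.R4.GSt927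
open Crest.Agent.R4.GStJ927 Crest.Agent.R4.GFin927 Crest.Agent.R4.NMW710 Crest.Agent.R4.DeepSt579
open Crest.Agent.R4.ColW710 Crest.Agent.R4.GSplit194 Crest.Agent.R4.GDef864 Crest.Agent.R4.GAgain864
open Crest.Agent.R4

variable {Λ κ : Type*} [Fintype Λ] [DecidableEq Λ] [Fintype κ] [DecidableEq κ] [WRel κ]

/-- number of dyadic scales of a column -/
noncomputable def nn (p : ℕ) : ℕ := ⌊1/4 * Real.log p / Real.log 2⌋₊

/-- scale of an item pair of the column -/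
noncomputable def DN (ρ : ℕ → ℝ) (x : XSt Λ κ) (d : Dt) (e : ℕ × ℕ) : ℝ :=
  Dq ρ x.s.M (d.u.B * d.p) d.u.A d.p x.s.M' (d.u'.B * d.p) d.u'.A d.p e

open Classical in
/-- the alive pairs of the column with a nonzero energy, small scale -/
noncomputable def AB (D : Par Λ κ) (ρ : ℕ → ℝ) (Al : Finset ℕ) (x : XSt Λ κ) (d : Dt) :
    Finset (ℕ × ℕ) :=
  (Qi D Al d.t₀ x.s.A ×ˢ Qi D Al d.t₀' x.s.A').filter fun e =>
    0 < FN D x d e ∧ DN ρ x d e ≤ 1 / 2 ^ nn d.p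

open Classical in
/-- the `[E]` pairs of the column -/
noncomputable def EB (D : Par Λ κ) (ρ : ℕ → ℝ) (Al : Finset ℕ) (x : XSt Λ κ) (d : Dt) :
    Finset (ℕ × ℕ) :=
  (AB D ρ Al x d).filter fun e =>
    ESI D.γ ρ x.s.M (d.u.B * d.p) d.u.A d.p x.s.M' (d.u'.B * d.p) d.u'.A d.p e

/-- node facts of the near misses -/
structure NB (D : Par Λ κ) (Al : Finset ℕ) (P : Bld532.Par) (W : ℕ → ℝ) (U : ℕ → Finset ℕ)
    (CL c₀ : ℝ) (p₁ : ℕ) (u : NS) (τ : IT) : Prop where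
  nq : NQ P W U u τ
  big : ∀ (p : ℕ) (t₁ t₀ : IT), τ = .br p t₁ t₀ → p₁ ≤ p
  lg : ∀ (p : ℕ) (t₁ t₀ : IT), τ = .br p t₁ t₀ → ∀ q ∈ Al, q ∈ τ.items →
    1 ≤ CL * Real.log p * tq (q / u.A)
  mean : ∀ j, D.it j ∈ Al → D.it j ∈ τ.items →
    c₀ * tq (D.it j / (u.A * pp τ (D.it j))) ≤ mnw (D.it j / (u.A * pp τ (D.it j))) (D.om j)

/-- the invariant of the states -/
def JJ (D : Par Λ κ) (U : ℕ → Finset ℕ) (Ix : XSt Λ κ → Prop) (x : XSt Λ κ) (u u' : NS)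
    (τ τ' : IT) : Prop :=
  JS D U x.s u u' τ τ' ∧ Ix x

/-- the events -/
def Ev (c : GDef864.Par) (D : Par Λ κ) (ρ : ℕ → ℝ) (B₀ : ℕ) (q P : ℕ) (a b : Finset ℕ) : Prop :=
  EvN c (B₀ * D.γ) (B₀ * ρ q) P a b

/-- criticality -/
def CrR (c : GDef864.Par) (D : Par Λ κ) (ρ : ℕ → ℝ) (B₀ : ℕ) (P q r : ℕ) (a a' : Finset ℕ) :
    Prop :=
  Cr c (B₀ * D.γ) (B₀ * ρ q) (B₀ * ρ r) P a a'

/-- gain of the non-critical pairs -/
noncomputable def gsC (c : GDef864.Par) (ε : ℕ → ℝ) (CL c₀ : ℝ) (p : ℕ) : ℝ :=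
  (2 / Real.sqrt (c.Z p) + 28 * (ε p * (1 + Real.log (1 / ε p)))) *
    (CL * Real.log p * (1 / (2 * c₀)))

/-- **hypotheses**: constants, world -/
structure GNM (D : Par Λ κ) (sp : ℕ → Finset Λ) (ρ : ℕ → ℝ) (Al : Finset ℕ) (P : Bld532.Par)
    (W : ℕ → ℝ) (U : ℕ → Finset ℕ) (CL C1 c₀ : ℝ) (p₁ : ℕ) (c : GDef864.Par) (ε : ℕ → ℝ)
    (dd : ℕ → ℕ) (stp : St Λ κ → Prop) (Ix : XSt Λ κ → Prop) : Prop where
  cc : CK CL C1 (1 / (2 * c₀)) p₁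
  CL0 : 0 ≤ CL
  p2 : 2 ^ 40 ≤ p₁
  good : c.Good
  again : ∀ (P P₁ : ℕ) (θ₀ rq rr rr₁ : ℝ) (a a' : Finset ℕ),
    p₁ ≤ P → P < P₁ → (∀ s ∈ a, P < s) → (∀ s ∈ a', P < s) → P₁ ∈ a →
    Cr c θ₀ rq rr₁ P₁ (a.filter (P₁ < ·)) (a'.filter (P₁ < ·)) →
    Cr c θ₀ rq rr P a a' →
    EvN c θ₀ rr P a a' ∨ EvN c θ₀ rq P a' a
  ni : ∀ p, p₁ ≤ p → NI D ρ Al P W U CL C1 c₀ p
  spo : D.SpOk sp
  il : ∀ b, IL D.it (sp b)
  spd : ∀ b, ∀ j ∈ sp b, b ∣ D.it j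
  ε0 : ∀ p, p₁ ≤ p → 0 < ε p
  ε1 : ∀ p, p₁ ≤ p → ε p ≤ 1
  η : ∀ p, p₁ ≤ p → c.η p ≤ ε p / 2 ^ dd p
  st : ∀ s : St Λ κ, ¬ stp s → ∑ l ∈ s.O, 1 / (l : ℝ) ≤ (s.p : ℝ) ^ (-(1 / 3) : ℝ) ∧
    ∑ l ∈ s.O', 1 / (l : ℝ) ≤ (s.p : ℝ) ^ (-(1 / 3) : ℝ)
  ix : ∀ x, XI x.n x → Ix x → ∀ e ∈ steps stp (dvI D) x, Ix e.y
  of : ∀ x, Ix x → ¬ stp x.s → p₁ < x.n → ∑ l ∈ x.s.O, (l : ℝ) ^ (-(11 / 12) : ℝ) ≤ 1 ∧
    ∑ l ∈ x.s.O', (l : ℝ) ^ (-(11 / 12) : ℝ) ≤ 1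

section
variable {D : Par Λ κ} {sp : ℕ → Finset Λ} {ρ : ℕ → ℝ} {Al : Finset ℕ} {P : Bld532.Par}
  {W : ℕ → ℝ} {U : ℕ → Finset ℕ} {CL C1 c₀ : ℝ} {p₁ : ℕ} {c : GDef864.Par} {ε : ℕ → ℝ}
  {dd : ℕ → ℕ} {stp : St Λ κ → Prop} {Ix : XSt Λ κ → Prop} {Qp : NS → IT → Prop}

lemma eNM_zero {s : St Λ κ} (h : stp s) : eNM stp s = 0 := by
  unfold eNM
  split_ifs <;> rfl

/-- `eNM` vanishes off pairs of ties -/
lemma eNM_br {B₀ B₀' : ℕ} {x : XSt Λ κ} (hx : HX D sp Qp (JJ D U Ix) B₀ B₀' x)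
    (h : eNM stp x.s ≠ 0) : ∃ d, HD D sp Qp (JJ D U Ix) B₀ B₀' x d := by
  obtain ⟨u, u', τ, τ', hi, hj⟩ := hx
  unfold eNM at h
  split_ifs at h with h1 h2
  · exact absurd rfl h
  · exact absurd rfl h
  rcases hv : vw x.s.p x.s.t with ⟨w, r, t₁, t₀, v, B₁, G⟩ | ⟨r, t₁, t₀⟩ | ⟨Sp, d⟩ <;>
  rcases hv' : vw x.s.p x.s.t' with ⟨w', r', t₁', t₀', v', B', G'⟩ | ⟨r', t₁', t₀'⟩ | ⟨Sp', d'⟩ <;>
  simp only [hv, hv'] at h <;> try exact absurd rfl h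
  obtain ⟨τ₁, τ₀, rfl, -, -, -, -, -⟩ := AvgItem710.toDT_br (hi.L.eq.symm.trans (vw_br hv))
  obtain ⟨τ₁', τ₀', rfl, -, -, -, -, -⟩ := AvgItem710.toDT_br (hi.R.eq.symm.trans (vw_br hv'))
  exact ⟨⟨u, u', x.s.p, τ₁, τ₀, τ₁', τ₀'⟩, hi, hj⟩

lemma KR_EB {x : XSt Λ κ} {d : Dt} {Qf : ℕ × ℕ → Prop} (h : ∀ e, ¬ Qf e) :
    KR D ρ Al (nn d.p) d.p x.s.M (d.u.B * d.p) d.u.A d.p d.t₀ x.s.A x.s.M'
        (d.u'.B * d.p) d.u'.A d.p d.t₀' x.s.A' Qf ⊆ EB D ρ Al x d := by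
  classical
  intro e he
  obtain ⟨k1, k2, k3, k4⟩ := Finset.mem_filter.1 he
  exact Finset.mem_filter.2 ⟨Finset.mem_filter.2 ⟨k1, k2, k3⟩, k4.resolve_right (h e)⟩

lemma HD_p {B₀ B₀' : ℕ} {x : XSt Λ κ} {d : Dt} (h : HD D sp Qp (JJ D U Ix) B₀ B₀' x d) :
    x.s.p = d.p := h.p_eq

/-- the `[E]` pairs are `[E]` pairs of `GFinN927` -/
lemma EB_sub {B₀ B₀' : ℕ} {x : XSt Λ κ} {d : Dt} (h : HD D sp Qp (JJ D U Ix) B₀ B₀' x d) :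
    EB D ρ Al x d ⊆ EE D (fun t => t ^ (1 / 20 : ℝ)) ρ x d := by
  classical
  intro e he
  obtain ⟨he, h1⟩ := Finset.mem_filter.1 he
  obtain ⟨he, h2, -⟩ := Finset.mem_filter.1 he
  obtain ⟨h3, h4⟩ := Finset.mem_product.1 he
  have h3 := (mem_Qi.1 h3).1
  have h4 := (mem_Qi.1 h4).1
  refine Finset.mem_filter.2 ⟨Finset.mem_product.2 ⟨h3, h4⟩, h2, ?_⟩
  exact ESI_EP (h.1.L.hF.2.2.2.2.item _ h3).2.1 (h.1.R.hF.2.2.2.2.item _ h4).2.1 h1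

/-- radii against masses -/
lemma rad_mass (H : GNM D sp ρ Al P W U CL C1 c₀ p₁ c ε dd stp Ix) {u : NS} {p : ℕ} {t₁ t₀ : IT}
    (hq : NB D Al P W U CL c₀ p₁ u (.br p t₁ t₀)) {A : Finset Λ} {d : DT Λ κ}
    (hs : SideI D sp u.B u.A (.br p t₁ t₀) A d) (hil : IL D.it A) {q : ℕ}
    (h : q ∈ Qi D Al t₀ A) :
    (u.B : ℝ) * ρ q ≤ CL * Real.log p * (1 / (2 * c₀)) * mq D d A q := by
  classical
  have hni := H.ni p (hq.big p t₁ t₀ rfl)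
  obtain ⟨n, hO⟩ := hs.ok
  obtain ⟨h2, h3, h4⟩ := mem_Qi.1 h
  have h5 : q ∈ (IT.br p t₁ t₀).items := Finset.mem_union_right _ h2
  have h6 := mass_ge hO hni.ab hs.hb hs.hF hs.hW h5 (hq.nq.2 q h5).1 hni.c0 (fun j hj => by
    have := hq.mean j (hj ▸ h3) (hj ▸ h5)
    rw [hj] at this
    exact this) (hni.full q h3) hil h4
  have h7 : ∑ j ∈ A.filter (fun j => D.it j = q), I ((D.toFT u.B u.A (.br p t₁ t₀)).U 1 j) =
      mq D d A q := Finset.sum_congr rfl fun j _ => (SideI_mI hs j).symm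
  rw [h7] at h6
  have h8 := hq.lg p t₁ t₀ rfl q h3 h5
  have h9 : 0 ≤ (u.B : ℝ) * ρ q := mul_nonneg (Nat.cast_nonneg _) (hni.rad.pos q).le
  have h10 : 0 ≤ CL * Real.log p := mul_nonneg H.CL0 (Real.log_natCast_nonneg p)
  calc (u.B : ℝ) * ρ q ≤ (u.B : ℝ) * ρ q * (CL * Real.log p * tq (q / u.A)) :=
        le_mul_of_one_le_right h9 h8
    _ = CL * Real.log p * ((u.B : ℝ) * ρ q * tq (q / u.A)) := by ring
    _ ≤ CL * Real.log p * (1 / (2 * c₀) * mq D d A q) := mul_le_mul_of_nonneg_left h6 h10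
    _ = _ := by ring

/-- the scale bound -/
lemma two_nn {p : ℕ} (hp : 2 ^ 40 ≤ p) : 2 * (1 / (2 : ℝ) ^ nn p) ≤ (p : ℝ) ^ (-(1 / 5) : ℝ) := by
  have hp0 : (0 : ℝ) < p := by
    have : 0 < p := lt_of_lt_of_le (by norm_num) hp
    exact_mod_cast this
  have hl2 : 0 < Real.log 2 := Real.log_pos (by norm_num)
  have h1 : 1 / 4 * Real.log p / Real.log 2 < nn p + 1 := Nat.lt_floor_add_one _
  rw [div_lt_iff₀ hl2] at h1
  have h2 : (p : ℝ) ^ (1 / 4 : ℝ) ≤ 2 * 2 ^ nn p := by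
    have h3 : (2 : ℝ) * 2 ^ nn p = Real.exp ((nn p + 1) * Real.log 2) := by
      have : ((nn p : ℝ) + 1) = ((nn p + 1 : ℕ) : ℝ) := by push_cast; ring
      rw [this, Real.exp_nat_mul, Real.exp_log (by norm_num), pow_succ]; ring
    rw [h3, Real.rpow_def_of_pos hp0]
    exact Real.exp_le_exp.2 (by linarith)
  have h4 : (4 : ℝ) ≤ (p : ℝ) ^ (1 / 20 : ℝ) := by
    have h5 : ((2 : ℝ) ^ 40) ^ (1 / 20 : ℝ) ≤ (p : ℝ) ^ (1 / 20 : ℝ) :=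
      Real.rpow_le_rpow (by positivity) (by exact_mod_cast hp) (by norm_num)
    refine le_trans (le_of_eq ?_) h5
    rw [← Real.rpow_natCast, ← Real.rpow_mul (by norm_num)]
    norm_num
  have h6 : (p : ℝ) ^ (1 / 4 : ℝ) = (p : ℝ) ^ (1 / 5 : ℝ) * (p : ℝ) ^ (1 / 20 : ℝ) := by
    rw [← Real.rpow_add hp0]; norm_num
  have h7 : 0 < (p : ℝ) ^ (1 / 5 : ℝ) := Real.rpow_pos_of_pos hp0 _
  have h8 : 2 * (p : ℝ) ^ (1 / 5 : ℝ) ≤ 2 ^ nn p := by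
    rw [h6] at h2
    nlinarith
  rw [Real.rpow_neg hp0.le, ← one_div, mul_one_div, div_le_div_iff₀ (by positivity) h7]
  linarith

lemma cast_col {B p : ℕ} (hp : 0 < p) : ((B * p : ℕ) : ℝ) / p = B := by
  have : (p : ℝ) ≠ 0 := by exact_mod_cast hp.ne'
  push_cast
  field_simp

/-- **non-critical pairs are small** -/
theorem cls_NM (H : GNM D sp ρ Al P W U CL C1 c₀ p₁ c ε dd stp Ix)
    (hQ : ∀ u τ, Qp u τ → NB D Al P W U CL c₀ p₁ u τ) {B₀ : ℕ} {x : XSt Λ κ} {d : Dt}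
    (h : HD D sp Qp (JJ D U Ix) B₀ B₀ x d) {e : ℕ × ℕ} (he : e ∈ EB D ρ Al x d) (hr : R1 x d e)
    {ρ₀ : ℝ} {n₀ : ℕ} (h0 : 0 < ρ₀)
    (hWH : WH D ρ (Ro (D.rho d.p)) x.s.M (d.u.B * d.p) d.u.A d.p x.s.M' (d.u'.B * d.p) d.u'.A d.p
      ρ₀ n₀ (dd d.p) e (FN D x d e)) :
    CrR c D ρ B₀ d.p e.1 e.2 x.u x.u' ∨
      FN D x d e ≤ gsC c ε CL c₀ d.p * mq D x.s.t x.s.A e.1 +
        gsC c ε CL c₀ d.p * mq D x.s.t' x.s.A' e.2 := by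
  classical
  obtain ⟨he1, hE⟩ := Finset.mem_filter.1 he
  obtain ⟨he1, hF, hDq⟩ := Finset.mem_filter.1 he1
  obtain ⟨hi1, hi2⟩ := Finset.mem_product.1 he1
  have hj1 := (mem_Qi.1 hi1).1
  have hj2 := (mem_Qi.1 hi2).1
  have nbL := hQ _ _ h.1.qL.self
  have nbR := hQ _ _ h.1.qR.self
  have hpb : p₁ ≤ d.p := nbL.big _ _ _ rfl
  have hp40 : 2 ^ 40 ≤ d.p := H.p2.trans hpb
  have hp0 : 0 < d.p := lt_of_lt_of_le (by norm_num) hp40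
  have hpR0 : (0 : ℝ) < d.p := by exact_mod_cast hp0
  have hni := H.ni d.p hpb
  have hL0 := h.1.L.br₀
  have hR0 := h.1.R.br₀
  have e1 : (((d.u.B * d.p : ℕ) : ℝ) / d.p) = d.u.B := cast_col hp0
  have e2 : (((d.u'.B * d.p : ℕ) : ℝ) / d.p) = d.u'.B := cast_col hp0
  have bL : (d.u.B : ℝ) = B₀ * GAgain864.pr x.u := by
    rw [h.1.bL, Nat.cast_mul, GEv864.cast_pr]
  have bR : (d.u'.B : ℝ) = B₀ * GAgain864.pr x.u' := by
    rw [h.1.bR, Nat.cast_mul, GEv864.cast_pr]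
  by_cases hcr : CrK D ρ x.s.M (d.u.B * d.p) d.u.A d.p x.s.M' (d.u'.B * d.p) d.u'.A d.p
    (c.Z d.p) (c.η d.p) ((d.p : ℝ) ^ (-(1 / 5 : ℝ))) e
  · left
    obtain ⟨-, n, hn⟩ := hcr
    refine ⟨cx x.s.M d.u.A x.s.M' d.u'.A e, cy x.s.M d.u.A x.s.M' d.u'.A e, n, ?_⟩
    rw [e1, e2, bL, bR] at hn
    have k1 : (B₀ : ℝ) * D.γ * GAgain864.pr x.u = B₀ * GAgain864.pr x.u * D.γ := by ring
    have k2 : (B₀ : ℝ) * D.γ * GAgain864.pr x.u' = B₀ * GAgain864.pr x.u' * D.γ := by ring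
    have k3 : (B₀ : ℝ) * ρ e.1 * GAgain864.pr x.u = B₀ * GAgain864.pr x.u * ρ e.1 := by ring
    have k4 : (B₀ : ℝ) * ρ e.2 * GAgain864.pr x.u' = B₀ * GAgain864.pr x.u' * ρ e.2 := by ring
    rw [k1, k2, k3, k4]
    exact hn
  · right
    have hδ : 2 * Da (e.1 / d.u.A) x.s.M (e.2 / d.u'.A) x.s.M'
        (((d.u.B * d.p : ℕ) : ℝ) / d.p * ρ e.1) (((d.u'.B * d.p : ℕ) : ℝ) / d.p * ρ e.2) ≤
        (d.p : ℝ) ^ (-(1 / 5 : ℝ)) := by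
      refine le_trans (mul_le_mul_of_nonneg_left (show _ ≤ (1 : ℝ) / 2 ^ nn d.p from hDq)
        (by norm_num)) (two_nn hp40)
    have hδ1 : (d.p : ℝ) ^ (-(1 / 5 : ℝ)) ≤ 1 / 2 := by
      rw [Real.rpow_neg hpR0.le, ← one_div]
      refine one_div_le_one_div_of_le (by norm_num) ?_
      have h5 : ((2 : ℝ) ^ 40) ^ (1 / 5 : ℝ) ≤ (d.p : ℝ) ^ (1 / 5 : ℝ) :=
        Real.rpow_le_rpow (by positivity) (by exact_mod_cast hp40) (by norm_num)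
      refine le_trans ?_ h5
      rw [← Real.rpow_natCast, ← Real.rpow_mul (by norm_num)]
      norm_num
    have hcirc : (x.s.M : ℝ) * (((d.u.B * d.p : ℕ) : ℝ) / d.p) * d.u.A =
        x.s.M' * (((d.u'.B * d.p : ℕ) : ℝ) / d.p) * d.u'.A := by
      rw [e1, e2]
      have : ((d.u.A * d.u.B * x.s.M : ℕ) : ℝ) = ((d.u'.A * d.u'.B * x.s.M' : ℕ) : ℝ) := by
        exact_mod_cast h.2.1.circ
      push_cast at this
      linarith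
    have key := iF_bad (A := x.s.A) (A' := x.s.A') hni.rad h.1.st.M0 h.1.st.M0' hL0.hb hR0.hb
      hL0.hF hR0.hF hL0.hW hR0.hW
      (Dvd.intro_left d.u.B rfl) (Dvd.intro_left d.u'.B rfl) (Ro (D.rho d.p)) hj1 hj2
      (ρ₀ := ρ₀) (ε := ε d.p) (Z := c.Z d.p) (η := c.η d.p) (n₀ := n₀) (d := dd d.p) h0 (H.ε0 _ hpb)
      (H.ε1 _ hpb) (H.good.η0 _).le (H.η _ hpb) (by exact_mod_cast H.good.Z1 d.p) hcirc hδ hδ1
      hr.1 hr.2 hWH hcr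
    rw [e1, e2] at key
    have m1 := rad_mass H nbL h.1.L h.1.ilL hi1
    have m2 := rad_mass H nbR h.1.R h.1.ilR hi2
    have hZs : 0 < Real.sqrt (c.Z d.p) :=
      Real.sqrt_pos.2 (by exact_mod_cast lt_of_lt_of_le one_pos (H.good.Z1 d.p))
    have hε := H.ε0 _ hpb
    have hlog : 0 ≤ Real.log (1 / ε d.p) :=
      Real.log_nonneg (by rw [le_div_iff₀ hε]; linarith [H.ε1 _ hpb])
    have hg0 : 0 ≤ 2 / Real.sqrt (c.Z d.p) + 28 * (ε d.p * (1 + Real.log (1 / ε d.p))) := by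
      positivity
    refine key.trans ((mul_le_mul_of_nonneg_left (add_le_add m1 m2) hg0).trans (le_of_eq ?_))
    unfold gsC
    ring

/-- **critical again is an event** -/
theorem again_NM (H : GNM D sp ρ Al P W U CL C1 c₀ p₁ c ε dd stp Ix)
    (hQ : ∀ u τ, Qp u τ → NB D Al P W U CL c₀ p₁ u τ) {B₀ : ℕ} {x : XSt Λ κ} (hx : XI x.n x)
    {d : Dt} (h : HD D sp Qp (JJ D U Ix) B₀ B₀ x d) {e : ℕ × ℕ} (P₁ r₁ : ℕ) (h1 : d.p < P₁)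
    (h2 : P₁ ∈ x.u) (h3 : CrR c D ρ B₀ P₁ e.1 r₁ (x.u.filter (P₁ < ·)) (x.u'.filter (P₁ < ·)))
    (h4 : CrR c D ρ B₀ d.p e.1 e.2 x.u x.u') :
    Ev c D ρ B₀ e.2 d.p x.u x.u' ∨ Ev c D ρ B₀ e.1 d.p x.u' x.u := by
  have nbL := hQ _ _ h.1.qL.self
  have hpb : p₁ ≤ d.p := nbL.big _ _ _ rfl
  have hl : ¬ x.s.t.isLeaf := by rw [h.1.L.eq]; exact id
  have hl' : ¬ x.s.t'.isLeaf := by rw [h.1.R.eq]; exact id
  have hpn : x.p < x.n := (h.1.tops (fun u τ hq => (hQ u τ hq).nq.1) hl hl').2.2.2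
  have hp : x.p = d.p := h.p_eq
  rw [hp] at hpn
  exact H.again d.p P₁ (B₀ * D.γ) (B₀ * ρ e.1) (B₀ * ρ e.2) (B₀ * ρ r₁) x.u x.u' hpb h1
    (fun s hs => lt_of_lt_of_le hpn (hx.u s hs)) (fun s hs => lt_of_lt_of_le hpn (hx.u' s hs)) h2 h3 h4

lemma rpow_le_one {p : ℕ} {a : ℝ} (ha : 0 ≤ a) (hp : 1 ≤ p) : (p : ℝ) ^ (-a) ≤ 1 :=
  Real.rpow_le_one_of_one_le_of_nonpos (by exact_mod_cast hp) (by linarith)

/-- small part of the missing masses at a column -/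
noncomputable def εC (p : ℕ) : ℝ :=
  (p : ℝ) ^ (-(1 / 7000) : ℝ) + 2 * (p : ℝ) ^ (-(1 / 3) : ℝ)

/-- no literal `[F]` pairs at a column (758) -/
def FSx (D : Par Λ κ) (ρ : ℕ → ℝ) (x : XSt Λ κ) (d : Dt) : Prop :=
  FSOk D ρ (nn d.p) d.p x.s.M (d.u.B * d.p) d.u.A d.p d.t₀ x.s.A x.s.M' (d.u'.B * d.p) d.u'.A d.p
    d.t₀' x.s.A' fun _ => False

/-- **the hypotheses of `GFinN927`** for the near misses -/
theorem gn_NM (H : GNM D sp ρ Al P W U CL C1 c₀ p₁ c ε dd stp Ix)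
    (hQ : ∀ u τ, Qp u τ → NB D Al P W U CL c₀ p₁ u τ) {B₀ : ℕ} {s₀ : St Λ κ}
    (hFS : ∀ x, GI (dvI D) mI s₀ (HX D sp Qp (JJ D U Ix) B₀ B₀) x → ¬ stp x.s → ∀ d,
      HD D sp Qp (JJ D U Ix) B₀ B₀ x d → FSx D ρ x d)
    (hWH : ∀ x, GI (dvI D) mI s₀ (HX D sp Qp (JJ D U Ix) B₀ B₀) x → ¬ stp x.s → ∀ d,
      HD D sp Qp (JJ D U Ix) B₀ B₀ x d → ∀ e ∈ EB D ρ Al x d, R1 x d e → ∃ (ρ₀ : ℝ) (n₀ : ℕ), 0 < ρ₀ ∧
        WH D ρ (Ro (D.rho d.p)) x.s.M (d.u.B * d.p) d.u.A d.p x.s.M' (d.u'.B * d.p) d.u'.A d.p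
          ρ₀ n₀ (dd d.p) e (FN D x d e)) :
    GN D sp Qp (JJ D U Ix) B₀ B₀ stp s₀ (fun t => t ^ (1 / 20 : ℝ)) ρ (fun x => eNM stp x.s)
      (EB D ρ Al) (Ev c D ρ B₀) (Ev c D ρ B₀) (CrR c D ρ B₀) εC
      (fun p => |gsC c ε CL c₀ p|) where
  εx0 := fun p => by
    unfold εC
    positivity
  gs0 := fun p => abs_nonneg _
  l0 := by
    intro x hx h
    rcases h with h | h
    · exact (eNM_zero h).le
    · by_contra hc
      push Not at hc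
      exact h (eNM_br hx.i hc.ne')
  sub := fun x hx hs d hd => EB_sub hd
  l1 := by
    classical
    intro x hx hs d hd
    have nbL := hQ _ _ hd.1.qL.self
    have nbR := hQ _ _ hd.1.qR.self
    have hpb : p₁ ≤ d.p := nbL.big _ _ _ rfl
    have hp1 : 1 ≤ d.p := le_trans (by norm_num) (H.p2.trans hpb)
    have hp2 : (2 : ℝ) ^ 40 ≤ d.p := by exact_mod_cast H.p2.trans hpb
    have e1 : x.s.p = d.p := hd.p_eq
    have hO := (H.st x.s hs).1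
    have hO' := (H.st x.s hs).2
    rw [e1] at hO hO'
    have hle : (d.p : ℝ) ^ (-(1 / 3) : ℝ) ≤ 1 := rpow_le_one (by norm_num) hp1
    have hl : ¬ x.s.t.isLeaf := by rw [hd.1.L.eq]; exact id
    have hl' : ¬ x.s.t'.isLeaf := by rw [hd.1.R.eq]; exact id
    have hpn : x.p < x.n := (hd.1.tops (fun u τ hq => (hQ u τ hq).nq.1) hl hl').2.2.2
    have hof := H.of x hd.2.2 hs (lt_of_le_of_lt (hpb.trans hd.p_eq.symm.le) hpn)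
    have key := nm_state3 (stp := stp) H.cc (H.ni d.p hpb) hd.1.st
      (HJ.is (fun u τ hq => (hQ u τ hq).nq) hd.1 hd.2.1)
      ⟨hd.1.ilL, fun q h1 h2 => nbL.lg _ _ _ rfl q h1 h2, nbL.mean⟩
      ⟨hd.1.ilR, fun q h1 h2 => nbR.lg _ _ _ rfl q h1 h2, nbR.mean⟩ H.CL0 hpb
      (n := nn d.p) rfl hd.2.1.sq hd.2.1.sq' hd.1.mL hd.1.mR (fun _ => hof)
      (hFS x hx hs d hd)
    have pO : ∀ l ∈ x.s.O, l.Prime := by
      obtain ⟨G, -, -, -, -, h5⟩ := hd.1.mR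
      exact fun l hl => (h5 l hl).1
    have pO' : ∀ l ∈ x.s.O', l.Prime := by
      obtain ⟨G, -, -, -, -, h5⟩ := hd.1.mL
      exact fun l hl => (h5 l hl).1
    have x1 := xs_prod_le x.s.O pO (hO.trans hle)
    have x2 := xs_prod_le x.s.O' pO' (hO'.trans hle)
    refine ⟨(d.p : ℝ) ^ (-(1 / 7000) : ℝ), (d.p : ℝ) ^ (-(1 / 7000) : ℝ), ?_,
      by unfold εC; linarith, by unfold εC; linarith⟩
    have hsum : ∑ e ∈ KR D ρ Al (nn d.p) d.p x.s.M (d.u.B * d.p) d.u.A d.p d.t₀ x.s.A x.s.M'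
        (d.u'.B * d.p) d.u'.A d.p d.t₀' x.s.A' (fun _ => False),
        D.iF (Ro (D.rho d.p)) (D.uA x.s.M (d.u.B * d.p) d.u.A d.t₀ x.s.A d.p)
          (D.uA x.s.M' (d.u'.B * d.p) d.u'.A d.t₀' x.s.A' d.p) e ≤
        ∑ e ∈ EB D ρ Al x d, FN D x d e := by
      exact Finset.sum_le_sum_of_subset_of_nonneg (KR_EB fun _ => id)
        fun e he _ => (Finset.mem_filter.1 (Finset.mem_filter.1 he).1).2.1.le
    have key' := key.trans (add_le_add le_rfl hsum)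
    show eNM stp x.s ≤ _
    linarith
  cls := by
    intro x hx hs d hd e he hr
    obtain ⟨ρ₀, n₀, h0, hw⟩ := hWH x hx hs d hd e he hr
    rcases cls_NM H hQ hd he hr h0 hw with h | h
    · exact Or.inl h
    · refine Or.inr (h.trans ?_)
      have nnL : 0 ≤ mq D x.s.t x.s.A e.1 := Finset.sum_nonneg fun j _ => hx.tc.L.self.nn j
      have nnR : 0 ≤ mq D x.s.t' x.s.A' e.2 := Finset.sum_nonneg fun j _ => hx.tc.R.self.nn j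
      exact add_le_add (mul_le_mul_of_nonneg_right (le_abs_self _) nnL)
        (mul_le_mul_of_nonneg_right (le_abs_self _) nnR)
  again := by
    intro x hx hs d hd e he hr P₁ r₁ h1 h2 h3 h4
    exact again_NM H hQ hx.xi hd P₁ r₁ h1 h2 h3 h4

/-- missing ties are large -/
lemma mtD_big (hQ : ∀ u τ, Qp u τ → NB D Al P W U CL c₀ p₁ u τ) (j : Λ) (τ : IT) :
    ∀ {u : NS} {b pr : ℕ}, All Qp u τ → ∀ p ∈ mtD (dvI D) j (D.toDT sp b pr τ), p₁ ≤ p := by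
  classical
  induction τ with
  | leaf S => intro u b pr _ p hp; simp [Par.toDT, mtD] at hp
  | br p t₁ t₀ ih₁ ih₀ =>
    intro u b pr h q hq
    have hb := (hQ _ _ h.self).big p t₁ t₀ rfl
    unfold Par.toDT mtD at hq
    split_ifs at hq
    · exact ih₁ h.2.1 q hq
    · rcases Finset.mem_insert.1 hq with rfl | hq
      · exact hb
      · exact ih₀ h.2.2 q hq
  | add p t₁ t₀ ih₁ ih₀ =>
    intro u b pr h q hq
    unfold Par.toDT mtD at hq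
    split_ifs at hq
    · exact ih₁ h.2.1 q hq
    · exact ih₀ h.2.2 q hq
  | up p S t ih =>
    intro u b pr h q hq
    unfold Par.toDT mtD at hq
    exact ih h.2 q hq

/-- **NEAR MISSES OF A SELF STATE** -/
theorem eNM_self (H : GNM D sp ρ Al P W U CL C1 c₀ p₁ c ε dd stp Ix)
    (hQ : ∀ u τ, Qp u τ → NB D Al P W U CL c₀ p₁ u τ) {u : NS} {τ : IT} {A : Finset Λ}
    (hs : SideI D sp u.B u.A τ A (D.toDT sp u.B u.A τ)) (hq : All Qp u τ)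
    (hilA : IL D.it A) (hO : τ.Ok u.n) (hG : NG U u τ)
    (hix : Ix (XSt.st u.n (selfSt (D.toDT sp u.B u.A τ) A)))
    (hFS : ∀ x, GI (dvI D) mI (selfSt (D.toDT sp u.B u.A τ) A) (HX D sp Qp (JJ D U Ix) u.B u.B) x →
      ¬ stp x.s → ∀ d, HD D sp Qp (JJ D U Ix) u.B u.B x d → FSx D ρ x d)
    (hWH : ∀ x, GI (dvI D) mI (selfSt (D.toDT sp u.B u.A τ) A) (HX D sp Qp (JJ D U Ix) u.B u.B) x →
      ¬ stp x.s → ∀ d, HD D sp Qp (JJ D U Ix) u.B u.B x d → ∀ e ∈ EB D ρ Al x d, R1 x d e →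
        ∃ (ρ₀ : ℝ) (n₀ : ℕ), 0 < ρ₀ ∧
        WH D ρ (Ro (D.rho d.p)) x.s.M (d.u.B * d.p) d.u.A d.p x.s.M' (d.u'.B * d.p) d.u'.A d.p
          ρ₀ n₀ (dd d.p) e (FN D x d e))
    (hev : ∀ P : ℕ, p₁ ≤ P → ∀ (θ₀ ρ : ℝ) (F : Finset ℕ) (t : WT) (n : ℕ), t.Ok n →
      E (fun v => ind (EvN c θ₀ ρ P (v.filter (P < ·)) (F.filter (P < ·)))) t ∅ ≤
        ∑ x ∈ F.filter (P < ·), 1 / (x:ℝ) + 4 * (P:ℝ)^(-(c.c'/20000)))
    {κ' : ℝ} (hK : ∀ j ∈ A, mI (D.toDT sp u.B u.A τ) j ≠ 0 →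
      ∑ P ∈ mtD (dvI D) j (D.toDT sp u.B u.A τ),
        (2 * (∑ x ∈ (mtD (dvI D) j (D.toDT sp u.B u.A τ)).filter (P < ·), 1 / (x:ℝ) +
          4 * (P:ℝ)^(-(c.c'/20000))) + 2 * (εC P + |gsC c ε CL c₀ P|)) ≤ κ') :
    Crest.Agent.R4.Walk560.W (nxH stp (dvI D)) XSt.rank (fun x => eNM stp x.s)
      (XSt.st u.n (selfSt (D.toDT sp u.B u.A τ) A)) ≤
      (1 + κ') * ∑ j ∈ A, mI (D.toDT sp u.B u.A τ) j := by
  have hni := H.ni p₁ le_rfl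
  have hN : ∀ u τ, Qp u τ → NodeOk P W u τ := fun u τ h => (hQ u τ h).nq.1
  have hJ : JNext D sp Qp (JJ D U Ix) stp u.B u.B := fun x hx u₁ u₁' τ₁ τ₁' h hj e he => by
    obtain ⟨v, v', σ, σ', h1, h2⟩ :=
      HJ.next H.spo H.il H.spd (fun u τ h => (hQ u τ h).nq) hx h hj.1 e he
    exact ⟨v, v', σ, σ', h1, h2, H.ix x hx hj.2 e he⟩
  have hj : JJ D U Ix (XSt.st u.n (selfSt (D.toDT sp u.B u.A τ) A)) u u τ τ :=
    ⟨HJ.self (hq.mono fun u τ h => (hQ u τ h).nq) hG, hix⟩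
  refine gfin_NM_self hni.rad hni.ab H.spo H.il hN hs hq hilA hO
    (IMI194.Dv_of_All (hq.mono hN)) hj hJ (gn_NM H hQ hFS hWH)
    (eL := fun P j => ∑ x ∈ (mtD (dvI D) j (D.toDT sp u.B u.A τ)).filter (P < ·), 1 / (x:ℝ) +
      4 * (P:ℝ)^(-(c.c'/20000)))
    (eR := fun P j => ∑ x ∈ (mtD (dvI D) j (D.toDT sp u.B u.A τ)).filter (P < ·), 1 / (x:ℝ) +
      4 * (P:ℝ)^(-(c.c'/20000)))
    (fun j _ P _ => by positivity) (fun j _ P _ => by positivity)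
    (fun j _ P hP _ w hw => hev P (mtD_big hQ j τ hq P hP) _ _ _ w _ hw)
    (fun j _ P hP _ w hw => hev P (mtD_big hQ j τ hq P hP) _ _ _ w _ hw)
    (fun j hj hm => le_trans (le_of_eq ?_) (hK j hj hm))
  refine Finset.sum_congr rfl fun P _ => ?_
  ring

end

end Crest.Agent.R4.GFinC927
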