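import Crest.Agent.R4.GAsm2_927
import Crest.Agent.R4.GInst194
import Crest.Agent.R4.WalkIT579

/-!
# R4 (S0004), module G, helper927: states of the walk with history on item trees

`HI` : item form of a state with history: both sides are decorated item trees (`SideI`), node facts
`Qp` at all subnodes, missing products `B = B₀ ∏ u`, structure of the averaging moduli
(`M = G ∏ O'`, `G` = retained in every item: the raising factors divide `∏ O'`), item-level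
populations. Preserved by all the steps (`HI.next`).
-/

set_option autoImplicit false
set_option linter.unusedSectionVars false
set_option linter.unusedVariables false
set_option linter.unusedSimpArgs false

namespace Crest.Agent.R4.GSt927

open Crest.Agent.R4.Tour104 Crest.Agent.R4.Tour758 Crest.Agent.R4.Avg758 Crest.Agent.R4.Clos758
open Crest.Agent.R4.ClosL758 Crest.Agent.R4.ClosG758 Crest.Agent.R4.ClosR758
open Crest.Agent.R4.Cnt588 Crest.Agent.R4.Walk560 Crest.Agent.R4.Item758 Crest.Agent.R4.AvgItem710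
open Crest.Agent.R4.Bld532 (NS All NodeOk Bk)
open Crest.Agent.R4.Res927 Crest.Agent.R4.GInst194 Crest.Agent.R4.WalkIT579
open Crest.Agent.R4

/-! ### structure of the averaging moduli -/

/-- `M = G ∏ O`, `G` divides `q / pr` for every item, all primes are at least the level -/
def MS (n pr : ℕ) (S : Finset ℕ) (M : ℕ) (O : Finset ℕ) : Prop :=
  ∃ G : ℕ, M = G * ∏ l ∈ O, l ∧ 0 < G ∧ (∀ q ∈ S, G ∣ q / pr) ∧
    (∀ l : ℕ, l.Prime → l ∣ G → n ≤ l) ∧ ∀ l ∈ O, l.Prime ∧ n ≤ l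

lemma MS.pos {n pr : ℕ} {S : Finset ℕ} {M : ℕ} {O : Finset ℕ} (h : MS n pr S M O) : 0 < M := by
  obtain ⟨G, rfl, hG, -, -, hO⟩ := h
  exact Nat.mul_pos hG (Finset.prod_pos fun l hl => (hO l hl).1.pos)

/-- the raising factor divides the product of the one-sided columns -/
lemma rf_dvd {n pr : ℕ} {S : Finset ℕ} {M : ℕ} {O : Finset ℕ} (h : MS n pr S M O) {q : ℕ}
    (hq : q ∈ S) : rf (q / pr) M ∣ ∏ l ∈ O, l := by
  have hM0 : 0 < M := h.pos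
  obtain ⟨G, hM, hG, hd, -, hO⟩ := h
  have h1 : G ∣ M.gcd (q / pr) := Nat.dvd_gcd (hM ▸ Dvd.intro _ rfl) (hd q hq)
  obtain ⟨k, hk⟩ := h1
  have h2 : M.gcd (q / pr) * rf (q / pr) M = M := Nat.mul_div_cancel' (Nat.gcd_dvd_left _ _)
  refine ⟨k, ?_⟩
  have h3 : G * ((∏ l ∈ O, l)) = G * (rf (q / pr) M * k) := by
    rw [← hM]
    calc M = M.gcd (q / pr) * rf (q / pr) M := h2.symm
      _ = (G * k) * rf (q / pr) M := by rw [hk]
      _ = _ := by ring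
  exact Nat.eq_of_mul_eq_mul_left hG h3

lemma MS.sub {n pr : ℕ} {S S' : Finset ℕ} {M : ℕ} {O : Finset ℕ} (h : MS n pr S M O) (hS : S' ⊆ S)
    {p : ℕ} (hp : p < n) : MS p pr S' M O := by
  obtain ⟨G, h1, h2, h3, h4, h5⟩ := h
  exact ⟨G, h1, h2, fun q hq => h3 q (hS hq), fun l hl hd => hp.le.trans (h4 l hl hd),
    fun l hl => ⟨(h5 l hl).1, hp.le.trans (h5 l hl).2⟩⟩

lemma MS.up {n pr : ℕ} {S S' : Finset ℕ} {M : ℕ} {O : Finset ℕ} (h : MS n pr S M O) (hS : S' ⊆ S)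
    {p : ℕ} (hp : p < n) (hpp : p.Prime) : MS p pr S' (p * M) (insert p O) := by
  obtain ⟨G, h1, h2, h3, h4, h5⟩ := h
  refine ⟨G, ?_, h2, fun q hq => h3 q (hS hq), fun l hl hd => hp.le.trans (h4 l hl hd), ?_⟩
  · rw [Finset.prod_insert fun h => absurd (h5 p h).2 (not_le.2 hp), h1]
    ring
  · intro l hl
    rcases Finset.mem_insert.1 hl with rfl | hl
    · exact ⟨hpp, le_rfl⟩
    · exact ⟨(h5 l hl).1, hp.le.trans (h5 l hl).2⟩

lemma G_cop {n G p : ℕ} (hp : p < n) (hpp : p.Prime) (h : ∀ l : ℕ, l.Prime → l ∣ G → n ≤ l) :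
    Nat.Coprime G p := by
  rw [Nat.coprime_comm, hpp.coprime_iff_not_dvd]
  intro hd
  exact absurd (h p hpp hd) (not_le.2 hp)

/-- present child of a tie -/
lemma MS.pres {n pr : ℕ} {S S' : Finset ℕ} {M : ℕ} {O : Finset ℕ} (h : MS n pr S M O) (hS : S' ⊆ S)
    {p : ℕ} (hp : p < n) (hpp : p.Prime) (hd : ∀ q ∈ S', pr * p ∣ q ∧ 0 < q) :
    MS p (pr * p) S' M O := by
  obtain ⟨G, h1, h2, h3, h4, h5⟩ := h
  refine ⟨G, h1, h2, fun q hq => ?_, fun l hl hd => hp.le.trans (h4 l hl hd),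
    fun l hl => ⟨(h5 l hl).1, hp.le.trans (h5 l hl).2⟩⟩
  have k1 := h3 q (hS hq)
  rw [div_mul_p (hd q hq).1 (hd q hq).2] at k1
  exact (G_cop hp hpp h4).dvd_of_dvd_mul_left k1

/-- present child of a SEP column against a tie of the other side -/
lemma MS.sep {n pr : ℕ} {S S' : Finset ℕ} {M : ℕ} {O : Finset ℕ} (h : MS n pr S M O) (hS : S' ⊆ S)
    {p : ℕ} (hp : p < n) (hpp : p.Prime) (hd : ∀ q ∈ S', p ∣ q / pr) :
    MS p pr S' (p * M) O := by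
  obtain ⟨G, h1, h2, h3, h4, h5⟩ := h
  refine ⟨p * G, by rw [h1]; ring, Nat.mul_pos hpp.pos h2, fun q hq => ?_, fun l hl hd' => ?_,
    fun l hl => ⟨(h5 l hl).1, hp.le.trans (h5 l hl).2⟩⟩
  · exact (G_cop hp hpp h4).symm.mul_dvd_of_dvd_of_dvd (hd q hq) (h3 q (hS hq))
  · rcases (Nat.Prime.dvd_mul hl).1 hd' with h6 | h6
    · exact ((Nat.prime_dvd_prime_iff_eq hl hpp).1 h6).ge
    · exact hp.le.trans (h4 l hl h6)

variable {Λ κ : Type*} [Fintype Λ] [DecidableEq Λ] [Fintype κ] [DecidableEq κ] [WRel κ]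
  {D : Par Λ κ} {sp : ℕ → Finset Λ} {P : Bld532.Par} {W : ℕ → ℝ} {Qp : NS → IT → Prop}

/-- divisibility of the pieces -/
def dvI (D : Par Λ κ) (p : ℕ) (j : Λ) : Prop := p ∣ D.it j

/-- **item form of a state with history** -/
structure HI (D : Par Λ κ) (sp : ℕ → Finset Λ) (Qp : NS → IT → Prop) (B₀ B₀' : ℕ) (x : XSt Λ κ)
    (u u' : NS) (τ τ' : IT) : Prop where
  L : SideI D sp u.B u.A τ x.s.A x.s.t
  R : SideI D sp u'.B u'.A τ' x.s.A' x.s.t'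
  nL : u.n = x.n
  nR : u'.n = x.n
  qL : All Qp u τ
  qR : All Qp u' τ'
  bL : u.B = B₀ * ∏ i ∈ x.u, i
  bR : u'.B = B₀' * ∏ i ∈ x.u', i
  ilL : IL D.it x.s.A
  ilR : IL D.it x.s.A'
  mL : MS x.n u.A τ.items x.s.M x.s.O'
  mR : MS x.n u'.A τ'.items x.s.M' x.s.O

/-- the state without history -/
lemma HI.st {B₀ B₀' : ℕ} {x : XSt Λ κ} {u u' : NS} {τ τ' : IT}
    (h : HI D sp Qp B₀ B₀' x u u' τ τ') : StI D sp x.s u.B u.A τ u'.B u'.A τ' :=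
  ⟨h.L, h.R, h.mL.pos, h.mR.pos⟩

lemma IL_inter {it : Λ → ℕ} {A B : Finset Λ} (hA : IL it A) (hB : IL it B) : IL it (A ∩ B) := by
  intro j j' h
  rw [Finset.mem_inter, Finset.mem_inter, hA j j' h, hB j j' h]

lemma IL_sdiff {it : Λ → ℕ} {A B : Finset Λ} (hA : IL it A) (hB : IL it B) : IL it (A \ B) := by
  intro j j' h
  rw [Finset.mem_sdiff, Finset.mem_sdiff, hA j j' h, hB j j' h]

/-- both top columns of a state are the level of the state -/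
lemma HI.tops {B₀ B₀' : ℕ} {x : XSt Λ κ} {u u' : NS} {τ τ' : IT}
    (h : HI D sp Qp B₀ B₀' x u u' τ τ') (hQ : ∀ u τ, Qp u τ → NodeOk P W u τ)
    (hl : ¬ x.s.t.isLeaf) (hl' : ¬ x.s.t'.isLeaf) :
    x.s.t.top = x.s.p ∧ x.s.t'.top = x.s.p ∧ x.s.p.Prime ∧ x.s.p < x.n := by
  have n1 := hQ _ _ h.qL.self
  have n2 := hQ _ _ h.qR.self
  rw [h.L.eq, toDT_leaf] at hl
  rw [h.R.eq, toDT_leaf] at hl'
  have e := tp_eq n1 n2 hl hl' (h.nL.trans h.nR.symm)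
  have e1 : x.s.t.top = tp τ := by rw [h.L.eq]; exact WalkIT579.toDT_top D sp _ _ τ
  have e2 : x.s.t'.top = tp τ := by rw [h.R.eq, e]; exact WalkIT579.toDT_top D sp _ _ τ'
  have ep : x.s.p = tp τ := by unfold St.p; rw [e1, e2, max_self]
  obtain ⟨a1, a2, -⟩ := top_of_nodeOk n1 hl
  exact ⟨e1.trans ep.symm, e2.trans ep.symm, ep ▸ a1, by rw [ep, ← h.nL]; exact a2⟩

/-- the `up` view -/
lemma side_up {b pr p : ℕ} {A : Finset Λ} {d : DT Λ κ} {τ : IT}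
    (h : SideI D sp b pr τ A d) (hl : ¬ d.isLeaf) (hp : d.top = p)
    {Sp : Finset Λ} {e : DT Λ κ} (hv : vw p d = .up Sp e) :
    ∃ S σ, τ = .up p S σ ∧ Sp = sp p ∧ e = D.toDT sp b pr σ := by
  rcases vw_up hv with h1 | ⟨-, -, h2 | h2⟩
  · obtain ⟨S, t₁, rfl, rfl, rfl⟩ := AvgItem710.toDT_up (h.eq.symm.trans h1)
    exact ⟨S, t₁, rfl, rfl, rfl⟩
  · exact absurd h2 hl
  · exact absurd hp h2

/-- facts of a tie column -/
lemma NodeOk.br_dvd {u : NS} {p : ℕ} {t₁ t₀ : IT} (h : NodeOk P W u (.br p t₁ t₀))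
    (hF : Item758.Fit u.B u.A (.br p t₁ t₀)) :
    ∀ q ∈ t₁.items, u.A * p ∣ q ∧ 0 < q := by
  intro q hq
  exact ⟨(hF.2.2.2.1.item q hq).2.1, (hF.2.2.2.1.item q hq).1⟩

/-- facts of a SEP column -/
lemma NodeOk.add_dvd {u : NS} {p : ℕ} {t₁ t₀ : IT} (h : NodeOk P W u (.add p t₁ t₀)) :
    ∀ q ∈ t₁.items, p ∣ q / u.A := by
  intro q hq
  have hk := bk_of_nodeOk h
  obtain ⟨hp, hn, -, hmax, -, hi1, hi0, -⟩ := h
  have hm : q ∈ (IT.add p t₁ t₀).items := Finset.mem_union_left _ hq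
  have h4 : q ∈ Bld532.pr p (t₁.items ∪ t₀.items) := hi1 ▸ hq
  exact dvd_div_of (hk.dvd q hm) (hk.copA hp hn) (Bld532.mem_pr.1 h4).2

lemma prod_ins {B₀ b p : ℕ} {v : Finset ℕ} (h : b = B₀ * ∏ i ∈ v, i) (hp : p ∉ v) :
    b * p = B₀ * ∏ i ∈ insert p v, i := by
  rw [Finset.prod_insert hp, h]; ring

set_option maxHeartbeats 2000000 in
/-- **item form with history is preserved by the steps** -/
theorem HI.next (hsp : D.SpOk sp) (hil : ∀ b, IL D.it (sp b))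
    (hQ : ∀ u τ, Qp u τ → NodeOk P W u τ) {stp : St Λ κ → Prop} {dv : ℕ → Λ → Prop}
    {B₀ B₀' : ℕ} {x : XSt Λ κ} (hx : XI x.n x) {u u' : NS} {τ τ' : IT}
    (h : HI D sp Qp B₀ B₀' x u u' τ τ') :
    ∀ e ∈ steps stp dv x, ∃ v v' σ σ', HI D sp Qp B₀ B₀' e.y v v' σ σ' := by
  intro e he
  by_cases h1 : x.s.t.isLeaf ∨ x.s.t'.isLeaf
  · simp [steps, h1] at he
  by_cases h2 : stp x.s
  · simp [steps, h1, h2] at he
  have hl : ¬ x.s.t.isLeaf := fun h => h1 (Or.inl h)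
  have hl' : ¬ x.s.t'.isLeaf := fun h => h1 (Or.inr h)
  obtain ⟨e1, e2, hpp, hpn⟩ := h.tops hQ hl hl'
  have hxp : x.p = x.s.p := rfl
  have hu : x.s.p ∉ x.u := fun hm => absurd (hx.u _ hm) (not_le.2 hpn)
  have hu' : x.s.p ∉ x.u' := fun hm => absurd (hx.u' _ hm) (not_le.2 hpn)
  rcases hv : vw x.s.p x.s.t with ⟨w, r, t₁, t₀, v, B₁, G⟩ | ⟨r, t₁, t₀⟩ | ⟨Sp, d⟩ <;>
  rcases hv' : vw x.s.p x.s.t' with ⟨w', r', t₁', t₀', v', B', G'⟩ | ⟨r', t₁', t₀'⟩ | ⟨Sp', d'⟩ <;>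
  simp only [steps, h1, h2, hv, hv', if_false, List.mem_cons, List.not_mem_nil, or_false] at he
  · -- br, br
    obtain ⟨τ₁, τ₀, rfl, rfl, rfl, rfl, -, -⟩ := AvgItem710.toDT_br (h.L.eq.symm.trans (vw_br hv))
    obtain ⟨τ₁', τ₀', rfl, -, rfl, rfl, -, -⟩ := AvgItem710.toDT_br (h.R.eq.symm.trans (vw_br hv'))
    have d1 := NodeOk.br_dvd (hQ _ _ h.qL.self) h.L.hF
    have d1' := NodeOk.br_dvd (hQ _ _ h.qR.self) h.R.hF
    have mL1 := h.mL.pres Finset.subset_union_left hpn hpp d1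
    have mL0 := h.mL.sub (Finset.subset_union_right : τ₀.items ⊆ _) hpn
    have mR1 := h.mR.pres Finset.subset_union_left hpn hpp d1'
    have mR0 := h.mR.sub (Finset.subset_union_right : τ₀'.items ⊆ _) hpn
    rcases he with rfl | rfl | rfl | rfl
    · exact ⟨nP u x.s.p, nP u' x.s.p, τ₁, τ₁', h.L.br₁, h.R.br₁, rfl, rfl, h.qL.2.1, h.qR.2.1,
        h.bL, h.bR, h.ilL, h.ilR, mL1, mR1⟩
    · exact ⟨nP u x.s.p, nM u' x.s.p, τ₁, τ₀', h.L.br₁, h.R.br₀, rfl, rfl, h.qL.2.1, h.qR.2.2,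
        h.bL, prod_ins h.bR hu', h.ilL, h.ilR, mL1, mR0⟩
    · exact ⟨nM u x.s.p, nP u' x.s.p, τ₀, τ₁', h.L.br₀, h.R.br₁, rfl, rfl, h.qL.2.2, h.qR.2.1,
        prod_ins h.bL hu, h.bR, h.ilL, h.ilR, mL0, mR1⟩
    · exact ⟨nM u x.s.p, nM u' x.s.p, τ₀, τ₀', h.L.br₀, h.R.br₀, rfl, rfl, h.qL.2.2, h.qR.2.2,
        prod_ins h.bL hu, prod_ins h.bR hu', h.ilL, h.ilR, mL0, mR0⟩
  · -- br, add
    obtain ⟨τ₁, τ₀, rfl, rfl, rfl, rfl, -, -⟩ := AvgItem710.toDT_br (h.L.eq.symm.trans (vw_br hv))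
    obtain ⟨τ₁', τ₀', rfl, -, rfl, rfl⟩ := AvgItem710.toDT_add (h.R.eq.symm.trans (vw_add hv'))
    have d1 := NodeOk.br_dvd (hQ _ _ h.qL.self) h.L.hF
    have mL1 := h.mL.pres Finset.subset_union_left hpn hpp d1
    have mL0 := h.mL.sub (Finset.subset_union_right : τ₀.items ⊆ _) hpn
    have mR1 := h.mR.sep Finset.subset_union_left hpn hpp (NodeOk.add_dvd (hQ _ _ h.qR.self))
    rcases he with rfl | rfl
    · exact ⟨nP u x.s.p, nS u' x.s.p, τ₁, τ₁', h.L.br₁, h.R.add₁, rfl, rfl, h.qL.2.1, h.qR.2.1,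
        h.bL, h.bR, h.ilL, h.ilR, mL1, mR1⟩
    · exact ⟨nM u x.s.p, nS u' x.s.p, τ₀, τ₁', h.L.br₀, h.R.add₁, rfl, rfl, h.qL.2.2, h.qR.2.1,
        prod_ins h.bL hu, h.bR, h.ilL, h.ilR, mL0, mR1⟩
  · -- br, up
    obtain ⟨τ₁, τ₀, rfl, rfl, rfl, rfl, -, -⟩ := AvgItem710.toDT_br (h.L.eq.symm.trans (vw_br hv))
    obtain ⟨S', σ', rfl, rfl, rfl⟩ := side_up h.R hl' e2 hv'
    have d1 := NodeOk.br_dvd (hQ _ _ h.qL.self) h.L.hF
    have mL1 := h.mL.pres Finset.subset_union_left hpn hpp d1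
    have mL0 := h.mL.sub (Finset.subset_union_right : τ₀.items ⊆ _) hpn
    have mR1 := h.mR.up (Finset.Subset.refl _ : σ'.items ⊆ _) hpn hpp
    rcases he with rfl | rfl
    · exact ⟨nP u x.s.p, nS u' x.s.p, τ₁, σ', h.L.br₁, h.R.up, rfl, rfl, h.qL.2.1, h.qR.2,
        h.bL, h.bR, h.ilL, h.ilR, mL1, mR1⟩
    · exact ⟨nM u x.s.p, nS u' x.s.p, τ₀, σ', h.L.br₀, h.R.up, rfl, rfl, h.qL.2.2, h.qR.2,
        prod_ins h.bL hu, h.bR, h.ilL, h.ilR, mL0, mR1⟩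
  · -- add, br
    obtain ⟨τ₁, τ₀, rfl, -, rfl, rfl⟩ := AvgItem710.toDT_add (h.L.eq.symm.trans (vw_add hv))
    obtain ⟨τ₁', τ₀', rfl, -, rfl, rfl, -, -⟩ := AvgItem710.toDT_br (h.R.eq.symm.trans (vw_br hv'))
    have d1' := NodeOk.br_dvd (hQ _ _ h.qR.self) h.R.hF
    have mR1 := h.mR.pres Finset.subset_union_left hpn hpp d1'
    have mR0 := h.mR.sub (Finset.subset_union_right : τ₀'.items ⊆ _) hpn
    have mL1 := h.mL.sep Finset.subset_union_left hpn hpp (NodeOk.add_dvd (hQ _ _ h.qL.self))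
    rcases he with rfl | rfl
    · exact ⟨nS u x.s.p, nP u' x.s.p, τ₁, τ₁', h.L.add₁, h.R.br₁, rfl, rfl, h.qL.2.1, h.qR.2.1,
        h.bL, h.bR, h.ilL, h.ilR, mL1, mR1⟩
    · exact ⟨nS u x.s.p, nM u' x.s.p, τ₁, τ₀', h.L.add₁, h.R.br₀, rfl, rfl, h.qL.2.1, h.qR.2.2,
        h.bL, prod_ins h.bR hu', h.ilL, h.ilR, mL1, mR0⟩
  · -- add, add
    obtain ⟨τ₁, τ₀, rfl, -, rfl, rfl⟩ := AvgItem710.toDT_add (h.L.eq.symm.trans (vw_add hv))
    obtain ⟨τ₁', τ₀', rfl, -, rfl, rfl⟩ := AvgItem710.toDT_add (h.R.eq.symm.trans (vw_add hv'))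
    rcases he with rfl | rfl
    · exact ⟨nS u x.s.p, nS u' x.s.p, τ₁, τ₁', h.L.add₁, h.R.add₁, rfl, rfl, h.qL.2.1, h.qR.2.1,
        h.bL, h.bR, h.ilL, h.ilR, h.mL.sub Finset.subset_union_left hpn,
        h.mR.sub Finset.subset_union_left hpn⟩
    · exact ⟨nS u x.s.p, nS u' x.s.p, τ₀, τ₀', h.L.add₀, h.R.add₀, rfl, rfl, h.qL.2.2, h.qR.2.2,
        h.bL, h.bR, h.ilL, h.ilR, h.mL.sub Finset.subset_union_right hpn,
        h.mR.sub Finset.subset_union_right hpn⟩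
  · -- add, up
    obtain ⟨τ₁, τ₀, rfl, -, rfl, rfl⟩ := AvgItem710.toDT_add (h.L.eq.symm.trans (vw_add hv))
    obtain ⟨S', σ', rfl, rfl, rfl⟩ := side_up h.R hl' e2 hv'
    rcases he with rfl | rfl
    · exact ⟨nS u x.s.p, nS u' x.s.p, τ₁, σ', h.L.add₁, (h.R.spl hsp).1, rfl, rfl, h.qL.2.1,
        h.qR.2, h.bL, h.bR, h.ilL, IL_inter h.ilR (hil _), h.mL.sub Finset.subset_union_left hpn,
        h.mR.sub (Finset.Subset.refl _) hpn⟩
    · exact ⟨nS u x.s.p, nS u' x.s.p, τ₀, σ', h.L.add₀, (h.R.spl hsp).2, rfl, rfl, h.qL.2.2,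
        h.qR.2, h.bL, h.bR, h.ilL, IL_sdiff h.ilR (hil _), h.mL.sub Finset.subset_union_right hpn,
        h.mR.sub (Finset.Subset.refl _) hpn⟩
  · -- up, br
    obtain ⟨τ₁', τ₀', rfl, -, rfl, rfl, -, -⟩ := AvgItem710.toDT_br (h.R.eq.symm.trans (vw_br hv'))
    obtain ⟨S, σ, rfl, rfl, rfl⟩ := side_up h.L hl e1 hv
    have d1' := NodeOk.br_dvd (hQ _ _ h.qR.self) h.R.hF
    have mR1 := h.mR.pres Finset.subset_union_left hpn hpp d1'
    have mR0 := h.mR.sub (Finset.subset_union_right : τ₀'.items ⊆ _) hpn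
    have mL1 := h.mL.up (Finset.Subset.refl _ : σ.items ⊆ _) hpn hpp
    rcases he with rfl | rfl
    · exact ⟨nS u x.s.p, nP u' x.s.p, σ, τ₁', h.L.up, h.R.br₁, rfl, rfl, h.qL.2, h.qR.2.1,
        h.bL, h.bR, h.ilL, h.ilR, mL1, mR1⟩
    · exact ⟨nS u x.s.p, nM u' x.s.p, σ, τ₀', h.L.up, h.R.br₀, rfl, rfl, h.qL.2, h.qR.2.2,
        h.bL, prod_ins h.bR hu', h.ilL, h.ilR, mL1, mR0⟩
  · -- up, add
    obtain ⟨τ₁', τ₀', rfl, -, rfl, rfl⟩ := AvgItem710.toDT_add (h.R.eq.symm.trans (vw_add hv'))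
    obtain ⟨S, σ, rfl, rfl, rfl⟩ := side_up h.L hl e1 hv
    rcases he with rfl | rfl
    · exact ⟨nS u x.s.p, nS u' x.s.p, σ, τ₁', (h.L.spl hsp).1, h.R.add₁, rfl, rfl, h.qL.2,
        h.qR.2.1, h.bL, h.bR, IL_inter h.ilL (hil _), h.ilR, h.mL.sub (Finset.Subset.refl _) hpn,
        h.mR.sub Finset.subset_union_left hpn⟩
    · exact ⟨nS u x.s.p, nS u' x.s.p, σ, τ₀', (h.L.spl hsp).2, h.R.add₀, rfl, rfl, h.qL.2,
        h.qR.2.2, h.bL, h.bR, IL_sdiff h.ilL (hil _), h.ilR, h.mL.sub (Finset.Subset.refl _) hpn,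
        h.mR.sub Finset.subset_union_right hpn⟩
  · -- up, up
    obtain ⟨S, σ, rfl, rfl, rfl⟩ := side_up h.L hl e1 hv
    obtain ⟨S', σ', rfl, rfl, rfl⟩ := side_up h.R hl' e2 hv'
    subst he
    exact ⟨nS u x.s.p, nS u' x.s.p, σ, σ', h.L.up, h.R.up, rfl, rfl, h.qL.2,
      h.qR.2, h.bL, h.bR, h.ilL, h.ilR, h.mL.sub (Finset.Subset.refl _) hpn,
      h.mR.sub (Finset.Subset.refl _) hpn⟩

lemma MS.one {n pr : ℕ} {S : Finset ℕ} : MS n pr S 1 ∅ :=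
  ⟨1, by simp, one_pos, fun _ _ => one_dvd _,
    fun l hl h => absurd (Nat.dvd_one.1 h) hl.one_lt.ne', fun l hl => by simp at hl⟩

/-- the self states -/
lemma HI.self {u : NS} {τ : IT} {A : Finset Λ}
    (hs : SideI D sp u.B u.A τ A (D.toDT sp u.B u.A τ)) (hq : All Qp u τ) (hil : IL D.it A) :
    HI D sp Qp u.B u.B (XSt.st u.n (selfSt (D.toDT sp u.B u.A τ) A)) u u τ τ where
  L := hs
  R := hs
  nL := rfl
  nR := rfl
  qL := hq
  qR := hq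
  bL := by simp [XSt.st]
  bR := by simp [XSt.st]
  ilL := hil
  ilR := hil
  mL := MS.one
  mR := MS.one

/-! ### missing ties of the pieces -/

/-- the missing ties only depend on the divisibilities -/
lemma mtD_congr {dv : ℕ → Λ → Prop} {j j' : Λ} (h : ∀ p, dv p j ↔ dv p j') (t : DT Λ κ) :
    mtD dv j t = mtD dv j' t := by
  classical
  induction t with
  | leaf r f => rfl
  | br p w r t₁ t₀ v B G ih₁ ih₀ =>
    simp only [mtD, h p, ih₁, ih₀]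
  | add b r t₁ t₀ ih₁ ih₀ =>
    simp only [mtD, h b, ih₁, ih₀]
  | up b Sp t ih =>
    simp only [mtD, ih]

lemma mtD_it {D : Par Λ κ} {j j' : Λ} (h : D.it j = D.it j') (t : DT Λ κ) :
    mtD (dvI D) j t = mtD (dvI D) j' t :=
  mtD_congr (fun p => by unfold dvI; rw [h]) t

end Crest.Agent.R4.GSt927
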