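import Mathlib
import Crest.Agent.R4.ClsS_944
import Crest.Agent.R4.LF11_579

/-!
R4 (S0004), helper104: lemma **PIN** ((F3) of the frozen design, births with huge accuracy).

If the ratio of the two cofactors is pinned to relative width `1/A`, `A ≥ exp (L^{4/5})`, and the pair
is not the unique small type (`12 x y < A`), then the sum of `ew / DD` over all such pairs with
`DD ≥ exp (-K L)` and `exp (K L)`-smooth cofactors is at most `A^{-1/1000} (M M')^{1/2}`.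

The energy inequality is used with the variable exponent `ε = L^{-1/4}`; the sum over the pinned types
by Hoelder with exponents `101, 101/100` (Cauchy would cost `exp (κ^2 log log)`).
-/

set_option autoImplicit false
open Finset

namespace Crest.Agent.R4.PinE104

open Crest.Agent.R4.HVW560 Crest.Agent.R4.Smo944 Crest.Agent.R4.LF10 Crest.Agent.R016
open Crest.Agent.R4.ClsS Crest.Agent.R4.LF11

/-! ### sums over relations with few partners, linear in the weight -/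

theorem mul_wn_rpow {κ : ℝ} (hκ : 0 ≤ κ) {z : ℕ} {B : Finset ℕ} (hB : Smooth z B) {b : ℕ}
    (hb : b ∈ B) :
    (b:ℝ)^(1/100:ℝ) * (wn κ b)^(101/100:ℝ)
      ≤ ∏ p ∈ primesIoc 0 z, wt2 (κ^(101/100:ℝ)) 7 p (b.factorization p) := by
  have hb0 := (hB b hb).1
  have h1 : (b:ℝ) = ∏ p ∈ primesIoc 0 z, (p:ℝ)^(b.factorization p) := by
    conv_lhs => rw [← Nat.prod_factorization_pow_eq_self hb0.ne']
    rw [Finsupp.prod, Nat.support_factorization]
    push_cast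
    apply Finset.prod_subset (hB.pf hb)
    intro p _ hp
    rw [← Nat.support_factorization, Finsupp.notMem_support_iff] at hp
    rw [hp, pow_zero]
  have e1 : (b:ℝ)^(1/100:ℝ) = ∏ p ∈ primesIoc 0 z, ((p:ℝ)^(b.factorization p))^(1/100:ℝ) := by
    rw [Real.finsetProd_rpow _ _ (fun p _ => by positivity), ← h1]
  rw [e1, wn_eq hB hb, ← Real.finsetProd_rpow _ _ (fun p _ => wt2_nonneg hκ _ _ _),
    ← Finset.prod_mul_distrib]
  apply Finset.prod_le_prod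
  · intro p _
    exact mul_nonneg (by positivity) (Real.rpow_nonneg (wt2_nonneg hκ _ _ _) _)
  intro p hp
  have hp0 : (0:ℝ) < p := by exact_mod_cast (mem_primesIoc.1 hp).2.pos
  generalize b.factorization p = j
  unfold wt2
  split_ifs with h
  · rw [h]; simp
  · have hj : (1:ℝ) ≤ j := by exact_mod_cast Nat.one_le_iff_ne_zero.2 h
    have hj0 : (0:ℝ) < j := by linarith
    set X : ℝ := (p:ℝ)^j with hX
    have hX0 : 0 < X := by positivity
    have h2 : X^(101/100:ℝ) = X^(1/100:ℝ) * X := by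
      rw [show (101/100:ℝ) = 1/100 + 1 by norm_num, Real.rpow_add hX0, Real.rpow_one]
    have h3 : ((j:ℝ)^6)^(101/100:ℝ) ≤ (j:ℝ)^7 := by
      rw [← Real.rpow_natCast, ← Real.rpow_natCast, ← Real.rpow_mul hj0.le]
      apply Real.rpow_le_rpow_of_exponent_le hj
      norm_num
    have hXp : 0 < X^(1/100:ℝ) := Real.rpow_pos_of_pos hX0 _
    rw [Real.div_rpow (by positivity) hX0.le, Real.mul_rpow hκ (by positivity), h2]
    have hκp : 0 ≤ κ^(101/100:ℝ) := Real.rpow_nonneg hκ _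
    calc X^(1/100:ℝ) * (κ^(101/100:ℝ) * ((j:ℝ)^6)^(101/100:ℝ) / (X^(1/100:ℝ) * X))
        = κ^(101/100:ℝ) * ((j:ℝ)^6)^(101/100:ℝ) / X := by field_simp
      _ ≤ κ^(101/100:ℝ) * (j:ℝ)^7 / X := by
          apply div_le_div_of_nonneg_right _ hX0.le
          exact mul_le_mul_of_nonneg_left h3 hκp

theorem ell_nonneg {z : ℕ} (hz : 2 ≤ z) : 0 ≤ Real.log (Real.log z) + 6 := by
  have hz2 : (2:ℝ) ≤ z := by exact_mod_cast hz
  have h3 : -1 ≤ Real.log (Real.log z) := by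
    have h4 : Real.exp (-1) ≤ Real.log z := by
      have h1 := Real.exp_neg_one_lt_d9
      have h2 := Real.log_two_gt_d9
      have h3 : Real.log 2 ≤ Real.log z := Real.log_le_log (by norm_num) hz2
      linarith
    calc (-1 : ℝ) = Real.log (Real.exp (-1)) := (Real.log_exp _).symm
      _ ≤ _ := Real.log_le_log (Real.exp_pos _) h4
  linarith

/-- relations with few partners: Hoelder version of `ClsS.sum_R_le` -/
theorem sum_R_hol {κ : ℝ} (hκ : 0 ≤ κ) {z : ℕ} (hz : 2 ≤ z) {ρ : ℝ} (hρ : 0 ≤ ρ)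
    (R : Finset (ℕ × ℕ)) (hX : Smooth z (R.image Prod.fst)) (hY : Smooth z (R.image Prod.snd))
    (hinv : ∀ x, ∑ y ∈ (R.filter (fun e => e.1 = x)).image Prod.snd, 1/(y:ℝ) ≤ ρ) :
    ∑ e ∈ R, wn κ e.1 * wn κ e.2 ≤ ρ^(1/101:ℝ) *
      Real.exp ((κ * Sm 6 + κ^(101/100:ℝ) * Sm 7) * (Real.log (Real.log z) + 6)) := by
  classical
  set ℓ : ℝ := Real.log (Real.log z) + 6 with hℓ
  have hℓ0 : 0 ≤ ℓ := ell_nonneg hz
  set X := R.image Prod.fst with hXd
  set Yx : ℕ → Finset ℕ := fun x => (R.filter (fun e => e.1 = x)).image Prod.snd with hYx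
  have e1 : ∑ e ∈ R, wn κ e.1 * wn κ e.2 = ∑ x ∈ X, wn κ x * ∑ y ∈ Yx x, wn κ y := by
    rw [← Finset.sum_fiberwise_of_maps_to (s := R) (t := X) (g := Prod.fst)
      (fun e he => Finset.mem_image_of_mem _ he)]
    apply Finset.sum_congr rfl
    intro x _
    rw [hYx, Finset.sum_image, Finset.mul_sum]
    · apply Finset.sum_congr rfl
      intro e he
      rw [(Finset.mem_filter.1 he).2]
    · intro a ha b hb hab
      have ha' := (Finset.mem_filter.1 ha).2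
      have hb' := (Finset.mem_filter.1 hb).2
      exact Prod.ext (ha'.trans hb'.symm) hab
  have hYs : ∀ x, Smooth z (Yx x) := by
    intro x y hy
    obtain ⟨e, he, rfl⟩ := Finset.mem_image.1 hy
    exact hY _ (Finset.mem_image_of_mem _ (Finset.mem_filter.1 he).1)
  have hκp : 0 ≤ κ^(101/100:ℝ) := Real.rpow_nonneg hκ _
  have hinner : ∀ x, ∑ y ∈ Yx x, wn κ y ≤ ρ^(1/101:ℝ) * Real.exp (κ^(101/100:ℝ) * Sm 7 * ℓ) := by
    intro x
    have hpos : ∀ y ∈ Yx x, (0:ℝ) < y := fun y hy => by exact_mod_cast (hYs x y hy).1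
    have hconj : (101:ℝ).HolderConjugate (101/100) := by
      rw [Real.holderConjugate_iff]; norm_num
    have hol := Real.inner_le_Lp_mul_Lq_of_nonneg (Yx x) hconj
      (f := fun y => ((y:ℝ)^(1/101:ℝ))⁻¹) (g := fun y => (y:ℝ)^(1/101:ℝ) * wn κ y)
      (fun y _ => by positivity) (fun y _ => mul_nonneg (by positivity) (wn_nonneg hκ y))
    have e2 : ∑ y ∈ Yx x, ((y:ℝ)^(1/101:ℝ))⁻¹ * ((y:ℝ)^(1/101:ℝ) * wn κ y)
        = ∑ y ∈ Yx x, wn κ y := by
      apply Finset.sum_congr rfl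
      intro y hy
      have := Real.rpow_pos_of_pos (hpos y hy) (1/101)
      field_simp
    have e3 : ∑ y ∈ Yx x, (((y:ℝ)^(1/101:ℝ))⁻¹)^(101:ℝ) = ∑ y ∈ Yx x, 1/(y:ℝ) := by
      apply Finset.sum_congr rfl
      intro y hy
      rw [Real.inv_rpow (by positivity), ← Real.rpow_mul (hpos y hy).le, one_div]
      norm_num
    have e4 : ∑ y ∈ Yx x, ((y:ℝ)^(1/101:ℝ) * wn κ y)^(101/100:ℝ)
        ≤ ∑ y ∈ Yx x, ∏ p ∈ primesIoc 0 z, wt2 (κ^(101/100:ℝ)) 7 p (y.factorization p) := by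
      apply Finset.sum_le_sum
      intro y hy
      rw [Real.mul_rpow (by positivity) (wn_nonneg hκ y), ← Real.rpow_mul (hpos y hy).le]
      rw [show (1/101:ℝ) * (101/100) = 1/100 by norm_num]
      exact mul_wn_rpow hκ (hYs x) hy
    have h5 := sum_wt2_le hκp 7 hz (hYs x)
    rw [← hℓ] at h5
    have h6 := e4.trans h5
    rw [e2, e3] at hol
    refine hol.trans ?_
    have hSm := (Sm_pos 7).le
    have hT0 : 0 ≤ κ^(101/100:ℝ) * Sm 7 * ℓ := by positivity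
    apply mul_le_mul
    · apply Real.rpow_le_rpow _ (hinv x) (by norm_num)
      exact Finset.sum_nonneg fun y _ => by positivity
    · have h7 : (∑ y ∈ Yx x, ((y:ℝ)^(1/101:ℝ) * wn κ y)^(101/100:ℝ))^(1/(101/100):ℝ)
          ≤ (Real.exp (κ^(101/100:ℝ) * Sm 7 * ℓ))^(1/(101/100):ℝ) := by
        apply Real.rpow_le_rpow _ h6 (by norm_num)
        exact Finset.sum_nonneg fun y _ =>
          Real.rpow_nonneg (mul_nonneg (by positivity) (wn_nonneg hκ y)) _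
      refine h7.trans ?_
      rw [← Real.exp_mul]
      apply Real.exp_le_exp.2
      nlinarith
    · exact Real.rpow_nonneg (Finset.sum_nonneg fun y _ =>
          Real.rpow_nonneg (mul_nonneg (by positivity) (wn_nonneg hκ y)) _) _
    · exact Real.rpow_nonneg hρ _
  rw [e1]
  have h8 := sum_wn_le hκ hz hX
  rw [← hℓ] at h8
  calc ∑ x ∈ X, wn κ x * ∑ y ∈ Yx x, wn κ y
      ≤ ∑ x ∈ X, wn κ x * (ρ^(1/101:ℝ) * Real.exp (κ^(101/100:ℝ) * Sm 7 * ℓ)) :=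
        Finset.sum_le_sum fun x _ => mul_le_mul_of_nonneg_left (hinner x) (wn_nonneg hκ x)
    _ = (∑ x ∈ X, wn κ x) * (ρ^(1/101:ℝ) * Real.exp (κ^(101/100:ℝ) * Sm 7 * ℓ)) := by
        rw [Finset.sum_mul]
    _ ≤ Real.exp (κ * Sm 6 * ℓ) * (ρ^(1/101:ℝ) * Real.exp (κ^(101/100:ℝ) * Sm 7 * ℓ)) :=
        mul_le_mul_of_nonneg_right h8 (mul_nonneg (Real.rpow_nonneg hρ _) (Real.exp_pos _).le)
    _ = _ := by
        rw [add_mul, Real.exp_add]; ring

/-! ### pinned types -/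

/-- the ratio `y / x` is `e' / e` up to the relative error `1 / A` -/
structure Pin (A e e' : ℝ) (x y : ℕ) : Prop where
  hx : 0 < x
  hy : 0 < y
  pin : |(y:ℝ) * e - x * e'| ≤ (y * |e| + x * |e'|) / A

theorem pin_of_close {A e e' ψ ψ' : ℝ} {x y : ℕ} (hA : 0 < A) (hx : 0 < x) (hy : 0 < y)
    (h : A * ψ ≤ |e|) (h' : A * ψ' ≤ |e'|) (hc : |(y:ℝ) * e - x * e'| ≤ y * ψ + x * ψ') :
    Pin A e e' x y := by
  refine ⟨hx, hy, hc.trans ?_⟩
  rw [le_div_iff₀ hA]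
  have hx0 : (0:ℝ) ≤ x := by positivity
  have hy0 : (0:ℝ) ≤ y := by positivity
  nlinarith [mul_le_mul_of_nonneg_left h hy0, mul_le_mul_of_nonneg_left h' hx0]

theorem Pin.abs {A e e' : ℝ} {x y : ℕ} (h : Pin A e e' x y) : Pin A |e| |e'| x y := by
  refine ⟨h.hx, h.hy, ?_⟩
  rw [abs_abs, abs_abs]
  refine le_trans ?_ h.pin
  have e1 : (y:ℝ) * |e| = |(y:ℝ) * e| := by rw [abs_mul, abs_of_nonneg (by positivity : (0:ℝ) ≤ y)]
  have e2 : (x:ℝ) * |e'| = |(x:ℝ) * e'| := by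
    rw [abs_mul, abs_of_nonneg (by positivity : (0:ℝ) ≤ x)]
  rw [e1, e2]
  exact abs_abs_sub_abs_le _ _

theorem Pin.symm {A e e' : ℝ} {x y : ℕ} (h : Pin A e e' x y) : Pin A e' e y x := by
  refine ⟨h.hy, h.hx, ?_⟩
  have := h.pin
  rw [abs_sub_comm, add_comm]
  exact this

theorem Pin.le {A e e' : ℝ} {x y : ℕ} (hA : 4 ≤ A) (he : 0 < e) (he' : 0 < e')
    (h : Pin A e e' x y) : y * e ≤ 2 * (x * e') ∧ |(y:ℝ) * e - x * e'| ≤ 3 * (x * e') / A := by
  have hA0 : 0 < A := by linarith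
  have h1 := h.pin
  rw [abs_of_pos he, abs_of_pos he'] at h1
  have hx : (0:ℝ) < x := by exact_mod_cast h.hx
  have hy : (0:ℝ) < y := by exact_mod_cast h.hy
  have hye : 0 < (y:ℝ) * e := by positivity
  have hxe : 0 < (x:ℝ) * e' := by positivity
  have h2 : ((y:ℝ) * e + x * e') / A ≤ (y * e + x * e') / 4 :=
    div_le_div_of_nonneg_left (by positivity) (by norm_num) hA
  have h3 := (abs_le.1 (h1.trans h2)).2
  have h4 : (y:ℝ) * e ≤ 2 * (x * e') := by linarith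
  refine ⟨h4, h1.trans ?_⟩
  apply div_le_div_of_nonneg_right _ hA0.le
  linarith

/-- number of naturals in an interval -/
theorem card_le {a b : ℝ} (hab : a ≤ b) (ha : 0 ≤ a) (Y : Finset ℕ)
    (h : ∀ y ∈ Y, a ≤ (y:ℝ) ∧ (y:ℝ) ≤ b) : (Y.card : ℝ) ≤ b - a + 1 := by
  have hsub : Y ⊆ Finset.Icc ⌈a⌉₊ ⌊b⌋₊ := by
    intro y hy
    rw [Finset.mem_Icc]
    exact ⟨Nat.ceil_le.2 (h y hy).1, Nat.le_floor (h y hy).2⟩
  have h1 := Finset.card_le_card hsub
  rw [Nat.card_Icc] at h1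
  have h2 : (⌊b⌋₊ : ℝ) ≤ b := Nat.floor_le (ha.trans hab)
  have h3 : a ≤ ⌈a⌉₊ := Nat.le_ceil a
  rcases le_total ⌈a⌉₊ (⌊b⌋₊ + 1) with hc | hc
  · have h4 : (Y.card : ℝ) ≤ ((⌊b⌋₊ + 1 - ⌈a⌉₊ : ℕ) : ℝ) := by exact_mod_cast h1
    rw [Nat.cast_sub hc] at h4
    push_cast at h4
    linarith
  · have h4 : Y.card = 0 := by omega
    rw [h4, Nat.cast_zero]
    linarith

theorem inv_sum_le {A e e' : ℝ} (hA : 4 ≤ A) (he : 0 < e) (hee : e ≤ e') (x : ℕ) (Y : Finset ℕ)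
    (h : ∀ y ∈ Y, Pin A e e' x y ∧ A ≤ 12 * ((x:ℝ) * y)) :
    ∑ y ∈ Y, 1/(y:ℝ) ≤ 22 / Real.sqrt A := by
  have hA0 : 0 < A := by linarith
  have he' : 0 < e' := lt_of_lt_of_le he hee
  have hsA : 0 < Real.sqrt A := Real.sqrt_pos.2 hA0
  rcases Y.eq_empty_or_nonempty with rfl | ⟨y0, hy0⟩
  · rw [Finset.sum_empty]; positivity
  have hx : (0:ℝ) < x := by exact_mod_cast (h y0 hy0).1.hx
  set u : ℝ := x * e' / e with hu
  have hu0 : 0 < u := by positivity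
  have hxu : (x:ℝ) ≤ u := by
    rw [hu, le_div_iff₀ he]
    exact mul_le_mul_of_nonneg_left hee hx.le
  have hue : u * e = x * e' := by rw [hu]; field_simp
  have hmem : ∀ y ∈ Y, u - 3*u/A ≤ (y:ℝ) ∧ (y:ℝ) ≤ u + 3*u/A ∧ (y:ℝ) ≤ 2 * u ∧ u ≤ 2 * y := by
    intro y hy
    obtain ⟨hp, -⟩ := h y hy
    obtain ⟨h1, h2⟩ := hp.le hA he he'
    obtain ⟨h3, -⟩ := hp.symm.le hA he' he
    rw [← hue] at h1 h2 h3
    have e1 : |(y:ℝ) * e - u * e| = |(y:ℝ) - u| * e := by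
      rw [← sub_mul, abs_mul, abs_of_pos he]
    have e2 : 3 * (u * e) / A = (3 * u / A) * e := by ring
    rw [e1, e2] at h2
    have h4 := abs_le.1 (le_of_mul_le_mul_right h2 he)
    refine ⟨by linarith [h4.1], by linarith [h4.2], ?_, ?_⟩
    · have : (y:ℝ) * e ≤ (2 * u) * e := by linarith
      exact le_of_mul_le_mul_right this he
    · have : u * e ≤ (2 * y) * e := by linarith
      exact le_of_mul_le_mul_right this he
  have hbase : 0 ≤ u - 3*u/A := by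
    have : 3*u/A ≤ 3*u/4 := div_le_div_of_nonneg_left (by positivity) (by norm_num) hA
    linarith
  have h3u : 0 ≤ 3*u/A := by positivity
  have hcard := card_le (a := u - 3*u/A) (b := u + 3*u/A) (by linarith) hbase Y
    (fun y hy => ⟨(hmem y hy).1, (hmem y hy).2.1⟩)
  have hu2 : A ≤ 24 * (u * u) := by
    obtain ⟨-, h2⟩ := h y0 hy0
    obtain ⟨-, -, h3, -⟩ := hmem y0 hy0
    have : (x:ℝ) * y0 ≤ u * (2 * u) := mul_le_mul hxu h3 (by positivity) hu0.le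
    linarith
  have hsu : Real.sqrt A ≤ 5 * u := by
    have h1 : Real.sqrt A ≤ Real.sqrt ((5*u)^2) := by
      apply Real.sqrt_le_sqrt
      nlinarith [mul_pos hu0 hu0]
    rwa [Real.sqrt_sq (by positivity)] at h1
  have hsq : Real.sqrt A ≤ A := by
    have h1 : 1 ≤ Real.sqrt A := by
      rw [show (1:ℝ) = Real.sqrt 1 by simp]
      exact Real.sqrt_le_sqrt (by linarith)
    calc Real.sqrt A ≤ Real.sqrt A * Real.sqrt A := le_mul_of_one_le_right hsA.le h1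
      _ = A := Real.mul_self_sqrt hA0.le
  calc ∑ y ∈ Y, 1/(y:ℝ) ≤ ∑ _y ∈ Y, 2/u := by
        apply Finset.sum_le_sum
        intro y hy
        obtain ⟨-, -, -, h4⟩ := hmem y hy
        have hy0 : (0:ℝ) < y := by exact_mod_cast (h y hy).1.hy
        rw [div_le_div_iff₀ hy0 hu0]; linarith
    _ = (Y.card:ℝ) * (2/u) := by rw [Finset.sum_const, nsmul_eq_mul]
    _ ≤ (u + 3*u/A - (u - 3*u/A) + 1) * (2/u) := mul_le_mul_of_nonneg_right hcard (by positivity)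
    _ = 12/A + 2/u := by field_simp; ring
    _ ≤ 12/Real.sqrt A + 10/Real.sqrt A := by
        apply add_le_add
        · exact div_le_div_of_nonneg_left (by norm_num) hsA hsq
        · rw [div_le_div_iff₀ hu0 hsA]; linarith
    _ = 22 / Real.sqrt A := by ring

/-- the small type is unique -/
theorem pin_unique {A e e' : ℝ} (hA : 4 ≤ A) (he : e ≠ 0) (he' : e' ≠ 0) {x y x2 y2 : ℕ}
    (h : Pin A e e' x y) (h2 : Pin A e e' x2 y2) (hc : Nat.Coprime x y) (hc2 : Nat.Coprime x2 y2)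
    (hs : 12 * ((x:ℝ) * y) < A) (hs2 : 12 * ((x2:ℝ) * y2) < A) : x = x2 ∧ y = y2 := by
  have hA0 : 0 < A := by linarith
  have hp := h.abs
  have hp2 := h2.abs
  have he0 : 0 < |e| := abs_pos.2 he
  have he0' : 0 < |e'| := abs_pos.2 he'
  set a := |e|
  set a' := |e'|
  obtain ⟨g1, g2⟩ := hp.le hA he0 he0'
  obtain ⟨g1', g2'⟩ := hp2.le hA he0 he0'
  obtain ⟨k1, -⟩ := hp.symm.le hA he0' he0
  obtain ⟨k1', -⟩ := hp2.symm.le hA he0' he0
  have hx : (0:ℝ) < x := by exact_mod_cast h.hx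
  have hy : (0:ℝ) < y := by exact_mod_cast h.hy
  have hx2 : (0:ℝ) < x2 := by exact_mod_cast h2.hx
  have hy2 : (0:ℝ) < y2 := by exact_mod_cast h2.hy
  -- the determinant vanishes
  have hdet : (x:ℤ) * y2 = x2 * y := by
    by_contra hne
    have h1 : (1:ℝ) ≤ |(x:ℝ) * y2 - x2 * y| := by
      have h3 : (1:ℤ) ≤ |(x:ℤ) * y2 - x2 * y| := Int.one_le_abs (sub_ne_zero.2 hne)
      exact_mod_cast h3
    -- `a (x y2 - x2 y) = x (y2 a - x2 a') - x2 (y a - x a')`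
    have e1 : a * ((x:ℝ) * y2 - x2 * y) = x * (y2 * a - x2 * a') - x2 * (y * a - x * a') := by ring
    have h4 : a * |(x:ℝ) * y2 - x2 * y| ≤ x * (3 * (x2 * a') / A) + x2 * (3 * (x * a') / A) := by
      have e0 : a * |(x:ℝ) * y2 - x2 * y| = |a * ((x:ℝ) * y2 - x2 * y)| := by
        rw [abs_mul, abs_of_pos he0]
      rw [e0, e1]
      refine (abs_sub _ _).trans ?_
      rw [abs_mul, abs_mul, abs_of_pos hx, abs_of_pos hx2]
      exact add_le_add (mul_le_mul_of_nonneg_left g2' hx.le) (mul_le_mul_of_nonneg_left g2 hx2.le)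
    have h5 : a ≤ 6 * (x * x2 * a') / A := by
      calc a = a * 1 := (mul_one a).symm
        _ ≤ a * |(x:ℝ) * y2 - x2 * y| := mul_le_mul_of_nonneg_left h1 he0.le
        _ ≤ _ := h4
        _ = _ := by ring
    rw [le_div_iff₀ hA0] at h5
    -- a A ≤ 6 x x2 a', x a' ≤ 2 y a, x2 a' ≤ 2 y2 a
    have h6 : A ≤ 12 * (x2 * y) := by
      have : a * A ≤ a * (12 * (x2 * y)) := by nlinarith [mul_le_mul_of_nonneg_left k1 hx2.le]
      exact le_of_mul_le_mul_left this he0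
    have h7 : A ≤ 12 * (x * y2) := by
      have : a * A ≤ a * (12 * (x * y2)) := by nlinarith [mul_le_mul_of_nonneg_left k1' hx.le]
      exact le_of_mul_le_mul_left this he0
    have h8 : A * A ≤ (12 * ((x:ℝ) * y)) * (12 * ((x2:ℝ) * y2)) := by
      calc A * A ≤ (12 * ((x2:ℝ) * y)) * (12 * (x * y2)) := mul_le_mul h6 h7 hA0.le (by positivity)
        _ = _ := by ring
    have h9 : (12 * ((x:ℝ) * y)) * (12 * ((x2:ℝ) * y2)) < A * A :=
      mul_lt_mul'' hs hs2 (by positivity) (by positivity)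
    linarith
  have hdet' : x * y2 = x2 * y := by exact_mod_cast hdet
  have hxx : x ∣ x2 := by
    have : x ∣ x2 * y := ⟨y2, hdet'.symm⟩
    exact hc.dvd_of_dvd_mul_right this
  have hxx' : x2 ∣ x := by
    have : x2 ∣ x * y2 := ⟨y, hdet'⟩
    exact hc2.dvd_of_dvd_mul_right this
  have hxe : x = x2 := Nat.dvd_antisymm hxx hxx'
  refine ⟨hxe, ?_⟩
  subst hxe
  exact (Nat.eq_of_mul_eq_mul_left h.hx hdet').symm

/-! ### the sum over the pinned types -/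

theorem swap_sum (f : ℕ → ℕ → ℝ) (R : Finset (ℕ × ℕ)) :
    ∑ e ∈ R.image Prod.swap, f e.1 e.2 = ∑ e ∈ R, f e.2 e.1 := by
  classical
  rw [Finset.sum_image Prod.swap_injective.injOn]
  rfl

/-- sum over the pinned types, `12 x y ≥ A` -/
theorem sum_pin_half {κ : ℝ} (hκ : 0 ≤ κ) {z : ℕ} (hz : 2 ≤ z) {A e e' : ℝ} (hA : 4 ≤ A)
    (he : 0 < e) (hee : e ≤ e') (R : Finset (ℕ × ℕ))
    (hR : ∀ x ∈ R, Pin A e e' x.1 x.2 ∧ A ≤ 12 * ((x.1:ℝ) * x.2) ∧
      ∀ p : ℕ, p.Prime → p ∣ x.1 * x.2 → p ≤ z) :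
    ∑ x ∈ R, wn κ x.1 * wn κ x.2 ≤ (22 / Real.sqrt A)^(1/101:ℝ) *
      Real.exp ((κ * Sm 6 + κ^(101/100:ℝ) * Sm 7) * (Real.log (Real.log z) + 6)) := by
  classical
  apply sum_R_hol hκ hz (by positivity)
  · intro b hb
    obtain ⟨x, hx, rfl⟩ := Finset.mem_image.1 hb
    obtain ⟨h1, -, h3⟩ := hR x hx
    exact ⟨h1.hx, fun p hp hpd => h3 p hp (dvd_mul_of_dvd_left hpd _)⟩
  · intro b hb
    obtain ⟨x, hx, rfl⟩ := Finset.mem_image.1 hb
    obtain ⟨h1, -, h3⟩ := hR x hx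
    exact ⟨h1.hy, fun p hp hpd => h3 p hp (dvd_mul_of_dvd_right hpd _)⟩
  · intro x
    apply inv_sum_le hA he hee x
    intro y hy
    obtain ⟨a, ha, rfl⟩ := Finset.mem_image.1 hy
    rw [Finset.mem_filter] at ha
    obtain ⟨h1, h2, -⟩ := hR a ha.1
    rw [← ha.2]
    exact ⟨h1, h2⟩

theorem sum_pin {κ : ℝ} (hκ : 0 ≤ κ) {z : ℕ} (hz : 2 ≤ z) {A e e' : ℝ} (hA : 4 ≤ A)
    (he : e ≠ 0) (he' : e' ≠ 0) (R : Finset (ℕ × ℕ))
    (hR : ∀ x ∈ R, Pin A e e' x.1 x.2 ∧ A ≤ 12 * ((x.1:ℝ) * x.2) ∧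
      ∀ p : ℕ, p.Prime → p ∣ x.1 * x.2 → p ≤ z) :
    ∑ x ∈ R, wn κ x.1 * wn κ x.2 ≤ (22 / Real.sqrt A)^(1/101:ℝ) *
      Real.exp ((κ * Sm 6 + κ^(101/100:ℝ) * Sm 7) * (Real.log (Real.log z) + 6)) := by
  classical
  rcases le_total |e| |e'| with hc | hc
  · exact sum_pin_half hκ hz hA (abs_pos.2 he) hc R fun x hx =>
      ⟨(hR x hx).1.abs, (hR x hx).2⟩
  · have h := sum_pin_half hκ hz hA (abs_pos.2 he') hc (R.image Prod.swap) (by
      intro x hx
      obtain ⟨a, ha, rfl⟩ := Finset.mem_image.1 hx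
      obtain ⟨h1, h2, h3⟩ := hR a ha
      refine ⟨h1.abs.symm, ?_, ?_⟩
      · simp only [Prod.fst_swap, Prod.snd_swap]
        rw [mul_comm (a.2:ℝ)]; exact h2
      · intro p hp hpd
        apply h3 p hp
        simp only [Prod.fst_swap, Prod.snd_swap] at hpd
        rwa [mul_comm] at hpd)
    rw [swap_sum (fun a b => wn κ a * wn κ b)] at h
    refine le_trans (le_of_eq ?_) h
    apply Finset.sum_congr rfl
    intro x _
    ring

/-! ### dyadic summation with the weight `1 / D` -/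

theorem two_rpow_le {ε : ℝ} (hε : 0 < ε) (hε4 : ε ≤ 1/4) :
    (1/2:ℝ)^(2*ε) ≤ 1 - ε := by
  have h := _root_.rpow_one_add_le_one_add_mul_self (s := -(1/2:ℝ)) (by norm_num)
    (p := 2*ε) (by linarith) (by linarith)
  have e1 : (1:ℝ) + -(1/2) = 1/2 := by norm_num
  rw [e1] at h
  linarith

theorem dyadic {ι : Type*} (E : Finset ι) (f D : ι → ℝ) {ε d B : ℝ} (hε : 0 < ε) (hε4 : ε ≤ 1/4)
    (hd : 0 < d) (hB : 0 ≤ B) (hf : ∀ e ∈ E, 0 ≤ f e) (hD : ∀ e ∈ E, d ≤ D e)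
    (h : ∀ δ : ℝ, 0 < δ → ∑ e ∈ E.filter (fun e => D e ≤ δ), f e ≤ δ^(1-2*ε) * B) :
    ∑ e ∈ E, f e / D e ≤ 2/ε * (d⁻¹)^(2*ε) * B := by
  classical
  set lv : ι → ℕ := fun e => Nat.log 2 ⌊D e / d⌋₊ with hlv
  have hlow : ∀ e ∈ E, d * 2^(lv e) ≤ D e := by
    intro e he
    have h1 : 1 ≤ D e / d := (one_le_div hd).2 (hD e he)
    have h2 : ⌊D e / d⌋₊ ≠ 0 := by
      have : 1 ≤ ⌊D e / d⌋₊ := Nat.le_floor (by exact_mod_cast h1)
      omega
    have h3 := Nat.pow_log_le_self 2 h2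
    have h4 : ((2:ℝ)^(lv e)) ≤ ⌊D e / d⌋₊ := by exact_mod_cast h3
    have h5 : (⌊D e / d⌋₊ : ℝ) ≤ D e / d := Nat.floor_le (by linarith)
    have h6 := h4.trans h5
    rw [le_div_iff₀ hd] at h6
    linarith
  have hhigh : ∀ e ∈ E, D e ≤ d * 2^(lv e + 1) := by
    intro e he
    have h3 := Nat.lt_pow_succ_log_self (b := 2) (by norm_num) ⌊D e / d⌋₊
    have h4 : (⌊D e / d⌋₊ : ℝ) + 1 ≤ (2:ℝ)^(lv e + 1) := by exact_mod_cast h3
    have h5 := (Nat.lt_floor_add_one (D e / d)).le.trans h4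
    rw [div_le_iff₀ hd] at h5
    linarith
  set N := E.sup lv + 1 with hN
  have hmaps : ∀ e ∈ E, lv e ∈ range N := by
    intro e he
    rw [mem_range, hN]
    exact Nat.lt_succ_of_le (Finset.le_sup (f := lv) he)
  rw [← Finset.sum_fiberwise_of_maps_to hmaps]
  have hr : (1/2:ℝ)^(2*ε) ≤ 1 - ε := two_rpow_le hε hε4
  set r : ℝ := (1/2:ℝ)^(2*ε) with hrd
  have hr0 : 0 ≤ r := by positivity
  have hr1 : r < 1 := by linarith
  have hblock : ∀ n ∈ range N, ∑ e ∈ E.filter (fun e => lv e = n), f e / D e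
      ≤ 2 * (d⁻¹)^(2*ε) * B * r^n := by
    intro n _
    have hδ : 0 < d * 2^(n+1) := by positivity
    have h1 : ∑ e ∈ E.filter (fun e => lv e = n), f e / D e
        ≤ ∑ e ∈ E.filter (fun e => D e ≤ d * 2^(n+1)), f e / (d * 2^n) := by
      calc ∑ e ∈ E.filter (fun e => lv e = n), f e / D e
          ≤ ∑ e ∈ E.filter (fun e => lv e = n), f e / (d * 2^n) := by
            apply Finset.sum_le_sum
            intro e he
            rw [Finset.mem_filter] at he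
            apply div_le_div_of_nonneg_left (hf e he.1) (by positivity)
            rw [← he.2]; exact hlow e he.1
        _ ≤ _ := by
            apply Finset.sum_le_sum_of_subset_of_nonneg
            · intro e he
              rw [Finset.mem_filter] at he ⊢
              refine ⟨he.1, ?_⟩
              rw [← he.2]; exact hhigh e he.1
            · intro e he _
              rw [Finset.mem_filter] at he
              exact div_nonneg (hf e he.1) (by positivity)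
    refine h1.trans ?_
    rw [← Finset.sum_div, div_le_iff₀ (by positivity)]
    have hdp : 0 < d^(2*ε) := Real.rpow_pos_of_pos hd _
    have h2p : (0:ℝ) < ((2:ℝ)^(n+1))^(2*ε) := Real.rpow_pos_of_pos (by positivity) _
    have e2 : r^(n+1) = (((2:ℝ)^(n+1))^(2*ε))⁻¹ := by
      rw [hrd, ← Real.rpow_natCast, ← Real.rpow_mul (by norm_num), mul_comm (2*ε),
        Real.rpow_mul (by norm_num), Real.rpow_natCast, ← Real.inv_rpow (by positivity), one_div,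
        inv_pow]
    have e1 : (d * 2^(n+1))^(1-2*ε) = (d * 2^(n+1)) * ((d⁻¹)^(2*ε) * r^(n+1)) := by
      rw [Real.rpow_sub hδ, Real.rpow_one, Real.mul_rpow hd.le (by positivity), e2,
        Real.inv_rpow hd.le]
      field_simp
    have hrn : r^(n+1) ≤ r^n := by
      rw [pow_succ]
      exact mul_le_of_le_one_right (by positivity) hr1.le
    have hdi : 0 ≤ (d⁻¹)^(2*ε) := by positivity
    refine (h _ hδ).trans ?_
    rw [e1]
    calc (d * 2^(n+1)) * ((d⁻¹)^(2*ε) * r^(n+1)) * B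
        ≤ (d * 2^(n+1)) * ((d⁻¹)^(2*ε) * r^n) * B := by gcongr
      _ = 2 * (d⁻¹)^(2*ε) * B * r^n * (d * 2^n) := by rw [pow_succ]; ring
  refine (Finset.sum_le_sum hblock).trans ?_
  rw [← Finset.mul_sum]
  have hgeo : ∑ n ∈ range N, r^n ≤ 1/ε := by
    have h1 : ∑ n ∈ range N, r^n ≤ (1 - r)⁻¹ := by
      rw [← tsum_geometric_of_lt_one hr0 hr1]
      exact (summable_geometric_of_lt_one hr0 hr1).sum_le_tsum _ (fun n _ => by positivity)
    refine h1.trans ?_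
    rw [one_div]
    exact inv_anti₀ hε (by linarith)
  have hdp : 0 ≤ (d⁻¹)^(2*ε) := by positivity
  calc 2 * (d⁻¹)^(2*ε) * B * ∑ n ∈ range N, r^n ≤ 2 * (d⁻¹)^(2*ε) * B * (1/ε) :=
        mul_le_mul_of_nonneg_left hgeo (by positivity)
    _ = _ := by ring

/-! ### numerics -/

theorem ev_pow (C a b : ℝ) (hab : a < b) : ∀ᶠ L : ℝ in Filter.atTop, C * L^a ≤ L^b := by
  have h1 := (tendsto_rpow_atTop (sub_pos.2 hab)).eventually_ge_atTop C
  filter_upwards [h1, Filter.eventually_gt_atTop 0] with L hL hL0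
  have e : L^b = L^(b-a) * L^a := by rw [← Real.rpow_add hL0]; congr 1; ring
  rw [e]
  exact mul_le_mul_of_nonneg_right hL (by positivity)

/-- the exponent of the smooth sums is `O(L^{61/80})` -/
theorem T_le {K : ℝ} (hK : 1 ≤ K) : ∃ C3 : ℝ, 0 ≤ C3 ∧ ∀ (L : ℝ) (z : ℕ), 1 ≤ L → 2 ≤ z →
    Real.log z ≤ K * L →
    ((16*(72/(L^(-(1/4):ℝ)))^3) * Sm 6 + (16*(72/(L^(-(1/4):ℝ)))^3)^(101/100:ℝ) * Sm 7) *
      (Real.log (Real.log z) + 6) ≤ C3 * L^(61/80:ℝ) := by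
  have hS6 := (Sm_pos 6).le
  have hS7 := (Sm_pos 7).le
  have hlK : 0 ≤ Real.log K := Real.log_nonneg hK
  set c0 : ℝ := 16 * 72^3 with hc0
  have hc00 : 0 ≤ c0 := by rw [hc0]; norm_num
  refine ⟨(c0 * Sm 6 + c0^(101/100:ℝ) * Sm 7) * (Real.log K + 206), by positivity, ?_⟩
  intro L z hL hz hlz
  have hL0 : 0 < L := by linarith
  have e1 : 16*(72/(L^(-(1/4):ℝ)))^3 = c0 * L^(3/4:ℝ) := by
    rw [Real.rpow_neg hL0.le, div_inv_eq_mul, mul_pow, ← Real.rpow_natCast (L^(1/4:ℝ)),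
      ← Real.rpow_mul hL0.le, hc0]
    norm_num
    ring
  have e2 : (c0 * L^(3/4:ℝ))^(101/100:ℝ) = c0^(101/100:ℝ) * L^(303/400:ℝ) := by
    rw [Real.mul_rpow hc00 (by positivity), ← Real.rpow_mul hL0.le]
    norm_num
  rw [e1, e2]
  have hz2 : (2:ℝ) ≤ z := by exact_mod_cast hz
  have hlz0 : 0 < Real.log z := Real.log_pos (by linarith)
  have h1 : Real.log (Real.log z) + 6 ≤ (Real.log K + 206) * L^(1/200:ℝ) := by
    have h2 : Real.log (Real.log z) ≤ Real.log (K * L) := Real.log_le_log hlz0 hlz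
    rw [Real.log_mul (by linarith) hL0.ne'] at h2
    have h3 := Real.log_le_rpow_div hL0.le (ε := 1/200) (by norm_num)
    have h4 : 1 ≤ L^(1/200:ℝ) := Real.one_le_rpow hL (by norm_num)
    have h5 : L^(1/200:ℝ) / (1/200) = 200 * L^(1/200:ℝ) := by ring
    rw [h5] at h3
    nlinarith
  have h2 : L^(3/4:ℝ) ≤ L^(303/400:ℝ) := Real.rpow_le_rpow_of_exponent_le hL (by norm_num)
  have hc1 : 0 ≤ c0^(101/100:ℝ) := Real.rpow_nonneg hc00 _
  have h0 : 0 ≤ c0 * L^(3/4:ℝ) * Sm 6 + c0^(101/100:ℝ) * L^(303/400:ℝ) * Sm 7 := by positivity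
  have e3 : L^(61/80:ℝ) = L^(303/400:ℝ) * L^(1/200:ℝ) := by
    rw [← Real.rpow_add hL0]; norm_num
  calc (c0 * L^(3/4:ℝ) * Sm 6 + c0^(101/100:ℝ) * L^(303/400:ℝ) * Sm 7) * (Real.log (Real.log z) + 6)
      ≤ (c0 * L^(3/4:ℝ) * Sm 6 + c0^(101/100:ℝ) * L^(303/400:ℝ) * Sm 7) *
        ((Real.log K + 206) * L^(1/200:ℝ)) := mul_le_mul_of_nonneg_left h1 h0
    _ ≤ (c0 * L^(303/400:ℝ) * Sm 6 + c0^(101/100:ℝ) * L^(303/400:ℝ) * Sm 7) *
        ((Real.log K + 206) * L^(1/200:ℝ)) := by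
        apply mul_le_mul_of_nonneg_right _ (by positivity)
        gcongr
    _ = _ := by rw [e3]; ring

theorem sys_of_filter {V W : Finset ℕ} {E : Finset (ℕ × ℕ)} {ψ ψ' : ℕ → ℝ} {δ : ℝ} (hδ : 0 < δ)
    (hV : ∀ v ∈ V, 0 < v) (hW : ∀ w ∈ W, 0 < w) (hψ : ∀ v ∈ V, 0 ≤ ψ v) (hψ' : ∀ w ∈ W, 0 ≤ ψ' w)
    (hE : E ⊆ V ×ˢ W) : Sys V W (E.filter fun e => LF11.DD ψ ψ' e ≤ δ) ψ ψ' δ where
  hδ := hδ
  hV := hV
  hW := hW
  hψ := hψ
  hθ := hψ'
  hE := (filter_subset _ _).trans hE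
  h1 _ he := (le_max_right _ _).trans (mem_filter.1 he).2
  h2 _ he := (le_max_left _ _).trans (mem_filter.1 he).2

set_option maxHeartbeats 1000000 in
/-- **PIN** -/
theorem pin_energy {K : ℝ} (hK : 1 ≤ K) : ∃ L0 : ℝ, 1 ≤ L0 ∧
    ∀ (L A e e' : ℝ) (z : ℕ) (V W : Finset ℕ) (E : Finset (ℕ × ℕ)) (ψ ψ' : ℕ → ℝ),
    L0 ≤ L → Real.exp (L^(4/5:ℝ)) ≤ A → Real.log z ≤ K * L → e ≠ 0 → e' ≠ 0 →
    (∀ v ∈ V, 0 < v) → (∀ w ∈ W, 0 < w) → (∀ v ∈ V, 0 ≤ ψ v) → (∀ w ∈ W, 0 ≤ ψ' w) →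
    E ⊆ V ×ˢ W →
    (∀ p ∈ E, Pin A e e' (cof p.1 p.2) (cof p.2 p.1)) →
    (∀ p ∈ E, A ≤ 12 * ((cof p.1 p.2 : ℝ) * cof p.2 p.1)) →
    (∀ p ∈ E, ∀ l : ℕ, l.Prime → l ∣ cof p.1 p.2 * cof p.2 p.1 → l ≤ z) →
    (∀ p ∈ E, Real.exp (-(K * L)) ≤ LF11.DD ψ ψ' p) →
    (∑ v ∈ V, wt ψ v) * (∑ w ∈ W, wt ψ' w) ≤ Real.exp (K * L) →
    ∑ p ∈ E, ew ψ ψ' p / LF11.DD ψ ψ' p
      ≤ A^(-(1/1000):ℝ) * Real.sqrt ((∑ v ∈ V, wt ψ v) * (∑ w ∈ W, wt ψ' w)) := by
  classical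
  obtain ⟨C3, hC3, hT⟩ := T_le hK
  have hev : ∀ᶠ L : ℝ in Filter.atTop,
      ((C3 + 1) / (1/202 - 1/210)) * L^(61/80:ℝ) ≤ L^(4/5:ℝ) ∧
      ((2 + 3*K) / (1/840 - 1/1000)) * L^(3/4:ℝ) ≤ L^(4/5:ℝ) ∧ (256:ℝ) ≤ L :=
    (ev_pow _ _ _ (by norm_num)).and ((ev_pow _ _ _ (by norm_num)).and
      (Filter.eventually_ge_atTop 256))
  obtain ⟨L0, hL0⟩ := Filter.eventually_atTop.1 hev
  refine ⟨max L0 1, le_max_right _ _, ?_⟩
  intro L A e e' z V W E ψ ψ' hL hA hlz he he' hV hW hψ hψ' hE hpin h12 hsm hDD hM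
  obtain ⟨n1, n2, hL256⟩ := hL0 L ((le_max_left _ _).trans hL)
  have hL1 : 1 ≤ L := by linarith
  have hLp : 0 < L := by linarith
  set a : ℝ := Real.log A with ha
  have hA0 : 0 < A := lt_of_lt_of_le (Real.exp_pos _) hA
  have haL : L^(4/5:ℝ) ≤ a := by
    rw [ha, Real.le_log_iff_exp_le hA0]; exact hA
  have hAe : A = Real.exp a := (Real.exp_log hA0).symm
  have hL45 : 4 ≤ L^(4/5:ℝ) := by
    calc (4:ℝ) ≤ (256:ℝ)^(4/5:ℝ) := by
          have : (256:ℝ) = 4^(4:ℝ) := by norm_num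
          rw [this, ← Real.rpow_mul (by norm_num)]
          calc (4:ℝ) = 4^(1:ℝ) := (Real.rpow_one _).symm
            _ ≤ _ := Real.rpow_le_rpow_of_exponent_le (by norm_num) (by norm_num)
      _ ≤ _ := Real.rpow_le_rpow (by norm_num) hL256 (by norm_num)
  have ha4 : 4 ≤ a := hL45.trans haL
  have hA4 : 4 ≤ A := by
    have := Real.add_one_le_exp a
    rw [← hAe] at this; linarith
  set ε : ℝ := L^(-(1/4):ℝ) with hε
  have hε0 : 0 < ε := Real.rpow_pos_of_pos hLp _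
  have hε4 : ε ≤ 1/4 := by
    have h1 : (4:ℝ) ≤ L^(1/4:ℝ) := by
      calc (4:ℝ) = (256:ℝ)^(1/4:ℝ) := by
            have : (256:ℝ) = 4^(4:ℝ) := by norm_num
            rw [this, ← Real.rpow_mul (by norm_num)]; norm_num
        _ ≤ _ := Real.rpow_le_rpow (by norm_num) hL256 (by norm_num)
    rw [hε, Real.rpow_neg hLp.le, show (1/4:ℝ) = (4:ℝ)⁻¹ by norm_num]
    rw [show (1/4:ℝ) = (4:ℝ)⁻¹ by norm_num] at h1
    exact inv_anti₀ (by norm_num) h1
  have hεinv : 1/ε = L^(1/4:ℝ) := by rw [hε, Real.rpow_neg hLp.le]; simp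
  have hεL : ε * L = L^(3/4:ℝ) := by
    rw [hε]
    nth_rewrite 2 [← Real.rpow_one L]
    rw [← Real.rpow_add hLp]; norm_num
  set z' : ℕ := max z 2 with hz'
  have hz2 : 2 ≤ z' := le_max_right _ _
  have hlz' : Real.log z' ≤ K * L := by
    rw [hz']
    rcases le_total z 2 with h | h
    · rw [max_eq_right h]
      have := Real.log_two_lt_d9
      push_cast
      nlinarith
    · rw [max_eq_left h]; exact hlz
  set κ : ℝ := 16*(72/ε)^3 with hκ
  have hκ0 : 0 ≤ κ := by positivity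
  set T : ℝ := (κ * Sm 6 + κ^(101/100:ℝ) * Sm 7) * (Real.log (Real.log z') + 6) with hTd
  have hTle : T ≤ C3 * L^(61/80:ℝ) := hT L z' hL1 hz2 hlz'
  set Rb : ℝ := (22 / Real.sqrt A)^(1/101:ℝ) * Real.exp T with hRb
  have hRb0 : 0 ≤ Rb := by positivity
  set M : ℝ := (∑ v ∈ V, wt ψ v) * (∑ w ∈ W, wt ψ' w) with hMd
  have hM0 : 0 ≤ M := mul_nonneg (Finset.sum_nonneg fun v hv => wt_nonneg (hψ v hv))
      (Finset.sum_nonneg fun v hv => wt_nonneg (hψ' v hv))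
  have hεu : 0 ≤ 1/2 - ε := by linarith
  -- dyadic
  have key := dyadic E (ew ψ ψ') (LF11.DD ψ ψ') (ε := ε) (d := Real.exp (-(K*L)))
    (B := Rb^(1/2-ε) * M^(1/2+ε)) hε0 hε4 (Real.exp_pos _) (by positivity)
    (fun p hp => by
      have := Finset.mem_product.1 (hE hp)
      exact ew_nonneg (hψ _ this.1) (hψ' _ this.2)) hDD
    (fun δ hδ => by
      have h1 := energy_R hε0 hε4 (sys_of_filter (E := E) hδ hV hW hψ hψ' hE)
      refine le_trans h1 ?_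
      apply mul_le_mul_of_nonneg_left _ (by positivity)
      apply mul_le_mul_of_nonneg_right _ (by positivity)
      apply Real.rpow_le_rpow _ _ hεu
      · exact Finset.sum_nonneg fun x _ => mul_nonneg (wn_nonneg hκ0 _) (wn_nonneg hκ0 _)
      · apply sum_pin hκ0 hz2 hA4 he he'
        intro x hx
        obtain ⟨p, hp, rfl⟩ := Finset.mem_image.1 hx
        have hp' := (Finset.mem_filter.1 hp).1
        exact ⟨hpin p hp', h12 p hp', fun l hl hld => (hsm p hp' l hl hld).trans (le_max_left _ _)⟩)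
  refine key.trans ?_
  -- numerics
  have c1 : (0:ℝ) < 1/202 - 1/210 := by norm_num
  have c2 : (0:ℝ) < 1/840 - 1/1000 := by norm_num
  have m1 : (C3 + 1) * L^(61/80:ℝ) ≤ (1/202 - 1/210) * L^(4/5:ℝ) := by
    rw [div_mul_eq_mul_div, div_le_iff₀ c1] at n1; linarith
  have m2 : (2 + 3*K) * L^(3/4:ℝ) ≤ (1/840 - 1/1000) * L^(4/5:ℝ) := by
    rw [div_mul_eq_mul_div, div_le_iff₀ c2] at n2; linarith
  have hRbe : Rb ≤ Real.exp (-(a/210)) := by
    have h22 : Real.log 22 / 101 ≤ 1 := by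
      have : Real.log 22 ≤ 22 - 1 := Real.log_le_sub_one_of_pos (by norm_num)
      linarith
    have hs : Real.sqrt A = Real.exp (a/2) := by
      rw [hAe, Real.sqrt_eq_rpow, ← Real.exp_mul]; congr 1; ring
    have hpos : (0:ℝ) < 22 / Real.sqrt A := div_pos (by norm_num) (Real.sqrt_pos.2 hA0)
    have h1 : (22 / Real.sqrt A)^(1/101:ℝ) = Real.exp ((Real.log 22 - a/2)/101) := by
      rw [Real.rpow_def_of_pos hpos, Real.log_div (by norm_num) (Real.sqrt_pos.2 hA0).ne', hs,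
        Real.log_exp]
      congr 1; ring
    rw [hRb, h1, ← Real.exp_add]
    apply Real.exp_le_exp.2
    have h61 : 1 ≤ L^(61/80:ℝ) := Real.one_le_rpow hL1 (by norm_num)
    have h3 : (1/202 - 1/210) * L^(4/5:ℝ) ≤ (1/202 - 1/210) * a :=
      mul_le_mul_of_nonneg_left haL c1.le
    nlinarith
  have hRb2 : Rb^(1/2-ε) ≤ Real.exp (-(a/840)) := by
    calc Rb^(1/2-ε) ≤ (Real.exp (-(a/210)))^(1/2-ε) := Real.rpow_le_rpow hRb0 hRbe hεu
      _ = Real.exp (-(a/210) * (1/2-ε)) := by rw [← Real.exp_mul]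
      _ ≤ Real.exp (-(a/840)) := by
          apply Real.exp_le_exp.2
          nlinarith
  have hMp : M^(1/2+ε) ≤ Real.sqrt M * Real.exp (K * L^(3/4:ℝ)) := by
    rcases hM0.eq_or_lt with h | h
    · rw [← h, Real.zero_rpow (by linarith), Real.sqrt_zero, zero_mul]
    · rw [Real.rpow_add h, Real.sqrt_eq_rpow]
      apply mul_le_mul_of_nonneg_left _ (by positivity)
      calc M^ε ≤ (Real.exp (K*L))^ε := Real.rpow_le_rpow hM0 hM hε0.le
        _ = Real.exp (K * L^(3/4:ℝ)) := by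
            rw [← Real.exp_mul, ← hεL]; congr 1; ring
  have hd : ((Real.exp (-(K*L)))⁻¹)^(2*ε) = Real.exp (2 * K * L^(3/4:ℝ)) := by
    rw [← Real.exp_neg, neg_neg, ← Real.exp_mul, ← hεL]; congr 1; ring
  have h2ε : 2/ε ≤ Real.exp (2 * L^(3/4:ℝ)) := by
    have h1 : 2/ε = 2 * L^(1/4:ℝ) := by rw [← hεinv]; ring
    rw [h1]
    have h2 : L^(1/4:ℝ) ≤ L^(3/4:ℝ) := Real.rpow_le_rpow_of_exponent_le hL1 (by norm_num)
    have h3 := Real.add_one_le_exp (2 * L^(3/4:ℝ))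
    linarith
  have hAr : A^(-(1/1000):ℝ) = Real.exp (-(a/1000)) := by
    rw [hAe, ← Real.exp_mul]; congr 1; ring
  rw [hd, hAr]
  have hsM := Real.sqrt_nonneg M
  calc 2/ε * Real.exp (2 * K * L^(3/4:ℝ)) * (Rb^(1/2-ε) * M^(1/2+ε))
      ≤ Real.exp (2 * L^(3/4:ℝ)) * Real.exp (2 * K * L^(3/4:ℝ)) *
        (Real.exp (-(a/840)) * (Real.sqrt M * Real.exp (K * L^(3/4:ℝ)))) := by
        apply mul_le_mul
        · exact mul_le_mul_of_nonneg_right h2ε (Real.exp_pos _).le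
        · exact mul_le_mul hRb2 hMp (by positivity) (Real.exp_pos _).le
        · positivity
        · positivity
    _ = Real.exp ((2 + 3*K) * L^(3/4:ℝ) - a/840) * Real.sqrt M := by
        rw [show (2 + 3*K) * L^(3/4:ℝ) - a/840 = 2 * L^(3/4:ℝ) + 2 * K * L^(3/4:ℝ) + (-(a/840)) +
          K * L^(3/4:ℝ) by ring, Real.exp_add, Real.exp_add, Real.exp_add]
        ring
    _ ≤ Real.exp (-(a/1000)) * Real.sqrt M := by
        apply mul_le_mul_of_nonneg_right _ hsM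
        apply Real.exp_le_exp.2
        have h3 : (1/840 - 1/1000) * L^(4/5:ℝ) ≤ (1/840 - 1/1000) * a :=
          mul_le_mul_of_nonneg_left haL c2.le
        nlinarith

end Crest.Agent.R4.PinE104
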