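import Mathlib
import Crest.Agent.R4.PinE104

/-!
R4 (S0004), helper944: energy of UNBALANCED pairs (nested exact pairs `q` inaccurate, `r` accurate).

`smooth_energy`: with the variable exponent `ε = L^{-1/4}` the energy inequality loses only
`exp (C L^{61/80})` (smooth cofactors, `DD ≥ exp (-K L)`).
`imb_energy`: if moreover `A * (y R) ≤ x R'` with `A ≥ exp (L^{4/5})`, there is the gain `A^{-1/4}`
(rescaling `R → √A R`, `R' → R'/√A` leaves `ew` unchanged and divides `DD` by `√A`).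
-/

set_option autoImplicit false
open Finset

namespace Crest.Agent.R4.ImbE944

open Crest.Agent.R4.HVW560 Crest.Agent.R4.Smo944 Crest.Agent.R4.LF10 Crest.Agent.R016
open Crest.Agent.R4.ClsS Crest.Agent.R4.LF11 Crest.Agent.R4.PinE104

/-- sum over all smooth types -/
theorem sum_types {κ : ℝ} (hκ : 0 ≤ κ) {z : ℕ} (hz : 2 ≤ z) (R : Finset (ℕ × ℕ))
    (hR : ∀ x ∈ R, 0 < x.1 ∧ 0 < x.2 ∧ ∀ p : ℕ, p.Prime → p ∣ x.1 * x.2 → p ≤ z) :
    ∑ x ∈ R, wn κ x.1 * wn κ x.2 ≤ Real.exp (2 * (κ * Sm 6) * (Real.log (Real.log z) + 6)) := by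
  classical
  have h1 : R ⊆ R.image Prod.fst ×ˢ R.image Prod.snd := by
    intro x hx
    exact mem_product.2 ⟨mem_image_of_mem _ hx, mem_image_of_mem _ hx⟩
  have hX : Smooth z (R.image Prod.fst) := by
    intro b hb
    obtain ⟨x, hx, rfl⟩ := Finset.mem_image.1 hb
    obtain ⟨h1, -, h3⟩ := hR x hx
    exact ⟨h1, fun p hp hpd => h3 p hp (dvd_mul_of_dvd_left hpd _)⟩
  have hY : Smooth z (R.image Prod.snd) := by
    intro b hb
    obtain ⟨x, hx, rfl⟩ := Finset.mem_image.1 hb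
    obtain ⟨-, h1, h3⟩ := hR x hx
    exact ⟨h1, fun p hp hpd => h3 p hp (dvd_mul_of_dvd_right hpd _)⟩
  calc ∑ x ∈ R, wn κ x.1 * wn κ x.2
      ≤ ∑ x ∈ R.image Prod.fst ×ˢ R.image Prod.snd, wn κ x.1 * wn κ x.2 :=
        Finset.sum_le_sum_of_subset_of_nonneg h1
          fun x _ _ => mul_nonneg (wn_nonneg hκ _) (wn_nonneg hκ _)
    _ = (∑ x ∈ R.image Prod.fst, wn κ x) * ∑ y ∈ R.image Prod.snd, wn κ y := by
        rw [Finset.sum_product, Finset.sum_mul_sum]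
    _ ≤ Real.exp (κ * Sm 6 * (Real.log (Real.log z) + 6)) *
          Real.exp (κ * Sm 6 * (Real.log (Real.log z) + 6)) :=
        mul_le_mul (sum_wn_le hκ hz hX) (sum_wn_le hκ hz hY)
          (Finset.sum_nonneg fun y _ => wn_nonneg hκ _) (Real.exp_pos _).le
    _ = _ := by rw [← Real.exp_add]; congr 1; ring

set_option maxHeartbeats 1000000 in
/-- energy with smooth cofactors, variable exponent -/
theorem smooth_energy {K : ℝ} (hK : 1 ≤ K) : ∃ C L0 : ℝ, 0 ≤ C ∧ 1 ≤ L0 ∧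
    ∀ (L : ℝ) (z : ℕ) (V W : Finset ℕ) (E : Finset (ℕ × ℕ)) (ψ ψ' : ℕ → ℝ),
    L0 ≤ L → Real.log z ≤ K * L →
    (∀ v ∈ V, 0 < v) → (∀ w ∈ W, 0 < w) → (∀ v ∈ V, 0 ≤ ψ v) → (∀ w ∈ W, 0 ≤ ψ' w) →
    E ⊆ V ×ˢ W →
    (∀ p ∈ E, ∀ l : ℕ, l.Prime → l ∣ cof p.1 p.2 * cof p.2 p.1 → l ≤ z) →
    (∀ p ∈ E, Real.exp (-(K * L)) ≤ LF11.DD ψ ψ' p) →
    (∑ v ∈ V, wt ψ v) * (∑ w ∈ W, wt ψ' w) ≤ Real.exp (K * L) →
    ∑ p ∈ E, ew ψ ψ' p / LF11.DD ψ ψ' p
      ≤ Real.exp (C * L^(61/80:ℝ)) * Real.sqrt ((∑ v ∈ V, wt ψ v) * (∑ w ∈ W, wt ψ' w)) := by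
  classical
  obtain ⟨C3, hC3, hT⟩ := T_le hK
  refine ⟨2 * C3 + (2 + 3 * K), 256, by positivity, by norm_num, ?_⟩
  intro L z V W E ψ ψ' hL256 hlz hV hW hψ hψ' hE hsm hDD hM
  have hL1 : 1 ≤ L := by linarith
  have hLp : 0 < L := by linarith
  set ε : ℝ := L^(-(1/4):ℝ) with hε
  have hε0 : 0 < ε := Real.rpow_pos_of_pos hLp _
  have hε4 : ε ≤ 1/4 := by
    have h1 : (4:ℝ) ≤ L^(1/4:ℝ) := by
      calc (4:ℝ) = (256:ℝ)^(1/4:ℝ) := by
            have : (256:ℝ) = 4^(4:ℝ) := by norm_num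
            rw [this, ← Real.rpow_mul (by norm_num)]; norm_num
        _ ≤ _ := Real.rpow_le_rpow (by norm_num) hL256 (by norm_num)
    rw [hε, Real.rpow_neg hLp.le, show (1/4:ℝ) = (4:ℝ)⁻¹ by norm_num]
    rw [show (1/4:ℝ) = (4:ℝ)⁻¹ by norm_num] at h1
    exact inv_anti₀ (by norm_num) h1
  have hεinv : 1/ε = L^(1/4:ℝ) := by rw [hε, Real.rpow_neg hLp.le]; simp
  have hεL : ε * L = L^(3/4:ℝ) := by
    rw [hε]
    nth_rewrite 2 [← Real.rpow_one L]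
    rw [← Real.rpow_add hLp]; norm_num
  set z' : ℕ := max z 2 with hz'
  have hz2 : 2 ≤ z' := le_max_right _ _
  have hlz' : Real.log z' ≤ K * L := by
    rw [hz']
    rcases le_total z 2 with h | h
    · rw [max_eq_right h]
      have := Real.log_two_lt_d9
      push_cast
      nlinarith
    · rw [max_eq_left h]; exact hlz
  set κ : ℝ := 16*(72/ε)^3 with hκ
  have hκ0 : 0 ≤ κ := by positivity
  have hTle : (κ * Sm 6 + κ^(101/100:ℝ) * Sm 7) * (Real.log (Real.log z') + 6)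
      ≤ C3 * L^(61/80:ℝ) := hT L z' hL1 hz2 hlz'
  have hT1 : κ * Sm 6 * (Real.log (Real.log z') + 6) ≤ C3 * L^(61/80:ℝ) := by
    refine le_trans ?_ hTle
    apply mul_le_mul_of_nonneg_right _ (ell_nonneg hz2)
    have : 0 ≤ κ^(101/100:ℝ) * Sm 7 := mul_nonneg (Real.rpow_nonneg hκ0 _) (Sm_pos 7).le
    linarith
  set Rb : ℝ := Real.exp (2 * C3 * L^(61/80:ℝ)) with hRb
  have hRb0 : 0 < Rb := Real.exp_pos _
  have hRb1 : 1 ≤ Rb := Real.one_le_exp (by positivity)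
  set M : ℝ := (∑ v ∈ V, wt ψ v) * (∑ w ∈ W, wt ψ' w) with hMd
  have hM0 : 0 ≤ M := mul_nonneg (Finset.sum_nonneg fun v hv => wt_nonneg (hψ v hv))
      (Finset.sum_nonneg fun v hv => wt_nonneg (hψ' v hv))
  have hεu : 0 ≤ 1/2 - ε := by linarith
  have key := dyadic E (ew ψ ψ') (LF11.DD ψ ψ') (ε := ε) (d := Real.exp (-(K*L)))
    (B := Rb^(1/2-ε) * M^(1/2+ε)) hε0 hε4 (Real.exp_pos _) (by positivity)
    (fun p hp => by
      have := Finset.mem_product.1 (hE hp)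
      exact ew_nonneg (hψ _ this.1) (hψ' _ this.2)) hDD
    (fun δ hδ => by
      have h1 := energy_R hε0 hε4 (sys_of_filter (E := E) hδ hV hW hψ hψ' hE)
      refine le_trans h1 ?_
      apply mul_le_mul_of_nonneg_left _ (by positivity)
      apply mul_le_mul_of_nonneg_right _ (by positivity)
      apply Real.rpow_le_rpow _ _ hεu
      · exact Finset.sum_nonneg fun x _ => mul_nonneg (wn_nonneg hκ0 _) (wn_nonneg hκ0 _)
      · refine (sum_types hκ0 hz2 _ ?_).trans ?_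
        · intro x hx
          obtain ⟨p, hp, rfl⟩ := Finset.mem_image.1 hx
          have hp' := (Finset.mem_filter.1 hp).1
          have hm := Finset.mem_product.1 (hE hp')
          exact ⟨cof_pos (hV _ hm.1), cof_pos (hW _ hm.2),
            fun l hl hld => (hsm p hp' l hl hld).trans (le_max_left _ _)⟩
        · rw [hRb]
          apply Real.exp_le_exp.2
          calc 2 * (κ * Sm 6) * (Real.log (Real.log z') + 6)
              = 2 * (κ * Sm 6 * (Real.log (Real.log z') + 6)) := by ring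
            _ ≤ 2 * (C3 * L^(61/80:ℝ)) := by linarith
            _ = _ := by ring)
  refine key.trans ?_
  have hRb2 : Rb^(1/2-ε) ≤ Rb := by
    calc Rb^(1/2-ε) ≤ Rb^(1:ℝ) := Real.rpow_le_rpow_of_exponent_le hRb1 (by linarith)
      _ = Rb := Real.rpow_one _
  have hMp : M^(1/2+ε) ≤ Real.sqrt M * Real.exp (K * L^(3/4:ℝ)) := by
    rcases hM0.eq_or_lt with h | h
    · rw [← h, Real.zero_rpow (by linarith), Real.sqrt_zero, zero_mul]
    · rw [Real.rpow_add h, Real.sqrt_eq_rpow]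
      apply mul_le_mul_of_nonneg_left _ (by positivity)
      calc M^ε ≤ (Real.exp (K*L))^ε := Real.rpow_le_rpow hM0 hM hε0.le
        _ = Real.exp (K * L^(3/4:ℝ)) := by
            rw [← Real.exp_mul, ← hεL]; congr 1; ring
  have hd : ((Real.exp (-(K*L)))⁻¹)^(2*ε) = Real.exp (2 * K * L^(3/4:ℝ)) := by
    rw [← Real.exp_neg, neg_neg, ← Real.exp_mul, ← hεL]; congr 1; ring
  have h2ε : 2/ε ≤ Real.exp (2 * L^(3/4:ℝ)) := by
    have h1 : 2/ε = 2 * L^(1/4:ℝ) := by rw [← hεinv]; ring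
    rw [h1]
    have h2 : L^(1/4:ℝ) ≤ L^(3/4:ℝ) := Real.rpow_le_rpow_of_exponent_le hL1 (by norm_num)
    have h3 := Real.add_one_le_exp (2 * L^(3/4:ℝ))
    linarith
  rw [hd]
  have hsM := Real.sqrt_nonneg M
  calc 2/ε * Real.exp (2 * K * L^(3/4:ℝ)) * (Rb^(1/2-ε) * M^(1/2+ε))
      ≤ Real.exp (2 * L^(3/4:ℝ)) * Real.exp (2 * K * L^(3/4:ℝ)) *
        (Rb * (Real.sqrt M * Real.exp (K * L^(3/4:ℝ)))) := by
        apply mul_le_mul
        · exact mul_le_mul_of_nonneg_right h2ε (Real.exp_pos _).le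
        · exact mul_le_mul hRb2 hMp (by positivity) hRb0.le
        · positivity
        · positivity
    _ = Real.exp ((2 + 3*K) * L^(3/4:ℝ) + 2 * C3 * L^(61/80:ℝ)) * Real.sqrt M := by
        rw [show (2 + 3*K) * L^(3/4:ℝ) + 2 * C3 * L^(61/80:ℝ) = 2 * L^(3/4:ℝ) +
          2 * K * L^(3/4:ℝ) + 2 * C3 * L^(61/80:ℝ) + K * L^(3/4:ℝ) by ring, Real.exp_add,
          Real.exp_add, Real.exp_add]
        ring
    _ ≤ _ := by
        apply mul_le_mul_of_nonneg_right _ hsM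
        apply Real.exp_le_exp.2
        have h1 : L^(3/4:ℝ) ≤ L^(61/80:ℝ) := Real.rpow_le_rpow_of_exponent_le hL1 (by norm_num)
        have h2 : (2 + 3*K) * L^(3/4:ℝ) ≤ (2 + 3*K) * L^(61/80:ℝ) :=
          mul_le_mul_of_nonneg_left h1 (by positivity)
        calc (2 + 3*K) * L^(3/4:ℝ) + 2 * C3 * L^(61/80:ℝ)
            ≤ (2 + 3*K) * L^(61/80:ℝ) + 2 * C3 * L^(61/80:ℝ) := by linarith
          _ = _ := by ring

/-- **imbalance**: nested exact pairs -/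
theorem imb_energy {K : ℝ} (hK : 1 ≤ K) : ∃ L0 : ℝ, 1 ≤ L0 ∧
    ∀ (L A : ℝ) (z : ℕ) (V W : Finset ℕ) (E : Finset (ℕ × ℕ)) (ψ ψ' : ℕ → ℝ),
    L0 ≤ L → Real.exp (L^(4/5:ℝ)) ≤ A → Real.log z ≤ K * L →
    (∀ v ∈ V, 0 < v) → (∀ w ∈ W, 0 < w) → (∀ v ∈ V, 0 ≤ ψ v) → (∀ w ∈ W, 0 ≤ ψ' w) →
    E ⊆ V ×ˢ W →
    (∀ p ∈ E, A * ((cof p.2 p.1 : ℝ) * ψ p.1) ≤ (cof p.1 p.2 : ℝ) * ψ' p.2) →
    (∀ p ∈ E, ∀ l : ℕ, l.Prime → l ∣ cof p.1 p.2 * cof p.2 p.1 → l ≤ z) →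
    (∀ p ∈ E, Real.exp (-(K * L)) ≤ (cof p.2 p.1 : ℝ) * ψ p.1) →
    (∑ v ∈ V, wt ψ v) * (∑ w ∈ W, wt ψ' w) ≤ Real.exp (K * L) →
    ∑ p ∈ E, ew ψ ψ' p / LF11.DD ψ ψ' p
      ≤ A^(-(1/4):ℝ) * Real.sqrt ((∑ v ∈ V, wt ψ v) * (∑ w ∈ W, wt ψ' w)) := by
  classical
  obtain ⟨C, L1, hC, hL1, H⟩ := smooth_energy hK
  obtain ⟨L2, hL2⟩ := Filter.eventually_atTop.1 (ev_pow (4 * C) (61/80) (4/5) (by norm_num))
  refine ⟨max L1 L2, hL1.trans (le_max_left _ _), ?_⟩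
  intro L A z V W E ψ ψ' hL hA hlz hV hW hψ hψ' hE himb hsm hR hM
  have hA0 : 0 < A := lt_of_lt_of_le (Real.exp_pos _) hA
  have hA1 : 1 ≤ A := by
    refine le_trans (Real.one_le_exp ?_) hA
    have : 0 ≤ L := by
      have := (le_max_left L1 L2).trans hL
      linarith
    positivity
  set s : ℝ := Real.sqrt A with hs
  have hs0 : 0 < s := Real.sqrt_pos.2 hA0
  have hss : s * s = A := Real.mul_self_sqrt hA0.le
  have hs1 : 1 ≤ s := by rw [hs]; exact Real.one_le_sqrt.2 hA1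
  have w1 : ∀ v, wt (fun v => s * ψ v) v = s * wt ψ v := fun v => by unfold wt; ring
  have w2 : ∀ v, wt (fun v => ψ' v / s) v = wt ψ' v / s := fun v => by unfold wt; ring
  have hD : ∀ p ∈ E, LF11.DD (fun v => s * ψ v) (fun v => ψ' v / s) p = LF11.DD ψ ψ' p / s ∧
      LF11.DD ψ ψ' p = (cof p.1 p.2 : ℝ) * ψ' p.2 := by
    intro p hp
    have h1 := himb p hp
    have hm := Finset.mem_product.1 (hE hp)
    have h0 : 0 ≤ (cof p.2 p.1 : ℝ) * ψ p.1 := mul_nonneg (by positivity) (hψ _ hm.1)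
    have h3 : LF11.DD ψ ψ' p = (cof p.1 p.2 : ℝ) * ψ' p.2 := by
      unfold LF11.DD
      exact max_eq_right (by nlinarith)
    refine ⟨?_, h3⟩
    rw [h3]
    unfold LF11.DD
    have h2 : (cof p.2 p.1 : ℝ) * (s * ψ p.1) ≤ (cof p.1 p.2 : ℝ) * (ψ' p.2 / s) := by
      rw [← mul_div_assoc, le_div_iff₀ hs0]
      calc (cof p.2 p.1 : ℝ) * (s * ψ p.1) * s = (s * s) * ((cof p.2 p.1 : ℝ) * ψ p.1) := by ring
        _ ≤ _ := by rw [hss]; exact h1
    rw [max_eq_right h2]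
    ring
  have hew : ∀ p, ew (fun v => s * ψ v) (fun v => ψ' v / s) p = ew ψ ψ' p := by
    intro p
    unfold ew
    rw [w1, w2]
    field_simp
  have hMs : (∑ v ∈ V, wt (fun v => s * ψ v) v) * (∑ w ∈ W, wt (fun v => ψ' v / s) w) =
      (∑ v ∈ V, wt ψ v) * (∑ w ∈ W, wt ψ' w) := by
    rw [Finset.sum_congr rfl fun v _ => w1 v, Finset.sum_congr rfl fun v _ => w2 v,
      ← Finset.mul_sum, ← Finset.sum_div]
    field_simp
  have key := H L z V W E (fun v => s * ψ v) (fun v => ψ' v / s)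
    ((le_max_left _ _).trans hL) hlz hV hW
    (fun v hv => mul_nonneg hs0.le (hψ v hv)) (fun w hw => div_nonneg (hψ' w hw) hs0.le) hE hsm
    (fun p hp => by
      obtain ⟨h1, h2⟩ := hD p hp
      rw [h1, h2, le_div_iff₀ hs0]
      have h3 := hR p hp
      have h4 := himb p hp
      have hp0 : 0 < Real.exp (-(K*L)) := Real.exp_pos _
      have hsA : s ≤ A := by rw [← hss]; nlinarith
      calc Real.exp (-(K*L)) * s ≤ ((cof p.2 p.1 : ℝ) * ψ p.1) * A :=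
            mul_le_mul h3 hsA hs0.le (hp0.le.trans h3)
        _ = A * ((cof p.2 p.1 : ℝ) * ψ p.1) := by ring
        _ ≤ _ := h4)
    (by rw [hMs]; exact hM)
  rw [hMs] at key
  have hsum : ∑ p ∈ E, ew (fun v => s * ψ v) (fun v => ψ' v / s) p /
      LF11.DD (fun v => s * ψ v) (fun v => ψ' v / s) p =
      s * ∑ p ∈ E, ew ψ ψ' p / LF11.DD ψ ψ' p := by
    rw [Finset.mul_sum]
    refine Finset.sum_congr rfl fun p hp => ?_
    rw [hew, (hD p hp).1]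
    rw [div_div_eq_mul_div]
    ring
  rw [hsum] at key
  set M : ℝ := (∑ v ∈ V, wt ψ v) * (∑ w ∈ W, wt ψ' w) with hMd
  set Sg := ∑ p ∈ E, ew ψ ψ' p / LF11.DD ψ ψ' p with hSg
  have hsA : s = A^(1/2:ℝ) := by rw [hs, Real.sqrt_eq_rpow]
  have hCA : Real.exp (C * L^(61/80:ℝ)) ≤ A^(1/4:ℝ) := by
    have h1 : (Real.exp (L^(4/5:ℝ)))^(1/4:ℝ) ≤ A^(1/4:ℝ) :=
      Real.rpow_le_rpow (Real.exp_pos _).le hA (by norm_num)
    refine le_trans ?_ h1
    rw [← Real.exp_mul]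
    apply Real.exp_le_exp.2
    have := hL2 L ((le_max_right _ _).trans hL)
    linarith
  have h5 : s * Sg ≤ A^(1/4:ℝ) * Real.sqrt M :=
    key.trans (mul_le_mul_of_nonneg_right hCA (Real.sqrt_nonneg _))
  have h6 : A^(1/4:ℝ) = s * A^(-(1/4):ℝ) := by
    rw [hsA, ← Real.rpow_add hA0]; norm_num
  rw [h6, mul_assoc] at h5
  exact le_of_mul_le_mul_left h5 hs0

end Crest.Agent.R4.ImbE944
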