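import Crest.Agent.R4.InUR944

/-!
R4 (S0004), helper207: same cell, one node, pairs with a large cofactor, **TWO TARGETS and TWO ITEM
SETS** (`ing2_ret`), structured pairs excluded by hypothesis; then the sum over finitely many
targets (`ing_ret`).
-/

set_option autoImplicit false
open Finset

namespace Crest.Agent.R4.InG207

open Crest.Agent.R4.HVW560 Crest.Agent.R4.HVWX793
open Crest.Agent.R4.StopAsm709 Crest.Agent.R4.StopHvw709
open Crest.Agent.R4.Schur709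
open Crest.Agent.R4.ClsS (eps1)
open Crest.Agent.R4.LF363 (Lab)
open Crest.Agent.R4.LF11 (DD ew)
open Crest.Agent.R4.InX944

/-- **same cell, one node, large cofactor, two targets** -/
theorem ing2_ret : ∃ C c0 : ℝ, 1 ≤ C ∧ 0 < c0 ∧ ∀ c1 : ℝ, 0 < c1 → c1 ≤ c0 → ∃ T0 : ℝ, 1 ≤ T0 ∧
    ∀ (X L η θ θ' : ℝ) (n G p : ℕ) (V W : Finset ℕ) (E : Finset (ℕ × ℕ)) (R : ℕ → ℝ)
      (F : ℕ × ℕ → ℝ),
    400 ≤ n → 0 < p → T0 ≤ (2:ℝ)^n → X ≤ Real.exp (((2:ℝ)^n)^c1) → 0 < G →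
    0 < η → 0 ≤ L → E ⊆ V ×ˢ W →
    (∀ w ∈ V, 0 < w ∧ 0 < R w) → (∀ w ∈ W, 0 < w ∧ 0 < R w) →
    (∀ w ∈ V, R w ≤ L * wt R w) → (∀ w ∈ W, R w ≤ L * wt R w) →
    (∀ z : ℝ, X ≤ z → ∀ w ∈ V, Crest.Agent.R4.ClsB.Tame z G w) →
    (∀ z : ℝ, X ≤ z → ∀ w ∈ W, Crest.Agent.R4.ClsB.Tame z G w) →
    (∀ e ∈ E, p ≤ cof e.1 e.2 ∨ p ≤ cof e.2 e.1) →
    (∀ e ∈ E, F e ≤ 2 * ((R e.1 * R e.2) / DP R R e) * (2 * η * DP R R e + 1)) →
    (∀ e ∈ E, 0 < F e → ∃ m m' : ℤ,
      |(m + θ) * (cof e.2 e.1 : ℕ) - (m' + θ') * (cof e.1 e.2 : ℕ)| ≤ η * DP R R e) →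
    (∀ e ∈ E, 0 < F e → ¬ FS n θ θ' (cof e.1 e.2) (cof e.2 e.1) (η * R e.1) (η * R e.2)) →
    ∑ e ∈ E, F e ≤
      6 * η * L^2 * ((∑ q ∈ V, wt R q) * (∑ r ∈ W, wt R r)) +
      6 * L^2 * (n * (2 * KH 1 0 eps1 * (2:ℝ)^(2*eps1*n)) + C * ((2:ℝ)^n)^(-(1/1000):ℝ)) *
        (η^(2*eps1) * ((∑ q ∈ V, wt R q) * (∑ r ∈ W, wt R r))^(1/2+eps1)) +
      6 * (L / p) * (∑ q ∈ V, wt R q + ∑ r ∈ W, wt R r) := by
  classical
  obtain ⟨C, c0, hC1, hc0, hC⟩ := ClsT2.deepHyp_Gen3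
  refine ⟨C, c0, hC1, hc0, ?_⟩
  intro c1 hc1 hc10
  obtain ⟨T0, hT01, hT0⟩ := hC c1 hc1 hc10
  refine ⟨T0, hT01, ?_⟩
  intro X L η θ θ' n G p V W E R F hn hp hTn hX hG hη hL0 hES hV hW hLV hLW hVt hWt hbig hF hrel hU
  have he1 : eps1 = 1/1000 := rfl
  have h2n : (0:ℝ) < (2:ℝ)^n := by positivity
  have hp0 : (0:ℝ) < p := by exact_mod_cast hp
  set Re : ℕ → ℝ := fun w => η * R w with hRe
  set D : ℕ × ℕ → ℝ := DP Re Re with hDdef
  have hDe : ∀ e, D e = η * DP R R e := by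
    intro e
    rw [hDdef]; unfold DP
    rw [mul_max_of_nonneg _ _ hη.le, hRe]
    congr 1 <;> ring
  have hDc : ∀ e, Dc ∅ ∅ Re Re e = D e := fun e => Dc_empty Re Re e
  have hmem : ∀ e ∈ E, e.1 ∈ V ∧ e.2 ∈ W := fun e he => Finset.mem_product.1 (hES he)
  have hDpos0 : ∀ e ∈ E, 0 < DP R R e := fun e he => DP_pos (hW _ (hmem e he).2).1 (hV _ (hmem e he).1).2
  have hDpos : ∀ e ∈ E, 0 < D e := fun e he => by rw [hDe]; exact mul_pos hη (hDpos0 e he)
  have hmu : ∀ q ∈ V, 0 ≤ wt R q := fun q hq => by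
    unfold wt; exact mul_nonneg (hV q hq).2.le (by positivity)
  have hmu' : ∀ q ∈ W, 0 ≤ wt R q := fun q hq => by
    unfold wt; exact mul_nonneg (hW q hq).2.le (by positivity)
  have hM0 := Finset.sum_nonneg hmu
  have hM0' := Finset.sum_nonneg hmu'
  have hwe : ∀ q, wt Re q = η * wt R q := fun q => by unfold wt; rw [hRe]; ring
  have hsum : ∀ S : Finset ℕ, ∑ q ∈ S, wt Re q = η * ∑ q ∈ S, wt R q := by
    intro S
    rw [Finset.mul_sum]; exact Finset.sum_congr rfl fun q _ => hwe q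
  have hsmu : ∀ S : Finset ℕ, ∑ q ∈ S, mu ∅ Re q = η * ∑ q ∈ S, wt R q := by
    intro S
    rw [← hsum]; exact Finset.sum_congr rfl fun q _ => mu_empty Re q
  -- bounds
  have hF6 : ∀ e ∈ E, D e ≤ 1 → F e ≤ 6 * ((R e.1 * R e.2) / DP R R e) := by
    intro e he hD1
    rw [hDe] at hD1
    have hD := hDpos0 e he
    have hR := (hV _ (hmem e he).1).2
    have hR' := (hW _ (hmem e he).2).2
    calc F e ≤ 2 * ((R e.1 * R e.2) / DP R R e) * (2 * η * DP R R e + 1) := hF e he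
      _ ≤ 2 * ((R e.1 * R e.2) / DP R R e) * 3 := by
          apply mul_le_mul_of_nonneg_left _ (by positivity)
          nlinarith
      _ = _ := by ring
  have hRR : ∀ e ∈ E, R e.1 * R e.2 ≤ L^2 * (wt R e.1 * wt R e.2) := by
    intro e he
    have h1 := hLV _ (hmem e he).1
    have h2 := hLW _ (hmem e he).2
    have h5 : 0 ≤ L * wt R e.1 := (hV _ (hmem e he).1).2.le.trans h1
    calc R e.1 * R e.2 ≤ (L * wt R e.1) * (L * wt R e.2) :=
          mul_le_mul h1 h2 (hW _ (hmem e he).2).2.le h5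
      _ = _ := by ring
  have hFmu : ∀ e ∈ E, D e ≤ 1 → F e ≤ (6/η) * L^2 * ((wt Re e.1 * wt Re e.2) / D e) := by
    intro e he hD1
    have hD := hDpos0 e he
    calc F e ≤ 6 * ((R e.1 * R e.2) / DP R R e) := hF6 e he hD1
      _ ≤ 6 * ((L^2 * (wt R e.1 * wt R e.2)) / DP R R e) :=
          mul_le_mul_of_nonneg_left (div_le_div_of_nonneg_right (hRR e he) hD.le) (by norm_num)
      _ = _ := by rw [hDe, hwe, hwe]; field_simp
  set PA : ℕ × ℕ → Prop := fun e => AltS n θ θ' (cof e.1 e.2) (cof e.2 e.1) (Re e.1) (Re e.2) with hPA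
  set PE : ℕ × ℕ → Prop := fun e => ES θ θ' (cof e.1 e.2) (cof e.2 e.1) (Re e.1) (Re e.2) with hPE
  set EN := E.filter (fun e => D e ≤ 1) with hEN
  set EM := E.filter (fun e => ¬ D e ≤ 1) with hEM
  set EY := EN.filter (fun e => (1/2:ℝ)^n < D e) with hEY
  set EX' := EN.filter (fun e => ¬ (1/2:ℝ)^n < D e) with hEX'
  set EG' := EX'.filter (fun e => PA e) with hEG'
  set EH := EX'.filter (fun e => ¬ PA e) with hEH
  set EE := EH.filter (fun e => PE e) with hEE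
  set ER := EH.filter (fun e => ¬ PE e) with hER
  set E1 := EE.filter (fun e => p ≤ cof e.1 e.2) with hE1
  set E2 := EE.filter (fun e => ¬ p ≤ cof e.1 e.2) with hE2
  have hsplit : ∑ e ∈ E, F e = (∑ e ∈ EY, F e +
      (∑ e ∈ EG', F e + ((∑ e ∈ E1, F e + ∑ e ∈ E2, F e) + ∑ e ∈ ER, F e))) + ∑ e ∈ EM, F e := by
    rw [hE1, hE2, Finset.sum_filter_add_sum_filter_not, hEE, hER,
      Finset.sum_filter_add_sum_filter_not, hEG', hEH,
      Finset.sum_filter_add_sum_filter_not, hEY, hEX', Finset.sum_filter_add_sum_filter_not, hEN,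
      hEM, Finset.sum_filter_add_sum_filter_not]
  have hENP : ∀ e ∈ EN, e ∈ E ∧ D e ≤ 1 := fun e he => Finset.mem_filter.1 he
  have hEYP : ∀ e ∈ EY, e ∈ EN := fun e he => (Finset.mem_filter.1 he).1
  have hEXP : ∀ e ∈ EX', e ∈ EN := fun e he => (Finset.mem_filter.1 he).1
  have hEGP : ∀ e ∈ EG', e ∈ EX' := fun e he => (Finset.mem_filter.1 he).1
  have hEHP : ∀ e ∈ EH, e ∈ EX' := fun e he => (Finset.mem_filter.1 he).1
  have hEEP : ∀ e ∈ EE, e ∈ EH := fun e he => (Finset.mem_filter.1 he).1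
  have hERP : ∀ e ∈ ER, e ∈ EH := fun e he => (Finset.mem_filter.1 he).1
  have hE1P : ∀ e ∈ E1, e ∈ EE := fun e he => (Finset.mem_filter.1 he).1
  have hE2P : ∀ e ∈ E2, e ∈ EE := fun e he => (Finset.mem_filter.1 he).1
  have hpow : (1/2:ℝ)^n = 1/2^n := by rw [div_pow, one_pow]
  have hEXD : ∀ e ∈ EX', D e ≤ 1/2^n := by
    intro e he
    have := not_lt.1 (Finset.mem_filter.1 he).2
    rw [hpow] at this
    exact this
  have hOe : ∀ p ∈ (∅ : Finset ℕ), p.Prime ∧ 0 ≤ p := fun p hp => absurd hp (Finset.notMem_empty p)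
  have hVe : ∀ w ∈ V, 0 < w ∧ 0 < Re w := fun w hw => ⟨(hV w hw).1, mul_pos hη (hV w hw).2⟩
  have hWe : ∀ w ∈ W, 0 < w ∧ 0 < Re w := fun w hw => ⟨(hW w hw).1, mul_pos hη (hW w hw).2⟩
  -- dyadic part
  have boundY := mid_dyadic (ε := eps1) (by rw [he1]; norm_num) (by rw [he1]; norm_num) (N := 0)
    (O := ∅) (O' := ∅) (V := V) (W := W) (R := Re) (R' := Re) hOe hOe hVe hWe (c := 0) (c' := 0)
    (fun r _ => by simp) (fun r _ => by simp) (K := (6/η) * L^2) (by positivity) (F := F) n EY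
    (fun e he => hES (hENP e (hEYP e he)).1)
    (fun e he => by rw [hDc]; exact (hENP e (hEYP e he)).2)
    (fun e he => by rw [hDc]; exact (Finset.mem_filter.1 he).2)
    (fun e he => by
      rw [hDc, mu_empty, mu_empty]
      exact hFmu e (hENP e (hEYP e he)).1 (hENP e (hEYP e he)).2)
  -- deep part
  have hDD : ∀ e, DD Re Re e = D e := fun e => by unfold DD; rfl
  have boundG := hT0 θ θ' ((2:ℝ)^n) X ((6/η) * L^2) V W EG' Re Re F G hTn hX (by positivity) hG hVe hWe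
    hVt hWt (fun e he => hES (hENP e (hEXP e (hEGP e he))).1)
    (fun e he => by rw [hDD]; exact hEXD e (hEGP e he))
    (fun e he => by
      rw [hDD]
      have h := hENP e (hEXP e (hEGP e he))
      refine (hFmu e h.1 h.2).trans ?_
      apply mul_le_mul_of_nonneg_left _ (by positivity)
      apply div_le_div_of_nonneg_right _ (hDpos e h.1).le
      unfold ew
      have f1 := Crest.Agent.R4.ClsS.one_le_Af (cof e.1 e.2)
      have f2 := Crest.Agent.R4.ClsS.one_le_Af (cof e.2 e.1)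
      have f4 : 0 ≤ wt Re e.1 * wt Re e.2 := by
        rw [hwe, hwe]
        exact mul_nonneg (mul_nonneg hη.le (hmu _ (hmem e h.1).1)) (mul_nonneg hη.le (hmu' _ (hmem e h.1).2))
      exact le_mul_of_one_le_right f4 (by nlinarith))
    (by
      intro e he t ht h1 h2 hFe
      rw [hDD] at h1 h2
      obtain ⟨m, m', hm⟩ := hrel e (hENP e (hEXP e (hEGP e he))).1 hFe
      refine gen3_of (m := m) (m' := m') ?_ (Finset.mem_filter.1 he).2 ht h1 h2
      have h3 : max ((cof e.2 e.1 : ℝ) * Re e.1) ((cof e.1 e.2 : ℝ) * Re e.2) = D e := rfl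
      rw [h3, hDe]
      have h4 : 0 < η * DP R R e := mul_pos hη (hDpos0 e (hENP e (hEXP e (hEGP e he))).1)
      linarith)
  -- the partner parts
  have hEpair : ∀ e ∈ EE, Dich579.EPair (fun t => t^(1/20:ℝ)) θ θ' Re Re e.1 e.2 := by
    intro e he
    exact (Finset.mem_filter.1 he).2
  have boundE1 : ∑ e ∈ E1, F e ≤ 6 * (L / p) * ∑ q ∈ V, wt R q := by
    have hinj : Set.InjOn Prod.fst (E1 : Set (ℕ × ℕ)) := by
      intro e he f hf h1
      have ae := hEpair e (hE1P e (Finset.mem_coe.1 he))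
      have af := hEpair f (hE1P f (Finset.mem_coe.1 hf))
      rw [← h1] at af
      exact Prod.ext h1 (Dich579.partner ae af)
    have hone : ∀ e ∈ E1, F e ≤ 6 * (L / p) * wt R e.1 := by
      intro e he
      have heN := hENP e (hEXP e (hEHP e (hEEP e (hE1P e he))))
      have h := hmem e heN.1
      have hx : (p : ℝ) ≤ (cof e.1 e.2 : ℕ) := by exact_mod_cast (Finset.mem_filter.1 he).2
      have hR' := (hW _ h.2).2
      have hR := (hV _ h.1).2
      have hD0 := hDpos0 e heN.1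
      have hDx : (p : ℝ) * R e.2 ≤ DP R R e :=
        (mul_le_mul_of_nonneg_right hx hR'.le).trans (le_max_right _ _)
      calc F e ≤ 6 * ((R e.1 * R e.2) / DP R R e) := hF6 e heN.1 heN.2
        _ ≤ 6 * (R e.1 / p) := by
            apply mul_le_mul_of_nonneg_left _ (by norm_num)
            rw [div_le_div_iff₀ hD0 hp0]
            calc R e.1 * R e.2 * p = R e.1 * (p * R e.2) := by ring
              _ ≤ R e.1 * DP R R e := mul_le_mul_of_nonneg_left hDx hR.le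
        _ ≤ 6 * ((L * wt R e.1) / p) :=
            mul_le_mul_of_nonneg_left (div_le_div_of_nonneg_right (hLV _ h.1) hp0.le) (by norm_num)
        _ = _ := by ring
    calc ∑ e ∈ E1, F e ≤ ∑ e ∈ E1, 6 * (L / p) * wt R e.1 := Finset.sum_le_sum hone
      _ = ∑ q ∈ E1.image Prod.fst, 6 * (L / p) * wt R q := by rw [Finset.sum_image hinj]
      _ ≤ ∑ q ∈ V, 6 * (L / p) * wt R q := by
          apply Finset.sum_le_sum_of_subset_of_nonneg
          · intro q hq
            obtain ⟨e, he, rfl⟩ := Finset.mem_image.1 hq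
            exact (hmem e (hENP e (hEXP e (hEHP e (hEEP e (hE1P e he))))).1).1
          · intro q hq _
            have := hmu q hq
            positivity
      _ = _ := by rw [Finset.mul_sum]
  have boundE2 : ∑ e ∈ E2, F e ≤ 6 * (L / p) * ∑ q ∈ W, wt R q := by
    have hinj : Set.InjOn Prod.snd (E2 : Set (ℕ × ℕ)) := by
      intro e he f hf h1
      have ae := hEpair e (hE2P e (Finset.mem_coe.1 he))
      have af := hEpair f (hE2P f (Finset.mem_coe.1 hf))
      rw [← h1] at af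
      exact Prod.ext (Dich579.partner' ae af) h1
    have hone : ∀ e ∈ E2, F e ≤ 6 * (L / p) * wt R e.2 := by
      intro e he
      have heN := hENP e (hEXP e (hEHP e (hEEP e (hE2P e he))))
      have h := hmem e heN.1
      have hy : (p : ℝ) ≤ (cof e.2 e.1 : ℕ) := by
        have h2 := (Finset.mem_filter.1 he).2
        rcases hbig e heN.1 with h3 | h3
        · exact absurd h3 h2
        · exact_mod_cast h3
      have hR' := (hW _ h.2).2
      have hR := (hV _ h.1).2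
      have hD0 := hDpos0 e heN.1
      have hDx : (p : ℝ) * R e.1 ≤ DP R R e :=
        (mul_le_mul_of_nonneg_right hy hR.le).trans (le_max_left _ _)
      calc F e ≤ 6 * ((R e.1 * R e.2) / DP R R e) := hF6 e heN.1 heN.2
        _ ≤ 6 * (R e.2 / p) := by
            apply mul_le_mul_of_nonneg_left _ (by norm_num)
            rw [div_le_div_iff₀ hD0 hp0]
            calc R e.1 * R e.2 * p = R e.2 * (p * R e.1) := by ring
              _ ≤ R e.2 * DP R R e := mul_le_mul_of_nonneg_left hDx hR'.le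
        _ ≤ 6 * ((L * wt R e.2) / p) :=
            mul_le_mul_of_nonneg_left (div_le_div_of_nonneg_right (hLW _ h.2) hp0.le) (by norm_num)
        _ = _ := by ring
    calc ∑ e ∈ E2, F e ≤ ∑ e ∈ E2, 6 * (L / p) * wt R e.2 := Finset.sum_le_sum hone
      _ = ∑ q ∈ E2.image Prod.snd, 6 * (L / p) * wt R q := by rw [Finset.sum_image hinj]
      _ ≤ ∑ q ∈ W, 6 * (L / p) * wt R q := by
          apply Finset.sum_le_sum_of_subset_of_nonneg
          · intro q hq
            obtain ⟨e, he, rfl⟩ := Finset.mem_image.1 hq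
            exact (hmem e (hENP e (hEXP e (hEHP e (hEEP e (hE2P e he))))).1).2
          · intro q hq _
            have := hmu' q hq
            positivity
      _ = _ := by rw [Finset.mul_sum]
  -- the rest is not positive
  have boundR : ∑ e ∈ ER, F e ≤ 0 := by
    refine Finset.sum_nonpos fun e he => ?_
    by_contra hpos
    push Not at hpos
    have heX := hEHP e (hERP e he)
    have heP := (hENP e (hEXP e heX)).1
    have h := hmem e heP
    obtain ⟨m, m', hm⟩ := hrel e heP hpos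
    have hcl := classify_num hn (θ := θ) (θ' := θ') (x := cof e.1 e.2)
      (y := cof e.2 e.1) (r := Re e.1) (r' := Re e.2) (m := m) (m' := m')
      (cof_pos (hV _ h.1).1) (cof_pos (hW _ h.2).1) (hVe _ h.1).2 (hWe _ h.2).2 (by
        have h3 : max ((cof e.2 e.1 : ℝ) * Re e.1) ((cof e.1 e.2 : ℝ) * Re e.2) = D e := rfl
        rw [h3, hDe]
        have h4 : 0 < η * DP R R e := mul_pos hη (hDpos0 e heP)
        linarith)
    rcases hcl with h3 | h3 | h3
    · exact (Finset.mem_filter.1 (hERP e he)).2 h3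
    · exact (Finset.mem_filter.1 he).2 h3
    · exact hU e heP hpos h3
  -- generic part
  have boundM : ∑ e ∈ EM, F e ≤ 6 * η * L^2 * ((∑ q ∈ V, wt R q) * (∑ q ∈ W, wt R q)) := by
    have h1 : ∀ e ∈ EM, F e ≤ 6 * η * L^2 * (wt R e.1 * wt R e.2) := by
      intro e he
      obtain ⟨heP, hD1⟩ := Finset.mem_filter.1 he
      rw [hDe] at hD1
      have hD1' := (not_le.1 hD1).le
      have hD := hDpos0 e heP
      have h := hmem e heP
      have hR := (hV _ h.1).2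
      have hR' := (hW _ h.2).2
      calc F e ≤ 2 * ((R e.1 * R e.2) / DP R R e) * (2 * η * DP R R e + 1) := hF e heP
        _ ≤ 2 * ((R e.1 * R e.2) / DP R R e) * (3 * (η * DP R R e)) := by
            apply mul_le_mul_of_nonneg_left _ (by positivity)
            linarith
        _ = 6 * η * (R e.1 * R e.2) := by field_simp; ring
        _ ≤ 6 * η * (L^2 * (wt R e.1 * wt R e.2)) :=
            mul_le_mul_of_nonneg_left (hRR e heP) (by positivity)
        _ = _ := by ring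
    calc ∑ e ∈ EM, F e ≤ ∑ e ∈ EM, 6 * η * L^2 * (wt R e.1 * wt R e.2) := Finset.sum_le_sum h1
      _ ≤ ∑ e ∈ V ×ˢ W, 6 * η * L^2 * (wt R e.1 * wt R e.2) := by
          apply Finset.sum_le_sum_of_subset_of_nonneg
            ((Finset.filter_subset _ _).trans hES)
          intro e he _
          have h := Finset.mem_product.1 he
          have := hmu _ h.1
          have := hmu' _ h.2
          positivity
      _ = _ := by
          rw [← Finset.mul_sum, Finset.sum_product, Finset.sum_mul_sum]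
  rw [hsmu, hsmu] at boundY
  rw [hsum, hsum] at boundG
  set M := ∑ q ∈ V, wt R q with hM
  set M' := ∑ q ∈ W, wt R q with hM'
  have z1 : Real.exp ((1/2-eps1) * (-(((0:ℕ):ℝ) * 0) + 3 * (∑ p ∈ (∅ : Finset ℕ), 1/(p:ℝ)) +
      (-(((0:ℕ):ℝ) * 0) + 3 * ∑ p ∈ (∅ : Finset ℕ), 1/(p:ℝ)))) = 1 := by
    simp
  rw [z1] at boundY
  have e3 : (η * M * (η * M'))^(1/2+eps1) = η * (η^(2*eps1) * (M * M')^(1/2+eps1)) := by
    have h1 : η * M * (η * M') = η^(2:ℝ) * (M * M') := by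
      rw [Real.rpow_two]; ring
    rw [h1, Real.mul_rpow (by positivity) (mul_nonneg hM0 hM0'), ← Real.rpow_mul hη.le]
    have h2 : (2:ℝ) * (1/2+eps1) = 1 + 2 * eps1 := by ring
    rw [h2, Real.rpow_add hη, Real.rpow_one]
    ring
  rw [e3] at boundY boundG
  rw [hsplit]
  set Y1 := η^(2*eps1) * (M * M')^(1/2+eps1) with hY1
  have hfin : 6 * L^2 * (n * (2 * KH 1 0 eps1 * (2:ℝ)^(2*eps1*n)) + C * ((2:ℝ)^n)^(-(1/1000):ℝ)) * Y1
      = n * (2 * ((6/η) * L^2) * KH 1 0 eps1 * (2:ℝ)^(2*eps1*n)) * (1 * (η * Y1)) +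
        C * ((6/η) * L^2) * ((2:ℝ)^n)^(-(1/1000):ℝ) * (η * Y1) := by
    field_simp
  rw [hfin]
  have e5 : 6 * (L / p) * (M + M') = 6 * (L / p) * M + 6 * (L / p) * M' := by ring
  rw [e5]
  linarith

/-- **same cell, one node, large cofactor, finitely many targets** (`ct` = target of an item) -/
theorem ing_ret : ∃ C c0 : ℝ, 1 ≤ C ∧ 0 < c0 ∧ ∀ c1 : ℝ, 0 < c1 → c1 ≤ c0 → ∃ T0 : ℝ, 1 ≤ T0 ∧
    ∀ (X L η : ℝ) (n G p N : ℕ) (S : Finset ℕ) (E : Finset (ℕ × ℕ)) (R ct : ℕ → ℝ)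
      (F : ℕ × ℕ → ℝ),
    400 ≤ n → 0 < p → T0 ≤ (2:ℝ)^n → X ≤ Real.exp (((2:ℝ)^n)^c1) → 0 < G →
    0 < η → 0 ≤ L → E ⊆ S ×ˢ S → (S.image ct).card ≤ N →
    (∀ w ∈ S, 0 < w ∧ 0 < R w) → (∀ w ∈ S, R w ≤ L * wt R w) →
    (∀ z : ℝ, X ≤ z → ∀ w ∈ S, Crest.Agent.R4.ClsB.Tame z G w) →
    (∀ e ∈ E, p ≤ cof e.1 e.2 ∨ p ≤ cof e.2 e.1) →
    (∀ e ∈ E, F e ≤ 2 * ((R e.1 * R e.2) / DP R R e) * (2 * η * DP R R e + 1)) →
    (∀ e ∈ E, 0 < F e → ∃ m m' : ℤ,
      |(m + ct e.1) * (cof e.2 e.1 : ℕ) - (m' + ct e.2) * (cof e.1 e.2 : ℕ)| ≤ η * DP R R e) →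
    (∀ e ∈ E, 0 < F e →
      ¬ FS n (ct e.1) (ct e.2) (cof e.1 e.2) (cof e.2 e.1) (η * R e.1) (η * R e.2)) →
    ∑ e ∈ E, F e ≤
      6 * η * L^2 * (∑ q ∈ S, wt R q)^2 +
      (N:ℝ)^2 * (6 * L^2 * (n * (2 * KH 1 0 eps1 * (2:ℝ)^(2*eps1*n)) +
        C * ((2:ℝ)^n)^(-(1/1000):ℝ)) *
        (η^(2*eps1) * ((∑ q ∈ S, wt R q) * (∑ r ∈ S, wt R r))^(1/2+eps1))) +
      12 * N * (L / p) * ∑ q ∈ S, wt R q := by
  classical
  obtain ⟨C, c0, hC1, hc0, hC⟩ := ing2_ret
  refine ⟨C, c0, hC1, hc0, ?_⟩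
  intro c1 hc1 hc10
  obtain ⟨T0, hT01, hT0⟩ := hC c1 hc1 hc10
  refine ⟨T0, hT01, ?_⟩
  intro X L η n G p N S E R ct F hn hp hTn hX hG hη hL0 hES hN hS hLS hSt hbig hF hrel hU
  have he1 : eps1 = 1/1000 := rfl
  set K := S.image ct with hK
  set Sc : ℝ → Finset ℕ := fun a => S.filter (fun q => ct q = a) with hSc
  set Ec : ℝ × ℝ → Finset (ℕ × ℕ) := fun a => E.filter (fun e => (ct e.1, ct e.2) = a) with hEc
  have hmu : ∀ q ∈ S, 0 ≤ wt R q := fun q hq => by
    unfold wt; exact mul_nonneg (hS q hq).2.le (by positivity)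
  set m : ℝ → ℝ := fun a => ∑ q ∈ Sc a, wt R q with hm
  set M := ∑ q ∈ S, wt R q with hM
  have hm0 : ∀ a, 0 ≤ m a := fun a => Finset.sum_nonneg fun q hq => hmu q (Finset.mem_filter.1 hq).1
  have hM0 : 0 ≤ M := Finset.sum_nonneg hmu
  have hmM : ∀ a, m a ≤ M := fun a =>
    Finset.sum_le_sum_of_subset_of_nonneg (Finset.filter_subset _ _) fun q hq _ => hmu q hq
  have hmsum : ∑ a ∈ K, m a = M := by
    rw [hm, hM, hK]
    exact Finset.sum_fiberwise_of_maps_to (fun q hq => Finset.mem_image_of_mem ct hq) _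
  have hsum : ∑ e ∈ E, F e = ∑ a ∈ K ×ˢ K, ∑ e ∈ Ec a, F e := by
    symm
    apply Finset.sum_fiberwise_of_maps_to
    intro e he
    have h := Finset.mem_product.1 (hES he)
    exact Finset.mem_product.2 ⟨Finset.mem_image_of_mem ct h.1, Finset.mem_image_of_mem ct h.2⟩
  set B := 6 * L^2 * (n * (2 * KH 1 0 eps1 * (2:ℝ)^(2*eps1*n)) + C * ((2:ℝ)^n)^(-(1/1000):ℝ)) with hB
  have hB0 : 0 ≤ B := by
    have := (KH_pos 1 0 eps1).le
    positivity
  have hone : ∀ a ∈ K ×ˢ K, ∑ e ∈ Ec a, F e ≤ 6 * η * L^2 * (m a.1 * m a.2) +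
      B * (η^(2*eps1) * (M * M)^(1/2+eps1)) + 6 * (L / p) * (m a.1 + m a.2) := by
    intro a _
    have hE : ∀ e ∈ Ec a, e ∈ E ∧ ct e.1 = a.1 ∧ ct e.2 = a.2 := by
      intro e he
      obtain ⟨h1, h2⟩ := Finset.mem_filter.1 he
      exact ⟨h1, congrArg Prod.fst h2, congrArg Prod.snd h2⟩
    have key := hT0 X L η a.1 a.2 n G p (Sc a.1) (Sc a.2) (Ec a) R F hn hp hTn hX hG hη hL0
      (fun e he => by
        obtain ⟨h1, h2, h3⟩ := hE e he
        have h := Finset.mem_product.1 (hES h1)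
        exact Finset.mem_product.2 ⟨Finset.mem_filter.2 ⟨h.1, h2⟩, Finset.mem_filter.2 ⟨h.2, h3⟩⟩)
      (fun w hw => hS w (Finset.mem_filter.1 hw).1) (fun w hw => hS w (Finset.mem_filter.1 hw).1)
      (fun w hw => hLS w (Finset.mem_filter.1 hw).1) (fun w hw => hLS w (Finset.mem_filter.1 hw).1)
      (fun z hz w hw => hSt z hz w (Finset.mem_filter.1 hw).1)
      (fun z hz w hw => hSt z hz w (Finset.mem_filter.1 hw).1)
      (fun e he => hbig e (hE e he).1) (fun e he => hF e (hE e he).1)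
      (fun e he hpos => by
        obtain ⟨h1, h2, h3⟩ := hE e he
        have := hrel e h1 hpos
        rw [h2, h3] at this
        exact this)
      (fun e he hpos => by
        obtain ⟨h1, h2, h3⟩ := hE e he
        have := hU e h1 hpos
        rw [h2, h3] at this
        exact this)
    refine key.trans ?_
    have h1 : (m a.1 * m a.2)^(1/2+eps1) ≤ (M * M)^(1/2+eps1) :=
      Real.rpow_le_rpow (mul_nonneg (hm0 _) (hm0 _)) (mul_le_mul (hmM _) (hmM _) (hm0 _) hM0)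
        (by rw [he1]; norm_num)
    have h2 : B * (η^(2*eps1) * (m a.1 * m a.2)^(1/2+eps1)) ≤
        B * (η^(2*eps1) * (M * M)^(1/2+eps1)) := by
      apply mul_le_mul_of_nonneg_left _ hB0
      exact mul_le_mul_of_nonneg_left h1 (by positivity)
    linarith
  rw [hsum]
  refine (Finset.sum_le_sum hone).trans ?_
  rw [Finset.sum_add_distrib, Finset.sum_add_distrib]
  have k0 : (K.card : ℝ) ≤ N := by exact_mod_cast hN
  have kk : ((K ×ˢ K).card : ℝ) ≤ (N:ℝ)^2 := by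
    rw [Finset.card_product]; push_cast
    rw [sq]
    exact mul_le_mul k0 k0 (Nat.cast_nonneg _) (Nat.cast_nonneg _)
  have s1 : ∑ a ∈ K ×ˢ K, 6 * η * L^2 * (m a.1 * m a.2) = 6 * η * L^2 * M^2 := by
    rw [← Finset.mul_sum, Finset.sum_product]
    congr 1
    rw [← hmsum, sq, Finset.sum_mul_sum]
  have s2 : ∑ a ∈ K ×ˢ K, B * (η^(2*eps1) * (M * M)^(1/2+eps1)) ≤
      (N:ℝ)^2 * (B * (η^(2*eps1) * (M * M)^(1/2+eps1))) := by
    rw [Finset.sum_const, nsmul_eq_mul]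
    exact mul_le_mul_of_nonneg_right kk (by positivity)
  have s3 : ∑ a ∈ K ×ˢ K, 6 * (L / p) * (m a.1 + m a.2) ≤ 12 * N * (L / p) * M := by
    rw [← Finset.mul_sum, Finset.sum_add_distrib, Finset.sum_product, Finset.sum_product]
    simp only [Finset.sum_const, nsmul_eq_mul]
    rw [← Finset.mul_sum, hmsum]
    have : (K.card : ℝ) * M ≤ N * M := mul_le_mul_of_nonneg_right k0 hM0
    have hLp : 0 ≤ L / p := by positivity
    nlinarith [mul_le_mul_of_nonneg_left this hLp]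
  rw [s1]
  linarith

end Crest.Agent.R4.InG207
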