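import Crest.Agent.R4.InSX944

/-!
R4 (S0004), helper944: the structured classes `FSe` (one node) and `FPe` (crossing at `b`) left by
`inG` and `inGX`: labels and exactness for ALL centres of the relation.
-/

set_option autoImplicit false
open Finset

namespace Crest.Agent.R4.InX944

open Crest.Agent.R4.HVW560 Crest.Agent.R4.HVWX793
open Crest.Agent.R4.StopAsm709 Crest.Agent.R4.StopHvw709
open Crest.Agent.R4.Schur709
open Crest.Agent.R4.LF363 (Lab lab_unique)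
open Crest.Agent.R4.Dich579 (FF)

/-- labels of an `FSe` pair: structured labels at the radii `η R`, `η R'`; every pair of centres with
the relation is exact for them. -/
theorem FSe.labels {n : ℕ} {η θ θ' : ℝ} {R R' : ℕ → ℝ} {e : ℕ × ℕ} (hη : 0 < η)
    (h : FSe n η θ θ' R R' e) :
    ∃ (t : ℝ) (ρ ρ' : ℚ), (2:ℝ)^n ≤ t ∧ η * DP R R' e ≤ 1/t ∧
      Lab θ (η * R e.1) ρ ∧ Lab θ' (η * R' e.2) ρ' ∧
      (ρ.den:ℝ) ≤ t^(21/200:ℝ) ∧ (ρ'.den:ℝ) ≤ t^(21/200:ℝ) ∧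
      |θ - ρ| ≤ t^(39/200:ℝ) * (η * R e.1) ∧ |θ' - ρ'| ≤ t^(39/200:ℝ) * (η * R' e.2) ∧
      ∀ a a' : ℤ, |(a + θ) * (cof e.2 e.1 : ℕ) - (a' + θ') * (cof e.1 e.2 : ℕ)| ≤ η * DP R R' e →
        ((a:ℝ) + ρ) * (cof e.2 e.1 : ℕ) = (a' + ρ') * (cof e.1 e.2 : ℕ) := by
  obtain ⟨t, m, m', ρ, ρ', ht, hlo, hD, -, hFF, -⟩ := h
  have hDe : max ((cof e.2 e.1 : ℝ) * (η * R e.1)) ((cof e.1 e.2 : ℝ) * (η * R' e.2))
      = η * DP R R' e := by
    unfold DP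
    rw [mul_max_of_nonneg _ _ hη.le]
    congr 1 <;> ring
  rw [hDe] at hD hlo
  have ht0 : 0 < t := lt_of_lt_of_le (by positivity) ht
  refine ⟨t, ρ, ρ', ht, hD, hFF.lab, hFF.lab', hFF.den, hFF.den', hFF.near, hFF.near', ?_⟩
  intro a a' ha
  refine hFF.exact a a' (ha.trans (hD.trans ?_))
  exact div_le_div_of_nonneg_right (by norm_num) ht0.le

/-- accident of the prime `b` for the target `θ'` at the scale `t` -/
def Bad (b : ℕ) (θ' t : ℝ) : Prop :=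
  ∃ (k : ℕ) (h : ℤ), 0 < k ∧ (k:ℝ) ≤ t^(21/200:ℝ) ∧ ¬ (b:ℤ) ∣ h ∧ |k * (b * θ') - h| ≤ t^(-(7/10):ℝ)

/-- labels of an `FPe` pair (`b ∣ e.1`, `b ∤ e.2`): either the prime `b` is accidental for the target
`θ'` of the item without `b`, or there are structured labels of `θ` and of `θ'` itself at the radii
`η R`, `η R'` and every pair of centres with the relation is exact for them. -/
theorem FPe.labels {b n : ℕ} {η θ θ' : ℝ} {R R' : ℕ → ℝ} {e : ℕ × ℕ} (hb : b.Prime) (hn : 400 ≤ n)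
    (hη : 0 < η) (h : FPe b n η θ θ' R R' e) (h1 : 0 < e.1) (hb1 : b ∣ e.1)
    (hb2 : ¬ b ∣ e.2) (hR' : 0 < R' e.2) :
    ∃ (t : ℝ) (ρ : ℚ), (2:ℝ)^n ≤ t ∧ η * DP R R' e ≤ 1/t ∧ 1/(2*t) < η * DP R R' e ∧
      b * (η * R' e.2) ≤ 1/t ∧
      Lab θ (η * R e.1) ρ ∧ (ρ.den:ℝ) ≤ t^(21/200:ℝ) ∧ |θ - ρ| ≤ t^(39/200:ℝ) * (η * R e.1) ∧
      (Bad b θ' t ∨ ∃ σ : ℚ, (σ.den:ℝ) ≤ t^(21/200:ℝ) ∧ |θ' - σ| ≤ t^(39/200:ℝ) * (η * R' e.2) ∧
        ∀ a a' : ℤ, |(a + θ) * (cof e.2 e.1 : ℕ) - (a' + θ') * (cof e.1 e.2 : ℕ)| ≤ η * DP R R' e →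
          ((a:ℝ) + ρ) * (cof e.2 e.1 : ℕ) = (a' + σ) * (cof e.1 e.2 : ℕ)) := by
  obtain ⟨t, m, m', ρ, ρ', ht, hlo, hD, -, hFF, -⟩ := h
  have hb0 : (0:ℝ) < b := by exact_mod_cast hb.pos
  have ht400 : (2:ℝ)^400 ≤ t := le_trans (pow_le_pow_right₀ (by norm_num) hn) ht
  have ht0 : 0 < t := lt_of_lt_of_le (by positivity) ht400
  obtain ⟨ec1, ec2⟩ := cof_mul_left hb hb1 hb2 h1
  have hDe : max ((cof (b * e.2) e.1 : ℝ) * (η * R e.1))
      ((cof e.1 (b * e.2) : ℝ) * (b * (η * R' e.2))) = η * DP R R' e := by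
    unfold DP
    rw [mul_max_of_nonneg _ _ hη.le, ec2, ← ec1]
    push_cast
    congr 1 <;> ring
  rw [hDe] at hD hlo
  have hx : (1:ℝ) ≤ cof e.1 (b * e.2) := by exact_mod_cast (cof_pos h1 : 0 < cof e.1 (b * e.2))
  have hr't : b * (η * R' e.2) ≤ 1/t := by
    have h0 : 0 ≤ b * (η * R' e.2) := by positivity
    calc b * (η * R' e.2) = 1 * (b * (η * R' e.2)) := (one_mul _).symm
      _ ≤ (cof e.1 (b * e.2) : ℝ) * (b * (η * R' e.2)) := mul_le_mul_of_nonneg_right hx h0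
      _ ≤ η * DP R R' e := by rw [← hDe]; exact le_max_right _ _
      _ ≤ 1/t := hD
  refine ⟨t, ρ, ht, hD, hlo, hr't, hFF.lab, hFF.den, hFF.near, ?_⟩
  have hk0 : (0:ℝ) < ρ'.den := by exact_mod_cast ρ'.den_pos
  have hnear : |b * θ' - ρ'| ≤ t^(39/200:ℝ) * (b * (η * R' e.2)) := hFF.near'
  have hden : (ρ'.den:ℝ) ≤ t^(21/200:ℝ) := hFF.den'
  by_cases hnum : (b:ℤ) ∣ ρ'.num
  · right
    obtain ⟨c, hc⟩ := hnum
    set σ : ℚ := Rat.divInt c ρ'.den with hσ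
    have hσv : (σ : ℝ) = ρ' / b := by
      have e1 : (ρ' : ℚ) = (ρ'.num : ℚ) / ρ'.den := (Rat.num_div_den ρ').symm
      have hbq : (b : ℚ) ≠ 0 := by exact_mod_cast hb.ne_zero
      have hkq : (ρ'.den : ℚ) ≠ 0 := by exact_mod_cast ρ'.den_pos.ne'
      have e2 : σ = ρ' / b := by
        have e3 : (ρ' : ℚ) = ((b * c : ℤ) : ℚ) / ρ'.den := by rw [← hc]; exact e1
        rw [hσ, Rat.divInt_eq_div, eq_div_iff hbq]
        conv_rhs => rw [e3]
        push_cast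
        ring
      rw [e2]
      push_cast
      ring
    have hσd : (σ.den : ℝ) ≤ ρ'.den := by
      have h3 : ((σ.den : ℕ) : ℤ) ∣ (ρ'.den : ℤ) := by rw [hσ]; exact Rat.den_dvd c ρ'.den
      have h4 : σ.den ∣ ρ'.den := by exact_mod_cast h3
      exact_mod_cast Nat.le_of_dvd ρ'.den_pos h4
    have hdist : |θ' - σ| ≤ t^(39/200:ℝ) * (η * R' e.2) := by
      have e1 : |θ' - σ| = |b * θ' - ρ'| / b := by
        rw [hσv, eq_div_iff hb0.ne', ← abs_of_pos hb0, ← abs_mul, abs_of_pos hb0]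
        congr 1
        field_simp
      rw [e1, div_le_iff₀ hb0]
      calc |b * θ' - ρ'| ≤ t^(39/200:ℝ) * (b * (η * R' e.2)) := hnear
        _ = _ := by ring
    refine ⟨σ, hσd.trans hden, hdist, ?_⟩
    intro a a' ha
    have hex := hFF.exact a (b * a') (by
      have e5 : ((a:ℝ) + θ) * (cof (b * e.2) e.1 : ℕ) -
          (((b * a' : ℤ):ℝ) + b * θ') * (cof e.1 (b * e.2) : ℕ) =
          (a + θ) * (cof e.2 e.1 : ℕ) - (a' + θ') * (cof e.1 e.2 : ℕ) := by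
        rw [ec2, ← ec1]
        push_cast
        ring
      rw [e5]
      refine ha.trans (hD.trans ?_)
      exact div_le_div_of_nonneg_right (by norm_num) ht0.le)
    have e6 : ((b * a' : ℤ):ℝ) + ρ' = b * (a' + σ) := by
      rw [hσv]
      push_cast
      field_simp
    rw [e6, ec2] at hex
    rw [hex, ← ec1]
    push_cast
    ring
  · left
    refine ⟨ρ'.den, ρ'.num, ρ'.den_pos, hden, hnum, ?_⟩
    have e1 := Lab709.cast_mul_den ρ'
    have h4 : |(ρ'.den:ℝ) * (b * θ') - ρ'.num| = ρ'.den * |b * θ' - ρ'| := by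
      rw [← abs_of_pos hk0, ← abs_mul, abs_of_pos hk0]
      congr 1
      rw [mul_sub, ← e1]
      ring
    rw [h4]
    calc (ρ'.den:ℝ) * |b * θ' - ρ'| ≤ t^(21/200:ℝ) * (t^(39/200:ℝ) * (b * (η * R' e.2))) :=
          mul_le_mul hden hnear (abs_nonneg _) (by positivity)
      _ ≤ t^(21/200:ℝ) * (t^(39/200:ℝ) * (1/t)) := by gcongr
      _ = t^(-(7/10):ℝ) := by
          rw [one_div, ← Real.rpow_neg_one, ← Real.rpow_add ht0, ← Real.rpow_add ht0]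
          norm_num

end Crest.Agent.R4.InX944
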