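import Crest.Agent.R4.InSS944

/-!
R4 (S0004), helper944: in-world crossing at `b`, GENERAL centre targets (`θ` for the items with `b`,
`θ'` for the items without `b`): everything except the structured class `FP` of the transferred pair
at the shrunk radii, whose sum is left on the right hand side.
-/

set_option autoImplicit false
open Finset

namespace Crest.Agent.R4.InX944

open Crest.Agent.R4.HVW560 Crest.Agent.R4.HVWX793
open Crest.Agent.R4.StopAsm709 Crest.Agent.R4.StopHvw709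
open Crest.Agent.R4.Schur709
open Crest.Agent.R4.ClsS (eps1)
open Crest.Agent.R4.LF363 (Lab)
open Crest.Agent.R4.LF11 (DD ew)

/-- the structured class of the transferred pair at the shrunk radii -/
def FPe (b n : ℕ) (η θ θ' : ℝ) (R R' : ℕ → ℝ) (e : ℕ × ℕ) : Prop :=
  FP b n θ θ' (fun w => η * R w) (fun w => η * R' w) e

open Classical in
/-- **in-world crossing at `b`, general centre targets** -/
theorem inGX : ∃ C c0 : ℝ, 1 ≤ C ∧ 0 < c0 ∧ ∀ c1 : ℝ, 0 < c1 → c1 ≤ c0 → ∃ T0 : ℝ, 1 ≤ T0 ∧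
    ∀ (X L η θ θ' : ℝ) (n G b : ℕ) (V W : Finset ℕ) (E : Finset (ℕ × ℕ)) (R R' : ℕ → ℝ)
      (F : ℕ × ℕ → ℝ),
    400 ≤ n → b.Prime → T0 ≤ (2:ℝ)^n → X ≤ Real.exp (((2:ℝ)^n)^c1) → 0 < G →
    0 < η → η ≤ 1 → E ⊆ V ×ˢ W →
    (∀ w ∈ V, 0 < w ∧ 0 < R w) → (∀ w ∈ W, 0 < w ∧ 0 < R' w) →
    (∀ w ∈ V, R w ≤ L * wt R w) → (∀ w ∈ W, R' w ≤ L * wt R' w) →
    (∀ w ∈ V, b ∣ w) → (∀ w ∈ W, ¬ b ∣ w) →
    (∀ z : ℝ, X ≤ z → ∀ w ∈ V, Crest.Agent.R4.ClsB.Tame z (G * b) w) →
    (∀ z : ℝ, X ≤ z → ∀ w ∈ W, Crest.Agent.R4.ClsB.Tame z G w) →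
    (∀ e ∈ E, 0 ≤ F e) →
    (∀ e ∈ E, F e ≤ 2 * ((R e.1 * R' e.2) / DP R R' e) * (2 * η * DP R R' e + 1)) →
    (∀ e ∈ E, 0 < F e → ∃ m m' : ℤ,
      |(m + θ) * (cof e.2 e.1 : ℕ) - (m' + θ') * (cof e.1 e.2 : ℕ)| ≤ η * DP R R' e) →
    ∑ e ∈ E, F e ≤
      6 * η * L^2 * ((∑ q ∈ V, wt R q) * (∑ r ∈ W, wt R' r)) +
      6 * L^2 * (n * (2 * KH 1 0 eps1 * Bf b eps1 * (2:ℝ)^(2*eps1*n)) +
        C * ((2:ℝ)^n)^(-(1/1000):ℝ) * ((b:ℝ) - 1)^(-(1/2-eps1))) *
        (η^(2*eps1) * ((∑ q ∈ V, wt R q) * (∑ r ∈ W, wt R' r))^(1/2+eps1)) +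
      6 * (L / b) * ∑ q ∈ V, wt R q +
      ∑ e ∈ E.filter (fun e => FPe b n η θ θ' R R' e), F e := by
  obtain ⟨C, c0, hC1, hc0, hC⟩ := cross_core1
  refine ⟨C, c0, hC1, hc0, ?_⟩
  intro c1 hc1 hc10
  obtain ⟨T0, hT01, hT0⟩ := hC c1 hc1 hc10
  refine ⟨T0, hT01, ?_⟩
  intro X L η θ θ' n G b V W E R R' F hn hb hTn hX hG hη hη1 hES hV hW hLV hLW hbV hbW hVt hWt
    hFn hF0 hrel0
  have he1 : eps1 = 1/1000 := rfl
  set Re : ℕ → ℝ := fun w => η * R w with hRe
  set Re' : ℕ → ℝ := fun w => η * R' w with hRe'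
  -- the restricted pair function
  set H : ℕ × ℕ → ℝ := fun e => if e ∈ E ∧ ¬ FP b n θ θ' Re Re' e then F e else 0 with hH
  have hHpos : ∀ e, 0 < H e → e ∈ E ∧ ¬ FP b n θ θ' Re Re' e ∧ H e = F e := by
    intro e he
    rw [hH] at he ⊢
    simp only at he ⊢
    split_ifs at he ⊢ with h
    · exact ⟨h.1, h.2, rfl⟩
    · exact absurd he (lt_irrefl _)
  have hDpos : ∀ e ∈ V ×ˢ W, 0 < DP R R' e := by
    intro e he
    have h := Finset.mem_product.1 he
    exact DP_pos (hW _ h.2).1 (hV _ h.1).2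
  have hF : ∀ e ∈ V ×ˢ W, H e ≤ 2 * ((R e.1 * R' e.2) / DP R R' e) * (2 * η * DP R R' e + 1) := by
    intro e he
    have h := Finset.mem_product.1 he
    have hR := (hV _ h.1).2
    have hR' := (hW _ h.2).2
    have hD := hDpos e he
    rw [hH]
    simp only
    split_ifs with hc
    · exact hF0 e hc.1
    · positivity
  have hrel : ∀ e ∈ V ×ˢ W, 0 < H e → ∃ m m' : ℤ,
      |(m + θ) * (cof e.2 e.1 : ℕ) - (m' + θ') * (cof e.1 e.2 : ℕ)| ≤ η * DP R R' e := by
    intro e _ hpos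
    obtain ⟨h1, -, h3⟩ := hHpos e hpos
    exact hrel0 e h1 (h3 ▸ hpos)
  have hDe : ∀ e, DP Re Re' e = η * DP R R' e := by
    intro e
    unfold DP
    rw [mul_max_of_nonneg _ _ hη.le, hRe, hRe']
    congr 1 <;> ring
  have hwe : ∀ q, wt Re q = η * wt R q := fun q => by unfold wt; rw [hRe]; ring
  have hwe' : ∀ q, wt Re' q = η * wt R' q := fun q => by unfold wt; rw [hRe']; ring
  have hmuV : ∀ q ∈ V, 0 ≤ wt R q := fun q hq => by
    unfold wt; exact mul_nonneg (hV q hq).2.le (by positivity)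
  have hmuW : ∀ q ∈ W, 0 ≤ wt R' q := fun q hq => by
    unfold wt; exact mul_nonneg (hW q hq).2.le (by positivity)
  have hM0 := Finset.sum_nonneg hmuV
  have hM0' := Finset.sum_nonneg hmuW
  have key := hT0 X (6/η) L θ θ' n G b V W Re Re' H hn hb hTn hX hG (by positivity)
    (fun w hw => ⟨(hV w hw).1, mul_pos hη (hV w hw).2⟩)
    (fun w hw => ⟨(hW w hw).1, mul_pos hη (hW w hw).2⟩)
    (fun w hw => by
      rw [hwe]
      calc η * R w ≤ η * (L * wt R w) := mul_le_mul_of_nonneg_left (hLV w hw) hη.le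
        _ = _ := by ring)
    (fun w hw => by
      rw [hwe']
      calc η * R' w ≤ η * (L * wt R' w) := mul_le_mul_of_nonneg_left (hLW w hw) hη.le
        _ = _ := by ring)
    hbV hbW hVt hWt
    (fun e he hD1 => by
      rw [hDe] at hD1 ⊢
      have hD := hDpos e he
      have h := Finset.mem_product.1 he
      have hR := (hV _ h.1).2
      have hR' := (hW _ h.2).2
      have h0 : 0 ≤ (R e.1 * R' e.2) / DP R R' e := by positivity
      calc H e ≤ 2 * ((R e.1 * R' e.2) / DP R R' e) * (2 * η * DP R R' e + 1) := hF e he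
        _ ≤ 2 * ((R e.1 * R' e.2) / DP R R' e) * 3 := by
            apply mul_le_mul_of_nonneg_left _ (by positivity)
            nlinarith
        _ = 6 / η * (Re e.1 * Re' e.2 / (η * DP R R' e)) := by
            rw [hRe, hRe']; field_simp; ring)
    (fun e he _ hFe => by
      obtain ⟨m, m', hm⟩ := hrel e he hFe
      refine ⟨m, m', hm.trans ?_⟩
      rw [hDe]
      have : 0 < η * DP R R' e := mul_pos hη (hDpos e he)
      linarith)
    (fun e _ _ hpos => (hHpos e hpos).2.1)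
  -- generic part
  have hgen : ∑ e ∈ (V ×ˢ W).filter (fun e => ¬ DP Re Re' e ≤ 1), H e ≤
      6 * η * L^2 * ((∑ q ∈ V, wt R q) * (∑ r ∈ W, wt R' r)) := by
    have h1 : ∀ e ∈ (V ×ˢ W).filter (fun e => ¬ DP Re Re' e ≤ 1),
        H e ≤ 6 * η * L^2 * (wt R e.1 * wt R' e.2) := by
      intro e he
      obtain ⟨heP, hD1⟩ := Finset.mem_filter.1 he
      rw [hDe] at hD1
      have hD1' := (not_le.1 hD1).le
      have hD := hDpos e heP
      have h := Finset.mem_product.1 heP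
      have hR := (hV _ h.1).2
      have hR' := (hW _ h.2).2
      have h5 : 0 ≤ L * wt R e.1 := hR.le.trans (hLV _ h.1)
      calc H e ≤ 2 * ((R e.1 * R' e.2) / DP R R' e) * (2 * η * DP R R' e + 1) := hF e heP
        _ ≤ 2 * ((R e.1 * R' e.2) / DP R R' e) * (3 * (η * DP R R' e)) := by
            apply mul_le_mul_of_nonneg_left _ (by positivity)
            linarith
        _ = 6 * η * (R e.1 * R' e.2) := by field_simp; ring
        _ ≤ 6 * η * ((L * wt R e.1) * (L * wt R' e.2)) := by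
            apply mul_le_mul_of_nonneg_left _ (by positivity)
            exact mul_le_mul (hLV _ h.1) (hLW _ h.2) hR'.le h5
        _ = _ := by ring
    calc ∑ e ∈ (V ×ˢ W).filter (fun e => ¬ DP Re Re' e ≤ 1), H e
        ≤ ∑ e ∈ (V ×ˢ W).filter (fun e => ¬ DP Re Re' e ≤ 1),
            6 * η * L^2 * (wt R e.1 * wt R' e.2) := Finset.sum_le_sum h1
      _ ≤ ∑ e ∈ V ×ˢ W, 6 * η * L^2 * (wt R e.1 * wt R' e.2) := by
          apply Finset.sum_le_sum_of_subset_of_nonneg (Finset.filter_subset _ _)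
          intro e he _
          have h := Finset.mem_product.1 he
          have := hmuV _ h.1
          have := hmuW _ h.2
          positivity
      _ = _ := by
          rw [← Finset.mul_sum, Finset.sum_product, Finset.sum_mul_sum]
  have e1 : ∑ q ∈ V, wt Re q = η * ∑ q ∈ V, wt R q := by
    rw [Finset.mul_sum]; exact Finset.sum_congr rfl fun q _ => hwe q
  have e2 : ∑ q ∈ W, wt Re' q = η * ∑ q ∈ W, wt R' q := by
    rw [Finset.mul_sum]; exact Finset.sum_congr rfl fun q _ => hwe' q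
  rw [e1, e2] at key
  set M := ∑ q ∈ V, wt R q with hM
  set M' := ∑ q ∈ W, wt R' q with hM'
  set B1 := (n * (2 * KH 1 0 eps1 * Bf b eps1 * (2:ℝ)^(2*eps1*n)) +
        C * ((2:ℝ)^n)^(-(1/1000):ℝ) * ((b:ℝ) - 1)^(-(1/2-eps1))) with hB1
  have e3 : (η * M * (η * M'))^(1/2+eps1) = η * (η^(2*eps1) * (M * M')^(1/2+eps1)) := by
    have h1 : η * M * (η * M') = η^(2:ℝ) * (M * M') := by
      rw [Real.rpow_two]; ring
    rw [h1, Real.mul_rpow (by positivity) (mul_nonneg hM0 hM0'), ← Real.rpow_mul hη.le]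
    have h2 : (2:ℝ) * (1/2+eps1) = 1 + 2 * eps1 := by ring
    rw [h2, Real.rpow_add hη, Real.rpow_one]
    ring
  rw [e3] at key
  have e4 : 6 / η * L^2 * B1 * (η * (η^(2*eps1) * (M * M')^(1/2+eps1))) + 6 / η * (L / b) * (η * M)
      = 6 * L^2 * B1 * (η^(2*eps1) * (M * M')^(1/2+eps1)) + 6 * (L / b) * M := by
    field_simp
  rw [e4] at key
  -- splitting
  have hHnn : ∀ e ∈ E, 0 ≤ H e := by
    intro e he
    rw [hH]; simp only
    split_ifs
    · exact hFn e he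
    · exact le_rfl
  have hsum : ∑ e ∈ E, F e ≤ ∑ e ∈ V ×ˢ W, H e +
      ∑ e ∈ E.filter (fun e => FPe b n η θ θ' R R' e), F e := by
    have s1 : ∑ e ∈ E, F e = ∑ e ∈ E, H e +
        ∑ e ∈ E.filter (fun e => FPe b n η θ θ' R R' e), F e := by
      rw [Finset.sum_filter, ← Finset.sum_add_distrib]
      refine Finset.sum_congr rfl fun e he => ?_
      rw [hH]
      simp only
      unfold FPe
      by_cases hc : FP b n θ θ' Re Re' e
      · rw [if_neg (fun h => h.2 hc), if_pos hc, zero_add]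
      · rw [if_pos ⟨he, hc⟩, if_neg hc, add_zero]
    have s2 : ∑ e ∈ E, H e ≤ ∑ e ∈ V ×ˢ W, H e := by
      apply Finset.sum_le_sum_of_subset_of_nonneg hES
      intro e _ hne
      rw [hH]; simp only
      rw [if_neg (fun h => hne h.1)]
    linarith
  rw [← Finset.sum_filter_add_sum_filter_not (V ×ˢ W) (fun e => DP Re Re' e ≤ 1)] at hsum
  linarith

end Crest.Agent.R4.InX944
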