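import Crest.Agent.R4.StopCls709

/-!
R4 (S0004), helper944: IN-WORLD CROSSING of unlabelled items at a prime `b` (up or SEP).

One node (target `θ`), items `v ∈ V` (`b ∣ v`) and `w ∈ W` (`b ∤ w`), radii `R`, `R'`,
`D = max (y R, x R')`.  Pairs in one cell: relation within `η D`.  Gains: `η^(2ε)` (dyadic part),
`T^(-1/1000)` (deep part) and `b^(-(1/2-ε))`; the one-partner part costs `6 L M / b`.
-/

set_option autoImplicit false
open Finset

namespace Crest.Agent.R4.InX944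

open Crest.Agent.R4.HVW560 Crest.Agent.R4.HVWX793
open Crest.Agent.R4.StopAsm709 Crest.Agent.R4.StopHvw709
open Crest.Agent.R4.Schur709
open Crest.Agent.R4.ClsS (eps1)
open Crest.Agent.R4.LF363 (Lab)

lemma zO_empty (w : ℕ) : zO ∅ w = 1 := by
  unfold zO; simp
lemma uu_empty (w : ℕ) : uu ∅ w = w := by
  unfold uu; rw [zO_empty, Nat.div_one]
lemma al_empty (w : ℕ) : al ∅ w = 1 := by
  unfold al; simp
lemma Rc_empty (R : ℕ → ℝ) (w : ℕ) : Rc ∅ R w = R w := by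
  unfold Rc; rw [al_empty, div_one]
lemma miss_empty (w : ℕ) : miss ∅ w = ∅ := by
  unfold miss; simp
lemma mu_empty (R : ℕ → ℝ) (w : ℕ) : mu ∅ R w = wt R w := by
  unfold mu wt; rw [uu_empty]
lemma Dc_empty (R R' : ℕ → ℝ) (e : ℕ × ℕ) :
    Dc ∅ ∅ R R' e = max ((cof e.2 e.1 : ℝ) * R e.1) ((cof e.1 e.2 : ℝ) * R' e.2) := by
  unfold Dc; rw [uu_empty, uu_empty, Rc_empty, Rc_empty]

/-- the quantity `D` of a pair -/
noncomputable def DP (R R' : ℕ → ℝ) (e : ℕ × ℕ) : ℝ :=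
  max ((cof e.2 e.1 : ℝ) * R e.1) ((cof e.1 e.2 : ℝ) * R' e.2)

/-- the structured class of the transferred pair -/
def FP (b n : ℕ) (θ θ' : ℝ) (R R' : ℕ → ℝ) (e : ℕ × ℕ) : Prop :=
  FS n θ (b * θ') (cof e.1 (b * e.2)) (cof (b * e.2) e.1) (R e.1) (b * R' e.2)

lemma DP_pos {R R' : ℕ → ℝ} {e : ℕ × ℕ} (h2 : 0 < e.2) (hR : 0 < R e.1) : 0 < DP R R' e :=
  lt_max_of_lt_left (mul_pos (by exact_mod_cast cof_pos h2) hR)

/-- **crossing pairs, no averages**: dyadic part, deep part, one-partner part (overlap `≤ R/b`). -/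
theorem cross_core1 : ∃ C c0 : ℝ, 1 ≤ C ∧ 0 < c0 ∧ ∀ c1 : ℝ, 0 < c1 → c1 ≤ c0 → ∃ T0 : ℝ, 1 ≤ T0 ∧
    ∀ (X K L θ θ' : ℝ) (n G b : ℕ) (V W : Finset ℕ) (R R' : ℕ → ℝ) (F : ℕ × ℕ → ℝ),
    400 ≤ n → b.Prime → T0 ≤ (2:ℝ)^n → X ≤ Real.exp (((2:ℝ)^n)^c1) → 0 < G → 0 ≤ K →
    (∀ w ∈ V, 0 < w ∧ 0 < R w) → (∀ w ∈ W, 0 < w ∧ 0 < R' w) →
    (∀ w ∈ V, R w ≤ L * wt R w) → (∀ w ∈ W, R' w ≤ L * wt R' w) →
    (∀ w ∈ V, b ∣ w) → (∀ w ∈ W, ¬ b ∣ w) →
    (∀ z : ℝ, X ≤ z → ∀ w ∈ V, Crest.Agent.R4.ClsB.Tame z (G * b) w) →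
    (∀ z : ℝ, X ≤ z → ∀ w ∈ W, Crest.Agent.R4.ClsB.Tame z G w) →
    (∀ e ∈ V ×ˢ W, DP R R' e ≤ 1 → F e ≤ K * ((R e.1 * R' e.2) / DP R R' e)) →
    (∀ e ∈ V ×ˢ W, DP R R' e ≤ 1/2^n → 0 < F e → ∃ m m' : ℤ,
      |(m + θ) * (cof e.2 e.1 : ℕ) - (m' + θ') * (cof e.1 e.2 : ℕ)| ≤ 2 * DP R R' e) →
    (∀ e ∈ V ×ˢ W, DP R R' e ≤ 1/2^n → 0 < F e → ¬ FP b n θ θ' R R' e) →
    ∑ e ∈ (V ×ˢ W).filter (fun e => DP R R' e ≤ 1), F e ≤
      K * L^2 * (n * (2 * KH 1 0 eps1 * Bf b eps1 * (2:ℝ)^(2*eps1*n)) +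
        C * ((2:ℝ)^n)^(-(1/1000):ℝ) * ((b:ℝ) - 1)^(-(1/2-eps1))) *
        ((∑ q ∈ V, wt R q) * (∑ r ∈ W, wt R' r))^(1/2+eps1) +
      K * (L / b) * ∑ q ∈ V, wt R q := by
  classical
  obtain ⟨C, c0, hC1, hc0, hC⟩ := crossB_of (crossHyp_of ClsT2.deepHyp_Gen3)
  refine ⟨C, c0, hC1, hc0, ?_⟩
  intro c1 hc1 hc10
  obtain ⟨T0, hT01, hT0⟩ := hC c1 hc1 hc10
  refine ⟨T0, hT01, ?_⟩
  intro X K L θ θ' n G b V W R R' F hn hb hTn hX hG hK hV hW hLV hLW hbV hbW hVt hWt hF hrel hnF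
  have he1 : eps1 = 1/1000 := rfl
  have h2n : (0:ℝ) < (2:ℝ)^n := by positivity
  have hb0 : (0:ℝ) < b := by exact_mod_cast hb.pos
  set D : ℕ × ℕ → ℝ := DP R R' with hDdef
  have hDc : ∀ e, Dc ∅ ∅ R R' e = D e := fun e => Dc_empty R R' e
  have hDpos : ∀ e ∈ V ×ˢ W, 0 < D e := by
    intro e he
    have h := Finset.mem_product.1 he
    exact DP_pos (hW _ h.2).1 (hV _ h.1).2
  have hmuV : ∀ q ∈ V, 0 ≤ wt R q := fun q hq => by
    unfold wt; exact mul_nonneg (hV q hq).2.le (by positivity)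
  have hmuW : ∀ q ∈ W, 0 ≤ wt R' q := fun q hq => by
    unfold wt; exact mul_nonneg (hW q hq).2.le (by positivity)
  have hsV : ∑ q ∈ V, mu ∅ R q = ∑ q ∈ V, wt R q := Finset.sum_congr rfl fun q _ => mu_empty R q
  have hsW : ∑ q ∈ W, mu ∅ R' q = ∑ q ∈ W, wt R' q := Finset.sum_congr rfl fun q _ => mu_empty R' q
  set PA : ℕ × ℕ → Prop := fun e => AltS n θ (b * θ') (cof e.1 (b * e.2)) (cof (b * e.2) e.1)
    (R e.1) (b * R' e.2) with hPA
  set PE : ℕ × ℕ → Prop := fun e => ES θ (b * θ') (cof e.1 (b * e.2)) (cof (b * e.2) e.1)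
    (R e.1) (b * R' e.2) with hPE
  set P := V ×ˢ W with hP
  set EN := P.filter (fun e => D e ≤ 1) with hEN
  set EY := EN.filter (fun e => (1/2:ℝ)^n < D e) with hEY
  set EX' := EN.filter (fun e => ¬ (1/2:ℝ)^n < D e) with hEX'
  set EG' := EX'.filter (fun e => PA e) with hEG'
  set EH := EX'.filter (fun e => ¬ PA e) with hEH
  set EE := EH.filter (fun e => PE e) with hEE
  set ER := EH.filter (fun e => ¬ PE e) with hER
  have hsplit : ∑ e ∈ EN, F e = ∑ e ∈ EY, F e +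
      (∑ e ∈ EG', F e + (∑ e ∈ EE, F e + ∑ e ∈ ER, F e)) := by
    rw [hEE, hER, Finset.sum_filter_add_sum_filter_not, hEG', hEH,
      Finset.sum_filter_add_sum_filter_not, hEY, hEX', Finset.sum_filter_add_sum_filter_not]
  have hENP : ∀ e ∈ EN, e ∈ P ∧ D e ≤ 1 := fun e he => Finset.mem_filter.1 he
  have hEYP : ∀ e ∈ EY, e ∈ EN := fun e he => (Finset.mem_filter.1 he).1
  have hEXP : ∀ e ∈ EX', e ∈ EN := fun e he => (Finset.mem_filter.1 he).1
  have hEGP : ∀ e ∈ EG', e ∈ EX' := fun e he => (Finset.mem_filter.1 he).1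
  have hEHP : ∀ e ∈ EH, e ∈ EX' := fun e he => (Finset.mem_filter.1 he).1
  have hEEP : ∀ e ∈ EE, e ∈ EH := fun e he => (Finset.mem_filter.1 he).1
  have hERP : ∀ e ∈ ER, e ∈ EH := fun e he => (Finset.mem_filter.1 he).1
  have hpow : (1/2:ℝ)^n = 1/2^n := by rw [div_pow, one_pow]
  have hEXD : ∀ e ∈ EX', D e ≤ 1/2^n := by
    intro e he
    have := not_lt.1 (Finset.mem_filter.1 he).2
    rw [hpow] at this
    exact this
  have hRR : ∀ e ∈ P, R e.1 * R' e.2 ≤ L^2 * (mu ∅ R e.1 * mu ∅ R' e.2) := by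
    intro e he
    have h := Finset.mem_product.1 he
    have h1 := hLV _ h.1
    have h2 := hLW _ h.2
    have h3 := (hW _ h.2).2
    have h5 : 0 ≤ L * wt R e.1 := (hV _ h.1).2.le.trans h1
    rw [mu_empty, mu_empty]
    calc R e.1 * R' e.2 ≤ (L * wt R e.1) * (L * wt R' e.2) := mul_le_mul h1 h2 h3.le h5
      _ = _ := by ring
  have hFmu : ∀ e ∈ EN, F e ≤ K * L^2 * ((mu ∅ R e.1 * mu ∅ R' e.2) / D e) := by
    intro e he
    have heP := hENP e he
    calc F e ≤ K * ((R e.1 * R' e.2) / D e) := hF e heP.1 heP.2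
      _ ≤ K * ((L^2 * (mu ∅ R e.1 * mu ∅ R' e.2)) / D e) :=
          mul_le_mul_of_nonneg_left (div_le_div_of_nonneg_right (hRR e heP.1) (hDpos e heP.1).le) hK
      _ = K * L^2 * ((mu ∅ R e.1 * mu ∅ R' e.2) / D e) := by ring
  have hOe : ∀ p ∈ (∅ : Finset ℕ), p.Prime ∧ 0 ≤ p := fun p hp => absurd hp (Finset.notMem_empty p)
  have hbV' : ∀ w ∈ V, b ∣ uu ∅ w := fun w hw => by rw [uu_empty]; exact hbV w hw
  have hbW' : ∀ w ∈ W, ¬ b ∣ uu ∅ w := fun w hw => by rw [uu_empty]; exact hbW w hw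
  -- dyadic part
  have boundY := mid_dyadic_x (ε := eps1) (by rw [he1]; norm_num) (by rw [he1]; norm_num) (N := 0)
    (O := ∅) (O' := ∅) hOe hOe hV hW hb hbV' hbW' (c := 0) (c' := 0) (fun r _ => by simp)
    (fun r _ => by simp) (K := K * L^2) (by positivity) (F := F) n EY
    (fun e he => (hENP e (hEYP e he)).1)
    (fun e he => by rw [hDc]; exact (hENP e (hEYP e he)).2)
    (fun e he => by rw [hDc]; exact (Finset.mem_filter.1 he).2)
    (fun e he => by rw [hDc]; exact hFmu e (hEYP e he))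
  -- deep part
  have boundG := hT0 ((2:ℝ)^n) X (K * L^2) 0 G b ∅ ∅ V W EG' R R' (fun _ => θ) (fun _ => θ') F 0 0
    hb hTn hX (by positivity) hG hOe hOe hV hW hbV' hbW'
    (fun z hz w hw => by rw [uu_empty]; exact hVt z hz w hw)
    (fun z hz w hw => by rw [uu_empty]; exact hWt z hz w hw)
    (fun e he => (hENP e (hEXP e (hEGP e he))).1) (fun r _ => by simp) (fun r _ => by simp)
    (fun e he => by rw [hDc]; exact hEXD e (hEGP e he))
    (fun e he => by rw [hDc]; exact hFmu e (hEXP e (hEGP e he)))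
    (by
      intro e he t ht h1 h2 hFe
      rw [hDc] at h1 h2
      rw [uu_empty, uu_empty, Rc_empty, Rc_empty]
      have heP := (hENP e (hEXP e (hEGP e he))).1
      have h := Finset.mem_product.1 heP
      obtain ⟨m, m', hm⟩ := hrel e heP (hEXD e (hEGP e he)) hFe
      obtain ⟨e1, e2⟩ := cof_mul_left hb (hbV _ h.1) (hbW _ h.2) (hV _ h.1).1
      have hDx : max ((cof (b * e.2) e.1 : ℝ) * R e.1) ((cof e.1 (b * e.2) : ℝ) * (b * R' e.2))
          = D e := by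
        rw [hDdef]; unfold DP
        rw [e2, ← e1]
        push_cast
        congr 1
        ring
      rw [← hDx] at h1 h2
      refine gen3_of (m := m) (m' := b * m') ?_ (Finset.mem_filter.1 he).2 ht h1 h2
      rw [hDx, e2]
      rw [← e1] at hm
      convert hm using 2
      push_cast
      ring)
  -- one-partner part
  have boundE : ∑ e ∈ EE, F e ≤ K * (L / b) * ∑ q ∈ V, wt R q := by
    have hinj : Set.InjOn Prod.fst (EE : Set (ℕ × ℕ)) := by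
      intro e he f hf h1
      have he' := Finset.mem_coe.1 he
      have hf' := Finset.mem_coe.1 hf
      have ae : PE e := (Finset.mem_filter.1 he').2
      have af : PE f := (Finset.mem_filter.1 hf').2
      have key := EX_partner (b₀ := b) (O := ∅) (O' := ∅) (R := R) (R' := R')
        (γ := fun _ => θ) (γ' := fun _ => θ') (e := e) (f := f) hb
        (fun p hp => absurd hp (Finset.notMem_empty p))
        (fun p hp => absurd hp (Finset.notMem_empty p))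
        (by unfold EX; rw [uu_empty, uu_empty, Rc_empty, Rc_empty]; exact ae)
        (by unfold EX; rw [uu_empty, uu_empty, Rc_empty, Rc_empty]; exact af)
        (by rw [miss_empty, miss_empty]) h1
      exact Prod.ext h1 key
    have hone : ∀ e ∈ EE, F e ≤ K * (L / b) * wt R e.1 := by
      intro e he
      have heN := hENP e (hEXP e (hEHP e (hEEP e he)))
      have h := Finset.mem_product.1 heN.1
      have hx : (b : ℝ) ≤ (cof e.1 e.2 : ℕ) := by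
        obtain ⟨e1, -⟩ := cof_mul_left hb (hbV _ h.1) (hbW _ h.2) (hV _ h.1).1
        have hpos : 0 < cof e.1 e.2 := cof_pos (hV _ h.1).1
        have : b ∣ cof e.1 e.2 := ⟨_, e1.symm⟩
        exact_mod_cast Nat.le_of_dvd hpos this
      have hR' := (hW _ h.2).2
      have hR := (hV _ h.1).2
      have hD0 := hDpos e heN.1
      have hDx : (b : ℝ) * R' e.2 ≤ D e :=
        (mul_le_mul_of_nonneg_right hx hR'.le).trans (le_max_right _ _)
      calc F e ≤ K * ((R e.1 * R' e.2) / D e) := hF e heN.1 heN.2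
        _ ≤ K * (R e.1 / b) := by
            apply mul_le_mul_of_nonneg_left _ hK
            rw [div_le_div_iff₀ hD0 hb0]
            calc R e.1 * R' e.2 * b = R e.1 * (b * R' e.2) := by ring
              _ ≤ R e.1 * D e := mul_le_mul_of_nonneg_left hDx hR.le
        _ ≤ K * ((L * wt R e.1) / b) :=
            mul_le_mul_of_nonneg_left (div_le_div_of_nonneg_right (hLV _ h.1) hb0.le) hK
        _ = _ := by ring
    calc ∑ e ∈ EE, F e ≤ ∑ e ∈ EE, K * (L / b) * wt R e.1 := Finset.sum_le_sum hone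
      _ = ∑ q ∈ EE.image Prod.fst, K * (L / b) * wt R q := by
          rw [Finset.sum_image hinj]
      _ ≤ ∑ q ∈ V, K * (L / b) * wt R q := by
          apply Finset.sum_le_sum_of_subset_of_nonneg
          · intro q hq
            obtain ⟨e, he, rfl⟩ := Finset.mem_image.1 hq
            exact (Finset.mem_product.1 (hENP e (hEXP e (hEHP e (hEEP e he)))).1).1
          · intro q hq _
            have h1 := hLV q hq
            have h2 := hmuV q hq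
            have h3 := (hV q hq).2
            have h4 : 0 ≤ L * wt R q := h3.le.trans h1
            have : K * (L / b) * wt R q = K * ((L * wt R q) / b) := by ring
            rw [this]
            positivity
      _ = _ := by rw [Finset.mul_sum]
  -- the rest is not positive
  have boundR : ∑ e ∈ ER, F e ≤ 0 := by
    refine Finset.sum_nonpos fun e he => ?_
    by_contra hpos
    push Not at hpos
    have heX := hEHP e (hERP e he)
    have heP := (hENP e (hEXP e heX)).1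
    have h := Finset.mem_product.1 heP
    obtain ⟨m, m', hm⟩ := hrel e heP (hEXD e heX) hpos
    obtain ⟨e1, e2⟩ := cof_mul_left hb (hbV _ h.1) (hbW _ h.2) (hV _ h.1).1
    have hDx : max ((cof (b * e.2) e.1 : ℝ) * R e.1) ((cof e.1 (b * e.2) : ℝ) * (b * R' e.2))
        = D e := by
      rw [hDdef]; unfold DP
      rw [e2, ← e1]
      push_cast
      congr 1
      ring
    have hcl := classify_num hn (θ := θ) (θ' := b * θ') (x := cof e.1 (b * e.2))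
      (y := cof (b * e.2) e.1) (r := R e.1) (r' := b * R' e.2) (m := m) (m' := b * m')
      (cof_pos (hV _ h.1).1) (cof_pos (Nat.mul_pos hb.pos (hW _ h.2).1)) (hV _ h.1).2
      (mul_pos hb0 (hW _ h.2).2) (by
        rw [hDx, e2]
        rw [← e1] at hm
        convert hm using 2
        push_cast
        ring)
    rcases hcl with h3 | h3 | h3
    · exact (Finset.mem_filter.1 (hERP e he)).2 h3
    · exact (Finset.mem_filter.1 he).2 h3
    · exact hnF e heP (hEXD e heX) hpos h3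
  rw [hsV, hsW] at boundY boundG
  have z1 : Real.exp ((1/2-eps1) * (-(((0:ℕ):ℝ) * 0) + 3 * (∑ p ∈ (∅ : Finset ℕ), 1/(p:ℝ)) +
      (-(((0:ℕ):ℝ) * 0) + 3 * ∑ p ∈ (∅ : Finset ℕ), 1/(p:ℝ)))) = 1 := by
    simp
  rw [z1] at boundY boundG
  rw [hsplit]
  set Y1 := ((∑ q ∈ V, wt R q) * (∑ r ∈ W, wt R' r))^(1/2+eps1) with hY1
  have hfin : K * L^2 * (n * (2 * KH 1 0 eps1 * Bf b eps1 * (2:ℝ)^(2*eps1*n)) +
        C * ((2:ℝ)^n)^(-(1/1000):ℝ) * ((b:ℝ) - 1)^(-(1/2-eps1))) * Y1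
      = (n * (2 * (K * L^2) * KH 1 0 eps1 * Bf b eps1 * (2:ℝ)^(2*eps1*n)) * (1 * Y1) +
        C * (K * L^2) * ((2:ℝ)^n)^(-(1/1000):ℝ) * ((b:ℝ) - 1)^(-(1/2-eps1)) * 1 * Y1) := by
    ring
  rw [hfin]
  linarith

/-- `b` is not accidental at the target `θ` at the scales `2^n ≤ t ≤ b^(9/5)` -/
def NoAcc (b n : ℕ) (θ : ℝ) : Prop :=
  ∀ t : ℝ, (2:ℝ)^n ≤ t → t ≤ (b:ℝ)^(9/5:ℝ) → ∀ k : ℕ, 0 < k → (k:ℝ) ≤ t^(21/200:ℝ) →
    ∀ h : ℤ, ¬ (b:ℤ) ∣ h → t^(-(7/10):ℝ) < |k * (b * θ) - h|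

lemma NoAcc.mono {b n n' : ℕ} {θ : ℝ} (h : NoAcc b n θ) (hn : n ≤ n') : NoAcc b n' θ :=
  fun t ht => h t (le_trans (pow_le_pow_right₀ (by norm_num) hn) ht)

/-- above the scale `b^(9/5)` the two labels are the same rational -/
lemma same_label {b : ℕ} {θ t r r' : ℝ} {ρ ρ' : ℚ} (hb : (2:ℝ)^15 ≤ b) (ht : (b:ℝ)^(9/5:ℝ) < t)
    (hd : (ρ.den:ℝ) ≤ t^(21/200:ℝ)) (hd' : (ρ'.den:ℝ) ≤ t^(21/200:ℝ))
    (hn : |θ - ρ| ≤ t^(39/200:ℝ) * r) (hn' : |b * θ - ρ'| ≤ t^(39/200:ℝ) * r')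
    (hr : r ≤ 1/t) (hr' : r' ≤ 1/t) : (b:ℚ) * ρ = ρ' := by
  have hb0 : (0:ℝ) < b := lt_of_lt_of_le (by norm_num) hb
  have hb1 : (1:ℝ) ≤ b := le_trans (by norm_num) hb
  have ht0 : 0 < t := lt_of_le_of_lt (by positivity) ht
  by_contra hne
  have g := LF363.rat_gap hne
  have hden : (((b:ℚ) * ρ).den : ℝ) ≤ ρ.den := by
    have h1 : ((b:ℚ) * ρ).den ∣ (b:ℚ).den * ρ.den := Rat.mul_den_dvd _ _
    rw [Rat.den_natCast, one_mul] at h1
    exact_mod_cast Nat.le_of_dvd ρ.den_pos h1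
  have hgap : |(((b:ℚ) * ρ : ℚ) : ℝ) - ρ'| ≤ (b + 1) * t^(-(161/200):ℝ) := by
    have e1 : (((b:ℚ) * ρ : ℚ) : ℝ) - ρ' = (b * θ - ρ') - b * (θ - ρ) := by push_cast; ring
    rw [e1]
    have h1 : t^(39/200:ℝ) * (1/t) = t^(-(161/200):ℝ) := by
      rw [one_div, ← Real.rpow_neg_one, ← Real.rpow_add ht0]; norm_num
    have h2 : |θ - ρ| ≤ t^(-(161/200):ℝ) := by
      rw [← h1]; exact hn.trans (mul_le_mul_of_nonneg_left hr (by positivity))
    have h3 : |b * θ - ρ'| ≤ t^(-(161/200):ℝ) := by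
      rw [← h1]; exact hn'.trans (mul_le_mul_of_nonneg_left hr' (by positivity))
    calc |(b * θ - ρ') - b * (θ - ρ)| ≤ |b * θ - ρ'| + |b * (θ - ρ)| := abs_sub _ _
      _ = |b * θ - ρ'| + b * |θ - ρ| := by rw [abs_mul, abs_of_pos hb0]
      _ ≤ t^(-(161/200):ℝ) + b * t^(-(161/200):ℝ) :=
          add_le_add h3 (mul_le_mul_of_nonneg_left h2 hb0.le)
      _ = _ := by ring
  have hd0 : (0:ℝ) ≤ (((b:ℚ) * ρ).den : ℝ) := Nat.cast_nonneg _
  have hd0' : (0:ℝ) ≤ (ρ'.den : ℝ) := Nat.cast_nonneg _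
  have h5 : (1:ℝ) ≤ (b + 1) * t^(-(119/200):ℝ) := by
    calc (1:ℝ) ≤ |(((b:ℚ) * ρ : ℚ) : ℝ) - ρ'| * ((((b:ℚ) * ρ).den : ℝ) * ρ'.den) := g
      _ ≤ ((b + 1) * t^(-(161/200):ℝ)) * (t^(21/200:ℝ) * t^(21/200:ℝ)) := by
          apply mul_le_mul hgap _ (by positivity) (by positivity)
          exact mul_le_mul (hden.trans hd) hd' hd0' (by positivity)
      _ = (b + 1) * t^(-(119/200):ℝ) := by
          rw [mul_assoc, ← Real.rpow_add ht0, ← Real.rpow_add ht0]; norm_num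
  have h6 : t^(119/200:ℝ) ≤ 2 * b := by
    have h7 : (0:ℝ) < t^(119/200:ℝ) := by positivity
    have h8 : (1:ℝ) * t^(119/200:ℝ) ≤ ((b + 1) * t^(-(119/200):ℝ)) * t^(119/200:ℝ) :=
      mul_le_mul_of_nonneg_right h5 h7.le
    have h9 : ((b:ℝ) + 1) * t^(-(119/200):ℝ) * t^(119/200:ℝ) = b + 1 := by
      rw [mul_assoc, ← Real.rpow_add ht0]; norm_num
    rw [h9, one_mul] at h8
    linarith
  have h10 : (b:ℝ)^(1071/1000:ℝ) < 2 * b := by
    calc (b:ℝ)^(1071/1000:ℝ) = ((b:ℝ)^(9/5:ℝ))^(119/200:ℝ) := by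
          rw [← Real.rpow_mul hb0.le]; norm_num
      _ < t^(119/200:ℝ) := Real.rpow_lt_rpow (by positivity) ht (by norm_num)
      _ ≤ 2 * b := h6
  have h11 : 2 * (b:ℝ) ≤ (b:ℝ)^(1071/1000:ℝ) := by
    have e1 : (b:ℝ)^(1071/1000:ℝ) = (b:ℝ)^(71/1000:ℝ) * b := by
      conv_rhs => rw [← Real.rpow_one (b:ℝ)]
      rw [← Real.rpow_mul hb0.le, ← Real.rpow_add hb0]
      norm_num
    rw [e1]
    apply mul_le_mul_of_nonneg_right _ hb0.le
    calc (2:ℝ) = ((2:ℝ)^15)^(1/15:ℝ) := by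
          rw [← Real.rpow_natCast, ← Real.rpow_mul (by norm_num)]; norm_num
      _ ≤ ((2:ℝ)^15)^(71/1000:ℝ) :=
          Real.rpow_le_rpow_of_exponent_le (by norm_num) (by norm_num)
      _ ≤ (b:ℝ)^(71/1000:ℝ) := Real.rpow_le_rpow (by norm_num) hb (by norm_num)
  linarith

/-- the structured class is empty if the `b`-free item has no label and `b` is not accidental -/
theorem no_FP {b n : ℕ} {θ η : ℝ} {ψ ψ' : ℕ → ℝ} (hb : b.Prime) (hn : 400 ≤ n) (hη : 0 < η)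
    (hη1 : η ≤ 1) (hηb : 1 ≤ η * b) (hb15 : (2:ℝ)^15 ≤ b) {e : ℕ × ℕ} (h1 : 0 < e.1) (h2 : 0 < e.2)
    (hb1 : b ∣ e.1) (hb2 : ¬ b ∣ e.2) (hψq : 0 < ψ e.1) (hψ : 0 < ψ' e.2)
    (hU : ψ' e.2 * (η * b) ≤ 1 → ∀ ρ, ¬ Lab θ (ψ' e.2) ρ) (hA : NoAcc b n θ) :
    ¬ FP b n θ θ (fun w => η * ψ w) (fun w => η * ψ' w) e := by
  rintro ⟨t, m, m', ρ, ρ', ht, -, hD, -, hFF, hexact⟩
  have hb0 : (0:ℝ) < b := by exact_mod_cast hb.pos
  have ht400 : (2:ℝ)^400 ≤ t := le_trans (pow_le_pow_right₀ (by norm_num) hn) ht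
  have ht0 : 0 < t := lt_of_lt_of_le (by positivity) ht400
  have ht1 : 1 ≤ t := le_trans (one_le_pow₀ (by norm_num)) ht400
  have ht10 : 10 ≤ t := le_trans (le_trans (by norm_num : (10:ℝ) ≤ 2^4)
    (pow_le_pow_right₀ (by norm_num) (by norm_num : 4 ≤ 400))) ht400
  have hx : (1:ℝ) ≤ cof e.1 (b * e.2) := by exact_mod_cast (cof_pos h1 : 0 < cof e.1 (b * e.2))
  set r' : ℝ := b * (η * ψ' e.2) with hr'
  have hr'0 : 0 < r' := by positivity
  have hr't : r' ≤ 1/t := by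
    calc r' = 1 * r' := (one_mul _).symm
      _ ≤ (cof e.1 (b * e.2) : ℝ) * r' := mul_le_mul_of_nonneg_right hx hr'0.le
      _ ≤ 1/t := (le_max_right _ _).trans hD
  have hψt : ψ' e.2 * (η * b) ≤ 1/t := by
    calc ψ' e.2 * (η * b) = r' := by rw [hr']; ring
      _ ≤ 1/t := hr't
  have hψ1 : ψ' e.2 * (η * b) ≤ 1 := hψt.trans (by rw [div_le_one ht0]; exact ht1)
  have hψle : ψ' e.2 ≤ 1/t := by
    calc ψ' e.2 = ψ' e.2 * 1 := (mul_one _).symm
      _ ≤ ψ' e.2 * (η * b) := mul_le_mul_of_nonneg_left hηb hψ.le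
      _ ≤ 1/t := hψt
  have hk0 : (0:ℝ) < ρ'.den := by exact_mod_cast ρ'.den_pos
  have hnear : |b * θ - ρ'| ≤ t^(39/200:ℝ) * r' := hFF.near'
  have hden : (ρ'.den:ℝ) ≤ t^(21/200:ℝ) := hFF.den'
  -- the numerator is divisible by `b`
  have hnum : (b:ℤ) ∣ ρ'.num := by
    by_contra hnd
    rcases lt_or_ge ((b:ℝ)^(9/5:ℝ)) t with htb | htb
    · -- large scale: both labels are the same rational, contradiction with exactness
      have hy : (1:ℝ) ≤ cof (b * e.2) e.1 := by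
        exact_mod_cast (cof_pos (Nat.mul_pos hb.pos h2) : 0 < cof (b * e.2) e.1)
      have hrt : η * ψ e.1 ≤ 1/t := by
        have h3 : 0 ≤ η * ψ e.1 := by positivity
        calc η * ψ e.1 = 1 * (η * ψ e.1) := (one_mul _).symm
          _ ≤ (cof (b * e.2) e.1 : ℝ) * (η * ψ e.1) := mul_le_mul_of_nonneg_right hy h3
          _ ≤ 1/t := (le_max_left _ _).trans hD
      have hsame := same_label hb15 htb hFF.den hden hFF.near hnear hrt hr't
      have e2 : ((b:ℝ) * ρ) = ρ' := by exact_mod_cast hsame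
      have e3 := Lab709.cast_mul_den ρ'
      have h5 : ((b * ρ'.den * m + ρ'.num : ℤ) : ℝ) * (cof (b * e.2) e.1 : ℕ) =
          b * ((ρ'.den * m' + ρ'.num : ℤ) : ℝ) * (cof e.1 (b * e.2) : ℕ) := by
        push_cast
        calc ((b:ℝ) * ρ'.den * m + ρ'.num) * (cof (b * e.2) e.1 : ℕ)
            = b * ρ'.den * (((m:ℝ) + ρ) * (cof (b * e.2) e.1 : ℕ)) := by
              have : (ρ'.num : ℝ) = b * ρ * ρ'.den := by rw [e2]; linarith
              rw [this]; ring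
          _ = b * ρ'.den * (((m':ℝ) + ρ') * (cof e.1 (b * e.2) : ℕ)) := by rw [hexact]
          _ = _ := by
              have : (ρ'.num : ℝ) = ρ' * ρ'.den := by linarith
              rw [this]; ring
      have h6 : (b * ρ'.den * m + ρ'.num) * ((cof (b * e.2) e.1 : ℕ) : ℤ) =
          b * (ρ'.den * m' + ρ'.num) * ((cof e.1 (b * e.2) : ℕ) : ℤ) := by exact_mod_cast h5
      have h7 : (b:ℤ) ∣ (b * ρ'.den * m + ρ'.num) * ((cof (b * e.2) e.1 : ℕ) : ℤ) := by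
        rw [h6, mul_assoc]; exact dvd_mul_right _ _
      rcases (Nat.prime_iff_prime_int.1 hb).dvd_or_dvd h7 with h8 | h8
      · apply hnd
        have h9 : (b:ℤ) ∣ b * ρ'.den * m := by rw [mul_assoc]; exact dvd_mul_right _ _
        exact (dvd_add_right h9).1 h8
      · apply hb2
        have h9 : b ∣ cof (b * e.2) e.1 := by exact_mod_cast h8
        rw [(cof_mul_left hb hb1 hb2 h1).2] at h9
        exact h9.trans (Nat.div_dvd_of_dvd (Nat.gcd_dvd_left _ _))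
    have h3 := hA t ht htb ρ'.den ρ'.den_pos hden ρ'.num hnd
    have h4 : |(ρ'.den:ℝ) * (b * θ) - ρ'.num| = ρ'.den * |b * θ - ρ'| := by
      rw [← abs_of_pos hk0, ← abs_mul, abs_of_pos hk0]
      congr 1
      have e1 := Lab709.cast_mul_den ρ'
      rw [mul_sub, ← e1]
      ring
    rw [h4] at h3
    have h5 : (ρ'.den:ℝ) * |b * θ - ρ'| ≤ t^(-(7/10):ℝ) := by
      calc (ρ'.den:ℝ) * |b * θ - ρ'| ≤ t^(21/200:ℝ) * (t^(39/200:ℝ) * r') :=
            mul_le_mul hden hnear (abs_nonneg _) (by positivity)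
        _ ≤ t^(21/200:ℝ) * (t^(39/200:ℝ) * (1/t)) := by gcongr
        _ = t^(-(7/10):ℝ) := by
            rw [one_div, ← Real.rpow_neg_one, ← Real.rpow_add ht0, ← Real.rpow_add ht0]
            norm_num
    linarith
  obtain ⟨c, hc⟩ := hnum
  set σ : ℚ := Rat.divInt c ρ'.den with hσ
  have hσv : (σ : ℝ) = ρ' / b := by
    have e1 : (ρ' : ℚ) = (ρ'.num : ℚ) / ρ'.den := (Rat.num_div_den ρ').symm
    have hbq : (b : ℚ) ≠ 0 := by exact_mod_cast hb.ne_zero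
    have hkq : (ρ'.den : ℚ) ≠ 0 := by exact_mod_cast ρ'.den_pos.ne'
    have e2 : σ = ρ' / b := by
      have e3 : (ρ' : ℚ) = ((b * c : ℤ) : ℚ) / ρ'.den := by rw [← hc]; exact e1
      rw [hσ, Rat.divInt_eq_div, eq_div_iff hbq]
      conv_rhs => rw [e3]
      push_cast
      ring
    rw [e2]
    push_cast
    ring
  have hσd : (σ.den : ℝ) ≤ ρ'.den := by
    have h3 : ((σ.den : ℕ) : ℤ) ∣ (ρ'.den : ℤ) := by rw [hσ]; exact Rat.den_dvd c ρ'.den
    have h4 : σ.den ∣ ρ'.den := by exact_mod_cast h3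
    exact_mod_cast Nat.le_of_dvd ρ'.den_pos h4
  have hσ0 : (0:ℝ) ≤ σ.den := by positivity
  have hdist : |θ - σ| ≤ t^(39/200:ℝ) * (η * ψ' e.2) := by
    have e1 : |θ - σ| = |b * θ - ρ'| / b := by
      rw [hσv, eq_div_iff hb0.ne', ← abs_of_pos hb0, ← abs_mul, abs_of_pos hb0]
      congr 1
      field_simp
    rw [e1, div_le_iff₀ hb0]
    calc |b * θ - ρ'| ≤ t^(39/200:ℝ) * r' := hnear
      _ = _ := by rw [hr']; ring
  refine hU hψ1 σ ⟨hψ, ?_, ?_, ?_⟩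
  · refine hψle.trans ?_
    exact one_div_le_one_div_of_le (by norm_num) ht10
  · calc (σ.den:ℝ)^5 * ψ' e.2 ≤ (t^(21/200:ℝ))^5 * (1/t) := by
          have : (σ.den:ℝ) ≤ t^(21/200:ℝ) := hσd.trans hden
          gcongr
      _ = t^(-(95/200):ℝ) := by
          rw [one_div, ← Real.rpow_natCast (t^(21/200:ℝ)) 5, ← Real.rpow_mul ht0.le,
            ← Real.rpow_neg_one, ← Real.rpow_add ht0]
          norm_num
      _ ≤ 1 := Real.rpow_le_one_of_one_le_of_nonpos ht1 (by norm_num)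
  · have h5 : |θ - σ| ^ 5 ≤ (t^(39/200:ℝ) * (η * ψ' e.2))^5 :=
      pow_le_pow_left₀ (abs_nonneg _) hdist 5
    refine h5.trans ?_
    have e1 : (t^(39/200:ℝ) * (η * ψ' e.2))^5 =
        ((t^(39/200:ℝ))^5 * (η^5 * ψ' e.2)) * (ψ' e.2)^4 := by ring
    rw [e1]
    have h6 : (t^(39/200:ℝ))^5 * (η^5 * ψ' e.2) ≤ 1 := by
      calc (t^(39/200:ℝ))^5 * (η^5 * ψ' e.2) ≤ (t^(39/200:ℝ))^5 * (1 * (1/t)) := by
            have h7 : η^5 ≤ 1 := pow_le_one₀ hη.le hη1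
            gcongr
        _ = t^(-(1/40):ℝ) := by
            rw [one_mul, one_div, ← Real.rpow_natCast (t^(39/200:ℝ)) 5, ← Real.rpow_mul ht0.le,
              ← Real.rpow_neg_one, ← Real.rpow_add ht0]
            norm_num
        _ ≤ 1 := Real.rpow_le_one_of_one_le_of_nonpos ht1 (by norm_num)
    calc (t^(39/200:ℝ))^5 * (η^5 * ψ' e.2) * (ψ' e.2)^4 ≤ 1 * (ψ' e.2)^4 :=
          mul_le_mul_of_nonneg_right h6 (by positivity)
      _ = (ψ' e.2)^4 := one_mul _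

/-- **in-world crossing at `b`, unlabelled items** -/
theorem inUU : ∃ C c0 : ℝ, 1 ≤ C ∧ 0 < c0 ∧ ∀ c1 : ℝ, 0 < c1 → c1 ≤ c0 → ∃ T0 : ℝ, 1 ≤ T0 ∧
    ∀ (X L η θ : ℝ) (n G b : ℕ) (V W : Finset ℕ) (R R' : ℕ → ℝ) (F : ℕ × ℕ → ℝ),
    400 ≤ n → b.Prime → T0 ≤ (2:ℝ)^n → X ≤ Real.exp (((2:ℝ)^n)^c1) → 0 < G →
    0 < η → η ≤ 1 → 1 ≤ η * b → (2:ℝ)^15 ≤ b →
    (∀ w ∈ V, 0 < w ∧ 0 < R w) → (∀ w ∈ W, 0 < w ∧ 0 < R' w) →
    (∀ w ∈ V, R w ≤ L * wt R w) → (∀ w ∈ W, R' w ≤ L * wt R' w) →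
    (∀ w ∈ V, b ∣ w) → (∀ w ∈ W, ¬ b ∣ w) →
    (∀ z : ℝ, X ≤ z → ∀ w ∈ V, Crest.Agent.R4.ClsB.Tame z (G * b) w) →
    (∀ z : ℝ, X ≤ z → ∀ w ∈ W, Crest.Agent.R4.ClsB.Tame z G w) →
    (∀ e ∈ V ×ˢ W, F e ≤ 2 * ((R e.1 * R' e.2) / DP R R' e) * (2 * η * DP R R' e + 1)) →
    (∀ e ∈ V ×ˢ W, 0 < F e → ∃ m m' : ℤ,
      |(m + θ) * (cof e.2 e.1 : ℕ) - (m' + θ) * (cof e.1 e.2 : ℕ)| ≤ η * DP R R' e) →
    (∀ w ∈ W, R' w * (η * b) ≤ 1 → ∀ ρ, ¬ Lab θ (R' w) ρ) → NoAcc b n θ →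
    ∑ e ∈ V ×ˢ W, F e ≤
      6 * η * L^2 * ((∑ q ∈ V, wt R q) * (∑ r ∈ W, wt R' r)) +
      6 * L^2 * (n * (2 * KH 1 0 eps1 * Bf b eps1 * (2:ℝ)^(2*eps1*n)) +
        C * ((2:ℝ)^n)^(-(1/1000):ℝ) * ((b:ℝ) - 1)^(-(1/2-eps1))) *
        (η^(2*eps1) * ((∑ q ∈ V, wt R q) * (∑ r ∈ W, wt R' r))^(1/2+eps1)) +
      6 * (L / b) * ∑ q ∈ V, wt R q := by
  classical
  obtain ⟨C, c0, hC1, hc0, hC⟩ := cross_core1
  refine ⟨C, c0, hC1, hc0, ?_⟩
  intro c1 hc1 hc10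
  obtain ⟨T0, hT01, hT0⟩ := hC c1 hc1 hc10
  refine ⟨T0, hT01, ?_⟩
  intro X L η θ n G b V W R R' F hn hb hTn hX hG hη hη1 hηb hb15 hV hW hLV hLW hbV hbW hVt hWt hF hrel
    hU hA
  have he1 : eps1 = 1/1000 := rfl
  set Re : ℕ → ℝ := fun w => η * R w with hRe
  set Re' : ℕ → ℝ := fun w => η * R' w with hRe'
  have hDe : ∀ e, DP Re Re' e = η * DP R R' e := by
    intro e
    unfold DP
    rw [mul_max_of_nonneg _ _ hη.le, hRe, hRe']
    congr 1 <;> ring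
  have hwe : ∀ q, wt Re q = η * wt R q := fun q => by unfold wt; rw [hRe]; ring
  have hwe' : ∀ q, wt Re' q = η * wt R' q := fun q => by unfold wt; rw [hRe']; ring
  have hmuV : ∀ q ∈ V, 0 ≤ wt R q := fun q hq => by
    unfold wt; exact mul_nonneg (hV q hq).2.le (by positivity)
  have hmuW : ∀ q ∈ W, 0 ≤ wt R' q := fun q hq => by
    unfold wt; exact mul_nonneg (hW q hq).2.le (by positivity)
  have hM0 := Finset.sum_nonneg hmuV
  have hM0' := Finset.sum_nonneg hmuW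
  have hDpos : ∀ e ∈ V ×ˢ W, 0 < DP R R' e := by
    intro e he
    have h := Finset.mem_product.1 he
    exact DP_pos (hW _ h.2).1 (hV _ h.1).2
  have key := hT0 X (6/η) L θ θ n G b V W Re Re' F hn hb hTn hX hG (by positivity)
    (fun w hw => ⟨(hV w hw).1, mul_pos hη (hV w hw).2⟩)
    (fun w hw => ⟨(hW w hw).1, mul_pos hη (hW w hw).2⟩)
    (fun w hw => by
      rw [hwe]
      calc η * R w ≤ η * (L * wt R w) := mul_le_mul_of_nonneg_left (hLV w hw) hη.le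
        _ = _ := by ring)
    (fun w hw => by
      rw [hwe']
      calc η * R' w ≤ η * (L * wt R' w) := mul_le_mul_of_nonneg_left (hLW w hw) hη.le
        _ = _ := by ring)
    hbV hbW hVt hWt
    (fun e he hD1 => by
      rw [hDe] at hD1 ⊢
      have hD := hDpos e he
      have h := Finset.mem_product.1 he
      have hR := (hV _ h.1).2
      have hR' := (hW _ h.2).2
      have h0 : 0 ≤ (R e.1 * R' e.2) / DP R R' e := by positivity
      calc F e ≤ 2 * ((R e.1 * R' e.2) / DP R R' e) * (2 * η * DP R R' e + 1) := hF e he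
        _ ≤ 2 * ((R e.1 * R' e.2) / DP R R' e) * 3 := by
            apply mul_le_mul_of_nonneg_left _ (by positivity)
            nlinarith
        _ = 6 / η * (Re e.1 * Re' e.2 / (η * DP R R' e)) := by
            rw [hRe, hRe']; field_simp; ring)
    (fun e he _ hFe => by
      obtain ⟨m, m', hm⟩ := hrel e he hFe
      refine ⟨m, m', hm.trans ?_⟩
      rw [hDe]
      have : 0 < η * DP R R' e := mul_pos hη (hDpos e he)
      linarith)
    (fun e he _ _ => by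
      have h := Finset.mem_product.1 he
      exact no_FP hb hn hη hη1 hηb hb15 (hV _ h.1).1 (hW _ h.2).1 (hbV _ h.1) (hbW _ h.2)
        (hV _ h.1).2 (hW _ h.2).2 (hU _ h.2) hA)
  -- generic part
  have hgen : ∑ e ∈ (V ×ˢ W).filter (fun e => ¬ DP Re Re' e ≤ 1), F e ≤
      6 * η * L^2 * ((∑ q ∈ V, wt R q) * (∑ r ∈ W, wt R' r)) := by
    have h1 : ∀ e ∈ (V ×ˢ W).filter (fun e => ¬ DP Re Re' e ≤ 1),
        F e ≤ 6 * η * L^2 * (wt R e.1 * wt R' e.2) := by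
      intro e he
      obtain ⟨heP, hD1⟩ := Finset.mem_filter.1 he
      rw [hDe] at hD1
      have hD1' := (not_le.1 hD1).le
      have hD := hDpos e heP
      have h := Finset.mem_product.1 heP
      have hR := (hV _ h.1).2
      have hR' := (hW _ h.2).2
      have h5 : 0 ≤ L * wt R e.1 := hR.le.trans (hLV _ h.1)
      calc F e ≤ 2 * ((R e.1 * R' e.2) / DP R R' e) * (2 * η * DP R R' e + 1) := hF e heP
        _ ≤ 2 * ((R e.1 * R' e.2) / DP R R' e) * (3 * (η * DP R R' e)) := by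
            apply mul_le_mul_of_nonneg_left _ (by positivity)
            linarith
        _ = 6 * η * (R e.1 * R' e.2) := by field_simp; ring
        _ ≤ 6 * η * ((L * wt R e.1) * (L * wt R' e.2)) := by
            apply mul_le_mul_of_nonneg_left _ (by positivity)
            exact mul_le_mul (hLV _ h.1) (hLW _ h.2) hR'.le h5
        _ = _ := by ring
    calc ∑ e ∈ (V ×ˢ W).filter (fun e => ¬ DP Re Re' e ≤ 1), F e
        ≤ ∑ e ∈ (V ×ˢ W).filter (fun e => ¬ DP Re Re' e ≤ 1),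
            6 * η * L^2 * (wt R e.1 * wt R' e.2) := Finset.sum_le_sum h1
      _ ≤ ∑ e ∈ V ×ˢ W, 6 * η * L^2 * (wt R e.1 * wt R' e.2) := by
          apply Finset.sum_le_sum_of_subset_of_nonneg (Finset.filter_subset _ _)
          intro e he _
          have h := Finset.mem_product.1 he
          have := hmuV _ h.1
          have := hmuW _ h.2
          positivity
      _ = _ := by
          rw [← Finset.mul_sum, Finset.sum_product, Finset.sum_mul_sum]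
  rw [← Finset.sum_filter_add_sum_filter_not (V ×ˢ W) (fun e => DP Re Re' e ≤ 1)]
  have e1 : ∑ q ∈ V, wt Re q = η * ∑ q ∈ V, wt R q := by
    rw [Finset.mul_sum]; exact Finset.sum_congr rfl fun q _ => hwe q
  have e2 : ∑ q ∈ W, wt Re' q = η * ∑ q ∈ W, wt R' q := by
    rw [Finset.mul_sum]; exact Finset.sum_congr rfl fun q _ => hwe' q
  rw [e1, e2] at key
  set M := ∑ q ∈ V, wt R q with hM
  set M' := ∑ q ∈ W, wt R' q with hM'
  set B1 := (n * (2 * KH 1 0 eps1 * Bf b eps1 * (2:ℝ)^(2*eps1*n)) +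
        C * ((2:ℝ)^n)^(-(1/1000):ℝ) * ((b:ℝ) - 1)^(-(1/2-eps1))) with hB1
  have e3 : (η * M * (η * M'))^(1/2+eps1) = η * (η^(2*eps1) * (M * M')^(1/2+eps1)) := by
    have h1 : η * M * (η * M') = η^(2:ℝ) * (M * M') := by
      rw [Real.rpow_two]; ring
    rw [h1, Real.mul_rpow (by positivity) (mul_nonneg hM0 hM0'), ← Real.rpow_mul hη.le]
    have h2 : (2:ℝ) * (1/2+eps1) = 1 + 2 * eps1 := by ring
    rw [h2, Real.rpow_add hη, Real.rpow_one]
    ring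
  rw [e3] at key
  have e4 : 6 / η * L^2 * B1 * (η * (η^(2*eps1) * (M * M')^(1/2+eps1))) + 6 / η * (L / b) * (η * M)
      = 6 * L^2 * B1 * (η^(2*eps1) * (M * M')^(1/2+eps1)) + 6 * (L / b) * M := by
    field_simp
  rw [e4] at key
  linarith

end Crest.Agent.R4.InX944
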