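import Mathlib
import Crest.Agent.R4.CrossShot709

/-!
R4 (S0004), helper709, module D: HOLE (LL) of 560 #15584: pairs `1 < D` of (leaf, leaf') states, charged at the
crossing level. `S_D = Σ_{l ∣ x y, l > D} 1/l` (cofactors `x, y`).
* `mid_xA` : HVW with anatomy weight for all scales `≤ T`, any `T`.
* `bad_anat` : pairs with `D > 2^k0`, `S_D > 1` and weight `e^{2 S_D}` cost `e^{-2^k0/4}`.
* `ll_shot` : numbers in `b`.
-/

set_option autoImplicit false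
open Finset

namespace Crest.Agent.R4.LLNum709
open Crest.Agent.R4.HVW560 Crest.Agent.R4.HVWX793
open Crest.Agent.R4.Schur709 Crest.Agent.R4.StopHvw709 Crest.Agent.R4.StopAsm709
open Crest.Agent.R4.ClsS (eps1)

/-- **all scales `≤ T`, any `T`** (HVW with anatomy weight, crossing at `b`) on the averaged circle -/
theorem mid_xA {A : ℕ →* ℝ} {L Λ : ℝ} (hA : GoodWt A L Λ) {ε : ℝ} (hε : 0 < ε) (hε4 : ε ≤ 1/4) {N : ℕ} {O O' V W : Finset ℕ} {E : Finset (ℕ × ℕ)}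
    {R R' : ℕ → ℝ} (hO : ∀ p ∈ O, p.Prime ∧ N ≤ p) (hO' : ∀ p ∈ O', p.Prime ∧ N ≤ p)
    (hV : ∀ w ∈ V, 0 < w) (hW : ∀ w ∈ W, 0 < w) (hR : ∀ w ∈ V, 0 ≤ R w) (hR' : ∀ w ∈ W, 0 ≤ R' w)
    (hE : E ⊆ V ×ˢ W) {b₀ : ℕ} (hb₀ : b₀.Prime) (hbV : ∀ w ∈ V, b₀ ∣ uu O' w)
    (hbW : ∀ w ∈ W, ¬ b₀ ∣ uu O w) {c c' : ℝ}
    (hc : ∀ r ∈ W, c ≤ ∑ p ∈ O.filter (fun p => ¬ p ∣ r), 1/(p:ℝ))
    (hc' : ∀ q ∈ V, c' ≤ ∑ p ∈ O'.filter (fun p => ¬ p ∣ q), 1/(p:ℝ))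
    {T K : ℝ} (hT : 0 < T) (hK : 0 ≤ K) {F : ℕ × ℕ → ℝ}
    (h1 : ∀ e ∈ E, (cof (uu O' e.1) (uu O e.2) : ℝ) * Rc O R' e.2 ≤ T)
    (h2 : ∀ e ∈ E, (cof (uu O e.2) (uu O' e.1) : ℝ) * Rc O' R e.1 ≤ T)
    (hF : ∀ e ∈ E, F e ≤ K * ((mu O' R e.1 * mu O R' e.2) *
      (A (cof (uu O' e.1) (uu O e.2)) * A (cof (uu O e.2) (uu O' e.1))))) :
    ∑ e ∈ E, F e ≤ K * (L * KH L Λ ε * T^(1-2*ε) * Bf b₀ ε) *
      Real.exp ((1/2-ε) * (-(N*c) + 3 * (∑ p ∈ O, 1/(p:ℝ)) + (-(N*c') + 3 * ∑ p ∈ O', 1/(p:ℝ)))) *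
      ((∑ q ∈ V, mu O' R q) * (∑ r ∈ W, mu O R' r))^(1/2+ε) := by
  classical
  have hOp : ∀ p ∈ O, p.Prime := fun p hp => (hO p hp).1
  have hOp' : ∀ p ∈ O', p.Prime := fun p hp => (hO' p hp).1
  have hKH := (KH_pos L Λ ε).le
  have hL1 : 1 ≤ L := hA.L1
  apply group_sum (α := 1/2-ε) (β := 1/2+ε) (by linarith) (by linarith) (by ring)
    (fun p hp => ⟨(hO p hp).1.pos, (hO p hp).2⟩) (fun p hp => ⟨(hO' p hp).1.pos, (hO' p hp).2⟩) hE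
    (fun q hq => mu_nonneg (hR q hq)) (fun q hq => mu_nonneg (hR' q hq)) (by have := Bf_nonneg b₀ ε; positivity) hc hc'
  intro S hS S' hS'
  rw [filter_eq_Eg]
  have ha : 0 < ∏ p ∈ S, (1/(p:ℝ)) := Finset.prod_pos fun p hp => by
    have := (hOp p (hS hp)).pos; positivity
  have hb : 0 < ∏ p ∈ S', (1/(p:ℝ)) := Finset.prod_pos fun p hp => by
    have := (hOp' p (hS' hp)).pos; positivity
  set a := ∏ p ∈ S, (1/(p:ℝ)) with had
  set b := ∏ p ∈ S', (1/(p:ℝ)) with hbd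
  have hs : Sys2 (Vu O' V S') (Vu O W S) (Eu O O' E S S') (ψu O' S' R) (ψu O S R') T T :=
    { hδ₁ := hT
      hδ₂ := hT
      hV := by
        intro v hv
        obtain ⟨w, hw, rfl⟩ := Finset.mem_image.1 hv
        exact uu_pos hOp' (hV w (Finset.mem_filter.1 hw).1)
      hW := by
        intro v hv
        obtain ⟨w, hw, rfl⟩ := Finset.mem_image.1 hv
        exact uu_pos hOp (hW w (Finset.mem_filter.1 hw).1)
      hψ := by
        intro v hv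
        obtain ⟨w, hw, rfl⟩ := Finset.mem_image.1 hv
        rw [ψu_eq hOp' (Finset.mem_filter.1 hw).2]
        exact div_nonneg (hR w (Finset.mem_filter.1 hw).1) (al_nonneg _ _)
      hθ := by
        intro v hv
        obtain ⟨w, hw, rfl⟩ := Finset.mem_image.1 hv
        rw [ψu_eq hOp (Finset.mem_filter.1 hw).2]
        exact div_nonneg (hR' w (Finset.mem_filter.1 hw).1) (al_nonneg _ _)
      hE := Eu_sub hE S S'
      h1 := by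
        intro e he
        obtain ⟨f, hf, rfl⟩ := Finset.mem_image.1 he
        have hf' := Finset.mem_filter.1 hf
        show (cof (uu O' f.1) (uu O f.2) : ℝ) * ψu O S R' (uu O f.2) ≤ T
        rw [ψu_eq hOp hf'.2.1]
        exact h1 f hf'.1
      h2 := by
        intro e he
        obtain ⟨f, hf, rfl⟩ := Finset.mem_image.1 he
        have hf' := Finset.mem_filter.1 hf
        show (cof (uu O f.2) (uu O' f.1) : ℝ) * ψu O' S' R (uu O' f.1) ≤ T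
        rw [ψu_eq hOp' hf'.2.2]
        exact h2 f hf'.1 }
  have key := hvw_cross hA hε hε4 hs (z₁ := b₀) (z₂ := 1) hb₀.pos one_pos
    (by
      intro v hv
      obtain ⟨w, hw, rfl⟩ := Finset.mem_image.1 hv
      exact ⟨hbV w (Finset.mem_filter.1 hw).1, Nat.coprime_one_left _⟩)
    (by
      intro v hv
      obtain ⟨w, hw, rfl⟩ := Finset.mem_image.1 hv
      exact ⟨one_dvd _, (Nat.Prime.coprime_iff_not_dvd hb₀).2 (hbW w (Finset.mem_filter.1 hw).1)⟩)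
  rw [zf_one, one_mul, Nat.cast_one, mul_one] at key
  have eT : (T * T)^(1/2-ε) = T^(1-2*ε) := by
    rw [Real.mul_rpow hT.le hT.le, ← Real.rpow_add hT]; congr 1; ring
  have hb₀r : (0:ℝ) < b₀ := by exact_mod_cast hb₀.pos
  have eT2 : (T * T / (b₀:ℝ))^(1/2-ε) = T^(1-2*ε) * (1/(b₀:ℝ))^(1/2-ε) := by
    rw [← eT, ← Real.mul_rpow (by positivity) (by positivity), mul_one_div]
  rw [eT2, sum_Eu hOp hOp' hE] at key
  set x := ∑ q ∈ Vg O' V S', mu O' R q with hx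
  set y := ∑ r ∈ Vg O W S, mu O R' r with hy
  have hx0 : 0 ≤ x := Finset.sum_nonneg fun q hq => mu_nonneg (hR q (Finset.mem_filter.1 hq).1)
  have hy0 : 0 ≤ y := Finset.sum_nonneg fun q hq => mu_nonneg (hR' q (Finset.mem_filter.1 hq).1)
  have ex : ∑ v ∈ Vu O' V S', wt (ψu O' S' R) v = x / b := by
    rw [eq_div_iff hb.ne']; exact sum_Vu hOp' R
  have ey : ∑ v ∈ Vu O W S, wt (ψu O S R') v = y / a := by
    rw [eq_div_iff ha.ne']; exact sum_Vu hOp R'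
  rw [ex, ey] at key
  have hzf := (zf_pos hb₀.pos).le
  have ez : (zf b₀ * (x / b) * (y / a))^(1/2+ε) = (zf b₀)^(1/2+ε) * (x/b * (y/a))^(1/2+ε) := by
    rw [mul_assoc, Real.mul_rpow hzf (by positivity)]
  rw [ez] at key
  have hAb : A b₀ * A 1 ≤ L := by
    rw [map_one, mul_one]; exact hA.le_L _ hb₀
  have hKZ : 0 ≤ KH L Λ ε * (T^(1-2*ε) * (1/(b₀:ℝ))^(1/2-ε) * ((zf b₀)^(1/2+ε) * (x/b * (y/a))^(1/2+ε))) := by
    positivity
  have key2 := key.trans (mul_le_mul_of_nonneg_right hAb hKZ)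
  calc ∑ e ∈ Eg O O' E S S', F e
      ≤ ∑ e ∈ Eg O O' E S S', (K * (a * b)) *
          (wt (ψu O' S' R) (uu O' e.1) * wt (ψu O S R') (uu O e.2) *
          (A (cof (uu O' e.1) (uu O e.2)) * A (cof (uu O e.2) (uu O' e.1)))) := by
        apply Finset.sum_le_sum
        intro e he
        have he' := Finset.mem_filter.1 he
        refine (hF e he'.1).trans (le_of_eq ?_)
        rw [mu_eq hOp', mu_eq hOp, al_eq he'.2.1, al_eq he'.2.2]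
        unfold wt
        rw [ψu_eq hOp he'.2.1, ψu_eq hOp' he'.2.2]
        ring
    _ = (K * (a * b)) * ∑ e ∈ Eg O O' E S S',
          (wt (ψu O' S' R) (uu O' e.1) * wt (ψu O S R') (uu O e.2) *
          (A (cof (uu O' e.1) (uu O e.2)) * A (cof (uu O e.2) (uu O' e.1)))) := by rw [Finset.mul_sum]
    _ ≤ (K * (a * b)) * (L * (KH L Λ ε * (T^(1-2*ε) * (1/(b₀:ℝ))^(1/2-ε) *
          ((zf b₀)^(1/2+ε) * (x/b * (y/a))^(1/2+ε))))) :=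
        mul_le_mul_of_nonneg_left key2 (by positivity)
    _ = (L * KH L Λ ε * T^(1-2*ε) * Bf b₀ ε) * ((K * (a * b)) * (x/b * (y/a))^(1/2+ε)) := by
        unfold Bf; ring
    _ = _ := by
        rw [group_alg (α := 1/2-ε) (β := 1/2+ε) ha hb hx0 hy0 (by ring)]
        show _ = K * (L * KH L Λ ε * T^(1-2*ε) * Bf b₀ ε) *
          ((a^(1/2-ε) * y^(1/2+ε)) * (b^(1/2-ε) * x^(1/2+ε)))
        ring


/-! ### anatomy -/

/-- `Σ_{l ∣ x y, l > T} 1/l` for the cofactors of a pair -/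
noncomputable def SA (O O' : Finset ℕ) (T : ℝ) (e : ℕ × ℕ) : ℝ :=
  ∑ p ∈ (cof (uu O' e.1) (uu O e.2) * cof (uu O e.2) (uu O' e.1)).primeFactors.filter
    (fun p : ℕ => T < (p:ℝ)), 1/(p:ℝ)

lemma SA_mono {O O' : Finset ℕ} {T T' : ℝ} (h : T ≤ T') (e : ℕ × ℕ) : SA O O' T' e ≤ SA O O' T e := by
  unfold SA
  refine Finset.sum_le_sum_of_subset_of_nonneg ?_ fun p _ _ => by positivity
  intro p hp
  rw [Finset.mem_filter] at hp ⊢
  exact ⟨hp.1, lt_of_le_of_lt h hp.2⟩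

lemma SA_nonneg {O O' : Finset ℕ} {T : ℝ} (e : ℕ × ℕ) : 0 ≤ SA O O' T e :=
  Finset.sum_nonneg fun p _ => by positivity

/-- the weight `exp (T Σ_{l > T} 1/l)` -/
noncomputable def AT (T : ℝ) : ℕ →* ℝ := mkA (fun p => Real.exp (if T < (p:ℝ) then 1*T/p else 0))

lemma AT_ge {O O' : Finset ℕ} {T : ℝ} (hT : 0 < T) {e : ℕ × ℕ} (h1 : 0 < uu O' e.1) (h2 : 0 < uu O e.2) :
    Real.exp (T * SA O O' T e) ≤
      AT T (cof (uu O' e.1) (uu O e.2)) * AT T (cof (uu O e.2) (uu O' e.1)) := by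
  have c1 : 0 < cof (uu O' e.1) (uu O e.2) := HVW560.cof_pos h1
  have c2 : 0 < cof (uu O e.2) (uu O' e.1) := HVW560.cof_pos h2
  have h0 : ∀ p : ℕ, 0 ≤ (if T < (p:ℝ) then 1*T/p else 0) := by
    intro p; split_ifs with h
    · have : (0:ℝ) < p := by linarith
      positivity
    · exact le_refl _
  unfold AT
  rw [← map_mul]
  refine le_trans ?_ (mkA_exp_ge _ h0 (Nat.mul_pos c1 c2).ne')
  apply Real.exp_le_exp.2
  unfold SA
  rw [Finset.sum_filter, Finset.mul_sum]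
  refine le_of_eq (Finset.sum_congr rfl fun p _ => ?_)
  split_ifs <;> ring

/-- one level of bad anatomy -/
lemma rank_num {T S : ℝ} (hT : 4 ≤ T) (hS : 1 ≤ S) :
    Real.exp (2 * S) ≤ Real.exp (-(T/2)) * Real.exp (T * S) := by
  rw [← Real.exp_add]
  apply Real.exp_le_exp.2
  nlinarith

open Classical in
/-- **bad anatomy** -/
theorem bad_anat {ε : ℝ} (hε : 0 < ε) (hε4 : ε ≤ 1/4) {N : ℕ} {O O' V W : Finset ℕ}
    {R R' : ℕ → ℝ} (hO : ∀ p ∈ O, p.Prime ∧ N ≤ p) (hO' : ∀ p ∈ O', p.Prime ∧ N ≤ p)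
    (hV : ∀ w ∈ V, 0 < w) (hW : ∀ w ∈ W, 0 < w) (hR : ∀ w ∈ V, 0 ≤ R w) (hR' : ∀ w ∈ W, 0 ≤ R' w)
    {b₀ : ℕ} (hb₀ : b₀.Prime) (hbV : ∀ w ∈ V, b₀ ∣ uu O' w)
    (hbW : ∀ w ∈ W, ¬ b₀ ∣ uu O w) {c c' : ℝ}
    (hc : ∀ r ∈ W, c ≤ ∑ p ∈ O.filter (fun p => ¬ p ∣ r), 1/(p:ℝ))
    (hc' : ∀ q ∈ V, c' ≤ ∑ p ∈ O'.filter (fun p => ¬ p ∣ q), 1/(p:ℝ))
    {K : ℝ} (hK : 0 ≤ K) {F : ℕ × ℕ → ℝ} {k : ℕ} (hk : Real.exp 16 ≤ (2:ℝ)^k) (E : Finset (ℕ × ℕ))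
    (hE : E ⊆ V ×ˢ W) (h1 : ∀ e ∈ E, (2:ℝ)^k < Dc O O' R R' e)
    (h2 : ∀ e ∈ E, Dc O O' R R' e ≤ (2:ℝ)^(k+1))
    (hS : ∀ e ∈ E, 1 ≤ SA O O' (Dc O O' R R' e) e)
    (hF : ∀ e ∈ E, F e ≤ K * ((mu O' R e.1 * mu O R' e.2) *
      Real.exp (2 * SA O O' (Dc O O' R R' e) e))) :
    ∑ e ∈ E, F e ≤ K * Real.exp (-((2:ℝ)^k/2)) * (Real.exp 1 * KH (Real.exp 1) (2 * 1 * Real.exp 1) ε *
      ((2:ℝ)^(k+1))^(1-2*ε) * Bf b₀ ε) *
      Real.exp ((1/2-ε) * (-(N*c) + 3 * (∑ p ∈ O, 1/(p:ℝ)) + (-(N*c') + 3 * ∑ p ∈ O', 1/(p:ℝ)))) *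
      ((∑ q ∈ V, mu O' R q) * (∑ r ∈ W, mu O R' r))^(1/2+ε) := by
  have hOp : ∀ p ∈ O, p.Prime := fun p hp => (hO p hp).1
  have hOp' : ∀ p ∈ O', p.Prime := fun p hp => (hO' p hp).1
  have hA : GoodWt (AT ((2:ℝ)^k)) (Real.exp 1) (2 * 1 * Real.exp 1) :=
    goodWt_anatomy zero_le_one (by rw [mul_one]; exact hk)
  have hT0 : (0:ℝ) < (2:ℝ)^k := by positivity
  have hT4 : (4:ℝ) ≤ (2:ℝ)^k := by
    have h3 : (16:ℝ) + 1 ≤ Real.exp 16 := Real.add_one_le_exp 16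
    linarith
  refine mid_xA hA hε hε4 (N := N) (T := (2:ℝ)^(k+1)) hO hO' hV hW hR hR' hE hb₀ hbV hbW hc hc'
    (by positivity) (by positivity) (fun e he => (le_max_right _ _).trans (h2 e he))
    (fun e he => (le_max_left _ _).trans (h2 e he)) (fun e he => ?_)
  have hm := Finset.mem_product.1 (hE he)
  have p1 := uu_pos hOp' (hV _ hm.1)
  have p2 := uu_pos hOp (hW _ hm.2)
  have s1 : SA O O' (Dc O O' R R' e) e ≤ SA O O' ((2:ℝ)^k) e := SA_mono (h1 e he).le e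
  have s2 : 1 ≤ SA O O' ((2:ℝ)^k) e := (hS e he).trans s1
  have g1 := AT_ge (O := O) (O' := O') hT0 p1 p2
  have g2 := rank_num hT4 s2
  have g3 : Real.exp (2 * SA O O' (Dc O O' R R' e) e) ≤ Real.exp (-((2:ℝ)^k/2)) *
      (AT ((2:ℝ)^k) (cof (uu O' e.1) (uu O e.2)) * AT ((2:ℝ)^k) (cof (uu O e.2) (uu O' e.1))) := by
    refine (Real.exp_le_exp.2 (by linarith)).trans (g2.trans ?_)
    exact mul_le_mul_of_nonneg_left g1 (Real.exp_nonneg _)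
  have m1 : 0 ≤ mu O' R e.1 := mu_nonneg (hR _ hm.1)
  have m2 : 0 ≤ mu O R' e.2 := mu_nonneg (hR' _ hm.2)
  refine (hF e he).trans ?_
  have g4 : (mu O' R e.1 * mu O R' e.2) * Real.exp (2 * SA O O' (Dc O O' R R' e) e)
      ≤ (mu O' R e.1 * mu O R' e.2) * (Real.exp (-((2:ℝ)^k/2)) *
      (AT ((2:ℝ)^k) (cof (uu O' e.1) (uu O e.2)) * AT ((2:ℝ)^k) (cof (uu O e.2) (uu O' e.1)))) :=
    mul_le_mul_of_nonneg_left g3 (mul_nonneg m1 m2)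
  refine (mul_le_mul_of_nonneg_left g4 hK).trans (le_of_eq ?_)
  ring

/-- the constant of bad anatomy -/
noncomputable def CA (ε : ℝ) : ℝ := Real.exp 1 * KH (Real.exp 1) (2 * 1 * Real.exp 1) ε

lemma CA_pos (ε : ℝ) : 0 < CA ε := mul_pos (Real.exp_pos _) (KH_pos _ _ _)

lemma lev_exp {ε : ℝ} (hε : 0 < ε) {k k0 : ℕ} (hk0 : Real.exp 16 ≤ (2:ℝ)^k0) (hk : k0 ≤ k) :
    Real.exp (-((2:ℝ)^k/2)) * ((2:ℝ)^(k+1))^(1-2*ε) ≤ Real.exp (-((2:ℝ)^k0/4)) * (1/2)^k := by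
  have hx0 : (2:ℝ)^k0 ≤ (2:ℝ)^k := pow_le_pow_right₀ (by norm_num) hk
  set x : ℝ := (2:ℝ)^k with hx
  have hx16 : Real.exp 16 ≤ x := hk0.trans hx0
  have hx1 : (1:ℝ) ≤ (2:ℝ)^(k+1) := one_le_pow₀ (by norm_num)
  have h1 : ((2:ℝ)^(k+1))^(1-2*ε) ≤ 2 * x := by
    calc ((2:ℝ)^(k+1))^(1-2*ε) ≤ ((2:ℝ)^(k+1))^(1:ℝ) :=
          Real.rpow_le_rpow_of_exponent_le hx1 (by linarith)
      _ = 2 * x := by rw [Real.rpow_one, pow_succ]; ring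
  have hxb : (200:ℝ) ≤ x := by
    refine le_trans ?_ hx16
    have h2 := Real.pow_div_factorial_le_exp (16:ℝ) (by norm_num) 3
    norm_num [Nat.factorial] at h2
    linarith
  have hxp : 0 < x := by linarith
  have h2 : 2 * x ^ 2 ≤ Real.exp (x/4) := by
    have h3 := Real.pow_div_factorial_le_exp (x/4) (by positivity) 4
    norm_num [Nat.factorial] at h3
    refine le_trans ?_ h3
    have : (x/4)^4/24 = x^2 * (x^2/6144) := by ring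
    rw [this]
    have : (2:ℝ) ≤ x^2/6144 := by nlinarith
    nlinarith [sq_nonneg x]
  have h3 : Real.exp (-(x/2)) = Real.exp (-(x/4)) * Real.exp (-(x/4)) := by
    rw [← Real.exp_add]; congr 1; ring
  have h4 : Real.exp (-(x/4)) * (2 * x) ≤ (1/2)^k := by
    have e1 : (1/2:ℝ)^k = 1/x := by rw [hx, one_div_pow]
    rw [e1, Real.exp_neg, le_div_iff₀ hxp, inv_mul_eq_div, div_mul_eq_mul_div, div_le_one (Real.exp_pos _)]
    nlinarith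
  have h5 : Real.exp (-(x/4)) ≤ Real.exp (-((2:ℝ)^k0/4)) := Real.exp_le_exp.2 (by linarith)
  calc Real.exp (-(x/2)) * ((2:ℝ)^(k+1))^(1-2*ε) ≤ Real.exp (-(x/2)) * (2 * x) :=
        mul_le_mul_of_nonneg_left h1 (Real.exp_nonneg _)
    _ = Real.exp (-(x/4)) * (Real.exp (-(x/4)) * (2 * x)) := by rw [h3]; ring
    _ ≤ Real.exp (-((2:ℝ)^k0/4)) * (1/2)^k :=
        mul_le_mul h5 h4 (by positivity) (Real.exp_nonneg _)

open Classical in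
/-- **bad anatomy, all scales** -/
theorem bad_all {ε : ℝ} (hε : 0 < ε) (hε4 : ε ≤ 1/4) {N : ℕ} {O O' V W : Finset ℕ}
    {R R' : ℕ → ℝ} (hO : ∀ p ∈ O, p.Prime ∧ N ≤ p) (hO' : ∀ p ∈ O', p.Prime ∧ N ≤ p)
    (hV : ∀ w ∈ V, 0 < w) (hW : ∀ w ∈ W, 0 < w) (hR : ∀ w ∈ V, 0 ≤ R w) (hR' : ∀ w ∈ W, 0 ≤ R' w)
    {b₀ : ℕ} (hb₀ : b₀.Prime) (hbV : ∀ w ∈ V, b₀ ∣ uu O' w)
    (hbW : ∀ w ∈ W, ¬ b₀ ∣ uu O w) {c c' : ℝ}
    (hc : ∀ r ∈ W, c ≤ ∑ p ∈ O.filter (fun p => ¬ p ∣ r), 1/(p:ℝ))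
    (hc' : ∀ q ∈ V, c' ≤ ∑ p ∈ O'.filter (fun p => ¬ p ∣ q), 1/(p:ℝ))
    {K : ℝ} (hK : 0 ≤ K) {F : ℕ × ℕ → ℝ} {k0 : ℕ} (hk : Real.exp 16 ≤ (2:ℝ)^k0)
    (E : Finset (ℕ × ℕ)) (hE : E ⊆ V ×ˢ W) (h1 : ∀ e ∈ E, (2:ℝ)^k0 < Dc O O' R R' e)
    (hS : ∀ e ∈ E, 1 ≤ SA O O' (Dc O O' R R' e) e)
    (hF : ∀ e ∈ E, F e ≤ K * ((mu O' R e.1 * mu O R' e.2) *
      Real.exp (2 * SA O O' (Dc O O' R R' e) e))) :
    ∑ e ∈ E, F e ≤ K * (CA ε * Bf b₀ ε) * Real.exp (-((2:ℝ)^k0/4)) *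
      (Real.exp ((1/2-ε) * (-(N*c) + 3 * (∑ p ∈ O, 1/(p:ℝ)) + (-(N*c') + 3 * ∑ p ∈ O', 1/(p:ℝ)))) *
      ((∑ q ∈ V, mu O' R q) * (∑ r ∈ W, mu O R' r))^(1/2+ε)) := by
  set Z := Real.exp ((1/2-ε) * (-(N*c) + 3 * (∑ p ∈ O, 1/(p:ℝ)) + (-(N*c') + 3 * ∑ p ∈ O', 1/(p:ℝ)))) *
      ((∑ q ∈ V, mu O' R q) * (∑ r ∈ W, mu O R' r))^(1/2+ε) with hZ
  have hZ0 : 0 ≤ Z := by
    apply mul_nonneg (Real.exp_nonneg _)
    apply Real.rpow_nonneg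
    exact mul_nonneg (Finset.sum_nonneg fun q hq => mu_nonneg (hR q hq))
      (Finset.sum_nonneg fun q hq => mu_nonneg (hR' q hq))
  have hBf := Bf_nonneg b₀ ε
  have hCA := (CA_pos ε).le
  set G := K * (CA ε * Bf b₀ ε) * Real.exp (-((2:ℝ)^k0/4)) * Z with hG
  have hG0 : 0 ≤ G := by positivity
  have hk1 : 1 ≤ k0 := by
    rcases Nat.eq_zero_or_pos k0 with h | h
    · rw [h, pow_zero] at hk
      have := Real.add_one_le_exp (16:ℝ)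
      linarith
    · exact h
  have key : ∀ n : ℕ, ∀ E : Finset (ℕ × ℕ), E ⊆ V ×ˢ W → (∀ e ∈ E, (2:ℝ)^k0 < Dc O O' R R' e) →
      (∀ e ∈ E, Dc O O' R R' e ≤ (2:ℝ)^(k0+n)) → (∀ e ∈ E, 1 ≤ SA O O' (Dc O O' R R' e) e) →
      (∀ e ∈ E, F e ≤ K * ((mu O' R e.1 * mu O R' e.2) *
        Real.exp (2 * SA O O' (Dc O O' R R' e) e))) → ∑ e ∈ E, F e ≤ G * (1 - (1/2)^n) := by
    intro n
    induction n with
    | zero =>
      intro E hE h1 h2 _ _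
      have : E = ∅ := by
        rw [Finset.eq_empty_iff_forall_notMem]
        intro e he
        have a := h1 e he
        have b := h2 e he
        rw [add_zero] at b
        linarith
      rw [this]; simp
    | succ n ih =>
      intro E hE h1 h2 h3 h4
      set E1 := E.filter (fun e => Dc O O' R R' e ≤ (2:ℝ)^(k0+n)) with hE1
      set E2 := E.filter (fun e => ¬ Dc O O' R R' e ≤ (2:ℝ)^(k0+n)) with hE2
      have hsplit : ∑ e ∈ E, F e = ∑ e ∈ E1, F e + ∑ e ∈ E2, F e := by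
        rw [hE1, hE2, Finset.sum_filter_add_sum_filter_not]
      have s1 : ∀ e ∈ E1, e ∈ E := fun e he => (Finset.mem_filter.1 he).1
      have s2 : ∀ e ∈ E2, e ∈ E := fun e he => (Finset.mem_filter.1 he).1
      have b1 := ih E1 (fun e he => hE (s1 e he)) (fun e he => h1 e (s1 e he))
        (fun e he => (Finset.mem_filter.1 he).2) (fun e he => h3 e (s1 e he))
        (fun e he => h4 e (s1 e he))
      have hkn : Real.exp 16 ≤ (2:ℝ)^(k0+n) :=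
        hk.trans (pow_le_pow_right₀ (by norm_num) (Nat.le_add_right _ _))
      have b2 := bad_anat hε hε4 (N := N) hO hO' hV hW hR hR' hb₀ hbV hbW hc hc' hK hkn E2
        (fun e he => hE (s2 e he)) (fun e he => not_le.1 (Finset.mem_filter.1 he).2)
        (fun e he => h2 e (s2 e he)) (fun e he => h3 e (s2 e he)) (fun e he => h4 e (s2 e he))
      have e3 := lev_exp hε hk (Nat.le_add_right k0 n)
      have b3 : ∑ e ∈ E2, F e ≤ G * (1/2)^(n+1) := by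
        refine b2.trans ?_
        have e4 : K * Real.exp (-((2:ℝ)^(k0+n)/2)) * (Real.exp 1 * KH (Real.exp 1) (2 * 1 * Real.exp 1) ε *
            ((2:ℝ)^(k0+n+1))^(1-2*ε) * Bf b₀ ε) *
            Real.exp ((1/2-ε) * (-(N*c) + 3 * (∑ p ∈ O, 1/(p:ℝ)) + (-(N*c') + 3 * ∑ p ∈ O', 1/(p:ℝ)))) *
            ((∑ q ∈ V, mu O' R q) * (∑ r ∈ W, mu O R' r))^(1/2+ε) =
            (K * (CA ε * Bf b₀ ε) * Z) * (Real.exp (-((2:ℝ)^(k0+n)/2)) * ((2:ℝ)^(k0+n+1))^(1-2*ε)) := by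
          unfold CA; rw [hZ]; ring
        rw [e4]
        refine (mul_le_mul_of_nonneg_left e3 (by positivity)).trans ?_
        have e5 : (1/2:ℝ)^(k0+n) ≤ (1/2)^(n+1) :=
          pow_le_pow_of_le_one (by norm_num) (by norm_num) (by omega)
        calc K * (CA ε * Bf b₀ ε) * Z * (Real.exp (-((2:ℝ)^k0/4)) * (1/2)^(k0+n))
            = G * (1/2)^(k0+n) := by rw [hG]; ring
          _ ≤ _ := mul_le_mul_of_nonneg_left e5 hG0
      rw [hsplit]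
      have e6 : G * (1 - (1/2)^n) + G * (1/2)^(n+1) = G * (1 - (1/2)^(n+1)) := by
        rw [pow_succ]; ring
      linarith
  obtain ⟨n, hn⟩ := pow_unbounded_of_one_lt (∑ e ∈ E, |Dc O O' R R' e|) (by norm_num : (1:ℝ) < 2)
  have h2 : ∀ e ∈ E, Dc O O' R R' e ≤ (2:ℝ)^(k0+n) := by
    intro e he
    have a1 := Finset.single_le_sum (f := fun e => |Dc O O' R R' e|) (fun e _ => abs_nonneg _) he
    have a2 : (2:ℝ)^n ≤ (2:ℝ)^(k0+n) := pow_le_pow_right₀ (by norm_num) (Nat.le_add_left _ _)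
    have a3 := le_abs_self (Dc O O' R R' e)
    have a4 : |Dc O O' R R' e| ≤ ∑ e ∈ E, |Dc O O' R R' e| := a1
    linarith
  have fin := key n E hE h1 h2 hS hF
  have : G * (1 - (1/2)^n) ≤ G := by
    have : (0:ℝ) ≤ (1/2)^n := by positivity
    nlinarith
  exact fin.trans this

lemma exp16_le : Real.exp 16 ≤ (2:ℝ)^24 := by
  have h := Real.exp_one_lt_d9
  have e : Real.exp 16 = (Real.exp 1)^16 := by rw [← Real.exp_nat_mul]; norm_num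
  rw [e]
  calc (Real.exp 1)^16 ≤ (2.7182818286:ℝ)^16 := pow_le_pow_left₀ (Real.exp_nonneg _) h.le 16
    _ ≤ (2:ℝ)^24 := by norm_num

/-- the weight of a pair of (leaf, leaf') type -/
noncomputable def wLL (O O' : Finset ℕ) (D : ℝ) (e : ℕ × ℕ) : ℝ :=
  if D ≤ 2^24 then 1 else Real.exp (2 * SA O O' D e)

open Classical in
/-- **(LL), numbers in `b`**: pairs with `D ≤ 2^24` or bad anatomy -/
theorem ll_shot {CL C0 : ℝ} (hCL : 1 ≤ CL) (hC0 : 0 ≤ C0) : ∃ (C1 : ℝ) (b₁ : ℕ), 0 ≤ C1 ∧ 2 ≤ b₁ ∧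
    ∀ (N b : ℕ) (O O' V W : Finset ℕ) (R R' : ℕ → ℝ) (F : ℕ × ℕ → ℝ) (E : Finset (ℕ × ℕ)),
    b₁ ≤ b → b.Prime →
    (∀ p ∈ O, p.Prime ∧ N ≤ p) → (∀ p ∈ O', p.Prime ∧ N ≤ p) →
    ∑ p ∈ O, 1/(p:ℝ) ≤ 1 → ∑ p ∈ O', 1/(p:ℝ) ≤ 1 →
    (∀ w ∈ V, 0 < w ∧ 0 < R w) → (∀ w ∈ W, 0 < w ∧ 0 < R' w) →
    (∀ w ∈ V, R w ≤ (CL * Real.log b) * mu O' R w) → (∀ w ∈ W, R' w ≤ (CL * Real.log b) * mu O R' w) →
    (∀ w ∈ V, b ∣ uu O' w) → (∀ w ∈ W, ¬ b ∣ uu O w) →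
    E ⊆ V ×ˢ W →
    (∀ e ∈ E, Dc O O' R R' e ≤ 2^24 ∨ 1 ≤ SA O O' (Dc O O' R R' e) e) →
    (∀ e ∈ E, F e ≤ (Real.log b)^C0 * (R e.1 * R' e.2) * wLL O O' (Dc O O' R R' e) e) →
    ∑ e ∈ E, F e ≤
      (Real.log b)^C1 * ((b:ℝ)^(-(1/2-eps1)) *
        ((∑ q ∈ V, mu O' R q) * (∑ r ∈ W, mu O R' r))^(1/2+eps1)) := by
  have he1 : eps1 = 1/1000 := rfl
  have hKH := (KH_pos 1 0 eps1).le
  have hCA := (CA_pos eps1).le
  obtain ⟨x1, hx1⟩ := Filter.eventually_atTop.1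
    ((Real.tendsto_log_atTop.eventually_ge_atTop
      (1 + CL^2 * (2 * (KH 1 0 eps1 * 2^24) + 2 * CA eps1) * Real.exp 3)))
  refine ⟨C0 + 3, max 2 ⌈x1⌉₊, by positivity, le_max_left _ _, ?_⟩
  intro N b O O' V W R R' F E hb hbp hO hO' hsO hsO' hV hW hLV hLW hbV hbW hE hcase hF
  have hbx : x1 ≤ (b:ℝ) := (Nat.le_ceil _).trans (by exact_mod_cast (le_max_right _ _).trans hb)
  have hlog := hx1 b hbx
  have hP0 : 0 ≤ CL^2 * (2 * (KH 1 0 eps1 * 2^24) + 2 * CA eps1) * Real.exp 3 := by positivity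
  have hl1 : 1 ≤ Real.log b := by linarith
  have hlc : CL^2 * (2 * (KH 1 0 eps1 * 2^24) + 2 * CA eps1) * Real.exp 3 ≤ Real.log b := by linarith
  have hb0 : (0:ℝ) < b := by exact_mod_cast hbp.pos
  set ℓ := Real.log b with hℓ
  have hℓ0 : 0 < ℓ := by linarith
  have hR : ∀ w ∈ V, 0 ≤ R w := fun w hw => (hV w hw).2.le
  have hR' : ∀ w ∈ W, 0 ≤ R' w := fun w hw => (hW w hw).2.le
  set K := ℓ^C0 * (CL * ℓ)^2 with hK
  have hK0 : 0 ≤ K := by positivity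
  have hmm : 0 ≤ (∑ q ∈ V, mu O' R q) * (∑ r ∈ W, mu O R' r) :=
    mul_nonneg (Finset.sum_nonneg fun q hq => mu_nonneg (hR q hq))
      (Finset.sum_nonneg fun q hq => mu_nonneg (hR' q hq))
  set Z0 := ((∑ q ∈ V, mu O' R q) * (∑ r ∈ W, mu O R' r))^(1/2+eps1) with hZ0
  have hZ00 : 0 ≤ Z0 := Real.rpow_nonneg hmm _
  have hFK : ∀ e ∈ E, F e ≤ K * ((mu O' R e.1 * mu O R' e.2) * wLL O O' (Dc O O' R R' e) e) := by
    intro e he
    have h := Finset.mem_product.1 (hE he)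
    have w0 : 0 ≤ wLL O O' (Dc O O' R R' e) e := by
      unfold wLL; split_ifs
      · exact zero_le_one
      · exact Real.exp_nonneg _
    have a1 := mul_le_mul (hLV _ h.1) (hLW _ h.2) (hR' _ h.2)
      (mul_nonneg (by positivity) (mu_nonneg (hR _ h.1)))
    refine (hF e he).trans ?_
    have a2 := mul_le_mul_of_nonneg_left a1 (by positivity : (0:ℝ) ≤ ℓ^C0)
    refine (mul_le_mul_of_nonneg_right a2 w0).trans (le_of_eq ?_)
    rw [hK]; ring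
  set E1 := E.filter (fun e => Dc O O' R R' e ≤ 2^24) with hE1
  set E2 := E.filter (fun e => ¬ Dc O O' R R' e ≤ 2^24) with hE2
  have hsplit : ∑ e ∈ E, F e = ∑ e ∈ E1, F e + ∑ e ∈ E2, F e := by
    rw [hE1, hE2, Finset.sum_filter_add_sum_filter_not]
  have c0 : ∀ r ∈ W, (0:ℝ) ≤ ∑ p ∈ O.filter (fun p => ¬ p ∣ r), 1/(p:ℝ) := fun r _ =>
    Finset.sum_nonneg fun p _ => by positivity
  have c0' : ∀ r ∈ V, (0:ℝ) ≤ ∑ p ∈ O'.filter (fun p => ¬ p ∣ r), 1/(p:ℝ) := fun r _ =>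
    Finset.sum_nonneg fun p _ => by positivity
  have b1 := mid_x (ε := eps1) (by rw [he1]; norm_num) (by rw [he1]; norm_num) (N := N)
    (E := E1) (T := 2^24) (K := K) (F := F) hO hO' (fun w hw => (hV w hw).1) (fun w hw => (hW w hw).1)
    hR hR' (fun e he => hE (Finset.mem_filter.1 he).1) hbp hbV hbW c0 c0' (by positivity) hK0
    (fun e he => (le_max_right _ _).trans (Finset.mem_filter.1 he).2)
    (fun e he => (le_max_left _ _).trans (Finset.mem_filter.1 he).2)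
    (fun e he => by
      have h1 := hFK e (Finset.mem_filter.1 he).1
      unfold wLL at h1
      rw [if_pos (Finset.mem_filter.1 he).2, mul_one] at h1
      exact h1)
  have b2 := bad_all (ε := eps1) (by rw [he1]; norm_num) (by rw [he1]; norm_num) (N := N)
    (K := K) (F := F) (k0 := 24) hO hO' (fun w hw => (hV w hw).1) (fun w hw => (hW w hw).1)
    hR hR' hbp hbV hbW c0 c0' hK0 exp16_le E2 (fun e he => hE (Finset.mem_filter.1 he).1)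
    (fun e he => not_le.1 (Finset.mem_filter.1 he).2)
    (fun e he => by
      rcases hcase e (Finset.mem_filter.1 he).1 with h | h
      · exact absurd h (Finset.mem_filter.1 he).2
      · exact h)
    (fun e he => by
      have h1 := hFK e (Finset.mem_filter.1 he).1
      unfold wLL at h1
      rw [if_neg (Finset.mem_filter.1 he).2] at h1
      exact h1)
  have hexp1 : Real.exp ((1/2-eps1) * (-(N*0) + 3 * (∑ p ∈ O, 1/(p:ℝ)) + (-(N*0) + 3 * ∑ p ∈ O', 1/(p:ℝ)))) ≤ Real.exp 3 := by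
    apply Real.exp_le_exp.2
    rw [he1]; linarith
  have hBf : Bf b eps1 ≤ 2 * (b:ℝ)^(-(1/2-eps1)) :=
    Bf_le hbp (ε := eps1) (by rw [he1]; norm_num) (by rw [he1]; norm_num)
  have hBf0 := Bf_nonneg b eps1
  have hT : ((2:ℝ)^24)^(1-2*eps1) ≤ 2^24 := by
    calc ((2:ℝ)^24)^(1-2*eps1) ≤ ((2:ℝ)^24)^(1:ℝ) :=
          Real.rpow_le_rpow_of_exponent_le (by norm_num) (by rw [he1]; norm_num)
      _ = _ := Real.rpow_one _
  set X := Real.exp ((1/2-eps1) * (-(N*0) + 3 * (∑ p ∈ O, 1/(p:ℝ)) + (-(N*0) + 3 * ∑ p ∈ O', 1/(p:ℝ)))) with hX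
  have hX0 : 0 ≤ X := Real.exp_nonneg _
  have hbp' : (0:ℝ) ≤ (b:ℝ)^(-(1/2-eps1)) := by positivity
  have f1 : ∑ e ∈ E1, F e ≤ K * (2 * (KH 1 0 eps1 * 2^24)) * Real.exp 3 * ((b:ℝ)^(-(1/2-eps1)) * Z0) := by
    refine b1.trans ?_
    calc K * (KH 1 0 eps1 * ((2:ℝ)^24)^(1-2*eps1) * Bf b eps1) * X * Z0
        ≤ K * (KH 1 0 eps1 * 2^24 * (2 * (b:ℝ)^(-(1/2-eps1)))) * Real.exp 3 * Z0 := by
          gcongr
      _ = _ := by ring
  have f2 : ∑ e ∈ E2, F e ≤ K * (2 * CA eps1) * Real.exp 3 * ((b:ℝ)^(-(1/2-eps1)) * Z0) := by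
    refine b2.trans ?_
    have h9 : Real.exp (-((2:ℝ)^24/4)) ≤ 1 := Real.exp_le_one_iff.2 (by norm_num)
    calc K * (CA eps1 * Bf b eps1) * Real.exp (-((2:ℝ)^24/4)) * (X * Z0)
        ≤ K * (CA eps1 * (2 * (b:ℝ)^(-(1/2-eps1)))) * 1 * (Real.exp 3 * Z0) := by
          gcongr
      _ = _ := by ring
  rw [hsplit]
  have hW0 : 0 ≤ (b:ℝ)^(-(1/2-eps1)) * Z0 := mul_nonneg hbp' hZ00
  calc ∑ e ∈ E1, F e + ∑ e ∈ E2, F e
      ≤ (ℓ^C0 * ℓ^2 * (CL^2 * (2 * (KH 1 0 eps1 * 2^24) + 2 * CA eps1) * Real.exp 3)) *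
        ((b:ℝ)^(-(1/2-eps1)) * Z0) := by
        refine (add_le_add f1 f2).trans (le_of_eq ?_)
        rw [hK]; ring
    _ ≤ (ℓ^C0 * ℓ^2 * ℓ) * ((b:ℝ)^(-(1/2-eps1)) * Z0) := by
        apply mul_le_mul_of_nonneg_right _ hW0
        exact mul_le_mul_of_nonneg_left hlc (by positivity)
    _ = _ := by
        congr 1
        rw [show C0 + 3 = C0 + 2 + 1 by ring, Real.rpow_add hℓ0, Real.rpow_add hℓ0, Real.rpow_one,
          Real.rpow_two]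

end Crest.Agent.R4.LLNum709
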