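import Crest.Agent.R4.LeafN734

/-!
R4 (S0004), helper734: **total energy of the leaves**, final assembly (module J1).

Facts about the leaves of the tree with the parameters `par B C1 c2 p0`, and the three cases
light / heavy / bottom.
-/

set_option autoImplicit false
set_option linter.unusedSectionVars false
open Finset MeasureTheory

namespace Crest.Agent.R4.LeafA734

open Crest.Agent.R4
open Crest.Agent.R4.Cnt588 Crest.Agent.R4.PrunePar33
open Crest.Agent.R4.ClsB (Tame)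
open Crest.Agent.R4.Bld532 (NS NodeOk Bk bld par)
open Crest.Agent.R4.Data758 Crest.Agent.R4.LfDat734 Crest.Agent.R4.LeafS734
open Crest.Agent.R4.LeafN734
open Crest.Agent.R4.Frame758 (lf LeafE LeafAll)
open Crest.Agent.R4.Item758 (cf cf_nonneg IL pp mp)
open Crest.Agent.R4.Soft104 (w)
open Crest.Agent.R4.Om532 (phi_prod)

/-! ### pruned items -/

/-- the retained primes of a pruned item have small reciprocal sum -/
theorem rt_half (B C : ℝ) (hB : C + 4 ≤ B) : ∃ p₁ : ℕ, ∀ p0 ≥ p₁,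
    ∀ (t : IT) (q : ℕ), Pr t p0 C B q → (∀ b ∈ rt t q, p0 < b) →
      ∑ b ∈ rt t q, (1 : ℝ) / b ≤ 1 / 2 := by
  obtain ⟨p2, h2⟩ := Pr_tails B C 0 1 1 (by norm_num) le_rfl (by norm_num) (by linarith)
  refine ⟨p2 + ⌈Real.exp 2⌉₊, fun p0 hp0 t q hq hgt => ?_⟩
  have h1 := (h2 p0 (by omega) t q hq p0 le_rfl).2.2
  have hlog : 2 ≤ Real.log p0 := by
    have h4 : Real.exp 2 ≤ p0 := by
      have h5 : Real.exp 2 ≤ ⌈Real.exp 2⌉₊ := Nat.le_ceil _
      have h6 : ((⌈Real.exp 2⌉₊ : ℕ) : ℝ) ≤ p0 := by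
        have : ⌈Real.exp 2⌉₊ ≤ p0 := by omega
        exact_mod_cast this
      linarith
    have hp : (0 : ℝ) < p0 := lt_of_lt_of_le (Real.exp_pos 2) h4
    rwa [Real.le_log_iff_exp_le hp]
  have e : (t.sp q ∪ t.uq q).filter (fun b => p0 < b) = rt t q := by
    unfold rt
    exact Finset.filter_true_of_mem fun b hb => hgt b hb
  rw [e] at h1
  simp only [Real.rpow_zero] at h1
  refine h1.trans ?_
  rw [Real.rpow_neg_one, inv_eq_one_div]
  exact one_div_le_one_div_of_le (by norm_num) hlog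

/-- the `up` primes of a pruned item are tame -/
theorem uq_tame (B C : ℝ) (hB : C + 4 ≤ B) : ∃ p₁ : ℕ, ∀ p0 ≥ p₁,
    ∀ (t : IT) (q : ℕ), Pr t p0 C B q → ∀ z : ℝ, (p0 : ℝ) ≤ z →
      ∑ l ∈ (t.uq q).filter (fun l : ℕ => z < (l : ℝ)), (1 : ℝ) / l ≤ z ^ (-(1 / 2 : ℝ)) := by
  obtain ⟨p2, h2⟩ := Pr_tails B C 0 1 (9/10) (by norm_num) le_rfl (by norm_num) (by linarith)
  refine ⟨p2 + 512, fun p0 hp0 t q hq z hz => ?_⟩
  have hp512 : (512 : ℝ) ≤ p0 := by exact_mod_cast (by omega : 512 ≤ p0)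
  have hz512 : (512 : ℝ) ≤ z := hp512.trans hz
  have hz0 : 0 < z := by linarith
  set P := ⌊z⌋₊ with hP
  have hPp0 : p0 ≤ P := Nat.le_floor hz
  have hP1 : z < P + 1 := Nat.lt_floor_add_one z
  have hP2 : (P : ℝ) ≤ z := Nat.floor_le hz0.le
  have h1 := (h2 p0 (by omega) t q hq P hPp0).2.1
  have hP0 : (0 : ℝ) < P := by linarith
  have e : (t.uq q).filter (fun l : ℕ => z < (l : ℝ)) = (t.uq q).filter (fun l => P < l) := by
    apply Finset.filter_congr
    intro l _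
    rw [hP, Nat.floor_lt hz0.le]
  rw [e]
  have h3 : ∑ l ∈ (t.uq q).filter (fun l => P < l), (1 : ℝ) / l ≤
      z ^ (-(1/10) : ℝ) * ∑ s ∈ (t.uq q).filter (fun b => P < b), (s : ℝ) ^ (-(9/10) : ℝ) := by
    rw [Finset.mul_sum]
    refine Finset.sum_le_sum fun l hl => ?_
    have hlP := (Finset.mem_filter.1 hl).2
    have hlz : z < l := by
      have : P + 1 ≤ l := hlP
      have : ((P + 1 : ℕ) : ℝ) ≤ l := by exact_mod_cast this
      push_cast at this; linarith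
    have hl0 : (0 : ℝ) < l := by linarith
    have e1 : (1 : ℝ) / l = (l : ℝ) ^ (-(1/10) : ℝ) * (l : ℝ) ^ (-(9/10) : ℝ) := by
      rw [← Real.rpow_add hl0]
      norm_num
      rw [Real.rpow_neg_one]
    rw [e1]
    refine mul_le_mul_of_nonneg_right ?_ (by positivity)
    exact Real.rpow_le_rpow_of_nonpos hz0 hlz.le (by norm_num)
  refine h3.trans ?_
  have h4 : (P : ℝ) ^ (-(9/10/2) : ℝ) ≤ (2 : ℝ) ^ ((9/20) : ℝ) * z ^ (-(9/20) : ℝ) := by
    have h5 : z / 2 ≤ P := by linarith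
    have h6 : (P : ℝ) ^ (-(9/10/2) : ℝ) ≤ (z / 2) ^ (-(9/10/2) : ℝ) :=
      Real.rpow_le_rpow_of_nonpos (by positivity) h5 (by norm_num)
    refine h6.trans (le_of_eq ?_)
    rw [Real.div_rpow hz0.le (by norm_num), Real.rpow_neg (by norm_num : (0:ℝ) ≤ 2), div_inv_eq_mul,
      mul_comm]
    norm_num
  have h7 : (2 : ℝ) ^ ((9/20) : ℝ) ≤ z ^ ((1/20) : ℝ) := by
    have h8 : (512 : ℝ) ^ ((1/20) : ℝ) ≤ z ^ ((1/20) : ℝ) :=
      Real.rpow_le_rpow (by norm_num) hz512 (by norm_num)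
    refine le_trans (le_of_eq ?_) h8
    have : (512 : ℝ) = 2 ^ (9 : ℝ) := by norm_num
    rw [this, ← Real.rpow_mul (by norm_num)]
    norm_num
  calc z ^ (-(1/10) : ℝ) * ∑ s ∈ (t.uq q).filter (fun b => P < b), (s : ℝ) ^ (-(9/10) : ℝ)
      ≤ z ^ (-(1/10) : ℝ) * (P : ℝ) ^ (-(9/10/2) : ℝ) :=
        mul_le_mul_of_nonneg_left h1 (by positivity)
    _ ≤ z ^ (-(1/10) : ℝ) * ((2 : ℝ) ^ ((9/20) : ℝ) * z ^ (-(9/20) : ℝ)) :=
        mul_le_mul_of_nonneg_left h4 (by positivity)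
    _ ≤ z ^ (-(1/10) : ℝ) * (z ^ ((1/20) : ℝ) * z ^ (-(9/20) : ℝ)) := by
        refine mul_le_mul_of_nonneg_left ?_ (by positivity)
        exact mul_le_mul_of_nonneg_right h7 (by positivity)
    _ = z ^ (-(1/2) : ℝ) := by
        rw [← Real.rpow_add hz0, ← Real.rpow_add hz0]
        norm_num

/-! ### leaf facts -/

section
variable {P : Bld532.Par} {W : ℕ → ℝ} {t : IT} {n : ℕ} {u : NS} {Sl : Finset ℕ} {G : ℕ}

/-- tameness of the moduli of a leaf; `X` is at least every prime below the level -/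
theorem leaf_tame (h : LeafF P W t n u Sl G) {q : ℕ} (hq : q ∈ Sl) {z : ℝ}
    (hz : ∀ l : ℕ, l.Prime → l < u.n → (l : ℝ) ≤ z)
    (hU : ∑ l ∈ (t.uq q).filter (fun l : ℕ => z < (l : ℝ)), (1 : ℝ) / l ≤ z ^ (-(1 / 2 : ℝ))) :
    Tame z 1 (q / (u.A * G)) := by
  refine ⟨one_dvd _, le_trans ?_ hU⟩
  refine Finset.sum_le_sum_of_subset_of_nonneg ?_ fun i _ _ => by positivity
  intro l hl
  rw [Nat.div_one] at hl
  obtain ⟨h1, h2⟩ := Finset.mem_filter.1 hl
  have hlp := Nat.prime_of_mem_primeFactors h1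
  have hln : u.n ≤ l := by
    by_contra hc
    have := hz l hlp (not_le.1 hc)
    linarith
  have h3 := Nat.dvd_of_mem_primeFactors h1
  rw [← Nat.div_div_eq_div_mul] at h3
  exact Finset.mem_filter.2 ⟨h.Gu q hq l hlp h3 hln, h2⟩

/-- density of the modulus `q / u.A` of a pruned item; `x` is at least every prime below the level -/
theorem leaf_dens (h : LeafF P W t n u Sl G) {q : ℕ} (hq : q ∈ Sl) {x : ℝ} (hx : 2 ≤ x)
    (hX : ∀ l : ℕ, l.Prime → l < u.n → (l : ℝ) ≤ x)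
    (hr : ∀ l : ℕ, l.Prime → l ∣ q / u.A → u.n ≤ l → l ∈ rt t q)
    (hs : ∑ b ∈ rt t q, (1 : ℝ) / b ≤ 1 / 2) :
    1 ≤ 2 * (Ovl560.CM * Real.log x) * (((q / u.A).totient : ℝ) / ((q / u.A : ℕ) : ℝ)) := by
  classical
  have hq0 : 0 < q := Nat.pos_of_ne_zero (h.sq q hq).ne_zero
  have hAq := h.bk.dvd q hq
  have hw : 0 < q / u.A := Nat.div_pos (Nat.le_of_dvd hq0 hAq) (Nat.pos_of_dvd_of_pos hAq hq0)
  rw [phi_prod hw]
  set Q := (q / u.A).primeFactors with hQ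
  have hsplit : ∏ l ∈ Q, (1 - 1 / (l : ℝ)) =
      (∏ l ∈ Q.filter (· < u.n), (1 - 1 / (l : ℝ))) *
        ∏ l ∈ Q.filter (fun l => ¬ l < u.n), (1 - 1 / (l : ℝ)) :=
    (Finset.prod_filter_mul_prod_filter_not _ _ _).symm
  have hp : ∀ l ∈ Q, l.Prime := fun l hl => Nat.prime_of_mem_primeFactors hl
  have h1 := Ovl560.dens_inv_le hx (P := Q.filter (· < u.n))
    (fun l hl => hp l (Finset.mem_filter.1 hl).1)
    (fun l hl => hX l (hp l (Finset.mem_filter.1 hl).1) (Finset.mem_filter.1 hl).2)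
  have hd0 : 0 < ∏ l ∈ Q.filter (· < u.n), (1 - 1 / (l : ℝ)) :=
    Finset.prod_pos fun l hl => Ovl560.one_sub_pos (hp l (Finset.mem_filter.1 hl).1)
  have h1' : (∏ l ∈ Q.filter (· < u.n), (1 - 1 / (l : ℝ)))⁻¹ ≤ Ovl560.CM * Real.log x := h1
  have h2 : (1 : ℝ) ≤ Ovl560.CM * Real.log x * ∏ l ∈ Q.filter (· < u.n), (1 - 1 / (l : ℝ)) := by
    rw [inv_le_iff_one_le_mul₀ hd0] at h1'
    exact h1'
  have h3 : (1 : ℝ) / 2 ≤ ∏ l ∈ Q.filter (fun l => ¬ l < u.n), (1 - 1 / (l : ℝ)) := by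
    have h4 := Om532.prod_one_sub_ge (Q.filter (fun l => ¬ l < u.n)) (fun l : ℕ => 1 / (l : ℝ))
      (fun l _ => by positivity) (fun l hl => by
        have hlp := hp l (Finset.mem_filter.1 hl).1
        have : (1 : ℝ) < l := by exact_mod_cast hlp.one_lt
        rw [div_le_one (by linarith)]; exact this.le)
    have h5 : ∑ b ∈ Q.filter (fun l => ¬ l < u.n), (1 : ℝ) / b ≤ 1 / 2 := by
      refine le_trans (Finset.sum_le_sum_of_subset_of_nonneg (fun b hb => ?_)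
        fun i _ _ => by positivity) hs
      obtain ⟨h6, h7⟩ := Finset.mem_filter.1 hb
      exact hr b (hp b h6) (Nat.dvd_of_mem_primeFactors h6) (not_lt.1 h7)
    linarith
  rw [hsplit]
  have h6 : 0 ≤ Ovl560.CM * Real.log x * ∏ l ∈ Q.filter (· < u.n), (1 - 1 / (l : ℝ)) := by linarith
  calc (1 : ℝ) ≤ (Ovl560.CM * Real.log x * ∏ l ∈ Q.filter (· < u.n), (1 - 1 / (l : ℝ))) *
        (2 * ∏ l ∈ Q.filter (fun l => ¬ l < u.n), (1 - 1 / (l : ℝ))) := by nlinarith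
    _ = _ := by ring

end

/-- raw mass of the leaf -/
theorem nu_eq {c : Cf} {n : ℕ} (hc : c.Ok n) {ψ : ℕ → ℝ} (hr : ∀ q, c.r q = ψ q / 2)
    (hψ : ∀ q, 0 ≤ ψ q) {Sl : Finset ℕ} (hS : Sl ⊆ c.S) :
    ∑ j ∈ Finset.univ.filter (fun j => c.D.it j ∈ Sl), Frame758.wt c.D j = Ws (w ψ) Sl := by
  classical
  have h0 : ∑ j ∈ Finset.univ.filter (fun j => c.D.it j ∈ Sl), Frame758.wt c.D j =
      ∑ q ∈ Sl, ∑ j ∈ Finset.univ.filter (fun j => c.D.it j = q), Frame758.wt c.D j := by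
    rw [← Finset.sum_fiberwise_of_maps_to (s := Finset.univ.filter (fun j => c.D.it j ∈ Sl))
      (t := Sl) (g := c.D.it) (fun j hj => (Finset.mem_filter.1 hj).2)]
    refine Finset.sum_congr rfl fun q hq => Finset.sum_congr ?_ fun _ _ => rfl
    ext j
    simp only [Finset.mem_filter, Finset.mem_univ, true_and]
    exact ⟨fun h => h.2, fun h => ⟨by rw [h]; exact hq, h⟩⟩
  rw [h0]
  unfold Ws
  refine Finset.sum_congr rfl fun q hq => ?_
  have h4 : ∑ j ∈ Finset.univ.filter (fun j => c.D.it j = q), Frame758.wt c.D j =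
      (∑ j ∈ Finset.univ.filter (fun j : c.Lam => j.1.1 = q), (c.D.be j - c.D.al j)) *
        ((Nat.totient q : ℝ) / q) := by
    rw [Finset.sum_mul]
    refine Finset.sum_congr rfl fun j hj => ?_
    have e : c.D.it j = q := (Finset.mem_filter.1 hj).2
    unfold Frame758.wt
    rw [e]
  rw [h4]
  by_cases hrq : 0 < c.r q
  · rw [hc.len (hS hq) hrq, hr q]
    unfold w
    ring
  · have h5 : ψ q = 0 := by
      have := hr q; have := hψ q; linarith
    have h6 : Finset.univ.filter (fun j : c.Lam => j.1.1 = q) = ∅ := by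
      apply Finset.filter_eq_empty_iff.2
      intro j _ e
      exact hrq (e ▸ Cf.r_pos j)
    rw [h6, Finset.sum_empty, zero_mul]
    unfold w
    rw [h5]; simp

/-! ### the hypotheses on the data -/

/-- concrete data with the tree of the parameters `par B C1 c2 p0`, pruned set, leaf weights `omL` -/
structure CfL (B C1 c2 : ℝ) (p0 : ℕ) (c : Cf) (n : ℕ) (ψ : ℕ → ℝ) (wp : W363.WP) : Prop where
  ok : c.Ok n
  sq : ∀ q ∈ c.S, Squarefree q
  pn : ∀ q ∈ c.S, ∀ l : ℕ, l.Prime → l ∣ q → l < n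
  t : c.t = bld (par B C1 c2 p0) (w ψ) n 1 c.S
  r : ∀ q, c.r q = ψ q / 2
  ψ0 : ∀ q, 0 ≤ ψ q
  n3 : 3 ≤ n
  mass : Ws (w ψ) c.S ≤ 1
  pr : ∀ q ∈ c.S', Pr c.t p0 (C1 + c2) B q
  lv : c.lv = LfDat734.lv c.t n
  om : ∀ q z a, c.om q z a ≤ omL wp c.wpL c.γ c.r c.t c.lv c.S' q a

/-- the world parameters of the leaves: thinness `thr`, cell width `etaL` -/
structure WPL (C3 C6 : ℝ) (a p0 : ℕ) (P : W363.WP) : Prop where
  lo : ∀ m : ℕ, Real.log ((m + p0 : ℕ) : ℝ) ^ (-C6) ≤ P.thr m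
  hi : ∀ m, P.thr m ≤ 1/10
  eta : ∀ m, P.thr m ^ a ≤ etaL P m
  eta1 : ∀ m, etaL P m ≤ 1
  etalo : ∀ m : ℕ, Real.log ((m + p0 : ℕ) : ℝ) ^ (-C3) ≤ etaL P m

section
variable {B C1 c2 : ℝ} {p0 : ℕ} {c : Cf} {n : ℕ} {ψ : ℕ → ℝ} {wp : W363.WP}
  {u : NS} {Sl : Finset ℕ} {G : ℕ}

lemma CfL.sub (h : CfL B C1 c2 p0 c n ψ wp) (hF : LeafF (par B C1 c2 p0) (w ψ) c.t n u Sl G) :
    Sl ⊆ c.S := fun q hq => by
  rw [← h.ok.items]; exact hF.it q hq

lemma CfL.col (h : CfL B C1 c2 p0 c n ψ wp) (q : ℕ) : ∀ b ∈ c.t.mt q ∪ rt c.t q, p0 < b := by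
  rw [h.t]
  exact (OmSt532.bld_col (par B C1 c2 p0) (w ψ) n 1 c.S).1 q

/-- the mass of the leaf -/
lemma CfL.nu (h : CfL B C1 c2 p0 c n ψ wp) (hF : LeafF (par B C1 c2 p0) (w ψ) c.t n u Sl G) :
    cf u.B u.A * ∑ j ∈ Finset.univ.filter (fun j => c.D.it j ∈ Sl), Frame758.wt c.D j =
      u.c * Ws (w ψ) Sl := by
  rw [nu_eq h.ok h.r h.ψ0 (h.sub hF), OmData532.Bk_cf hF.bk]

/-- **radius of a pruned item of a leaf** -/
lemma CfL.rad (h : CfL B C1 c2 p0 c n ψ wp) (hF : LeafF (par B C1 c2 p0) (w ψ) c.t n u Sl G)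
    {q : ℕ} (hq : q ∈ Sl) (hs : ∑ b ∈ rt c.t q, (1 : ℝ) / b ≤ 1 / 2) {x : ℝ} (hx : 2 ≤ x)
    (hX : ∀ l : ℕ, l.Prime → l < u.n → (l : ℝ) ≤ x) :
    (u.B : ℝ) * c.r q ≤ Ovl560.CM * Real.log x * (u.c * Ws (w ψ) Sl) := by
  have hd := leaf_dens hF hq hx hX (fun l hl h1 h2 => ?_) hs
  swap
  · by_cases h3 : l ∣ G
    · exact hF.Gr q hq l (Nat.mem_primeFactors.2 ⟨hl, h3, hF.G0.ne'⟩)
    · have h4 : l ∣ G * (q / u.A / G) := by
        rw [Nat.mul_div_cancel' (hF.Gd q hq)]; exact h1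
      have h5 := ((Nat.Prime.dvd_mul hl).1 h4).resolve_left h3
      unfold rt
      exact Finset.mem_union_right _ (hF.Gu q hq l hl h5 h2)
  have hq0 : 0 < q := Nat.pos_of_ne_zero (hF.sq q hq).ne_zero
  have hAq := hF.bk.dvd q hq
  have hA0 : 0 < u.A := Nat.pos_of_dvd_of_pos hAq hq0
  set v := q / u.A with hv
  have hv0 : 0 < v := Nat.div_pos (Nat.le_of_dvd hq0 hAq) hA0
  have e : q = u.A * v := (Nat.mul_div_cancel' hAq).symm
  have hcop : Nat.Coprime u.A v := (hF.bk.split hq (hF.sq q hq)).2.1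
  have hψq := h.ψ0 q
  have hr := h.r q
  have hw1 : w ψ q ≤ Ws (w ψ) Sl := by
    unfold Ws
    refine Finset.single_le_sum (f := fun q => w ψ q) (fun i _ => ?_) hq
    have := h.ψ0 i
    unfold w; positivity
  have hc0 : 0 ≤ u.c := by have := Bld532.Bk.c_pos hF.bk; linarith
  have h1 : u.c * w ψ q ≤ u.c * Ws (w ψ) Sl := mul_le_mul_of_nonneg_left hw1 hc0
  have h2 : u.c * w ψ q = (u.B : ℝ) * ψ q * ((v.totient : ℝ) / (v : ℝ)) := by
    rw [OmData532.Bk_cf hF.bk]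
    have e1 : (q.totient : ℝ) = u.A.totient * v.totient := by
      conv_lhs => rw [e]
      rw [Nat.totient_mul hcop]; push_cast; ring
    have e2 : (q : ℝ) = u.A * v := by exact_mod_cast e
    have hphi : (0 : ℝ) < u.A.totient := by exact_mod_cast Nat.totient_pos.2 hA0
    have hAR : (0 : ℝ) < u.A := by exact_mod_cast hA0
    have hvR : (0 : ℝ) < v := by exact_mod_cast hv0
    unfold w cf
    rw [e1, e2]
    field_simp
  have hB0 : (0 : ℝ) ≤ u.B := by positivity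
  have hL : 0 ≤ Ovl560.CM * Real.log x := mul_nonneg Ovl560.CM_pos.le (Real.log_nonneg (by linarith))
  calc (u.B : ℝ) * c.r q = (u.B * ψ q / 2) * 1 := by rw [hr]; ring
    _ ≤ (u.B * ψ q / 2) * (2 * (Ovl560.CM * Real.log x) * ((v.totient : ℝ) / (v : ℝ))) :=
        mul_le_mul_of_nonneg_left hd (by positivity)
    _ = Ovl560.CM * Real.log x * ((u.B : ℝ) * ψ q * ((v.totient : ℝ) / (v : ℝ))) := by ring
    _ ≤ _ := by rw [← h2]; exact mul_le_mul_of_nonneg_left h1 hL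

/-- `u.n ≤ 2 k` if every prime below `u.n` is at most `k` -/
lemma level_le {m k : ℕ} (hk : k ≠ 0) (h : ∀ r : ℕ, r.Prime → r < m → r ≤ k) : m ≤ 2 * k := by
  by_contra hc
  push Not at hc
  obtain ⟨p, hp, h1, h2⟩ := Nat.exists_prime_lt_and_le_two_mul k hk
  have := h p hp (by omega)
  omega

end

/-! ### numbers -/

lemma log_add_le {k m p0 : ℕ} (hk : 3 ≤ k) (hm : m ≤ 2 * k) (hp : p0 ≤ k) :
    Real.log ((m + p0 : ℕ) : ℝ) ≤ 2 * Real.log k := by
  have hk0 : (0 : ℝ) < k := by exact_mod_cast (by omega : 0 < k)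
  have e : 2 * Real.log (k : ℝ) = Real.log ((k : ℝ) ^ 2) := by rw [Real.log_pow]; norm_num
  rw [e]
  rcases Nat.eq_zero_or_pos (m + p0) with h0 | h0
  · rw [h0]
    simp only [Nat.cast_zero, Real.log_zero]
    exact Real.log_nonneg (by
      have : (1 : ℝ) ≤ k := by exact_mod_cast (by omega : 1 ≤ k)
      nlinarith)
  · refine Real.log_le_log (by exact_mod_cast h0) ?_
    have : m + p0 ≤ k ^ 2 := by nlinarith
    exact_mod_cast this

/-- lower bound `(log (m + p0))^(-C) ≥ (2 log k)^(-C)` -/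
lemma rpow_neg_log_ge {k m p0 : ℕ} {C : ℝ} (hC : 0 ≤ C) (hk : 3 ≤ k) (hm : m ≤ 2 * k)
    (hp : p0 ≤ k) (hp3 : 3 ≤ p0) :
    (2 * Real.log k) ^ (-C) ≤ Real.log ((m + p0 : ℕ) : ℝ) ^ (-C) := by
  have h1 := log_add_le hk hm hp
  have h0 : 0 < Real.log ((m + p0 : ℕ) : ℝ) :=
    Real.log_pos (by exact_mod_cast (by omega : 1 < m + p0))
  exact Real.rpow_le_rpow_of_nonpos h0 h1 (by linarith)

set_option maxHeartbeats 1600000 in
/-- **ALL LEAVES** (module J1): total energies with the constant `K (log p0)^c2`, `K` independent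
of `p0` (the power of `log p0` is only needed for the bottom leaves). -/
theorem leafE_all (a : ℕ) : ∃ c0 : ℝ, 0 < c0 ∧ ∀ (B C1 c2 C3 C6 : ℝ), 0 < c2 → 0 ≤ C3 → 0 ≤ C6 →
    1 / c0 ≤ C1 → C6 + 2 ≤ C1 → C1 + c2 + 4 ≤ B → ∃ K : ℝ, 0 ≤ K ∧ ∃ p₁ : ℕ, 3 ≤ p₁ ∧ ∀ p0 ≥ p₁,
    ∀ (c : Cf) (n : ℕ) (ψ : ℕ → ℝ) (wp : W363.WP), CfL B C1 c2 p0 c n ψ wp →
      WPL C3 C6 a p0 c.wpL →
      LeafAll (LeafE c.D (Frame758.wt c.D) (K * Real.log p0 ^ c2)) 1 1 c.t := by
  obtain ⟨c0, hc0, H⟩ := leafE_leaf a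
  refine ⟨c0, hc0, fun B C1 c2 C3 C6 hc2 hC3 hC6 hC1 hC16 hB => ?_⟩
  have hC1p : 0 < C1 := by linarith
  set ε : ℝ := min (1/4) (1 / (2 * (1 + C1 / c2))) with hε
  have hden : 0 < 2 * (1 + C1 / c2) := by positivity
  have hε0 : 0 < ε := lt_min (by norm_num) (by positivity)
  have hε4 : ε ≤ 1/4 := min_le_left _ _
  have hεE : 2 * ε * (1 + C1 / c2) ≤ 1 := by
    have h1 : ε ≤ 1 / (2 * (1 + C1 / c2)) := min_le_right _ _
    rw [le_div_iff₀ hden] at h1
    linarith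
  set ε' : ℝ := c2 / (C3 + 1) with hε'
  have hε'0 : 0 < ε' := by positivity
  have hε'C : C3 * ε' ≤ c2 := by
    rw [hε', mul_div_assoc', div_le_iff₀ (by positivity)]
    nlinarith
  obtain ⟨C, hC, H⟩ := H ε ε' hε0 hε4 hε'0
  have hc1 : 0 < 1 / C1 := by positivity
  have hc1' : 1 / C1 ≤ c0 := by
    rw [div_le_iff₀ hC1p]
    rw [div_le_iff₀ hc0] at hC1
    linarith
  obtain ⟨T0, hT0, H⟩ := H (1 / C1) hc1 hc1'
  obtain ⟨pa, hpa⟩ := rt_half B (C1 + c2) (by linarith)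
  obtain ⟨pb, hpb⟩ := uq_tame B (C1 + c2) (by linarith)
  have hCM := Ovl560.CM_pos
  obtain ⟨b₀, -, hb₀⟩ := OmSt532.exists_sqrt (B + c2 + 1 + C6)
    (K := 3 * Ovl560.CM * 2 ^ C6) (by positivity)
  set M1 : ℝ := T0 + 2 ^ C6 * (Ovl560.CM + 1) + 1 with hM1
  have hT0p : 0 < T0 := lt_of_lt_of_le (by norm_num) hT0
  have h26 : (1 : ℝ) ≤ 2 ^ C6 := Real.one_le_rpow (by norm_num) hC6
  set K2 : ℝ := 1 + (T0 + 1 + 2 ^ C6) + 2 ^ c2 + 2 ^ c2 with hK2
  have hK2p : 0 < K2 := by positivity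
  refine ⟨2 * (4 * (C * K2)), by positivity, pa + pb + b₀ + ⌈Real.exp M1⌉₊ + 3, by omega,
    fun p0 hp0 => ?_⟩
  have hp3 : 3 ≤ p0 := by omega
  -- logarithms above `p0`
  have hlog : ∀ k : ℕ, p0 ≤ k → M1 ≤ Real.log k := by
    intro k hk
    have h4 : Real.exp M1 ≤ k := by
      have h5 : Real.exp M1 ≤ ⌈Real.exp M1⌉₊ := Nat.le_ceil _
      have h6 : ((⌈Real.exp M1⌉₊ : ℕ) : ℝ) ≤ k := by
        have : ⌈Real.exp M1⌉₊ ≤ k := by omega
        exact_mod_cast this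
      linarith
    have hp : (0 : ℝ) < k := lt_of_lt_of_le (Real.exp_pos _) h4
    rwa [Real.le_log_iff_exp_le hp]
  have hlogT : ∀ k : ℕ, p0 ≤ k → T0 ≤ Real.log k := fun k hk => by
    have := hlog k hk
    have : 0 ≤ 2 ^ C6 * (Ovl560.CM + 1) := by positivity
    linarith
  have hlog2 : ∀ k : ℕ, p0 ≤ k → 2 ^ C6 * (Ovl560.CM + 1) ≤ Real.log k := fun k hk => by
    have := hlog k hk
    linarith
  have hlog1 : ∀ k : ℕ, p0 ≤ k → 1 ≤ Real.log k := fun k hk => by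
    have := hlogT k hk
    have : (1 : ℝ) ≤ 2 ^ 50 := by norm_num
    linarith
  set Tb : ℝ := T0 + Real.log p0 ^ C1 + Real.log ((2 * p0 + p0 : ℕ) : ℝ) ^ C6 with hTb
  have hl3 : 1 ≤ Real.log ((2 * p0 + p0 : ℕ) : ℝ) := hlog1 _ (by omega)
  have hTb0 : 0 < Tb := by
    have : 0 ≤ Real.log p0 ^ C1 := Real.rpow_nonneg (by linarith [hlog1 p0 le_rfl]) _
    have : 0 ≤ Real.log ((2 * p0 + p0 : ℕ) : ℝ) ^ C6 := Real.rpow_nonneg (by linarith) _
    linarith
  set K1 : ℝ := K2 * Real.log p0 ^ c2 with hK1e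
  have hL1 : 1 ≤ Real.log (p0 : ℝ) := hlog1 p0 le_rfl
  have hL0 : 0 < Real.log (p0 : ℝ) := by linarith
  have hl3' : Real.log ((2 * p0 + p0 : ℕ) : ℝ) ≤ 2 * Real.log p0 :=
    log_add_le (k := p0) (m := 2 * p0) hp3 le_rfl le_rfl
  have hK1 : 1 + Tb ^ (2 * ε) + Real.log ((2 * p0 + p0 : ℕ) : ℝ) ^ (C3 * ε') + 2 ^ c2 ≤ K1 := by
    have hLc : 1 ≤ Real.log (p0 : ℝ) ^ c2 := Real.one_le_rpow hL1 hc2.le
    have h2c : (0 : ℝ) ≤ 2 ^ c2 := by positivity
    have e1 : Tb ≤ (T0 + 1 + 2 ^ C6) * Real.log p0 ^ C1 := by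
      have g1 : 1 ≤ Real.log (p0 : ℝ) ^ C1 := Real.one_le_rpow hL1 hC1p.le
      have g2 : Real.log ((2 * p0 + p0 : ℕ) : ℝ) ^ C6 ≤ 2 ^ C6 * Real.log p0 ^ C1 := by
        calc Real.log ((2 * p0 + p0 : ℕ) : ℝ) ^ C6 ≤ (2 * Real.log p0) ^ C6 :=
              Real.rpow_le_rpow (by linarith) hl3' hC6
          _ = 2 ^ C6 * Real.log p0 ^ C6 := Real.mul_rpow (by norm_num) hL0.le
          _ ≤ 2 ^ C6 * Real.log p0 ^ C1 := mul_le_mul_of_nonneg_left
              (Real.rpow_le_rpow_of_exponent_le hL1 (by linarith)) (by positivity)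
      have g3 : T0 ≤ T0 * Real.log (p0 : ℝ) ^ C1 := le_mul_of_one_le_right (by linarith) g1
      have : (T0 + 1 + 2 ^ C6) * Real.log (p0 : ℝ) ^ C1 = T0 * Real.log (p0 : ℝ) ^ C1 +
        Real.log (p0 : ℝ) ^ C1 + 2 ^ C6 * Real.log p0 ^ C1 := by ring
      rw [this]
      linarith
    have e2 : Tb ^ (2 * ε) ≤ (T0 + 1 + 2 ^ C6) * Real.log p0 ^ c2 := by
      have hbase : (1 : ℝ) ≤ T0 + 1 + 2 ^ C6 := by linarith
      calc Tb ^ (2 * ε) ≤ ((T0 + 1 + 2 ^ C6) * Real.log p0 ^ C1) ^ (2 * ε) :=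
            Real.rpow_le_rpow hTb0.le e1 (by linarith)
        _ = (T0 + 1 + 2 ^ C6) ^ (2 * ε) * Real.log p0 ^ (C1 * (2 * ε)) := by
            rw [Real.mul_rpow (by linarith) (by positivity), ← Real.rpow_mul hL0.le]
        _ ≤ (T0 + 1 + 2 ^ C6) ^ (1 : ℝ) * Real.log p0 ^ c2 := by
            refine mul_le_mul (Real.rpow_le_rpow_of_exponent_le hbase (by linarith))
              (Real.rpow_le_rpow_of_exponent_le hL1 ?_) (by positivity) (by positivity)
            have g1 : C1 / c2 * (2 * ε) ≤ 1 := by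
              have : 2 * ε * (1 + C1 / c2) = 2 * ε + C1 / c2 * (2 * ε) := by ring
              linarith
            calc C1 * (2 * ε) = C1 / c2 * (2 * ε) * c2 := by field_simp
              _ ≤ 1 * c2 := mul_le_mul_of_nonneg_right g1 hc2.le
              _ = c2 := one_mul _
        _ = _ := by rw [Real.rpow_one]
    have e3 : Real.log ((2 * p0 + p0 : ℕ) : ℝ) ^ (C3 * ε') ≤ 2 ^ c2 * Real.log p0 ^ c2 := by
      calc Real.log ((2 * p0 + p0 : ℕ) : ℝ) ^ (C3 * ε') ≤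
            Real.log ((2 * p0 + p0 : ℕ) : ℝ) ^ c2 :=
            Real.rpow_le_rpow_of_exponent_le hl3 hε'C
        _ ≤ (2 * Real.log p0) ^ c2 := Real.rpow_le_rpow (by linarith) hl3' hc2.le
        _ = 2 ^ c2 * Real.log p0 ^ c2 := Real.mul_rpow (by norm_num) hL0.le
    have e4 : (2 : ℝ) ^ c2 ≤ 2 ^ c2 * Real.log p0 ^ c2 := le_mul_of_one_le_right h2c hLc
    have e5 : K1 = Real.log (p0 : ℝ) ^ c2 + (T0 + 1 + 2 ^ C6) * Real.log (p0 : ℝ) ^ c2 +
        2 ^ c2 * Real.log p0 ^ c2 + 2 ^ c2 * Real.log p0 ^ c2 := by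
      rw [hK1e, hK2]; ring
    rw [e5]
    linarith
  have hK1a : 0 ≤ Tb ^ (2 * ε) := by positivity
  have hK1b : 0 ≤ Real.log ((2 * p0 + p0 : ℕ) : ℝ) ^ (C3 * ε') := Real.rpow_nonneg (by linarith) _
  have hK1c : (0 : ℝ) ≤ 2 ^ c2 := by positivity
  have hK11 : 1 ≤ K1 := by linarith
  intro c n ψ wp h hP
  have eK : 2 * (4 * (C * K2)) * Real.log (p0 : ℝ) ^ c2 = 2 * (4 * (C * K1)) := by
    rw [hK1e]; ring
  rw [eK]
  have hw0 : ∀ q, 0 ≤ w ψ q := fun q => by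
    have := h.ψ0 q
    unfold w; positivity
  have hroot : Ws (w ψ) c.S ≤ 3 * Real.log n ^ (B + c2) := by
    have h1 : (1 : ℝ) ≤ Real.log n ^ (B + c2) :=
      Real.one_le_rpow (Bld532.one_le_log_nat h.n3) (by linarith)
    have := h.mass
    linarith
  have hmass := Bld532.par_mass B C1 c2 p0 (by linarith) (by omega) (w ψ) hw0 n n c.S hroot 1 1
  rw [h.t]
  refine bld_leafF' (par B C1 c2 p0) (w ψ) n c.S h.sq h.pn hmass fun u Sl G hF0 hmu => ?_
  have hF : LeafF (par B C1 c2 p0) (w ψ) c.t n u Sl G := by rw [h.t]; exact hF0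
  have hcpos : 0 < u.c := hmu.1
  have hmu2 : u.c * Ws (w ψ) Sl ≤ 3 * Real.log u.n ^ (B + c2) := hmu.2
  have bk := hF.bk
  set ν : ℝ := u.c * Ws (w ψ) Sl with hν
  have hν0 : 0 ≤ ν := mul_nonneg hcpos.le (Finset.sum_nonneg fun q _ => hw0 q)
  have hgt : ∀ q, ∀ b ∈ rt c.t q, p0 < b := fun q b hb => h.col q b (Finset.mem_union_right _ hb)
  have hrt : ∀ q ∈ Sl, q ∈ c.S' → ∑ b ∈ rt c.t q, (1 : ℝ) / b ≤ 1 / 2 := fun q _ hq' =>
    hpa p0 (by omega) c.t q (h.pr q hq') (hgt q)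
  have hνe : ν = cf u.B u.A *
      ∑ j ∈ Finset.univ.filter (fun j => c.D.it j ∈ Sl), Frame758.wt c.D j := (h.nu hF).symm
  have htame : ∀ X : ℝ, (p0 : ℝ) ≤ X → (∀ l : ℕ, l.Prime → l < u.n → (l : ℝ) ≤ X) →
      ∀ q ∈ Sl, q ∈ c.S' → ∀ z : ℝ, X ≤ z → Tame z 1 (q / (u.A * G)) := by
    intro X hX1 hX2 q hq hq' z hz
    exact leaf_tame hF hq (fun l h1 h2 => (hX2 l h1 h2).trans hz)
      (hpb p0 (by omega) c.t q (h.pr q hq') z (hX1.trans hz))
  have hfat : ∀ q ∈ Sl, q ∈ c.S' → (u.B : ℝ) * c.r q ≤ c.wpL.thr (u.n - 1) ∨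
      ∀ s L', W363.lst u.B.primeFactors (u.n - 1) = s :: L' →
        (L'.prod : ℝ) * c.r q ≤ c.wpL.thr s := by
    intro q hq hq'
    right
    intro s L' hL
    have hsm : s ∈ W363.lst u.B.primeFactors (u.n - 1) := by rw [hL]; exact List.mem_cons_self
    obtain ⟨hsp, hsB⟩ := LeafF.lst_mem hsm
    have hsn : u.n ≤ s := bk.geB s hsp hsB
    have hsp0 : p0 < s := by
      refine h.col q s (Finset.mem_union_left _ ?_)
      rw [hF.mt q hq]
      exact Nat.mem_primeFactors.2 ⟨hsp, hsB, bk.sfB.ne_zero⟩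
    have hprod : s * L'.prod = u.B := by
      have := hF.lst_prod
      rw [hL, List.prod_cons] at this
      exact this
    have hs0 : (0 : ℝ) < s := by exact_mod_cast hsp.pos
    have hs2 : (2 : ℝ) ≤ s := by exact_mod_cast hsp.two_le
    have hls : 1 ≤ Real.log s := hlog1 s hsp0.le
    have h1 := h.rad hF hq (hrt q hq hq') hs2 (fun l _ hl => by exact_mod_cast (hl.le.trans hsn))
    have h2 : ν ≤ 3 * Real.log s ^ (B + c2) := by
      refine hmu2.trans ?_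
      have h3 : Real.log u.n ≤ Real.log s := by
        rcases Nat.eq_zero_or_pos u.n with h0 | h0
        · rw [h0, Nat.cast_zero, Real.log_zero]; linarith
        · exact Real.log_le_log (by exact_mod_cast h0) (by exact_mod_cast hsn)
      have h4 : 0 ≤ Real.log (u.n : ℝ) := Real.log_natCast_nonneg _
      have := Real.rpow_le_rpow h4 h3 (z := B + c2) (by linarith)
      linarith
    have h5 := hb₀ s (by omega)
    have hsq : Real.sqrt s ≤ s := by
      rw [Real.sqrt_le_left (by linarith)]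
      nlinarith
    have h6 : (2 * Real.log s) ^ (-C6) ≤ c.wpL.thr s :=
      (rpow_neg_log_ge hC6 (by omega) (by omega) hsp0.le hp3).trans (hP.lo s)
    refine le_trans ?_ h6
    have h7 : (s : ℝ) * ((L'.prod : ℝ) * c.r q) = u.B * c.r q := by
      rw [← hprod]; push_cast; ring
    have h8 : (s : ℝ) * ((L'.prod : ℝ) * c.r q) ≤
        3 * Ovl560.CM * Real.log s ^ (B + c2 + 1) := by
      rw [h7]
      refine h1.trans ?_
      calc Ovl560.CM * Real.log s * ν ≤ Ovl560.CM * Real.log s * (3 * Real.log s ^ (B + c2)) :=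
            mul_le_mul_of_nonneg_left h2 (by positivity)
        _ = 3 * Ovl560.CM * (Real.log s ^ (B + c2) * Real.log s) := by ring
        _ = 3 * Ovl560.CM * Real.log s ^ (B + c2 + 1) := by
            rw [Real.rpow_add (by linarith) (B + c2) 1, Real.rpow_one]
    have h9 : 3 * Ovl560.CM * Real.log s ^ (B + c2 + 1) ≤ s * (2 * Real.log s) ^ (-C6) := by
      have hl0 : 0 < Real.log (s : ℝ) := by linarith
      have e1 : (2 * Real.log (s : ℝ)) ^ (-C6) = (2 ^ C6 * Real.log s ^ C6)⁻¹ := by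
        rw [Real.rpow_neg (by positivity), Real.mul_rpow (by norm_num) hl0.le]
      have hpos : 0 < (2 : ℝ) ^ C6 * Real.log s ^ C6 := by positivity
      rw [e1, ← div_eq_mul_inv, le_div_iff₀ hpos]
      calc 3 * Ovl560.CM * Real.log s ^ (B + c2 + 1) * (2 ^ C6 * Real.log s ^ C6)
          = 3 * Ovl560.CM * 2 ^ C6 * (Real.log s ^ (B + c2 + 1) * Real.log s ^ C6) := by ring
        _ = 3 * Ovl560.CM * 2 ^ C6 * Real.log s ^ (B + c2 + 1 + C6) := by
            rw [← Real.rpow_add hl0]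
        _ ≤ Real.sqrt s := h5
        _ ≤ s := hsq
    exact le_of_mul_le_mul_left (h8.trans h9) hs0
  have hKν : K1 ≤ K1 * (1 + ν) := le_mul_of_one_le_right (by linarith) (by linarith)
  have hKν2 : ν ≤ K1 * (1 + ν) := by
    have : 1 * (1 + ν) ≤ K1 * (1 + ν) := mul_le_mul_of_nonneg_right hK11 (by linarith)
    linarith
  clear_value K1 Tb M1
  rcases hF.node.2 with hbot | ⟨k, hk, hkn, hkp, hall, hmk⟩
  · -- bottom
    have hbot' : ∀ r : ℕ, r.Prime → r < u.n → r ≤ p0 := hbot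
    have hun : u.n ≤ 2 * p0 := level_le (by omega) hbot'
    have hlp0 := hlog1 p0 le_rfl
    have hm : u.n - 1 + p0 ≤ 2 * p0 + p0 := by omega
    have hlm : Real.log ((u.n - 1 + p0 : ℕ) : ℝ) ≤ Real.log ((2 * p0 + p0 : ℕ) : ℝ) :=
      Real.log_le_log (by exact_mod_cast (by omega : 0 < u.n - 1 + p0)) (by exact_mod_cast hm)
    have hlm0 : 0 < Real.log ((u.n - 1 + p0 : ℕ) : ℝ) :=
      Real.log_pos (by exact_mod_cast (by omega : 1 < u.n - 1 + p0))
    refine H c n (par B C1 c2 p0) (w ψ) u Sl G wp Tb p0 K1 ν h.ok hF h.lv h.om hrt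
      (htame p0 le_rfl (fun l h1 h2 => by exact_mod_cast hbot' l h1 h2)) ?_ ?_ hK11 hνe ?_ ?_
      (hP.hi _) (hP.eta _) (hP.eta1 _) hfat (Or.inr ?_)
    · have : 0 ≤ Real.log p0 ^ C1 := Real.rpow_nonneg (by linarith) _
      have : 0 ≤ Real.log ((2 * p0 + p0 : ℕ) : ℝ) ^ C6 := Real.rpow_nonneg (by linarith) _
      linarith
    · have h1 : Real.log p0 ^ C1 ≤ Tb := by
        have : 0 ≤ Real.log ((2 * p0 + p0 : ℕ) : ℝ) ^ C6 := Real.rpow_nonneg (by linarith) _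
        linarith
      have h2 : Real.log p0 ≤ Tb ^ (1 / C1) := by
        have h3 := Real.rpow_le_rpow (Real.rpow_nonneg (by linarith) _) h1 hc1.le
        rw [← Real.rpow_mul (by linarith), mul_one_div_cancel hC1p.ne', Real.rpow_one] at h3
        exact h3
      have hp0R : (0 : ℝ) < p0 := by exact_mod_cast (by omega : 0 < p0)
      rw [← Real.log_le_iff_le_exp hp0R]
      exact h2
    · rw [Real.mul_rpow hTb0.le hν0]
      have h1 : ν ^ (2 * ε) ≤ 1 + ν := by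
        rcases le_total ν 1 with h2 | h2
        · have := Real.rpow_le_one hν0 h2 (z := 2 * ε) (by linarith)
          linarith
        · have : ν ^ (2 * ε) ≤ ν ^ (1 : ℝ) :=
            Real.rpow_le_rpow_of_exponent_le h2 (by linarith)
          rw [Real.rpow_one] at this
          linarith
      calc Tb ^ (2 * ε) * ν ^ (2 * ε) ≤ Tb ^ (2 * ε) * (1 + ν) :=
            mul_le_mul_of_nonneg_left h1 hK1a
        _ ≤ K1 * (1 + ν) := mul_le_mul_of_nonneg_right (by linarith) (by linarith)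
    · refine le_trans ?_ (hP.lo (u.n - 1))
      have h1 : Real.log ((2 * p0 + p0 : ℕ) : ℝ) ^ (-C6) ≤
          Real.log ((u.n - 1 + p0 : ℕ) : ℝ) ^ (-C6) :=
        Real.rpow_le_rpow_of_nonpos hlm0 hlm (by linarith)
      refine le_trans ?_ h1
      have h2 : 0 < Real.log ((2 * p0 + p0 : ℕ) : ℝ) ^ C6 :=
        Real.rpow_pos_of_pos (by linarith) _
      rw [Real.rpow_neg (by linarith), ← one_div]
      refine one_div_le_one_div_of_le h2 ?_
      have : 0 ≤ Real.log p0 ^ C1 := Real.rpow_nonneg (by linarith) _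
      linarith
    · have h1 : Real.log ((2 * p0 + p0 : ℕ) : ℝ) ^ (-C3) ≤ etaL c.wpL (u.n - 1) :=
        (Real.rpow_le_rpow_of_nonpos hlm0 hlm (by linarith)).trans (hP.etalo _)
      have h2 : 0 < Real.log ((2 * p0 + p0 : ℕ) : ℝ) ^ (-C3) :=
        Real.rpow_pos_of_pos (by linarith) _
      have h3 := Real.rpow_le_rpow_of_nonpos h2 h1 (z := -ε') (by linarith)
      rw [← Real.rpow_mul (by linarith)] at h3
      have e : -C3 * -ε' = C3 * ε' := by ring
      rw [e] at h3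
      refine h3.trans (le_trans ?_ hKν)
      linarith
  · -- a column `k`
    have hkp' : p0 < k := hkp
    have hk3 : 3 ≤ k := by omega
    have hun : u.n ≤ 2 * k := level_le (by omega) hall
    have hlk := hlog1 k hkp'.le
    have hlk0 : 0 < Real.log (k : ℝ) := by linarith
    have hkR : (0 : ℝ) < k := by exact_mod_cast hk.pos
    have hthrk : (2 * Real.log k) ^ (-C6) ≤ c.wpL.thr (u.n - 1) :=
      (rpow_neg_log_ge hC6 hk3 (by omega) hkp'.le hp3).trans (hP.lo _)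
    have hnum1 : Ovl560.CM * Real.log k * Real.log k ^ (-C1) ≤ (2 * Real.log k) ^ (-C6) ∧
        Real.log k ^ (-C1) ≤ (2 * Real.log k) ^ (-C6) := by
      have e1 : (2 * Real.log (k : ℝ)) ^ (-C6) = (2 ^ C6)⁻¹ * Real.log k ^ (-C6) := by
        rw [Real.mul_rpow (by norm_num) hlk0.le, Real.rpow_neg (by norm_num)]
      have h26p : (0 : ℝ) < 2 ^ C6 := by positivity
      have e2 : Real.log (k : ℝ) ^ (-C1) ≤ Real.log k ^ (-C6) * (Real.log k)⁻¹ * (Real.log k)⁻¹ := by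
        have e3 : Real.log (k : ℝ) ^ (-C6) * (Real.log k)⁻¹ * (Real.log k)⁻¹ =
            Real.log k ^ (-C6 - 1 - 1) := by
          rw [Real.rpow_sub hlk0, Real.rpow_sub hlk0, Real.rpow_one]
          field_simp
        rw [e3]
        exact Real.rpow_le_rpow_of_exponent_le hlk (by linarith)
      have hK := hlog2 k hkp'.le
      have hinv : (Real.log (k : ℝ))⁻¹ ≤ (2 ^ C6)⁻¹ * (Ovl560.CM + 1)⁻¹ := by
        rw [← mul_inv]
        exact inv_anti₀ (by positivity) hK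
      have hp6 : 0 < Real.log (k : ℝ) ^ (-C6) := by positivity
      constructor
      · calc Ovl560.CM * Real.log k * Real.log k ^ (-C1)
            ≤ Ovl560.CM * Real.log k *
              (Real.log k ^ (-C6) * (Real.log k)⁻¹ * (Real.log k)⁻¹) :=
              mul_le_mul_of_nonneg_left e2 (by positivity)
          _ = Ovl560.CM * Real.log k ^ (-C6) * (Real.log k)⁻¹ := by
              field_simp
          _ ≤ Ovl560.CM * Real.log k ^ (-C6) * ((2 ^ C6)⁻¹ * (Ovl560.CM + 1)⁻¹) :=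
              mul_le_mul_of_nonneg_left hinv (by positivity)
          _ = (Ovl560.CM * (Ovl560.CM + 1)⁻¹) * ((2 ^ C6)⁻¹ * Real.log k ^ (-C6)) := by ring
          _ ≤ 1 * ((2 ^ C6)⁻¹ * Real.log k ^ (-C6)) := by
              refine mul_le_mul_of_nonneg_right ?_ (by positivity)
              rw [← div_eq_mul_inv, div_le_one (by positivity)]
              linarith
          _ = _ := by rw [e1, one_mul]
      · calc Real.log k ^ (-C1) ≤ Real.log k ^ (-C6) * (Real.log k)⁻¹ * (Real.log k)⁻¹ := e2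
          _ ≤ Real.log k ^ (-C6) * ((2 ^ C6)⁻¹ * (Ovl560.CM + 1)⁻¹) * 1 := by
              refine mul_le_mul (mul_le_mul_of_nonneg_left hinv hp6.le)
                (inv_le_one_of_one_le₀ hlk) (by positivity) (by positivity)
          _ ≤ Real.log k ^ (-C6) * ((2 ^ C6)⁻¹ * 1) * 1 := by
              refine mul_le_mul_of_nonneg_right (mul_le_mul_of_nonneg_left
                (mul_le_mul_of_nonneg_left ?_ (by positivity)) hp6.le) (by norm_num)
              exact inv_le_one_of_one_le₀ (by linarith)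
          _ = _ := by rw [e1]; ring
    set T : ℝ := Real.log k ^ C1 with hT
    have hTp : 0 < T := by positivity
    have hT1 : Real.log (k : ℝ) ≤ T := by
      have := Real.rpow_le_rpow_of_exponent_le hlk (show (1 : ℝ) ≤ C1 by linarith)
      rwa [Real.rpow_one] at this
    have hTT : T0 ≤ T := (hlogT k hkp'.le).trans hT1
    have hX : (k : ℝ) ≤ Real.exp (T ^ (1 / C1)) := by
      rw [hT, ← Real.rpow_mul hlk0.le, mul_one_div_cancel hC1p.ne', Real.rpow_one,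
        Real.exp_log hkR]
    have hinvT : 1 / T = Real.log k ^ (-C1) := by
      rw [hT, Real.rpow_neg hlk0.le, one_div]
    have hthrT : 1 / T ≤ c.wpL.thr (u.n - 1) := by
      rw [hinvT]; exact hnum1.2.trans hthrk
    have hXp : ∀ l : ℕ, l.Prime → l < u.n → (l : ℝ) ≤ k := fun l h1 h2 => by
      exact_mod_cast hall l h1 h2
    rcases hmk with hlight | hheavy
    · -- light
      have hl' : ν < Real.log k ^ (-C1) := hlight
      refine H c n (par B C1 c2 p0) (w ψ) u Sl G wp T k K1 ν h.ok hF h.lv h.om hrt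
        (htame k (by exact_mod_cast hkp'.le) hXp) hTT hX hK11 hνe ?_ hthrT
        (hP.hi _) (hP.eta _) (hP.eta1 _) hfat (Or.inl ?_)
      · have h1 : T * ν ≤ 1 := by
          calc T * ν ≤ T * Real.log k ^ (-C1) := mul_le_mul_of_nonneg_left hl'.le hTp.le
            _ = 1 := by
              rw [hT, ← Real.rpow_add hlk0]; simp
        have h2 : (T * ν) ^ (2 * ε) ≤ 1 := Real.rpow_le_one (by positivity) h1 (by linarith)
        linarith
      · intro q hq hq'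
        have h1 := h.rad hF hq (hrt q hq hq') (x := k) (by exact_mod_cast hk.two_le) hXp
        refine h1.trans (le_trans ?_ hthrk)
        refine le_trans ?_ hnum1.1
        exact mul_le_mul_of_nonneg_left hl'.le (by positivity)
    · -- heavy
      have hh' : Real.log k ^ c2 < ν := hheavy
      have hν1 : 1 ≤ ν := (Real.one_le_rpow hlk hc2.le).trans hh'.le
      refine H c n (par B C1 c2 p0) (w ψ) u Sl G wp T k K1 ν h.ok hF h.lv h.om hrt
        (htame k (by exact_mod_cast hkp'.le) hXp) hTT hX hK11 hνe ?_ hthrT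
        (hP.hi _) (hP.eta _) (hP.eta1 _) hfat (Or.inr ?_)
      · have h1 : T ≤ ν ^ (C1 / c2) := by
          have h2 := Real.rpow_le_rpow (by positivity) hh'.le (z := C1 / c2) (by positivity)
          rw [← Real.rpow_mul hlk0.le, mul_div_cancel₀ _ hc2.ne'] at h2
          exact h2
        have h3 : T * ν ≤ ν ^ (1 + C1 / c2) := by
          rw [Real.rpow_add (by linarith), Real.rpow_one]
          nlinarith
        have h4 : (T * ν) ^ (2 * ε) ≤ ν := by
          calc (T * ν) ^ (2 * ε) ≤ (ν ^ (1 + C1 / c2)) ^ (2 * ε) :=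
                Real.rpow_le_rpow (by positivity) h3 (by linarith)
            _ = ν ^ ((1 + C1 / c2) * (2 * ε)) := by rw [← Real.rpow_mul hν0]
            _ ≤ ν ^ (1 : ℝ) := Real.rpow_le_rpow_of_exponent_le hν1 (by linarith)
            _ = ν := Real.rpow_one _
        exact h4.trans hKν2
      · have hlm0 : 0 < Real.log ((u.n - 1 + p0 : ℕ) : ℝ) :=
          Real.log_pos (by exact_mod_cast (by omega : 1 < u.n - 1 + p0))
        have h1 : (2 * Real.log k) ^ (-C3) ≤ etaL c.wpL (u.n - 1) :=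
          (rpow_neg_log_ge hC3 hk3 (by omega) hkp'.le hp3).trans (hP.etalo _)
        have h2 : 0 < (2 * Real.log (k : ℝ)) ^ (-C3) := by positivity
        have h3 := Real.rpow_le_rpow_of_nonpos h2 h1 (z := -ε') (by linarith)
        rw [← Real.rpow_mul (by positivity)] at h3
        have e : -C3 * -ε' = C3 * ε' := by ring
        rw [e] at h3
        have h4 : (2 * Real.log (k : ℝ)) ^ (C3 * ε') ≤ (2 * Real.log k) ^ c2 :=
          Real.rpow_le_rpow_of_exponent_le (by linarith) hε'C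
        have h5 : (2 * Real.log (k : ℝ)) ^ c2 = 2 ^ c2 * Real.log k ^ c2 :=
          Real.mul_rpow (by norm_num) hlk0.le
        have h6 : (2 : ℝ) ^ c2 * Real.log k ^ c2 ≤ 2 ^ c2 * ν :=
          mul_le_mul_of_nonneg_left hh'.le hK1c
        have h7 : (2 : ℝ) ^ c2 * ν ≤ K1 * (1 + ν) := by
          have h8 : (2 : ℝ) ^ c2 ≤ K1 := by linarith
          exact mul_le_mul h8 (by linarith) hν0 (by linarith)
        linarith

end Crest.Agent.R4.LeafA734
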