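import Crest.Agent.R4.LeafA734
import Crest.Agent.R4.Skel189

/-!
R4 (S0004), helper734: module J1 for the **contexts** of `Skel189`.
-/

set_option autoImplicit false
open Finset MeasureTheory

namespace Crest.Agent.R4.LeafC734

open Crest.Agent.R4
open Crest.Agent.R4.Cnt588 Crest.Agent.R4.Data758 Crest.Agent.R4.LfDat734
open Crest.Agent.R4.LeafA734
open Crest.Agent.R4.Skel189 (Ctx top)
open Crest.Agent.R4.Frame758 (LeafE LeafAll wt)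
open Crest.Agent.R4.Soft104 (w)

section
variable {N : Skel189.Num} {γ : ℝ} {p0 P₀ : ℕ} (X : Ctx N γ p0 P₀)

/-- total mass of the system -/
lemma mass_le : ∑ q ∈ X.S, w X.ψ q ≤ 1 := by
  have h := X.sys.node 1 one_pos
  rwa [Max709.NM_one] at h

/-- the first column is at least `3` -/
lemma top_ge (hP : 2 ≤ P₀) : 3 ≤ top X.S := by
  have h := X.sys.mass_lo
  have hne : X.S.Nonempty := by
    rw [Finset.nonempty_iff_ne_empty]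
    rintro e
    rw [e, Finset.sum_empty] at h
    norm_num at h
  obtain ⟨q, hq⟩ := hne
  have h1 : q ≤ X.S.sup id := Finset.le_sup (f := id) hq
  have h2 := X.sys.large q hq
  unfold top
  omega

/-- the data of a context in the form of the leaf modules -/
theorem cfL (hP : 2 ≤ P₀) : CfL N.B N.C1 N.c2 p0 X.c (top X.S) X.ψ X.c.wp where
  ok := X.ok
  sq := fun q hq => X.sq q (by rw [← X.hS]; exact hq)
  pn := fun q hq l _ h => X.lt (by rw [← X.hS]; exact hq) h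
  t := by rw [X.hS]; exact X.ht
  r := X.hr
  ψ0 := X.sys.nonneg
  n3 := top_ge X hP
  mass := by rw [X.hS]; exact mass_le X
  pr := fun q hq => by
    rw [X.ht]; exact X.prn.pr q (by rw [← X.hS']; exact hq)
  lv := X.lv
  om := X.om_le

end

/-- **numerical conditions on the leaf worlds** (for all `p0 ≥ p₁`) -/
structure LNum (C3 C6 C7 : ℝ) (a p₁ : ℕ) (thr : ℕ → ℕ → ℝ) (dep : ℕ → ℕ → ℕ) : Prop where
  lo : ∀ p0 : ℕ, p₁ ≤ p0 → ∀ m : ℕ, Real.log ((m + p0 : ℕ) : ℝ) ^ (-C6) ≤ thr p0 m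
  hi : ∀ p0 : ℕ, p₁ ≤ p0 → ∀ m, thr p0 m ≤ 1/10
  eta : ∀ p0 : ℕ, p₁ ≤ p0 → ∀ m, thr p0 m ^ a ≤ 2 / 2 ^ dep p0 m
  eta1 : ∀ p0 : ℕ, p₁ ≤ p0 → ∀ m, (2 : ℝ) / 2 ^ dep p0 m ≤ 1
  etalo : ∀ p0 : ℕ, p₁ ≤ p0 → ∀ m : ℕ, Real.log ((m + p0 : ℕ) : ℝ) ^ (-C3) ≤ 2 / 2 ^ dep p0 m
  /-- the cells are small -/
  up : ∀ p0 : ℕ, p₁ ≤ p0 → ∀ m : ℕ, 2 / 2 ^ dep p0 m ≤ Real.log ((m + p0 : ℕ) : ℝ) ^ (-C7)

/-- dyadic number between `x` and `2 x` -/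
lemma exists_dep {x : ℝ} (hx : 0 < x) (hx1 : x ≤ 1) :
    ∃ d : ℕ, x ≤ 2 / 2 ^ d ∧ (2 : ℝ) / 2 ^ d ≤ 1 ∧ (2 : ℝ) / 2 ^ d ≤ 2 * x := by
  have h2 : (2 : ℝ) ≤ 2 / x := by rw [le_div_iff₀ hx]; linarith
  set m := ⌊2 / x⌋₊ with hm
  have hm2 : 2 ≤ m := Nat.le_floor h2
  set d := Nat.log 2 m with hd
  have h3 : 2 ^ d ≤ m := Nat.pow_log_le_self 2 (by omega)
  have h4 : m < 2 ^ (d + 1) := Nat.lt_pow_succ_log_self (by norm_num) m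
  have h5 : (m : ℝ) ≤ 2 / x := Nat.floor_le (by positivity)
  have h6 : 2 / x < m + 1 := Nat.lt_floor_add_one _
  have h7 : ((2 ^ d : ℕ) : ℝ) ≤ 2 / x := le_trans (by exact_mod_cast h3) h5
  have h8 : 2 / x < ((2 ^ (d + 1) : ℕ) : ℝ) := by
    refine lt_of_lt_of_le h6 ?_
    exact_mod_cast h4
  push_cast at h7 h8
  have hd0 : (0 : ℝ) < 2 ^ d := by positivity
  have hd1 : 1 ≤ d := by
    have : 1 ≤ Nat.log 2 m := Nat.le_log_of_pow_le (by norm_num) (by simpa using hm2)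
    exact this
  refine ⟨d, ?_, ?_, ?_⟩
  · rw [le_div_iff₀ hd0]
    rw [le_div_iff₀ hx] at h7
    linarith
  · rw [div_le_one hd0]
    calc (2 : ℝ) = 2 ^ 1 := by norm_num
      _ ≤ 2 ^ d := pow_le_pow_right₀ (by norm_num) hd1
  · rw [div_le_iff₀ hd0]
    rw [div_lt_iff₀ hx, pow_succ] at h8
    nlinarith

/-- **the leaf worlds exist** -/
theorem exists_LNum {C6 C7 : ℝ} (hC6 : 0 < C6) (a p : ℕ) (hC7 : C7 + 1 ≤ a * C6) :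
    ∃ p₁ ≥ p, ∃ (thr : ℕ → ℕ → ℝ) (dep : ℕ → ℕ → ℕ), LNum (a * C6) C6 C7 a p₁ thr dep := by
  classical
  have h10 : (1 : ℝ) ≤ 10 ^ (1 / C6) := Real.one_le_rpow (by norm_num) (by positivity)
  set p₁ : ℕ := p + 3 + ⌈Real.exp (10 ^ (1 / C6) + 2)⌉₊ with hp₁
  have hlog : ∀ m : ℕ, p₁ ≤ m → (10 : ℝ) ^ (1 / C6) + 2 ≤ Real.log m := by
    intro m hm
    have h4 : Real.exp (10 ^ (1 / C6) + 2) ≤ m := by
      have h5 := Nat.le_ceil (Real.exp (10 ^ (1 / C6) + 2))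
      have h6 : ((⌈Real.exp (10 ^ (1 / C6) + 2)⌉₊ : ℕ) : ℝ) ≤ m := by
        have : ⌈Real.exp (10 ^ (1 / C6) + 2)⌉₊ ≤ m := by omega
        exact_mod_cast this
      linarith
    have hp : (0 : ℝ) < m := lt_of_lt_of_le (Real.exp_pos _) h4
    rwa [Real.le_log_iff_exp_le hp]
  have hpos : ∀ m : ℕ, p₁ ≤ m → 0 < Real.log (m : ℝ) := fun m hm => by
    have := hlog m hm
    linarith
  set thr : ℕ → ℕ → ℝ := fun p0 m => Real.log ((m + p0 : ℕ) : ℝ) ^ (-C6) with hthr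
  have h0 : ∀ p0, p₁ ≤ p0 → ∀ m, 0 < thr p0 m := fun p0 hp0 m =>
    Real.rpow_pos_of_pos (hpos _ (by omega)) _
  have h1 : ∀ p0, p₁ ≤ p0 → ∀ m, thr p0 m ≤ 1/10 := by
    intro p0 hp0 m
    have h2 := hlog (m + p0) (by omega)
    have h3 := Real.rpow_le_rpow_of_nonpos (by linarith)
      (show (10 : ℝ) ^ (1 / C6) ≤ Real.log ((m + p0 : ℕ) : ℝ) by linarith) (z := -C6) (by linarith)
    refine h3.trans (le_of_eq ?_)
    rw [← Real.rpow_mul (by norm_num)]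
    have : 1 / C6 * -C6 = -1 := by field_simp
    rw [this, Real.rpow_neg_one]
    norm_num
  have hx : ∀ p0 m, ∃ d : ℕ, p₁ ≤ p0 → thr p0 m ^ a ≤ 2 / 2 ^ d ∧ (2 : ℝ) / 2 ^ d ≤ 1 ∧
      (2 : ℝ) / 2 ^ d ≤ 2 * thr p0 m ^ a := by
    intro p0 m
    by_cases hp0 : p₁ ≤ p0
    · obtain ⟨d, hd⟩ := exists_dep (pow_pos (h0 p0 hp0 m) a)
        (pow_le_one₀ (h0 p0 hp0 m).le (by have := h1 p0 hp0 m; linarith))
      exact ⟨d, fun _ => hd⟩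
    · exact ⟨0, fun h => absurd h hp0⟩
  choose dep hdep using hx
  have epow : ∀ p0, p₁ ≤ p0 → ∀ m, thr p0 m ^ a = Real.log ((m + p0 : ℕ) : ℝ) ^ (-(a * C6)) := by
    intro p0 hp0 m
    show (Real.log ((m + p0 : ℕ) : ℝ) ^ (-C6)) ^ a = _
    rw [← Real.rpow_natCast, ← Real.rpow_mul (hpos _ (by omega)).le]
    congr 1
    ring
  refine ⟨p₁, by omega, thr, dep, ⟨fun p0 hp0 m => le_rfl, h1,
    fun p0 hp0 m => (hdep p0 m hp0).1, fun p0 hp0 m => (hdep p0 m hp0).2.1,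
    fun p0 hp0 m => ?_, fun p0 hp0 m => ?_⟩⟩
  · rw [← epow p0 hp0 m]
    exact (hdep p0 m hp0).1
  · refine (hdep p0 m hp0).2.2.trans ?_
    rw [epow p0 hp0 m]
    have hl := hlog (m + p0) (by omega)
    have hl2 : 2 ≤ Real.log ((m + p0 : ℕ) : ℝ) := by linarith
    have hl0 : 0 < Real.log ((m + p0 : ℕ) : ℝ) := by linarith
    calc 2 * Real.log ((m + p0 : ℕ) : ℝ) ^ (-(a * C6))
        ≤ Real.log ((m + p0 : ℕ) : ℝ) * Real.log ((m + p0 : ℕ) : ℝ) ^ (-(a * C6)) :=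
          mul_le_mul_of_nonneg_right hl2 (by positivity)
      _ = Real.log ((m + p0 : ℕ) : ℝ) ^ (1 - a * C6) := by
          rw [show (1 : ℝ) - a * C6 = 1 + -(a * C6) by ring, Real.rpow_add hl0, Real.rpow_one]
      _ ≤ Real.log ((m + p0 : ℕ) : ℝ) ^ (-C7) :=
          Real.rpow_le_rpow_of_exponent_le (by linarith) (by linarith)

lemma LNum.wpl {C3 C6 C7 : ℝ} {a p₁ : ℕ} {thr : ℕ → ℕ → ℝ} {dep : ℕ → ℕ → ℕ}
    (h : LNum C3 C6 C7 a p₁ thr dep)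
    {p0 : ℕ} (hp : p₁ ≤ p0) {P : W363.WP} (h1 : P.thr = thr p0) (h2 : P.dep = dep p0) :
    WPL C3 C6 a p0 P where
  lo := fun m => by rw [h1]; exact h.lo p0 hp m
  hi := fun m => by rw [h1]; exact h.hi p0 hp m
  eta := fun m => by unfold etaL; rw [h1, h2]; exact h.eta p0 hp m
  eta1 := fun m => by unfold etaL; rw [h2]; exact h.eta1 p0 hp m
  etalo := fun m => by unfold etaL; rw [h2]; exact h.etalo p0 hp m

lemma LNum.etaL_le {C3 C6 C7 : ℝ} {a p₁ : ℕ} {thr : ℕ → ℕ → ℝ} {dep : ℕ → ℕ → ℕ}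
    (h : LNum C3 C6 C7 a p₁ thr dep) {p0 : ℕ} (hp : p₁ ≤ p0) {P : W363.WP} (h2 : P.dep = dep p0)
    (m : ℕ) : etaL P m ≤ Real.log ((m + p0 : ℕ) : ℝ) ^ (-C7) := by
  unfold etaL; rw [h2]; exact h.up p0 hp m

/-- **field `leafE` for every context** -/
theorem leafE_ctx (a : ℕ) : ∃ c0 : ℝ, 0 < c0 ∧ ∀ (N : Skel189.Num) (C3 C6 C7 : ℝ) (p₂ : ℕ),
    0 < N.c2 → 0 ≤ C3 → 0 ≤ C6 → 1 / c0 ≤ N.C1 → C6 + 2 ≤ N.C1 →
    LNum C3 C6 C7 a p₂ N.thrL N.depL →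
    ∃ K : ℝ, 0 ≤ K ∧ ∃ p₁ : ℕ, ∀ p0 ≥ p₁, ∀ (γ : ℝ) (P₀ : ℕ), 2 ≤ P₀ → ∀ X : Ctx N γ p0 P₀,
      LeafAll (LeafE X.c.D (wt X.c.D) (K * Real.log p0 ^ N.c2)) 1 1 X.c.t := by
  obtain ⟨c0, hc0, H⟩ := leafE_all a
  refine ⟨c0, hc0, fun N C3 C6 C7 p₂ hc2 hC3 hC6 hC1 hC16 hL => ?_⟩
  obtain ⟨K, hK, p₁, -, H⟩ := H N.B N.C1 N.c2 C3 C6 hc2 hC3 hC6 hC1 hC16 (by
    have := N.hB; have := N.hC1; linarith)
  refine ⟨K, hK, p₁ + p₂, fun p0 hp0 γ P₀ hP X => ?_⟩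
  exact H p0 (by omega) X.c (top X.S) X.ψ X.c.wp (cfL X hP)
    (hL.wpl (by omega) X.thrL X.depL)

end Crest.Agent.R4.LeafC734
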