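import Crest.Agent.R4.LeafS734
import Crest.Agent.R4.LfDat734
import Crest.Agent.R4.Tag944

/-!
R4 (S0004), helper734: **numbers for the total energy of a leaf** (module J1).
-/

set_option autoImplicit false
set_option linter.unusedSectionVars false
open Finset MeasureTheory

namespace Crest.Agent.R4.LeafN734

open Crest.Agent.R4
open Crest.Agent.R4.LF363 (uw T02 T12 Lab LW_uw T02_congr T02_self)
open Crest.Agent.R4.LeafP734 (LeafP leafP_tame)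
open Crest.Agent.R4.LeafX734 (exact_sumA)
open Crest.Agent.R4.LFA (XTame)
open Crest.Agent.R4.HVW560 (wt)
open Crest.Agent.R4.ClsB (Tame)
open Crest.Agent.R4.ClsS (eps1)

lemma wt_nn {ψ : ℕ → ℝ} {v : ℕ} (h : 0 < ψ v) : 0 ≤ wt ψ v := by
  unfold wt; positivity

/-- the non-exact part -/
theorem T12_num : ∃ c0 : ℝ, 0 < c0 ∧ ∀ ε : ℝ, 0 < ε → ε ≤ 1/4 → ∃ C : ℝ, 1 ≤ C ∧
    ∀ c1 : ℝ, 0 < c1 → c1 ≤ c0 → ∃ T0 : ℝ, 2^50 ≤ T0 ∧
    ∀ (θ T X ν K1 : ℝ) (S : Finset ℕ) (ψ φ : ℕ → ℝ) (lab : ℕ → Option ℚ),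
    T0 ≤ T → X ≤ Real.exp (T^c1) → LeafP T θ S ψ φ lab → XTame X 1 S → 0 ≤ ν → 1 ≤ K1 →
    (T * ν)^(2*ε) ≤ K1 * (1 + ν) → ∑ q ∈ S, wt ψ q ≤ ν →
    ∑ q ∈ S, ∑ r ∈ S, T12 θ ψ φ lab q r ≤
      C * (K1 * ((∑ q ∈ S, wt ψ q) * (1 + ν))) := by
  obtain ⟨c0, hc0, H⟩ := leafP_tame
  refine ⟨c0, hc0, fun ε hε hε4 => ?_⟩
  obtain ⟨C, hC, H⟩ := H ε hε hε4
  refine ⟨4 * C, by linarith, fun c1 h1 h2 => ?_⟩
  obtain ⟨T0, hT0, H⟩ := H c1 h1 h2
  refine ⟨T0, hT0, ?_⟩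
  intro θ T X ν K1 S ψ φ lab hT hX hP hX1 hν hK1 hnum hM
  have key := H θ T X S ψ φ lab 1 hT hX hP one_pos hX1
  set M := ∑ q ∈ S, wt ψ q with hMdef
  have hM0 : 0 ≤ M := Finset.sum_nonneg fun q hq => wt_nn (hP.ψ0 q hq)
  have hT50 : (2:ℝ)^50 ≤ T := hT0.trans hT
  have hTpos : 0 < T := lt_of_lt_of_le (by norm_num) hT50
  have hT1 : 1 ≤ T := le_trans (by norm_num) hT50
  have a1 : M ^ 2 ≤ M * (1 + ν) := by nlinarith
  have a2 : T^(2*ε) * M^(1+2*ε) ≤ K1 * (M * (1 + ν)) := by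
    have e : T^(2*ε) * M^(1+2*ε) = M * (T * M)^(2*ε) := by
      rw [Real.mul_rpow hTpos.le hM0, Real.rpow_add' hM0 (by linarith), Real.rpow_one]; ring
    rw [e]
    have h3 : (T * M)^(2*ε) ≤ (T * ν)^(2*ε) :=
      Real.rpow_le_rpow (by positivity) (mul_le_mul_of_nonneg_left hM hTpos.le) (by linarith)
    calc M * (T * M)^(2*ε) ≤ M * (K1 * (1 + ν)) :=
          mul_le_mul_of_nonneg_left (h3.trans hnum) hM0
      _ = _ := by ring
  have a3 : T^(-(6/1000):ℝ) * M^(1+2*eps1) ≤ M * (1 + ν) := by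
    have h3 : T^(-(6/1000):ℝ) ≤ 1 := Real.rpow_le_one_of_one_le_of_nonpos hT1 (by norm_num)
    have he : eps1 = 1/1000 := rfl
    have h4 : M^(1+2*eps1) ≤ M * (1 + ν) := by
      rw [Real.rpow_add' hM0 (by rw [he]; norm_num), Real.rpow_one]
      refine mul_le_mul_of_nonneg_left ?_ hM0
      rcases le_total M 1 with h5 | h5
      · have := Real.rpow_le_one hM0 h5 (z := 2*eps1) (by rw [he]; norm_num)
        linarith
      · have : M^(2*eps1) ≤ M^(1:ℝ) := Real.rpow_le_rpow_of_exponent_le h5 (by rw [he]; norm_num)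
        rw [Real.rpow_one] at this
        linarith
    have h5 : 0 ≤ M^(1+2*eps1) := by positivity
    calc T^(-(6/1000):ℝ) * M^(1+2*eps1) ≤ 1 * M^(1+2*eps1) := mul_le_mul_of_nonneg_right h3 h5
      _ = M^(1+2*eps1) := one_mul _
      _ ≤ _ := h4
  have a4 : M ≤ M * (1 + ν) := by nlinarith
  have hb : 0 ≤ M * (1 + ν) := by positivity
  have hK : M * (1 + ν) ≤ K1 * (M * (1 + ν)) := by nlinarith
  have hC0 : 0 ≤ C := by linarith
  calc _ ≤ C * (M ^ 2 + T^(2*ε) * M^(1+2*ε) + T^(-(6/1000):ℝ) * M^(1+2*eps1) + M) := key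
    _ ≤ C * (4 * (K1 * (M * (1 + ν)))) := by
        refine mul_le_mul_of_nonneg_left ?_ hC0
        linarith
    _ = _ := by ring

/-- **family of labelled items** (states of the leaf) -/
theorem HT_L : ∃ c0 : ℝ, 0 < c0 ∧ ∀ ε : ℝ, 0 < ε → ε ≤ 1/4 → ∃ C : ℝ, 1 ≤ C ∧
    ∀ c1 : ℝ, 0 < c1 → c1 ≤ c0 → ∃ T0 : ℝ, 2^50 ≤ T0 ∧
    ∀ (T X ν K1 γ : ℝ) (S : Finset ℕ) (f φ : ℕ → ℝ) (lab : ℕ → Option ℚ) (thr : ℕ → ℝ)
      (L : List ℕ) (p : ℕ),
    T0 ≤ T → X ≤ Real.exp (T^c1) → XTame X 1 S → 0 ≤ ν → 1 ≤ K1 →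
    (T * ν)^(2*ε) ≤ K1 * (1 + ν) → ∑ q ∈ S, wt (fun q => L.prod * f q) q ≤ ν →
    1 / T ≤ thr p → (∀ s ∈ L, 0 < s) → (∀ q ∈ S, 0 < q) → (∀ q ∈ S, 0 < f q) →
    (∀ q ∈ S, φ q = L.prod * f q) →
    (∀ q ∈ S, lab q = (W363.sta thr γ (f q) L p).map fun σ => (L.prod : ℚ) * σ) →
    (∀ q ∈ S, (L.prod : ℝ) * f q ≤ thr p ∨ ∀ s L', L = s :: L' → (L'.prod : ℝ) * f q ≤ thr s) →
    ∑ q ∈ S, ∑ r ∈ S, (T02 (L.prod * γ) (fun q => L.prod * f q) φ lab q r +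
        T12 (L.prod * γ) (fun q => L.prod * f q) φ lab q r) ≤
      C * (K1 * ((∑ q ∈ S, wt (fun q => L.prod * f q) q) * (1 + ν))) := by
  obtain ⟨c0, hc0, H⟩ := T12_num
  obtain ⟨CL, hCL, HL⟩ := LF363.exact_cramer_sta
  refine ⟨c0, hc0, fun ε hε hε4 => ?_⟩
  obtain ⟨C, hC, H⟩ := H ε hε hε4
  refine ⟨C + CL, by linarith, fun c1 h1 h2 => ?_⟩
  obtain ⟨T0, hT0, H⟩ := H c1 h1 h2
  refine ⟨T0, hT0, ?_⟩
  intro T X ν K1 γ S f φ lab thr L p hT hX hX1 hν hK1 hnum hM hthr hL hS hf hφ hlab hfat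
  have hLp : 0 < L.prod := by
    apply Nat.pos_of_ne_zero
    intro h0
    rw [List.prod_eq_zero_iff] at h0
    exact lt_irrefl _ (hL 0 h0)
  have hLR : (0:ℝ) < L.prod := by exact_mod_cast hLp
  have hψ0 : ∀ q ∈ S, 0 < (L.prod : ℝ) * f q := fun q hq => mul_pos hLR (hf q hq)
  have hP : LeafP T (L.prod * γ) S (fun q => L.prod * f q) φ lab :=
    { pos := hS
      ψ0 := hψ0
      φ0 := fun q hq => by rw [hφ q hq]; exact hψ0 q hq
      φψ := fun q hq => (hφ q hq).le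
      lb := by
        intro q hq h3 ρ hρ
        rw [hlab q hq, W363.sta_thin (h3.trans hthr), W363.lab0_eq_some hρ]
        simp only [Option.map_some, Option.some.injEq]
        have : (L.prod : ℚ) ≠ 0 := by exact_mod_cast hLp.ne'
        field_simp }
  have k1 := H (L.prod * γ) T X ν K1 S (fun q => L.prod * f q) φ lab hT hX hP hX1 hν hK1 hnum hM
  have k2 := HL thr γ L p S f hL hS hf hfat
  set M := ∑ q ∈ S, wt (fun q => L.prod * f q) q with hMd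
  have hM0 : 0 ≤ M := Finset.sum_nonneg fun q hq => wt_nn (ψ := fun q => L.prod * f q) (hψ0 q hq)
  have e2 : ∑ q ∈ S, ∑ r ∈ S, T02 (L.prod * γ) (fun q => L.prod * f q) φ lab q r =
      ∑ q ∈ S, ∑ r ∈ S, LF363.T0 (L.prod * γ) (fun q => L.prod * f q)
        (fun q => (W363.sta thr γ (f q) L p).map fun σ => (L.prod : ℚ) * σ) q r := by
    refine Finset.sum_congr rfl fun q hq => Finset.sum_congr rfl fun r hr => ?_
    rw [← T02_self]
    exact T02_congr rfl rfl (hφ q hq) (hφ r hr) (hlab q hq) (hlab r hr)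
  have k3 : ∑ q ∈ S, ∑ r ∈ S, T02 (L.prod * γ) (fun q => L.prod * f q) φ lab q r ≤ CL * M := by
    rw [e2]; exact k2
  simp only [Finset.sum_add_distrib]
  have k4 : CL * M ≤ CL * (K1 * (M * (1 + ν))) := by
    refine mul_le_mul_of_nonneg_left ?_ hCL.le
    have : M ≤ M * (1 + ν) := by nlinarith
    have hb : 0 ≤ M * (1 + ν) := by positivity
    nlinarith
  linarith

/-- **family of unlabelled items**: label at the radius `η ψ`; either all items are thin or the loss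
`η^(-ε')` is affordable -/
theorem HT_U (a : ℕ) : ∃ c0 : ℝ, 0 < c0 ∧ ∀ ε ε' : ℝ, 0 < ε → ε ≤ 1/4 → 0 < ε' → ∃ C : ℝ, 1 ≤ C ∧
    ∀ c1 : ℝ, 0 < c1 → c1 ≤ c0 → ∃ T0 : ℝ, 2^50 ≤ T0 ∧
    ∀ (T X ν K1 γ η : ℝ) (S : Finset ℕ) (f φ : ℕ → ℝ) (lab : ℕ → Option ℚ) (thr : ℕ → ℝ)
      (L : List ℕ) (p : ℕ),
    T0 ≤ T → X ≤ Real.exp (T^c1) → XTame X 1 S → 0 ≤ ν → 1 ≤ K1 →
    (T * ν)^(2*ε) ≤ K1 * (1 + ν) → ∑ q ∈ S, wt (fun q => L.prod * f q) q ≤ ν →
    1 / T ≤ thr p → (∀ s ∈ L, 0 < s) → (∀ q ∈ S, 0 < q) → (∀ q ∈ S, 0 < f q) →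
    0 < η → η ≤ 1 → thr p ≤ 1/10 → (thr p)^a ≤ η →
    (∀ q ∈ S, φ q = η * (L.prod * f q)) →
    (∀ q ∈ S, ∀ ρ, lab q = some ρ → Lab (L.prod * γ) (φ q) ρ) →
    (∀ q ∈ S, W363.sta thr γ (f q) L p = none) →
    ((∀ q ∈ S, (L.prod : ℝ) * f q ≤ thr p) ∨ η^(-ε') ≤ K1 * (1 + ν)) →
    ∑ q ∈ S, ∑ r ∈ S, (T02 (L.prod * γ) (fun q => L.prod * f q) φ lab q r +
        T12 (L.prod * γ) (fun q => L.prod * f q) φ lab q r) ≤
      C * (K1 * ((∑ q ∈ S, wt (fun q => L.prod * f q) q) * (1 + ν))) := by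
  obtain ⟨c0, hc0, H⟩ := T12_num
  obtain ⟨CA, hCA, HA⟩ := exact_sumA a
  refine ⟨c0, hc0, fun ε ε' hε hε4 hε' => ?_⟩
  obtain ⟨C, hC, H⟩ := H ε hε hε4
  obtain ⟨CE, hCE, HE⟩ := Crest.Agent.R4.LFX223.exact_sum2 hε'
  refine ⟨C + CA + CE, by linarith, fun c1 h1 h2 => ?_⟩
  obtain ⟨T0, hT0, H⟩ := H c1 h1 h2
  refine ⟨T0, hT0, ?_⟩
  intro T X ν K1 γ η S f φ lab thr L p hT hX hX1 hν hK1 hnum hM hthr hL hS hf hη hη1 hthr1 hthra
    hφ hlab hst hcase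
  have hLp : 0 < L.prod := by
    apply Nat.pos_of_ne_zero
    intro h0
    rw [List.prod_eq_zero_iff] at h0
    exact lt_irrefl _ (hL 0 h0)
  have hLR : (0:ℝ) < L.prod := by exact_mod_cast hLp
  have hψ0 : ∀ q ∈ S, 0 < (L.prod : ℝ) * f q := fun q hq => mul_pos hLR (hf q hq)
  have hφψ : ∀ q ∈ S, φ q ≤ L.prod * f q := fun q hq => by
    rw [hφ q hq]; have := hψ0 q hq; nlinarith
  have hnolab : ∀ q ∈ S, (L.prod : ℝ) * f q ≤ thr p → ∀ ρ, ¬ Lab (L.prod * γ) (L.prod * f q) ρ := by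
    intro q hq h3
    have h4 := hst q hq
    rw [W363.sta_thin h3] at h4
    exact W363.lab0_none h4
  have hP : LeafP T (L.prod * γ) S (fun q => L.prod * f q) φ lab :=
    { pos := hS
      ψ0 := hψ0
      φ0 := fun q hq => by rw [hφ q hq]; exact mul_pos hη (hψ0 q hq)
      φψ := hφψ
      lb := fun q hq h3 ρ hρ => absurd hρ (hnolab q hq (h3.trans hthr) ρ) }
  have k1 := H (L.prod * γ) T X ν K1 S (fun q => L.prod * f q) φ lab hT hX hP hX1 hν hK1 hnum hM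
  set M := ∑ q ∈ S, wt (fun q => L.prod * f q) q with hMd
  have hM0 : 0 ≤ M := Finset.sum_nonneg fun q hq => wt_nn (ψ := fun q => L.prod * f q) (hψ0 q hq)
  have hb : 0 ≤ M * (1 + ν) := by positivity
  have hMb : M ≤ K1 * (M * (1 + ν)) := by
    have : M ≤ M * (1 + ν) := by nlinarith
    nlinarith
  have k3 : ∑ q ∈ S, ∑ r ∈ S, T02 (L.prod * γ) (fun q => L.prod * f q) φ lab q r ≤
      (CA + CE) * (K1 * (M * (1 + ν))) := by
    rcases hcase with hthin | hloss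
    · have := HA S (fun q => L.prod * f q) φ (L.prod * γ) lab hS hψ0 hφψ hlab (by
        intro q hq ρ hρ
        right
        have h3 := hlab q hq ρ hρ
        have hR := hψ0 q hq
        have hRthr := hthin q hq
        have hR10 : (L.prod : ℝ) * f q ≤ 1/10 := hRthr.trans hthr1
        have hno := hnolab q hq hRthr ρ
        set R := (L.prod : ℝ) * f q with hRd
        have hφq := hφ q hq
        have hφ0 : 0 < φ q := by rw [hφq]; exact mul_pos hη hR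
        have hφR : φ q ≤ R := hφψ q hq
        have hnear : |(L.prod * γ) - ρ| ^ 5 ≤ R ^ 4 :=
          h3.near.trans (pow_le_pow_left₀ hφ0.le hφR 4)
        have hden : 1 < (ρ.den : ℝ) ^ 5 * R := by
          by_contra hc
          exact hno ⟨hR, hR10, not_lt.1 hc, hnear⟩
        have hd0 : (0:ℝ) < ρ.den := by exact_mod_cast ρ.den_pos
        have hRa : R ^ a ≤ η := (pow_le_pow_left₀ hR.le hRthr a).trans hthra
        -- fifth powers
        have h5 : (|(L.prod * γ) - ρ| / φ q) ^ 5 ≤ ((ρ.den : ℝ) ^ (a + 1)) ^ 5 := by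
          have e1 : (|(L.prod * γ) - ρ| / φ q) ^ 5 ≤ 1 / φ q := by
            rw [div_pow, div_le_div_iff₀ (by positivity) hφ0]
            calc |(L.prod * γ) - ρ| ^ 5 * φ q ≤ φ q ^ 4 * φ q :=
                  mul_le_mul_of_nonneg_right h3.near hφ0.le
              _ = 1 * φ q ^ 5 := by ring
          have e2 : 1 / φ q ≤ ((ρ.den : ℝ) ^ 5) ^ (a + 1) := by
            rw [div_le_iff₀ hφ0, hφq]
            have e3 : (1:ℝ) ≤ ((ρ.den : ℝ) ^ 5 * R) ^ (a + 1) := one_le_pow₀ hden.le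
            have e4 : ((ρ.den : ℝ) ^ 5 * R) ^ (a + 1) = ((ρ.den : ℝ) ^ 5) ^ (a + 1) * (R ^ a * R) := by
              rw [mul_pow]; ring
            rw [e4] at e3
            refine e3.trans (mul_le_mul_of_nonneg_left ?_ (by positivity))
            exact mul_le_mul_of_nonneg_right hRa hR.le
          calc _ ≤ 1 / φ q := e1
            _ ≤ ((ρ.den : ℝ) ^ 5) ^ (a + 1) := e2
            _ = ((ρ.den : ℝ) ^ (a + 1)) ^ 5 := by rw [← pow_mul, ← pow_mul, mul_comm]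
        by_contra hc
        push Not at hc
        exact absurd h5 (not_le.2 (pow_lt_pow_left₀ hc (by positivity) (by norm_num))))
      refine this.trans ?_
      have e : ∑ q ∈ S, (fun q => (L.prod : ℝ) * f q) q * ((Nat.totient q : ℝ) / q) = M := rfl
      rw [e]
      calc CA * M ≤ CA * (K1 * (M * (1 + ν))) := mul_le_mul_of_nonneg_left hMb hCA.le
        _ ≤ _ := by
          have : 0 ≤ CE * (K1 * (M * (1 + ν))) := by positivity
          linarith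
    · have := HE η hη hη1 S (fun q => L.prod * f q) φ (L.prod * γ) lab hS hψ0 hφψ
        (fun q hq => (hφ q hq).ge) hlab
      refine this.trans ?_
      have e : ∑ q ∈ S, (fun q => (L.prod : ℝ) * f q) q * ((Nat.totient q : ℝ) / q) = M := rfl
      rw [e]
      calc CE * η^(-ε') * M ≤ CE * (K1 * (1 + ν)) * M :=
            mul_le_mul_of_nonneg_right (mul_le_mul_of_nonneg_left hloss hCE.le) hM0
        _ = CE * (K1 * (M * (1 + ν))) := by ring
        _ ≤ _ := by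
          have : 0 ≤ CA * (K1 * (M * (1 + ν))) := by positivity
          linarith
  simp only [Finset.sum_add_distrib]
  linarith

end Crest.Agent.R4.LeafN734

namespace Crest.Agent.R4.LeafN734

open Crest.Agent.R4
open Crest.Agent.R4.LF363 (uw Lab LW_uw)
open Crest.Agent.R4.LFA (XTame)
open Crest.Agent.R4.ClsB (Tame)
open Crest.Agent.R4.Bld532 (NS NodeOk Bk)
open Crest.Agent.R4.Data758 Crest.Agent.R4.LfDat734 Crest.Agent.R4.LeafS734
open Crest.Agent.R4.Frame758 (lf LeafE)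
open Crest.Agent.R4.Item758 (cf cf_nonneg IL pp)
open Crest.Agent.R4.OmData532 (omT_of_not_mem)
open Crest.Agent.R4.Tour104 (I)

section
variable {c : Cf} {n : ℕ} {P : Bld532.Par} {W : ℕ → ℝ} {u : NS} {Sl : Finset ℕ} {G : ℕ} {wp : W363.WP}

/-- the pieces of the good items of a leaf -/
theorem mkLD (hc : c.Ok n) (hF : LeafF P W c.t n u Sl G) (hlv : c.lv = lv c.t n)
    (hom : ∀ q z a, c.om q z a ≤ omL wp c.wpL c.γ c.r c.t c.lv c.S' q a)
    (hrt : ∀ q ∈ Sl, q ∈ c.S' → ∑ b ∈ rt c.t q, (1 : ℝ) / b ≤ 1 / 2) {S₁ : Finset ℕ}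
    (hS₁ : S₁ ⊆ Sl) (hS' : S₁ ⊆ c.S') :
    LD c.D u.B u.A G S₁ 2 c.r (phL c.wpL c.γ c.r c.t c.lv) (labL c.wpL c.γ c.r c.t c.lv) := by
  have bk := hF.bk
  have hS : ∀ q ∈ S₁, q ∈ c.S := fun q hq => hc.sub (hS' hq)
  have hq0 : ∀ q ∈ S₁, 0 < q := fun q hq => hc.pos q (hS q hq)
  have hd2 : ∀ q ∈ S₁, u.A * G ∣ q := fun q hq =>
    Nat.mul_dvd_of_dvd_div (bk.dvd q (hS₁ hq)) (hF.Gd q (hS₁ hq))
  have hsp : ∀ q ∈ S₁, Nat.Coprime u.A (q / u.A) := fun q hq =>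
    (bk.split (hS₁ hq) (hF.sq q (hS₁ hq))).2.1
  refine
    { b0 := Nat.pos_of_ne_zero bk.sfB.ne_zero
      K0 := by norm_num
      pr0 := Nat.pos_of_ne_zero bk.sfA.ne_zero
      G0 := hF.G0
      pG := fun q hq => Nat.Coprime.coprime_dvd_right (hF.Gd q (hS₁ hq)) (hsp q hq)
      G2 := fun q hq => hF.G_le (hS₁ hq) (hrt q (hS₁ hq) (hS' hq))
      pos := hq0
      dvd := hd2
      cop := fun q hq => ?_
      ρ0 := fun q hq => hc.r' q (hS' hq)
      win := fun j _ => ⟨hc.bp_ge j _, hc.bp_le j (Cf.k_lt j)⟩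
      disj := hc.disj
      omw := fun j hj => ?_
      om1 := fun j hj a => ?_ }
  · rw [← Nat.div_div_eq_div_mul]
    refine Nat.Coprime.mul_left ?_ (hF.Gc q (hS₁ hq))
    exact Nat.Coprime.coprime_dvd_right (Nat.div_dvd_of_dvd (hF.Gd q (hS₁ hq))) (hsp q hq)
  · have h1 := hc.wt _ (Cf.mem_S j) (c.bp j.1.1 j.1.2)
    have h2 : pp c.t j.1.1 = u.A := hF.A _ (hS₁ hj)
    rw [h2] at h1
    exact h1
  · have h1 := hF.omL_le wp c.wpL c.γ c.r c.lv c.S' (hS₁ hj) (hrt _ (hS₁ hj) (hS' hj)) a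
    rw [Nat.div_div_eq_div_mul] at h1
    exact (hom _ _ a).trans h1

end

/-- **TOTAL ENERGY OF A LEAF** with explicit numerical conditions. -/
theorem leafE_leaf (a : ℕ) : ∃ c0 : ℝ, 0 < c0 ∧ ∀ ε ε' : ℝ, 0 < ε → ε ≤ 1/4 → 0 < ε' →
    ∃ C : ℝ, 1 ≤ C ∧ ∀ c1 : ℝ, 0 < c1 → c1 ≤ c0 → ∃ T0 : ℝ, 2^50 ≤ T0 ∧
    ∀ (c : Cf) (n : ℕ) (P : Bld532.Par) (W : ℕ → ℝ) (u : NS) (Sl : Finset ℕ) (G : ℕ)
      (wp : W363.WP) (T X K1 ν : ℝ),
    c.Ok n → LeafF P W c.t n u Sl G → c.lv = lv c.t n →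
    (∀ q z a, c.om q z a ≤ omL wp c.wpL c.γ c.r c.t c.lv c.S' q a) →
    (∀ q ∈ Sl, q ∈ c.S' → ∑ b ∈ rt c.t q, (1 : ℝ) / b ≤ 1 / 2) →
    (∀ q ∈ Sl, q ∈ c.S' → ∀ z : ℝ, X ≤ z → Tame z 1 (q / (u.A * G))) →
    T0 ≤ T → X ≤ Real.exp (T^c1) → 1 ≤ K1 →
    ν = cf u.B u.A * ∑ j ∈ Finset.univ.filter (fun j => c.D.it j ∈ Sl), Frame758.wt c.D j →
    (T * ν)^(2*ε) ≤ K1 * (1 + ν) →
    1 / T ≤ c.wpL.thr (u.n - 1) → c.wpL.thr (u.n - 1) ≤ 1/10 →
    (c.wpL.thr (u.n - 1))^a ≤ etaL c.wpL (u.n - 1) → etaL c.wpL (u.n - 1) ≤ 1 →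
    (∀ q ∈ Sl, q ∈ c.S' → (u.B : ℝ) * c.r q ≤ c.wpL.thr (u.n - 1) ∨
      ∀ s L', W363.lst u.B.primeFactors (u.n - 1) = s :: L' →
        (L'.prod : ℝ) * c.r q ≤ c.wpL.thr s) →
    ((∀ q ∈ Sl, q ∈ c.S' → (u.B : ℝ) * c.r q ≤ c.wpL.thr (u.n - 1)) ∨
      (etaL c.wpL (u.n - 1))^(-ε') ≤ K1 * (1 + ν)) →
    LeafE c.D (Frame758.wt c.D) (2 * (4 * (C * K1))) u.B u.A Sl := by
  classical
  obtain ⟨cL, hcL, HL⟩ := HT_L
  obtain ⟨cU, hcU, HU⟩ := HT_U a
  refine ⟨min cL cU, lt_min hcL hcU, fun ε ε' hε hε4 hε' => ?_⟩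
  obtain ⟨CL, hCL, HL⟩ := HL ε hε hε4
  obtain ⟨CU, hCU, HU⟩ := HU ε ε' hε hε4 hε'
  refine ⟨CL + CU, by linarith, fun c1 h1 h2 => ?_⟩
  obtain ⟨TL, hTL, HL⟩ := HL c1 h1 (h2.trans (min_le_left _ _))
  obtain ⟨TU, hTU, HU⟩ := HU c1 h1 (h2.trans (min_le_right _ _))
  refine ⟨max TL TU, hTL.trans (le_max_left _ _), ?_⟩
  intro c n P W u Sl G wp T X K1 ν hc hF hlv hom hrt htame hT hX hK1 hνd hnum hthr hthr1 hthra
    hη1 hfat hcase
  have bk := hF.bk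
  set L := W363.lst u.B.primeFactors (u.n - 1) with hL
  have hLp : L.prod = u.B := hF.lst_prod
  have hL0 : ∀ s ∈ L, 0 < s := fun s hs => (LeafF.lst_mem (u := u) hs).1.pos
  have hη0 := etaL_pos c.wpL (u.n - 1)
  set S₁ := Sl.filter (fun q => q ∈ c.S' ∧ (stL c.wpL c.γ c.r c.t c.lv q).isSome) with hS₁
  set S₂ := Sl.filter (fun q => q ∈ c.S' ∧ stL c.wpL c.γ c.r c.t c.lv q = none) with hS₂
  have i₁ : S₁ ⊆ Sl := Finset.filter_subset _ _
  have i₂ : S₂ ⊆ Sl := Finset.filter_subset _ _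
  have j₁ : S₁ ⊆ c.S' := fun q hq => (Finset.mem_filter.1 hq).2.1
  have j₂ : S₂ ⊆ c.S' := fun q hq => (Finset.mem_filter.1 hq).2.1
  have d₁ := mkLD (wp := wp) hc hF hlv hom hrt i₁ j₁
  have d₂ := mkLD (wp := wp) hc hF hlv hom hrt i₂ j₂
  have hW0 : ∀ j, 0 ≤ Frame758.wt c.D j := by
    intro j
    unfold Frame758.wt
    have : c.D.al j ≤ c.D.be j := hc.bpm _ (Cf.mem_S j) (Cf.r_pos j) (Nat.le_succ _)
    exact mul_nonneg (by linarith) (by positivity)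
  have hfull : ∀ S₀ : Finset ℕ, S₀ ⊆ c.S' → ∀ q ∈ S₀, 2 * (c.r q * ((Nat.totient q : ℝ) / q)) ≤
      ∑ j ∈ Finset.univ.filter (fun j => c.D.it j = q), Frame758.wt c.D j := by
    intro S₀ hS₀ q hq
    have h3 := hc.len (hc.sub (hS₀ hq)) (hc.r' q (hS₀ hq))
    have h4 : ∑ j ∈ Finset.univ.filter (fun j => c.D.it j = q), Frame758.wt c.D j =
        (∑ j ∈ Finset.univ.filter (fun j : c.Lam => j.1.1 = q), (c.D.be j - c.D.al j)) *
          ((Nat.totient q : ℝ) / q) := by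
      rw [Finset.sum_mul]
      refine Finset.sum_congr rfl fun j hj => ?_
      have e : c.D.it j = q := (Finset.mem_filter.1 hj).2
      unfold Frame758.wt
      rw [e]
    rw [h4, h3]
    linarith
  have hν0 : 0 ≤ ν := by
    rw [hνd]
    exact mul_nonneg (cf_nonneg _ _) (Finset.sum_nonneg fun j _ => hW0 j)
  have hνS : ∀ S₀ : Finset ℕ, S₀ ⊆ Sl →
      cf u.B u.A * ∑ j ∈ Finset.univ.filter (fun j => c.D.it j ∈ S₀), Frame758.wt c.D j ≤ ν := by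
    intro S₀ hS₀
    rw [hνd]
    refine mul_le_mul_of_nonneg_left ?_ (cf_nonneg _ _)
    refine Finset.sum_le_sum_of_subset_of_nonneg ?_ fun j _ _ => hW0 j
    intro j hj
    exact Finset.mem_filter.2 ⟨Finset.mem_univ _, hS₀ (Finset.mem_filter.1 hj).2⟩
  have hb0 : (0 : ℝ) < u.B := by exact_mod_cast d₁.b0
  -- common facts about a modulus of the family
  have hV : ∀ (S₀ V : Finset ℕ), S₀ ⊆ Sl → S₀ ⊆ c.S' →
      LD c.D u.B u.A G S₀ 2 c.r (phL c.wpL c.γ c.r c.t c.lv) (labL c.wpL c.γ c.r c.t c.lv) →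
      V ⊆ S₀.image (fun q => q / (u.A * G)) → ∀ v ∈ V, ∃ q ∈ S₀, u.A * G * v = q ∧ 0 < v ∧
        v = q / (u.A * G) := by
    intro S₀ V _ _ d hV v hv
    obtain ⟨q, hq, rfl⟩ := Finset.mem_image.1 (hV hv)
    exact ⟨q, hq, d.mul hq, d.vpos hq, rfl⟩
  have hmp : ∀ q ∈ Sl, (Item758.mp c.t q : ℝ) = u.B := fun q hq => by rw [hF.B q hq]
  have hmpQ : ∀ q ∈ Sl, (Item758.mp c.t q : ℚ) = u.B := fun q hq => by rw [hF.B q hq]
  have E₁ : ∀ A : Finset c.Lam, IL c.D.it A →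
      I (fun x => (∑ j ∈ A.filter (fun j => c.D.it j ∈ S₁), lf c.D u.B u.A j x) ^ 2) ≤
      (4 * ((CL + CU) * K1)) *
      ((cf u.B u.A * ∑ j ∈ A.filter (fun j => c.D.it j ∈ S₁), Frame758.wt c.D j) *
        (1 + cf u.B u.A * ∑ j ∈ Finset.univ.filter (fun j => c.D.it j ∈ Sl),
          Frame758.wt c.D j)) := by
    intro A hA
    rw [← hνd]
    have key := leafE_core d₁ (C := CL * K1) hW0 (hfull S₁ j₁) (by positivity) hν0 (hνS S₁ i₁)
      (fun V hVs hVm => ?_) A hA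
    · refine key.trans ?_
      have h3 : 0 ≤ (cf u.B u.A * ∑ j ∈ A.filter (fun j => c.D.it j ∈ S₁),
          Frame758.wt c.D j) * (1 + ν) :=
        mul_nonneg (mul_nonneg (cf_nonneg _ _) (Finset.sum_nonneg fun j _ => hW0 j))
          (by linarith)
      refine mul_le_mul_of_nonneg_right ?_ h3
      have : 0 ≤ CU * K1 := by positivity
      nlinarith
    · have hq := hV S₁ V i₁ j₁ d₁ hVs
      have k := HL T X ν K1 c.γ V (fun v => c.r (u.A * G * v))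
        (fun v => phL c.wpL c.γ c.r c.t c.lv (u.A * G * v))
        (fun v => labL c.wpL c.γ c.r c.t c.lv (u.A * G * v)) c.wpL.thr L (u.n - 1)
        ((le_max_left _ _).trans hT) hX (by
          intro z hz v hv
          obtain ⟨q, hq1, hq2, hq3, hq4⟩ := hq v hv
          rw [hq4]; exact htame q (i₁ hq1) (j₁ hq1) z hz) hν0 hK1 hnum
        (by rw [hLp]; exact hVm) hthr hL0 (fun v hv => (hq v hv).choose_spec.2.2.1)
        (fun v hv => by
          obtain ⟨q, hq1, hq2, hq3, hq4⟩ := hq v hv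
          rw [hq2]; exact hc.r' q (j₁ hq1))
        (fun v hv => by
          obtain ⟨q, hq1, hq2, hq3, hq4⟩ := hq v hv
          rw [hq2, hLp]
          obtain ⟨σ, hσ⟩ := Option.isSome_iff_exists.1 (Finset.mem_filter.1 hq1).2.2
          rw [phL_some hσ, hmp q (i₁ hq1)])
        (fun v hv => by
          obtain ⟨q, hq1, hq2, hq3, hq4⟩ := hq v hv
          rw [hq2, hLp]
          obtain ⟨σ, hσ⟩ := Option.isSome_iff_exists.1 (Finset.mem_filter.1 hq1).2.2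
          rw [labL_some hσ, hmpQ q (i₁ hq1)]
          have h3 := hF.stL_eq c.wpL c.γ c.r (i₁ hq1)
          rw [← hlv, hσ] at h3
          rw [← h3]; rfl)
        (fun v hv => by
          obtain ⟨q, hq1, hq2, hq3, hq4⟩ := hq v hv
          rw [hq2, hLp]
          exact hfat q (i₁ hq1) (j₁ hq1))
      rw [hLp] at k
      refine k.trans (le_of_eq ?_)
      show CL * (K1 * ((∑ q ∈ V, HVW560.wt (rad u.B (u.A * G) c.r) q) * (1 + ν))) = _
      ring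
  have E₂ : ∀ A : Finset c.Lam, IL c.D.it A →
      I (fun x => (∑ j ∈ A.filter (fun j => c.D.it j ∈ S₂), lf c.D u.B u.A j x) ^ 2) ≤
      (4 * ((CL + CU) * K1)) *
      ((cf u.B u.A * ∑ j ∈ A.filter (fun j => c.D.it j ∈ S₂), Frame758.wt c.D j) *
        (1 + cf u.B u.A * ∑ j ∈ Finset.univ.filter (fun j => c.D.it j ∈ Sl),
          Frame758.wt c.D j)) := by
    intro A hA
    rw [← hνd]
    have key := leafE_core d₂ (C := CU * K1) hW0 (hfull S₂ j₂) (by positivity) hν0 (hνS S₂ i₂)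
      (fun V hVs hVm => ?_) A hA
    · refine key.trans ?_
      have h3 : 0 ≤ (cf u.B u.A * ∑ j ∈ A.filter (fun j => c.D.it j ∈ S₂),
          Frame758.wt c.D j) * (1 + ν) :=
        mul_nonneg (mul_nonneg (cf_nonneg _ _) (Finset.sum_nonneg fun j _ => hW0 j))
          (by linarith)
      refine mul_le_mul_of_nonneg_right ?_ h3
      have : 0 ≤ CL * K1 := by positivity
      nlinarith
    · have hq := hV S₂ V i₂ j₂ d₂ hVs
      have hlvq : ∀ q ∈ Sl, c.lv q = u.n - 1 := fun q hq => by rw [hlv]; exact hF.lvl q hq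
      have k := HU T X ν K1 c.γ (etaL c.wpL (u.n - 1)) V (fun v => c.r (u.A * G * v))
        (fun v => phL c.wpL c.γ c.r c.t c.lv (u.A * G * v))
        (fun v => labL c.wpL c.γ c.r c.t c.lv (u.A * G * v)) c.wpL.thr L (u.n - 1)
        ((le_max_right _ _).trans hT) hX (by
          intro z hz v hv
          obtain ⟨q, hq1, hq2, hq3, hq4⟩ := hq v hv
          rw [hq4]; exact htame q (i₂ hq1) (j₂ hq1) z hz) hν0 hK1 hnum
        (by rw [hLp]; exact hVm) hthr hL0 (fun v hv => (hq v hv).choose_spec.2.2.1)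
        (fun v hv => by
          obtain ⟨q, hq1, hq2, hq3, hq4⟩ := hq v hv
          rw [hq2]; exact hc.r' q (j₂ hq1))
        hη0 hη1 hthr1 hthra
        (fun v hv => by
          obtain ⟨q, hq1, hq2, hq3, hq4⟩ := hq v hv
          rw [hq2, hLp, phL_none (Finset.mem_filter.1 hq1).2.2, hmp q (i₂ hq1),
            hlvq q (i₂ hq1)])
        (fun v hv ρ hρ => by
          obtain ⟨q, hq1, hq2, hq3, hq4⟩ := hq v hv
          rw [hq2] at hρ ⊢
          rw [labL_none (Finset.mem_filter.1 hq1).2.2, lcl_iff, hmp q (i₂ hq1)] at hρ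
          rw [hLp, phL_none (Finset.mem_filter.1 hq1).2.2, hmp q (i₂ hq1)]
          exact hρ)
        (fun v hv => by
          obtain ⟨q, hq1, hq2, hq3, hq4⟩ := hq v hv
          rw [hq2]
          have h3 := hF.stL_eq c.wpL c.γ c.r (i₂ hq1)
          rw [← hlv, (Finset.mem_filter.1 hq1).2.2] at h3
          exact h3.symm)
        (by
          rcases hcase with h3 | h3
          · left
            intro v hv
            obtain ⟨q, hq1, hq2, hq3, hq4⟩ := hq v hv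
            rw [hq2, hLp]
            exact h3 q (i₂ hq1) (j₂ hq1)
          · right; exact h3)
      rw [hLp] at k
      refine k.trans (le_of_eq ?_)
      show CU * (K1 * ((∑ q ∈ V, HVW560.wt (rad u.B (u.A * G) c.r) q) * (1 + ν))) = _
      ring
  refine leafE_two (C := 4 * ((CL + CU) * K1)) i₁ i₂ ?_ ?_
    (fun j hj => lf_nonneg_PB d₁ hj) (fun j hj => lf_nonneg_PB d₂ hj) hW0 (by positivity) E₁ E₂
  · rw [Finset.disjoint_left]
    intro q h3 h4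
    have h5 := (Finset.mem_filter.1 h3).2.2
    rw [(Finset.mem_filter.1 h4).2.2] at h5
    simp at h5
  · intro j hj h3 h4 x
    have h5 : c.D.it j ∉ c.S' := by
      intro h6
      rcases hst : stL c.wpL c.γ c.r c.t c.lv (c.D.it j) with _ | σ
      · exact h4 (Finset.mem_filter.2 ⟨hj, h6, hst⟩)
      · exact h3 (Finset.mem_filter.2 ⟨hj, h6, by rw [hst]; rfl⟩)
    refine le_antisymm ((hom _ _ x).trans (omT_of_not_mem h5 x).le) ?_
    exact (hc.wt _ (Cf.mem_S j) _).nonneg x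

end Crest.Agent.R4.LeafN734
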