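import Crest.Agent.R4.LeafUX944
import Crest.Agent.R4.LeafN734
import Crest.Agent.R4.WPex189

/-!
R4 (S0004), helper368: **in-class energy of a leaf of the concrete data** (module J2):
labelled items (363 / 944), unlabelled items (368 / 944), union, in the letters of `LfDat734`.
-/

set_option autoImplicit false
set_option linter.unusedSectionVars false
set_option linter.unusedVariables false
open Finset MeasureTheory

namespace Crest.Agent.R4.LeafJ368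

open Crest.Agent.R4
open Crest.Agent.R4.LF363 (uw Lab)
open Crest.Agent.R4.ClsB (Tame)
open Crest.Agent.R4.Bld532 (NS NodeOk Bk)
open Crest.Agent.R4.Data758 Crest.Agent.R4.LfDat734 Crest.Agent.R4.WPex189
open Crest.Agent.R4.Frame758 (lf LeafI)
open Crest.Agent.R4.Item758 (cf cf_nonneg IL pp)
open Crest.Agent.R4.OmData532 (omT_of_not_mem)
open Crest.Agent.R4.Tour104 (I)
open Crest.Agent.R4.LeafU368 (sum_split)
open Crest.Agent.R4.Cnt588

/-- the level of the node of an item is at most the level of the tree -/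
lemma lst_n_le : ∀ (t : IT) (n : ℕ) (s : NS), t.Ok n → s.n = n → ∀ q, (Bld532.lst t s q).n ≤ n := by
  intro t
  induction t with
  | leaf S => intro n s _ h q; simp only [Bld532.lst]; exact h.le
  | br p t₁ t₀ ih₁ ih₀ =>
    intro n s hO h q
    obtain ⟨h1, h2, h3, h4, h5⟩ := hO
    simp only [Bld532.lst]
    split_ifs
    · exact (ih₀ p _ h5 rfl q).trans h2.le
    · exact (ih₁ p _ h4 rfl q).trans h2.le
  | add b t₁ t₀ ih₁ ih₀ =>
    intro n s hO h q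
    obtain ⟨h1, h2, h3, h4, h5⟩ := hO
    simp only [Bld532.lst]
    split_ifs
    · exact (ih₀ b _ h5 rfl q).trans h2.le
    · exact (ih₁ b _ h4 rfl q).trans h2.le
  | up b Sp t ih =>
    intro n s hO h q
    obtain ⟨h1, h2, h3, h4⟩ := hO
    simp only [Bld532.lst]
    exact (ih b _ h4 rfl q).trans h2.le

lemma lv_le {t : IT} {n : ℕ} (h : t.Ok n) (q : ℕ) : lv t n q ≤ n := by
  unfold lv
  have := lst_n_le t n ⟨n, 1, 1, 1⟩ h rfl q
  omega

section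
variable {c : Cf} {n : ℕ} {P : Bld532.Par} {W : ℕ → ℝ} {u : NS} {Sl : Finset ℕ} {G K : ℕ}
  {wp : W363.WP}

/-- same leaf class, both unlabelled: close centres -/
theorem close_U (hc : c.Ok n) (hfine : Fine c.wpL c.γ c.r c.t c.S n K) {j j' : c.Lam} {p : ℕ}
    (hp : p ≤ n) (hl : c.lv (c.D.it j) = p) (hl' : c.lv (c.D.it j') = p)
    (hst : stL c.wpL c.γ c.r c.t c.lv (c.D.it j) = none)
    (hst' : stL c.wpL c.γ c.r c.t c.lv (c.D.it j') = none)
    (e : c.D.rhoL j = c.D.rhoL j') {z z' : ℝ} (h1 : c.D.al j ≤ z) (h2 : z < c.D.be j)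
    (h1' : c.D.al j' ≤ z') (h2' : z' < c.D.be j') :
    |z / c.D.it j - z' / c.D.it j'| ≤
      etaL c.wpL p * min (c.r (c.D.it j) / c.D.it j) (c.r (c.D.it j') / c.D.it j') := by
  have hq := Cf.mem_S j
  have hq' := Cf.mem_S j'
  have hr := Cf.r_pos j
  have hr' := Cf.r_pos j'
  have hz : |z| ≤ c.r (c.D.it j) := by
    rw [abs_le]
    exact ⟨(hc.bp_ge j _).trans h1, h2.le.trans (hc.bp_le j (Cf.k_lt j))⟩
  have hz' : |z'| ≤ c.r (c.D.it j') := by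
    rw [abs_le]
    exact ⟨(hc.bp_ge j' _).trans h1', h2'.le.trans (hc.bp_le j' (Cf.k_lt j'))⟩
  have hl0 : c.lv j.1.1 = p := hl
  have hl0' : c.lv j'.1.1 = p := hl'
  have h3 := ((hc.rhoL_iff j j' (by rw [hl0]; exact hp) (by rw [hl0']; exact hp) h1 h2 h1' h2').1 e).1
  have s1 : c.wpL.st c.γ c.r c.t (c.lv j.1.1) j.1.1 = none := hst
  have s2 : c.wpL.st c.γ c.r c.t (c.lv j'.1.1) j'.1.1 = none := hst'
  rw [s1, s2, hl0, hl0'] at h3
  have h4 := hfine.close hp hq hq' (hc.pos _ hq) (hc.pos _ hq') hz hz' hr hr' h3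
  have e1 : W363.off c.γ c.γ j.1.1 z = z / c.D.it j := by
    unfold W363.off; rw [sub_self, add_zero]; rfl
  have e2 : W363.off c.γ c.γ j'.1.1 z' = z' / c.D.it j' := by
    unfold W363.off; rw [sub_self, add_zero]; rfl
  rw [e1, e2] at h4
  refine h4.trans ?_
  refine mul_le_mul_of_nonneg_right (exp_le_etaL c.wpL p) ?_
  have a1 : 0 ≤ c.r j.1.1 / (j.1.1 : ℝ) := by positivity
  have a2 : 0 ≤ c.r j'.1.1 / (j'.1.1 : ℝ) := by positivity
  exact le_min a1 a2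

/-- same leaf class, both labelled: the same snapped centre on the circle of the leaf -/
theorem exact_L (hc : c.Ok n) (hfine : Fine c.wpL c.γ c.r c.t c.S n K) {j j' : c.Lam} {p A B : ℕ}
    (hp : p ≤ n) (hl : c.lv (c.D.it j) = p) (hl' : c.lv (c.D.it j') = p) (hA : 0 < A) (hB : 0 < B)
    (hBK : B ≤ K) (hAj : A ∣ c.D.it j) (hAj' : A ∣ c.D.it j') {σ τ : ℚ}
    (hst : stL c.wpL c.γ c.r c.t c.lv (c.D.it j) = some σ)
    (hst' : stL c.wpL c.γ c.r c.t c.lv (c.D.it j') = some τ)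
    (e : c.D.rhoL j = c.D.rhoL j') {m k : ℤ} {x : ℝ}
    (h1 : B * c.D.al j ≤ ((c.D.it j / A : ℕ) : ℝ) * x - B * c.D.γ - m ∧
        ((c.D.it j / A : ℕ) : ℝ) * x - B * c.D.γ - m < B * c.D.be j)
    (h2 : B * c.D.al j' ≤ ((c.D.it j' / A : ℕ) : ℝ) * x - B * c.D.γ - k ∧
        ((c.D.it j' / A : ℕ) : ℝ) * x - B * c.D.γ - k < B * c.D.be j') :
    ((m : ℝ) + (((B : ℚ) * σ : ℚ) : ℝ)) / ((c.D.it j / A : ℕ) : ℝ) =
      (k + (((B : ℚ) * τ : ℚ) : ℝ)) / ((c.D.it j' / A : ℕ) : ℝ) := by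
  have hq := Cf.mem_S j
  have hq' := Cf.mem_S j'
  have hq0 : 0 < c.D.it j := hc.pos _ hq
  have hq0' : 0 < c.D.it j' := hc.pos _ hq'
  have hBR : (0 : ℝ) < B := by exact_mod_cast hB
  have hv : 0 < c.D.it j / A := Nat.div_pos (Nat.le_of_dvd hq0 hAj) hA
  have hv' : 0 < c.D.it j' / A := Nat.div_pos (Nat.le_of_dvd hq0' hAj') hA
  have eq1 : c.D.it j = A * (c.D.it j / A) := (Nat.mul_div_cancel' hAj).symm
  have eq2 : c.D.it j' = A * (c.D.it j' / A) := (Nat.mul_div_cancel' hAj').symm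
  set z := (((c.D.it j / A : ℕ) : ℝ) * x - B * c.D.γ - m) / B with hz
  set z' := (((c.D.it j' / A : ℕ) : ℝ) * x - B * c.D.γ - k) / B with hz'
  have z1 : c.D.al j ≤ z := by rw [hz, le_div_iff₀ hBR]; linarith [h1.1]
  have z2 : z < c.D.be j := by rw [hz, div_lt_iff₀ hBR]; linarith [h1.2]
  have z1' : c.D.al j' ≤ z' := by rw [hz', le_div_iff₀ hBR]; linarith [h2.1]
  have z2' : z' < c.D.be j' := by rw [hz', div_lt_iff₀ hBR]; linarith [h2.2]
  have hzr : |z| ≤ c.r (c.D.it j) := by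
    rw [abs_le]
    exact ⟨(hc.bp_ge j _).trans z1, z2.le.trans (hc.bp_le j (Cf.k_lt j))⟩
  have hzr' : |z'| ≤ c.r (c.D.it j') := by
    rw [abs_le]
    exact ⟨(hc.bp_ge j' _).trans z1', z2'.le.trans (hc.bp_le j' (Cf.k_lt j'))⟩
  have hl0 : c.lv j.1.1 = p := hl
  have hl0' : c.lv j'.1.1 = p := hl'
  have h3 := ((hc.rhoL_iff j j' (by rw [hl0]; exact hp) (by rw [hl0']; exact hp) z1 z2 z1' z2').1 e).1
  have s1 : c.wpL.st c.γ c.r c.t (c.lv j.1.1) j.1.1 = some σ := hst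
  have s2 : c.wpL.st c.γ c.r c.t (c.lv j'.1.1) j'.1.1 = some τ := hst'
  have t1 : c.wpL.st c.γ c.r c.t p j.1.1 = some σ := by rw [← hl0]; exact s1
  have t2 : c.wpL.st c.γ c.r c.t p j'.1.1 = some τ := by rw [← hl0']; exact s2
  rw [s1, s2, hl0, hl0'] at h3
  have o1 := hfine.off p hp _ hq (hc.pos _ hq) σ t1 z hzr
  have o2 := hfine.off p hp _ hq' (hc.pos _ hq') τ t2 z' hzr'
  have hδ := hfine.circle hp hp hq hq' (hc.pos _ hq') t1 t2 (A := A) (A' := A) (B := B) eq1 eq2 hBK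
  have f1 : j.1.1 = A * (c.D.it j / A) := eq1
  have f2 : j'.1.1 = A * (c.D.it j' / A) := eq2
  refine LeafL363.exact_circle c.wpL (γ := c.γ) (p := p) (p' := p) hA hB hv hv' hfine.δ0 hδ
    (x := x) (z := z) (z' := z') ?_ ?_ ?_ ?_ ?_
  · rw [hz, mul_div_cancel₀ _ hBR.ne']; rfl
  · rw [hz', mul_div_cancel₀ _ hBR.ne']; rfl
  · rw [← f1]; exact o1
  · rw [← f2]; exact o2
  · rw [← f1, ← f2]; exact h3

end


section
variable {c : Cf} {n : ℕ} {P : Bld532.Par} {W : ℕ → ℝ} {u : NS} {Sl : Finset ℕ} {G K : ℕ}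
  {wp : W363.WP}

/-- pruned items have the weight zero -/
lemma lf_zero (hc : c.Ok n)
    (hom : ∀ q z a, c.om q z a ≤ omL wp c.wpL c.γ c.r c.t c.lv c.S' q a) {j : c.Lam}
    (h : c.D.it j ∉ c.S') (b pr : ℕ) (x : ℝ) : lf c.D b pr j x = 0 := by
  unfold Frame758.lf Piece464.pc
  refine Finset.sum_eq_zero fun a _ => ?_
  show c.om j.1.1 _ a = 0
  exact le_antisymm ((hom _ _ a).trans (omT_of_not_mem h a).le)
    ((hc.wt _ (Cf.mem_S j) _).nonneg a)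

/-- the double sum over the classes only sees the items of the pruned set -/
lemma sum_restrict {Λ ω : Type*} [DecidableEq Λ] [DecidableEq ω] (J : Finset Λ) (p : Λ → Prop)
    [DecidablePred p] (rr : Λ → ω) (F : Λ → Λ → ℝ) (h1 : ∀ j j', ¬ p j → F j j' = 0)
    (h2 : ∀ j j', ¬ p j' → F j j' = 0) :
    ∑ j ∈ J, ∑ j' ∈ J.filter (fun j' => rr j = rr j'), F j j' =
      ∑ j ∈ J.filter p, ∑ j' ∈ (J.filter p).filter (fun j' => rr j = rr j'), F j j' := by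
  have e : ∀ j, ∑ j' ∈ J.filter (fun j' => rr j = rr j'), F j j' =
      ∑ j' ∈ (J.filter p).filter (fun j' => rr j = rr j'), F j j' := by
    intro j
    symm
    refine Finset.sum_subset ?_ ?_
    · intro j' hj'
      obtain ⟨a, b⟩ := Finset.mem_filter.1 hj'
      exact Finset.mem_filter.2 ⟨(Finset.mem_filter.1 a).1, b⟩
    · intro j' hj' hn
      obtain ⟨a, b⟩ := Finset.mem_filter.1 hj'
      refine h2 j j' fun hp => hn ?_
      exact Finset.mem_filter.2 ⟨Finset.mem_filter.2 ⟨a, hp⟩, b⟩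
  rw [Finset.sum_congr rfl fun j _ => e j]
  symm
  refine Finset.sum_subset (Finset.filter_subset _ _) ?_
  intro j hj hn
  refine Finset.sum_eq_zero fun j' _ => h1 j j' fun hp => hn (Finset.mem_filter.2 ⟨hj, hp⟩)

/-- same leaf class: same type -/
lemma isSome_of_class {j j' : c.Lam} (e : c.D.rhoL j = c.D.rhoL j') :
    (stL c.wpL c.γ c.r c.t c.lv (c.D.it j)).isSome =
      (stL c.wpL c.γ c.r c.t c.lv (c.D.it j')).isSome := by
  have h := (Cf.D_rhoL c j j').1 e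
  have h1 := congrArg Prod.fst h
  exact congrArg Prod.fst h1

end

/-- **IN-CLASS ENERGY OF A LEAF** with explicit numerical conditions (letters of
`LeafN734.leafE_leaf`); `C` is absolute. -/
theorem leafI_leaf : ∃ c0 C : ℝ, 0 < c0 ∧ 1 ≤ C ∧ ∀ c1 : ℝ, 0 < c1 → c1 ≤ c0 →
    ∃ T0 : ℝ, 2^50 ≤ T0 ∧
    ∀ (c : Cf) (n : ℕ) (P : Bld532.Par) (W : ℕ → ℝ) (u : NS) (Sl : Finset ℕ) (G K : ℕ)
      (wp : W363.WP) (T X : ℝ),
    c.Ok n → LeafF P W c.t n u Sl G → c.lv = lv c.t n →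
    (∀ q z a, c.om q z a ≤ omL wp c.wpL c.γ c.r c.t c.lv c.S' q a) → Fine c.wpL c.γ c.r c.t c.S n K → u.B ≤ K →
    (∀ q ∈ Sl, q ∈ c.S' → ∑ b ∈ rt c.t q, (1 : ℝ) / b ≤ 1 / 2) →
    (∀ q ∈ Sl, q ∈ c.S' → ∀ z : ℝ, X ≤ z → Tame z 1 (q / (u.A * G))) →
    T0 ≤ T → X ≤ Real.exp (T^c1) →
    etaL c.wpL (u.n - 1) * (2 * cf u.B u.A *
      ∑ j ∈ Finset.univ.filter (fun j => c.D.it j ∈ Sl), Frame758.wt c.D j) * T ≤ 1 →
    (∀ q ∈ Sl, q ∈ c.S' → (u.B : ℝ) * c.r q ≤ c.wpL.thr (u.n - 1) ∨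
      ∀ s L', W363.lst u.B.primeFactors (u.n - 1) = s :: L' →
        (L'.prod : ℝ) * c.r q ≤ c.wpL.thr s) →
    LeafI c.D (Frame758.wt c.D) C u.B u.A Sl := by
  classical
  obtain ⟨c0, CU, hc0, hCU, HU⟩ := LeafUX944.leafI_UX'
  obtain ⟨CL, hCL, HL⟩ := LeafL363.ExB_sta
  refine ⟨c0, 8 * (CU + CL), hc0, by linarith, fun c1 h1 h2 => ?_⟩
  obtain ⟨T0, hT0, HU⟩ := HU c1 h1 h2
  refine ⟨T0, hT0, ?_⟩
  intro c n P W u Sl G K wp T X hc hF hlv hom hfine hBK hrt htame hT hX hηM hfat A hA hSat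
  have bk := hF.bk
  have hB0 : 0 < u.B := Nat.pos_of_ne_zero bk.sfB.ne_zero
  have hA0 : 0 < u.A := Nat.pos_of_ne_zero bk.sfA.ne_zero
  have hG0 : 0 < G := hF.G0
  set L := W363.lst u.B.primeFactors (u.n - 1) with hL
  have hLp : L.prod = u.B := hF.lst_prod
  have hL0 : ∀ s ∈ L, 0 < s := fun s hs => (LeafF.lst_mem (u := u) hs).1.pos
  have hη0 := etaL_pos c.wpL (u.n - 1)
  have hlvq : ∀ q ∈ Sl, c.lv q = u.n - 1 := fun q hq => by rw [hlv]; exact hF.lvl q hq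
  have hlvn : ∀ q ∈ Sl, u.n - 1 ≤ n := fun q hq => by
    rw [← hF.lvl q hq]; exact lv_le hc.tOk q
  have hmp : ∀ q ∈ Sl, (Item758.mp c.t q : ℝ) = u.B := fun q hq => by rw [hF.B q hq]
  have hmpQ : ∀ q ∈ Sl, (Item758.mp c.t q : ℚ) = u.B := fun q hq => by rw [hF.B q hq]
  have hW0 : ∀ j, 0 ≤ Frame758.wt c.D j := by
    intro j
    unfold Frame758.wt
    have : c.D.al j ≤ c.D.be j := hc.bpm _ (Cf.mem_S j) (Cf.r_pos j) (Nat.le_succ _)
    exact mul_nonneg (by linarith) (by positivity)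
  have hcf : 0 ≤ cf u.B u.A := cf_nonneg _ _
  set F : c.Lam → c.Lam → ℝ := fun j j' => I (fun x => lf c.D u.B u.A j x * lf c.D u.B u.A j' x)
    with hFd
  set J := A.filter (fun j => c.D.it j ∈ Sl) with hJ
  -- step 1, 2
  have s1 : ∑ j ∈ J, ∑ j' ∈ A.filter (fun j' => c.D.it j' ∈ Sl ∧ c.D.rhoL j = c.D.rhoL j'), F j j' =
      ∑ j ∈ J, ∑ j' ∈ J.filter (fun j' => c.D.rhoL j = c.D.rhoL j'), F j j' := by
    refine Finset.sum_congr rfl fun j _ => ?_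
    rw [hJ, Finset.filter_filter]
  have hz : I (fun _ : ℝ => (0 : ℝ)) = 0 := by unfold Tour104.I; simp
  have s2 := sum_restrict J (fun j => c.D.it j ∈ c.S') c.D.rhoL F
    (fun j j' hj => by
      show I (fun x => lf c.D u.B u.A j x * lf c.D u.B u.A j' x) = 0
      rw [← hz]; congr 1; funext x
      rw [lf_zero hc hom hj, zero_mul])
    (fun j j' hj => by
      show I (fun x => lf c.D u.B u.A j x * lf c.D u.B u.A j' x) = 0
      rw [← hz]; congr 1; funext x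
      rw [lf_zero hc hom hj, mul_zero])
  set J' := J.filter (fun j => c.D.it j ∈ c.S') with hJ'
  have s3 := sum_split J' (fun j => (stL c.wpL c.γ c.r c.t c.lv (c.D.it j)).isSome = true)
    c.D.rhoL F (fun j _ j' _ e => by rw [isSome_of_class e])
  set J₁ := J'.filter (fun j => (stL c.wpL c.γ c.r c.t c.lv (c.D.it j)).isSome = true) with hJ₁
  set J₂ := J'.filter (fun j => ¬ (stL c.wpL c.γ c.r c.t c.lv (c.D.it j)).isSome = true) with hJ₂
  have hmem : ∀ j ∈ J', j ∈ A ∧ c.D.it j ∈ Sl ∧ c.D.it j ∈ c.S' := fun j hj => by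
    obtain ⟨a, b⟩ := Finset.mem_filter.1 hj
    obtain ⟨a1, a2⟩ := Finset.mem_filter.1 a
    exact ⟨a1, a2, b⟩
  have hmem' : ∀ j, j ∈ A → c.D.it j ∈ Sl → c.D.it j ∈ c.S' → j ∈ J' := fun j a b d =>
    Finset.mem_filter.2 ⟨Finset.mem_filter.2 ⟨a, b⟩, d⟩
  have hcl : ∀ j ∈ J', ∀ j', c.D.it j' = c.D.it j → j' ∈ J' := fun j hj j' e => by
    obtain ⟨a1, a2, a3⟩ := hmem j hj
    refine hmem' j' ((hA j j' e.symm).1 a1) (by rw [e]; exact a2) (by rw [e]; exact a3)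
  -- facts about items of `J'`
  have hfull : ∀ j ∈ J', c.r (c.D.it j) ≤
      ∑ j' ∈ Finset.univ.filter (fun j' => c.D.it j' = c.D.it j), (c.D.be j' - c.D.al j') := by
    intro j hj
    have h3 := hc.len (Cf.mem_S j) (Cf.r_pos j)
    have h4 : ∑ j' ∈ Finset.univ.filter (fun j' => c.D.it j' = c.D.it j),
        (c.D.be j' - c.D.al j') = 2 * c.r j.1.1 := h3
    rw [h4]
    have := Cf.r_pos j
    show c.r j.1.1 ≤ _
    linarith
  have hit : ∀ j ∈ J', 0 < G ∧ 0 < c.D.it j / (u.A * G) ∧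
      c.D.it j = u.A * (G * (c.D.it j / (u.A * G))) ∧
      Nat.Coprime u.A (G * (c.D.it j / (u.A * G))) ∧
      Nat.Coprime G (c.D.it j / (u.A * G)) ∧ (1 : ℝ) / 2 ≤ (Nat.totient G : ℝ) / G := by
    intro j hj
    obtain ⟨a1, a2, a3⟩ := hmem j hj
    have hq0 : 0 < c.D.it j := hc.pos _ (Cf.mem_S j)
    have hd : u.A * G ∣ c.D.it j := Nat.mul_dvd_of_dvd_div (bk.dvd _ a2) (hF.Gd _ a2)
    have e1 : u.A * G * (c.D.it j / (u.A * G)) = c.D.it j := Nat.mul_div_cancel' hd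
    have e2 : G * (c.D.it j / (u.A * G)) = c.D.it j / u.A := by
      rw [← Nat.div_div_eq_div_mul]
      exact Nat.mul_div_cancel' (hF.Gd _ a2)
    refine ⟨hG0, Nat.div_pos (Nat.le_of_dvd hq0 hd) (Nat.mul_pos hA0 hG0), ?_, ?_, ?_,
      hF.G_le a2 (hrt _ a2 a3)⟩
    · rw [← mul_assoc]; exact e1.symm
    · rw [e2]; exact (bk.split a2 (hF.sq _ a2)).2.1
    · rw [← Nat.div_div_eq_div_mul]; exact hF.Gc _ a2
  have hwin : ∀ j ∈ J', -c.r (c.D.it j) ≤ c.D.al j ∧ c.D.be j ≤ c.r (c.D.it j) := fun j _ =>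
    ⟨hc.bp_ge j _, hc.bp_le j (Cf.k_lt j)⟩
  have hdis : ∀ j ∈ J', ∀ j' ∈ J', c.D.it j = c.D.it j' → ∀ s : ℝ, c.D.al j ≤ s →
      s < c.D.be j → c.D.al j' ≤ s → s < c.D.be j' → j = j' := by
    intro j _ j' _ e s g1 g2 g3 g4
    by_contra hne
    rcases hc.disj j j' hne e with h | h <;> linarith
  have hWt : ∀ j ∈ J', Piece464.Wt (c.D.it j / u.A) (c.D.om j) := fun j hj => by
    have h3 := hc.wt _ (Cf.mem_S j) (c.bp j.1.1 j.1.2)
    have h4 : pp c.t j.1.1 = u.A := hF.A _ (hmem j hj).2.1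
    rw [h4] at h3
    exact h3
  have homj : ∀ j ∈ J', ∀ a, c.D.om j a ≤ 2 *
      Ovl560.nw (c.D.it j / (u.A * G)).primeFactors (uw (u.B * c.D.γ)
        (phL c.wpL c.γ c.r c.t c.lv (c.D.it j)) (labL c.wpL c.γ c.r c.t c.lv (c.D.it j))) a := by
    intro j hj a
    obtain ⟨a1, a2, a3⟩ := hmem j hj
    have h3 := hF.omL_le wp c.wpL c.γ c.r c.lv c.S' a2 (hrt _ a2 a3) a
    rw [Nat.div_div_eq_div_mul] at h3
    exact (hom _ _ a).trans h3
  have hJ₁' : ∀ j ∈ J₁, j ∈ J' ∧ ∃ σ, stL c.wpL c.γ c.r c.t c.lv (c.D.it j) = some σ :=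
    fun j hj => by
      obtain ⟨a, b⟩ := Finset.mem_filter.1 hj
      exact ⟨a, Option.isSome_iff_exists.1 b⟩
  have hJ₂' : ∀ j ∈ J₂, j ∈ J' ∧ stL c.wpL c.γ c.r c.t c.lv (c.D.it j) = none := fun j hj => by
      obtain ⟨a, b⟩ := Finset.mem_filter.1 hj
      refine ⟨a, ?_⟩
      cases h : stL c.wpL c.γ c.r c.t c.lv (c.D.it j) with
      | none => rfl
      | some σ => rw [h] at b; simp at b
  have hc₁ : ∀ j ∈ J₁, ∀ j', c.D.it j' = c.D.it j → j' ∈ J₁ := fun j hj j' e => by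
    obtain ⟨a, b⟩ := Finset.mem_filter.1 hj
    exact Finset.mem_filter.2 ⟨hcl j a j' e, by rw [e]; exact b⟩
  have hc₂ : ∀ j ∈ J₂, ∀ j', c.D.it j' = c.D.it j → j' ∈ J₂ := fun j hj j' e => by
    obtain ⟨a, b⟩ := Finset.mem_filter.1 hj
    exact Finset.mem_filter.2 ⟨hcl j a j' e, by rw [e]; exact b⟩
  -- unlabelled part
  have hmono : ∀ J₀ : Finset c.Lam, J₀ ⊆ J → ∑ j ∈ J₀, Frame758.wt c.D j ≤
      ∑ j ∈ Finset.univ.filter (fun j => c.D.it j ∈ Sl), Frame758.wt c.D j := by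
    intro J₀ h
    refine Finset.sum_le_sum_of_subset_of_nonneg ?_ fun j _ _ => hW0 j
    intro j hj
    exact Finset.mem_filter.2 ⟨Finset.mem_univ _, (Finset.mem_filter.1 (h hj)).2⟩
  have i₁ : J₁ ⊆ J := (Finset.filter_subset _ _).trans (Finset.filter_subset _ _)
  have i₂ : J₂ ⊆ J := (Finset.filter_subset _ _).trans (Finset.filter_subset _ _)
  have hT00 : 0 ≤ T := le_trans (by positivity) (hT0.trans hT)
  have kU' : ∑ j ∈ J₂, ∑ j' ∈ J₂.filter (fun j' => c.D.rhoL j = c.D.rhoL j'), F j j' ≤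
      (2 : ℝ) ^ 2 * (2 * CU * (cf u.B u.A * ∑ j ∈ J₂, Frame758.wt c.D j)) := by
    rcases J₂.eq_empty_or_nonempty with h0 | ⟨j₀, hj₀⟩
    · rw [h0]; simp
    refine HU c.Lam (WL c.Lam) (WL c.Lam) c.D c.D.rhoL (Frame758.wt c.D) 2 T
      (etaL c.wpL (u.n - 1)) X u.B u.A G 1 c.r (labL c.wpL c.γ c.r c.t c.lv)
      (fun q => q / (u.A * G)) J₂ (by norm_num) hT hX hη0 hB0 hA0 hG0 one_pos
      (hit j₀ (hJ₂' j₀ hj₀).1).2.2.2.2.2 (fun j _ => rfl)
      (fun j _ => hc.bpm _ (Cf.mem_S j) (Cf.r_pos j) (Nat.le_succ _)) hc₂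
      (fun j hj => hfull j (hJ₂' j hj).1) ?_
      (fun j hj => ⟨(hit j (hJ₂' j hj).1).2.1, (hit j (hJ₂' j hj).1).2.2.1,
        (hit j (hJ₂' j hj).1).2.2.2.1, (hit j (hJ₂' j hj).1).2.2.2.2.1⟩)
      (fun z hz j hj => htame _ (hmem j (hJ₂' j hj).1).2.1 (hmem j (hJ₂' j hj).1).2.2 z hz)
      (fun j _ => Cf.r_pos j)
      (fun j hj ρ => by
        have m1 := (hmem j (hJ₂' j hj).1).2.1
        rw [labL_none (hJ₂' j hj).2, lcl_iff, hmp _ m1, hlvq _ m1]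
        exact Iff.rfl)
      (fun j hj => hwin j (hJ₂' j hj).1)
      (fun j hj j' hj' => hdis j (hJ₂' j hj).1 j' (hJ₂' j' hj').1)
      (fun j hj => hWt j (hJ₂' j hj).1)
      (fun j hj a => by
        have m1 := (hmem j (hJ₂' j hj).1).2.1
        have h3 := homj j (hJ₂' j hj).1 a
        rw [phL_none (hJ₂' j hj).2, hmp _ m1, hlvq _ m1] at h3
        exact h3)
      (fun j hj j' hj' e z z' g1 g2 g3 g4 => by
        have m1 := (hmem j (hJ₂' j hj).1).2.1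
        have m2 := (hmem j' (hJ₂' j' hj').1).2.1
        exact close_U hc hfine (hlvn _ m1) (hlvq _ m1) (hlvq _ m2) (hJ₂' j hj).2 (hJ₂' j' hj').2 e
          g1 g2 g3 g4)
    refine le_trans ?_ hηM
    refine mul_le_mul_of_nonneg_right ?_ hT00
    refine mul_le_mul_of_nonneg_left ?_ hη0.le
    exact mul_le_mul_of_nonneg_left (hmono J₂ i₂) (by positivity)
  have kL := LeafUX944.leafI_LX' (C := CL) (K := 2) hCL.le (by norm_num) c.D c.D.rhoL
    (Frame758.wt c.D) u.B u.A c.r (fun q => (u.B : ℝ) * c.r q) (labL c.wpL c.γ c.r c.t c.lv)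
    (fun _ => G) (fun q => q / (u.A * G)) J₁ hB0 hA0 (fun j _ => rfl) hc₁
    (fun j hj => hfull j (hJ₁' j hj).1) (fun j hj => hit j (hJ₁' j hj).1)
    (fun j _ => Cf.r_pos j)
    (fun j hj => by
      obtain ⟨σ, hσ⟩ := (hJ₁' j hj).2
      rw [labL_some hσ]; simp)
    (fun j hj => hwin j (hJ₁' j hj).1)
    (fun j hj j' hj' => hdis j (hJ₁' j hj).1 j' (hJ₁' j' hj').1)
    (fun j hj => hWt j (hJ₁' j hj).1)
    (fun j hj a => by
      obtain ⟨σ, hσ⟩ := (hJ₁' j hj).2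
      have h3 := homj j (hJ₁' j hj).1 a
      rw [phL_some hσ, hmp _ (hmem j (hJ₁' j hj).1).2.1] at h3
      exact h3)
    (fun j _ j' _ _ => rfl)
    (fun j hj j' hj' e m k x w1 w2 σ τ hσ hτ => by
      obtain ⟨σ', hσ'⟩ := (hJ₁' j hj).2
      obtain ⟨τ', hτ'⟩ := (hJ₁' j' hj').2
      have m1 := (hmem j (hJ₁' j hj).1).2.1
      have m2 := (hmem j' (hJ₁' j' hj').1).2.1
      rw [labL_some hσ', Option.some.injEq, hmpQ _ m1] at hσ
      rw [labL_some hτ', Option.some.injEq, hmpQ _ m2] at hτ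
      rw [← hσ, ← hτ]
      exact exact_L hc hfine (hlvn _ m1) (hlvq _ m1) (hlvq _ m2) hA0 hB0 hBK (bk.dvd _ m1)
        (bk.dvd _ m2) hσ' hτ' e w1 w2)
    (fun u0 hu0 => by
      have h3 := HL c.Lam (WL c.Lam) c.D u.A c.r (labL c.wpL c.γ c.r c.t c.lv) (fun _ => G)
        (fun q => q / (u.A * G)) J₁ c.wpL.thr L (u.n - 1) hL0
        (fun j hj => ⟨(hit j (hJ₁' j hj).1).1, (hit j (hJ₁' j hj).1).2.1,
          (hit j (hJ₁' j hj).1).2.2.1⟩)
        (fun j _ => Cf.r_pos j)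
        (fun j hj => by
          obtain ⟨m0, m1, m2⟩ := hmem j (hJ₁' j hj).1
          rw [hLp]
          exact hfat _ m1 m2)
        (fun j hj => by
          obtain ⟨σ, hσ⟩ := (hJ₁' j hj).2
          have m1 := (hmem j (hJ₁' j hj).1).2.1
          rw [labL_some hσ, hmpQ _ m1, hLp]
          have h3 := hF.stL_eq c.wpL c.γ c.r m1
          rw [← hlv, hσ] at h3
          have h4 : c.D.γ = c.γ := rfl
          rw [h4, ← h3]; rfl) u0 hu0
      rw [hLp] at h3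
      exact h3)
  · show ∑ j ∈ J, ∑ j' ∈ A.filter (fun j' => c.D.it j' ∈ Sl ∧ c.D.rhoL j = c.D.rhoL j'), F j j' ≤
      8 * (CU + CL) * (cf u.B u.A * ∑ j ∈ J, Frame758.wt c.D j)
    rw [s1, s2, s3]
    have n0 : ∀ J₀ : Finset c.Lam, 0 ≤ cf u.B u.A * ∑ j ∈ J₀, Frame758.wt c.D j := fun J₀ =>
      mul_nonneg hcf (Finset.sum_nonneg fun j _ => hW0 j)
    have m₁ : cf u.B u.A * ∑ j ∈ J₁, Frame758.wt c.D j ≤
        cf u.B u.A * ∑ j ∈ J, Frame758.wt c.D j :=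
      mul_le_mul_of_nonneg_left
        (Finset.sum_le_sum_of_subset_of_nonneg i₁ fun j _ _ => hW0 j) hcf
    have m₂ : cf u.B u.A * ∑ j ∈ J₂, Frame758.wt c.D j ≤
        cf u.B u.A * ∑ j ∈ J, Frame758.wt c.D j :=
      mul_le_mul_of_nonneg_left
        (Finset.sum_le_sum_of_subset_of_nonneg i₂ fun j _ _ => hW0 j) hcf
    have t1 : (2 : ℝ) ^ 2 * (2 * CL * (cf u.B u.A * ∑ j ∈ J₁, Frame758.wt c.D j)) ≤
        8 * CL * (cf u.B u.A * ∑ j ∈ J, Frame758.wt c.D j) := by nlinarith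
    have t2 : (2 : ℝ) ^ 2 * (2 * CU * (cf u.B u.A * ∑ j ∈ J₂, Frame758.wt c.D j)) ≤
        8 * CU * (cf u.B u.A * ∑ j ∈ J, Frame758.wt c.D j) := by nlinarith
    calc _ ≤ (2 : ℝ) ^ 2 * (2 * CL * (cf u.B u.A * ∑ j ∈ J₁, Frame758.wt c.D j)) +
          (2 : ℝ) ^ 2 * (2 * CU * (cf u.B u.A * ∑ j ∈ J₂, Frame758.wt c.D j)) :=
          add_le_add kL kU'
      _ ≤ 8 * CL * (cf u.B u.A * ∑ j ∈ J, Frame758.wt c.D j) +
          8 * CU * (cf u.B u.A * ∑ j ∈ J, Frame758.wt c.D j) := add_le_add t1 t2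
      _ = 8 * (CU + CL) * (cf u.B u.A * ∑ j ∈ J, Frame758.wt c.D j) := by ring

end Crest.Agent.R4.LeafJ368
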