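import Crest.Agent.R4.LeafA734
import Crest.Agent.R4.LeafJ368

/-!
R4 (S0004), helper368: **in-class energy of ALL leaves** (module J2, final assembly) for the tree
with the parameters `par B C1 c2 p0`.
-/

set_option autoImplicit false
set_option linter.unusedSectionVars false
open Finset MeasureTheory

namespace Crest.Agent.R4.LeafK368

open Crest.Agent.R4
open Crest.Agent.R4.Cnt588 Crest.Agent.R4.PrunePar33
open Crest.Agent.R4.ClsB (Tame)
open Crest.Agent.R4.Bld532 (NS NodeOk Bk bld par)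
open Crest.Agent.R4.Data758 Crest.Agent.R4.LfDat734 Crest.Agent.R4.LeafS734
open Crest.Agent.R4.LeafN734 Crest.Agent.R4.LeafA734 Crest.Agent.R4.WPex189
open Crest.Agent.R4.Frame758 (lf LeafI LeafAll)
open Crest.Agent.R4.Item758 (cf cf_nonneg IL pp mp)
open Crest.Agent.R4.Soft104 (w)
open Crest.Agent.R4.LeafJ368

/-- the fat condition of a leaf (proof of 734, `LeafA734.leafE_all`) -/
theorem leaf_fat {B C1 c2 C6 : ℝ} {p0 : ℕ} {c : Cf} {n : ℕ} {ψ : ℕ → ℝ} {wp : W363.WP}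
    {u : NS} {Sl : Finset ℕ} {G : ℕ} (hC6 : 0 ≤ C6) (hBc : 0 ≤ B + c2) (hp3 : 3 ≤ p0)
    (hlog1 : ∀ k : ℕ, p0 ≤ k → 1 ≤ Real.log k)
    (hb₀ : ∀ s : ℕ, p0 < s →
      3 * Ovl560.CM * 2 ^ C6 * Real.log s ^ (B + c2 + 1 + C6) ≤ Real.sqrt s)
    (h : CfL B C1 c2 p0 c n ψ wp) (hF : LeafF (par B C1 c2 p0) (w ψ) c.t n u Sl G)
    (hmu : u.c * Ws (w ψ) Sl ≤ 3 * Real.log u.n ^ (B + c2))
    (hlo : ∀ m : ℕ, Real.log ((m + p0 : ℕ) : ℝ) ^ (-C6) ≤ c.wpL.thr m)
    (hrt : ∀ q ∈ Sl, q ∈ c.S' → ∑ b ∈ rt c.t q, (1 : ℝ) / b ≤ 1 / 2) :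
    ∀ q ∈ Sl, q ∈ c.S' → (u.B : ℝ) * c.r q ≤ c.wpL.thr (u.n - 1) ∨
      ∀ s L', W363.lst u.B.primeFactors (u.n - 1) = s :: L' →
        (L'.prod : ℝ) * c.r q ≤ c.wpL.thr s := by
  have bk := hF.bk
  have hCM := Ovl560.CM_pos
  intro q hq hq'
  right
  intro s L' hL
  have hsm : s ∈ W363.lst u.B.primeFactors (u.n - 1) := by rw [hL]; exact List.mem_cons_self
  obtain ⟨hsp, hsB⟩ := LeafF.lst_mem hsm
  have hsn : u.n ≤ s := bk.geB s hsp hsB
  have hsp0 : p0 < s := by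
    refine h.col q s (Finset.mem_union_left _ ?_)
    rw [hF.mt q hq]
    exact Nat.mem_primeFactors.2 ⟨hsp, hsB, bk.sfB.ne_zero⟩
  have hprod : s * L'.prod = u.B := by
    have := hF.lst_prod
    rw [hL, List.prod_cons] at this
    exact this
  have hs0 : (0 : ℝ) < s := by exact_mod_cast hsp.pos
  have hs2 : (2 : ℝ) ≤ s := by exact_mod_cast hsp.two_le
  have hls : 1 ≤ Real.log s := hlog1 s hsp0.le
  have h1 := h.rad hF hq (hrt q hq hq') hs2 (fun l _ hl => by exact_mod_cast (hl.le.trans hsn))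
  have h2 : u.c * Ws (w ψ) Sl ≤ 3 * Real.log s ^ (B + c2) := by
    refine hmu.trans ?_
    have h3 : Real.log u.n ≤ Real.log s := by
      rcases Nat.eq_zero_or_pos u.n with h0 | h0
      · rw [h0, Nat.cast_zero, Real.log_zero]; linarith
      · exact Real.log_le_log (by exact_mod_cast h0) (by exact_mod_cast hsn)
    have h4 : 0 ≤ Real.log (u.n : ℝ) := Real.log_natCast_nonneg _
    have := Real.rpow_le_rpow h4 h3 (z := B + c2) hBc
    linarith
  have h5 := hb₀ s hsp0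
  have hsq : Real.sqrt s ≤ s := by
    rw [Real.sqrt_le_left (by linarith)]
    nlinarith
  have h6 : (2 * Real.log s) ^ (-C6) ≤ c.wpL.thr s :=
    (rpow_neg_log_ge hC6 (by omega) (by omega) hsp0.le hp3).trans (hlo s)
  refine le_trans ?_ h6
  have h7 : (s : ℝ) * ((L'.prod : ℝ) * c.r q) = u.B * c.r q := by
    rw [← hprod]; push_cast; ring
  have h8 : (s : ℝ) * ((L'.prod : ℝ) * c.r q) ≤
      3 * Ovl560.CM * Real.log s ^ (B + c2 + 1) := by
    rw [h7]
    refine h1.trans ?_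
    calc Ovl560.CM * Real.log s * (u.c * Ws (w ψ) Sl)
          ≤ Ovl560.CM * Real.log s * (3 * Real.log s ^ (B + c2)) :=
          mul_le_mul_of_nonneg_left h2 (by positivity)
      _ = 3 * Ovl560.CM * (Real.log s ^ (B + c2) * Real.log s) := by ring
      _ = 3 * Ovl560.CM * Real.log s ^ (B + c2 + 1) := by
          rw [Real.rpow_add (by linarith) (B + c2) 1, Real.rpow_one]
  have h9 : 3 * Ovl560.CM * Real.log s ^ (B + c2 + 1) ≤ s * (2 * Real.log s) ^ (-C6) := by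
    have hl0 : 0 < Real.log (s : ℝ) := by linarith
    have e1 : (2 * Real.log (s : ℝ)) ^ (-C6) = (2 ^ C6 * Real.log s ^ C6)⁻¹ := by
      rw [Real.rpow_neg (by positivity), Real.mul_rpow (by norm_num) hl0.le]
    have hpos : 0 < (2 : ℝ) ^ C6 * Real.log s ^ C6 := by positivity
    rw [e1, ← div_eq_mul_inv, le_div_iff₀ hpos]
    calc 3 * Ovl560.CM * Real.log s ^ (B + c2 + 1) * (2 ^ C6 * Real.log s ^ C6)
        = 3 * Ovl560.CM * 2 ^ C6 * (Real.log s ^ (B + c2 + 1) * Real.log s ^ C6) := by ring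
      _ = 3 * Ovl560.CM * 2 ^ C6 * Real.log s ^ (B + c2 + 1 + C6) := by
          rw [← Real.rpow_add hl0]
      _ ≤ Real.sqrt s := h5
      _ ≤ s := hsq
  exact le_of_mul_le_mul_left (h8.trans h9) hs0

/-- **ALL LEAVES** (module J2): in-class energies with an ABSOLUTE constant. -/
theorem leafI_all : ∃ c0 C : ℝ, 0 < c0 ∧ 1 ≤ C ∧ ∀ (B C1 c2 C6 C7 : ℝ), 0 < c2 → 0 ≤ C6 →
    1 / c0 ≤ C1 → C1 + c2 + 4 ≤ B → B + c2 + C1 + 1 ≤ C7 → ∃ p₁ : ℕ, ∀ p0 ≥ p₁,
    ∀ (c : Cf) (n : ℕ) (ψ : ℕ → ℝ) (wp : W363.WP) (K : ℕ), CfL B C1 c2 p0 c n ψ wp →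
      (∀ m : ℕ, Real.log ((m + p0 : ℕ) : ℝ) ^ (-C6) ≤ c.wpL.thr m) →
      (∀ m : ℕ, etaL c.wpL m ≤ Real.log ((m + p0 : ℕ) : ℝ) ^ (-C7)) →
      Fine c.wpL c.γ c.r c.t c.S n K → (∀ q ∈ c.S, mp c.t q ≤ K) →
      LeafAll (LeafI c.D (Frame758.wt c.D) C) 1 1 c.t := by
  obtain ⟨c0, C, hc0, hC, H⟩ := leafI_leaf
  refine ⟨min c0 1, C, lt_min hc0 one_pos, hC, fun B C1 c2 C6 C7 hc2 hC6 hC1 hB hC7 => ?_⟩
  have hm : 0 < min c0 1 := lt_min hc0 one_pos
  have hC1p : 0 < C1 := lt_of_lt_of_le (by positivity) hC1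
  have hC11 : 1 ≤ C1 := by
    refine le_trans ?_ hC1
    rw [le_div_iff₀ hm]
    linarith [min_le_right c0 1]
  have hc1 : 0 < 1 / C1 := by positivity
  have hc1' : 1 / C1 ≤ c0 := by
    refine le_trans ?_ (min_le_left c0 1)
    rw [div_le_iff₀ hC1p]
    rw [div_le_iff₀ hm] at hC1
    linarith
  obtain ⟨T0, hT0, H⟩ := H (1 / C1) hc1 hc1'
  obtain ⟨pa, hpa⟩ := rt_half B (C1 + c2) (by linarith)
  obtain ⟨pb, hpb⟩ := uq_tame B (C1 + c2) (by linarith)
  have hCM := Ovl560.CM_pos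
  obtain ⟨b₀, -, hb₀⟩ := OmSt532.exists_sqrt (B + c2 + 1 + C6)
    (K := 3 * Ovl560.CM * 2 ^ C6) (by positivity)
  set M1 : ℝ := T0 + 12 * 2 ^ (B + c2) + 1 with hM1
  have hT0p : 0 < T0 := lt_of_lt_of_le (by norm_num) hT0
  have hBc : 0 ≤ B + c2 := by linarith
  have h2B : (1 : ℝ) ≤ 2 ^ (B + c2) := Real.one_le_rpow (by norm_num) hBc
  refine ⟨pa + pb + b₀ + ⌈Real.exp M1⌉₊ + 3, fun p0 hp0 => ?_⟩
  have hp3 : 3 ≤ p0 := by omega
  have hlog : ∀ k : ℕ, p0 ≤ k → M1 ≤ Real.log k := by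
    intro k hk
    have h4 : Real.exp M1 ≤ k := by
      have h5 : Real.exp M1 ≤ ⌈Real.exp M1⌉₊ := Nat.le_ceil _
      have h6 : ((⌈Real.exp M1⌉₊ : ℕ) : ℝ) ≤ k := by
        have : ⌈Real.exp M1⌉₊ ≤ k := by omega
        exact_mod_cast this
      linarith
    have hp : (0 : ℝ) < k := lt_of_lt_of_le (Real.exp_pos _) h4
    rwa [Real.le_log_iff_exp_le hp]
  have hlogT : ∀ k : ℕ, p0 ≤ k → T0 ≤ Real.log k := fun k hk => by
    have := hlog k hk
    linarith
  have hlog2 : ∀ k : ℕ, p0 ≤ k → 12 * 2 ^ (B + c2) ≤ Real.log k := fun k hk => by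
    have := hlog k hk
    linarith
  have hlog1 : ∀ k : ℕ, p0 ≤ k → 1 ≤ Real.log k := fun k hk => by
    have := hlog2 k hk
    linarith
  intro c n ψ wp K h hlo hhi hfine hK
  have hw0 : ∀ q, 0 ≤ w ψ q := fun q => by
    have := h.ψ0 q
    unfold w; positivity
  have hroot : Ws (w ψ) c.S ≤ 3 * Real.log n ^ (B + c2) := by
    have h1 : (1 : ℝ) ≤ Real.log n ^ (B + c2) :=
      Real.one_le_rpow (Bld532.one_le_log_nat h.n3) (by linarith)
    have := h.mass
    linarith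
  have hmass := Bld532.par_mass B C1 c2 p0 (by linarith) (by omega) (w ψ) hw0 n n c.S hroot 1 1
  rw [h.t]
  refine bld_leafF' (par B C1 c2 p0) (w ψ) n c.S h.sq h.pn hmass fun u Sl G hF0 hmu => ?_
  have hF : LeafF (par B C1 c2 p0) (w ψ) c.t n u Sl G := by rw [h.t]; exact hF0
  have hcpos : 0 < u.c := hmu.1
  have hmu2 : u.c * Ws (w ψ) Sl ≤ 3 * Real.log u.n ^ (B + c2) := hmu.2
  have bk := hF.bk
  set ν : ℝ := u.c * Ws (w ψ) Sl with hν
  have hν0 : 0 ≤ ν := mul_nonneg hcpos.le (Finset.sum_nonneg fun q _ => hw0 q)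
  have hgt : ∀ q, ∀ b ∈ rt c.t q, p0 < b := fun q b hb => h.col q b (Finset.mem_union_right _ hb)
  have hrt : ∀ q ∈ Sl, q ∈ c.S' → ∑ b ∈ rt c.t q, (1 : ℝ) / b ≤ 1 / 2 := fun q _ hq' =>
    hpa p0 (by omega) c.t q (h.pr q hq') (hgt q)
  have hνe : 2 * cf u.B u.A *
      ∑ j ∈ Finset.univ.filter (fun j => c.D.it j ∈ Sl), Frame758.wt c.D j = 2 * ν := by
    have := h.nu hF
    rw [hν, ← this]; ring
  have htame : ∀ X : ℝ, (p0 : ℝ) ≤ X → (∀ l : ℕ, l.Prime → l < u.n → (l : ℝ) ≤ X) →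
      ∀ q ∈ Sl, q ∈ c.S' → ∀ z : ℝ, X ≤ z → Tame z 1 (q / (u.A * G)) := by
    intro X hX1 hX2 q hq hq' z hz
    exact leaf_tame hF hq (fun l h1 h2 => (hX2 l h1 h2).trans hz)
      (hpb p0 (by omega) c.t q (h.pr q hq') z (hX1.trans hz))
  -- if the leaf is empty there is nothing to prove
  rcases Sl.eq_empty_or_nonempty with h0 | ⟨q₀, hq₀⟩
  · intro A hA hSat
    have e0 : A.filter (fun j => c.D.it j ∈ Sl) = ∅ := by
      rw [h0]
      apply Finset.filter_eq_empty_iff.2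
      intro j _ hj
      exact absurd hj (Finset.notMem_empty _)
    rw [h0] at e0 ⊢
    rw [e0]; simp
  have hBK : u.B ≤ K := by
    have h1 := hK q₀ (h.sub hF hq₀)
    rwa [hF.B q₀ hq₀] at h1
  have hfat := leaf_fat hC6 hBc hp3 hlog1 (fun s hs => hb₀ s (by omega)) h hF hmu2 hlo hrt
  -- the numbers: a column `k ≥ p0` with `u.n ≤ 2 k`, `k ≤ u.n - 1 + p0`
  have key : ∀ k : ℕ, p0 ≤ k → u.n ≤ 2 * k → k ≤ u.n - 1 + p0 →
      (∀ l : ℕ, l.Prime → l < u.n → l ≤ k) →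
      LeafI c.D (Frame758.wt c.D) C u.B u.A Sl := by
    intro k hk hun hkn hall
    have hlk := hlog1 k hk
    have hlk0 : 0 < Real.log (k : ℝ) := by linarith
    have hkR : (0 : ℝ) < k := by exact_mod_cast (by omega : 0 < k)
    set T : ℝ := Real.log k ^ C1 with hT
    have hTp : 0 < T := by positivity
    have hT1 : Real.log (k : ℝ) ≤ T := by
      have := Real.rpow_le_rpow_of_exponent_le hlk hC11
      rwa [Real.rpow_one] at this
    have hTT : T0 ≤ T := (hlogT k hk).trans hT1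
    have hX : (k : ℝ) ≤ Real.exp (T ^ (1 / C1)) := by
      rw [hT, ← Real.rpow_mul hlk0.le, mul_one_div_cancel hC1p.ne', Real.rpow_one,
        Real.exp_log hkR]
    have hXp : ∀ l : ℕ, l.Prime → l < u.n → (l : ℝ) ≤ k := fun l h1 h2 => by
      exact_mod_cast hall l h1 h2
    refine H c n (par B C1 c2 p0) (w ψ) u Sl G K wp T k h.ok hF h.lv h.om hfine hBK hrt
      (htame k (by exact_mod_cast hk) hXp) hTT hX ?_ hfat
    rw [hνe]
    have hη : etaL c.wpL (u.n - 1) ≤ Real.log k ^ (-C7) := by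
      refine (hhi _).trans ?_
      refine Real.rpow_le_rpow_of_nonpos hlk0 ?_ (by linarith)
      exact Real.log_le_log hkR (by exact_mod_cast hkn)
    have hν2 : ν ≤ 3 * (2 * Real.log k) ^ (B + c2) := by
      refine hmu2.trans ?_
      have h3 : Real.log u.n ≤ 2 * Real.log k := by
        rcases Nat.eq_zero_or_pos u.n with h0 | h0
        · rw [h0, Nat.cast_zero, Real.log_zero]; linarith
        · have e : 2 * Real.log (k : ℝ) = Real.log ((k : ℝ) ^ 2) := by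
            rw [Real.log_pow]; norm_num
          rw [e]
          refine Real.log_le_log (by exact_mod_cast h0) ?_
          have : u.n ≤ k ^ 2 := by nlinarith
          exact_mod_cast this
      have h4 : 0 ≤ Real.log (u.n : ℝ) := Real.log_natCast_nonneg _
      have := Real.rpow_le_rpow h4 h3 (z := B + c2) hBc
      linarith
    have hη0 : 0 ≤ etaL c.wpL (u.n - 1) := (etaL_pos c.wpL _).le
    have hk7 : 0 < Real.log (k : ℝ) ^ (-C7) := by positivity
    calc etaL c.wpL (u.n - 1) * (2 * ν) * T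
        ≤ Real.log k ^ (-C7) * (2 * (3 * (2 * Real.log k) ^ (B + c2))) * T := by
          refine mul_le_mul_of_nonneg_right ?_ hTp.le
          refine mul_le_mul hη (by linarith) (by linarith) hk7.le
      _ = 6 * 2 ^ (B + c2) * (Real.log k ^ (-C7) * Real.log k ^ (B + c2) * Real.log k ^ C1) := by
          rw [Real.mul_rpow (by norm_num) hlk0.le, hT]; ring
      _ = 6 * 2 ^ (B + c2) * Real.log k ^ (-C7 + (B + c2) + C1) := by
          rw [← Real.rpow_add hlk0, ← Real.rpow_add hlk0]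
      _ ≤ 6 * 2 ^ (B + c2) * Real.log k ^ (-1 : ℝ) := by
          refine mul_le_mul_of_nonneg_left ?_ (by positivity)
          exact Real.rpow_le_rpow_of_exponent_le hlk (by linarith)
      _ = 6 * 2 ^ (B + c2) / Real.log k := by
          rw [Real.rpow_neg_one, div_eq_mul_inv]
      _ ≤ 1 := by
          rw [div_le_one hlk0]
          have := hlog2 k hk
          linarith
  rcases hF.node.2 with hbot | ⟨k, hk, hkn, hkp, hall, -⟩
  · have hbot' : ∀ r : ℕ, r.Prime → r < u.n → r ≤ p0 := hbot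
    exact key p0 le_rfl (level_le (by omega) hbot') (by omega) hbot'
  · have hkp' : p0 < k := hkp
    exact key k hkp'.le (level_le (by omega) hall) (by omega) hall

end Crest.Agent.R4.LeafK368
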