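import Crest.Agent.R4.AnnLeaf368

/-!
R4 (S0004), helper363: the leaf theorem with WEAK label hypotheses, and the in-world energy of
labelled items (exact worlds, W*).

* `LeafW T η θ S ψ φ lab` : as `LF11.Leaf`, but the labels of the items with `ψ q > 1/T` are
  arbitrary.
* `leafW_T1`, `leafW_tame` : the non-exact part `∑ T12` of the energy.
* `leafW` : `∫ F² ≤ ∑ T02 + ...`.
* `inL_exact` : the in-world energy of labelled items is at most `∑ T02` (arbitrary labels).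
-/

set_option autoImplicit false
open Finset MeasureTheory

namespace Crest.Agent.R4.LeafWk363

open Crest.Agent.R4.Ovl560 Crest.Agent.R4.Piece464
open Crest.Agent.R4.HVW560 Crest.Agent.R4.LF765 Crest.Agent.R4.ClsS Crest.Agent.R4.ClsB
open Crest.Agent.R4.LF363 Crest.Agent.R4.LF11 Crest.Agent.R4.LFA
open Crest.Agent.R4.LF4 hiding DD
open Crest.Agent.R4.LF12 Crest.Agent.R4.AnnLeaf368
open Crest.Agent.R4.Tour104 (I PB)

/-- hypotheses of a leaf, weak form: only the items with `ψ q ≤ 1/T` carry canonical labels -/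
structure LeafW (T η θ : ℝ) (S : Finset ℕ) (ψ φ : ℕ → ℝ) (lab : ℕ → Option ℚ) : Prop where
  η0 : 0 < η
  η1 : η ≤ 1
  pos : ∀ q ∈ S, 0 < q
  ψ0 : ∀ q ∈ S, 0 < ψ q
  φ0 : ∀ q ∈ S, η * ψ q ≤ φ q
  φψ : ∀ q ∈ S, φ q ≤ ψ q
  lb : ∀ q ∈ S, ψ q ≤ 1/T → ∀ ρ, lab q = some ρ ↔ Lab θ (φ q) ρ

lemma LeafW.sub {T η θ : ℝ} {S S' : Finset ℕ} {ψ φ : ℕ → ℝ} {lab : ℕ → Option ℚ}
    (h : LeafW T η θ S ψ φ lab) (hS : S' ⊆ S) : LeafW T η θ S' ψ φ lab where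
  η0 := h.η0
  η1 := h.η1
  pos := fun q hq => h.pos q (hS hq)
  ψ0 := fun q hq => h.ψ0 q (hS hq)
  φ0 := fun q hq => h.φ0 q (hS hq)
  φψ := fun q hq => h.φψ q (hS hq)
  lb := fun q hq => h.lb q (hS hq)

lemma LeafW.of_leaf {T η θ : ℝ} {S : Finset ℕ} {ψ φ : ℕ → ℝ} {lab : ℕ → Option ℚ}
    (h : Leaf η θ S ψ φ lab) : LeafW T η θ S ψ φ lab where
  η0 := h.η0
  η1 := h.η1
  pos := h.pos
  ψ0 := h.ψ0
  φ0 := h.φ0
  φψ := h.φψ
  lb := fun q hq _ => h.lb q hq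

/-- the non-exact terms of a weak leaf satisfy `T1Hyp` -/
theorem LeafW.t1hyp {η θ T : ℝ} {S : Finset ℕ} {ψ φ : ℕ → ℝ} {lab : ℕ → Option ℚ}
    (h : LeafW T η θ S ψ φ lab) (hT : 10 ≤ T) :
    T1Hyp CP θ T η S S ψ φ ψ φ (fun e => T12 θ ψ φ lab e.1 e.2) where
  hV := h.pos
  hW := h.pos
  hψ := h.ψ0
  hψ' := h.ψ0
  hφ := fun v hv => ⟨h.φ0 v hv, h.φψ v hv⟩
  hφ' := fun v hv => ⟨h.φ0 v hv, h.φψ v hv⟩
  h3 := by
    intro e he hD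
    have hm := Finset.mem_product.1 he
    have hT0 : 0 < T := by linarith
    have hφ1 : 0 < φ e.1 := lt_of_lt_of_le (mul_pos h.η0 (h.ψ0 _ hm.1)) (h.φ0 _ hm.1)
    have hφ2 : 0 < φ e.2 := lt_of_lt_of_le (mul_pos h.η0 (h.ψ0 _ hm.2)) (h.φ0 _ hm.2)
    have hDpos := DD_pos (ψ' := ψ) (h.pos _ hm.2) (h.ψ0 _ hm.1)
    have h1 := T1I_le (a := ⟨θ, ψ e.1, φ e.1, lab e.1⟩) (b := ⟨θ, ψ e.2, φ e.2, lab e.2⟩)
      ⟨hφ1, h.φψ _ hm.1⟩ ⟨hφ2, h.φψ _ hm.2⟩ (h.pos _ hm.1) (h.pos _ hm.2)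
    have h2 := AI_le (⟨θ, ψ e.1, φ e.1, lab e.1⟩) (⟨θ, ψ e.2, φ e.2, lab e.2⟩)
      (h.pos _ hm.1) (h.pos _ hm.2)
    rw [Axy_eq (Crest.Agent.R4.HVW560.cof_coprime (h.pos _ hm.1)), ← Af_eq_dens, ← Af_eq_dens] at h2
    have hDI : DI (⟨θ, ψ e.1, φ e.1, lab e.1⟩) (⟨θ, ψ e.2, φ e.2, lab e.2⟩) e.1 e.2 = DD ψ ψ e := rfl
    rw [hDI, wt_eq_mI, wt_eq_mI] at h1
    have hD1 : DD ψ ψ e ≤ 1 := by
      refine hD.trans ?_
      rw [div_le_one hT0]; linarith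
    have hmax : max 1 (1 / DD ψ ψ e) = 1 / DD ψ ψ e := by
      apply max_eq_right
      rw [le_div_iff₀ hDpos]; linarith
    rw [hmax] at h1
    show T12 θ ψ φ lab e.1 e.2 ≤ _
    rw [T12_eq]
    refine h1.trans (mul_le_mul_of_nonneg_left ?_ CP_nonneg)
    unfold ew
    have hw1 := wt_nonneg (h.ψ0 _ hm.1).le
    have hw2 := wt_nonneg (h.ψ0 _ hm.2).le
    calc wt ψ e.1 * wt ψ e.2 * (1 / DD ψ ψ e) * AI ⟨θ, ψ e.1, φ e.1, lab e.1⟩ ⟨θ, ψ e.2, φ e.2, lab e.2⟩ e.1 e.2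
        ≤ wt ψ e.1 * wt ψ e.2 * (1 / DD ψ ψ e) * (Af (cof e.1 e.2) * Af (cof e.2 e.1)) :=
          mul_le_mul_of_nonneg_left h2 (by positivity)
      _ = _ := by ring
  h7 := by
    intro e he hne hD hpos
    have hm := Finset.mem_product.1 he
    have hT0 : 0 < T := by linarith
    obtain ⟨n, hn, hex⟩ := exists_of_T1I_ne (a := ⟨θ, ψ e.1, φ e.1, lab e.1⟩)
      (b := ⟨θ, ψ e.2, φ e.2, lab e.2⟩) (q := e.1) (r := e.2) (by
        have : T12 θ ψ φ lab e.1 e.2 ≠ 0 := ne_of_gt hpos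
        rwa [T12_eq] at this)
    have e1 : (cof e.1 e.2 : ℝ) * θ - cof e.2 e.1 * θ = θ * ((cof e.1 e.2 : ℝ) - cof e.2 e.1) := by ring
    refine ⟨n, ?_, ?_⟩
    · simpa only [e1] using hn
    · intro ρ h1 h2 h3
      have hφ1 : 0 < φ e.1 := lt_of_lt_of_le (mul_pos h.η0 (h.ψ0 _ hm.1)) (h.φ0 _ hm.1)
      have hφ2 : 0 < φ e.2 := lt_of_lt_of_le (mul_pos h.η0 (h.ψ0 _ hm.2)) (h.φ0 _ hm.2)
      have hcx : (1:ℝ) ≤ cof e.1 e.2 := by exact_mod_cast Crest.Agent.R4.HVW560.cof_pos (h.pos _ hm.1)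
      have hcy : (1:ℝ) ≤ cof e.2 e.1 := by exact_mod_cast Crest.Agent.R4.HVW560.cof_pos (h.pos _ hm.2)
      have h10 : 1/T ≤ 1/10 := one_div_le_one_div_of_le (by norm_num) hT
      have hs1 : φ e.1 ≤ 1/10 := by
        refine (h.φψ _ hm.1).trans (le_trans ?_ (hD.trans h10))
        exact le_trans (le_mul_of_one_le_left (h.ψ0 _ hm.1).le hcy) (le_max_left _ _)
      have hs2 : φ e.2 ≤ 1/10 := by
        refine (h.φψ _ hm.2).trans (le_trans ?_ (hD.trans h10))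
        exact le_trans (le_mul_of_one_le_left (h.ψ0 _ hm.2).le hcx) (le_max_right _ _)
      have hd1 : ψ e.1 ≤ 1/T :=
        le_trans (le_trans (le_mul_of_one_le_left (h.ψ0 _ hm.1).le hcy) (le_max_left _ _)) hD
      have hd2 : ψ e.2 ≤ 1/T :=
        le_trans (le_trans (le_mul_of_one_le_left (h.ψ0 _ hm.2).le hcx) (le_max_right _ _)) hD
      refine hex ⟨ρ, ρ, (h.lb _ hm.1 hd1 ρ).2 ⟨hφ1, hs1, h1.1, h1.2⟩,
        (h.lb _ hm.2 hd2 ρ).2 ⟨hφ2, hs2, h2.1, h2.2⟩, ?_⟩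
      have : ((n:ℚ):ℝ) = ((ρ * cof e.1 e.2 - ρ * cof e.2 e.1 : ℚ) : ℝ) := by
        push_cast; rw [h3]; ring
      exact_mod_cast this

lemma T12_diag_leW {T η θ : ℝ} {S : Finset ℕ} {ψ φ : ℕ → ℝ} {lab : ℕ → Option ℚ}
    (h : LeafW T η θ S ψ φ lab) {q : ℕ} (hq : q ∈ S) (h1 : ψ q ≤ 1) :
    T12 θ ψ φ lab q q ≤ CP * wt ψ q := by
  have hφ : 0 < φ q := lt_of_lt_of_le (mul_pos h.η0 (h.ψ0 _ hq)) (h.φ0 _ hq)
  exact T1I_diag_le (a := ⟨θ, ψ q, φ q, lab q⟩) ⟨hφ, h.φψ _ hq⟩ (h.pos _ hq) h1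

/-- **non-exact pairs of a weak leaf** -/
theorem leafW_T1 : ∃ C c0 : ℝ, 1 ≤ C ∧ 0 < c0 ∧ c0 ≤ 1/40 ∧
    ∀ (ε CB cB θ T η : ℝ) (Yb : ℝ → ℝ) (S : Finset ℕ) (ψ φ : ℕ → ℝ) (lab : ℕ → Option ℚ),
    0 < ε → ε ≤ 1/4 → 0 ≤ CB → 0 < cB → 2^50 ≤ T → 2^38 ≤ η^10 * T →
    (∀ t, T ≤ t → Yb t ≤ Real.exp (t^c0)) → LeafW T η θ S ψ φ lab →
    ClsB θ T CB cB Yb S S ψ ψ →
    ∑ q ∈ S, ∑ r ∈ S, T12 θ ψ φ lab q r ≤
      CP * (8 * (∑ q ∈ S, wt ψ q)^2 + CE ε * (2*T)^(2*ε) * (∑ q ∈ S, wt ψ q)^(1+2*ε)) +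
      CP * ∑ q ∈ S, wt ψ q +
      2 * CP * (C + CB) / (1 - 2^(-min (7/1000) cB)) * T^(-min (7/1000) cB) *
      (∑ q ∈ S, wt ψ q)^(1+2*eps1) := by
  classical
  obtain ⟨C, c0, hC1, hc0, hc40, hC⟩ := deep_pairs
  refine ⟨C, c0, hC1, hc0, hc40, ?_⟩
  intro ε CB cB θ T η Yb S ψ φ lab hε hε4 hCB hcB hT hTη hYb h hB
  have hT0 : 0 < T := lt_of_lt_of_le (by norm_num) hT
  have hT1 : 1 ≤ T := le_trans (by norm_num) hT
  have hH := h.t1hyp (le_trans (by norm_num) hT)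
  have key := hC CP CB cB θ T η Yb S S ψ φ ψ φ (fun e => T12 θ ψ φ lab e.1 e.2) CP_nonneg hCB hcB hT
    h.η0 h.η1 hTη hYb hH hB
  set M := ∑ q ∈ S, wt ψ q with hM
  have hM0 : 0 ≤ M := Finset.sum_nonneg fun v hv => wt_nonneg (h.ψ0 v hv).le
  have hMM : ∀ a : ℝ, (M * M)^(1/2 + a) = M^(1+2*a) := by
    intro a
    rw [← sq, ← Real.rpow_natCast M 2, ← Real.rpow_mul hM0]
    congr 1; push_cast; ring
  rw [hMM] at key
  -- split
  have hsum : ∑ q ∈ S, ∑ r ∈ S, T12 θ ψ φ lab q r = ∑ e ∈ S ×ˢ S, T12 θ ψ φ lab e.1 e.2 := by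
    rw [Finset.sum_product]
  rw [hsum, ← Finset.sum_filter_add_sum_filter_not (S ×ˢ S) (fun e => 1/T < DD ψ ψ e)]
  -- large `D`
  obtain ⟨J, hJ1, hJ2⟩ := exists_nat_pow_near hT1 (by norm_num : (1:ℝ) < 2)
  have b1 := lf4 (V := S) (W := S) (E := (S ×ˢ S).filter (fun e => 1/T < DD ψ ψ e)) hε hε4
    (fun q => ⟨θ, ψ q, φ q, lab q⟩) (fun q => ⟨θ, ψ q, φ q, lab q⟩)
    (fun q hq => ⟨h.pos q hq, lt_of_lt_of_le (mul_pos h.η0 (h.ψ0 _ hq)) (h.φ0 _ hq), h.φψ _ hq⟩)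
    (fun q hq => ⟨h.pos q hq, lt_of_lt_of_le (mul_pos h.η0 (h.ψ0 _ hq)) (h.φ0 _ hq), h.φψ _ hq⟩)
    (Finset.filter_subset _ _) (J+1) (by
      intro e he
      have h1 := (Finset.mem_filter.1 he).2
      have h2 : ((2:ℝ)^(J+1))⁻¹ ≤ 1/T := by
        rw [← one_div]; exact one_div_le_one_div_of_le hT0 hJ2.le
      exact h2.trans h1.le)
  have e1 : ∑ q ∈ S, mI ⟨θ, ψ q, φ q, lab q⟩ q = M := rfl
  simp only [e1] at b1
  rw [hMM] at b1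
  have b1' : ∑ e ∈ (S ×ˢ S).filter (fun e => 1/T < DD ψ ψ e), T12 θ ψ φ lab e.1 e.2 ≤
      CP * (8 * M^2 + CE ε * (2*T)^(2*ε) * M^(1+2*ε)) := by
    refine b1.trans (mul_le_mul_of_nonneg_left ?_ CP_nonneg)
    have hce := (CE_pos hε).le
    have h2 : ((2:ℝ)^(J+1))^(2*ε) ≤ (2*T)^(2*ε) := by
      apply Real.rpow_le_rpow (by positivity) _ (by linarith)
      rw [pow_succ]; linarith
    have h3 : CE ε * ((2:ℝ)^(J+1))^(2*ε) * M^(1+2*ε) ≤ CE ε * (2*T)^(2*ε) * M^(1+2*ε) :=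
      mul_le_mul_of_nonneg_right (mul_le_mul_of_nonneg_left h2 hce) (by positivity)
    have h4 : 8 * (M * M) = 8 * M^2 := by ring
    rw [h4]
    linarith
  -- small `D`
  have b2 : ∑ e ∈ (S ×ˢ S).filter (fun e => ¬ 1/T < DD ψ ψ e), T12 θ ψ φ lab e.1 e.2 ≤
      CP * M + 2 * CP * (C + CB) / (1 - 2^(-min (7/1000) cB)) * T^(-min (7/1000) cB) * M^(1+2*eps1) := by
    rw [← Finset.sum_filter_add_sum_filter_not ((S ×ˢ S).filter (fun e => ¬ 1/T < DD ψ ψ e))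
      (fun e => cof e.1 e.2 = cof e.2 e.1)]
    refine add_le_add ?_ ?_
    · -- diagonal
      rw [Finset.filter_filter]
      set G := (S ×ˢ S).filter (fun e => ¬ 1/T < DD ψ ψ e ∧ cof e.1 e.2 = cof e.2 e.1) with hG
      have hdiag : ∀ e ∈ G, e.1 ∈ S ∧ e.1 = e.2 ∧ ψ e.1 ≤ 1 := by
        intro e he
        obtain ⟨he1, he2, he3⟩ := Finset.mem_filter.1 he
        have hm := Finset.mem_product.1 he1
        refine ⟨hm.1, (cof_eq_iff (h.pos _ hm.1) (h.pos _ hm.2)).1 he3, ?_⟩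
        have hcy : (1:ℝ) ≤ cof e.2 e.1 := by
          exact_mod_cast Crest.Agent.R4.HVW560.cof_pos (h.pos _ hm.2)
        have h1 : ψ e.1 ≤ DD ψ ψ e := le_trans (le_mul_of_one_le_left (h.ψ0 _ hm.1).le hcy) (le_max_left _ _)
        have h2 : (1:ℝ)/T ≤ 1 := by rw [div_le_one hT0]; exact hT1
        linarith [not_lt.1 he2]
      calc ∑ e ∈ G, T12 θ ψ φ lab e.1 e.2 ≤ ∑ e ∈ G, CP * wt ψ e.1 := by
            refine Finset.sum_le_sum fun e he => ?_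
            obtain ⟨g1, g2, g3⟩ := hdiag e he
            rw [← g2]
            exact T12_diag_leW h g1 g3
        _ ≤ CP * ∑ q ∈ S, wt ψ q := by
            rw [← Finset.mul_sum]
            refine mul_le_mul_of_nonneg_left ?_ CP_nonneg
            have hinj : Set.InjOn (fun e : ℕ × ℕ => e.1) (G : Set (ℕ × ℕ)) := by
              intro e he e' he' hee
              have g1 := (hdiag e he).2.1
              have g2 := (hdiag e' he').2.1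
              exact Prod.ext hee (by rw [← g1, ← g2]; exact hee)
            rw [← Finset.sum_image (f := fun q => wt ψ q) (g := fun e : ℕ × ℕ => e.1) hinj]
            refine Finset.sum_le_sum_of_subset_of_nonneg ?_ (fun q hq _ => wt_nonneg (h.ψ0 q hq).le)
            intro q hq
            obtain ⟨e, he, rfl⟩ := Finset.mem_image.1 hq
            exact (hdiag e he).1
        _ = CP * M := rfl
    · refine le_trans (le_of_eq ?_) key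
      refine Finset.sum_congr ?_ (fun _ _ => rfl)
      rw [Finset.filter_filter]
      refine Finset.filter_congr fun e _ => ?_
      rw [not_lt]
      exact and_comm
  linarith

theorem leafWT' : ∃ c0 : ℝ, 0 < c0 ∧ c0 ≤ 1/40 ∧ ∀ ε : ℝ, 0 < ε → ε ≤ 1/4 → ∃ C : ℝ, 1 ≤ C ∧
    ∀ (CB cB θ T η : ℝ) (Yb : ℝ → ℝ) (S : Finset ℕ) (ψ φ : ℕ → ℝ) (lab : ℕ → Option ℚ),
    0 ≤ CB → 0 < cB → cB ≤ 7/1000 → 2^50 ≤ T → 2^38 ≤ η^10 * T →
    (∀ t, T ≤ t → Yb t ≤ Real.exp (t^c0)) → LeafW T η θ S ψ φ lab →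
    ClsB θ T CB cB Yb S S ψ ψ →
    ∑ q ∈ S, ∑ r ∈ S, T12 θ ψ φ lab q r ≤
      C * ((∑ q ∈ S, wt ψ q)^2 + T^(2*ε) * (∑ q ∈ S, wt ψ q)^(1+2*ε) +
        (1 + CB) / (1 - 2^(-cB)) * T^(-cB) * (∑ q ∈ S, wt ψ q)^(1+2*eps1) +
        ∑ q ∈ S, wt ψ q) := by
  obtain ⟨C, c0, hC1, hc0, hc40, hC⟩ := leafW_T1
  refine ⟨c0, hc0, hc40, fun ε hε hε4 => ?_⟩
  have hCP := CP_nonneg
  have hCE := (CE_pos hε).le
  set K : ℝ := 1 + 8 * CP + CP * CE ε * 2^(2*ε) + 2 * CP * C + CP with hK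
  have hK1 : 1 ≤ K := by
    have : 0 ≤ CP * CE ε * 2^(2*ε) := by positivity
    have : 0 ≤ 2 * CP * C := by positivity
    linarith
  refine ⟨K, hK1, ?_⟩
  intro CB cB θ T η Yb S ψ φ lab hCB hcB hcB7 hT hTη hYb h hB
  have h1 := hC ε CB cB θ T η Yb S ψ φ lab hε hε4 hCB hcB hT hTη hYb h hB
  rw [min_eq_right hcB7] at h1
  set M := ∑ q ∈ S, wt ψ q with hM
  have hM0 : 0 ≤ M := Finset.sum_nonneg fun v hv => wt_nonneg (h.ψ0 v hv).le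
  have hT0 : 0 < T := lt_of_lt_of_le (by norm_num) hT
  have h2c1 : (2:ℝ)^(-cB) < 1 := Real.rpow_lt_one_of_one_lt_of_neg (by norm_num) (by linarith)
  have hd : 0 < 1 - (2:ℝ)^(-cB) := by linarith
  set a := (1 + CB) / (1 - 2^(-cB)) * T^(-cB) * M^(1+2*eps1) with ha
  have ha0 : 0 ≤ a := by positivity
  set b := T^(2*ε) * M^(1+2*ε) with hb
  have hb0 : 0 ≤ b := by positivity
  have e1 : (2*T)^(2*ε) = 2^(2*ε) * T^(2*ε) := Real.mul_rpow (by norm_num) hT0.le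
  have t1 : CE ε * (2*T)^(2*ε) * M^(1+2*ε) = CE ε * 2^(2*ε) * b := by rw [e1, hb]; ring
  have t2 : 2 * CP * (C + CB) / (1 - 2^(-cB)) * T^(-cB) * M^(1+2*eps1) ≤ 2 * CP * C * a := by
    have h6 : C + CB ≤ C * (1 + CB) := by nlinarith
    have e2 : 2 * CP * (C + CB) / (1 - 2^(-cB)) * T^(-cB) * M^(1+2*eps1) =
        (2 * CP / (1 - 2^(-cB)) * T^(-cB) * M^(1+2*eps1)) * (C + CB) := by ring
    have e3 : 2 * CP * C * a = (2 * CP / (1 - 2^(-cB)) * T^(-cB) * M^(1+2*eps1)) * (C * (1 + CB)) := by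
      rw [ha]; ring
    rw [e2, e3]
    exact mul_le_mul_of_nonneg_left h6 (by positivity)
  have hM2 : 0 ≤ M^2 := by positivity
  rw [t1] at h1
  have hs : ∑ q ∈ S, ∑ r ∈ S, T12 θ ψ φ lab q r ≤ (CP * (8 * M^2 + CE ε * 2^(2*ε) * b) +
      CP * M + 2 * CP * C * a) := by linarith
  refine hs.trans ?_
  have hp1 : 0 ≤ CP * CE ε * 2^(2*ε) := by positivity
  have hp2 : 0 ≤ 2 * CP * C := by positivity
  have g1 : 8 * CP * M^2 ≤ K * M^2 := mul_le_mul_of_nonneg_right (by linarith) hM2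
  have g2 : CP * CE ε * 2^(2*ε) * b ≤ K * b := mul_le_mul_of_nonneg_right (by linarith) hb0
  have g3 : 2 * CP * C * a ≤ K * a := mul_le_mul_of_nonneg_right (by linarith) ha0
  have g4 : CP * M ≤ K * M := mul_le_mul_of_nonneg_right (by linarith) hM0
  calc _ = (8 * CP * M^2 + CP * CE ε * 2^(2*ε) * b) + CP * M + 2 * CP * C * a := by ring
    _ ≤ K * (M^2 + b + a + M) := by linarith

/-- the same for tame leaves; neither `c0` depends on `ε`, nor `C` on `c1` -/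
theorem leafW_tame : ∃ c0 : ℝ, 0 < c0 ∧ ∀ ε : ℝ, 0 < ε → ε ≤ 1/4 → ∃ C : ℝ, 1 ≤ C ∧
    ∀ c1 : ℝ, 0 < c1 → c1 ≤ c0 → ∃ T0 : ℝ, 2^50 ≤ T0 ∧
    ∀ (θ T η X : ℝ) (S : Finset ℕ) (ψ φ : ℕ → ℝ) (lab : ℕ → Option ℚ) (G : ℕ),
    T0 ≤ T → 2^38 ≤ η^10 * T → X ≤ Real.exp (T^c1) → LeafW T η θ S ψ φ lab → 0 < G → XTame X G S →
    ∑ q ∈ S, ∑ r ∈ S, T12 θ ψ φ lab q r ≤
      C * ((∑ q ∈ S, wt ψ q)^2 + T^(2*ε) * (∑ q ∈ S, wt ψ q)^(1+2*ε) +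
        T^(-(6/1000):ℝ) * (∑ q ∈ S, wt ψ q)^(1+2*eps1) + ∑ q ∈ S, wt ψ q) := by
  obtain ⟨c0, hc0, -, hC'⟩ := leafWT'
  obtain ⟨CB, cb, hCB1, hcb, hB⟩ := clsB
  set r : ℝ := (1 + CB) / (1 - 2^(-(6/1000):ℝ)) with hr
  have hd : (0:ℝ) < 1 - 2^(-(6/1000):ℝ) := by
    have : (2:ℝ)^(-(6/1000):ℝ) < 1 := Real.rpow_lt_one_of_one_lt_of_neg (by norm_num) (by norm_num)
    linarith
  have hd1 : (1:ℝ) - 2^(-(6/1000):ℝ) ≤ 1 := by
    have : (0:ℝ) < 2^(-(6/1000):ℝ) := by positivity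
    linarith
  have hr1 : 1 ≤ r := by
    rw [hr, le_div_iff₀ hd]; linarith
  refine ⟨min cb (c0/3), lt_min hcb (by positivity), fun ε hε hε4 => ?_⟩
  obtain ⟨C, hC1, hC⟩ := hC' ε hε hε4
  refine ⟨C * r, by nlinarith, fun c1 hc1 hc10 => ?_⟩
  obtain ⟨T0, hT0⟩ := hB c1 hc1 (hc10.trans (min_le_left _ _))
  have hc13 : 3 * c1 ≤ c0 := by
    have := hc10.trans (min_le_right _ _)
    linarith
  refine ⟨max (2^50) T0, le_max_left _ _, ?_⟩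
  intro θ T η X S ψ φ lab G hT hTη hX h hG htame
  have hT50 : 2^50 ≤ T := (le_max_left _ _).trans hT
  have hT0' : 0 < T := lt_of_lt_of_le (by norm_num) hT50
  have hcls := hT0 θ T X S S ψ ψ G ((le_max_right _ _).trans hT) hT0' hX hG htame htame
  have key := hC CB (6/1000) θ T η (fun t => Real.exp (t^(3*c1))) S ψ φ lab (by linarith)
    (by norm_num) (by norm_num) hT50 hTη (by
      intro t ht
      refine Real.exp_le_exp.2 (Real.rpow_le_rpow_of_exponent_le ?_ hc13)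
      exact le_trans (by norm_num) (hT50.trans ht)) h hcls
  have hM0 : 0 ≤ ∑ q ∈ S, wt ψ q := Finset.sum_nonneg fun v hv => wt_nonneg (h.ψ0 v hv).le
  set M := ∑ q ∈ S, wt ψ q with hM
  refine key.trans ?_
  rw [← hr]
  have g1 : M^2 ≤ r * M^2 := le_mul_of_one_le_left (by positivity) hr1
  have g2 : T^(2*ε) * M^(1+2*ε) ≤ r * (T^(2*ε) * M^(1+2*ε)) := le_mul_of_one_le_left (by positivity) hr1
  have g3 : M ≤ r * M := le_mul_of_one_le_left hM0 hr1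
  have e1 : (-(6/1000:ℝ)) = -(6/1000) := rfl
  calc C * (M^2 + T^(2*ε) * M^(1+2*ε) + r * T^(-(6/1000):ℝ) * M^(1+2*eps1) + M)
      ≤ C * (r * M^2 + r * (T^(2*ε) * M^(1+2*ε)) + r * T^(-(6/1000):ℝ) * M^(1+2*eps1) +
        r * M) := by
        apply mul_le_mul_of_nonneg_left _ (by linarith)
        linarith
    _ = _ := by ring

/-- **the total energy of a weak leaf** -/
theorem leafW : ∃ c0 : ℝ, 0 < c0 ∧ ∀ ε : ℝ, 0 < ε → ε ≤ 1/4 → ∃ C : ℝ, 1 ≤ C ∧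
    ∀ c1 : ℝ, 0 < c1 → c1 ≤ c0 → ∃ T0 : ℝ, 2^50 ≤ T0 ∧
    ∀ (θ T η X : ℝ) (S : Finset ℕ) (ψ φ : ℕ → ℝ) (lab : ℕ → Option ℚ) (G : ℕ),
    T0 ≤ T → 2^38 ≤ η^10 * T → X ≤ Real.exp (T^c1) → LeafW T η θ S ψ φ lab → 0 < G → XTame X G S →
    I (fun x => FS θ S ψ φ lab x ^ 2) ≤ ∑ q ∈ S, ∑ r ∈ S, T02 θ ψ φ lab q r +
      C * ((∑ q ∈ S, wt ψ q)^2 + T^(2*ε) * (∑ q ∈ S, wt ψ q)^(1+2*ε) +
        T^(-(6/1000):ℝ) * (∑ q ∈ S, wt ψ q)^(1+2*eps1) + ∑ q ∈ S, wt ψ q) := by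
  obtain ⟨c0, hc0, hH⟩ := leafW_tame
  refine ⟨c0, hc0, fun ε hε hε4 => ?_⟩
  obtain ⟨C, hC1, hC⟩ := hH ε hε hε4
  refine ⟨C, hC1, fun c1 hc1 hc10 => ?_⟩
  obtain ⟨T0, hT0, hT⟩ := hC c1 hc1 hc10
  refine ⟨T0, hT0, ?_⟩
  intro θ T η X S ψ φ lab G h1 h2 h3 h4 h5 h6
  have key := hT θ T η X S ψ φ lab G h1 h2 h3 h4 h5 h6
  have h7 := I_FS_sq (θ := θ) φ lab h4.pos h4.ψ0
  linarith

/-! ### exact worlds -/

/-- `T02` as a sum over the exact determinants -/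
lemma T02_eq {θ : ℝ} {ψ φ : ℕ → ℝ} {lab : ℕ → Option ℚ} {q r : ℕ} (hq : 0 < q) (hr : 0 < r)
    (ha : 0 < ψ q) [DecidablePred (ExN lab q r)] :
    T02 θ ψ φ lab q r = 2 * min (ψ q / (q : ℝ)) (ψ r / (r : ℝ)) *
      ∑ n ∈ (Wn θ ψ q r).filter (ExN lab q r),
        ((Nat.gcd q r : ℝ) * ∏ p ∈ q.primeFactors ∪ r.primeFactors,
          lf q.primeFactors r.primeFactors (uw θ (φ q) (lab q)) (uw θ (φ r) (lab r))
            (cof q r) (cof r q) (n * bA (cof q r) (cof r q)) (n * bB (cof q r) (cof r q)) p) := by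
  classical
  set x := cof q r with hx
  set y := cof r q with hy
  set g := Nat.gcd q r with hg
  have hxp : 0 < x := HVW560.cof_pos hq
  have hyp : 0 < y := HVW560.cof_pos hr
  have hgp : 0 < g := Nat.gcd_pos_of_pos_left _ hq
  have hgx : g * x = q := LF363.gcd_mul_cof q r
  have hgy : g * y = r := LF363.gcd_mul_cof' q r
  have hxr : (0 : ℝ) < x := by exact_mod_cast hxp
  have hyr : (0 : ℝ) < y := by exact_mod_cast hyp
  have hgr : (0 : ℝ) < g := by exact_mod_cast hgp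
  have hD : 0 < Dq ψ q r := lt_max_of_lt_left (mul_pos hyr ha)
  have e1 : 2 * min (ψ q / (q : ℝ)) (ψ r / (r : ℝ)) * g = 2 * ψ q * ψ r / Dq ψ q r := by
    have e2 := Crest.Agent.R4.Ovl560.min_mul_max (r := ψ q) (r' := ψ r) hgr hxr hyr (by
      rw [max_comm]; exact hD)
    have e3 : (q : ℝ) = g * x := by rw [← hgx]; push_cast; ring
    have e4 : (r : ℝ) = g * y := by rw [← hgy]; push_cast; ring
    rw [e3, e4, e2]
    unfold Dq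
    rw [max_comm]
  rw [← Finset.mul_sum, ← mul_assoc, e1, Finset.mul_sum]
  unfold T02
  refine Finset.sum_congr ?_ fun n _ => rfl
  ext n
  simp only [Finset.mem_filter]

/-- **pair lemma for exact worlds**: `Rel` = pairs of pieces in the same world; two overlapping
pieces of one world have exactly the same snapped centre. -/
theorem exact_pair {ι ι' : Type*} (Rel : Finset (ι × ι')) {θ : ℝ} {ψ φ : ℕ → ℝ}
    {lab : ℕ → Option ℚ} {q r : ℕ} (hq : 0 < q) (hr : 0 < r) (hψ : 0 < ψ q) (hψ' : 0 < ψ r)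
    {σ τ : ℚ} (hσ : lab q = some σ) (hτ : lab r = some τ)
    (α β : ι → ℝ) (α' β' : ι' → ℝ)
    (hα : ∀ e ∈ Rel, -ψ q ≤ α e.1 ∧ β e.1 ≤ ψ q) (hα' : ∀ e ∈ Rel, -ψ r ≤ α' e.2 ∧ β' e.2 ≤ ψ r)
    (hdis : ∀ s s' : ℝ, ∀ e ∈ Rel, ∀ f ∈ Rel, (α e.1 ≤ s ∧ s < β e.1) →
      (α' e.2 ≤ s' ∧ s' < β' e.2) → (α f.1 ≤ s ∧ s < β f.1) → (α' f.2 ≤ s' ∧ s' < β' f.2) → e = f)
    (hW : ∀ e ∈ Rel, ∀ (m n : ℤ) (t : ℝ),
      (α e.1 ≤ (q : ℝ) * t - θ - m ∧ (q : ℝ) * t - θ - m < β e.1) →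
      (α' e.2 ≤ (r : ℝ) * t - θ - n ∧ (r : ℝ) * t - θ - n < β' e.2) →
      ((m : ℝ) + σ) / q = (n + τ) / r) :
    ∑ e ∈ Rel, I (fun t =>
        pc θ (α e.1) (β e.1) q (nw q.primeFactors (uw θ (φ q) (lab q))) t *
        pc θ (α' e.2) (β' e.2) r (nw r.primeFactors (uw θ (φ r) (lab r))) t) ≤
      T02 θ ψ φ lab q r := by
  classical
  rw [T02_eq hq hr hψ]
  set x := cof q r with hx
  set y := cof r q with hy
  set g := Nat.gcd q r with hg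
  have hxp : 0 < x := HVW560.cof_pos hq
  have hyp : 0 < y := HVW560.cof_pos hr
  have hgp : 0 < g := Nat.gcd_pos_of_pos_left _ hq
  have hxy : Nat.Coprime x y := HVW560.cof_coprime hq
  have hgx : g * x = q := LF363.gcd_mul_cof q r
  have hgy : g * y = r := LF363.gcd_mul_cof' q r
  have hxr : (0 : ℝ) < x := by exact_mod_cast hxp
  have hyr : (0 : ℝ) < y := by exact_mod_cast hyp
  have hgr : (0 : ℝ) < g := by exact_mod_cast hgp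
  have e3 : (q : ℝ) = g * x := by rw [← hgx]; push_cast; ring
  have e4 : (r : ℝ) = g * y := by rw [← hgy]; push_cast; ring
  have key := world_pair Rel (u := uw θ (φ q) (lab q)) (v := uw θ (φ r) (lab r))
    (LW_uw θ (φ q) (lab q) q) (LW_uw θ (φ r) (lab r) r)
    (fun _ hp => Nat.prime_of_mem_primeFactors hp) (fun _ hp => Nat.prime_of_mem_primeFactors hp)
    hgp hxp hyp hxy (fun p hp => by rw [hgx]; exact Nat.dvd_of_mem_primeFactors hp)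
    (fun p hp => by rw [hgy]; exact Nat.dvd_of_mem_primeFactors hp) θ θ (ψ q) (ψ r) hψ.le hψ'.le
    (fun n => n * bA x y) (fun n => n * bB x y) (bez hxy) α β α' β' hα hα' hdis
    ((Wn θ ψ q r).filter (ExN lab q r))
  rw [hgx, hgy] at key
  refine key ?_
  intro e he m n t h1 h2
  rw [Finset.mem_filter]
  constructor
  · -- the determinant is in the window
    unfold Wn
    rw [mem_win, ← hx, ← hy]
    have a1 := hα e he
    have a2 := hα' e he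
    set z := (q : ℝ) * t - θ - m with hz
    set z' := (r : ℝ) * t - θ - n with hz'
    have e5 : ((m * (y : ℤ) - n * (x : ℤ) : ℤ) : ℝ) - (x * θ - y * θ) = x * z' - y * z := by
      rw [hz, hz', e3, e4]; push_cast; ring
    rw [e5, abs_lt]
    have b1 : -ψ q ≤ z := a1.1.trans h1.1
    have b2 : z < ψ q := lt_of_lt_of_le h1.2 a1.2
    have b3 : -ψ r ≤ z' := a2.1.trans h2.1
    have b4 : z' < ψ r := lt_of_lt_of_le h2.2 a2.2
    have c1 : (x:ℝ) * z' < x * ψ r := mul_lt_mul_of_pos_left b4 hxr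
    have c2 : (y:ℝ) * z < y * ψ q := mul_lt_mul_of_pos_left b2 hyr
    have c3 : (x:ℝ) * (-ψ r) ≤ x * z' := mul_le_mul_of_nonneg_left b3 hxr.le
    have c4 : (y:ℝ) * (-ψ q) ≤ y * z := mul_le_mul_of_nonneg_left b1 hyr.le
    constructor <;> linarith
  · -- it is exact
    have h3 := hW e he m n t h1 h2
    refine ⟨σ, τ, hσ, hτ, ?_⟩
    rw [e3, e4, div_eq_div_iff (by positivity) (by positivity)] at h3
    have h4 : ((m : ℝ) + σ) * y = (n + τ) * x := by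
      have : g * (((m : ℝ) + σ) * y) = g * ((n + τ) * x) := by linarith
      exact mul_left_cancel₀ hgr.ne' this
    have h5 : (((m * (y : ℤ) - n * (x : ℤ) : ℤ) : ℚ) : ℝ) = ((τ * x - σ * y : ℚ) : ℝ) := by
      push_cast
      linarith
    exact_mod_cast h5

/-- **in-world energy of labelled items** (exact worlds, ARBITRARY labels): at most `∑ T02`. -/
theorem inL_exact {θ : ℝ} {S : Finset ℕ} {ψ φ : ℕ → ℝ} {lab : ℕ → Option ℚ}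
    {ι ω : Type*} [DecidableEq ω] (Ks : Finset ι) (α β : ℕ → ι → ℝ) (rr : ℕ → ι → ω)
    (hS : ∀ q ∈ S, 0 < q) (hψ : ∀ q ∈ S, 0 < ψ q) (hlab : ∀ q ∈ S, lab q ≠ none)
    (hα : ∀ q ∈ S, ∀ k ∈ Ks, -ψ q ≤ α q k ∧ β q k ≤ ψ q)
    (hdis : ∀ q ∈ S, ∀ k ∈ Ks, ∀ k' ∈ Ks, ∀ s : ℝ, α q k ≤ s → s < β q k → α q k' ≤ s →
      s < β q k' → k = k')
    (hW : ∀ q ∈ S, ∀ r ∈ S, ∀ k ∈ Ks, ∀ k' ∈ Ks, rr q k = rr r k' → ∀ (m n : ℤ) (t : ℝ),
      (α q k ≤ (q : ℝ) * t - θ - m ∧ (q : ℝ) * t - θ - m < β q k) →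
      (α r k' ≤ (r : ℝ) * t - θ - n ∧ (r : ℝ) * t - θ - n < β r k') →
      ∀ σ τ : ℚ, lab q = some σ → lab r = some τ → ((m : ℝ) + σ) / q = (n + τ) / r) :
    ∑ q ∈ S, ∑ r ∈ S, ∑ e ∈ (Ks ×ˢ Ks).filter (fun e => rr q e.1 = rr r e.2), I (fun t =>
        pc θ (α q e.1) (β q e.1) q (nw q.primeFactors (uw θ (φ q) (lab q))) t *
        pc θ (α r e.2) (β r e.2) r (nw r.primeFactors (uw θ (φ r) (lab r))) t) ≤
      ∑ q ∈ S, ∑ r ∈ S, T02 θ ψ φ lab q r := by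
  refine Finset.sum_le_sum fun q hq => Finset.sum_le_sum fun r hr => ?_
  obtain ⟨σ, hσ⟩ := Option.ne_none_iff_exists'.1 (hlab q hq)
  obtain ⟨τ, hτ⟩ := Option.ne_none_iff_exists'.1 (hlab r hr)
  refine exact_pair _ (hS q hq) (hS r hr) (hψ q hq) (hψ r hr) hσ hτ (α q) (β q) (α r) (β r)
    (fun e he => ?_) (fun e he => ?_) (fun s s' e he f hf h1 h2 h3 h4 => ?_)
    (fun e he m n t h1 h2 => ?_)
  · exact hα q hq e.1 (Finset.mem_product.1 (Finset.mem_filter.1 he).1).1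
  · exact hα r hr e.2 (Finset.mem_product.1 (Finset.mem_filter.1 he).1).2
  · have he' := Finset.mem_product.1 (Finset.mem_filter.1 he).1
    have hf' := Finset.mem_product.1 (Finset.mem_filter.1 hf).1
    exact Prod.ext (hdis q hq _ he'.1 _ hf'.1 s h1.1 h1.2 h3.1 h3.2)
      (hdis r hr _ he'.2 _ hf'.2 s' h2.1 h2.2 h4.1 h4.2)
  · have he' := Finset.mem_product.1 (Finset.mem_filter.1 he).1
    exact hW q hq r hr e.1 he'.1 e.2 he'.2 (Finset.mem_filter.1 he).2 m n t h1 h2 σ τ hσ hτ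

/-- **in-world energy of labelled items with current labels** (several labels allowed): `≤ C · mass` -/
theorem inL_current : ∃ C : ℝ, 0 < C ∧ ∀ (θ : ℝ) (S : Finset ℕ) (ψ : ℕ → ℝ)
    (lab : ℕ → Option ℚ) (ι ω : Type) [DecidableEq ω] (Ks : Finset ι) (α β : ℕ → ι → ℝ)
    (rr : ℕ → ι → ω), (∀ q ∈ S, 0 < q) → (∀ q ∈ S, 0 < ψ q) → (∀ q ∈ S, lab q ≠ none) →
    (∀ q ∈ S, ∀ ρ, lab q = some ρ → Lab θ (ψ q) ρ) →
    (∀ q ∈ S, ∀ k ∈ Ks, -ψ q ≤ α q k ∧ β q k ≤ ψ q) →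
    (∀ q ∈ S, ∀ k ∈ Ks, ∀ k' ∈ Ks, ∀ s : ℝ, α q k ≤ s → s < β q k → α q k' ≤ s →
      s < β q k' → k = k') →
    (∀ q ∈ S, ∀ r ∈ S, ∀ k ∈ Ks, ∀ k' ∈ Ks, rr q k = rr r k' → ∀ (m n : ℤ) (t : ℝ),
      (α q k ≤ (q : ℝ) * t - θ - m ∧ (q : ℝ) * t - θ - m < β q k) →
      (α r k' ≤ (r : ℝ) * t - θ - n ∧ (r : ℝ) * t - θ - n < β r k') →
      ∀ σ τ : ℚ, lab q = some σ → lab r = some τ → ((m : ℝ) + σ) / q = (n + τ) / r) →
    ∑ q ∈ S, ∑ r ∈ S, ∑ e ∈ (Ks ×ˢ Ks).filter (fun e => rr q e.1 = rr r e.2), I (fun t =>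
        pc θ (α q e.1) (β q e.1) q (nw q.primeFactors (uw θ (ψ q) (lab q))) t *
        pc θ (α r e.2) (β r e.2) r (nw r.primeFactors (uw θ (ψ r) (lab r))) t) ≤
      C * ∑ q ∈ S, wt ψ q := by
  obtain ⟨C, hC, h⟩ := exact_sum_le
  refine ⟨C, hC, ?_⟩
  intro θ S ψ lab ι ω _ Ks α β rr hS hψ hne hlab hα hdis hW
  refine (inL_exact (φ := ψ) Ks α β rr hS hψ hne hα hdis hW).trans ?_
  rw [T02_self]
  exact h θ S ψ lab hS hψ hlab

end Crest.Agent.R4.LeafWk363
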