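import Crest.Agent.R4.LeafU368
import Crest.Agent.R4.LeafWk363
import Crest.Agent.R4.Tag944

/-!
R4 (S0004), helper363: module J, in-world energy of the LABELLED items of a leaf (exact worlds W*),
in the form of `Frame758.LeafI`.

* `exact_pair_U` : pair lemma for exact worlds, common retained part `u`.
* `leafL_pieces` : one retained class: energy `≤ ∑ T02` (arbitrary labels, no tameness).
* `leafI_L`, `leafI_L'` : the form of `Frame758.LeafI` restricted to a set of labelled pieces.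
* `ExB_current` : current labels: `∑ T02 ≤ C ∑ wt`, `C` absolute.
* `exact_circle`, `exact_leaf` : same world ⇒ exactly the same snapped centre on the circle of the leaf.
-/

set_option autoImplicit false
open Finset MeasureTheory

namespace Crest.Agent.R4.LeafL363

open Crest.Agent.R4.Ovl560 Crest.Agent.R4.Piece464
open Crest.Agent.R4.HVW560 Crest.Agent.R4.LF765 Crest.Agent.R4.ClsS Crest.Agent.R4.ClsB
open Crest.Agent.R4.LF363 Crest.Agent.R4.LF11 Crest.Agent.R4.LFA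
open Crest.Agent.R4.LF4 hiding DD
open Crest.Agent.R4.LF12 Crest.Agent.R4.AnnLeaf368 Crest.Agent.R4.LeafWk363
open Crest.Agent.R4.Tour104 (I PB)

/-- **pair lemma for exact worlds, common retained part `u`**: moduli `u q`, `u r`, the weights live
on the primes of `q`, `r` only. -/
theorem exact_pair_U {ι ι' : Type*} (Rel : Finset (ι × ι')) {θ : ℝ} {ψ φ : ℕ → ℝ}
    {lab : ℕ → Option ℚ} {u q r : ℕ} (hu : 0 < u) (hq : 0 < q) (hr : 0 < r) (hψ : 0 < ψ q)
    (hψ' : 0 < ψ r) {σ τ : ℚ} (hσ : lab q = some σ) (hτ : lab r = some τ)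
    (α β : ι → ℝ) (α' β' : ι' → ℝ)
    (hα : ∀ e ∈ Rel, -ψ q ≤ α e.1 ∧ β e.1 ≤ ψ q) (hα' : ∀ e ∈ Rel, -ψ r ≤ α' e.2 ∧ β' e.2 ≤ ψ r)
    (hdis : ∀ s s' : ℝ, ∀ e ∈ Rel, ∀ f ∈ Rel, (α e.1 ≤ s ∧ s < β e.1) →
      (α' e.2 ≤ s' ∧ s' < β' e.2) → (α f.1 ≤ s ∧ s < β f.1) → (α' f.2 ≤ s' ∧ s' < β' f.2) → e = f)
    (hW : ∀ e ∈ Rel, ∀ (m n : ℤ) (t : ℝ),
      (α e.1 ≤ ((u * q : ℕ) : ℝ) * t - θ - m ∧ ((u * q : ℕ) : ℝ) * t - θ - m < β e.1) →
      (α' e.2 ≤ ((u * r : ℕ) : ℝ) * t - θ - n ∧ ((u * r : ℕ) : ℝ) * t - θ - n < β' e.2) →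
      ((m : ℝ) + σ) / q = (n + τ) / r) :
    ∑ e ∈ Rel, I (fun t =>
        pc θ (α e.1) (β e.1) (u * q) (nw q.primeFactors (uw θ (φ q) (lab q))) t *
        pc θ (α' e.2) (β' e.2) (u * r) (nw r.primeFactors (uw θ (φ r) (lab r))) t) ≤
      T02 θ ψ φ lab q r := by
  classical
  rw [T02_eq hq hr hψ]
  set x := cof q r with hx
  set y := cof r q with hy
  set g := Nat.gcd q r with hg
  have hxp : 0 < x := HVW560.cof_pos hq
  have hyp : 0 < y := HVW560.cof_pos hr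
  have hgp : 0 < g := Nat.gcd_pos_of_pos_left _ hq
  have hxy : Nat.Coprime x y := HVW560.cof_coprime hq
  have hgx : g * x = q := LF363.gcd_mul_cof q r
  have hgy : g * y = r := LF363.gcd_mul_cof' q r
  have hugx : u * g * x = u * q := by rw [mul_assoc, hgx]
  have hugy : u * g * y = u * r := by rw [mul_assoc, hgy]
  have hxr : (0 : ℝ) < x := by exact_mod_cast hxp
  have hyr : (0 : ℝ) < y := by exact_mod_cast hyp
  have hgr : (0 : ℝ) < g := by exact_mod_cast hgp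
  have hur : (0 : ℝ) < u := by exact_mod_cast hu
  have hqr : (0 : ℝ) < q := by exact_mod_cast hq
  have hrr : (0 : ℝ) < r := by exact_mod_cast hr
  have e3 : (q : ℝ) = g * x := by rw [← hgx]; push_cast; ring
  have e4 : (r : ℝ) = g * y := by rw [← hgy]; push_cast; ring
  have key := world_pair Rel (u := uw θ (φ q) (lab q)) (v := uw θ (φ r) (lab r))
    (LW_uw θ (φ q) (lab q) q) (LW_uw θ (φ r) (lab r) r)
    (fun _ hp => Nat.prime_of_mem_primeFactors hp) (fun _ hp => Nat.prime_of_mem_primeFactors hp)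
    (Nat.mul_pos hu hgp) hxp hyp hxy
    (fun p hp => by rw [hugx]; exact (Nat.dvd_of_mem_primeFactors hp).mul_left u)
    (fun p hp => by rw [hugy]; exact (Nat.dvd_of_mem_primeFactors hp).mul_left u)
    θ θ (ψ q) (ψ r) hψ.le hψ'.le
    (fun n => n * bA x y) (fun n => n * bB x y) (bez hxy) α β α' β' hα hα' hdis
    ((Wn θ ψ q r).filter (ExN lab q r))
  rw [hugx, hugy] at key
  refine (key ?_).trans (le_of_eq ?_)
  · intro e he m n t h1 h2
    rw [Finset.mem_filter]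
    constructor
    · -- the determinant is in the window
      unfold Wn
      rw [mem_win, ← hx, ← hy]
      have a1 := hα e he
      have a2 := hα' e he
      set z := ((u * q : ℕ) : ℝ) * t - θ - m with hz
      set z' := ((u * r : ℕ) : ℝ) * t - θ - n with hz'
      have e5 : ((m * (y : ℤ) - n * (x : ℤ) : ℤ) : ℝ) - (x * θ - y * θ) = x * z' - y * z := by
        rw [hz, hz']; push_cast; rw [e3, e4]; ring
      rw [e5, abs_lt]
      have b1 : -ψ q ≤ z := a1.1.trans h1.1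
      have b2 : z < ψ q := lt_of_lt_of_le h1.2 a1.2
      have b3 : -ψ r ≤ z' := a2.1.trans h2.1
      have b4 : z' < ψ r := lt_of_lt_of_le h2.2 a2.2
      have c1 : (x:ℝ) * z' < x * ψ r := mul_lt_mul_of_pos_left b4 hxr
      have c2 : (y:ℝ) * z < y * ψ q := mul_lt_mul_of_pos_left b2 hyr
      have c3 : (x:ℝ) * (-ψ r) ≤ x * z' := mul_le_mul_of_nonneg_left b3 hxr.le
      have c4 : (y:ℝ) * (-ψ q) ≤ y * z := mul_le_mul_of_nonneg_left b1 hyr.le
      constructor <;> linarith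
    · -- it is exact
      have h3 := hW e he m n t h1 h2
      refine ⟨σ, τ, hσ, hτ, ?_⟩
      rw [e3, e4, div_eq_div_iff (by positivity) (by positivity)] at h3
      have h4 : ((m : ℝ) + σ) * y = (n + τ) * x := by
        have : g * (((m : ℝ) + σ) * y) = g * ((n + τ) * x) := by linarith
        exact mul_left_cancel₀ hgr.ne' this
      have h5 : (((m * (y : ℤ) - n * (x : ℤ) : ℤ) : ℚ) : ℝ) = ((τ * x - σ * y : ℚ) : ℝ) := by
        push_cast
        linarith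
      exact_mod_cast h5
  · have e6 : min (ψ q / ((u * q : ℕ) : ℝ)) (ψ r / ((u * r : ℕ) : ℝ)) =
        (u : ℝ)⁻¹ * min (ψ q / q) (ψ r / r) := by
      rw [mul_min_of_nonneg _ _ (inv_nonneg.2 hur.le)]
      push_cast
      congr 1 <;> field_simp
    rw [e6, Finset.mul_sum, Finset.mul_sum]
    refine Finset.sum_congr rfl fun n _ => ?_
    push_cast
    field_simp

/-- **in-world energy of one retained class**: labelled pieces (ARBITRARY labels), exact worlds -/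
theorem leafL_pieces {θ : ℝ} {S : Finset ℕ} {ψ φ : ℕ → ℝ} {lab : ℕ → Option ℚ} {u : ℕ}
    {Λ ω : Type*} [DecidableEq Λ] [DecidableEq ω] (J : Finset Λ) (w : Λ → ℕ) (al be : Λ → ℝ)
    (om : Λ → ℤ → ℝ) (rr : Λ → ω)
    (hu : 0 < u) (hS : ∀ q ∈ S, 0 < q) (hψ : ∀ q ∈ S, 0 < ψ q) (hlab : ∀ q ∈ S, lab q ≠ none)
    (hwS : ∀ j ∈ J, w j ∈ S)
    (hwin : ∀ j ∈ J, -ψ (w j) ≤ al j ∧ be j ≤ ψ (w j))
    (hdis : ∀ j ∈ J, ∀ j' ∈ J, w j = w j' → ∀ s : ℝ, al j ≤ s → s < be j → al j' ≤ s → s < be j' →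
      j = j')
    (hWt : ∀ j ∈ J, Wt (u * w j) (om j))
    (hom : ∀ j ∈ J, ∀ a, om j a ≤ nw (w j).primeFactors (uw θ (φ (w j)) (lab (w j))) a)
    (hW : ∀ j ∈ J, ∀ j' ∈ J, rr j = rr j' → ∀ (m n : ℤ) (t : ℝ),
      (al j ≤ ((u * w j : ℕ) : ℝ) * t - θ - m ∧ ((u * w j : ℕ) : ℝ) * t - θ - m < be j) →
      (al j' ≤ ((u * w j' : ℕ) : ℝ) * t - θ - n ∧ ((u * w j' : ℕ) : ℝ) * t - θ - n < be j') →
      ∀ σ τ : ℚ, lab (w j) = some σ → lab (w j') = some τ →
      ((m : ℝ) + σ) / (w j) = (n + τ) / (w j')) :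
    ∑ j ∈ J, ∑ j' ∈ J.filter (fun j' => rr j = rr j'), I (fun t =>
        pc θ (al j) (be j) (u * w j) (om j) t * pc θ (al j') (be j') (u * w j') (om j') t) ≤
      ∑ q ∈ S, ∑ r ∈ S, T02 θ ψ φ lab q r := by
  have hPB : ∀ j ∈ J, PB (pc θ (al j) (be j) (u * w j) (om j)) := fun j hj =>
    PB_pc (Nat.mul_pos hu (hS _ (hwS j hj))) (hWt j hj)
  have hWn : ∀ j ∈ J, Wt (u * w j) (nw (w j).primeFactors (uw θ (φ (w j)) (lab (w j)))) :=
    fun j _ => Wt_nw (LW_uw _ _ _ _) fun l hl => (Nat.dvd_of_mem_primeFactors hl).mul_left u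
  have hPB' : ∀ j ∈ J, PB (pc θ (al j) (be j) (u * w j)
      (nw (w j).primeFactors (uw θ (φ (w j)) (lab (w j))))) := fun j hj =>
    PB_pc (Nat.mul_pos hu (hS _ (hwS j hj))) (hWn j hj)
  have hmono : ∑ j ∈ J, ∑ j' ∈ J.filter (fun j' => rr j = rr j'), I (fun t =>
        pc θ (al j) (be j) (u * w j) (om j) t * pc θ (al j') (be j') (u * w j') (om j') t) ≤
      ∑ j ∈ J, ∑ j' ∈ J.filter (fun j' => rr j = rr j'), I (fun t =>
        pc θ (al j) (be j) (u * w j)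
          (nw (w j).primeFactors (uw θ (φ (w j)) (lab (w j)))) t *
        pc θ (al j') (be j') (u * w j')
          (nw (w j').primeFactors (uw θ (φ (w j')) (lab (w j')))) t) := by
    refine Finset.sum_le_sum fun j hj => Finset.sum_le_sum fun j' hj' => ?_
    have hj'' := (Finset.mem_filter.1 hj').1
    refine Crest.Agent.R4.Tour104.I_mono ((hPB j hj).mul (hPB j' hj'')).integrableOn
      ((hPB' j hj).mul (hPB' j' hj'')).integrableOn fun t => ?_
    exact mul_le_mul (pc_mono (hom j hj) t) (pc_mono (hom j' hj'') t)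
      (pc_nonneg (hWt j' hj'') t) (pc_nonneg (hWn j hj) t)
  refine hmono.trans ?_
  rw [LeafU368.sum_group J w rr _ hwS]
  refine Finset.sum_le_sum fun q hq => Finset.sum_le_sum fun r hr => ?_
  have hmem : ∀ e ∈ ((J.filter (fun j => w j = q)) ×ˢ
      (J.filter (fun j => w j = r))).filter (fun e => rr e.1 = rr e.2),
      (e.1 ∈ J ∧ w e.1 = q) ∧ (e.2 ∈ J ∧ w e.2 = r) ∧ rr e.1 = rr e.2 := by
    intro e he
    rw [Finset.mem_filter, Finset.mem_product, Finset.mem_filter, Finset.mem_filter] at he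
    tauto
  obtain ⟨σ, hσ⟩ := Option.ne_none_iff_exists'.1 (hlab q hq)
  obtain ⟨τ, hτ⟩ := Option.ne_none_iff_exists'.1 (hlab r hr)
  have k := exact_pair_U (((J.filter (fun j => w j = q)) ×ˢ
      (J.filter (fun j => w j = r))).filter (fun e => rr e.1 = rr e.2)) (θ := θ) (ψ := ψ) (φ := φ)
    hu (hS q hq) (hS r hr) (hψ q hq) (hψ r hr) hσ hτ al be al be
    (fun e he => ?_) (fun e he => ?_) (fun s s' e he f hf h1 h2 h3 h4 => ?_)
    (fun e he m n t h1 h2 => ?_)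
  · refine le_trans (le_of_eq (Finset.sum_congr rfl fun e he => ?_)) k
    obtain ⟨⟨-, e1⟩, ⟨-, e2⟩, -⟩ := hmem e he
    rw [e1, e2]
  · obtain ⟨⟨h1, e1⟩, -, -⟩ := hmem e he
    have := hwin _ h1
    rwa [e1] at this
  · obtain ⟨-, ⟨h1, e1⟩, -⟩ := hmem e he
    have := hwin _ h1
    rwa [e1] at this
  · obtain ⟨⟨a1, a2⟩, ⟨a3, a4⟩, -⟩ := hmem e he
    obtain ⟨⟨b1, b2⟩, ⟨b3, b4⟩, -⟩ := hmem f hf
    exact Prod.ext (hdis _ a1 _ b1 (a2.trans b2.symm) s h1.1 h1.2 h3.1 h3.2)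
      (hdis _ a3 _ b3 (a4.trans b4.symm) s' h2.1 h2.2 h4.1 h4.2)
  · obtain ⟨⟨a1, a2⟩, ⟨a3, a4⟩, a5⟩ := hmem e he
    have h3 := hW _ a1 _ a3 a5 m n t
    rw [a2, a4] at h3
    exact h3 h1 h2 σ τ hσ hτ

open Crest.Agent.R4.Frame758 Crest.Agent.R4.Item758

/-- the bound of the exact sum in a retained class `u0` of the set of pieces `J` -/
def ExB {Λ κ₀ : Type} [Fintype Λ] [DecidableEq Λ] [Fintype κ₀] [DecidableEq κ₀] (D : Par0 Λ κ₀)
    (b pr : ℕ) (ψ φ : ℕ → ℝ) (lab : ℕ → Option ℚ) (u w : ℕ → ℕ) (J : Finset Λ) (C : ℝ)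
    (u0 : ℕ) : Prop :=
  ∑ q ∈ (J.filter (fun j => u (D.it j) = u0)).image (fun j => w (D.it j)),
    ∑ r ∈ (J.filter (fun j => u (D.it j) = u0)).image (fun j => w (D.it j)),
      T02 (b * D.γ) (fun v => b * ψ (pr * (u0 * v))) (fun v => φ (pr * (u0 * v)))
        (fun v => lab (pr * (u0 * v))) q r ≤
    C * ∑ q ∈ (J.filter (fun j => u (D.it j) = u0)).image (fun j => w (D.it j)),
      HVW560.wt (fun v => b * ψ (pr * (u0 * v))) q

/-- **in-world energy of the labelled items of a leaf**, given the bounds `ExB` of the exact sums -/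
theorem leafI_L {C : ℝ} (hC : 0 ≤ C) {Λ κ₀ : Type} [Fintype Λ] [DecidableEq Λ] [Fintype κ₀]
    [DecidableEq κ₀] (D : Par0 Λ κ₀) {ω : Type*} [DecidableEq ω] (rr : Λ → ω) (b pr : ℕ)
    (ψ φ : ℕ → ℝ) (lab : ℕ → Option ℚ)
    (u w : ℕ → ℕ) (J : Finset Λ) (m : Λ → ℝ) (hb : 0 < b) (hpr : 0 < pr)
    (hit : ∀ j ∈ J, 0 < u (D.it j) ∧ 0 < w (D.it j) ∧ D.it j = pr * (u (D.it j) * w (D.it j)))
    (hψ : ∀ j ∈ J, 0 < ψ (D.it j))
    (hlab : ∀ j ∈ J, lab (D.it j) ≠ none)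
    (hwin : ∀ j ∈ J, -ψ (D.it j) ≤ D.al j ∧ D.be j ≤ ψ (D.it j))
    (hdis : ∀ j ∈ J, ∀ j' ∈ J, D.it j = D.it j' → ∀ s : ℝ, D.al j ≤ s → s < D.be j →
      D.al j' ≤ s → s < D.be j' → j = j')
    (hWt : ∀ j ∈ J, Wt (D.it j / pr) (D.om j))
    (hom : ∀ j ∈ J, ∀ a, D.om j a ≤
      nw (w (D.it j)).primeFactors (uw (b * D.γ) (φ (D.it j)) (lab (D.it j))) a)
    (hu : ∀ j ∈ J, ∀ j' ∈ J, rr j = rr j' → u (D.it j) = u (D.it j'))
    (hex : ∀ j ∈ J, ∀ j' ∈ J, rr j = rr j' → ∀ (m n : ℤ) (x : ℝ),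
      (b * D.al j ≤ ((D.it j / pr : ℕ) : ℝ) * x - b * D.γ - m ∧
        ((D.it j / pr : ℕ) : ℝ) * x - b * D.γ - m < b * D.be j) →
      (b * D.al j' ≤ ((D.it j' / pr : ℕ) : ℝ) * x - b * D.γ - n ∧
        ((D.it j' / pr : ℕ) : ℝ) * x - b * D.γ - n < b * D.be j') →
      ∀ σ τ : ℚ, lab (D.it j) = some σ → lab (D.it j') = some τ →
      ((m : ℝ) + σ) / ((D.it j / pr : ℕ) : ℝ) = (n + τ) / ((D.it j' / pr : ℕ) : ℝ))
    (hmass : ∀ j ∈ J, b * ψ (D.it j) * ((Nat.totient (w (D.it j)) : ℝ) / w (D.it j)) ≤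
      ∑ j' ∈ J.filter (fun j' => D.it j' = D.it j), m j')
    (hEx : ∀ u0 ∈ J.image (fun j => u (D.it j)), ExB D b pr ψ φ lab u w J C u0) :
    ∑ j ∈ J, ∑ j' ∈ J.filter (fun j' => rr j = rr j'),
      I (fun x => lf D b pr j x * lf D b pr j' x) ≤ C * ∑ j ∈ J, m j := by
  have hbR : (0 : ℝ) < b := by exact_mod_cast hb
  -- split by the retained part
  set U : Finset ℕ := J.image (fun j => u (D.it j)) with hU
  have hsplit : ∑ j ∈ J, ∑ j' ∈ J.filter (fun j' => rr j = rr j'),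
      I (fun x => lf D b pr j x * lf D b pr j' x) =
      ∑ u0 ∈ U, ∑ j ∈ J.filter (fun j => u (D.it j) = u0),
        ∑ j' ∈ (J.filter (fun j => u (D.it j) = u0)).filter (fun j' => rr j = rr j'),
        I (fun x => lf D b pr j x * lf D b pr j' x) := by
    rw [← Finset.sum_fiberwise_of_maps_to (s := J) (t := U) (g := fun j => u (D.it j))
      (fun j hj => Finset.mem_image_of_mem _ hj)]
    refine Finset.sum_congr rfl fun u0 _ => Finset.sum_congr rfl fun j hj => ?_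
    obtain ⟨hj1, hj2⟩ := Finset.mem_filter.1 hj
    refine Finset.sum_congr ?_ fun _ _ => rfl
    ext j'
    simp only [Finset.mem_filter]
    constructor
    · rintro ⟨a, b⟩
      exact ⟨⟨a, by rw [← hu j hj1 j' a b, hj2]⟩, b⟩
    · rintro ⟨⟨a, _⟩, b⟩; exact ⟨a, b⟩
  rw [hsplit]
  have hsm : ∑ j ∈ J, m j = ∑ u0 ∈ U, ∑ j ∈ J.filter (fun j => u (D.it j) = u0), m j :=
    (Finset.sum_fiberwise_of_maps_to (s := J) (t := U) (g := fun j => u (D.it j))
      (fun j hj => Finset.mem_image_of_mem _ hj) m).symm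
  have hgoal : ∀ u0 ∈ U, ∑ j ∈ J.filter (fun j => u (D.it j) = u0),
        ∑ j' ∈ (J.filter (fun j => u (D.it j) = u0)).filter (fun j' => rr j = rr j'),
        I (fun x => lf D b pr j x * lf D b pr j' x) ≤
      C * ∑ j ∈ J.filter (fun j => u (D.it j) = u0), m j := by
    intro u0 hu0
    obtain ⟨j₁, hj₁, hj₁u⟩ := Finset.mem_image.1 hu0
    have hu0p : 0 < u0 := by rw [← hj₁u]; exact (hit j₁ hj₁).1
    have hEx0 := hEx u0 hu0
    unfold ExB at hEx0
    set J0 := J.filter (fun j => u (D.it j) = u0) with hJ0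
    set S0 : Finset ℕ := J0.image (fun j => w (D.it j)) with hS0
    set ψ0 : ℕ → ℝ := fun v => b * ψ (pr * (u0 * v)) with hψ0
    set φ0 : ℕ → ℝ := fun v => φ (pr * (u0 * v)) with hφ0
    set lab0 : ℕ → Option ℚ := fun v => lab (pr * (u0 * v)) with hlab0
    have hJ0m : ∀ j ∈ J0, j ∈ J ∧ u (D.it j) = u0 := fun j hj => Finset.mem_filter.1 hj
    have hq : ∀ j ∈ J0, pr * (u0 * w (D.it j)) = D.it j := by
      intro j hj
      obtain ⟨a, e⟩ := hJ0m j hj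
      conv_rhs => rw [(hit j a).2.2, e]
    have hS0m : ∀ v ∈ S0, ∃ j ∈ J0, w (D.it j) = v := fun v hv => by
      obtain ⟨j, a, e⟩ := Finset.mem_image.1 hv
      exact ⟨j, a, e⟩
    have hψq : ∀ j ∈ J0, ψ0 (w (D.it j)) = b * ψ (D.it j) := fun j hj => by
      rw [hψ0]; simp only; rw [hq j hj]
    have hφq : ∀ j ∈ J0, φ0 (w (D.it j)) = φ (D.it j) := fun j hj => by
      rw [hφ0]; simp only; rw [hq j hj]
    have hlq : ∀ j ∈ J0, lab0 (w (D.it j)) = lab (D.it j) := fun j hj => by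
      rw [hlab0]; simp only; rw [hq j hj]
    -- mass
    have hfib : ∀ j ∈ J0, J0.filter (fun j' => w (D.it j') = w (D.it j)) =
        J.filter (fun j' => D.it j' = D.it j) := by
      intro j hj
      ext j'
      simp only [Finset.mem_filter]
      constructor
      · rintro ⟨a, e⟩
        refine ⟨(hJ0m j' a).1, ?_⟩
        rw [← hq j' a, e, hq j hj]
      · rintro ⟨a, e⟩
        refine ⟨?_, by rw [e]⟩
        rw [hJ0, Finset.mem_filter]
        exact ⟨a, by rw [e]; exact (hJ0m j hj).2⟩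
    have hmass0 : ∑ v ∈ S0, HVW560.wt ψ0 v ≤ ∑ j ∈ J0, m j := by
      rw [← Finset.sum_fiberwise_of_maps_to (s := J0) (t := S0) (g := fun j => w (D.it j))
        (fun j hj => Finset.mem_image_of_mem _ hj)]
      refine Finset.sum_le_sum fun v hv => ?_
      obtain ⟨j, hj, rfl⟩ := hS0m v hv
      rw [hfib j hj]
      have := hmass j (hJ0m j hj).1
      refine le_trans (le_of_eq ?_) this
      unfold HVW560.wt
      rw [hψq j hj]
    have hdq : ∀ j ∈ J0, D.it j / pr = u0 * w (D.it j) := by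
      intro j hj
      conv_lhs => rw [← hq j hj]
      exact Nat.mul_div_cancel_left _ hpr
    have hur : (0 : ℝ) < u0 := by exact_mod_cast hu0p
    have key := leafL_pieces (θ := b * D.γ) (S := S0) (ψ := ψ0) (φ := φ0) (lab := lab0) (u := u0)
      J0 (fun j => w (D.it j)) (fun j => b * D.al j) (fun j => b * D.be j) D.om rr hu0p
      (fun v hv => by
        obtain ⟨j, hj, rfl⟩ := hS0m v hv
        exact (hit j (hJ0m j hj).1).2.1)
      (fun v hv => by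
        obtain ⟨j, hj, rfl⟩ := hS0m v hv
        rw [hψq j hj]
        exact mul_pos hbR (hψ j (hJ0m j hj).1))
      (fun v hv => by
        obtain ⟨j, hj, rfl⟩ := hS0m v hv
        rw [hlq j hj]
        exact hlab j (hJ0m j hj).1)
      (fun j hj => Finset.mem_image_of_mem _ hj)
      (fun j hj => by
        have h3 := hwin j (hJ0m j hj).1
        rw [hψq j hj]
        constructor
        · nlinarith [mul_le_mul_of_nonneg_left h3.1 hbR.le]
        · exact mul_le_mul_of_nonneg_left h3.2 hbR.le)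
      (fun j hj j' hj' e s g1 g2 g3 g4 => by
        refine hdis j (hJ0m j hj).1 j' (hJ0m j' hj').1
          (by rw [← hq j hj, ← hq j' hj', e]) (s / b) ?_ ?_ ?_ ?_
        · rw [le_div_iff₀ hbR]; linarith
        · rw [div_lt_iff₀ hbR]; linarith
        · rw [le_div_iff₀ hbR]; linarith
        · rw [div_lt_iff₀ hbR]; linarith)
      (fun j hj => by
        have h3 := hWt j (hJ0m j hj).1
        rwa [hdq j hj] at h3)
      (fun j hj a => by
        have h3 := hom j (hJ0m j hj).1 a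
        rw [hφq j hj, hlq j hj]
        exact h3)
      (fun j hj j' hj' e mm nn t g1 g2 σ τ hσ hτ => by
        have hj1 := (hJ0m j hj).1
        have hj1' := (hJ0m j' hj').1
        have hwp : (0 : ℝ) < w (D.it j) := by exact_mod_cast (hit j hj1).2.1
        have hwp' : (0 : ℝ) < w (D.it j') := by exact_mod_cast (hit j' hj1').2.1
        rw [hlq j hj] at hσ
        rw [hlq j' hj'] at hτ
        have h3 := hex j hj1 j' hj1' e mm nn t
          (by rw [hdq j hj]; exact g1) (by rw [hdq j' hj']; exact g2) σ τ hσ hτ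
        rw [hdq j hj, hdq j' hj'] at h3
        push_cast at h3
        rw [div_eq_div_iff (by positivity) (by positivity)] at h3 ⊢
        have h4 : (u0 : ℝ) * (((mm : ℝ) + σ) * w (D.it j')) = u0 * ((nn + τ) * w (D.it j)) := by
          linarith
        exact mul_left_cancel₀ hur.ne' h4)
    have hlf : ∀ j ∈ J0, ∀ x, lf D b pr j x =
        pc (b * D.γ) (b * D.al j) (b * D.be j) (u0 * w (D.it j)) (D.om j) x := by
      intro j hj x
      unfold Crest.Agent.R4.Frame758.lf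
      rw [hdq j hj]
    have e2 : ∑ j ∈ J0, ∑ j' ∈ J0.filter (fun j' => rr j = rr j'),
        I (fun x => lf D b pr j x * lf D b pr j' x) =
        ∑ j ∈ J0, ∑ j' ∈ J0.filter (fun j' => rr j = rr j'), I (fun t =>
        pc (b * D.γ) (b * D.al j) (b * D.be j) (u0 * w (D.it j)) (D.om j) t *
        pc (b * D.γ) (b * D.al j') (b * D.be j') (u0 * w (D.it j')) (D.om j') t) := by
      refine Finset.sum_congr rfl fun j hj => Finset.sum_congr rfl fun j' hj' => ?_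
      congr 1
      funext x
      rw [hlf j hj, hlf j' (Finset.mem_filter.1 hj').1]
    rw [e2]
    refine key.trans (hEx0.trans ?_)
    exact mul_le_mul_of_nonneg_left hmass0 hC
  refine (Finset.sum_le_sum hgoal).trans ?_
  rw [← Finset.mul_sum, ← hsm]

/-- **LeafI for the labelled items**, raw masses `W j = (be j - al j) φ(q)/q`. -/
theorem leafI_L' {C : ℝ} (hC : 0 ≤ C) {Λ κ₀ : Type} [Fintype Λ] [DecidableEq Λ] [Fintype κ₀]
    [DecidableEq κ₀] (D : Par0 Λ κ₀) {ω : Type*} [DecidableEq ω] (rr : Λ → ω) (W : Λ → ℝ)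
    (b pr : ℕ) (ψ φ : ℕ → ℝ) (lab : ℕ → Option ℚ)
    (u w : ℕ → ℕ) (J : Finset Λ) (hb : 0 < b) (hpr : 0 < pr)
    (hW : ∀ j ∈ J, W j = (D.be j - D.al j) * ((Nat.totient (D.it j) : ℝ) / D.it j))
    (hcl : ∀ j ∈ J, ∀ j', D.it j' = D.it j → j' ∈ J)
    (hfull : ∀ j ∈ J, ψ (D.it j) ≤
      ∑ j' ∈ Finset.univ.filter (fun j' => D.it j' = D.it j), (D.be j' - D.al j'))
    (hit : ∀ j ∈ J, 0 < u (D.it j) ∧ 0 < w (D.it j) ∧ D.it j = pr * (u (D.it j) * w (D.it j)) ∧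
      Nat.Coprime pr (u (D.it j) * w (D.it j)) ∧ Nat.Coprime (u (D.it j)) (w (D.it j)) ∧
      (1 : ℝ) / 2 ≤ (Nat.totient (u (D.it j)) : ℝ) / u (D.it j))
    (hψ : ∀ j ∈ J, 0 < ψ (D.it j))
    (hlab : ∀ j ∈ J, lab (D.it j) ≠ none)
    (hwin : ∀ j ∈ J, -ψ (D.it j) ≤ D.al j ∧ D.be j ≤ ψ (D.it j))
    (hdis : ∀ j ∈ J, ∀ j' ∈ J, D.it j = D.it j' → ∀ s : ℝ, D.al j ≤ s → s < D.be j →
      D.al j' ≤ s → s < D.be j' → j = j')
    (hWt : ∀ j ∈ J, Wt (D.it j / pr) (D.om j))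
    (hom : ∀ j ∈ J, ∀ a, D.om j a ≤
      nw (w (D.it j)).primeFactors (uw (b * D.γ) (φ (D.it j)) (lab (D.it j))) a)
    (hu : ∀ j ∈ J, ∀ j' ∈ J, rr j = rr j' → u (D.it j) = u (D.it j'))
    (hex : ∀ j ∈ J, ∀ j' ∈ J, rr j = rr j' → ∀ (m n : ℤ) (x : ℝ),
      (b * D.al j ≤ ((D.it j / pr : ℕ) : ℝ) * x - b * D.γ - m ∧
        ((D.it j / pr : ℕ) : ℝ) * x - b * D.γ - m < b * D.be j) →
      (b * D.al j' ≤ ((D.it j' / pr : ℕ) : ℝ) * x - b * D.γ - n ∧
        ((D.it j' / pr : ℕ) : ℝ) * x - b * D.γ - n < b * D.be j') →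
      ∀ σ τ : ℚ, lab (D.it j) = some σ → lab (D.it j') = some τ →
      ((m : ℝ) + σ) / ((D.it j / pr : ℕ) : ℝ) = (n + τ) / ((D.it j' / pr : ℕ) : ℝ))
    (hEx : ∀ u0 ∈ J.image (fun j => u (D.it j)), ExB D b pr ψ φ lab u w J C u0) :
    ∑ j ∈ J, ∑ j' ∈ J.filter (fun j' => rr j = rr j'),
      I (fun x => Frame758.lf D b pr j x * Frame758.lf D b pr j' x) ≤
      2 * C * (Item758.cf b pr * ∑ j ∈ J, W j) := by
  have e : ∑ j ∈ J, 2 * Item758.cf b pr * W j = 2 * Item758.cf b pr * ∑ j ∈ J, W j := by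
    rw [Finset.mul_sum]
  have key := leafI_L hC D rr b pr ψ φ lab u w J (fun j => 2 * Item758.cf b pr * W j) hb hpr
    (fun j hj => ⟨(hit j hj).1, (hit j hj).2.1, (hit j hj).2.2.1⟩) hψ hlab hwin hdis hWt hom hu
    hex (fun j hj => ?_) hEx
  · refine key.trans (le_of_eq ?_)
    rw [e]; ring
  · obtain ⟨a1, a2, a3, a4, a5, a6⟩ := hit j hj
    have e3 : J.filter (fun j' => D.it j' = D.it j) =
        Finset.univ.filter (fun j' => D.it j' = D.it j) := by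
      ext j'
      simp only [Finset.mem_filter, Finset.mem_univ, true_and]
      exact ⟨fun h => h.2, fun h => ⟨hcl j hj j' h, h⟩⟩
    have e4 : ∑ j' ∈ J.filter (fun j' => D.it j' = D.it j), 2 * Item758.cf b pr * W j' =
        2 * Item758.cf b pr *
          ((∑ j' ∈ Finset.univ.filter (fun j' => D.it j' = D.it j), (D.be j' - D.al j')) *
            ((Nat.totient (D.it j) : ℝ) / D.it j)) := by
      rw [← Finset.mul_sum, e3, Finset.sum_mul]
      congr 1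
      refine Finset.sum_congr rfl fun j' hj' => ?_
      have h3 := (Finset.mem_filter.1 hj').2
      rw [hW j' (hcl j hj j' h3), h3]
    rw [e4]
    exact LeafU368.mass_item a3 hpr a1 a2 a4 a5 a6 (hψ j hj).le (hfull j hj)

/-- **current labels**: the hypothesis `ExB` holds with an absolute constant -/
theorem ExB_current : ∃ C : ℝ, 0 < C ∧ ∀ (Λ κ₀ : Type) [Fintype Λ] [DecidableEq Λ] [Fintype κ₀]
    [DecidableEq κ₀] (D : Par0 Λ κ₀) (b pr : ℕ) (ψ : ℕ → ℝ) (lab : ℕ → Option ℚ)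
    (u w : ℕ → ℕ) (J : Finset Λ), 0 < b →
    (∀ j ∈ J, 0 < u (D.it j) ∧ 0 < w (D.it j) ∧ D.it j = pr * (u (D.it j) * w (D.it j))) →
    (∀ j ∈ J, 0 < ψ (D.it j)) →
    (∀ j ∈ J, ∀ ρ, lab (D.it j) = some ρ → Lab (b * D.γ) (b * ψ (D.it j)) ρ) →
    ∀ u0 ∈ J.image (fun j => u (D.it j)), ExB D b pr ψ (fun q => b * ψ q) lab u w J C u0 := by
  obtain ⟨C, hC, h⟩ := exact_sum_le
  refine ⟨C, hC, ?_⟩
  intro Λ κ₀ _ _ _ _ D b pr ψ lab u w J hb hit hψ hlab u0 hu0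
  have hbR : (0 : ℝ) < b := by exact_mod_cast hb
  unfold ExB
  rw [T02_self]
  have hq : ∀ v ∈ (J.filter (fun j => u (D.it j) = u0)).image (fun j => w (D.it j)),
      ∃ j ∈ J, pr * (u0 * v) = D.it j ∧ 0 < v := by
    intro v hv
    obtain ⟨j, hj, rfl⟩ := Finset.mem_image.1 hv
    obtain ⟨h1, h2⟩ := Finset.mem_filter.1 hj
    refine ⟨j, h1, ?_, (hit j h1).2.1⟩
    conv_rhs => rw [(hit j h1).2.2, h2]
  refine h (b * D.γ) _ _ _ (fun v hv => ?_) (fun v hv => ?_) (fun v hv ρ hρ => ?_)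
  · obtain ⟨j, -, -, h3⟩ := hq v hv
    exact h3
  · obtain ⟨j, h1, h2, -⟩ := hq v hv
    simp only [h2]
    exact mul_pos hbR (hψ j h1)
  · obtain ⟨j, h1, h2, -⟩ := hq v hv
    simp only [h2] at hρ ⊢
    exact hlab j h1 ρ hρ

/-- **states of a leaf** (thin: label of the present stage, fat: of the previous stage) -/
theorem ExB_sta : ∃ C : ℝ, 0 < C ∧ ∀ (Λ κ₀ : Type) [Fintype Λ] [DecidableEq Λ] [Fintype κ₀]
    [DecidableEq κ₀] (D : Par0 Λ κ₀) (pr : ℕ) (ψ : ℕ → ℝ) (lab : ℕ → Option ℚ)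
    (u w : ℕ → ℕ) (J : Finset Λ) (thr : ℕ → ℝ) (L : List ℕ) (p : ℕ), (∀ s ∈ L, 0 < s) →
    (∀ j ∈ J, 0 < u (D.it j) ∧ 0 < w (D.it j) ∧ D.it j = pr * (u (D.it j) * w (D.it j))) →
    (∀ j ∈ J, 0 < ψ (D.it j)) →
    (∀ j ∈ J, (L.prod : ℝ) * ψ (D.it j) ≤ thr p ∨
      ∀ s L', L = s :: L' → (L'.prod : ℝ) * ψ (D.it j) ≤ thr s) →
    (∀ j ∈ J, lab (D.it j) =
      (W363.sta thr D.γ (ψ (D.it j)) L p).map fun σ => (L.prod : ℚ) * σ) →
    ∀ u0 ∈ J.image (fun j => u (D.it j)),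
      ExB D L.prod pr ψ (fun q => (L.prod : ℝ) * ψ q) lab u w J C u0 := by
  obtain ⟨C, hC, h⟩ := exact_cramer_sta
  refine ⟨C, hC, ?_⟩
  intro Λ κ₀ _ _ _ _ D pr ψ lab u w J thr L p hL hit hψ hfat hlab u0 hu0
  unfold ExB
  rw [T02_self]
  have hq : ∀ v ∈ (J.filter (fun j => u (D.it j) = u0)).image (fun j => w (D.it j)),
      ∃ j ∈ J, pr * (u0 * v) = D.it j ∧ 0 < v := by
    intro v hv
    obtain ⟨j, hj, rfl⟩ := Finset.mem_image.1 hv
    obtain ⟨h1, h2⟩ := Finset.mem_filter.1 hj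
    refine ⟨j, h1, ?_, (hit j h1).2.1⟩
    conv_rhs => rw [(hit j h1).2.2, h2]
  have key := h thr D.γ L p
    ((J.filter (fun j => u (D.it j) = u0)).image (fun j => w (D.it j)))
    (fun v => ψ (pr * (u0 * v))) hL
    (fun v hv => by obtain ⟨j, -, -, h3⟩ := hq v hv; exact h3)
    (fun v hv => by
      obtain ⟨j, h1, h2, -⟩ := hq v hv
      simp only [h2]; exact hψ j h1)
    (fun v hv => by
      obtain ⟨j, h1, h2, -⟩ := hq v hv
      simp only [h2]; exact hfat j h1)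
  refine le_trans (le_of_eq ?_) key
  refine Finset.sum_congr rfl fun q hq1 => Finset.sum_congr rfl fun r hr1 => ?_
  refine T0_congr rfl rfl ?_ ?_
  · obtain ⟨j, h1, h2, -⟩ := hq q hq1
    simp only [h2]; exact hlab j h1
  · obtain ⟨j, h1, h2, -⟩ := hq r hr1
    simp only [h2]; exact hlab j h1

/-- **labels of `J` stages** (`stg (d q)` = missing product of the stage of the label of `q`) -/
theorem ExB_stages (N : ℕ) : ∃ C : ℝ, 0 < C ∧ ∀ (Λ κ₀ : Type) [Fintype Λ] [DecidableEq Λ]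
    [Fintype κ₀] [DecidableEq κ₀] (D : Par0 Λ κ₀) (b pr : ℕ) (ψ : ℕ → ℝ) (lab : ℕ → Option ℚ)
    (u w : ℕ → ℕ) (J : Finset Λ) (stg : Fin N → ℕ) (d : ℕ → Fin N), 0 < b → (∀ i, 0 < stg i) →
    (∀ j ∈ J, 0 < u (D.it j) ∧ 0 < w (D.it j) ∧ D.it j = pr * (u (D.it j) * w (D.it j))) →
    (∀ j ∈ J, 0 < ψ (D.it j)) →
    (∀ j ∈ J, lab (D.it j) =
      (W363.lab0 D.γ (ψ (D.it j)) (stg (d (D.it j)))).map fun σ => (b : ℚ) * σ) →
    ∀ u0 ∈ J.image (fun j => u (D.it j)), ExB D b pr ψ (fun q => (b : ℝ) * ψ q) lab u w J C u0 := by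
  obtain ⟨C, hC, h⟩ := exact_cramer_stages N
  refine ⟨C, hC, ?_⟩
  intro Λ κ₀ _ _ _ _ D b pr ψ lab u w J stg d hb hstg hit hψ hlab u0 hu0
  unfold ExB
  rw [T02_self]
  have hq : ∀ v ∈ (J.filter (fun j => u (D.it j) = u0)).image (fun j => w (D.it j)),
      ∃ j ∈ J, pr * (u0 * v) = D.it j ∧ 0 < v := by
    intro v hv
    obtain ⟨j, hj, rfl⟩ := Finset.mem_image.1 hv
    obtain ⟨h1, h2⟩ := Finset.mem_filter.1 hj
    refine ⟨j, h1, ?_, (hit j h1).2.1⟩
    conv_rhs => rw [(hit j h1).2.2, h2]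
  have key := h D.γ b stg
    ((J.filter (fun j => u (D.it j) = u0)).image (fun j => w (D.it j)))
    (fun v => ψ (pr * (u0 * v))) (fun v => d (pr * (u0 * v))) hb hstg
    (fun v hv => by obtain ⟨j, -, -, h3⟩ := hq v hv; exact h3)
    (fun v hv => by
      obtain ⟨j, h1, h2, -⟩ := hq v hv
      simp only [h2]; exact hψ j h1)
  refine le_trans (le_of_eq ?_) key
  refine Finset.sum_congr rfl fun q hq1 => Finset.sum_congr rfl fun r hr1 => ?_
  refine T0_congr rfl rfl ?_ ?_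
  · obtain ⟨j, h1, h2, -⟩ := hq q hq1
    simp only [h2]; exact hlab j h1
  · obtain ⟨j, h1, h2, -⟩ := hq r hr1
    simp only [h2]; exact hlab j h1

/-! ### worlds are exact on the circle of a leaf -/

open Crest.Agent.R4.W363

/-- **same world ⇒ the same snapped centre on the circle of a node** (`q = A v`, `r = A v'`,
`B` = product of the missing columns, numerators `m`, `n`, common point `x`) -/
theorem exact_circle (P : WP) {γ : ℝ} {p p' A B v v' : ℕ} (hA : 0 < A) (hB : 0 < B) (hv : 0 < v)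
    (hv' : 0 < v') {σ τ : ℚ} (hδ : 0 < P.δ₀)
    (hδ1 : P.δ₀ * ((A * B : ℕ) * ((σ.den : ℝ) * v * (τ.den * v'))) ≤ 1)
    {x z z' : ℝ} {m n : ℤ} (hz : B * z = v * x - B * γ - m) (hz' : B * z' = v' * x - B * γ - n)
    (h1 : |off γ σ (A * v) z| < P.n₁ * P.δ₀) (h2 : |off γ τ (A * v') z'| < P.n₁ * P.δ₀)
    (h : P.ix γ p (A * v) (some σ) z = P.ix γ p' (A * v') (some τ) z') :
    ((m : ℝ) + (((B : ℚ) * σ : ℚ) : ℝ)) / v = (n + (((B : ℚ) * τ : ℚ) : ℝ)) / v' := by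
  have h3 : cell (grd P.δ₀ P.n₁) (off γ σ (A * v) z) = cell (grd P.δ₀ P.n₁) (off γ τ (A * v') z') :=
    congrArg Prod.snd h
  have h4 := grd_close hδ h1 h2 h3
  have hAB : (0 : ℝ) < ((A * B : ℕ) : ℝ) := by exact_mod_cast Nat.mul_pos hA hB
  have hv0 : (0 : ℝ) < v := by exact_mod_cast hv
  have hv0' : (0 : ℝ) < v' := by exact_mod_cast hv'
  have e1 : ((A * B : ℕ) : ℝ) * off γ σ (A * v) z = x - ((m : ℝ) + B * σ) / v := by
    rw [off_circle (B := B) hA hv rfl, hz]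
    field_simp
    ring
  have e2 : ((A * B : ℕ) : ℝ) * off γ τ (A * v') z' = x - ((n : ℝ) + B * τ) / v' := by
    rw [off_circle (B := B) hA hv' rfl, hz']
    field_simp
    ring
  have hdσ : (((B : ℚ) * σ).den : ℝ) ≤ σ.den := by
    have : ((B : ℚ) * σ).den ∣ σ.den := by
      have h5 := Rat.mul_den_dvd (B : ℚ) σ
      simpa using h5
    exact_mod_cast Nat.le_of_dvd σ.den_pos this
  have hdτ : (((B : ℚ) * τ).den : ℝ) ≤ τ.den := by
    have : ((B : ℚ) * τ).den ∣ τ.den := by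
      have h5 := Rat.mul_den_dvd (B : ℚ) τ
      simpa using h5
    exact_mod_cast Nat.le_of_dvd τ.den_pos this
  have hlt : |((m : ℝ) + (((B : ℚ) * σ : ℚ) : ℝ)) / v - (n + (((B : ℚ) * τ : ℚ) : ℝ)) / v'| <
      (A * B : ℕ) * P.δ₀ := by
    have e3 : ((m : ℝ) + (((B : ℚ) * σ : ℚ) : ℝ)) / v - (n + (((B : ℚ) * τ : ℚ) : ℝ)) / v' =
        -(((A * B : ℕ) : ℝ) * (off γ σ (A * v) z - off γ τ (A * v') z')) := by
      rw [mul_sub, e1, e2]; push_cast; ring
    rw [e3, abs_neg, abs_mul, abs_of_pos hAB]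
    exact mul_lt_mul_of_pos_left h4 hAB
  refine snapped_eq hv hv' ?_ hlt
  have hk1 : (0 : ℝ) ≤ ((B : ℚ) * σ).den := Nat.cast_nonneg _
  have hk2 : (0 : ℝ) ≤ ((B : ℚ) * τ).den := Nat.cast_nonneg _
  calc (A * B : ℕ) * P.δ₀ * ((((B : ℚ) * σ).den : ℝ) * v * ((((B : ℚ) * τ).den : ℝ) * v'))
      ≤ (A * B : ℕ) * P.δ₀ * ((σ.den : ℝ) * v * (τ.den * v')) := by
        refine mul_le_mul_of_nonneg_left ?_ (by positivity)
        exact mul_le_mul (mul_le_mul_of_nonneg_right hdσ hv0.le)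
          (mul_le_mul_of_nonneg_right hdτ hv0'.le) (by positivity) (by positivity)
    _ = P.δ₀ * ((A * B : ℕ) * ((σ.den : ℝ) * v * (τ.den * v'))) := by ring
    _ ≤ 1 := hδ1

end Crest.Agent.R4.LeafL363
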