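import Crest.Agent.R4.LeafX734

/-!
R4 (S0004), helper734: **the non-exact part of a leaf, without label radius**.

`LeafP T θ S ψ φ lab`: thresholds from any `0 < φ ≤ ψ`; only ONE condition on the labels: if
`ψ q ≤ 1/T` and `ρ` is a label of radius `ψ q`, then `lab q = some ρ`.
-/

set_option autoImplicit false
open Finset

namespace Crest.Agent.R4.LeafP734

open Crest.Agent.R4.HVW560 Crest.Agent.R4.LF765 Crest.Agent.R4.ClsS Crest.Agent.R4.ClsU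
open Crest.Agent.R4.ClsB Crest.Agent.R4.LFA
open Crest.Agent.R4.LF363 Crest.Agent.R4.LF11 Crest.Agent.R4.LeafX734
open Crest.Agent.R4.LF4 hiding DD
open Crest.Agent.R4.Tour104 (I PB)

/-- hypotheses of a leaf: target `θ`, arcs `ψ`, threshold radii `φ`, labels complete at radius `ψ`
for the thin items -/
structure LeafP (T θ : ℝ) (S : Finset ℕ) (ψ φ : ℕ → ℝ) (lab : ℕ → Option ℚ) : Prop where
  pos : ∀ q ∈ S, 0 < q
  ψ0 : ∀ q ∈ S, 0 < ψ q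
  φ0 : ∀ q ∈ S, 0 < φ q
  φψ : ∀ q ∈ S, φ q ≤ ψ q
  lb : ∀ q ∈ S, ψ q ≤ 1/T → ∀ ρ, Lab θ (ψ q) ρ → lab q = some ρ

lemma LeafP.sub {T θ : ℝ} {S S' : Finset ℕ} {ψ φ : ℕ → ℝ} {lab : ℕ → Option ℚ}
    (h : LeafP T θ S ψ φ lab) (hS : S' ⊆ S) : LeafP T θ S' ψ φ lab where
  pos := fun q hq => h.pos q (hS hq)
  ψ0 := fun q hq => h.ψ0 q (hS hq)
  φ0 := fun q hq => h.φ0 q (hS hq)
  φψ := fun q hq => h.φψ q (hS hq)
  lb := fun q hq => h.lb q (hS hq)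

lemma LeafP.mono {T T' θ : ℝ} {S : Finset ℕ} {ψ φ : ℕ → ℝ} {lab : ℕ → Option ℚ}
    (h : LeafP T θ S ψ φ lab) (hT : 0 < T) (hT' : T ≤ T') : LeafP T' θ S ψ φ lab where
  pos := h.pos
  ψ0 := h.ψ0
  φ0 := h.φ0
  φψ := h.φψ
  lb := fun q hq hψ => h.lb q hq (hψ.trans (one_div_le_one_div_of_le hT hT'))

/-- the non-exact terms of a leaf satisfy `T1Hyp` -/
theorem LeafP.t1hyp {θ T : ℝ} {S : Finset ℕ} {ψ φ : ℕ → ℝ} {lab : ℕ → Option ℚ}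
    (h : LeafP T θ S ψ φ lab) (hT : 10 ≤ T) :
    T1Hyp CP θ T 1 S S ψ ψ ψ ψ (fun e => T12 θ ψ φ lab e.1 e.2) where
  hV := h.pos
  hW := h.pos
  hψ := h.ψ0
  hψ' := h.ψ0
  hφ := fun v hv => ⟨by rw [one_mul], le_rfl⟩
  hφ' := fun v hv => ⟨by rw [one_mul], le_rfl⟩
  h3 := by
    intro e he hD
    have hm := Finset.mem_product.1 he
    have hT0 : 0 < T := by linarith
    have hφ1 : 0 < φ e.1 := h.φ0 _ hm.1
    have hφ2 : 0 < φ e.2 := h.φ0 _ hm.2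
    have hDpos := DD_pos (ψ' := ψ) (h.pos _ hm.2) (h.ψ0 _ hm.1)
    have h1 := T1I_le (a := ⟨θ, ψ e.1, φ e.1, lab e.1⟩) (b := ⟨θ, ψ e.2, φ e.2, lab e.2⟩)
      ⟨hφ1, h.φψ _ hm.1⟩ ⟨hφ2, h.φψ _ hm.2⟩ (h.pos _ hm.1) (h.pos _ hm.2)
    have h2 := AI_le (⟨θ, ψ e.1, φ e.1, lab e.1⟩) (⟨θ, ψ e.2, φ e.2, lab e.2⟩)
      (h.pos _ hm.1) (h.pos _ hm.2)
    rw [Axy_eq (Crest.Agent.R4.HVW560.cof_coprime (h.pos _ hm.1)), ← Af_eq_dens, ← Af_eq_dens] at h2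
    have hDI : DI (⟨θ, ψ e.1, φ e.1, lab e.1⟩) (⟨θ, ψ e.2, φ e.2, lab e.2⟩) e.1 e.2 = DD ψ ψ e := rfl
    rw [hDI, wt_eq_mI, wt_eq_mI] at h1
    have hD1 : DD ψ ψ e ≤ 1 := by
      refine hD.trans ?_
      rw [div_le_one hT0]; linarith
    have hmax : max 1 (1 / DD ψ ψ e) = 1 / DD ψ ψ e := by
      apply max_eq_right
      rw [le_div_iff₀ hDpos]; linarith
    rw [hmax] at h1
    show T12 θ ψ φ lab e.1 e.2 ≤ _
    rw [T12_eq]
    refine h1.trans (mul_le_mul_of_nonneg_left ?_ CP_nonneg)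
    unfold ew
    have hw1 := wt_nonneg (h.ψ0 _ hm.1).le
    have hw2 := wt_nonneg (h.ψ0 _ hm.2).le
    calc wt ψ e.1 * wt ψ e.2 * (1 / DD ψ ψ e) * AI ⟨θ, ψ e.1, φ e.1, lab e.1⟩ ⟨θ, ψ e.2, φ e.2, lab e.2⟩ e.1 e.2
        ≤ wt ψ e.1 * wt ψ e.2 * (1 / DD ψ ψ e) * (Af (cof e.1 e.2) * Af (cof e.2 e.1)) :=
          mul_le_mul_of_nonneg_left h2 (by positivity)
      _ = _ := by ring
  h7 := by
    intro e he hne hD hpos
    have hm := Finset.mem_product.1 he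
    have hT0 : 0 < T := by linarith
    obtain ⟨n, hn, hex⟩ := exists_of_T1I_ne (a := ⟨θ, ψ e.1, φ e.1, lab e.1⟩)
      (b := ⟨θ, ψ e.2, φ e.2, lab e.2⟩) (q := e.1) (r := e.2) (by
        have : T12 θ ψ φ lab e.1 e.2 ≠ 0 := ne_of_gt hpos
        rwa [T12_eq] at this)
    have e1 : (cof e.1 e.2 : ℝ) * θ - cof e.2 e.1 * θ = θ * ((cof e.1 e.2 : ℝ) - cof e.2 e.1) := by ring
    refine ⟨n, ?_, ?_⟩
    · simpa only [e1] using hn
    · intro ρ h1 h2 h3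
      have hφ1 : 0 < φ e.1 := h.φ0 _ hm.1
      have hφ2 : 0 < φ e.2 := h.φ0 _ hm.2
      have hcx : (1:ℝ) ≤ cof e.1 e.2 := by exact_mod_cast Crest.Agent.R4.HVW560.cof_pos (h.pos _ hm.1)
      have hcy : (1:ℝ) ≤ cof e.2 e.1 := by exact_mod_cast Crest.Agent.R4.HVW560.cof_pos (h.pos _ hm.2)
      have h10 : 1/T ≤ 1/10 := one_div_le_one_div_of_le (by norm_num) hT
      have hs1 : ψ e.1 ≤ 1/T :=
        le_trans (le_trans (le_mul_of_one_le_left (h.ψ0 _ hm.1).le hcy) (le_max_left _ _)) hD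
      have hs2 : ψ e.2 ≤ 1/T :=
        le_trans (le_trans (le_mul_of_one_le_left (h.ψ0 _ hm.2).le hcx) (le_max_right _ _)) hD
      refine hex ⟨ρ, ρ, h.lb _ hm.1 hs1 ρ ⟨h.ψ0 _ hm.1, hs1.trans h10, h1.1, h1.2⟩,
        h.lb _ hm.2 hs2 ρ ⟨h.ψ0 _ hm.2, hs2.trans h10, h2.1, h2.2⟩, ?_⟩
      have : ((n:ℚ):ℝ) = ((ρ * cof e.1 e.2 - ρ * cof e.2 e.1 : ℚ) : ℝ) := by
        push_cast; rw [h3]; ring
      exact_mod_cast this

lemma T12_diag_le {θ T : ℝ} {S : Finset ℕ} {ψ φ : ℕ → ℝ} {lab : ℕ → Option ℚ}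
    (h : LeafP T θ S ψ φ lab) {q : ℕ} (hq : q ∈ S) (h1 : ψ q ≤ 1) :
    T12 θ ψ φ lab q q ≤ CP * wt ψ q := by
  have hφ : 0 < φ q := h.φ0 _ hq
  exact T1I_diag_le (a := ⟨θ, ψ q, φ q, lab q⟩) ⟨hφ, h.φψ _ hq⟩ (h.pos _ hq) h1

/-- **non-exact pairs of a leaf** (two subfamilies are not needed: one family) -/
theorem leafP_T1 : ∃ C c0 : ℝ, 1 ≤ C ∧ 0 < c0 ∧ c0 ≤ 1/40 ∧
    ∀ (ε CB cB θ T : ℝ) (Yb : ℝ → ℝ) (S : Finset ℕ) (ψ φ : ℕ → ℝ) (lab : ℕ → Option ℚ),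
    0 < ε → ε ≤ 1/4 → 0 ≤ CB → 0 < cB → 2^50 ≤ T →
    (∀ t, T ≤ t → Yb t ≤ Real.exp (t^c0)) → LeafP T θ S ψ φ lab →
    ClsB θ T CB cB Yb S S ψ ψ →
    ∑ q ∈ S, ∑ r ∈ S, T12 θ ψ φ lab q r ≤
      CP * (8 * (∑ q ∈ S, wt ψ q)^2 + CE ε * (2*T)^(2*ε) * (∑ q ∈ S, wt ψ q)^(1+2*ε)) +
      CP * ∑ q ∈ S, wt ψ q +
      2 * CP * (C + CB) / (1 - 2^(-min (7/1000) cB)) * T^(-min (7/1000) cB) *
      (∑ q ∈ S, wt ψ q)^(1+2*eps1) := by
  classical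
  obtain ⟨C, c0, hC1, hc0, hc40, hC⟩ := deep_pairs
  refine ⟨C, c0, hC1, hc0, hc40, ?_⟩
  intro ε CB cB θ T Yb S ψ φ lab hε hε4 hCB hcB hT hYb h hB
  have hT0 : 0 < T := lt_of_lt_of_le (by norm_num) hT
  have hT1 : 1 ≤ T := le_trans (by norm_num) hT
  have hH := h.t1hyp (le_trans (by norm_num) hT)
  have key := hC CP CB cB θ T 1 Yb S S ψ ψ ψ ψ (fun e => T12 θ ψ φ lab e.1 e.2) CP_nonneg hCB hcB hT
    one_pos le_rfl (by rw [one_pow, one_mul]; exact le_trans (by norm_num) hT) hYb hH hB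
  set M := ∑ q ∈ S, wt ψ q with hM
  have hM0 : 0 ≤ M := Finset.sum_nonneg fun v hv => wt_nonneg (h.ψ0 v hv).le
  have hMM : ∀ a : ℝ, (M * M)^(1/2 + a) = M^(1+2*a) := by
    intro a
    rw [← sq, ← Real.rpow_natCast M 2, ← Real.rpow_mul hM0]
    congr 1; push_cast; ring
  rw [hMM] at key
  -- split
  have hsum : ∑ q ∈ S, ∑ r ∈ S, T12 θ ψ φ lab q r = ∑ e ∈ S ×ˢ S, T12 θ ψ φ lab e.1 e.2 := by
    rw [Finset.sum_product]
  rw [hsum, ← Finset.sum_filter_add_sum_filter_not (S ×ˢ S) (fun e => 1/T < DD ψ ψ e)]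
  -- large `D`
  obtain ⟨J, hJ1, hJ2⟩ := exists_nat_pow_near hT1 (by norm_num : (1:ℝ) < 2)
  have b1 := lf4 (V := S) (W := S) (E := (S ×ˢ S).filter (fun e => 1/T < DD ψ ψ e)) hε hε4
    (fun q => ⟨θ, ψ q, φ q, lab q⟩) (fun q => ⟨θ, ψ q, φ q, lab q⟩)
    (fun q hq => ⟨h.pos q hq, h.φ0 _ hq, h.φψ _ hq⟩)
    (fun q hq => ⟨h.pos q hq, h.φ0 _ hq, h.φψ _ hq⟩)
    (Finset.filter_subset _ _) (J+1) (by
      intro e he
      have h1 := (Finset.mem_filter.1 he).2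
      have h2 : ((2:ℝ)^(J+1))⁻¹ ≤ 1/T := by
        rw [← one_div]; exact one_div_le_one_div_of_le hT0 hJ2.le
      exact h2.trans h1.le)
  have e1 : ∑ q ∈ S, mI ⟨θ, ψ q, φ q, lab q⟩ q = M := rfl
  simp only [e1] at b1
  rw [hMM] at b1
  have b1' : ∑ e ∈ (S ×ˢ S).filter (fun e => 1/T < DD ψ ψ e), T12 θ ψ φ lab e.1 e.2 ≤
      CP * (8 * M^2 + CE ε * (2*T)^(2*ε) * M^(1+2*ε)) := by
    refine b1.trans (mul_le_mul_of_nonneg_left ?_ CP_nonneg)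
    have hce := (CE_pos hε).le
    have h2 : ((2:ℝ)^(J+1))^(2*ε) ≤ (2*T)^(2*ε) := by
      apply Real.rpow_le_rpow (by positivity) _ (by linarith)
      rw [pow_succ]; linarith
    have h3 : CE ε * ((2:ℝ)^(J+1))^(2*ε) * M^(1+2*ε) ≤ CE ε * (2*T)^(2*ε) * M^(1+2*ε) :=
      mul_le_mul_of_nonneg_right (mul_le_mul_of_nonneg_left h2 hce) (by positivity)
    have h4 : 8 * (M * M) = 8 * M^2 := by ring
    rw [h4]
    linarith
  -- small `D`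
  have b2 : ∑ e ∈ (S ×ˢ S).filter (fun e => ¬ 1/T < DD ψ ψ e), T12 θ ψ φ lab e.1 e.2 ≤
      CP * M + 2 * CP * (C + CB) / (1 - 2^(-min (7/1000) cB)) * T^(-min (7/1000) cB) * M^(1+2*eps1) := by
    rw [← Finset.sum_filter_add_sum_filter_not ((S ×ˢ S).filter (fun e => ¬ 1/T < DD ψ ψ e))
      (fun e => cof e.1 e.2 = cof e.2 e.1)]
    refine add_le_add ?_ ?_
    · -- diagonal
      rw [Finset.filter_filter]
      set G := (S ×ˢ S).filter (fun e => ¬ 1/T < DD ψ ψ e ∧ cof e.1 e.2 = cof e.2 e.1) with hG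
      have hdiag : ∀ e ∈ G, e.1 ∈ S ∧ e.1 = e.2 ∧ ψ e.1 ≤ 1 := by
        intro e he
        obtain ⟨he1, he2, he3⟩ := Finset.mem_filter.1 he
        have hm := Finset.mem_product.1 he1
        refine ⟨hm.1, (cof_eq_iff (h.pos _ hm.1) (h.pos _ hm.2)).1 he3, ?_⟩
        have hcy : (1:ℝ) ≤ cof e.2 e.1 := by
          exact_mod_cast Crest.Agent.R4.HVW560.cof_pos (h.pos _ hm.2)
        have h1 : ψ e.1 ≤ DD ψ ψ e := le_trans (le_mul_of_one_le_left (h.ψ0 _ hm.1).le hcy) (le_max_left _ _)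
        have h2 : (1:ℝ)/T ≤ 1 := by rw [div_le_one hT0]; exact hT1
        linarith [not_lt.1 he2]
      calc ∑ e ∈ G, T12 θ ψ φ lab e.1 e.2 ≤ ∑ e ∈ G, CP * wt ψ e.1 := by
            refine Finset.sum_le_sum fun e he => ?_
            obtain ⟨g1, g2, g3⟩ := hdiag e he
            rw [← g2]
            exact T12_diag_le h g1 g3
        _ ≤ CP * ∑ q ∈ S, wt ψ q := by
            rw [← Finset.mul_sum]
            refine mul_le_mul_of_nonneg_left ?_ CP_nonneg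
            have hinj : Set.InjOn (fun e : ℕ × ℕ => e.1) (G : Set (ℕ × ℕ)) := by
              intro e he e' he' hee
              have g1 := (hdiag e he).2.1
              have g2 := (hdiag e' he').2.1
              exact Prod.ext hee (by rw [← g1, ← g2]; exact hee)
            rw [← Finset.sum_image (f := fun q => wt ψ q) (g := fun e : ℕ × ℕ => e.1) hinj]
            refine Finset.sum_le_sum_of_subset_of_nonneg ?_ (fun q hq _ => wt_nonneg (h.ψ0 q hq).le)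
            intro q hq
            obtain ⟨e, he, rfl⟩ := Finset.mem_image.1 hq
            exact (hdiag e he).1
        _ = CP * M := rfl
    · refine le_trans (le_of_eq ?_) key
      refine Finset.sum_congr ?_ (fun _ _ => rfl)
      rw [Finset.filter_filter]
      refine Finset.filter_congr fun e _ => ?_
      rw [not_lt]
      exact and_comm
  linarith

/-- **non-exact part of a tame leaf**: no condition on the label radius at all -/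
theorem leafP_tame : ∃ c0 : ℝ, 0 < c0 ∧ ∀ ε : ℝ, 0 < ε → ε ≤ 1/4 → ∃ C : ℝ, 1 ≤ C ∧
    ∀ c1 : ℝ, 0 < c1 → c1 ≤ c0 → ∃ T0 : ℝ, 2^50 ≤ T0 ∧
    ∀ (θ T X : ℝ) (S : Finset ℕ) (ψ φ : ℕ → ℝ) (lab : ℕ → Option ℚ) (G : ℕ),
    T0 ≤ T → X ≤ Real.exp (T^c1) → LeafP T θ S ψ φ lab → 0 < G → XTame X G S →
    ∑ q ∈ S, ∑ r ∈ S, T12 θ ψ φ lab q r ≤
      C * ((∑ q ∈ S, wt ψ q)^2 + T^(2*ε) * (∑ q ∈ S, wt ψ q)^(1+2*ε) +
        T^(-(6/1000):ℝ) * (∑ q ∈ S, wt ψ q)^(1+2*eps1) + ∑ q ∈ S, wt ψ q) := by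
  obtain ⟨CU, cU, hCU1, hcU, -, hT1'⟩ := leafP_T1
  obtain ⟨CB, cb, hCB1, hcb, hB⟩ := clsB
  set r : ℝ := 2 * CP * (CU + CB) / (1 - 2^(-(6/1000):ℝ)) with hr
  have hCP := CP_nonneg
  have hd : (0:ℝ) < 1 - 2^(-(6/1000):ℝ) := by
    have : (2:ℝ)^(-(6/1000):ℝ) < 1 := Real.rpow_lt_one_of_one_lt_of_neg (by norm_num) (by norm_num)
    linarith
  have hr0 : 0 ≤ r := by
    rw [hr]; exact div_nonneg (by positivity) hd.le
  refine ⟨min cb (cU/3), lt_min hcb (by positivity), fun ε hε hε4 => ?_⟩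
  have hCE := (CE_pos hε).le
  refine ⟨1 + 8 * CP + CP * CE ε * 2^(2*ε) + CP + r, ?_, fun c1 hc1 hc10 => ?_⟩
  · have : 0 ≤ CP * CE ε * 2^(2*ε) := by positivity
    linarith
  obtain ⟨T0, hT0⟩ := hB c1 hc1 (hc10.trans (min_le_left _ _))
  have hc13 : 3 * c1 ≤ cU := by
    have := hc10.trans (min_le_right _ _)
    linarith
  refine ⟨max (2^50) T0, le_max_left _ _, ?_⟩
  intro θ T X S ψ φ lab G hT hX h hG htame
  have hT50 : 2^50 ≤ T := (le_max_left _ _).trans hT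
  have hT0' : 0 < T := lt_of_lt_of_le (by norm_num) hT50
  have hcls := hT0 θ T X S S ψ ψ G ((le_max_right _ _).trans hT) hT0' hX hG htame htame
  have h1 := hT1' ε CB (6/1000) θ T (fun t => Real.exp (t^(3*c1))) S ψ φ lab hε hε4 (by linarith)
    (by norm_num) hT50 (by
      intro t ht
      refine Real.exp_le_exp.2 (Real.rpow_le_rpow_of_exponent_le ?_ hc13)
      exact le_trans (by norm_num) (hT50.trans ht)) h hcls
  have hmin : min (7/1000:ℝ) (6/1000) = 6/1000 := by norm_num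
  rw [hmin] at h1
  set M := ∑ q ∈ S, wt ψ q with hM
  have hM0 : 0 ≤ M := Finset.sum_nonneg fun v hv => wt_nonneg (h.ψ0 v hv).le
  have e1 : (2*T)^(2*ε) = 2^(2*ε) * T^(2*ε) := Real.mul_rpow (by norm_num) hT0'.le
  rw [e1] at h1
  have hb0 : 0 ≤ T^(2*ε) * M^(1+2*ε) := by positivity
  have ha0 : 0 ≤ T^(-(6/1000):ℝ) * M^(1+2*eps1) := by positivity
  have hM2 : 0 ≤ M^2 := by positivity
  have hp1 : 0 ≤ CP * CE ε * 2^(2*ε) := by positivity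
  set K : ℝ := 1 + 8 * CP + CP * CE ε * 2^(2*ε) + CP + r with hK
  have g1 : 8 * CP * M^2 ≤ K * M^2 := mul_le_mul_of_nonneg_right (by linarith) hM2
  have g2 : CP * CE ε * 2^(2*ε) * (T^(2*ε) * M^(1+2*ε)) ≤ K * (T^(2*ε) * M^(1+2*ε)) :=
    mul_le_mul_of_nonneg_right (by linarith) hb0
  have g3 : r * (T^(-(6/1000):ℝ) * M^(1+2*eps1)) ≤ K * (T^(-(6/1000):ℝ) * M^(1+2*eps1)) :=
    mul_le_mul_of_nonneg_right (by linarith) ha0
  have g4 : CP * M ≤ K * M := mul_le_mul_of_nonneg_right (by linarith) hM0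
  refine h1.trans ?_
  calc _ = 8 * CP * M^2 + CP * CE ε * 2^(2*ε) * (T^(2*ε) * M^(1+2*ε)) +
        r * (T^(-(6/1000):ℝ) * M^(1+2*eps1)) + CP * M := by ring
    _ ≤ _ := by
        have : K * (M^2 + T^(2*ε) * M^(1+2*ε) + T^(-(6/1000):ℝ) * M^(1+2*eps1) + M) =
          K * M^2 + K * (T^(2*ε) * M^(1+2*ε)) + K * (T^(-(6/1000):ℝ) * M^(1+2*eps1)) + K * M := by
            ring
        rw [this]
        linarith

end Crest.Agent.R4.LeafP734
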