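import Crest.Agent.R4.Frame758
import Crest.Agent.R4.AnnLeaf368
import Crest.Agent.R4.LeafP734

/-!
R4 (S0004), helper734: **total energy of a leaf of the item tree** (module J1).

`leafE_core`: transfer from the pieces of a leaf to the moduli `w = q / pr` on the leaf circle, for
item-level populations.
-/

set_option autoImplicit false
set_option linter.unusedSectionVars false
open Finset MeasureTheory

namespace Crest.Agent.R4.LeafS734

open Crest.Agent.R4.Tour104 (I PB I_sum)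
open Crest.Agent.R4.Ovl560 (nw)
open Crest.Agent.R4.LF363 (uw T02 T12 LW_uw Lab)
open Crest.Agent.R4.LF4 (T0I T1I)
open Crest.Agent.R4.HVW560 (wt)
open Crest.Agent.R4.Piece464 (pc Wt PB_pc pc_mono pc_smul pc_push Wt_nw)
open Crest.Agent.R4.Item758 (Par0 cf cf_nonneg IL)
open Crest.Agent.R4.Frame758 (lf LeafE)
open Crest.Agent.R4.AnnLeaf368 (world_pair_T')

section
variable {Λ κ₀ : Type*} [Fintype Λ] [DecidableEq Λ] [Fintype κ₀] [DecidableEq κ₀]

/-- data of a set `S'` of items of a leaf `(b, pr)`, `G` = common part of the moduli `q / pr`: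
`ρ q` = tree radius, `φ q`, `lab q` = threshold radius and label, `K` = constant of the weights -/
structure LD (D : Par0 Λ κ₀) (b pr G : ℕ) (S' : Finset ℕ) (K : ℝ) (ρ : ℕ → ℝ) (φ : ℕ → ℝ)
    (lab : ℕ → Option ℚ) : Prop where
  b0 : 0 < b
  K0 : 0 ≤ K
  pr0 : 0 < pr
  G0 : 0 < G
  pG : ∀ q ∈ S', Nat.Coprime pr G
  G2 : ∀ q ∈ S', (1 : ℝ) / 2 ≤ (Nat.totient G : ℝ) / G
  pos : ∀ q ∈ S', 0 < q
  dvd : ∀ q ∈ S', pr * G ∣ q
  cop : ∀ q ∈ S', Nat.Coprime (pr * G) (q / (pr * G))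
  ρ0 : ∀ q ∈ S', 0 < ρ q
  win : ∀ j, D.it j ∈ S' → -ρ (D.it j) ≤ D.al j ∧ D.be j ≤ ρ (D.it j)
  disj : ∀ j j', j ≠ j' → D.it j = D.it j' → D.be j ≤ D.al j' ∨ D.be j' ≤ D.al j
  omw : ∀ j, D.it j ∈ S' → Wt (D.it j / pr) (D.om j)
  om1 : ∀ j, D.it j ∈ S' → ∀ a, D.om j a ≤
    K * nw (D.it j / (pr * G)).primeFactors (uw (b * D.γ) (φ (D.it j)) (lab (D.it j))) a

/-- radius on the leaf circle -/
noncomputable def rad (b m : ℕ) (ρ : ℕ → ℝ) (v : ℕ) : ℝ := b * ρ (m * v)

variable {D : Par0 Λ κ₀} {b pr G : ℕ} {S' : Finset ℕ} {K : ℝ} {ρ φ : ℕ → ℝ} {lab : ℕ → Option ℚ}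

lemma LD.mul (h : LD D b pr G S' K ρ φ lab) {q : ℕ} (hq : q ∈ S') :
    pr * G * (q / (pr * G)) = q :=
  Nat.mul_div_cancel' (h.dvd q hq)

lemma LD.div_eq (h : LD D b pr G S' K ρ φ lab) {q : ℕ} (hq : q ∈ S') :
    q / pr = G * (q / (pr * G)) := by
  conv_lhs => rw [← h.mul hq, mul_assoc]
  exact Nat.mul_div_cancel_left _ h.pr0

lemma LD.vpos (h : LD D b pr G S' K ρ φ lab) {q : ℕ} (hq : q ∈ S') : 0 < q / (pr * G) :=
  Nat.div_pos (Nat.le_of_dvd (h.pos q hq) (h.dvd q hq))
    (Nat.pos_of_dvd_of_pos (h.dvd q hq) (h.pos q hq))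

lemma LD.wpos (h : LD D b pr G S' K ρ φ lab) {q : ℕ} (hq : q ∈ S') : 0 < q / pr := by
  rw [h.div_eq hq]; exact Nat.mul_pos h.G0 (h.vpos hq)

lemma LD.rad_eq (h : LD D b pr G S' K ρ φ lab) {q : ℕ} (hq : q ∈ S') :
    rad b (pr * G) ρ (q / (pr * G)) = b * ρ q := by unfold rad; rw [h.mul hq]

lemma LD.inj (h : LD D b pr G S' K ρ φ lab) :
    Set.InjOn (fun q => q / (pr * G)) (S' : Set ℕ) := by
  intro q hq q' hq' e
  have e' : q / (pr * G) = q' / (pr * G) := e
  rw [← h.mul hq, ← h.mul hq', e']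

lemma lf_nonneg_PB (h : LD D b pr G S' K ρ φ lab) {j : Λ} (hj : D.it j ∈ S') :
    PB (lf D b pr j) := PB_pc (h.wpos hj) (h.omw j hj)

/-- the integral is invariant under `x ↦ G x` -/
lemma I_push {G : ℕ} (hG : 0 < G) {f : ℝ → ℝ} (hf : PB f) : I (fun x => f (G * x)) = I f := by
  have h1 : PB (fun x => f (G * x)) := by
    obtain ⟨B, hB⟩ := hf.bdd
    refine ⟨hf.meas.comp (measurable_const.mul measurable_id), fun x => hf.nonneg _,
      ⟨B, fun x => hB _⟩, fun x => ?_⟩
    have : (G : ℝ) * (x + 1) = G * x + G := by ring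
    rw [this]; exact hf.per_nat G _
  rw [← Crest.Agent.R4.Tour104.I_Ep hG h1.integrableOn]
  congr 1
  funext y
  have h2 := Crest.Agent.R4.Tour104.Ep_pull_mul hG (a := f) (f := fun _ => 1) hf.per y
  simp only [mul_one] at h2
  rw [h2, Crest.Agent.R4.Tour104.Ep_const hG, mul_one]

/-- **one pair of items** -/
theorem pair_le (h : LD D b pr G S' K ρ φ lab) (A : Finset Λ) {q q' : ℕ} (hq : q ∈ S')
    (hq' : q' ∈ S') :
    ∑ j ∈ A.filter (fun j => D.it j = q), ∑ j' ∈ A.filter (fun j' => D.it j' = q'),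
      I (fun x => lf D b pr j x * lf D b pr j' x) ≤
    K ^ 2 * (T02 (b * D.γ) (rad b (pr * G) ρ) (fun v => φ (pr * G * v))
        (fun v => lab (pr * G * v)) (q / (pr * G)) (q' / (pr * G)) +
      T12 (b * D.γ) (rad b (pr * G) ρ) (fun v => φ (pr * G * v))
        (fun v => lab (pr * G * v)) (q / (pr * G)) (q' / (pr * G))) := by
  classical
  have hbR : (0 : ℝ) < b := by exact_mod_cast h.b0
  have hR : 0 < (b : ℝ) * ρ q := mul_pos hbR (h.ρ0 q hq)
  have hR' : 0 < (b : ℝ) * ρ q' := mul_pos hbR (h.ρ0 q' hq')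
  have hw := h.vpos hq
  have hw' := h.vpos hq'
  have hwR : (0 : ℝ) < ((q / (pr * G) : ℕ) : ℝ) := by exact_mod_cast hw
  have hwR' : (0 : ℝ) < ((q' / (pr * G) : ℕ) : ℝ) := by exact_mod_cast hw'
  have hmq := h.mul hq
  have hmq' := h.mul hq'
  have hre := h.rad_eq hq
  have hre' := h.rad_eq hq'
  set θ : ℝ := b * D.γ with hθ
  set w := q / (pr * G) with hwd
  set w' := q' / (pr * G) with hwd'
  set φ' : ℕ → ℝ := fun v => φ (pr * G * v) with hφ'
  set lab' : ℕ → Option ℚ := fun v => lab (pr * G * v) with hlab'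
  have fe : φ' w = φ q := by simp only [hφ']; rw [hmq]
  have fe' : φ' w' = φ q' := by simp only [hφ']; rw [hmq']
  have le : lab' w = lab q := by simp only [hlab']; rw [hmq]
  have le' : lab' w' = lab q' := by simp only [hlab']; rw [hmq']
  have key := world_pair_T' (ι := Λ) (ι' := Λ)
    ((A.filter fun j => D.it j = q) ×ˢ (A.filter fun j' => D.it j' = q'))
    (a := ⟨θ, rad b (pr * G) ρ w, φ' w, lab' w⟩) (b := ⟨θ, rad b (pr * G) ρ w', φ' w', lab' w'⟩)
    (η := 1) one_pos hw hw' (θ := θ) (θ' := θ) hR hR'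
    (by rw [one_mul]; exact hre) (by rw [one_mul]; exact hre')
    (fun j => b * D.al j) (fun j => b * D.be j) (fun j => b * D.al j) (fun j => b * D.be j)
    (fun e he => by
      have h1 := (Finset.mem_filter.1 (Finset.mem_product.1 he).1).2
      have h2 := h.win e.1 (by rw [h1]; exact hq)
      rw [h1] at h2
      constructor
      · have := mul_le_mul_of_nonneg_left h2.1 hbR.le
        linarith
      · exact mul_le_mul_of_nonneg_left h2.2 hbR.le)
    (fun e he => by
      have h1 := (Finset.mem_filter.1 (Finset.mem_product.1 he).2).2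
      have h2 := h.win e.2 (by rw [h1]; exact hq')
      rw [h1] at h2
      constructor
      · have := mul_le_mul_of_nonneg_left h2.1 hbR.le
        linarith
      · exact mul_le_mul_of_nonneg_left h2.2 hbR.le)
    (fun s s' e he f hf h1 h2 h3 h4 => by
      have e1 := (Finset.mem_filter.1 (Finset.mem_product.1 he).1).2
      have e2 := (Finset.mem_filter.1 (Finset.mem_product.1 he).2).2
      have f1 := (Finset.mem_filter.1 (Finset.mem_product.1 hf).1).2
      have f2 := (Finset.mem_filter.1 (Finset.mem_product.1 hf).2).2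
      have aux : ∀ (i i' : Λ) (s : ℝ), D.it i = D.it i' → ((b : ℝ) * D.al i ≤ s ∧ s < b * D.be i) →
          ((b : ℝ) * D.al i' ≤ s ∧ s < b * D.be i') → i = i' := by
        intro i i' s hi g1 g2
        by_contra hne
        rcases h.disj i i' hne hi with g | g
        · have := mul_le_mul_of_nonneg_left g hbR.le
          linarith [g1.2, g2.1]
        · have := mul_le_mul_of_nonneg_left g hbR.le
          linarith [g2.2, g1.1]
      exact Prod.ext (aux _ _ s (e1.trans f1.symm) h1 h3) (aux _ _ s' (e2.trans f2.symm) h2 h4))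
    (fun e he m n t h1 h2 => by
      have e1 := (Finset.mem_filter.1 (Finset.mem_product.1 he).1).2
      have e2 := (Finset.mem_filter.1 (Finset.mem_product.1 he).2).2
      have g1 := h.win e.1 (by rw [e1]; exact hq)
      have g2 := h.win e.2 (by rw [e2]; exact hq')
      rw [e1] at g1
      rw [e2] at g2
      have k1 := mul_le_mul_of_nonneg_left g1.1 hbR.le
      have k2 := mul_le_mul_of_nonneg_left g1.2 hbR.le
      have k3 := mul_le_mul_of_nonneg_left g2.1 hbR.le
      have k4 := mul_le_mul_of_nonneg_left g2.2 hbR.le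
      set u : ℝ := ((w : ℝ) * t - θ - m) with hu
      set v : ℝ := ((w' : ℝ) * t - θ - n) with hv
      have e3 : (θ + m) / (w : ℝ) - (θ + n) / (w' : ℝ) = v / w' - u / w := by
        rw [hu, hv]; field_simp; ring
      show |(θ + m) / (w : ℝ) - (θ + n) / (w' : ℝ)| <
        rad b (pr * G) ρ w / w + rad b (pr * G) ρ w' / w'
      rw [e3, hre, hre', abs_lt]
      have u1 : -(b * ρ q / w) ≤ u / w := by
        rw [← neg_div]; exact div_le_div_of_nonneg_right (by linarith [h1.1]) hwR.le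
      have u2 : u / w < b * ρ q / w := div_lt_div_of_pos_right (by linarith [h1.2]) hwR
      have v1 : -(b * ρ q' / w') ≤ v / w' := by
        rw [← neg_div]; exact div_le_div_of_nonneg_right (by linarith [h2.1]) hwR'.le
      have v2 : v / w' < b * ρ q' / w' := div_lt_div_of_pos_right (by linarith [h2.2]) hwR'
      constructor <;> linarith)
  rw [inv_one, one_mul] at key
  refine le_trans ?_ (mul_le_mul_of_nonneg_left key (sq_nonneg K))
  rw [Finset.sum_product, Finset.mul_sum]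
  refine Finset.sum_le_sum fun j hj => ?_
  rw [Finset.mul_sum]
  refine Finset.sum_le_sum fun j' hj' => ?_
  have e1 := (Finset.mem_filter.1 hj).2
  have e2 := (Finset.mem_filter.1 hj').2
  have p1 := lf_nonneg_PB h (j := j) (by rw [e1]; exact hq)
  have p2 := lf_nonneg_PB h (j := j') (by rw [e2]; exact hq')
  have m1 : Wt w (nw w.primeFactors (uw θ (φ' w) (lab' w))) :=
    Wt_nw (LW_uw _ _ _ _) fun l hl => Nat.dvd_of_mem_primeFactors hl
  have m2 : Wt w' (nw w'.primeFactors (uw θ (φ' w') (lab' w'))) :=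
    Wt_nw (LW_uw _ _ _ _) fun l hl => Nat.dvd_of_mem_primeFactors hl
  have n1 := PB_pc (θ := θ) (α := b * D.al j) (β := b * D.be j) hw m1
  have n2 := PB_pc (θ := θ) (α := b * D.al j') (β := b * D.be j') hw' m2
  set f₁ : ℝ → ℝ := pc θ (b * D.al j) (b * D.be j) w
    (nw w.primeFactors (uw θ (φ' w) (lab' w))) with hf₁
  set f₂ : ℝ → ℝ := pc θ (b * D.al j') (b * D.be j') w'
    (nw w'.primeFactors (uw θ (φ' w') (lab' w'))) with hf₂
  have n3 := n1.mul n2
  have hp3 : I (fun x => f₁ x * f₂ x) = I (fun x => f₁ (G * x) * f₂ (G * x)) :=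
    (I_push (f := fun x => f₁ x * f₂ x) h.G0 n3).symm
  have n4 : PB (fun x => f₁ (G * x) * f₂ (G * x)) := by
    obtain ⟨B, hB⟩ := n3.bdd
    refine ⟨n3.meas.comp (measurable_const.mul measurable_id), fun x => n3.nonneg _,
      ⟨B, fun x => hB _⟩, fun x => ?_⟩
    have e9 : (G : ℝ) * (x + 1) = G * x + G := by ring
    rw [e9]; exact n3.per_nat G _
  show _ ≤ K ^ 2 * I (fun x => f₁ x * f₂ x)
  rw [hp3, ← Crest.Agent.R4.Tour104.I_smul]
  refine Crest.Agent.R4.Tour104.I_mono (p1.mul p2).integrableOn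
    (n4.integrableOn.const_mul _) fun x => ?_
  have e3 : K ^ 2 * (f₁ (G * x) * f₂ (G * x)) = (K * f₁ (G * x)) * (K * f₂ (G * x)) := by ring
  have g1 : lf D b pr j x ≤ K * f₁ (G * x) := by
    have := h.om1 j (by rw [e1]; exact hq)
    rw [e1, ← fe, ← le] at this
    unfold lf
    rw [e1, h.div_eq hq, pc_push, hf₁, ← pc_smul]
    exact pc_mono this _
  have g2 : lf D b pr j' x ≤ K * f₂ (G * x) := by
    have := h.om1 j' (by rw [e2]; exact hq')
    rw [e2, ← fe', ← le'] at this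
    unfold lf
    rw [e2, h.div_eq hq', pc_push, hf₂, ← pc_smul]
    exact pc_mono this _
  show lf D b pr j x * lf D b pr j' x ≤ _
  rw [e3]
  exact mul_le_mul g1 g2 (p2.nonneg x) (mul_nonneg h.K0 (n1.nonneg _))

/-- **transfer**: the energy of an item-level population is at most the sum of the terms
`T02 + T12` over the moduli -/
theorem energy_le (h : LD D b pr G S' K ρ φ lab) (A : Finset Λ) :
    I (fun x => (∑ j ∈ A.filter (fun j => D.it j ∈ S'), lf D b pr j x) ^ 2) ≤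
      K ^ 2 * ∑ w ∈ ((A.image D.it) ∩ S').image (fun q => q / (pr * G)),
        ∑ w' ∈ ((A.image D.it) ∩ S').image (fun q => q / (pr * G)),
        (T02 (b * D.γ) (rad b (pr * G) ρ) (fun v => φ (pr * G * v)) (fun v => lab (pr * G * v)) w w'
        + T12 (b * D.γ) (rad b (pr * G) ρ) (fun v => φ (pr * G * v))
          (fun v => lab (pr * G * v)) w w') := by
  classical
  set Q : Finset ℕ := (A.image D.it) ∩ S' with hQ
  have hQS : Q ⊆ S' := Finset.inter_subset_right
  have hinj : Set.InjOn (fun q => q / (pr * G)) (Q : Set ℕ) := fun q hq q' hq' e =>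
    h.inj (hQS hq) (hQS hq') e
  have hpb : ∀ j ∈ A.filter (fun j => D.it j ∈ S'), PB (lf D b pr j) := fun j hj =>
    lf_nonneg_PB h (Finset.mem_filter.1 hj).2
  have h1 : I (fun x => (∑ j ∈ A.filter (fun j => D.it j ∈ S'), lf D b pr j x) ^ 2) =
      ∑ j ∈ A.filter (fun j => D.it j ∈ S'), ∑ j' ∈ A.filter (fun j => D.it j ∈ S'),
        I (fun x => lf D b pr j x * lf D b pr j' x) := by
    have e : (fun x => (∑ j ∈ A.filter (fun j => D.it j ∈ S'), lf D b pr j x) ^ 2) = fun x =>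
        ∑ j ∈ A.filter (fun j => D.it j ∈ S'), ∑ j' ∈ A.filter (fun j => D.it j ∈ S'),
          lf D b pr j x * lf D b pr j' x := by
      funext x
      rw [sq, Finset.sum_mul_sum]
    rw [e, I_sum _ fun j hj => (PB.sum _ fun j' hj' => (hpb j hj).mul (hpb j' hj')).integrableOn]
    exact Finset.sum_congr rfl fun j hj => I_sum _ fun j' hj' =>
      ((hpb j hj).mul (hpb j' hj')).integrableOn
  -- group by items
  have hfib : ∀ f : Λ → ℝ, ∑ j ∈ A.filter (fun j => D.it j ∈ S'), f j =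
      ∑ q ∈ Q, ∑ j ∈ A.filter (fun j => D.it j = q), f j := by
    intro f
    rw [← Finset.sum_fiberwise_of_maps_to (s := A.filter (fun j => D.it j ∈ S')) (t := Q)
      (g := D.it) (fun j hj => by
        rw [Finset.mem_filter] at hj
        exact Finset.mem_inter.2 ⟨Finset.mem_image_of_mem _ hj.1, hj.2⟩)]
    refine Finset.sum_congr rfl fun q hq => ?_
    refine Finset.sum_congr ?_ fun _ _ => rfl
    ext j
    simp only [Finset.mem_filter]
    constructor
    · rintro ⟨⟨a1, -⟩, a2⟩; exact ⟨a1, a2⟩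
    · rintro ⟨a1, a2⟩; exact ⟨⟨a1, by rw [a2]; exact hQS hq⟩, a2⟩
  rw [h1, hfib]
  rw [Finset.sum_image hinj, Finset.mul_sum]
  refine Finset.sum_le_sum fun q hq => ?_
  rw [Finset.sum_image hinj, Finset.mul_sum]
  have h3 : ∑ j ∈ A.filter (fun j => D.it j = q), ∑ j' ∈ A.filter (fun j => D.it j ∈ S'),
        I (fun x => lf D b pr j x * lf D b pr j' x) =
      ∑ q' ∈ Q, ∑ j ∈ A.filter (fun j => D.it j = q), ∑ j' ∈ A.filter (fun j' => D.it j' = q'),
        I (fun x => lf D b pr j x * lf D b pr j' x) := by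
    rw [Finset.sum_comm' (s := Q) (t' := A.filter (fun j => D.it j = q))
      (s' := fun _ => Q) (t := fun _ => A.filter (fun j => D.it j = q))
      (fun x y => by tauto)]
    exact Finset.sum_congr rfl fun j _ => hfib _
  rw [h3]
  exact Finset.sum_le_sum fun q' hq' => pair_le h A (hQS hq) (hQS hq')

/-- mass of a set of moduli -/
lemma mass_eq (h : LD D b pr G S' K ρ φ lab) {Q : Finset ℕ} (hQ : Q ⊆ S') :
    ∑ w ∈ Q.image (fun q => q / (pr * G)), wt (rad b (pr * G) ρ) w =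
      cf b pr * ((G : ℝ) / Nat.totient G) * ∑ q ∈ Q, ρ q * ((Nat.totient q : ℝ) / q) := by
  rw [Finset.sum_image fun q hq q' hq' e => h.inj (hQ hq) (hQ hq') e, Finset.mul_sum]
  refine Finset.sum_congr rfl fun q hq => ?_
  have hq' := hQ hq
  have hw := h.vpos hq'
  have e : q = pr * G * (q / (pr * G)) := (h.mul hq').symm
  have e1 : (Nat.totient q : ℝ) =
      Nat.totient pr * Nat.totient G * Nat.totient (q / (pr * G)) := by
    conv_lhs => rw [e]
    rw [Nat.totient_mul (h.cop q hq'), Nat.totient_mul (h.pG q hq')]; push_cast; ring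
  have e2 : (q : ℝ) = pr * G * ((q / (pr * G) : ℕ) : ℝ) := by exact_mod_cast e
  have hphi : (0 : ℝ) < Nat.totient pr := by exact_mod_cast Nat.totient_pos.2 h.pr0
  have hphiG : (0 : ℝ) < Nat.totient G := by exact_mod_cast Nat.totient_pos.2 h.G0
  have hprR : (0 : ℝ) < pr := by exact_mod_cast h.pr0
  have hGR : (0 : ℝ) < G := by exact_mod_cast h.G0
  have hwR : (0 : ℝ) < ((q / (pr * G) : ℕ) : ℝ) := by exact_mod_cast hw
  unfold wt cf
  rw [h.rad_eq hq', e1]
  conv_rhs => rw [e2]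
  field_simp

/-- mass of a set of moduli in terms of the pieces -/
lemma mass_le (h : LD D b pr G S' K ρ φ lab) {W : Λ → ℝ}
    (hfull : ∀ q ∈ S', 2 * (ρ q * ((Nat.totient q : ℝ) / q)) ≤
      ∑ j ∈ Finset.univ.filter (fun j => D.it j = q), W j) {Q : Finset ℕ} (hQ : Q ⊆ S') :
    ∑ w ∈ Q.image (fun q => q / (pr * G)), wt (rad b (pr * G) ρ) w ≤
      cf b pr * ∑ q ∈ Q, ∑ j ∈ Finset.univ.filter (fun j => D.it j = q), W j := by
  rcases Q.eq_empty_or_nonempty with rfl | ⟨q₀, hq₀⟩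
  · simp
  have hG2 := h.G2 q₀ (hQ hq₀)
  rw [mass_eq h hQ, mul_assoc]
  refine mul_le_mul_of_nonneg_left ?_ (cf_nonneg _ _)
  have hGR : (0 : ℝ) < G := by exact_mod_cast h.G0
  have hphiG : (0 : ℝ) < Nat.totient G := by exact_mod_cast Nat.totient_pos.2 h.G0
  have h2 : (G : ℝ) / Nat.totient G ≤ 2 := by
    rw [div_le_iff₀ hphiG]
    rw [le_div_iff₀ hGR] at hG2
    linarith
  have h3 : 0 ≤ ∑ q ∈ Q, ρ q * ((Nat.totient q : ℝ) / q) := Finset.sum_nonneg fun q hq =>
    mul_nonneg (h.ρ0 q (hQ hq)).le (by positivity)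
  calc (G : ℝ) / Nat.totient G * ∑ q ∈ Q, ρ q * ((Nat.totient q : ℝ) / q)
      ≤ 2 * ∑ q ∈ Q, ρ q * ((Nat.totient q : ℝ) / q) := mul_le_mul_of_nonneg_right h2 h3
    _ = ∑ q ∈ Q, 2 * (ρ q * ((Nat.totient q : ℝ) / q)) := by rw [Finset.mul_sum]
    _ ≤ _ := Finset.sum_le_sum fun q hq => hfull q (hQ hq)

/-- item sums of the masses -/
lemma sum_items_le {W : Λ → ℝ} (hW : ∀ j, 0 ≤ W j) (A : Finset Λ) (hA : IL D.it A) :
    ∑ q ∈ (A.image D.it) ∩ S', ∑ j ∈ Finset.univ.filter (fun j => D.it j = q), W j ≤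
      ∑ j ∈ A.filter (fun j => D.it j ∈ S'), W j := by
  classical
  calc ∑ q ∈ (A.image D.it) ∩ S', ∑ j ∈ Finset.univ.filter (fun j => D.it j = q), W j
      = ∑ q ∈ (A.image D.it) ∩ S', ∑ j ∈ (A.filter (fun j => D.it j ∈ S')).filter
          (fun j => D.it j = q), W j := by
        refine Finset.sum_congr rfl fun q hq => Finset.sum_congr ?_ fun _ _ => rfl
        obtain ⟨hq1, hq2⟩ := Finset.mem_inter.1 hq
        obtain ⟨i, hi, rfl⟩ := Finset.mem_image.1 hq1
        ext j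
        simp only [Finset.mem_filter, Finset.mem_univ, true_and]
        constructor
        · intro e; exact ⟨⟨(hA j i e).2 hi, by rw [e]; exact hq2⟩, e⟩
        · rintro ⟨_, e⟩; exact e
    _ ≤ ∑ j ∈ A.filter (fun j => D.it j ∈ S'), W j := by
        rw [← Finset.sum_biUnion]
        · refine Finset.sum_le_sum_of_subset_of_nonneg ?_ fun j _ _ => hW j
          intro j hj
          obtain ⟨q, -, hj⟩ := Finset.mem_biUnion.1 hj
          exact (Finset.mem_filter.1 hj).1
        · intro q _ q' _ hne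
          rw [Function.onFun, Finset.disjoint_left]
          intro j hj hj'
          exact hne (((Finset.mem_filter.1 hj).2).symm.trans (Finset.mem_filter.1 hj').2)

/-- **MODULE J1, core**: `HT` = the leaf theorem on the leaf circle for all sub-families. -/
theorem leafE_core (h : LD D b pr G S' K ρ φ lab) {W : Λ → ℝ} (hW : ∀ j, 0 ≤ W j)
    (hfull : ∀ q ∈ S', 2 * (ρ q * ((Nat.totient q : ℝ) / q)) ≤
      ∑ j ∈ Finset.univ.filter (fun j => D.it j = q), W j) {C ν : ℝ} (hC : 0 ≤ C) (hν : 0 ≤ ν)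
    (hνW : cf b pr * ∑ j ∈ Finset.univ.filter (fun j => D.it j ∈ S'), W j ≤ ν)
    (HT : ∀ V ⊆ S'.image (fun q => q / (pr * G)), ∑ w ∈ V, wt (rad b (pr * G) ρ) w ≤ ν →
      ∑ w ∈ V, ∑ w' ∈ V,
      (T02 (b * D.γ) (rad b (pr * G) ρ) (fun v => φ (pr * G * v)) (fun v => lab (pr * G * v)) w w' +
       T12 (b * D.γ) (rad b (pr * G) ρ) (fun v => φ (pr * G * v)) (fun v => lab (pr * G * v)) w w')
        ≤ C * ((∑ w ∈ V, wt (rad b (pr * G) ρ) w) * (1 + ν)))
    (A : Finset Λ) (hA : IL D.it A) :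
    I (fun x => (∑ j ∈ A.filter (fun j => D.it j ∈ S'), lf D b pr j x) ^ 2) ≤
      K ^ 2 * C * ((cf b pr * ∑ j ∈ A.filter (fun j => D.it j ∈ S'), W j) * (1 + ν)) := by
  classical
  have hQ : (A.image D.it) ∩ S' ⊆ S' := Finset.inter_subset_right
  have hm := mass_le h hfull hQ
  have hm2 := hm.trans (mul_le_mul_of_nonneg_left (sum_items_le (S' := S') hW A hA) (cf_nonneg b pr))
  have hm3 : ∑ w ∈ ((A.image D.it) ∩ S').image (fun q => q / (pr * G)),
      wt (rad b (pr * G) ρ) w ≤ ν := by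
    refine hm2.trans (le_trans (mul_le_mul_of_nonneg_left ?_ (cf_nonneg b pr)) hνW)
    refine Finset.sum_le_sum_of_subset_of_nonneg ?_ fun j _ _ => hW j
    intro j hj
    exact Finset.mem_filter.2 ⟨Finset.mem_univ _, (Finset.mem_filter.1 hj).2⟩
  refine (energy_le h A).trans ?_
  rw [mul_assoc]
  refine mul_le_mul_of_nonneg_left ?_ (sq_nonneg K)
  refine (HT _ (Finset.image_subset_image hQ) hm3).trans ?_
  refine mul_le_mul_of_nonneg_left (mul_le_mul_of_nonneg_right hm2 (by linarith)) hC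

/-- two families (canonical labels / stale labels), the other items have weight `0` -/
theorem leafE_two {S S₁ S₂ : Finset ℕ} (h₁ : S₁ ⊆ S) (h₂ : S₂ ⊆ S) (hd : Disjoint S₁ S₂)
    (h0 : ∀ j, D.it j ∈ S → D.it j ∉ S₁ → D.it j ∉ S₂ → ∀ a, D.om j a = 0)
    (hp₁ : ∀ j, D.it j ∈ S₁ → PB (lf D b pr j)) (hp₂ : ∀ j, D.it j ∈ S₂ → PB (lf D b pr j))
    {W : Λ → ℝ} (hW : ∀ j, 0 ≤ W j) {C : ℝ} (hC : 0 ≤ C)
    (E₁ : ∀ A : Finset Λ, IL D.it A →
      I (fun x => (∑ j ∈ A.filter (fun j => D.it j ∈ S₁), lf D b pr j x) ^ 2) ≤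
      C * ((cf b pr * ∑ j ∈ A.filter (fun j => D.it j ∈ S₁), W j) *
        (1 + cf b pr * ∑ j ∈ Finset.univ.filter (fun j => D.it j ∈ S), W j)))
    (E₂ : ∀ A : Finset Λ, IL D.it A →
      I (fun x => (∑ j ∈ A.filter (fun j => D.it j ∈ S₂), lf D b pr j x) ^ 2) ≤
      C * ((cf b pr * ∑ j ∈ A.filter (fun j => D.it j ∈ S₂), W j) *
        (1 + cf b pr * ∑ j ∈ Finset.univ.filter (fun j => D.it j ∈ S), W j))) :
    LeafE D W (2 * C) b pr S := by
  classical
  intro A hA _
  set f₁ : ℝ → ℝ := fun x => ∑ j ∈ A.filter (fun j => D.it j ∈ S₁), lf D b pr j x with hf₁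
  set f₂ : ℝ → ℝ := fun x => ∑ j ∈ A.filter (fun j => D.it j ∈ S₂), lf D b pr j x with hf₂
  have p₁ : PB f₁ := PB.sum _ fun j hj => hp₁ j (Finset.mem_filter.1 hj).2
  have p₂ : PB f₂ := PB.sum _ fun j hj => hp₂ j (Finset.mem_filter.1 hj).2
  have hsplit : ∀ f : Λ → ℝ, (∀ j ∈ A, D.it j ∈ S → D.it j ∉ S₁ → D.it j ∉ S₂ → f j = 0) →
      ∑ j ∈ A.filter (fun j => D.it j ∈ S), f j =
      ∑ j ∈ A.filter (fun j => D.it j ∈ S₁), f j + ∑ j ∈ A.filter (fun j => D.it j ∈ S₂), f j := by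
    intro f hf
    rw [← Finset.sum_union]
    · symm
      refine Finset.sum_subset ?_ ?_
      · intro j hj
        rcases Finset.mem_union.1 hj with hj | hj
        · exact Finset.mem_filter.2 ⟨(Finset.mem_filter.1 hj).1, h₁ (Finset.mem_filter.1 hj).2⟩
        · exact Finset.mem_filter.2 ⟨(Finset.mem_filter.1 hj).1, h₂ (Finset.mem_filter.1 hj).2⟩
      · intro j hj hn
        obtain ⟨g1, g2⟩ := Finset.mem_filter.1 hj
        refine hf j g1 g2 (fun g => hn ?_) fun g => hn ?_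
        · exact Finset.mem_union_left _ (Finset.mem_filter.2 ⟨g1, g⟩)
        · exact Finset.mem_union_right _ (Finset.mem_filter.2 ⟨g1, g⟩)
    · rw [Finset.disjoint_filter]
      intro j _ g1 g2
      exact Finset.disjoint_left.1 hd g1 g2
  have e1 : (fun x => (∑ j ∈ A.filter (fun j => D.it j ∈ S), lf D b pr j x) ^ 2) =
      fun x => (f₁ x + f₂ x) ^ 2 := by
    funext x
    rw [hsplit (fun j => lf D b pr j x)]
    intro j _ g1 g2 g3
    unfold lf pc
    exact Finset.sum_eq_zero fun a _ => h0 j g1 g2 g3 a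
  rw [e1]
  have hm : I (fun x => (f₁ x + f₂ x) ^ 2) ≤ 2 * (I (fun x => f₁ x ^ 2) + I (fun x => f₂ x ^ 2)) := by
    have q₁ : PB (fun x => f₁ x ^ 2) := by
      have := p₁.mul p₁
      have e : (fun x => f₁ x ^ 2) = fun x => f₁ x * f₁ x := by funext x; ring
      rw [e]; exact this
    have q₂ : PB (fun x => f₂ x ^ 2) := by
      have := p₂.mul p₂
      have e : (fun x => f₂ x ^ 2) = fun x => f₂ x * f₂ x := by funext x; ring
      rw [e]; exact this
    have q : PB (fun x => (f₁ x + f₂ x) ^ 2) := by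
      have := (p₁.add p₂).mul (p₁.add p₂)
      have e : (fun x => (f₁ x + f₂ x) ^ 2) = fun x => (f₁ x + f₂ x) * (f₁ x + f₂ x) := by
        funext x; ring
      rw [e]; exact this
    rw [← Crest.Agent.R4.Tour104.I_add q₁.integrableOn q₂.integrableOn,
      ← Crest.Agent.R4.Tour104.I_smul]
    refine Crest.Agent.R4.Tour104.I_mono q.integrableOn
      ((q₁.add q₂).integrableOn.const_mul _) fun x => ?_
    nlinarith [sq_nonneg (f₁ x - f₂ x)]
  refine hm.trans ?_
  have k₁ := E₁ A hA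
  have k₂ := E₂ A hA
  set N := cf b pr * ∑ j ∈ Finset.univ.filter (fun j => D.it j ∈ S), W j with hN
  have hN0 : 0 ≤ N := mul_nonneg (cf_nonneg _ _) (Finset.sum_nonneg fun j _ => hW j)
  have hmass : cf b pr * ∑ j ∈ A.filter (fun j => D.it j ∈ S₁), W j +
      cf b pr * ∑ j ∈ A.filter (fun j => D.it j ∈ S₂), W j ≤
      cf b pr * ∑ j ∈ A.filter (fun j => D.it j ∈ S), W j := by
    rw [← mul_add]
    refine mul_le_mul_of_nonneg_left ?_ (cf_nonneg _ _)
    rw [← Finset.sum_union]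
    · refine Finset.sum_le_sum_of_subset_of_nonneg ?_ fun j _ _ => hW j
      intro j hj
      rcases Finset.mem_union.1 hj with hj | hj
      · exact Finset.mem_filter.2 ⟨(Finset.mem_filter.1 hj).1, h₁ (Finset.mem_filter.1 hj).2⟩
      · exact Finset.mem_filter.2 ⟨(Finset.mem_filter.1 hj).1, h₂ (Finset.mem_filter.1 hj).2⟩
    · rw [Finset.disjoint_filter]
      intro j _ g1 g2
      exact Finset.disjoint_left.1 hd g1 g2
  set m := cf b pr * ∑ j ∈ A.filter (fun j => D.it j ∈ S), W j with hm'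
  set m₁ := cf b pr * ∑ j ∈ A.filter (fun j => D.it j ∈ S₁), W j
  set m₂ := cf b pr * ∑ j ∈ A.filter (fun j => D.it j ∈ S₂), W j
  calc 2 * (I (fun x => f₁ x ^ 2) + I (fun x => f₂ x ^ 2))
      ≤ 2 * (C * (m₁ * (1 + N)) + C * (m₂ * (1 + N))) := by linarith
    _ = 2 * C * ((m₁ + m₂) * (1 + N)) := by ring
    _ ≤ 2 * C * (m * (1 + N)) := by
        refine mul_le_mul_of_nonneg_left ?_ (by linarith)
        exact mul_le_mul_of_nonneg_right hmass (by linarith)
    _ = 2 * C * (m + m * N) := by ring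

end

end Crest.Agent.R4.LeafS734
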