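import Mathlib
import Crest.Agent.R4.AnnLeaf368
import Crest.Agent.R4.Frame758
import Crest.Agent.R4.World2_363

/-!
R4 (S0004), helper368: module J, in-world energy of the UNLABELLED items of a leaf (worlds = cells
around the true centres), in the form of `Frame758.LeafI`.
-/

set_option autoImplicit false
open Finset MeasureTheory
open scoped ENNReal

namespace Crest.Agent.R4.LeafU368

open Crest.Agent.R4.Ovl560 Crest.Agent.R4.AnnLeaf368
open Crest.Agent.R4.Piece464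
open Crest.Agent.R4.Tour104 (PB I)
open Crest.Agent.R4.HVW560 Crest.Agent.R4.ClsS Crest.Agent.R4.ClsB
open Crest.Agent.R4.LF363 Crest.Agent.R4.LF4
open Crest.Agent.R4.LF11 Crest.Agent.R4.LFA Crest.Agent.R4.LF12

/-- **pair lemma for worlds, common retained part `u`**: moduli `u q`, `u r`, the weights live on the
primes of `q`, `r` only. -/
theorem world_pair_U {ι ι' : Type*} (Rel : Finset (ι × ι')) {a b : Itm} {η : ℝ} (hη : 0 < η)
    {u q r : ℕ} (hu : 0 < u) (hq : 0 < q) (hr : 0 < r) {θ θ' R R' : ℝ} (hR : 0 < R) (hR' : 0 < R')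
    (ha : a.psi = η * R) (hb : b.psi = η * R')
    (α β : ι → ℝ) (α' β' : ι' → ℝ)
    (hα : ∀ e ∈ Rel, -R ≤ α e.1 ∧ β e.1 ≤ R) (hα' : ∀ e ∈ Rel, -R' ≤ α' e.2 ∧ β' e.2 ≤ R')
    (hdis : ∀ s s' : ℝ, ∀ e ∈ Rel, ∀ f ∈ Rel, (α e.1 ≤ s ∧ s < β e.1) →
      (α' e.2 ≤ s' ∧ s' < β' e.2) → (α f.1 ≤ s ∧ s < β f.1) → (α' f.2 ≤ s' ∧ s' < β' f.2) → e = f)
    (hW : ∀ e ∈ Rel, ∀ (m n : ℤ) (t : ℝ),
      (α e.1 ≤ ((u * q : ℕ) : ℝ) * t - θ - m ∧ ((u * q : ℕ) : ℝ) * t - θ - m < β e.1) →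
      (α' e.2 ≤ ((u * r : ℕ) : ℝ) * t - θ' - n ∧ ((u * r : ℕ) : ℝ) * t - θ' - n < β' e.2) →
      |(a.th + m) / q - (b.th + n) / r| ≤ η * min (R / q) (R' / r)) :
    ∑ e ∈ Rel, I (fun t =>
        pc θ (α e.1) (β e.1) (u * q) (nw q.primeFactors (uw a.th a.phi a.lab)) t *
        pc θ' (α' e.2) (β' e.2) (u * r) (nw r.primeFactors (uw b.th b.phi b.lab)) t) ≤
      η⁻¹ * (T0I a b q r + T1I a b q r) := by
  classical
  have hapos : 0 < a.psi := by rw [ha]; positivity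
  rw [T01_eq hq hr hapos]
  set x := cof q r with hx
  set y := cof r q with hy
  set g := Nat.gcd q r with hg
  have hxp : 0 < x := HVW560.cof_pos hq
  have hyp : 0 < y := HVW560.cof_pos hr
  have hgp : 0 < g := Nat.gcd_pos_of_pos_left _ hq
  have hxy : Nat.Coprime x y := HVW560.cof_coprime hq
  have hgx : g * x = q := LF363.gcd_mul_cof q r
  have hgy : g * y = r := LF363.gcd_mul_cof' q r
  have hugx : u * g * x = u * q := by rw [mul_assoc, hgx]
  have hugy : u * g * y = u * r := by rw [mul_assoc, hgy]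
  have hxr : (0 : ℝ) < x := by exact_mod_cast hxp
  have hyr : (0 : ℝ) < y := by exact_mod_cast hyp
  have hgr : (0 : ℝ) < g := by exact_mod_cast hgp
  have hqr : (0 : ℝ) < q := by exact_mod_cast hq
  have hrr : (0 : ℝ) < r := by exact_mod_cast hr
  have hur : (0 : ℝ) < u := by exact_mod_cast hu
  have key := world_pair Rel (u := uw a.th a.phi a.lab) (v := uw b.th b.phi b.lab)
    (LW_uw a.th a.phi a.lab q) (LW_uw b.th b.phi b.lab r)
    (fun _ hp => Nat.prime_of_mem_primeFactors hp) (fun _ hp => Nat.prime_of_mem_primeFactors hp)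
    (Nat.mul_pos hu hgp) hxp hyp hxy
    (fun p hp => by rw [hugx]; exact (Nat.dvd_of_mem_primeFactors hp).mul_left u)
    (fun p hp => by rw [hugy]; exact (Nat.dvd_of_mem_primeFactors hp).mul_left u)
    θ θ' R R' hR.le hR'.le
    (fun n => n * bA x y) (fun n => n * bB x y) (bez hxy) α β α' β' hα hα' hdis
    (win (x * b.th - y * a.th) (y * a.psi + x * b.psi))
  rw [hugx, hugy] at key
  have h1 := key (by
    intro e he m n t h1 h2
    have h3 := hW e he m n t h1 h2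
    rw [mem_win, ha, hb]
    have e3 : (q : ℝ) = g * x := by rw [← hgx]; push_cast; ring
    have e4 : (r : ℝ) = g * y := by rw [← hgy]; push_cast; ring
    have h4 : |(a.th + m) / q - (b.th + n) / r| ≤ η * (R / q) :=
      h3.trans (mul_le_mul_of_nonneg_left (min_le_left _ _) hη.le)
    have h5 : ((m * (y : ℤ) - n * (x : ℤ) : ℤ) : ℝ) - (x * b.th - y * a.th) =
        (g * x * y) * ((a.th + m) / q - (b.th + n) / r) := by
      rw [e3, e4]; push_cast; field_simp; ring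
    rw [h5, abs_mul, abs_of_pos (by positivity : (0 : ℝ) < g * x * y)]
    calc (g * x * y : ℝ) * |(a.th + m) / q - (b.th + n) / r|
        ≤ (g * x * y) * (η * (R / q)) := mul_le_mul_of_nonneg_left h4 (by positivity)
      _ = y * (η * R) := by rw [e3]; field_simp
      _ < y * (η * R) + x * (η * R') := by
          have : 0 < (x : ℝ) * (η * R') := by positivity
          linarith)
  refine h1.trans (le_of_eq ?_)
  have e5 : min (a.psi / (q : ℝ)) (b.psi / (r : ℝ)) = η * min (R / q) (R' / r) := by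
    rw [ha, hb, mul_min_of_nonneg _ _ hη.le]
    congr 1 <;> ring
  have e6 : min (R / ((u * q : ℕ) : ℝ)) (R' / ((u * r : ℕ) : ℝ)) = (u : ℝ)⁻¹ * min (R / q) (R' / r) := by
    rw [mul_min_of_nonneg _ _ (inv_nonneg.2 hur.le)]
    push_cast
    congr 1 <;> field_simp
  rw [e5, e6, Finset.mul_sum, Finset.mul_sum, Finset.mul_sum]
  refine Finset.sum_congr rfl fun n _ => ?_
  push_cast
  field_simp

/-- grouping a double sum over pieces by the items -/
lemma sum_group {Λ ω : Type*} [DecidableEq Λ] [DecidableEq ω] (J : Finset Λ) (w : Λ → ℕ)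
    (rr : Λ → ω) (F : Λ → Λ → ℝ) {S : Finset ℕ} (hS : ∀ j ∈ J, w j ∈ S) :
    ∑ j ∈ J, ∑ j' ∈ J.filter (fun j' => rr j = rr j'), F j j' =
      ∑ q ∈ S, ∑ r ∈ S, ∑ e ∈ ((J.filter (fun j => w j = q)) ×ˢ
        (J.filter (fun j => w j = r))).filter (fun e => rr e.1 = rr e.2), F e.1 e.2 := by
  have h1 : ∑ j ∈ J, ∑ j' ∈ J.filter (fun j' => rr j = rr j'), F j j' =
      ∑ e ∈ (J ×ˢ J).filter (fun e => rr e.1 = rr e.2), F e.1 e.2 := by
    rw [Finset.sum_filter, Finset.sum_product]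
    exact Finset.sum_congr rfl fun j _ => by rw [Finset.sum_filter]
  rw [h1, ← Finset.sum_fiberwise_of_maps_to (s := (J ×ˢ J).filter (fun e => rr e.1 = rr e.2))
    (t := S ×ˢ S) (g := fun e => (w e.1, w e.2)) (fun e he => ?_), Finset.sum_product]
  · refine Finset.sum_congr rfl fun q _ => Finset.sum_congr rfl fun r _ => ?_
    refine Finset.sum_congr ?_ fun _ _ => rfl
    ext e
    simp only [Finset.mem_filter, Finset.mem_product, Prod.mk.injEq]
    tauto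
  · have := Finset.mem_product.1 (Finset.mem_filter.1 he).1
    exact Finset.mem_product.2 ⟨hS _ this.1, hS _ this.2⟩

/-- **in-world energy, common retained part `u`**: moduli `u w j`; worlds `rr` such that two pieces
of one world which meet have centres closer than `η min (ψ/w, ψ'/w')`. -/
theorem leafIn_pieces : ∃ c0 C : ℝ, 0 < c0 ∧ 1 ≤ C ∧ ∀ c1 : ℝ, 0 < c1 → c1 ≤ c0 →
    ∃ T0 : ℝ, 2^50 ≤ T0 ∧
    ∀ (θ T η X : ℝ) (S : Finset ℕ) (ψ : ℕ → ℝ) (lab : ℕ → Option ℚ) (G u : ℕ)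
      (Λ ω : Type) [DecidableEq Λ] [DecidableEq ω] (J : Finset Λ) (w : Λ → ℕ) (al be : Λ → ℝ)
      (om : Λ → ℤ → ℝ) (rr : Λ → ω),
    T0 ≤ T → X ≤ Real.exp (T^c1) → 0 < η → η * (∑ q ∈ S, wt ψ q) * T ≤ 1 →
    Leaf 1 θ S (fun q => η * ψ q) (fun q => η * ψ q) lab → 0 < G → XTame X G S → 0 < u →
    (∀ j ∈ J, w j ∈ S) →
    (∀ j ∈ J, -ψ (w j) ≤ al j ∧ be j ≤ ψ (w j)) →
    (∀ j ∈ J, ∀ j' ∈ J, w j = w j' → ∀ s : ℝ, al j ≤ s → s < be j → al j' ≤ s → s < be j' →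
      j = j') →
    (∀ j ∈ J, Wt (u * w j) (om j)) →
    (∀ j ∈ J, ∀ a, om j a ≤ nw (w j).primeFactors (uw θ (η * ψ (w j)) (lab (w j))) a) →
    (∀ j ∈ J, ∀ j' ∈ J, rr j = rr j' → ∀ (m n : ℤ) (t : ℝ),
      (al j ≤ ((u * w j : ℕ) : ℝ) * t - θ - m ∧ ((u * w j : ℕ) : ℝ) * t - θ - m < be j) →
      (al j' ≤ ((u * w j' : ℕ) : ℝ) * t - θ - n ∧ ((u * w j' : ℕ) : ℝ) * t - θ - n < be j') →
      |(θ + m) / (w j) - (θ + n) / (w j')| ≤ η * min (ψ (w j) / (w j)) (ψ (w j') / (w j'))) →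
    ∑ j ∈ J, ∑ j' ∈ J.filter (fun j' => rr j = rr j'), I (fun t =>
        pc θ (al j) (be j) (u * w j) (om j) t * pc θ (al j') (be j') (u * w j') (om j') t) ≤
      C * ∑ q ∈ S, wt ψ q := by
  obtain ⟨c0, C, hc0, hC, hH⟩ := cellT
  refine ⟨c0, C, hc0, hC, fun c1 h1 h2 => ?_⟩
  obtain ⟨T0, hT0, hT⟩ := hH c1 h1 h2
  refine ⟨T0, hT0, ?_⟩
  intro θ T η X S ψ lab G u Λ ω _ _ J w al be om rr hT1 hX hη hηM hL hG htame hu hwS hwin hdis hWt
    hom hW
  have key := hT θ T η X S ψ lab G hT1 hX hη hηM hL hG htame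
  have hψ : ∀ q ∈ S, 0 < ψ q := fun q hq => by
    have := hL.ψ0 q hq
    exact (pos_iff_pos_of_mul_pos this).1 hη
  have hPB : ∀ j ∈ J, PB (pc θ (al j) (be j) (u * w j) (om j)) := fun j hj =>
    PB_pc (Nat.mul_pos hu (hL.pos _ (hwS j hj))) (hWt j hj)
  have hWn : ∀ j ∈ J, Wt (u * w j) (nw (w j).primeFactors (uw θ (η * ψ (w j)) (lab (w j)))) :=
    fun j _ => Wt_nw (LW_uw _ _ _ _) fun l hl => (Nat.dvd_of_mem_primeFactors hl).mul_left u
  have hPB' : ∀ j ∈ J, PB (pc θ (al j) (be j) (u * w j)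
      (nw (w j).primeFactors (uw θ (η * ψ (w j)) (lab (w j))))) := fun j hj =>
    PB_pc (Nat.mul_pos hu (hL.pos _ (hwS j hj))) (hWn j hj)
  have hmono : ∑ j ∈ J, ∑ j' ∈ J.filter (fun j' => rr j = rr j'), I (fun t =>
        pc θ (al j) (be j) (u * w j) (om j) t * pc θ (al j') (be j') (u * w j') (om j') t) ≤
      ∑ j ∈ J, ∑ j' ∈ J.filter (fun j' => rr j = rr j'), I (fun t =>
        pc θ (al j) (be j) (u * w j)
          (nw (w j).primeFactors (uw θ (η * ψ (w j)) (lab (w j)))) t *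
        pc θ (al j') (be j') (u * w j')
          (nw (w j').primeFactors (uw θ (η * ψ (w j')) (lab (w j')))) t) := by
    refine Finset.sum_le_sum fun j hj => Finset.sum_le_sum fun j' hj' => ?_
    have hj'' := (Finset.mem_filter.1 hj').1
    refine Crest.Agent.R4.Tour104.I_mono ((hPB j hj).mul (hPB j' hj'')).integrableOn
      ((hPB' j hj).mul (hPB' j' hj'')).integrableOn fun t => ?_
    exact mul_le_mul (pc_mono (hom j hj) t) (pc_mono (hom j' hj'') t)
      (pc_nonneg (hWt j' hj'') t) (pc_nonneg (hWn j hj) t)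
  refine hmono.trans ?_
  rw [sum_group J w rr _ hwS]
  have hpair : ∀ q ∈ S, ∀ r ∈ S,
      ∑ e ∈ ((J.filter (fun j => w j = q)) ×ˢ
        (J.filter (fun j => w j = r))).filter (fun e => rr e.1 = rr e.2), I (fun t =>
        pc θ (al e.1) (be e.1) (u * w e.1)
          (nw (w e.1).primeFactors (uw θ (η * ψ (w e.1)) (lab (w e.1)))) t *
        pc θ (al e.2) (be e.2) (u * w e.2)
          (nw (w e.2).primeFactors (uw θ (η * ψ (w e.2)) (lab (w e.2)))) t) ≤
      η⁻¹ * (T02 θ (fun q => η * ψ q) (fun q => η * ψ q) lab q r +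
        T12 θ (fun q => η * ψ q) (fun q => η * ψ q) lab q r) := by
    intro q hq r hr
    have hmem : ∀ e ∈ ((J.filter (fun j => w j = q)) ×ˢ
        (J.filter (fun j => w j = r))).filter (fun e => rr e.1 = rr e.2),
        (e.1 ∈ J ∧ w e.1 = q) ∧ (e.2 ∈ J ∧ w e.2 = r) ∧ rr e.1 = rr e.2 := by
      intro e he
      rw [Finset.mem_filter, Finset.mem_product, Finset.mem_filter, Finset.mem_filter] at he
      tauto
    have k := world_pair_U (((J.filter (fun j => w j = q)) ×ˢ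
        (J.filter (fun j => w j = r))).filter (fun e => rr e.1 = rr e.2))
      (a := ⟨θ, η * ψ q, η * ψ q, lab q⟩) (b := ⟨θ, η * ψ r, η * ψ r, lab r⟩)
      hη hu (hL.pos q hq) (hL.pos r hr) (θ := θ) (θ' := θ) (hψ q hq) (hψ r hr) rfl rfl al be al be
      (fun e he => ?_) (fun e he => ?_) (fun s s' e he f hf h1 h2 h3 h4 => ?_)
      (fun e he m n t h1 h2 => ?_)
    · refine le_trans (le_of_eq (Finset.sum_congr rfl fun e he => ?_)) k
      obtain ⟨⟨-, e1⟩, ⟨-, e2⟩, -⟩ := hmem e he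
      rw [e1, e2]
    · obtain ⟨⟨h1, e1⟩, -, -⟩ := hmem e he
      have := hwin _ h1
      rwa [e1] at this
    · obtain ⟨-, ⟨h1, e1⟩, -⟩ := hmem e he
      have := hwin _ h1
      rwa [e1] at this
    · obtain ⟨⟨a1, a2⟩, ⟨a3, a4⟩, -⟩ := hmem e he
      obtain ⟨⟨b1, b2⟩, ⟨b3, b4⟩, -⟩ := hmem f hf
      exact Prod.ext (hdis _ a1 _ b1 (a2.trans b2.symm) s h1.1 h1.2 h3.1 h3.2)
        (hdis _ a3 _ b3 (a4.trans b4.symm) s' h2.1 h2.2 h4.1 h4.2)
    · obtain ⟨⟨a1, a2⟩, ⟨a3, a4⟩, a5⟩ := hmem e he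
      have := hW _ a1 _ a3 a5 m n t
      rw [a2, a4] at this
      exact this h1 h2
  calc _ ≤ ∑ q ∈ S, ∑ r ∈ S, η⁻¹ * (T02 θ (fun q => η * ψ q) (fun q => η * ψ q) lab q r +
        T12 θ (fun q => η * ψ q) (fun q => η * ψ q) lab q r) :=
        Finset.sum_le_sum fun q hq => Finset.sum_le_sum fun r hr => hpair q hq r hr
    _ = η⁻¹ * (∑ q ∈ S, ∑ r ∈ S, T02 θ (fun q => η * ψ q) (fun q => η * ψ q) lab q r +
        ∑ q ∈ S, ∑ r ∈ S, T12 θ (fun q => η * ψ q) (fun q => η * ψ q) lab q r) := by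
        rw [← Finset.sum_add_distrib, Finset.mul_sum]
        refine Finset.sum_congr rfl fun q _ => ?_
        rw [← Finset.sum_add_distrib, Finset.mul_sum]
    _ ≤ η⁻¹ * (C * (η * ∑ q ∈ S, wt ψ q)) := mul_le_mul_of_nonneg_left key (by positivity)
    _ = C * ∑ q ∈ S, wt ψ q := by field_simp

lemma XTame_of_small {X : ℝ} (hX : 1 ≤ X) {S : Finset ℕ}
    (h : ∀ q ∈ S, ∀ l ∈ q.primeFactors, (l : ℝ) ≤ X) : XTame X 1 S := by
  intro z hz q hq
  refine ⟨one_dvd _, ?_⟩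
  rw [Nat.div_one, Finset.filter_false_of_mem fun p hp => not_lt.2 ((h q hq p hp).trans hz),
    Finset.sum_empty]
  have : 0 ≤ z := by linarith
  positivity

open Crest.Agent.R4.Frame758 Crest.Agent.R4.Item758 in
/-- **in-world energy of the unlabelled items of a leaf** (`J` = a set of pieces, closed under
'same item'; `u q`, `w q` = retained and small part of `q / pr`; `m` = any weights which dominate the
masses). -/
theorem leafI_U : ∃ c0 C : ℝ, 0 < c0 ∧ 1 ≤ C ∧ ∀ c1 : ℝ, 0 < c1 → c1 ≤ c0 →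
    ∃ T0 : ℝ, 2^50 ≤ T0 ∧
    ∀ (Λ κ₀ : Type) [Fintype Λ] [DecidableEq Λ] [Fintype κ₀] [DecidableEq κ₀] (D : Par0 Λ κ₀)
      (T η X : ℝ) (b pr : ℕ) (ψ : ℕ → ℝ) (lab : ℕ → Option ℚ) (u w : ℕ → ℕ) (J : Finset Λ)
      (m : Λ → ℝ),
    T0 ≤ T → 1 ≤ X → X ≤ Real.exp (T^c1) → 0 < η → (∀ j ∈ J, 0 ≤ m j) →
    η * (∑ j ∈ J, m j) * T ≤ 1 → 0 < b → 0 < pr →
    (∀ j ∈ J, 0 < u (D.it j) ∧ 0 < w (D.it j) ∧ D.it j = pr * (u (D.it j) * w (D.it j))) →
    (∀ j ∈ J, ∀ l ∈ (w (D.it j)).primeFactors, (l : ℝ) ≤ X) →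
    (∀ j ∈ J, 0 < ψ (D.it j)) →
    (∀ j ∈ J, ∀ ρ, lab (D.it j) = some ρ ↔ Lab (b * D.γ) (η * (b * ψ (D.it j))) ρ) →
    (∀ j ∈ J, -ψ (D.it j) ≤ D.al j ∧ D.be j ≤ ψ (D.it j)) →
    (∀ j ∈ J, ∀ j' ∈ J, D.it j = D.it j' → ∀ s : ℝ, D.al j ≤ s → s < D.be j → D.al j' ≤ s →
      s < D.be j' → j = j') →
    (∀ j ∈ J, Wt (D.it j / pr) (D.om j)) →
    (∀ j ∈ J, ∀ a, D.om j a ≤
      nw (w (D.it j)).primeFactors (uw (b * D.γ) (η * (b * ψ (D.it j))) (lab (D.it j))) a) →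
    (∀ j ∈ J, ∀ j' ∈ J, D.rhoL j = D.rhoL j' → u (D.it j) = u (D.it j')) →
    (∀ j ∈ J, ∀ j' ∈ J, D.rhoL j = D.rhoL j' → ∀ z z' : ℝ, D.al j ≤ z → z < D.be j →
      D.al j' ≤ z' → z' < D.be j' →
      |z / D.it j - z' / D.it j'| ≤ η * min (ψ (D.it j) / D.it j) (ψ (D.it j') / D.it j')) →
    (∀ j ∈ J, b * ψ (D.it j) * ((Nat.totient (w (D.it j)) : ℝ) / w (D.it j)) ≤
      ∑ j' ∈ J.filter (fun j' => D.it j' = D.it j), m j') →
    ∑ j ∈ J, ∑ j' ∈ J.filter (fun j' => D.rhoL j = D.rhoL j'),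
      I (fun x => lf D b pr j x * lf D b pr j' x) ≤ C * ∑ j ∈ J, m j := by
  obtain ⟨c0, C, hc0, hC, hH⟩ := leafIn_pieces
  refine ⟨c0, C, hc0, hC, fun c1 h1 h2 => ?_⟩
  obtain ⟨T0, hT0, hT⟩ := hH c1 h1 h2
  refine ⟨T0, hT0, ?_⟩
  intro Λ κ₀ _ _ _ _ D T η X b pr ψ lab u w J m hT1 hX1 hX hη hm hηM hb hpr hit hwX hψ hlab hwin
    hdis hWt hom hu hcl hmass
  have hbR : (0 : ℝ) < b := by exact_mod_cast hb
  have hprR : (0 : ℝ) < pr := by exact_mod_cast hpr
  -- split by the retained part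
  set U : Finset ℕ := J.image (fun j => u (D.it j)) with hU
  have hsplit : ∑ j ∈ J, ∑ j' ∈ J.filter (fun j' => D.rhoL j = D.rhoL j'),
      I (fun x => lf D b pr j x * lf D b pr j' x) =
      ∑ u0 ∈ U, ∑ j ∈ J.filter (fun j => u (D.it j) = u0),
        ∑ j' ∈ (J.filter (fun j => u (D.it j) = u0)).filter (fun j' => D.rhoL j = D.rhoL j'),
        I (fun x => lf D b pr j x * lf D b pr j' x) := by
    rw [← Finset.sum_fiberwise_of_maps_to (s := J) (t := U) (g := fun j => u (D.it j))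
      (fun j hj => Finset.mem_image_of_mem _ hj)]
    refine Finset.sum_congr rfl fun u0 _ => Finset.sum_congr rfl fun j hj => ?_
    obtain ⟨hj1, hj2⟩ := Finset.mem_filter.1 hj
    refine Finset.sum_congr ?_ fun _ _ => rfl
    ext j'
    simp only [Finset.mem_filter]
    constructor
    · rintro ⟨a, b⟩
      exact ⟨⟨a, by rw [← hu j hj1 j' a b, hj2]⟩, b⟩
    · rintro ⟨⟨a, _⟩, b⟩; exact ⟨a, b⟩
  rw [hsplit]
  have hsm : ∑ j ∈ J, m j = ∑ u0 ∈ U, ∑ j ∈ J.filter (fun j => u (D.it j) = u0), m j :=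
    (Finset.sum_fiberwise_of_maps_to (s := J) (t := U) (g := fun j => u (D.it j))
      (fun j hj => Finset.mem_image_of_mem _ hj) m).symm
  have hgoal : ∀ u0 ∈ U, ∑ j ∈ J.filter (fun j => u (D.it j) = u0),
        ∑ j' ∈ (J.filter (fun j => u (D.it j) = u0)).filter (fun j' => D.rhoL j = D.rhoL j'),
        I (fun x => lf D b pr j x * lf D b pr j' x) ≤
      C * ∑ j ∈ J.filter (fun j => u (D.it j) = u0), m j := by
    intro u0 hu0
    obtain ⟨j₁, hj₁, hj₁u⟩ := Finset.mem_image.1 hu0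
    have hu0p : 0 < u0 := by rw [← hj₁u]; exact (hit j₁ hj₁).1
    set J0 := J.filter (fun j => u (D.it j) = u0) with hJ0
    set S0 : Finset ℕ := J0.image (fun j => w (D.it j)) with hS0
    set ψ0 : ℕ → ℝ := fun v => b * ψ (pr * (u0 * v)) with hψ0
    set lab0 : ℕ → Option ℚ := fun v => lab (pr * (u0 * v)) with hlab0
    have hJ0m : ∀ j ∈ J0, j ∈ J ∧ u (D.it j) = u0 := fun j hj => Finset.mem_filter.1 hj
    have hq : ∀ j ∈ J0, pr * (u0 * w (D.it j)) = D.it j := by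
      intro j hj
      obtain ⟨a, e⟩ := hJ0m j hj
      conv_rhs => rw [(hit j a).2.2, e]
    have hS0m : ∀ v ∈ S0, ∃ j ∈ J0, w (D.it j) = v := fun v hv => by
      obtain ⟨j, a, e⟩ := Finset.mem_image.1 hv
      exact ⟨j, a, e⟩
    have hψq : ∀ j ∈ J0, ψ0 (w (D.it j)) = b * ψ (D.it j) := fun j hj => by
      rw [hψ0]; simp only; rw [hq j hj]
    have hlq : ∀ j ∈ J0, lab0 (w (D.it j)) = lab (D.it j) := fun j hj => by
      rw [hlab0]; simp only; rw [hq j hj]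
    -- mass
    have hfib : ∀ j ∈ J0, J0.filter (fun j' => w (D.it j') = w (D.it j)) =
        J.filter (fun j' => D.it j' = D.it j) := by
      intro j hj
      ext j'
      simp only [Finset.mem_filter]
      constructor
      · rintro ⟨a, e⟩
        refine ⟨(hJ0m j' a).1, ?_⟩
        rw [← hq j' a, e, hq j hj]
      · rintro ⟨a, e⟩
        refine ⟨?_, by rw [e]⟩
        rw [hJ0, Finset.mem_filter]
        exact ⟨a, by rw [e]; exact (hJ0m j hj).2⟩
    have hmass0 : ∑ v ∈ S0, wt ψ0 v ≤ ∑ j ∈ J0, m j := by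
      rw [← Finset.sum_fiberwise_of_maps_to (s := J0) (t := S0) (g := fun j => w (D.it j))
        (fun j hj => Finset.mem_image_of_mem _ hj)]
      refine Finset.sum_le_sum fun v hv => ?_
      obtain ⟨j, hj, rfl⟩ := hS0m v hv
      rw [hfib j hj]
      have := hmass j (hJ0m j hj).1
      refine le_trans (le_of_eq ?_) this
      unfold wt
      rw [hψq j hj]
    have hJle : ∑ j ∈ J0, m j ≤ ∑ j ∈ J, m j :=
      Finset.sum_le_sum_of_subset_of_nonneg (Finset.filter_subset _ _) fun j hj _ => hm j hj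
    have hT1' : 0 < T := by
      have : (2:ℝ)^50 ≤ T := hT0.trans hT1
      exact lt_of_lt_of_le (by norm_num) this
    have hηM0 : η * (∑ v ∈ S0, wt ψ0 v) * T ≤ 1 := by
      refine le_trans ?_ hηM
      exact mul_le_mul_of_nonneg_right (mul_le_mul_of_nonneg_left (hmass0.trans hJle) hη.le) hT1'.le
    have hLeaf : Leaf 1 (b * D.γ) S0 (fun q => η * ψ0 q) (fun q => η * ψ0 q) lab0 := by
      refine ⟨one_pos, le_rfl, ?_, ?_, ?_, ?_, ?_⟩
      · intro v hv
        obtain ⟨j, hj, rfl⟩ := hS0m v hv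
        exact (hit j (hJ0m j hj).1).2.1
      · intro v hv
        obtain ⟨j, hj, rfl⟩ := hS0m v hv
        have h3 := hψ j (hJ0m j hj).1
        simp only [hψq j hj]
        positivity
      · intro v _; simp
      · intro v _; exact le_rfl
      · intro v hv ρ
        obtain ⟨j, hj, rfl⟩ := hS0m v hv
        rw [hlq j hj]
        simp only [hψq j hj]
        exact hlab j (hJ0m j hj).1 ρ
    have key := hT (b * D.γ) T η X S0 ψ0 lab0 1 u0 Λ κ₀ J0 (fun j => w (D.it j))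
      (fun j => b * D.al j) (fun j => b * D.be j) D.om D.rhoL hT1 hX hη hηM0 hLeaf one_pos
      (XTame_of_small hX1 fun v hv => by
        obtain ⟨j, hj, rfl⟩ := hS0m v hv
        exact hwX j (hJ0m j hj).1) hu0p
      (fun j hj => Finset.mem_image_of_mem _ hj)
      (fun j hj => by
        have h3 := hwin j (hJ0m j hj).1
        rw [hψq j hj]
        constructor
        · nlinarith [mul_le_mul_of_nonneg_left h3.1 hbR.le]
        · exact mul_le_mul_of_nonneg_left h3.2 hbR.le)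
      (fun j hj j' hj' e s g1 g2 g3 g4 => by
        refine hdis j (hJ0m j hj).1 j' (hJ0m j' hj').1
          (by rw [← hq j hj, ← hq j' hj', e]) (s / b) ?_ ?_ ?_ ?_
        · rw [le_div_iff₀ hbR]; linarith
        · rw [div_lt_iff₀ hbR]; linarith
        · rw [le_div_iff₀ hbR]; linarith
        · rw [div_lt_iff₀ hbR]; linarith)
      (fun j hj => by
        have h3 := hWt j (hJ0m j hj).1
        have e : D.it j / pr = u0 * w (D.it j) := by
          conv_lhs => rw [← hq j hj]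
          exact Nat.mul_div_cancel_left _ hpr
        rwa [e] at h3)
      (fun j hj a => by
        have h3 := hom j (hJ0m j hj).1 a
        rw [hψq j hj, hlq j hj]
        exact h3)
      (fun j hj j' hj' e mm nn t g1 g2 => by
        have hj1 := (hJ0m j hj).1
        have hj1' := (hJ0m j' hj').1
        have hwp : (0 : ℝ) < w (D.it j) := by exact_mod_cast (hit j hj1).2.1
        have hwp' : (0 : ℝ) < w (D.it j') := by exact_mod_cast (hit j' hj1').2.1
        have hup : (0 : ℝ) < u0 := by exact_mod_cast hu0p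
        have hqe : ((D.it j : ℕ) : ℝ) = pr * (u0 * w (D.it j)) := by
          conv_lhs => rw [← hq j hj]
          push_cast; ring
        have hqe' : ((D.it j' : ℕ) : ℝ) = pr * (u0 * w (D.it j')) := by
          conv_lhs => rw [← hq j' hj']
          push_cast; ring
        rw [hψq j hj, hψq j' hj']
        set z := (((u0 * w (D.it j) : ℕ) : ℝ) * t - b * D.γ - mm) / b with hz
        set z' := (((u0 * w (D.it j') : ℕ) : ℝ) * t - b * D.γ - nn) / b with hz'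
        have h3 := hcl j hj1 j' hj1' e z z'
          (by rw [hz, le_div_iff₀ hbR]; linarith [g1.1])
          (by rw [hz, div_lt_iff₀ hbR]; linarith [g1.2])
          (by rw [hz', le_div_iff₀ hbR]; linarith [g2.1])
          (by rw [hz', div_lt_iff₀ hbR]; linarith [g2.2])
        have e1 : (b * D.γ + mm) / (w (D.it j) : ℝ) - (b * D.γ + nn) / (w (D.it j') : ℝ) =
            -(b * pr * u0) * (z / D.it j - z' / D.it j') := by
          rw [hz, hz', hqe, hqe']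
          push_cast
          field_simp
          ring
        rw [e1, abs_mul, abs_neg, abs_of_pos (by positivity : (0 : ℝ) < b * pr * u0)]
        calc (b * pr * u0 : ℝ) * |z / D.it j - z' / D.it j'|
            ≤ (b * pr * u0) * (η * min (ψ (D.it j) / D.it j) (ψ (D.it j') / D.it j')) :=
              mul_le_mul_of_nonneg_left h3 (by positivity)
          _ = η * ((b * pr * u0) * min (ψ (D.it j) / D.it j) (ψ (D.it j') / D.it j')) := by ring
          _ = η * min (b * ψ (D.it j) / (w (D.it j))) (b * ψ (D.it j') / (w (D.it j'))) := by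
              rw [mul_min_of_nonneg _ _ (by positivity : (0 : ℝ) ≤ b * pr * u0), hqe, hqe']
              congr 2 <;> field_simp)
    have hlf : ∀ j ∈ J0, ∀ x, lf D b pr j x =
        pc (b * D.γ) (b * D.al j) (b * D.be j) (u0 * w (D.it j)) (D.om j) x := by
      intro j hj x
      have e : D.it j / pr = u0 * w (D.it j) := by
        conv_lhs => rw [← hq j hj]
        exact Nat.mul_div_cancel_left _ hpr
      unfold Crest.Agent.R4.Frame758.lf
      rw [e]
    have e2 : ∑ j ∈ J0, ∑ j' ∈ J0.filter (fun j' => D.rhoL j = D.rhoL j'),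
        I (fun x => lf D b pr j x * lf D b pr j' x) =
        ∑ j ∈ J0, ∑ j' ∈ J0.filter (fun j' => D.rhoL j = D.rhoL j'), I (fun t =>
        pc (b * D.γ) (b * D.al j) (b * D.be j) (u0 * w (D.it j)) (D.om j) t *
        pc (b * D.γ) (b * D.al j') (b * D.be j') (u0 * w (D.it j')) (D.om j') t) := by
      refine Finset.sum_congr rfl fun j hj => Finset.sum_congr rfl fun j' hj' => ?_
      congr 1
      funext x
      rw [hlf j hj, hlf j' (Finset.mem_filter.1 hj').1]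
    rw [e2]
    refine key.trans ?_
    exact mul_le_mul_of_nonneg_left hmass0 (by linarith)
  refine (Finset.sum_le_sum hgoal).trans ?_
  rw [← Finset.mul_sum, ← hsm]

/-- a class sum splits along a property which is constant on classes -/
lemma sum_split {Λ ω : Type*} [DecidableEq Λ] [DecidableEq ω] (J : Finset Λ) (p : Λ → Prop)
    [DecidablePred p] (rr : Λ → ω) (F : Λ → Λ → ℝ)
    (hp : ∀ j ∈ J, ∀ j' ∈ J, rr j = rr j' → (p j ↔ p j')) :
    ∑ j ∈ J, ∑ j' ∈ J.filter (fun j' => rr j = rr j'), F j j' =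
      (∑ j ∈ J.filter p, ∑ j' ∈ (J.filter p).filter (fun j' => rr j = rr j'), F j j') +
      ∑ j ∈ J.filter (fun j => ¬ p j),
        ∑ j' ∈ (J.filter (fun j => ¬ p j)).filter (fun j' => rr j = rr j'), F j j' := by
  rw [← Finset.sum_filter_add_sum_filter_not J p]
  congr 1
  · refine Finset.sum_congr rfl fun j hj => ?_
    obtain ⟨h1, h2⟩ := Finset.mem_filter.1 hj
    refine Finset.sum_congr ?_ fun _ _ => rfl
    ext j'
    simp only [Finset.mem_filter]
    constructor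
    · rintro ⟨a, b⟩; exact ⟨⟨a, (hp j h1 j' a b).1 h2⟩, b⟩
    · rintro ⟨⟨a, _⟩, b⟩; exact ⟨a, b⟩
  · refine Finset.sum_congr rfl fun j hj => ?_
    obtain ⟨h1, h2⟩ := Finset.mem_filter.1 hj
    refine Finset.sum_congr ?_ fun _ _ => rfl
    ext j'
    simp only [Finset.mem_filter]
    constructor
    · rintro ⟨a, b⟩; exact ⟨⟨a, fun h => h2 ((hp j h1 j' a b).2 h)⟩, b⟩
    · rintro ⟨⟨a, _⟩, b⟩; exact ⟨a, b⟩

open Crest.Agent.R4.Frame758 Crest.Agent.R4.Item758 in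
/-- mass of one item in terms of the raw masses of its pieces -/
lemma mass_item {b pr u w q : ℕ} (hq : q = pr * (u * w)) (hpr : 0 < pr) (hu : 0 < u) (hw : 0 < w)
    (hc1 : Nat.Coprime pr (u * w)) (hc2 : Nat.Coprime u w)
    (hφ : (1 : ℝ) / 2 ≤ (Nat.totient u : ℝ) / u) {r L : ℝ} (hr : 0 ≤ r) (hL : r ≤ L) :
    b * r * ((Nat.totient w : ℝ) / w) ≤ 2 * Item758.cf b pr * (L * ((Nat.totient q : ℝ) / q)) := by
  have h1 : (0 : ℝ) < pr := by exact_mod_cast hpr
  have h2 : (0 : ℝ) < u := by exact_mod_cast hu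
  have h3 : (0 : ℝ) < w := by exact_mod_cast hw
  have h4 : (0 : ℝ) < Nat.totient pr := by exact_mod_cast Nat.totient_pos.2 hpr
  have e1 : (Nat.totient q : ℝ) = Nat.totient pr * (Nat.totient u * Nat.totient w) := by
    rw [hq, Nat.totient_mul hc1, Nat.totient_mul hc2]; push_cast; ring
  have e2 : (q : ℝ) = pr * (u * w) := by rw [hq]; push_cast; ring
  have e3 : 2 * Item758.cf b pr * (L * ((Nat.totient q : ℝ) / q)) =
      2 * ((Nat.totient u : ℝ) / u) * (b * L * ((Nat.totient w : ℝ) / w)) := by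
    unfold Item758.cf
    rw [e1, e2]
    field_simp
  rw [e3]
  have h5 : 0 ≤ b * L * ((Nat.totient w : ℝ) / w) := by
    have : 0 ≤ L := hr.trans hL
    positivity
  have h6 : b * r * ((Nat.totient w : ℝ) / w) ≤ b * L * ((Nat.totient w : ℝ) / w) := by
    refine mul_le_mul_of_nonneg_right (mul_le_mul_of_nonneg_left hL (Nat.cast_nonneg _)) ?_
    positivity
  nlinarith

open Crest.Agent.R4.Frame758 Crest.Agent.R4.Item758 in
/-- **LeafI for the unlabelled items**, raw masses `W j = (be j - al j) φ(q)/q`. -/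
theorem leafI_U' : ∃ c0 C : ℝ, 0 < c0 ∧ 1 ≤ C ∧ ∀ c1 : ℝ, 0 < c1 → c1 ≤ c0 →
    ∃ T0 : ℝ, 2^50 ≤ T0 ∧
    ∀ (Λ κ₀ : Type) [Fintype Λ] [DecidableEq Λ] [Fintype κ₀] [DecidableEq κ₀] (D : Par0 Λ κ₀)
      (W : Λ → ℝ) (T η X : ℝ) (b pr : ℕ) (ψ : ℕ → ℝ) (lab : ℕ → Option ℚ) (u w : ℕ → ℕ)
      (J : Finset Λ),
    T0 ≤ T → 1 ≤ X → X ≤ Real.exp (T^c1) → 0 < η → 0 < b → 0 < pr →
    (∀ j ∈ J, W j = (D.be j - D.al j) * ((Nat.totient (D.it j) : ℝ) / D.it j)) →
    (∀ j ∈ J, D.al j ≤ D.be j) →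
    (∀ j ∈ J, ∀ j', D.it j' = D.it j → j' ∈ J) →
    (∀ j ∈ J, ψ (D.it j) ≤
      ∑ j' ∈ Finset.univ.filter (fun j' => D.it j' = D.it j), (D.be j' - D.al j')) →
    η * (2 * Item758.cf b pr * ∑ j ∈ J, W j) * T ≤ 1 →
    (∀ j ∈ J, 0 < u (D.it j) ∧ 0 < w (D.it j) ∧ D.it j = pr * (u (D.it j) * w (D.it j)) ∧
      Nat.Coprime pr (u (D.it j) * w (D.it j)) ∧ Nat.Coprime (u (D.it j)) (w (D.it j)) ∧
      (1 : ℝ) / 2 ≤ (Nat.totient (u (D.it j)) : ℝ) / u (D.it j)) →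
    (∀ j ∈ J, ∀ l ∈ (w (D.it j)).primeFactors, (l : ℝ) ≤ X) →
    (∀ j ∈ J, 0 < ψ (D.it j)) →
    (∀ j ∈ J, ∀ ρ, lab (D.it j) = some ρ ↔ Lab (b * D.γ) (η * (b * ψ (D.it j))) ρ) →
    (∀ j ∈ J, -ψ (D.it j) ≤ D.al j ∧ D.be j ≤ ψ (D.it j)) →
    (∀ j ∈ J, ∀ j' ∈ J, D.it j = D.it j' → ∀ s : ℝ, D.al j ≤ s → s < D.be j → D.al j' ≤ s →
      s < D.be j' → j = j') →
    (∀ j ∈ J, Wt (D.it j / pr) (D.om j)) →
    (∀ j ∈ J, ∀ a, D.om j a ≤
      nw (w (D.it j)).primeFactors (uw (b * D.γ) (η * (b * ψ (D.it j))) (lab (D.it j))) a) →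
    (∀ j ∈ J, ∀ j' ∈ J, D.rhoL j = D.rhoL j' → u (D.it j) = u (D.it j')) →
    (∀ j ∈ J, ∀ j' ∈ J, D.rhoL j = D.rhoL j' → ∀ z z' : ℝ, D.al j ≤ z → z < D.be j →
      D.al j' ≤ z' → z' < D.be j' →
      |z / D.it j - z' / D.it j'| ≤ η * min (ψ (D.it j) / D.it j) (ψ (D.it j') / D.it j')) →
    ∑ j ∈ J, ∑ j' ∈ J.filter (fun j' => D.rhoL j = D.rhoL j'),
      I (fun x => Frame758.lf D b pr j x * Frame758.lf D b pr j' x) ≤
      2 * C * (Item758.cf b pr * ∑ j ∈ J, W j) := by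
  obtain ⟨c0, C, hc0, hC, hH⟩ := leafI_U
  refine ⟨c0, C, hc0, hC, fun c1 h1 h2 => ?_⟩
  obtain ⟨T0, hT0, hT⟩ := hH c1 h1 h2
  refine ⟨T0, hT0, ?_⟩
  intro Λ κ₀ _ _ _ _ D W T η X b pr ψ lab u w J hT1 hX1 hX hη hb hpr hW hab hcl hfull hηM hit hwX
    hψ hlab hwin hdis hWt hom hu hclose
  have hWn : ∀ j ∈ J, 0 ≤ W j := fun j hj => by
    rw [hW j hj]
    have := hab j hj
    exact mul_nonneg (by linarith) (by positivity)
  have hcf : 0 ≤ Item758.cf b pr := Item758.cf_nonneg _ _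
  have e : ∑ j ∈ J, 2 * Item758.cf b pr * W j = 2 * Item758.cf b pr * ∑ j ∈ J, W j := by
    rw [Finset.mul_sum]
  have key := hT Λ κ₀ D T η X b pr ψ lab u w J (fun j => 2 * Item758.cf b pr * W j) hT1 hX1 hX hη
    (fun j hj => mul_nonneg (by positivity) (hWn j hj)) (by rw [e]; exact hηM) hb hpr
    (fun j hj => ⟨(hit j hj).1, (hit j hj).2.1, (hit j hj).2.2.1⟩) hwX hψ hlab hwin hdis hWt hom hu
    hclose (fun j hj => ?_)
  · refine key.trans (le_of_eq ?_)
    rw [e]; ring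
  · obtain ⟨a1, a2, a3, a4, a5, a6⟩ := hit j hj
    have e3 : J.filter (fun j' => D.it j' = D.it j) =
        Finset.univ.filter (fun j' => D.it j' = D.it j) := by
      ext j'
      simp only [Finset.mem_filter, Finset.mem_univ, true_and]
      exact ⟨fun h => h.2, fun h => ⟨hcl j hj j' h, h⟩⟩
    have e4 : ∑ j' ∈ J.filter (fun j' => D.it j' = D.it j), 2 * Item758.cf b pr * W j' =
        2 * Item758.cf b pr *
          ((∑ j' ∈ Finset.univ.filter (fun j' => D.it j' = D.it j), (D.be j' - D.al j')) *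
            ((Nat.totient (D.it j) : ℝ) / D.it j)) := by
      rw [← Finset.mul_sum, e3, Finset.sum_mul]
      congr 1
      refine Finset.sum_congr rfl fun j' hj' => ?_
      have h3 := (Finset.mem_filter.1 hj').2
      rw [hW j' (hcl j hj j' h3), h3]
    rw [e4]
    exact mass_item a3 hpr a1 a2 a4 a5 a6 (hψ j hj).le (hfull j hj)

/-! ### version with different retained parts in one class (588 (M1)): tame leaves -/

open Crest.Agent.R4.Frame758 Crest.Agent.R4.Item758 in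
/-- **in-cell energy of the unlabelled items of a leaf, no condition on the retained parts**:
relation `rr` on pieces (e.g. equality of the index `ix`), tame leaf, weights at most `K` times the
leaf class weight at ALL primes of `w = it j / pr`. -/
theorem leafI_T : ∃ c0 C : ℝ, 0 < c0 ∧ 1 ≤ C ∧ ∀ c1 : ℝ, 0 < c1 → c1 ≤ c0 →
    ∃ T0 : ℝ, 2^50 ≤ T0 ∧
    ∀ (Λ κ₀ ω : Type) [Fintype Λ] [DecidableEq Λ] [DecidableEq ω] (D : Par0 Λ κ₀) (rr : Λ → ω)
      (T η X K : ℝ) (b pr G : ℕ) (ψ : ℕ → ℝ) (lab : ℕ → Option ℚ) (J : Finset Λ) (m : Λ → ℝ),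
    T0 ≤ T → X ≤ Real.exp (T^c1) → 0 < η → 0 < K → (∀ j ∈ J, 0 ≤ m j) →
    η * (∑ j ∈ J, m j) * T ≤ 1 → 0 < b → 0 < pr → 0 < G →
    (∀ j ∈ J, pr ∣ D.it j ∧ 0 < D.it j) →
    XTame X G (J.image fun j => D.it j / pr) →
    (∀ j ∈ J, 0 < ψ (D.it j)) →
    (∀ j ∈ J, ∀ ρ, lab (D.it j) = some ρ ↔ Lab (b * D.γ) (η * (b * ψ (D.it j))) ρ) →
    (∀ j ∈ J, -ψ (D.it j) ≤ D.al j ∧ D.be j ≤ ψ (D.it j)) →
    (∀ j ∈ J, ∀ j' ∈ J, D.it j = D.it j' → ∀ s : ℝ, D.al j ≤ s → s < D.be j → D.al j' ≤ s →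
      s < D.be j' → j = j') →
    (∀ j ∈ J, Wt (D.it j / pr) (D.om j)) →
    (∀ j ∈ J, ∀ a, D.om j a ≤ K *
      nw (D.it j / pr).primeFactors (uw (b * D.γ) (η * (b * ψ (D.it j))) (lab (D.it j))) a) →
    (∀ j ∈ J, ∀ j' ∈ J, rr j = rr j' → ∀ z z' : ℝ, D.al j ≤ z → z < D.be j →
      D.al j' ≤ z' → z' < D.be j' →
      |z / D.it j - z' / D.it j'| ≤ η * min (ψ (D.it j) / D.it j) (ψ (D.it j') / D.it j')) →
    (∀ j ∈ J, b * ψ (D.it j) *
        ((Nat.totient (D.it j / pr) : ℝ) / ((D.it j / pr : ℕ) : ℝ)) ≤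
      ∑ j' ∈ J.filter (fun j' => D.it j' = D.it j), m j') →
    ∑ j ∈ J, ∑ j' ∈ J.filter (fun j' => rr j = rr j'),
      I (fun x => Frame758.lf D b pr j x * Frame758.lf D b pr j' x) ≤ C * K^2 * ∑ j ∈ J, m j := by
  obtain ⟨c0, C, hc0, hC, hH⟩ := leafIn_pieces
  refine ⟨c0, C, hc0, hC, fun c1 h1 h2 => ?_⟩
  obtain ⟨T0, hT0, hT⟩ := hH c1 h1 h2
  refine ⟨T0, hT0, ?_⟩
  intro Λ κ₀ ω _ _ _ D rr T η X K b pr G ψ lab J m hT1 hX hη hK hm hηM hb hpr hG hit hXT hψ hlab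
    hwin hdis hWt hom hcl hmass
  have hbR : (0 : ℝ) < b := by exact_mod_cast hb
  have hprR : (0 : ℝ) < pr := by exact_mod_cast hpr
  set S0 : Finset ℕ := J.image (fun j => D.it j / pr) with hS0
  set ψ0 : ℕ → ℝ := fun v => b * ψ (pr * v) with hψ0
  set lab0 : ℕ → Option ℚ := fun v => lab (pr * v) with hlab0
  have hq : ∀ j ∈ J, pr * (D.it j / pr) = D.it j := fun j hj => Nat.mul_div_cancel' (hit j hj).1
  have hwpos : ∀ j ∈ J, 0 < D.it j / pr := fun j hj =>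
    Nat.div_pos (Nat.le_of_dvd (hit j hj).2 (hit j hj).1) hpr
  have hS0m : ∀ v ∈ S0, ∃ j ∈ J, D.it j / pr = v := fun v hv => by
    obtain ⟨j, a, e⟩ := Finset.mem_image.1 hv
    exact ⟨j, a, e⟩
  have hψq : ∀ j ∈ J, ψ0 (D.it j / pr) = b * ψ (D.it j) := fun j hj => by
    rw [hψ0]; simp only; rw [hq j hj]
  have hlq : ∀ j ∈ J, lab0 (D.it j / pr) = lab (D.it j) := fun j hj => by
    rw [hlab0]; simp only; rw [hq j hj]
  have hfib : ∀ j ∈ J, J.filter (fun j' => D.it j' / pr = D.it j / pr) =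
      J.filter (fun j' => D.it j' = D.it j) := by
    intro j hj
    ext j'
    simp only [Finset.mem_filter]
    constructor
    · rintro ⟨a, e⟩
      exact ⟨a, by rw [← hq j' a, e, hq j hj]⟩
    · rintro ⟨a, e⟩
      exact ⟨a, by rw [e]⟩
  have hmass0 : ∑ v ∈ S0, wt ψ0 v ≤ ∑ j ∈ J, m j := by
    rw [← Finset.sum_fiberwise_of_maps_to (s := J) (t := S0) (g := fun j => D.it j / pr)
      (fun j hj => Finset.mem_image_of_mem _ hj)]
    refine Finset.sum_le_sum fun v hv => ?_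
    obtain ⟨j, hj, rfl⟩ := hS0m v hv
    rw [hfib j hj]
    refine le_trans (le_of_eq ?_) (hmass j hj)
    unfold wt
    rw [hψq j hj]
  have hT1' : 0 < T := lt_of_lt_of_le (by norm_num) (hT0.trans hT1)
  have hηM0 : η * (∑ v ∈ S0, wt ψ0 v) * T ≤ 1 := by
    refine le_trans ?_ hηM
    exact mul_le_mul_of_nonneg_right (mul_le_mul_of_nonneg_left hmass0 hη.le) hT1'.le
  have hLeaf : Leaf 1 (b * D.γ) S0 (fun q => η * ψ0 q) (fun q => η * ψ0 q) lab0 := by
    refine ⟨one_pos, le_rfl, ?_, ?_, ?_, ?_, ?_⟩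
    · intro v hv
      obtain ⟨j, hj, rfl⟩ := hS0m v hv
      exact hwpos j hj
    · intro v hv
      obtain ⟨j, hj, rfl⟩ := hS0m v hv
      have h3 := hψ j hj
      simp only [hψq j hj]
      positivity
    · intro v _; simp
    · intro v _; exact le_rfl
    · intro v hv ρ
      obtain ⟨j, hj, rfl⟩ := hS0m v hv
      rw [hlq j hj]
      simp only [hψq j hj]
      exact hlab j hj ρ
  have key := hT (b * D.γ) T η X S0 ψ0 lab0 G 1 Λ ω J (fun j => D.it j / pr)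
    (fun j => b * D.al j) (fun j => b * D.be j) (fun j a => K⁻¹ * D.om j a) rr hT1 hX hη hηM0 hLeaf
    hG hXT one_pos
    (fun j hj => Finset.mem_image_of_mem _ hj)
    (fun j hj => by
      have h3 := hwin j hj
      rw [hψq j hj]
      constructor
      · nlinarith [mul_le_mul_of_nonneg_left h3.1 hbR.le]
      · exact mul_le_mul_of_nonneg_left h3.2 hbR.le)
    (fun j hj j' hj' e s g1 g2 g3 g4 => by
      refine hdis j hj j' hj' (by rw [← hq j hj, ← hq j' hj', e]) (s / b) ?_ ?_ ?_ ?_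
      · rw [le_div_iff₀ hbR]; linarith
      · rw [div_lt_iff₀ hbR]; linarith
      · rw [le_div_iff₀ hbR]; linarith
      · rw [div_lt_iff₀ hbR]; linarith)
    (fun j hj => by
      rw [one_mul]
      have h3 := hWt j hj
      exact ⟨fun a => mul_nonneg (inv_nonneg.2 hK.le) (h3.nonneg a), fun a => by rw [h3.per]⟩)
    (fun j hj a => by
      have h3 := hom j hj a
      rw [hψq j hj, hlq j hj]
      rw [inv_mul_le_iff₀ hK]
      exact h3)
    (fun j hj j' hj' e mm nn t g1 g2 => by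
      have hwp : (0 : ℝ) < ((D.it j / pr : ℕ) : ℝ) := by exact_mod_cast hwpos j hj
      have hwp' : (0 : ℝ) < ((D.it j' / pr : ℕ) : ℝ) := by exact_mod_cast hwpos j' hj'
      have hqe : ((D.it j : ℕ) : ℝ) = pr * ((D.it j / pr : ℕ) : ℝ) := by
        conv_lhs => rw [← hq j hj]
        push_cast; ring
      have hqe' : ((D.it j' : ℕ) : ℝ) = pr * ((D.it j' / pr : ℕ) : ℝ) := by
        conv_lhs => rw [← hq j' hj']
        push_cast; ring
      rw [hψq j hj, hψq j' hj']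
      rw [one_mul] at g1 g2
      set z := (((D.it j / pr : ℕ) : ℝ) * t - b * D.γ - mm) / b with hz
      set z' := (((D.it j' / pr : ℕ) : ℝ) * t - b * D.γ - nn) / b with hz'
      have h3 := hcl j hj j' hj' e z z'
        (by rw [hz, le_div_iff₀ hbR]; linarith [g1.1])
        (by rw [hz, div_lt_iff₀ hbR]; linarith [g1.2])
        (by rw [hz', le_div_iff₀ hbR]; linarith [g2.1])
        (by rw [hz', div_lt_iff₀ hbR]; linarith [g2.2])
      have e1 : (b * D.γ + mm) / ((D.it j / pr : ℕ) : ℝ) - (b * D.γ + nn) / ((D.it j' / pr : ℕ) : ℝ) =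
          -(b * pr) * (z / D.it j - z' / D.it j') := by
        rw [hz, hz', hqe, hqe']
        field_simp
        ring
      rw [e1, abs_mul, abs_neg, abs_of_pos (by positivity : (0 : ℝ) < b * pr)]
      calc (b * pr : ℝ) * |z / D.it j - z' / D.it j'|
          ≤ (b * pr) * (η * min (ψ (D.it j) / D.it j) (ψ (D.it j') / D.it j')) :=
            mul_le_mul_of_nonneg_left h3 (by positivity)
        _ = η * ((b * pr) * min (ψ (D.it j) / D.it j) (ψ (D.it j') / D.it j')) := by ring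
        _ = η * min (b * ψ (D.it j) / ((D.it j / pr : ℕ) : ℝ))
              (b * ψ (D.it j') / ((D.it j' / pr : ℕ) : ℝ)) := by
            rw [mul_min_of_nonneg _ _ (by positivity : (0 : ℝ) ≤ b * pr), hqe, hqe']
            congr 2 <;> field_simp)
  have hlf : ∀ j, ∀ x, Frame758.lf D b pr j x = K *
      pc (b * D.γ) (b * D.al j) (b * D.be j) (1 * (D.it j / pr)) (fun a => K⁻¹ * D.om j a) x := by
    intro j x
    unfold Crest.Agent.R4.Frame758.lf pc
    rw [one_mul, Finset.mul_sum]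
    refine Finset.sum_congr rfl fun a _ => ?_
    field_simp
  have e2 : ∑ j ∈ J, ∑ j' ∈ J.filter (fun j' => rr j = rr j'),
      I (fun x => Frame758.lf D b pr j x * Frame758.lf D b pr j' x) =
      K^2 * ∑ j ∈ J, ∑ j' ∈ J.filter (fun j' => rr j = rr j'), I (fun t =>
      pc (b * D.γ) (b * D.al j) (b * D.be j) (1 * (D.it j / pr)) (fun a => K⁻¹ * D.om j a) t *
      pc (b * D.γ) (b * D.al j') (b * D.be j') (1 * (D.it j' / pr))
        (fun a => K⁻¹ * D.om j' a) t) := by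
    rw [Finset.mul_sum]
    refine Finset.sum_congr rfl fun j hj => ?_
    rw [Finset.mul_sum]
    refine Finset.sum_congr rfl fun j' hj' => ?_
    rw [← Crest.Agent.R4.Tour104.I_smul]
    congr 1
    funext x
    rw [hlf j, hlf j']
    ring
  rw [e2]
  calc K^2 * _ ≤ K^2 * (C * ∑ q ∈ S0, wt ψ0 q) := mul_le_mul_of_nonneg_left key (by positivity)
    _ ≤ K^2 * (C * ∑ j ∈ J, m j) := by
        refine mul_le_mul_of_nonneg_left (mul_le_mul_of_nonneg_left hmass0 (by linarith)) ?_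
        positivity
    _ = _ := by ring

open Crest.Agent.R4.Frame758 Crest.Agent.R4.Item758 in
/-- the same with raw masses `W j = (be j - al j) φ(q)/q` -/
theorem leafI_T' : ∃ c0 C : ℝ, 0 < c0 ∧ 1 ≤ C ∧ ∀ c1 : ℝ, 0 < c1 → c1 ≤ c0 →
    ∃ T0 : ℝ, 2^50 ≤ T0 ∧
    ∀ (Λ κ₀ ω : Type) [Fintype Λ] [DecidableEq Λ] [DecidableEq ω] (D : Par0 Λ κ₀) (rr : Λ → ω)
      (W : Λ → ℝ) (T η X K : ℝ) (b pr G : ℕ) (ψ : ℕ → ℝ) (lab : ℕ → Option ℚ) (J : Finset Λ),
    T0 ≤ T → X ≤ Real.exp (T^c1) → 0 < η → 0 < K → 0 < b → 0 < pr → 0 < G →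
    (∀ j ∈ J, W j = (D.be j - D.al j) * ((Nat.totient (D.it j) : ℝ) / D.it j)) →
    (∀ j ∈ J, D.al j ≤ D.be j) →
    (∀ j ∈ J, ∀ j', D.it j' = D.it j → j' ∈ J) →
    (∀ j ∈ J, ψ (D.it j) ≤
      ∑ j' ∈ Finset.univ.filter (fun j' => D.it j' = D.it j), (D.be j' - D.al j')) →
    η * (2 * Item758.cf b pr * ∑ j ∈ J, W j) * T ≤ 1 →
    (∀ j ∈ J, pr ∣ D.it j ∧ 0 < D.it j ∧ Nat.Coprime pr (D.it j / pr)) →
    XTame X G (J.image fun j => D.it j / pr) →
    (∀ j ∈ J, 0 < ψ (D.it j)) →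
    (∀ j ∈ J, ∀ ρ, lab (D.it j) = some ρ ↔ Lab (b * D.γ) (η * (b * ψ (D.it j))) ρ) →
    (∀ j ∈ J, -ψ (D.it j) ≤ D.al j ∧ D.be j ≤ ψ (D.it j)) →
    (∀ j ∈ J, ∀ j' ∈ J, D.it j = D.it j' → ∀ s : ℝ, D.al j ≤ s → s < D.be j → D.al j' ≤ s →
      s < D.be j' → j = j') →
    (∀ j ∈ J, Wt (D.it j / pr) (D.om j)) →
    (∀ j ∈ J, ∀ a, D.om j a ≤ K *
      nw (D.it j / pr).primeFactors (uw (b * D.γ) (η * (b * ψ (D.it j))) (lab (D.it j))) a) →
    (∀ j ∈ J, ∀ j' ∈ J, rr j = rr j' → ∀ z z' : ℝ, D.al j ≤ z → z < D.be j →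
      D.al j' ≤ z' → z' < D.be j' →
      |z / D.it j - z' / D.it j'| ≤ η * min (ψ (D.it j) / D.it j) (ψ (D.it j') / D.it j')) →
    ∑ j ∈ J, ∑ j' ∈ J.filter (fun j' => rr j = rr j'),
      I (fun x => Frame758.lf D b pr j x * Frame758.lf D b pr j' x) ≤
      2 * C * K^2 * (Item758.cf b pr * ∑ j ∈ J, W j) := by
  obtain ⟨c0, C, hc0, hC, hH⟩ := leafI_T
  refine ⟨c0, C, hc0, hC, fun c1 h1 h2 => ?_⟩
  obtain ⟨T0, hT0, hT⟩ := hH c1 h1 h2
  refine ⟨T0, hT0, ?_⟩
  intro Λ κ₀ ω _ _ _ D rr W T η X K b pr G ψ lab J hT1 hX hη hK hb hpr hG hW hab hcl hfull hηM hit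
    hXT hψ hlab hwin hdis hWt hom hclose
  have hWn : ∀ j ∈ J, 0 ≤ W j := fun j hj => by
    rw [hW j hj]
    have := hab j hj
    exact mul_nonneg (by linarith) (by positivity)
  have hcf : 0 ≤ Item758.cf b pr := Item758.cf_nonneg _ _
  have e : ∑ j ∈ J, 2 * Item758.cf b pr * W j = 2 * Item758.cf b pr * ∑ j ∈ J, W j := by
    rw [Finset.mul_sum]
  have key := hT Λ κ₀ ω D rr T η X K b pr G ψ lab J (fun j => 2 * Item758.cf b pr * W j) hT1 hX hη hK
    (fun j hj => mul_nonneg (by positivity) (hWn j hj)) (by rw [e]; exact hηM) hb hpr hG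
    (fun j hj => ⟨(hit j hj).1, (hit j hj).2.1⟩) hXT hψ hlab hwin hdis hWt hom
    hclose (fun j hj => ?_)
  · refine key.trans (le_of_eq ?_)
    rw [e]; ring
  · obtain ⟨a1, a2, a3⟩ := hit j hj
    have hwpos : 0 < D.it j / pr := Nat.div_pos (Nat.le_of_dvd a2 a1) hpr
    have e3 : J.filter (fun j' => D.it j' = D.it j) =
        Finset.univ.filter (fun j' => D.it j' = D.it j) := by
      ext j'
      simp only [Finset.mem_filter, Finset.mem_univ, true_and]
      exact ⟨fun h => h.2, fun h => ⟨hcl j hj j' h, h⟩⟩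
    have e4 : ∑ j' ∈ J.filter (fun j' => D.it j' = D.it j), 2 * Item758.cf b pr * W j' =
        2 * Item758.cf b pr *
          ((∑ j' ∈ Finset.univ.filter (fun j' => D.it j' = D.it j), (D.be j' - D.al j')) *
            ((Nat.totient (D.it j) : ℝ) / D.it j)) := by
      rw [← Finset.mul_sum, e3, Finset.sum_mul]
      congr 1
      refine Finset.sum_congr rfl fun j' hj' => ?_
      have h3 := (Finset.mem_filter.1 hj').2
      rw [hW j' (hcl j hj j' h3), h3]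
    rw [e4]
    have h5 := mass_item (b := b) (pr := pr) (u := 1) (w := D.it j / pr) (q := D.it j)
      (by rw [one_mul, Nat.mul_div_cancel' a1]) hpr one_pos hwpos (by rw [one_mul]; exact a3)
      (Nat.coprime_one_left _) (by norm_num) (hψ j hj).le (hfull j hj)
    exact h5

end Crest.Agent.R4.LeafU368
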