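import Crest.Agent.R4.LeafU368
import Crest.Agent.R4.LeafL363

/-!
R4 (S0004), helper944: module J, in-world energy of the UNLABELLED items of a leaf in the (M1) form:
arbitrary classes `rr` (for example the world index without the retained part), the common retained
part `u₀` of the leaf is stripped, the other retained primes stay in `w` (tame). A constant `K` in
the comparison of the weights is allowed.
-/

set_option autoImplicit false
open Finset MeasureTheory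
open scoped ENNReal

namespace Crest.Agent.R4.LeafUX944

open Crest.Agent.R4.Ovl560 Crest.Agent.R4.AnnLeaf368 Crest.Agent.R4.LeafU368
open Crest.Agent.R4.Piece464
open Crest.Agent.R4.Tour104 (PB I)
open Crest.Agent.R4.HVW560 Crest.Agent.R4.ClsS Crest.Agent.R4.ClsB
open Crest.Agent.R4.LF363 Crest.Agent.R4.LF4
open Crest.Agent.R4.LF11 Crest.Agent.R4.LFA Crest.Agent.R4.LF12
open Crest.Agent.R4.Frame758 Crest.Agent.R4.Item758

variable {Λ κ₀ : Type}

/-- the same data, weights divided by `K` -/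
noncomputable def scl (D : Par0 Λ κ₀) (K : ℝ) : Par0 Λ κ₀ :=
  { D with om := fun j a => D.om j a / K }

lemma lf_scl (D : Par0 Λ κ₀) {K : ℝ} (hK : K ≠ 0) (b pr : ℕ) (j : Λ) (x : ℝ) :
    lf D b pr j x = K * lf (scl D K) b pr j x := by
  unfold Frame758.lf pc scl
  rw [Finset.mul_sum]
  refine Finset.sum_congr rfl fun a _ => ?_
  simp only
  field_simp

lemma sum_lf_scl [DecidableEq Λ] (D : Par0 Λ κ₀) {K : ℝ} (hK : K ≠ 0) (b pr : ℕ) {ω : Type*}
    [DecidableEq ω] (rr : Λ → ω) (J : Finset Λ) :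
    ∑ j ∈ J, ∑ j' ∈ J.filter (fun j' => rr j = rr j'),
      I (fun x => lf D b pr j x * lf D b pr j' x) =
    K ^ 2 * ∑ j ∈ J, ∑ j' ∈ J.filter (fun j' => rr j = rr j'),
      I (fun x => lf (scl D K) b pr j x * lf (scl D K) b pr j' x) := by
  rw [Finset.mul_sum]
  refine Finset.sum_congr rfl fun j _ => ?_
  rw [Finset.mul_sum]
  refine Finset.sum_congr rfl fun j' _ => ?_
  unfold Tour104.I
  rw [← MeasureTheory.integral_const_mul]
  congr 1
  funext x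
  simp only
  rw [lf_scl D hK b pr j x, lf_scl D hK b pr j' x]
  ring

lemma Wt.scl {w : ℕ} {κ : ℤ → ℝ} (h : Wt w κ) {K : ℝ} (hK : 0 < K) : Wt w fun a => κ a / K :=
  ⟨fun a => div_nonneg (h.nonneg a) hK.le, fun a => by simp only [h.per a]⟩

/-- **in-world energy of the unlabelled items of a leaf, (M1) form** -/
theorem leafI_UX : ∃ c0 C : ℝ, 0 < c0 ∧ 1 ≤ C ∧ ∀ c1 : ℝ, 0 < c1 → c1 ≤ c0 →
    ∃ T0 : ℝ, 2^50 ≤ T0 ∧
    ∀ (Λ κ₀ ω : Type) [Fintype Λ] [DecidableEq Λ] [Fintype κ₀] [DecidableEq κ₀] [DecidableEq ω]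
      (D : Par0 Λ κ₀) (rr : Λ → ω) (T η X : ℝ) (b pr u₀ G : ℕ) (ψ : ℕ → ℝ) (lab : ℕ → Option ℚ)
      (w : ℕ → ℕ) (J : Finset Λ) (m : Λ → ℝ),
    T0 ≤ T → X ≤ Real.exp (T^c1) → 0 < η → (∀ j ∈ J, 0 ≤ m j) →
    η * (∑ j ∈ J, m j) * T ≤ 1 → 0 < b → 0 < pr → 0 < u₀ → 0 < G →
    (∀ j ∈ J, 0 < w (D.it j) ∧ D.it j = pr * (u₀ * w (D.it j))) →
    (∀ z : ℝ, X ≤ z → ∀ j ∈ J, Tame z G (w (D.it j))) →
    (∀ j ∈ J, 0 < ψ (D.it j)) →
    (∀ j ∈ J, ∀ ρ, lab (D.it j) = some ρ ↔ Lab (b * D.γ) (η * (b * ψ (D.it j))) ρ) →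
    (∀ j ∈ J, -ψ (D.it j) ≤ D.al j ∧ D.be j ≤ ψ (D.it j)) →
    (∀ j ∈ J, ∀ j' ∈ J, D.it j = D.it j' → ∀ s : ℝ, D.al j ≤ s → s < D.be j → D.al j' ≤ s →
      s < D.be j' → j = j') →
    (∀ j ∈ J, Wt (D.it j / pr) (D.om j)) →
    (∀ j ∈ J, ∀ a, D.om j a ≤
      nw (w (D.it j)).primeFactors (uw (b * D.γ) (η * (b * ψ (D.it j))) (lab (D.it j))) a) →
    (∀ j ∈ J, ∀ j' ∈ J, rr j = rr j' → ∀ z z' : ℝ, D.al j ≤ z → z < D.be j →
      D.al j' ≤ z' → z' < D.be j' →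
      |z / D.it j - z' / D.it j'| ≤ η * min (ψ (D.it j) / D.it j) (ψ (D.it j') / D.it j')) →
    (∀ j ∈ J, b * ψ (D.it j) * ((Nat.totient (w (D.it j)) : ℝ) / w (D.it j)) ≤
      ∑ j' ∈ J.filter (fun j' => D.it j' = D.it j), m j') →
    ∑ j ∈ J, ∑ j' ∈ J.filter (fun j' => rr j = rr j'),
      I (fun x => lf D b pr j x * lf D b pr j' x) ≤ C * ∑ j ∈ J, m j := by
  obtain ⟨c0, C, hc0, hC, hH⟩ := leafIn_pieces
  refine ⟨c0, C, hc0, hC, fun c1 h1 h2 => ?_⟩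
  obtain ⟨T0, hT0, hT⟩ := hH c1 h1 h2
  refine ⟨T0, hT0, ?_⟩
  intro Λ κ₀ ω _ _ _ _ _ D rr T η X b pr u₀ G ψ lab w J m hT1 hX hη hm hηM hb hpr hu₀ hG hit
    htame hψ hlab hwin hdis hWt hom hcl hmass
  have hbR : (0 : ℝ) < b := by exact_mod_cast hb
  have hprR : (0 : ℝ) < pr := by exact_mod_cast hpr
  have hup : (0 : ℝ) < u₀ := by exact_mod_cast hu₀
  set S0 : Finset ℕ := J.image (fun j => w (D.it j)) with hS0
  set ψ0 : ℕ → ℝ := fun v => b * ψ (pr * (u₀ * v)) with hψ0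
  set lab0 : ℕ → Option ℚ := fun v => lab (pr * (u₀ * v)) with hlab0
  have hq : ∀ j ∈ J, pr * (u₀ * w (D.it j)) = D.it j := fun j hj => (hit j hj).2.symm
  have hS0m : ∀ v ∈ S0, ∃ j ∈ J, w (D.it j) = v := fun v hv => by
    obtain ⟨j, a, e⟩ := Finset.mem_image.1 hv
    exact ⟨j, a, e⟩
  have hψq : ∀ j ∈ J, ψ0 (w (D.it j)) = b * ψ (D.it j) := fun j hj => by
    rw [hψ0]; simp only; rw [hq j hj]
  have hlq : ∀ j ∈ J, lab0 (w (D.it j)) = lab (D.it j) := fun j hj => by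
    rw [hlab0]; simp only; rw [hq j hj]
  have hfib : ∀ j ∈ J, J.filter (fun j' => w (D.it j') = w (D.it j)) =
      J.filter (fun j' => D.it j' = D.it j) := by
    intro j hj
    ext j'
    simp only [Finset.mem_filter]
    constructor
    · rintro ⟨a, e⟩
      refine ⟨a, ?_⟩
      rw [← hq j' a, e, hq j hj]
    · rintro ⟨a, e⟩
      exact ⟨a, by rw [e]⟩
  have hmass0 : ∑ v ∈ S0, wt ψ0 v ≤ ∑ j ∈ J, m j := by
    rw [← Finset.sum_fiberwise_of_maps_to (s := J) (t := S0) (g := fun j => w (D.it j))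
      (fun j hj => Finset.mem_image_of_mem _ hj)]
    refine Finset.sum_le_sum fun v hv => ?_
    obtain ⟨j, hj, rfl⟩ := hS0m v hv
    rw [hfib j hj]
    have := hmass j hj
    refine le_trans (le_of_eq ?_) this
    unfold wt
    rw [hψq j hj]
  have hT1' : 0 < T := by
    have : (2:ℝ)^50 ≤ T := hT0.trans hT1
    exact lt_of_lt_of_le (by norm_num) this
  have hηM0 : η * (∑ v ∈ S0, wt ψ0 v) * T ≤ 1 := by
    refine le_trans ?_ hηM
    exact mul_le_mul_of_nonneg_right (mul_le_mul_of_nonneg_left hmass0 hη.le) hT1'.le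
  have hLeaf : Leaf 1 (b * D.γ) S0 (fun q => η * ψ0 q) (fun q => η * ψ0 q) lab0 := by
    refine ⟨one_pos, le_rfl, ?_, ?_, ?_, ?_, ?_⟩
    · intro v hv
      obtain ⟨j, hj, rfl⟩ := hS0m v hv
      exact (hit j hj).1
    · intro v hv
      obtain ⟨j, hj, rfl⟩ := hS0m v hv
      have h3 := hψ j hj
      simp only [hψq j hj]
      positivity
    · intro v _; simp
    · intro v _; exact le_rfl
    · intro v hv ρ
      obtain ⟨j, hj, rfl⟩ := hS0m v hv
      rw [hlq j hj]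
      simp only [hψq j hj]
      exact hlab j hj ρ
  have key := hT (b * D.γ) T η X S0 ψ0 lab0 G u₀ Λ ω J (fun j => w (D.it j))
    (fun j => b * D.al j) (fun j => b * D.be j) D.om rr hT1 hX hη hηM0 hLeaf hG
    (fun z hz v hv => by
      obtain ⟨j, hj, rfl⟩ := hS0m v hv
      exact htame z hz j hj) hu₀
    (fun j hj => Finset.mem_image_of_mem _ hj)
    (fun j hj => by
      have h3 := hwin j hj
      rw [hψq j hj]
      constructor
      · nlinarith [mul_le_mul_of_nonneg_left h3.1 hbR.le]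
      · exact mul_le_mul_of_nonneg_left h3.2 hbR.le)
    (fun j hj j' hj' e s g1 g2 g3 g4 => by
      refine hdis j hj j' hj'
        (by rw [← hq j hj, ← hq j' hj', e]) (s / b) ?_ ?_ ?_ ?_
      · rw [le_div_iff₀ hbR]; linarith
      · rw [div_lt_iff₀ hbR]; linarith
      · rw [le_div_iff₀ hbR]; linarith
      · rw [div_lt_iff₀ hbR]; linarith)
    (fun j hj => by
      have h3 := hWt j hj
      have e : D.it j / pr = u₀ * w (D.it j) := by
        conv_lhs => rw [← hq j hj]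
        exact Nat.mul_div_cancel_left _ hpr
      rwa [e] at h3)
    (fun j hj a => by
      have h3 := hom j hj a
      rw [hψq j hj, hlq j hj]
      exact h3)
    (fun j hj j' hj' e mm nn t g1 g2 => by
      have hwp : (0 : ℝ) < w (D.it j) := by exact_mod_cast (hit j hj).1
      have hwp' : (0 : ℝ) < w (D.it j') := by exact_mod_cast (hit j' hj').1
      have hqe : ((D.it j : ℕ) : ℝ) = pr * (u₀ * w (D.it j)) := by
        conv_lhs => rw [← hq j hj]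
        push_cast; ring
      have hqe' : ((D.it j' : ℕ) : ℝ) = pr * (u₀ * w (D.it j')) := by
        conv_lhs => rw [← hq j' hj']
        push_cast; ring
      rw [hψq j hj, hψq j' hj']
      set z := (((u₀ * w (D.it j) : ℕ) : ℝ) * t - b * D.γ - mm) / b with hz
      set z' := (((u₀ * w (D.it j') : ℕ) : ℝ) * t - b * D.γ - nn) / b with hz'
      have h3 := hcl j hj j' hj' e z z'
        (by rw [hz, le_div_iff₀ hbR]; linarith [g1.1])
        (by rw [hz, div_lt_iff₀ hbR]; linarith [g1.2])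
        (by rw [hz', le_div_iff₀ hbR]; linarith [g2.1])
        (by rw [hz', div_lt_iff₀ hbR]; linarith [g2.2])
      have e1 : (b * D.γ + mm) / (w (D.it j) : ℝ) - (b * D.γ + nn) / (w (D.it j') : ℝ) =
          -(b * pr * u₀) * (z / D.it j - z' / D.it j') := by
        rw [hz, hz', hqe, hqe']
        push_cast
        field_simp
        ring
      rw [e1, abs_mul, abs_neg, abs_of_pos (by positivity : (0 : ℝ) < b * pr * u₀)]
      calc (b * pr * u₀ : ℝ) * |z / D.it j - z' / D.it j'|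
          ≤ (b * pr * u₀) * (η * min (ψ (D.it j) / D.it j) (ψ (D.it j') / D.it j')) :=
            mul_le_mul_of_nonneg_left h3 (by positivity)
        _ = η * ((b * pr * u₀) * min (ψ (D.it j) / D.it j) (ψ (D.it j') / D.it j')) := by ring
        _ = η * min (b * ψ (D.it j) / (w (D.it j))) (b * ψ (D.it j') / (w (D.it j'))) := by
            rw [mul_min_of_nonneg _ _ (by positivity : (0 : ℝ) ≤ b * pr * u₀), hqe, hqe']
            congr 2 <;> field_simp)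
  have hlf : ∀ j ∈ J, ∀ x, lf D b pr j x =
      pc (b * D.γ) (b * D.al j) (b * D.be j) (u₀ * w (D.it j)) (D.om j) x := by
    intro j hj x
    have e : D.it j / pr = u₀ * w (D.it j) := by
      conv_lhs => rw [← hq j hj]
      exact Nat.mul_div_cancel_left _ hpr
    unfold Crest.Agent.R4.Frame758.lf
    rw [e]
  have e2 : ∑ j ∈ J, ∑ j' ∈ J.filter (fun j' => rr j = rr j'),
      I (fun x => lf D b pr j x * lf D b pr j' x) =
      ∑ j ∈ J, ∑ j' ∈ J.filter (fun j' => rr j = rr j'), I (fun t =>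
      pc (b * D.γ) (b * D.al j) (b * D.be j) (u₀ * w (D.it j)) (D.om j) t *
      pc (b * D.γ) (b * D.al j') (b * D.be j') (u₀ * w (D.it j')) (D.om j') t) := by
    refine Finset.sum_congr rfl fun j hj => Finset.sum_congr rfl fun j' hj' => ?_
    congr 1
    funext x
    rw [hlf j hj, hlf j' (Finset.mem_filter.1 hj').1]
  rw [e2]
  refine key.trans ?_
  exact mul_le_mul_of_nonneg_left hmass0 (by linarith)

/-- **LeafI for the unlabelled items, (M1) form**: raw masses `W j = (be j - al j) φ(q)/q`, weights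
`om ≤ K nw (uw ..)`. -/
theorem leafI_UX' : ∃ c0 C : ℝ, 0 < c0 ∧ 1 ≤ C ∧ ∀ c1 : ℝ, 0 < c1 → c1 ≤ c0 →
    ∃ T0 : ℝ, 2^50 ≤ T0 ∧
    ∀ (Λ κ₀ ω : Type) [Fintype Λ] [DecidableEq Λ] [Fintype κ₀] [DecidableEq κ₀] [DecidableEq ω]
      (D : Par0 Λ κ₀) (rr : Λ → ω) (W : Λ → ℝ) (K T η X : ℝ) (b pr u₀ G : ℕ) (ψ : ℕ → ℝ)
      (lab : ℕ → Option ℚ) (w : ℕ → ℕ) (J : Finset Λ),
    0 < K → T0 ≤ T → X ≤ Real.exp (T^c1) → 0 < η → 0 < b → 0 < pr → 0 < u₀ → 0 < G →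
    (1 : ℝ) / 2 ≤ (Nat.totient u₀ : ℝ) / u₀ →
    (∀ j ∈ J, W j = (D.be j - D.al j) * ((Nat.totient (D.it j) : ℝ) / D.it j)) →
    (∀ j ∈ J, D.al j ≤ D.be j) →
    (∀ j ∈ J, ∀ j', D.it j' = D.it j → j' ∈ J) →
    (∀ j ∈ J, ψ (D.it j) ≤
      ∑ j' ∈ Finset.univ.filter (fun j' => D.it j' = D.it j), (D.be j' - D.al j')) →
    η * (2 * Item758.cf b pr * ∑ j ∈ J, W j) * T ≤ 1 →
    (∀ j ∈ J, 0 < w (D.it j) ∧ D.it j = pr * (u₀ * w (D.it j)) ∧
      Nat.Coprime pr (u₀ * w (D.it j)) ∧ Nat.Coprime u₀ (w (D.it j))) →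
    (∀ z : ℝ, X ≤ z → ∀ j ∈ J, Tame z G (w (D.it j))) →
    (∀ j ∈ J, 0 < ψ (D.it j)) →
    (∀ j ∈ J, ∀ ρ, lab (D.it j) = some ρ ↔ Lab (b * D.γ) (η * (b * ψ (D.it j))) ρ) →
    (∀ j ∈ J, -ψ (D.it j) ≤ D.al j ∧ D.be j ≤ ψ (D.it j)) →
    (∀ j ∈ J, ∀ j' ∈ J, D.it j = D.it j' → ∀ s : ℝ, D.al j ≤ s → s < D.be j → D.al j' ≤ s →
      s < D.be j' → j = j') →
    (∀ j ∈ J, Wt (D.it j / pr) (D.om j)) →
    (∀ j ∈ J, ∀ a, D.om j a ≤ K *
      nw (w (D.it j)).primeFactors (uw (b * D.γ) (η * (b * ψ (D.it j))) (lab (D.it j))) a) →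
    (∀ j ∈ J, ∀ j' ∈ J, rr j = rr j' → ∀ z z' : ℝ, D.al j ≤ z → z < D.be j →
      D.al j' ≤ z' → z' < D.be j' →
      |z / D.it j - z' / D.it j'| ≤ η * min (ψ (D.it j) / D.it j) (ψ (D.it j') / D.it j')) →
    ∑ j ∈ J, ∑ j' ∈ J.filter (fun j' => rr j = rr j'),
      I (fun x => Frame758.lf D b pr j x * Frame758.lf D b pr j' x) ≤
      K ^ 2 * (2 * C * (Item758.cf b pr * ∑ j ∈ J, W j)) := by
  obtain ⟨c0, C, hc0, hC, hH⟩ := leafI_UX
  refine ⟨c0, C, hc0, hC, fun c1 h1 h2 => ?_⟩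
  obtain ⟨T0, hT0, hT⟩ := hH c1 h1 h2
  refine ⟨T0, hT0, ?_⟩
  intro Λ κ₀ ω _ _ _ _ _ D rr W K T η X b pr u₀ G ψ lab w J hK hT1 hX hη hb hpr hu₀ hG hφu hW hab
    hcl hfull hηM hit htame hψ hlab hwin hdis hWt hom hclose
  have hWn : ∀ j ∈ J, 0 ≤ W j := fun j hj => by
    rw [hW j hj]
    have := hab j hj
    exact mul_nonneg (by linarith) (by positivity)
  have hcf : 0 ≤ Item758.cf b pr := Item758.cf_nonneg _ _
  have e : ∑ j ∈ J, 2 * Item758.cf b pr * W j = 2 * Item758.cf b pr * ∑ j ∈ J, W j := by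
    rw [Finset.mul_sum]
  rw [sum_lf_scl D hK.ne' b pr rr J]
  refine mul_le_mul_of_nonneg_left ?_ (by positivity)
  have key := hT Λ κ₀ ω (scl D K) rr T η X b pr u₀ G ψ lab w J
    (fun j => 2 * Item758.cf b pr * W j) hT1 hX hη
    (fun j hj => mul_nonneg (by positivity) (hWn j hj)) (by rw [e]; exact hηM) hb hpr hu₀ hG
    (fun j hj => ⟨(hit j hj).1, (hit j hj).2.1⟩) htame hψ hlab hwin hdis
    (fun j hj => Wt.scl (hWt j hj) hK)
    (fun j hj a => by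
      show D.om j a / K ≤ _
      rw [div_le_iff₀ hK, mul_comm]
      exact hom j hj a)
    hclose (fun j hj => ?_)
  · refine key.trans (le_of_eq ?_)
    rw [e]; ring
  · show b * ψ (D.it j) * ((Nat.totient (w (D.it j)) : ℝ) / w (D.it j)) ≤
      ∑ j' ∈ J.filter (fun j' => D.it j' = D.it j), 2 * Item758.cf b pr * W j'
    obtain ⟨a2, a3, a4, a5⟩ := hit j hj
    have e3 : J.filter (fun j' => D.it j' = D.it j) =
        Finset.univ.filter (fun j' => D.it j' = D.it j) := by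
      ext j'
      simp only [Finset.mem_filter, Finset.mem_univ, true_and]
      exact ⟨fun h => h.2, fun h => ⟨hcl j hj j' h, h⟩⟩
    have e4 : ∑ j' ∈ J.filter (fun j' => D.it j' = D.it j), 2 * Item758.cf b pr * W j' =
        2 * Item758.cf b pr *
          ((∑ j' ∈ Finset.univ.filter (fun j' => D.it j' = D.it j), (D.be j' - D.al j')) *
            ((Nat.totient (D.it j) : ℝ) / D.it j)) := by
      rw [← Finset.mul_sum, e3, Finset.sum_mul]
      congr 1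
      refine Finset.sum_congr rfl fun j' hj' => ?_
      have h3 := (Finset.mem_filter.1 hj').2
      rw [hW j' (hcl j hj j' h3), h3]
    rw [e4]
    exact mass_item a3 hpr hu₀ a2 a4 a5 hφu (hψ j hj).le (hfull j hj)

/-- **labelled items, weights `om ≤ K nw (uw ..)`** (363's `leafI_L'` for the rescaled data) -/
theorem leafI_LX' {C K : ℝ} (hC : 0 ≤ C) (hK : 0 < K) {Λ κ₀ : Type} [Fintype Λ] [DecidableEq Λ]
    [Fintype κ₀] [DecidableEq κ₀] (D : Par0 Λ κ₀) {ω : Type*} [DecidableEq ω] (rr : Λ → ω)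
    (W : Λ → ℝ) (b pr : ℕ) (ψ φ : ℕ → ℝ) (lab : ℕ → Option ℚ)
    (u w : ℕ → ℕ) (J : Finset Λ) (hb : 0 < b) (hpr : 0 < pr)
    (hW : ∀ j ∈ J, W j = (D.be j - D.al j) * ((Nat.totient (D.it j) : ℝ) / D.it j))
    (hcl : ∀ j ∈ J, ∀ j', D.it j' = D.it j → j' ∈ J)
    (hfull : ∀ j ∈ J, ψ (D.it j) ≤
      ∑ j' ∈ Finset.univ.filter (fun j' => D.it j' = D.it j), (D.be j' - D.al j'))
    (hit : ∀ j ∈ J, 0 < u (D.it j) ∧ 0 < w (D.it j) ∧ D.it j = pr * (u (D.it j) * w (D.it j)) ∧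
      Nat.Coprime pr (u (D.it j) * w (D.it j)) ∧ Nat.Coprime (u (D.it j)) (w (D.it j)) ∧
      (1 : ℝ) / 2 ≤ (Nat.totient (u (D.it j)) : ℝ) / u (D.it j))
    (hψ : ∀ j ∈ J, 0 < ψ (D.it j))
    (hlab : ∀ j ∈ J, lab (D.it j) ≠ none)
    (hwin : ∀ j ∈ J, -ψ (D.it j) ≤ D.al j ∧ D.be j ≤ ψ (D.it j))
    (hdis : ∀ j ∈ J, ∀ j' ∈ J, D.it j = D.it j' → ∀ s : ℝ, D.al j ≤ s → s < D.be j →
      D.al j' ≤ s → s < D.be j' → j = j')
    (hWt : ∀ j ∈ J, Wt (D.it j / pr) (D.om j))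
    (hom : ∀ j ∈ J, ∀ a, D.om j a ≤ K *
      nw (w (D.it j)).primeFactors (uw (b * D.γ) (φ (D.it j)) (lab (D.it j))) a)
    (hu : ∀ j ∈ J, ∀ j' ∈ J, rr j = rr j' → u (D.it j) = u (D.it j'))
    (hex : ∀ j ∈ J, ∀ j' ∈ J, rr j = rr j' → ∀ (m n : ℤ) (x : ℝ),
      (b * D.al j ≤ ((D.it j / pr : ℕ) : ℝ) * x - b * D.γ - m ∧
        ((D.it j / pr : ℕ) : ℝ) * x - b * D.γ - m < b * D.be j) →
      (b * D.al j' ≤ ((D.it j' / pr : ℕ) : ℝ) * x - b * D.γ - n ∧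
        ((D.it j' / pr : ℕ) : ℝ) * x - b * D.γ - n < b * D.be j') →
      ∀ σ τ : ℚ, lab (D.it j) = some σ → lab (D.it j') = some τ →
      ((m : ℝ) + σ) / ((D.it j / pr : ℕ) : ℝ) = (n + τ) / ((D.it j' / pr : ℕ) : ℝ))
    (hEx : ∀ u0 ∈ J.image (fun j => u (D.it j)), LeafL363.ExB D b pr ψ φ lab u w J C u0) :
    ∑ j ∈ J, ∑ j' ∈ J.filter (fun j' => rr j = rr j'),
      I (fun x => Frame758.lf D b pr j x * Frame758.lf D b pr j' x) ≤
      K ^ 2 * (2 * C * (Item758.cf b pr * ∑ j ∈ J, W j)) := by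
  rw [sum_lf_scl D hK.ne' b pr rr J]
  refine mul_le_mul_of_nonneg_left ?_ (by positivity)
  exact LeafL363.leafI_L' hC (scl D K) rr W b pr ψ φ lab u w J hb hpr hW hcl hfull hit hψ hlab hwin
    hdis (fun j hj => Wt.scl (hWt j hj) hK)
    (fun j hj a => by
      show D.om j a / K ≤ _
      rw [div_le_iff₀ hK, mul_comm]
      exact hom j hj a) hu hex hEx

end Crest.Agent.R4.LeafUX944
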