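import Crest.Agent.R4.LFA_944
import Crest.Agent.R4.LFX223

/-!
R4 (S0004), helper734: **Theorem LF (A) without loss in the label radius**.

If for every labelled item either `ψ q ≤ 2 φ q` or the label satisfies `|θ - h/k| / φ ≤ k^(a+1)`
(for example `1 < k^5 ψ` and `ψ^a ≤ η`), the exact pairs have total energy `O_a(M)`.
-/

set_option autoImplicit false
open Finset

namespace Crest.Agent.R4.LeafX734

open Crest.Agent.R4.LFE223 Crest.Agent.R4.LFH223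
open Crest.Agent.R4.HVW560 (cof)

/-- `m = (a+2)(3v+6)` -/
def TA (a v : ℕ) : ℕ := TM ((a + 2) * (3 * v + 6)) v

lemma TA_sq (a v : ℕ) : (a + 3) * (3 * v + 6) < TA a v ^ 2 := by
  have := TM_sq ((a + 2) * (3 * v + 6)) v
  have e : 3 * v + 6 + (a + 2) * (3 * v + 6) = (a + 3) * (3 * v + 6) := by ring
  rw [e] at this
  exact this

lemma sqrt_half_lt' : Real.sqrt (1 / 2) * (4 / 3) < 1 := by
  have h1 : Real.sqrt (1 / 2) < 3 / 4 := by
    rw [Real.sqrt_lt' (by norm_num)]; norm_num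
  linarith

lemma growthA (a : ℕ) : ∃ K : ℝ, 0 < K ∧ ∀ v : ℕ,
    ((2 * v + 4 : ℕ) : ℝ) * ((v + 2 : ℕ) : ℝ) ^ (2 * TA a v) * ((v + 2 : ℕ) : ℝ) ≤
      K * (4 / 3) ^ v := by
  have ha : (0 : ℝ) < 30 * ((a : ℝ) + 2) := by positivity
  obtain ⟨K, hK, hg⟩ := growth' (ε := 1 / (30 * ((a : ℝ) + 2))) (by positivity)
  refine ⟨K * Real.exp 1, by positivity, fun v => ?_⟩
  refine (hg ((a + 2) * (3 * v + 6)) v).trans ?_
  have e : 1 / (30 * ((a : ℝ) + 2)) * (((a + 2) * (3 * v + 6) : ℕ) : ℝ) = (v : ℝ) / 10 + 1 / 5 := by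
    push_cast; field_simp; ring
  rw [e]
  have h1 : Real.exp ((v : ℝ) / 10 + 1 / 5) ≤ Real.exp 1 * (10 / 9) ^ v := by
    have h2 : Real.exp ((v : ℝ) / 10) ≤ (10 / 9) ^ v := by
      have h3 : (1 : ℝ) / 10 ≤ Real.log (10 / 9) := by
        have := Real.one_sub_inv_le_log_of_pos (show (0 : ℝ) < 10 / 9 by norm_num)
        norm_num at this
        linarith
      have e2 : (10 / 9 : ℝ) ^ v = Real.exp (v * Real.log (10 / 9)) := by
        rw [Real.exp_nat_mul, Real.exp_log (by norm_num)]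
      rw [e2]
      apply Real.exp_le_exp.2
      have hv : (0 : ℝ) ≤ v := Nat.cast_nonneg v
      nlinarith
    rw [Real.exp_add, mul_comm]
    exact mul_le_mul (Real.exp_le_exp.2 (by norm_num)) h2 (Real.exp_pos _).le (Real.exp_pos _).le
  calc K * Real.exp ((v : ℝ) / 10 + 1 / 5) * (6 / 5) ^ v
      ≤ K * (Real.exp 1 * (10 / 9) ^ v) * (6 / 5) ^ v := by gcongr
    _ = K * Real.exp 1 * ((10 / 9) * (6 / 5)) ^ v := by rw [mul_pow]; ring
    _ = K * Real.exp 1 * (4 / 3) ^ v := by norm_num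

/-- label data of an item: label radius `φ ≤ ψ`, threshold controlled -/
structure LabA (θ : ℝ) (a : ℕ) (ψ φ : ℝ) (h : ℤ) (k : ℕ) : Prop where
  lab : IsLab θ φ h k
  le : φ ≤ ψ
  thr : ψ ≤ 2 * φ ∨ |θ - h / k| / φ ≤ (k : ℝ) ^ (a + 1)

lemma LabA.pos {θ : ℝ} {a : ℕ} {ψ φ : ℝ} {h : ℤ} {k : ℕ} (H : LabA θ a ψ φ h k) : 0 < ψ :=
  H.lab.apos.trans_le H.le

/-- all polynomial bounds at once -/
lemma boundsA {θ : ℝ} {a : ℕ} {ψ φ : ℕ → ℝ} {h : ℕ → ℤ} {k : ℕ → ℕ} {q r : ℕ}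
    (H : ExH θ ψ φ h k q r)
    (hq : 0 < q) (hr : 0 < r) (hne : q ≠ r) (Hq : LabA θ a (ψ q) (φ q) (h q) (k q))
    (Hr : LabA θ a (ψ r) (φ r) (h r) (k r)) {v : ℕ}
    (hZ : Zp ψ q r < 2 ^ (v + 1)) :
    k q < 2 ^ (2 * v + 3) ∧ (∀ p : ℕ, TA a v ≤ p → Lq θ φ h k q < (p : ℝ) ^ 2) ∧
      cof q r < 2 ^ (v + 1) := by
  obtain ⟨n, h1, h2, -, -⟩ := H
  have hx := cof_pos (r := r) hq
  have hy := cof_pos (r := q) hr
  have hφ0 := Hq.lab.apos
  have hψ0 := Hq.pos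
  have hη0 : 0 < φ q / ψ q := div_pos hφ0 hψ0
  have hη1 : φ q / ψ q ≤ 1 := by rw [div_le_one hψ0]; exact Hq.le
  obtain ⟨hk, hX⟩ := bnd' hx hy (cof_ne hne) hη0 hη1 (by rw [div_mul_cancel₀ _ hψ0.ne']) Hq.le
    Hr.le Hq.lab Hr.lab h1 h2
  have hBZ := B_le_ZZ hx hy Hq.pos Hr.pos
  change ZZ _ _ _ _ < _ at hZ
  set Z := ZZ (cof q r) (cof r q) (ψ q) (ψ r) with hZdef
  have hB1 : (1 : ℝ) ≤ ((max (cof q r) (cof r q) : ℕ) : ℝ) := by
    exact_mod_cast (le_trans hx (le_max_left _ _) : 1 ≤ max (cof q r) (cof r q))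
  have hZ1 : 1 ≤ Z := hB1.trans hBZ
  have hZ0 : 0 < Z := by linarith
  have hkq : k q < 2 ^ (2 * v + 3) := by
    have : (k q : ℝ) < 2 ^ (2 * v + 3) := by
      calc (k q : ℝ) ≤ 2 * Z ^ 2 := hk
        _ < 2 * (2 ^ (v + 1)) ^ 2 := by gcongr
        _ = 2 ^ (2 * v + 3) := by ring
    exact_mod_cast this
  refine ⟨hkq, ?_, ?_⟩
  · intro p hp
    have hk0 : (0 : ℝ) < k q := by exact_mod_cast Hq.lab.kpos
    have hk1 : (1 : ℝ) ≤ k q := by exact_mod_cast Hq.lab.kpos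
    have hX0 : 0 ≤ |θ - h q / k q| / φ q := div_nonneg (abs_nonneg _) Hq.lab.apos.le
    have h4 : Lq θ φ h k q ≤ (((a + 3) * (3 * v + 6) : ℕ) : ℝ) := by
      rcases Hq.thr with hE | hE
      · have hX' : |θ - h q / k q| / φ q ≤ 4 * Z := by
          refine hX.trans ?_
          rw [div_le_iff₀ hη0]
          have e1 : 1 / 2 ≤ φ q / ψ q := by
            rw [div_le_div_iff₀ (by norm_num) hψ0]; linarith
          nlinarith
        have h3 : (k q : ℝ) * (2 + |θ - h q / k q| / φ q) ≤ 2 ^ (3 * v + 7) := by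
          calc (k q : ℝ) * (2 + |θ - h q / k q| / φ q)
              ≤ (2 * Z ^ 2) * (2 + 4 * Z) := by gcongr
            _ ≤ 16 * Z ^ 3 := by nlinarith [pow_pos hZ0 2]
            _ ≤ 16 * (2 ^ (v + 1)) ^ 3 := by gcongr
            _ = 2 ^ (3 * v + 7) := by ring
        unfold Lq
        calc Real.log (k q * (2 + |θ - h q / k q| / φ q))
            ≤ Real.log (2 ^ (3 * v + 7)) := Real.log_le_log (by positivity) h3
          _ = ((3 * v + 7 : ℕ) : ℝ) * Real.log 2 := by rw [Real.log_pow]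
          _ ≤ ((3 * v + 7 : ℕ) : ℝ) * 1 := by
              gcongr
              have := Real.log_two_lt_d9
              linarith
          _ ≤ (((a + 3) * (3 * v + 6) : ℕ) : ℝ) := by
              rw [mul_one]
              have : 3 * v + 7 ≤ (a + 3) * (3 * v + 6) := by nlinarith
              exact_mod_cast this
      · have h3 : (k q : ℝ) * (2 + |θ - h q / k q| / φ q) ≤ 2 ^ 2 * (k q : ℝ) ^ (a + 2) := by
          have h5 : (1 : ℝ) ≤ (k q : ℝ) ^ (a + 1) := one_le_pow₀ hk1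
          calc (k q : ℝ) * (2 + |θ - h q / k q| / φ q)
              ≤ (k q : ℝ) * (2 + (k q : ℝ) ^ (a + 1)) := by gcongr
            _ ≤ (k q : ℝ) * (4 * (k q : ℝ) ^ (a + 1)) := by gcongr; linarith
            _ = 2 ^ 2 * (k q : ℝ) ^ (a + 2) := by ring
        have hkR : (k q : ℝ) ≤ 2 ^ (2 * v + 3) := by exact_mod_cast hkq.le
        have h5 : 2 ^ 2 * (k q : ℝ) ^ (a + 2) ≤ 2 ^ (2 + (2 * v + 3) * (a + 2)) := by
          calc 2 ^ 2 * (k q : ℝ) ^ (a + 2) ≤ 2 ^ 2 * (2 ^ (2 * v + 3)) ^ (a + 2) := by gcongr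
            _ = 2 ^ (2 + (2 * v + 3) * (a + 2)) := by rw [← pow_mul, pow_add]
        unfold Lq
        calc Real.log (k q * (2 + |θ - h q / k q| / φ q))
            ≤ Real.log (2 ^ (2 + (2 * v + 3) * (a + 2))) :=
              Real.log_le_log (by positivity) (h3.trans h5)
          _ = ((2 + (2 * v + 3) * (a + 2) : ℕ) : ℝ) * Real.log 2 := by rw [Real.log_pow]
          _ ≤ ((2 + (2 * v + 3) * (a + 2) : ℕ) : ℝ) * 1 := by
              gcongr
              have := Real.log_two_lt_d9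
              linarith
          _ ≤ (((a + 3) * (3 * v + 6) : ℕ) : ℝ) := by
              rw [mul_one]
              have : 2 + (2 * v + 3) * (a + 2) ≤ (a + 3) * (3 * v + 6) := by nlinarith
              exact_mod_cast this
    have h5 : (((a + 3) * (3 * v + 6) : ℕ) : ℝ) < (p : ℝ) ^ 2 := by
      have h6 := TA_sq a v
      have h7 : TA a v ^ 2 ≤ p ^ 2 := Nat.pow_le_pow_left hp 2
      exact_mod_cast h6.trans_le h7
    linarith
  · have : (cof q r : ℝ) < 2 ^ (v + 1) := by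
      refine lt_of_le_of_lt ?_ hZ
      refine le_trans ?_ hBZ
      exact_mod_cast le_max_left _ _
    exact_mod_cast this

/-- **counting lemma** -/
theorem countA {S : Finset ℕ} {θ : ℝ} {a : ℕ} {ψ φ : ℕ → ℝ} {h : ℕ → ℤ} {k : ℕ → ℕ}
    (hS : ∀ q ∈ S, 0 < q) (hlab : ∀ q ∈ S, LabA θ a (ψ q) (φ q) (h q) (k q)) {q : ℕ} (hq : q ∈ S)
    (v : ℕ) (R : Finset ℕ)
    (hR : ∀ r ∈ R, r ∈ S ∧ r ≠ q ∧ ExH θ ψ φ h k q r ∧ Zp ψ q r < 2 ^ (v + 1)) :
    R.card ≤ (2 * v + 4) * (v + 2) ^ (2 * TA a v) := by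
  classical
  set Φ : ℕ → ℕ × (Fin (TA a v) → ℕ) × (Fin (TA a v) → ℕ) := fun r =>
    (Nat.log 2 (k r), (fun p => (cof q r).factorization p),
      (fun p => (cof r q).factorization p)) with hΦ
  set Tgt : Finset (ℕ × (Fin (TA a v) → ℕ) × (Fin (TA a v) → ℕ)) :=
    Finset.range (2 * v + 4) ×ˢ ((Fintype.piFinset fun _ => Finset.range (v + 2)) ×ˢ
      (Fintype.piFinset fun _ => Finset.range (v + 2))) with hTgt
  have hcard : Tgt.card = (2 * v + 4) * (v + 2) ^ (2 * TA a v) := by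
    rw [hTgt, card_product, card_product]
    simp [Fintype.card_piFinset]
    ring
  rw [← hcard]
  have hq0 := hS q hq
  refine card_le_card_of_injOn Φ ?_ ?_
  · intro r hr
    obtain ⟨hrS, hrq, hex, hZ⟩ := hR r hr
    have hr0 := hS r hrS
    obtain ⟨-, -, hx⟩ := boundsA hex hq0 hr0 (Ne.symm hrq) (hlab q hq) (hlab r hrS) hZ
    obtain ⟨hk, -, hy⟩ := boundsA hex.symm hr0 hq0 hrq (hlab r hrS) (hlab q hq)
      (by rw [Zp_comm]; exact hZ)
    simp only [hΦ, hTgt, coe_product, Set.mem_prod, mem_coe, mem_range, Fintype.mem_piFinset]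
    refine ⟨?_, fun p => fact_lt hx, fun p => fact_lt hy⟩
    have := Nat.log_lt_of_lt_pow (hlab r hrS).lab.kpos.ne' hk
    omega
  · intro r hr r' hr' hE
    obtain ⟨hrS, hrq, hex, hZ⟩ := hR r hr
    obtain ⟨hrS', hrq', hex', hZ'⟩ := hR r' hr'
    have hr0 := hS r hrS
    have hr0' := hS r' hrS'
    simp only [hΦ, Prod.mk.injEq] at hE
    obtain ⟨e1, e2, e3⟩ := hE
    have hkk : k r = k r' := log_ne (hlab r hrS).lab (hlab r' hrS').lab e1
    -- valuations of the cofactors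
    have key : ∀ {r : ℕ}, r ∈ S → r ≠ q → ExH θ ψ φ h k q r → Zp ψ q r < 2 ^ (v + 1) → ∀ p : ℕ,
        p.Prime → TA a v ≤ p →
        (cof q r).factorization p = (k r).factorization p - (k q).factorization p ∧
        (cof r q).factorization p = (k q).factorization p - (k r).factorization p := by
      intro r hrS hrq hex hZ p hp hTp
      have hr0 := hS r hrS
      obtain ⟨-, hLq, -⟩ := boundsA hex hq0 hr0 (Ne.symm hrq) (hlab q hq) (hlab r hrS) hZ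
      obtain ⟨-, hLr, -⟩ := boundsA hex.symm hr0 hq0 hrq (hlab r hrS) (hlab q hq)
        (by rw [Zp_comm]; exact hZ)
      constructor
      · obtain ⟨n, h1, -, h3, -⟩ := hex
        exact val_eq hp (cof_pos hq0) (hlab q hq).lab.kpos (hlab r hrS).lab.kpos (cof_cop hq0)
          (hlab q hq).lab.cop (hlab r hrS).lab.cop h1 (fun hpx hpk => h3 p hp hpx hpk (hLq p hTp))
      · obtain ⟨n, h1, -, h3, -⟩ := hex.symm
        exact val_eq hp (cof_pos hr0) (hlab r hrS).lab.kpos (hlab q hq).lab.kpos (cof_cop hr0)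
          (hlab r hrS).lab.cop (hlab q hq).lab.cop h1 (fun hpx hpk => h3 p hp hpx hpk (hLr p hTp))
    have ex : cof q r = cof q r' := by
      apply Nat.eq_of_factorization_eq (cof_pos hq0).ne' (cof_pos hq0).ne'
      intro p
      by_cases hp : p.Prime
      · rcases Nat.lt_or_ge p (TA a v) with hlt | hge
        · exact congrFun e2 ⟨p, hlt⟩
        · rw [(key hrS hrq hex hZ p hp hge).1, (key hrS' hrq' hex' hZ' p hp hge).1, hkk]
      · rw [Nat.factorization_eq_zero_of_not_prime _ hp, Nat.factorization_eq_zero_of_not_prime _ hp]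
    have ey : cof r q = cof r' q := by
      apply Nat.eq_of_factorization_eq (cof_pos hr0).ne' (cof_pos hr0').ne'
      intro p
      by_cases hp : p.Prime
      · rcases Nat.lt_or_ge p (TA a v) with hlt | hge
        · exact congrFun e3 ⟨p, hlt⟩
        · rw [(key hrS hrq hex hZ p hp hge).2, (key hrS' hrq' hex' hZ' p hp hge).2, hkk]
      · rw [Nat.factorization_eq_zero_of_not_prime _ hp, Nat.factorization_eq_zero_of_not_prime _ hp]
    have g1 := cof_mul q r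
    have g2 := cof_mul q r'
    have g3 := cof_mul r q
    have g4 := cof_mul r' q
    have hgg : Nat.gcd q r = Nat.gcd q r' := by
      have : cof q r * Nat.gcd q r = cof q r * Nat.gcd q r' := by rw [g1, ex, g2]
      exact Nat.eq_of_mul_eq_mul_left (cof_pos hq0) this
    rw [← g3, ← g4, ey, Nat.gcd_comm r q, hgg, Nat.gcd_comm q r']

/-- **LF5 with label radii, no loss** -/
theorem exact_pairs_A (a : ℕ) : ∃ C : ℝ, 0 < C ∧ ∀ (S : Finset ℕ)
    (ψ φ : ℕ → ℝ) (θ : ℝ) (h : ℕ → ℤ) (k : ℕ → ℕ),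
    (∀ q ∈ S, 0 < q) → (∀ q ∈ S, LabA θ a (ψ q) (φ q) (h q) (k q)) →
    ∀ E : Finset (ℕ × ℕ), (∀ e ∈ E, e.1 ∈ S ∧ e.2 ∈ S ∧ ExH θ ψ φ h k e.1 e.2) →
      ∑ e ∈ E, en ψ e.1 e.2 ≤ C * ∑ q ∈ S, wt ψ q := by
  classical
  obtain ⟨K, hK, hgrow⟩ := growthA a
  set ρ : ℝ := Real.sqrt (1 / 2) * (4 / 3) with hρ
  have hρ0 : 0 ≤ ρ := by positivity
  have hρ1 : ρ < 1 := sqrt_half_lt'
  set C₁ : ℝ := ∑' v : ℕ, K * ρ ^ v with hC₁
  have hsum0 : Summable fun v : ℕ => K * ρ ^ v :=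
    (summable_geometric_of_lt_one hρ0 hρ1).mul_left K
  have hC₁0 : 0 ≤ C₁ := tsum_nonneg fun v => by positivity
  refine ⟨2 + 2 * C₁, by positivity, fun S ψ φ θ h k hS hlab E hE => ?_⟩
  set G : ℝ := 1 with hG
  have hG1 : 1 ≤ G := le_rfl
  have hG0 : 0 < G := one_pos
  have hNa : ∀ v : ℕ, (((2 * v + 4) * (v + 2) ^ (2 * TA a v) : ℕ) : ℝ) * aa v ≤
      G * (K * ρ ^ v) := by
    intro v
    have := hgrow v
    have h0 : 0 ≤ Real.sqrt (1 / 2) ^ v := by positivity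
    calc (((2 * v + 4) * (v + 2) ^ (2 * TA a v) : ℕ) : ℝ) * aa v
        = (((2 * v + 4 : ℕ) : ℝ) * ((v + 2 : ℕ) : ℝ) ^ (2 * TA a v) * ((v + 2 : ℕ) : ℝ)) *
            Real.sqrt (1 / 2) ^ v := by
          unfold aa; push_cast; ring
      _ ≤ (K * (4 / 3) ^ v) * Real.sqrt (1 / 2) ^ v := by gcongr
      _ = G * (K * ρ ^ v) := by rw [hρ, mul_pow, hG]; ring
  have hsum : Summable fun v : ℕ => G * (K * ρ ^ v) := hsum0.mul_left G
  have htsum : ∑' v : ℕ, G * (K * ρ ^ v) = G * C₁ := by rw [tsum_mul_left]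
  have hw : ∀ q ∈ S, 0 ≤ wt ψ q := fun q hq => mul_nonneg (hlab q hq).pos.le (fr_nonneg _)
  have hZ1 : ∀ q ∈ S, ∀ r ∈ S, 1 ≤ Zp ψ q r := by
    intro q hq r hr
    have hx := cof_pos (r := r) (hS q hq)
    have hy := cof_pos (r := q) (hS r hr)
    refine le_trans ?_ (B_le_ZZ hx hy (hlab q hq).pos (hlab r hr).pos)
    exact_mod_cast (le_trans hx (le_max_left _ _) : 1 ≤ max (cof q r) (cof r q))
  set Rq : ℕ → Finset ℕ := fun q => S.filter (fun r => r ≠ q ∧ ExH θ ψ φ h k q r) with hRq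
  -- the sum over the partners of a fixed element
  have hpart : ∀ q ∈ S, ∑ r ∈ Rq q, aa (lev ψ q r) ≤ G * C₁ := by
    intro q hq
    rw [Finset.sum_comp aa (fun r => lev ψ q r)]
    calc ∑ b ∈ (Rq q).image (fun r => lev ψ q r), #{a ∈ Rq q | lev ψ q a = b} • aa b
        ≤ ∑ b ∈ (Rq q).image (fun r => lev ψ q r), G * (K * ρ ^ b) := by
          refine sum_le_sum fun b _ => ?_
          rw [nsmul_eq_mul]
          refine le_trans ?_ (hNa b)
          refine mul_le_mul_of_nonneg_right ?_ (aa_nonneg b)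
          have := countA hS hlab hq b ({a ∈ Rq q | lev ψ q a = b}) (fun r hr => by
            simp only [hRq, mem_filter] at hr
            obtain ⟨⟨hrS, hrq, hex⟩, hlev⟩ := hr
            refine ⟨hrS, hrq, hex, ?_⟩
            rw [← hlev]
            exact (lev_spec (hZ1 q hq r hrS)).2)
          exact_mod_cast this
      _ ≤ ∑' v : ℕ, G * (K * ρ ^ v) := hsum.sum_le_tsum _ (fun v _ => by positivity)
      _ = G * C₁ := htsum
  -- split the diagonal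
  have hsplit := Finset.sum_filter_add_sum_filter_not E (fun e => e.1 = e.2)
    (fun e => en ψ e.1 e.2)
  rw [← hsplit]
  have hM0 : 0 ≤ ∑ q ∈ S, wt ψ q := Finset.sum_nonneg hw
  have hdiag : ∑ e ∈ E.filter (fun e => e.1 = e.2), en ψ e.1 e.2 ≤ 2 * ∑ q ∈ S, wt ψ q := by
    have h1 : ∑ e ∈ E.filter (fun e => e.1 = e.2), en ψ e.1 e.2 =
        ∑ e ∈ E.filter (fun e => e.1 = e.2), 2 * wt ψ e.1 := by
      refine sum_congr rfl fun e he => ?_
      simp only [mem_filter] at he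
      obtain ⟨heE, hee⟩ := he
      have h2 := (hE e heE).1
      rw [← hee]
      exact en_self (hS _ h2) (hlab _ h2).pos
    rw [h1, ← mul_sum]
    refine mul_le_mul_of_nonneg_left ?_ (by norm_num)
    have h3 : Set.InjOn (fun e : ℕ × ℕ => e.1) (E.filter (fun e => e.1 = e.2)) := by
      intro e he e' he' hee
      simp only [coe_filter, Set.mem_ofPred_eq] at he he'
      exact Prod.ext hee (by rw [← he.2, ← he'.2]; exact hee)
    rw [← sum_image (f := fun q => wt ψ q) (g := fun e : ℕ × ℕ => e.1) h3]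
    refine sum_le_sum_of_subset_of_nonneg ?_ (fun q hq _ => hw q hq)
    intro q hq
    simp only [mem_image, mem_filter] at hq
    obtain ⟨e, ⟨heE, -⟩, rfl⟩ := hq
    exact (hE e heE).1
  have hoff : ∑ e ∈ E.filter (fun e => ¬ e.1 = e.2), en ψ e.1 e.2 ≤
      2 * (G * C₁) * ∑ q ∈ S, wt ψ q := by
    have h1 : ∑ e ∈ E.filter (fun e => ¬ e.1 = e.2), en ψ e.1 e.2 ≤
        ∑ e ∈ (S ×ˢ S).filter (fun e => e.2 ≠ e.1 ∧ ExH θ ψ φ h k e.1 e.2),
          (wt ψ e.1 + wt ψ e.2) * aa (lev ψ e.1 e.2) := by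
      calc ∑ e ∈ E.filter (fun e => ¬ e.1 = e.2), en ψ e.1 e.2
          ≤ ∑ e ∈ E.filter (fun e => ¬ e.1 = e.2), (wt ψ e.1 + wt ψ e.2) * aa (lev ψ e.1 e.2) := by
            refine sum_le_sum fun e he => ?_
            simp only [mem_filter] at he
            obtain ⟨h1, h2, -⟩ := hE e he.1
            obtain ⟨h3, h4⟩ := lev_spec (hZ1 _ h1 _ h2)
            exact en_le (hS _ h1) (hS _ h2) (hlab _ h1).pos (hlab _ h2).pos h3 h4
        _ ≤ _ := by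
            refine sum_le_sum_of_subset_of_nonneg ?_ ?_
            · intro e he
              simp only [mem_filter] at he
              obtain ⟨h1, h2, h3⟩ := hE e he.1
              simp only [mem_filter, mem_product]
              exact ⟨⟨h1, h2⟩, fun h => he.2 h.symm, h3⟩
            · intro e he _
              simp only [mem_filter, mem_product] at he
              exact mul_nonneg (add_nonneg (hw _ he.1.1) (hw _ he.1.2)) (aa_nonneg _)
    refine h1.trans ?_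
    have h2 : ∑ e ∈ (S ×ˢ S).filter (fun e => e.2 ≠ e.1 ∧ ExH θ ψ φ h k e.1 e.2),
          (wt ψ e.1 + wt ψ e.2) * aa (lev ψ e.1 e.2) =
        ∑ q ∈ S, wt ψ q * ∑ r ∈ Rq q, aa (lev ψ q r) +
          ∑ r ∈ S, wt ψ r * ∑ q ∈ Rq r, aa (lev ψ r q) := by
      have e1 : ∀ f : ℕ × ℕ → ℝ,
          ∑ e ∈ (S ×ˢ S).filter (fun e => e.2 ≠ e.1 ∧ ExH θ ψ φ h k e.1 e.2), f e =
          ∑ q ∈ S, ∑ r ∈ Rq q, f (q, r) := by
        intro f
        rw [sum_filter, sum_product]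
        refine sum_congr rfl fun q _ => ?_
        rw [hRq, sum_filter]
      have e2 : ∀ e : ℕ × ℕ, (wt ψ e.1 + wt ψ e.2) * aa (lev ψ e.1 e.2) =
          wt ψ e.1 * aa (lev ψ e.1 e.2) + wt ψ e.2 * aa (lev ψ e.1 e.2) := fun e => by ring
      simp_rw [e2]
      rw [sum_add_distrib, e1, e1]
      congr 1
      · refine sum_congr rfl fun q _ => ?_
        rw [mul_sum]
      · -- swap
        have e3 : ∀ q ∈ S, ∑ r ∈ Rq q, wt ψ r * aa (lev ψ q r) =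
            ∑ r ∈ S, if r ≠ q ∧ ExH θ ψ φ h k q r then wt ψ r * aa (lev ψ q r) else 0 := by
          intro q _
          rw [hRq, sum_filter]
        rw [sum_congr rfl e3, sum_comm]
        refine sum_congr rfl fun r _ => ?_
        rw [hRq, mul_sum, sum_filter]
        refine sum_congr rfl fun q _ => ?_
        have hiff : (r ≠ q ∧ ExH θ ψ φ h k q r) ↔ (q ≠ r ∧ ExH θ ψ φ h k r q) :=
          ⟨fun H => ⟨H.1.symm, H.2.symm⟩, fun H => ⟨H.1.symm, H.2.symm⟩⟩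
        have hlev : lev ψ q r = lev ψ r q := by unfold lev; rw [Zp_comm]
        by_cases hc : q ≠ r ∧ ExH θ ψ φ h k r q
        · rw [if_pos (hiff.2 hc), if_pos hc, hlev]
        · rw [if_neg (fun H => hc (hiff.1 H)), if_neg hc]
    rw [h2]
    have h3 : ∑ q ∈ S, wt ψ q * ∑ r ∈ Rq q, aa (lev ψ q r) ≤ ∑ q ∈ S, wt ψ q * (G * C₁) :=
      sum_le_sum fun q hq => mul_le_mul_of_nonneg_left (hpart q hq) (hw q hq)
    rw [← sum_mul] at h3
    linarith
  have hfin : 2 * ∑ q ∈ S, wt ψ q ≤ 2 * G * ∑ q ∈ S, wt ψ q := by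
    refine mul_le_mul_of_nonneg_right ?_ hM0
    linarith
  calc _ ≤ 2 * G * ∑ q ∈ S, wt ψ q + 2 * (G * C₁) * ∑ q ∈ S, wt ψ q := by linarith
    _ = _ := by ring


/-! ### in the notation of the leaves -/

open Crest.Agent.R4.LF363
open Crest.Agent.R4.LFX223 (isLab_of_lab exH_of_exR)

/-- **LF5 with label radii, no loss** -/
theorem exact_sumA (a : ℕ) : ∃ C : ℝ, 0 < C ∧
    ∀ (S : Finset ℕ) (ψ φ : ℕ → ℝ) (θ : ℝ) (lab : ℕ → Option ℚ),
    (∀ q ∈ S, 0 < q) → (∀ q ∈ S, 0 < ψ q) → (∀ q ∈ S, φ q ≤ ψ q) →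
    (∀ q ∈ S, ∀ ρ, lab q = some ρ → Lab θ (φ q) ρ) →
    (∀ q ∈ S, ∀ ρ, lab q = some ρ → ψ q ≤ 2 * φ q ∨ |θ - ρ| / φ q ≤ (ρ.den : ℝ) ^ (a + 1)) →
      ∑ q ∈ S, ∑ r ∈ S, T02 θ ψ φ lab q r ≤
        C * ∑ q ∈ S, ψ q * ((Nat.totient q : ℝ) / q) := by
  classical
  obtain ⟨C, hC, H⟩ := exact_pairs_A a
  refine ⟨C, hC, fun S ψ φ θ lab hS hψ hle hlab hthr => ?_⟩
  set S' := S.filter fun q => ∃ ρ, lab q = some ρ with hS'
  set E := (S ×ˢ S).filter fun e => T02 θ ψ φ lab e.1 e.2 ≠ 0 with hE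
  have h1 : ∑ q ∈ S, ∑ r ∈ S, T02 θ ψ φ lab q r = ∑ e ∈ E, T02 θ ψ φ lab e.1 e.2 := by
    rw [hE, sum_filter_ne_zero, sum_product]
  have h2 : ∀ e ∈ E, T02 θ ψ φ lab e.1 e.2 ≤ en ψ e.1 e.2 := by
    intro e he
    obtain ⟨he1, -⟩ := mem_filter.1 he
    obtain ⟨hq, hr⟩ := mem_product.1 he1
    have := (T02_le (θ := θ) φ lab (hS _ hq) (hS _ hr) (hψ _ hq) (hψ _ hr)).1
    refine this.trans (le_of_eq ?_)
    unfold en fr DD Dq
    rw [mul_assoc]
  have h3 : ∀ e ∈ E, e.1 ∈ S' ∧ e.2 ∈ S' ∧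
      ExH θ ψ φ (fun q => ((lab q).getD 0).num) (fun q => ((lab q).getD 0).den) e.1 e.2 := by
    intro e he
    obtain ⟨he1, he2⟩ := mem_filter.1 he
    obtain ⟨hq, hr⟩ := mem_product.1 he1
    have := (T02_le (θ := θ) φ lab (hS _ hq) (hS _ hr) (hψ _ hq) (hψ _ hr)).2 he2
    obtain ⟨g1, g2, g3⟩ := exH_of_exR this
    exact ⟨mem_filter.2 ⟨hq, g1⟩, mem_filter.2 ⟨hr, g2⟩, g3⟩
  have h4 := H S' ψ φ θ (fun q => ((lab q).getD 0).num)
    (fun q => ((lab q).getD 0).den) (fun q hq => hS q (mem_filter.1 hq).1)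
    (fun q hq => by
      obtain ⟨hq1, ρ, hρ⟩ := mem_filter.1 hq
      have h5 := isLab_of_lab (hlab q hq1 ρ hρ)
      have h6 := hthr q hq1 ρ hρ
      simp only [hρ, Option.getD_some]
      refine ⟨h5, hle q hq1, ?_⟩
      rwa [← Rat.cast_def]) E h3
  have h5 : ∑ q ∈ S', LFE223.wt ψ q ≤ ∑ q ∈ S, ψ q * ((Nat.totient q : ℝ) / q) := by
    refine sum_le_sum_of_subset_of_nonneg (filter_subset _ _) fun q hq _ => ?_
    exact mul_nonneg (hψ q hq).le (LFE223.fr_nonneg q)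
  rw [h1]
  calc ∑ e ∈ E, T02 θ ψ φ lab e.1 e.2 ≤ ∑ e ∈ E, en ψ e.1 e.2 := sum_le_sum h2
    _ ≤ C * ∑ q ∈ S', LFE223.wt ψ q := h4
    _ ≤ _ := mul_le_mul_of_nonneg_left h5 hC.le

end Crest.Agent.R4.LeafX734

namespace Crest.Agent.R4.LeafX734

open Crest.Agent.R4.HVW560 Crest.Agent.R4.ClsS Crest.Agent.R4.ClsB
open Crest.Agent.R4.LF363 Crest.Agent.R4.LF4
open Crest.Agent.R4.LF11 Crest.Agent.R4.LFA
open Crest.Agent.R4.Tour104 (I)

/-- **Theorem LF (A) for tame leaves, no loss in `η`** (labels with `ψ ≤ 2 φ` or threshold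
controlled by the denominator); `c0` does not depend on `ε`, `C` not on `c1`. -/
theorem leafA_noloss (a : ℕ) : ∃ c0 : ℝ, 0 < c0 ∧ ∀ ε : ℝ, 0 < ε → ε ≤ 1/4 → ∃ C : ℝ, 1 ≤ C ∧
    ∀ c1 : ℝ, 0 < c1 → c1 ≤ c0 → ∃ T0 : ℝ, 2^50 ≤ T0 ∧
    ∀ (θ T η X : ℝ) (S : Finset ℕ) (ψ φ : ℕ → ℝ) (lab : ℕ → Option ℚ) (G : ℕ),
    T0 ≤ T → 2^38 ≤ η^10 * T → X ≤ Real.exp (T^c1) → Leaf η θ S ψ φ lab →
    (∀ q ∈ S, ∀ ρ, lab q = some ρ → ψ q ≤ 2 * φ q ∨ |θ - ρ| / φ q ≤ (ρ.den : ℝ) ^ (a + 1)) →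
    0 < G → XTame X G S →
    ∑ q ∈ S, ∑ r ∈ S, T02 θ ψ φ lab q r + ∑ q ∈ S, ∑ r ∈ S, T12 θ ψ φ lab q r ≤
      C * ((∑ q ∈ S, wt ψ q)^2 + T^(2*ε) * (∑ q ∈ S, wt ψ q)^(1+2*ε) +
        T^(-(6/1000):ℝ) * (∑ q ∈ S, wt ψ q)^(1+2*eps1) + ∑ q ∈ S, wt ψ q) := by
  obtain ⟨CU, cU, hCU1, hcU, -, hT1'⟩ := leaf_T1
  obtain ⟨CB, cb, hCB1, hcb, hB⟩ := clsB
  obtain ⟨CX, hCX, hX'⟩ := exact_sumA a
  set r : ℝ := 2 * CP * (CU + CB) / (1 - 2^(-(6/1000):ℝ)) with hr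
  have hCP := CP_nonneg
  have hd : (0:ℝ) < 1 - 2^(-(6/1000):ℝ) := by
    have : (2:ℝ)^(-(6/1000):ℝ) < 1 := Real.rpow_lt_one_of_one_lt_of_neg (by norm_num) (by norm_num)
    linarith
  have hr0 : 0 ≤ r := by
    rw [hr]; exact div_nonneg (by positivity) hd.le
  refine ⟨min cb (cU/3), lt_min hcb (by positivity), fun ε hε hε4 => ?_⟩
  have hCE := (CE_pos hε).le
  refine ⟨1 + 8 * CP + CP * CE ε * 2^(2*ε) + CP + r + CX, ?_, fun c1 hc1 hc10 => ?_⟩
  · have : 0 ≤ CP * CE ε * 2^(2*ε) := by positivity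
    linarith
  obtain ⟨T0, hT0⟩ := hB c1 hc1 (hc10.trans (min_le_left _ _))
  have hc13 : 3 * c1 ≤ cU := by
    have := hc10.trans (min_le_right _ _)
    linarith
  refine ⟨max (2^50) T0, le_max_left _ _, ?_⟩
  intro θ T η X S ψ φ lab G hT hTη hX h hthr hG htame
  have hT50 : 2^50 ≤ T := (le_max_left _ _).trans hT
  have hT0' : 0 < T := lt_of_lt_of_le (by norm_num) hT50
  have hcls := hT0 θ T X S S ψ ψ G ((le_max_right _ _).trans hT) hT0' hX hG htame htame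
  have h1 := hT1' ε CB (6/1000) θ T η (fun t => Real.exp (t^(3*c1))) S ψ φ lab hε hε4 (by linarith)
    (by norm_num) hT50 hTη (by
      intro t ht
      refine Real.exp_le_exp.2 (Real.rpow_le_rpow_of_exponent_le ?_ hc13)
      exact le_trans (by norm_num) (hT50.trans ht)) h hcls
  have h2 := hX' S ψ φ θ lab h.pos h.ψ0 h.φψ (fun q hq ρ hρ => (h.lb q hq ρ).1 hρ) hthr
  have hmin : min (7/1000:ℝ) (6/1000) = 6/1000 := by norm_num
  rw [hmin] at h1
  have e5 : ∑ q ∈ S, ψ q * ((Nat.totient q : ℝ) / q) = ∑ q ∈ S, wt ψ q := rfl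
  rw [e5] at h2
  set M := ∑ q ∈ S, wt ψ q with hM
  have hM0 : 0 ≤ M := Finset.sum_nonneg fun v hv => wt_nonneg (h.ψ0 v hv).le
  have e1 : (2*T)^(2*ε) = 2^(2*ε) * T^(2*ε) := Real.mul_rpow (by norm_num) hT0'.le
  rw [e1] at h1
  have hb0 : 0 ≤ T^(2*ε) * M^(1+2*ε) := by positivity
  have ha0 : 0 ≤ T^(-(6/1000):ℝ) * M^(1+2*eps1) := by positivity
  have hM2 : 0 ≤ M^2 := by positivity
  have hp1 : 0 ≤ CP * CE ε * 2^(2*ε) := by positivity
  set K : ℝ := 1 + 8 * CP + CP * CE ε * 2^(2*ε) + CP + r + CX with hK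
  have g1 : 8 * CP * M^2 ≤ K * M^2 := mul_le_mul_of_nonneg_right (by linarith) hM2
  have g2 : CP * CE ε * 2^(2*ε) * (T^(2*ε) * M^(1+2*ε)) ≤ K * (T^(2*ε) * M^(1+2*ε)) :=
    mul_le_mul_of_nonneg_right (by linarith) hb0
  have g3 : r * (T^(-(6/1000):ℝ) * M^(1+2*eps1)) ≤ K * (T^(-(6/1000):ℝ) * M^(1+2*eps1)) :=
    mul_le_mul_of_nonneg_right (by linarith) ha0
  have g4 : (CP + CX) * M ≤ K * M := mul_le_mul_of_nonneg_right (by linarith) hM0
  calc _ ≤ CX * M + (CP * (8 * M^2 + CE ε * (2^(2*ε) * T^(2*ε)) * M^(1+2*ε)) + CP * M +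
        r * T^(-(6/1000):ℝ) * M^(1+2*eps1)) := add_le_add h2 h1
    _ = 8 * CP * M^2 + CP * CE ε * 2^(2*ε) * (T^(2*ε) * M^(1+2*ε)) +
        r * (T^(-(6/1000):ℝ) * M^(1+2*eps1)) + (CP + CX) * M := by ring
    _ ≤ _ := by
        have : K * (M^2 + T^(2*ε) * M^(1+2*ε) + T^(-(6/1000):ℝ) * M^(1+2*eps1) + M) =
          K * M^2 + K * (T^(2*ε) * M^(1+2*ε)) + K * (T^(-(6/1000):ℝ) * M^(1+2*eps1)) + K * M := by
            ring
        rw [this]
        linarith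

end Crest.Agent.R4.LeafX734
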