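import Crest.Agent.R4.LinkX223
import Crest.Agent.R4.Bad223

/-!
R4 (S0004), helper223, module D: **good and bad crossing primes**.  If the crossing factor divides the
numerator of the label of its side, it disappears: the `[F]` pair has the same index below unless
`1 < 2 (rf k₀)^10 D` *without the crossing factor*.  `xf β ρ` = the factor which is left.
`PE_FX_good`: the [F] pair is either of this kind, or the crossing prime is **bad** (accidental) for the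
target of its side at the scale of the pair.
-/

set_option autoImplicit false
set_option linter.unusedSectionVars false
set_option linter.unusedVariables false
open MeasureTheory Filter

namespace Crest.Agent.R4.LinkG223

open Crest.Agent.R4.Tour104 Crest.Agent.R4.Tour758 Crest.Agent.R4.Avg758 Crest.Agent.R4.Clos758
open Crest.Agent.R4.ClosL758 Crest.Agent.R4.ClosG758 Crest.Agent.R4.ClosR758
open Crest.Agent.R4.Fam464 Crest.Agent.R4.Cnt588 Crest.Agent.R4.Walk560 Crest.Agent.R4.Item758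
open Crest.Agent.R4.Piece464 Crest.Agent.R4.W363 Crest.Agent.R4.AvgItem710 Crest.Agent.R4.Data758
open Crest.Agent.R4.LF363 (Lab lab_unique)
open Crest.Agent.R4.Dich579 (FF)
open Crest.Agent.R4.Link758
open Crest.Agent.R4.Bad223

variable {c : Cf} {n : ℕ}

/-- the factor of a side which is left: `1` if `β` divides the numerator of the label -/
noncomputable def xf (β : ℕ) (ρ : ℚ) : ℕ := if (β : ℤ) ∣ ρ.num then 1 else β

lemma xf_pos {β : ℕ} (hβ : 0 < β) (ρ : ℚ) : 0 < xf β ρ := by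
  unfold xf; split_ifs
  · exact one_pos
  · exact hβ

/-- division by a divisor of the numerator keeps the denominator -/
lemma den_div_le {ρ : ℚ} {β : ℕ} (hβ : 0 < β) (hd : (β : ℤ) ∣ ρ.num) : (ρ / β : ℚ).den ≤ ρ.den := by
  obtain ⟨a, ha⟩ := hd
  have e : (ρ / β : ℚ) = (a : ℚ) / ((ρ.den : ℤ) : ℚ) := by
    have hβ0 : (β : ℚ) ≠ 0 := by exact_mod_cast hβ.ne'
    have hd0 : (ρ.den : ℚ) ≠ 0 := by exact_mod_cast ρ.den_ne_zero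
    have h1 : (ρ.num : ℚ) / ρ.den = ρ := Rat.num_div_den ρ
    calc (ρ / β : ℚ) = (ρ.num : ℚ) / ρ.den / β := by rw [h1]
      _ = (((β : ℤ) * a : ℤ) : ℚ) / ρ.den / β := by rw [ha]
      _ = (a : ℚ) / ((ρ.den : ℤ) : ℚ) := by
          push_cast
          field_simp
  have h2 : (((ρ / β : ℚ).den : ℕ) : ℤ) ∣ (ρ.den : ℤ) := by
    rw [e]
    have := Rat.den_dvd a (ρ.den : ℤ)
    rwa [Rat.divInt_eq_div] at this
  exact Nat.le_of_dvd ρ.den_pos (by exact_mod_cast h2)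

/-- a label divided by a divisor of its numerator -/
lemma lab_good {θ r t : ℝ} {β : ℕ} {ρ : ℚ} (hβ : 0 < β) (hd : (β : ℤ) ∣ ρ.num)
    (h : Lab (β * θ) (β * r) ρ) (hk : (ρ.den : ℝ) ≤ t ^ (21/200 : ℝ))
    (hn : |β * θ - ρ| ≤ t ^ (39/200 : ℝ) * (β * r)) :
    Lab θ r (ρ / β) ∧ ((ρ / β : ℚ).den : ℝ) ≤ t ^ (21/200 : ℝ) ∧
      |θ - (ρ / β : ℚ)| ≤ t ^ (39/200 : ℝ) * r := by
  have hβ0 : (0 : ℝ) < β := by exact_mod_cast hβ
  have hβ1 : (1 : ℝ) ≤ β := by exact_mod_cast hβ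
  have hr : 0 < r := pos_of_mul_pos_right h.pos hβ0.le
  have hrm : r ≤ β * r := le_mul_of_one_le_left hr.le hβ1
  have hden : ((ρ / β : ℚ).den : ℝ) ≤ ρ.den := by exact_mod_cast den_div_le hβ hd
  have e : θ - ((ρ / β : ℚ) : ℝ) = (β * θ - ρ) / β := by
    push_cast; field_simp
  have eabs : |θ - ((ρ / β : ℚ) : ℝ)| = |β * θ - ρ| / β := by
    rw [e, abs_div, abs_of_pos hβ0]
  refine ⟨⟨hr, hrm.trans h.le, ?_, ?_⟩, hden.trans hk, ?_⟩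
  · calc ((ρ / β : ℚ).den : ℝ) ^ 5 * r ≤ (ρ.den : ℝ) ^ 5 * (β * r) :=
          mul_le_mul (pow_le_pow_left₀ (by positivity) hden 5) hrm hr.le (by positivity)
      _ ≤ 1 := h.den
  · rw [eabs, div_pow, div_le_iff₀ (by positivity)]
    calc |β * θ - (ρ : ℝ)| ^ 5 ≤ (β * r) ^ 4 := h.near
      _ = r ^ 4 * (β : ℝ) ^ 4 := by ring
      _ ≤ r ^ 4 * (β : ℝ) ^ 5 := mul_le_mul_of_nonneg_left
          (pow_le_pow_right₀ hβ1 (by norm_num)) (by positivity)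
  · rw [eabs, div_le_iff₀ hβ0]
    calc |β * θ - (ρ : ℝ)| ≤ t ^ (39/200 : ℝ) * (β * r) := hn
      _ = t ^ (39/200 : ℝ) * r * β := by ring

/-- the state of one side -/
lemma side_st {l : ℕ} {t : ℝ} (ht : 1 ≤ t) {q B w M k₀ y₁ β : ℕ} {ρ : ℚ} (b0 : 0 < Bl c l q)
    (k0 : 0 < k₀) (r0 : 0 < rf w M) (y0 : 0 < y₁) (β0 : 0 < β) (hB : B = k₀ * Bl c l q)
    (hm : ((xf β ρ * rf w M * k₀ : ℕ) : ℝ) ≤ t ^ (1/10 : ℝ))
    (hyr : (y₁ : ℝ) * (β * (rf w M * (B * c.r q))) ≤ 1 / t)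
    (hL : Lab (β * (rf w M * (B * c.γ))) (β * (rf w M * (B * c.r q))) ρ)
    (hd : (ρ.den : ℝ) ≤ t ^ (21/200 : ℝ))
    (hn : |β * (rf w M * (B * c.γ)) - ρ| ≤ t ^ (39/200 : ℝ) * (β * (rf w M * (B * c.r q))))
    (hth : (Bl c l q : ℝ) * c.r q ≤ c.wp.thr l) :
    ∃ σ : ℚ, c.wp.st c.γ c.r c.t l q = some σ ∧ (β : ℝ) * ((rf w M : ℝ) * (B * σ)) = ρ := by
  -- the case where the whole factor is used
  have key : ∀ {β : ℕ} {ρ : ℚ}, 0 < β → ((β * rf w M * k₀ : ℕ) : ℝ) ≤ t ^ (1/10 : ℝ) →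
      (y₁ : ℝ) * (β * (rf w M * (B * c.r q))) ≤ 1 / t →
      Lab (β * (rf w M * (B * c.γ))) (β * (rf w M * (B * c.r q))) ρ →
      (ρ.den : ℝ) ≤ t ^ (21/200 : ℝ) →
      |β * (rf w M * (B * c.γ)) - ρ| ≤ t ^ (39/200 : ℝ) * (β * (rf w M * (B * c.r q))) →
      ∃ σ : ℚ, c.wp.st c.γ c.r c.t l q = some σ ∧ (β : ℝ) * ((rf w M : ℝ) * (B * σ)) = ρ := by
    intro β ρ β0 hm hyr hL hd hn
    have e1 : (β : ℝ) * ((rf w M : ℝ) * (B * c.γ)) = ((β * rf w M * k₀ : ℕ) : ℝ) * (Bl c l q * c.γ) := by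
      rw [hB]; push_cast; ring
    have e2 : (β : ℝ) * ((rf w M : ℝ) * (B * c.r q)) =
        ((β * rf w M * k₀ : ℕ) : ℝ) * (Bl c l q * c.r q) := by
      rw [hB]; push_cast; ring
    rw [e1, e2] at hL hn
    rw [e2] at hyr
    have hpos := hL.pos
    have hy1 : (1 : ℝ) ≤ y₁ := by exact_mod_cast y0
    have hr1 : ((β * rf w M * k₀ : ℕ) : ℝ) * (Bl c l q * c.r q) ≤ 1 / t :=
      (le_mul_of_one_le_left hpos.le hy1).trans hyr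
    have hlab := lab_div (Nat.mul_pos (Nat.mul_pos β0 r0) k0) ht hm hL hd hn hr1
    refine ⟨_, st_of_lab hth hlab, ?_⟩
    have b0' : (Bl c l q : ℝ) ≠ 0 := by exact_mod_cast b0.ne'
    have k0' : (k₀ : ℝ) ≠ 0 := by exact_mod_cast k0.ne'
    have r0' : (rf w M : ℝ) ≠ 0 := by exact_mod_cast r0.ne'
    have β0' : (β : ℝ) ≠ 0 := by exact_mod_cast β0.ne'
    rw [hB]
    push_cast
    field_simp
  by_cases hdv : (β : ℤ) ∣ ρ.num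
  · have ex : xf β ρ = 1 := by unfold xf; rw [if_pos hdv]
    rw [ex] at hm
    obtain ⟨l1, l2, l3⟩ := lab_good (t := t) β0 hdv hL hd hn
    have hβ0 : (0 : ℝ) < β := by exact_mod_cast β0
    have hβ1 : (1 : ℝ) ≤ β := by exact_mod_cast β0
    have hr : 0 < (rf w M : ℝ) * (B * c.r q) := pos_of_mul_pos_right hL.pos hβ0.le
    obtain ⟨σ, s1, s2⟩ := key (β := 1) (ρ := ρ / β) one_pos hm (by
      rw [Nat.cast_one, one_mul]
      refine le_trans ?_ hyr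
      exact mul_le_mul_of_nonneg_left (le_mul_of_one_le_left hr.le hβ1) (by positivity))
      (by rw [Nat.cast_one, one_mul, one_mul]; exact l1) l2
      (by rw [Nat.cast_one, one_mul, one_mul]; exact l3)
    refine ⟨σ, s1, ?_⟩
    rw [Nat.cast_one, one_mul] at s2
    rw [s2]
    push_cast
    field_simp
  · have ex : xf β ρ = β := by unfold xf; rw [if_neg hdv]
    rw [ex] at hm
    exact key β0 hm hyr hL hd hn

/-- **[F] pairs of a crossing level have the same index below.** -/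
theorem same_of_FG (h : c.Ok n) {l : ℕ} (hl : l ≤ n) {j j' : c.Lam} {B w M B' w' M' : ℕ}
    {κ κ' : ℤ → ℝ} {y z z' : ℝ} {i a i' a' : ℤ}
    (hP : Pt c.γ (c.D.al j) (c.D.be j) B w M κ y i a z)
    (hP' : Pt c.γ (c.D.al j') (c.D.be j') B' w' M' κ' y i' a' z')
    (hM : 0 < M) (hM' : 0 < M') (hB : 0 < B) (hB' : 0 < B') (hw : 0 < w) (hw' : 0 < w')
    {x y₁ pr pr' β₁ β₂ : ℕ} (hβ₁ : 0 < β₁) (hβ₂ : 0 < β₂)
    (hx : 0 < x) (hy : 0 < y₁) (hpr : 0 < pr) (hpr' : 0 < pr') (hq : j.1.1 = pr * w)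
    (hq' : j'.1.1 = pr' * w') (hcirc : pr * M * B = pr' * M' * B')
    (hxy : (w / M.gcd w) * (β₁ * y₁) = (w' / M'.gcd w') * (β₂ * x))
    {k₀ k₀' : ℕ} (hk : B = k₀ * Bl c l j.1.1) (hk' : B' = k₀' * Bl c l j'.1.1)
    (hthin : (Bl c l j.1.1 : ℝ) * c.r j.1.1 ≤ c.wp.thr l)
    (hthin' : (Bl c l j'.1.1 : ℝ) * c.r j'.1.1 ≤ c.wp.thr l)
    (hac : ¬ Ac c l j.1.1) (hac' : ¬ Ac c l j'.1.1)
    {t : ℝ} (ht : 1 ≤ t) {ρ ρ' : ℚ}
    (hm : ((xf β₁ ρ * rf w M * k₀ : ℕ) : ℝ) ≤ t ^ (1/10 : ℝ))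
    (hm' : ((xf β₂ ρ' * rf w' M' * k₀' : ℕ) : ℝ) ≤ t ^ (1/10 : ℝ))
    (hyr : (y₁ : ℝ) * (β₁ * (rf w M * (B * c.r j.1.1))) ≤ 1 / t)
    (hxr : (x : ℝ) * (β₂ * (rf w' M' * (B' * c.r j'.1.1))) ≤ 1 / t)
    (hFF : FF (β₁ * (rf w M * (B * c.γ))) (β₂ * (rf w' M' * (B' * c.γ))) t
      (β₁ * (rf w M * (B * c.r j.1.1))) (β₂ * (rf w' M' * (B' * c.r j'.1.1))) x y₁ ρ ρ') :
    (j, j') ∉ Ro (c.D.rho l) := by
  have hb0 : 0 < Bl c l j.1.1 := Nat.pos_of_ne_zero fun h0 => by rw [hk, h0] at hB; simp at hB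
  have hb0' : 0 < Bl c l j'.1.1 := Nat.pos_of_ne_zero fun h0 => by
    rw [hk', h0] at hB'; simp at hB'
  have hk0 : 0 < k₀ := Nat.pos_of_ne_zero fun h0 => by rw [hk, h0] at hB; simp at hB
  have hk0' : 0 < k₀' := Nat.pos_of_ne_zero fun h0 => by rw [hk', h0] at hB'; simp at hB'
  have hr0 := rf_pos (w := w) hM
  have hr0' := rf_pos (w := w') hM'
  have ht0 : 0 < t := lt_of_lt_of_le one_pos ht
  obtain ⟨σ, s1, s2⟩ := side_st ht hb0 hk0 hr0 hy hβ₁ hk hm hyr hFF.lab hFF.den hFF.near hthin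
  obtain ⟨τ, s1', s2'⟩ := side_st ht hb0' hk0' hr0' hx hβ₂ hk' hm' hxr hFF.lab' hFF.den' hFF.near' hthin'
  intro hR
  rw [h.Ro_iff hl j j' hP.z1 hP.z2 hP'.z1 hP'.z2, st_of_not_Ac hac, st_of_not_Ac hac', s1,
    s1'] at hR
  apply hR
  apply ixG_same_some
  refine off_eq_of_exact hP hP' hM hM' hB hw hw' (Nat.mul_pos hβ₂ hx) (Nat.mul_pos hβ₁ hy)
    hpr hpr' hq hq' hcirc hxy ?_
  have hz : |z| ≤ c.r j.1.1 := by
    rw [abs_le]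
    exact ⟨(h.bp_ge j _).trans hP.z1, (hP.z2.le).trans (h.bp_le j (Cf.k_lt j))⟩
  have hz' : |z'| ≤ c.r j'.1.1 := by
    rw [abs_le]
    exact ⟨(h.bp_ge j' _).trans hP'.z1, (hP'.z2.le).trans (h.bp_le j' (Cf.k_lt j'))⟩
  have hrel := rel_pts hP hP' hM hM' hw hw' hxy
  have hex := hFF.exact ((β₁ : ℤ) * num w M i a) ((β₂ : ℤ) * num w' M' i' a') (by
    have u1 : ((β₁ * y₁ : ℕ) : ℝ) * (rf w M * (B * |z|)) ≤
        y₁ * (β₁ * (rf w M * (B * c.r j.1.1))) := by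
      push_cast
      calc (β₁ : ℝ) * y₁ * (rf w M * (B * |z|)) ≤ (β₁ : ℝ) * y₁ * (rf w M * (B * c.r j.1.1)) := by gcongr
        _ = _ := by ring
    have u2 : ((β₂ * x : ℕ) : ℝ) * (rf w' M' * (B' * |z'|)) ≤
        x * (β₂ * (rf w' M' * (B' * c.r j'.1.1))) := by
      push_cast
      calc (β₂ : ℝ) * x * (rf w' M' * (B' * |z'|)) ≤ (β₂ : ℝ) * x * (rf w' M' * (B' * c.r j'.1.1)) := by
            gcongr
        _ = _ := by ring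
    have e : ((((β₁ : ℤ) * num w M i a : ℤ) : ℝ) + β₁ * (rf w M * (B * c.γ))) * y₁ -
        ((((β₂ : ℤ) * num w' M' i' a' : ℤ) : ℝ) + β₂ * (rf w' M' * (B' * c.γ))) * x =
        (num w M i a + rf w M * (B * c.γ)) * ((β₁ * y₁ : ℕ) : ℝ) -
        (num w' M' i' a' + rf w' M' * (B' * c.γ)) * ((β₂ * x : ℕ) : ℝ) := by
      push_cast; ring
    rw [e]
    calc _ ≤ 1 / t + 1 / t := hrel.trans (add_le_add (u1.trans hyr) (u2.trans hxr))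
      _ = 2 / t := by ring)
  rw [← s2, ← s2'] at hex
  push_cast at hex ⊢
  linear_combination hex

open Crest.Agent.R4.StopAsm709 (FS)

/-- **[F] pairs of a crossing level which are related below have large factors**: `1 < 2 m^10 D` -/
theorem FG_lower (h : c.Ok n) {l : ℕ} (hl : l ≤ n) {j j' : c.Lam} {B w M B' w' M' : ℕ}
    {κ κ' : ℤ → ℝ} {y z z' : ℝ} {i a i' a' : ℤ}
    (hP : Pt c.γ (c.D.al j) (c.D.be j) B w M κ y i a z)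
    (hP' : Pt c.γ (c.D.al j') (c.D.be j') B' w' M' κ' y i' a' z')
    (hM : 0 < M) (hM' : 0 < M') (hB : 0 < B) (hB' : 0 < B') (hw : 0 < w) (hw' : 0 < w')
    {x y₁ pr pr' β₁ β₂ : ℕ} (hβ₁ : 0 < β₁) (hβ₂ : 0 < β₂)
    (hx : 0 < x) (hy : 0 < y₁) (hpr : 0 < pr) (hpr' : 0 < pr') (hq : j.1.1 = pr * w)
    (hq' : j'.1.1 = pr' * w') (hcirc : pr * M * B = pr' * M' * B')
    (hxy : (w / M.gcd w) * (β₁ * y₁) = (w' / M'.gcd w') * (β₂ * x))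
    {k₀ k₀' : ℕ} (hk : B = k₀ * Bl c l j.1.1) (hk' : B' = k₀' * Bl c l j'.1.1)
    (hthin : (Bl c l j.1.1 : ℝ) * c.r j.1.1 ≤ c.wp.thr l)
    (hthin' : (Bl c l j'.1.1 : ℝ) * c.r j'.1.1 ≤ c.wp.thr l)
    (hac : ¬ Ac c l j.1.1) (hac' : ¬ Ac c l j'.1.1)
    (hR : (j, j') ∈ Ro (c.D.rho l)) {N : ℕ}
    (hFS : FS N (β₁ * (rf w M * (B * c.γ))) (β₂ * (rf w' M' * (B' * c.γ))) x y₁
      (β₁ * (rf w M * (B * c.r j.1.1))) (β₂ * (rf w' M' * (B' * c.r j'.1.1)))) :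
    ∃ (t : ℝ) (ρ ρ' : ℚ), (2:ℝ) ^ N ≤ t ∧
      1 / (2 * t) < max ((y₁ : ℝ) * (β₁ * (rf w M * (B * c.r j.1.1))))
        ((x : ℝ) * (β₂ * (rf w' M' * (B' * c.r j'.1.1)))) ∧
      max ((y₁ : ℝ) * (β₁ * (rf w M * (B * c.r j.1.1))))
        ((x : ℝ) * (β₂ * (rf w' M' * (B' * c.r j'.1.1)))) ≤ 1 / t ∧
      FF (β₁ * (rf w M * (B * c.γ))) (β₂ * (rf w' M' * (B' * c.γ))) t
        (β₁ * (rf w M * (B * c.r j.1.1))) (β₂ * (rf w' M' * (B' * c.r j'.1.1))) x y₁ ρ ρ' ∧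
      1 < 2 * ((max (xf β₁ ρ * rf w M * k₀) (xf β₂ ρ' * rf w' M' * k₀') : ℕ) : ℝ) ^ 10 *
      max ((y₁ : ℝ) * (β₁ * (rf w M * (B * c.r j.1.1))))
        ((x : ℝ) * (β₂ * (rf w' M' * (B' * c.r j'.1.1)))) := by
  obtain ⟨t, m, m', ρ, ρ', h1, h2, h3, h4, h5, h6⟩ := hFS
  have ht : 1 ≤ t := le_trans (one_le_pow₀ (by norm_num)) h1
  have ht0 : 0 < t := lt_of_lt_of_le one_pos ht
  refine ⟨t, ρ, ρ', h1, h2, h3, h5, ?_⟩
  set mx : ℕ := max (xf β₁ ρ * rf w M * k₀) (xf β₂ ρ' * rf w' M' * k₀') with hmx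
  set Dm := max ((y₁ : ℝ) * (β₁ * (rf w M * (B * c.r j.1.1))))
    ((x : ℝ) * (β₂ * (rf w' M' * (B' * c.r j'.1.1)))) with hDm
  by_contra hcon
  push Not at hcon
  have h7 : ((mx : ℕ) : ℝ) ^ 10 ≤ t := by
    have a1 : ((mx : ℕ) : ℝ) ^ 10 / t ≤ 1 := by
      calc ((mx : ℕ) : ℝ) ^ 10 / t = 2 * ((mx : ℕ) : ℝ) ^ 10 * (1 / (2 * t)) := by
            field_simp
        _ ≤ 2 * ((mx : ℕ) : ℝ) ^ 10 * Dm := mul_le_mul_of_nonneg_left h2.le (by positivity)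
        _ ≤ 1 := hcon
    rwa [div_le_one ht0] at a1
  have h8 : ((mx : ℕ) : ℝ) ≤ t ^ (1/10 : ℝ) := by
    have a2 : (((mx : ℕ) : ℝ) ^ 10) ^ (1/10 : ℝ) ≤ t ^ (1/10 : ℝ) :=
      Real.rpow_le_rpow (by positivity) h7 (by norm_num)
    have a3 : (((mx : ℕ) : ℝ) ^ 10) ^ (1/10 : ℝ) = ((mx : ℕ) : ℝ) := by
      rw [← Real.rpow_natCast, ← Real.rpow_mul (Nat.cast_nonneg _)]
      norm_num
    rwa [a3] at a2
  refine same_of_FG h hl hP hP' hM hM' hB hB' hw hw' hβ₁ hβ₂ hx hy hpr hpr' hq hq' hcirc hxy hk hk' hthin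
    hthin' hac hac' ht (le_trans ?_ h8) (le_trans ?_ h8) ((le_max_left _ _).trans h3)
    ((le_max_right _ _).trans h3) h5 hR
  · exact_mod_cast le_max_left _ _
  · exact_mod_cast le_max_right _ _

/-- **for item pairs of a state** -/
theorem PE_FG_lower (h : c.Ok n) {l : ℕ} (hl : l ≤ n) (X : Finset (ℕ × ℕ × Finset ℕ))
    {M M' b pr c₁ b' pr' c₁' : ℕ} {t t' : IT} {A A' : Finset c.Lam}
    (hM : 0 < M) (hM' : 0 < M') (hb : 0 < b) (hb' : 0 < b') (hF : Fit b pr t)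
    (hF' : Fit b' pr' t') (hW : (c.D.par X).Wts pr t) (hW' : (c.D.par X).Wts pr' t')
    (hc : c₁ ∣ b) (hc' : c₁' ∣ b') {R : Finset (c.Lam × c.Lam)} (hR : R ⊆ Ro (c.D.rho l))
    {e : ℕ × ℕ}
    (he : e ∈ (c.D.par X).PE R ((c.D.par X).uA M b pr t A c₁) ((c.D.par X).uA M' b' pr' t' A' c₁'))
    (hcirc : pr * M * (b / c₁) = pr' * M' * (b' / c₁')) {x y₁ β₁ β₂ : ℕ} (hβ₁ : 0 < β₁) (hβ₂ : 0 < β₂)
    (hx : 0 < x) (hy : 0 < y₁)
    (hxy : (e.1 / pr / M.gcd (e.1 / pr)) * (β₁ * y₁) = (e.2 / pr' / M'.gcd (e.2 / pr')) * (β₂ * x))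
    {k₀ k₀' : ℕ} (hk : b / c₁ = k₀ * Bl c l e.1) (hk' : b' / c₁' = k₀' * Bl c l e.2)
    (hthin : (Bl c l e.1 : ℝ) * c.r e.1 ≤ c.wp.thr l)
    (hthin' : (Bl c l e.2 : ℝ) * c.r e.2 ≤ c.wp.thr l)
    (hac : ¬ Ac c l e.1) (hac' : ¬ Ac c l e.2) {N : ℕ}
    (hFS : FS N (β₁ * (rf (e.1 / pr) M * ((b : ℝ) / c₁ * c.γ)))
      (β₂ * (rf (e.2 / pr') M' * ((b' : ℝ) / c₁' * c.γ)))
      x y₁ (β₁ * (rf (e.1 / pr) M * ((b : ℝ) / c₁ * c.rr e.1)))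
      (β₂ * (rf (e.2 / pr') M' * ((b' : ℝ) / c₁' * c.rr e.2)))) :
    ∃ (t : ℝ) (ρ ρ' : ℚ), (2:ℝ) ^ N ≤ t ∧
      1 / (2 * t) < max ((y₁ : ℝ) * (β₁ * (rf (e.1 / pr) M * ((b : ℝ) / c₁ * c.rr e.1))))
        ((x : ℝ) * (β₂ * (rf (e.2 / pr') M' * ((b' : ℝ) / c₁' * c.rr e.2)))) ∧
      max ((y₁ : ℝ) * (β₁ * (rf (e.1 / pr) M * ((b : ℝ) / c₁ * c.rr e.1))))
        ((x : ℝ) * (β₂ * (rf (e.2 / pr') M' * ((b' : ℝ) / c₁' * c.rr e.2)))) ≤ 1 / t ∧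
      FF (β₁ * (rf (e.1 / pr) M * ((b : ℝ) / c₁ * c.γ)))
        (β₂ * (rf (e.2 / pr') M' * ((b' : ℝ) / c₁' * c.γ))) t
        (β₁ * (rf (e.1 / pr) M * ((b : ℝ) / c₁ * c.rr e.1)))
        (β₂ * (rf (e.2 / pr') M' * ((b' : ℝ) / c₁' * c.rr e.2))) x y₁ ρ ρ' ∧
      1 < 2 * ((max (xf β₁ ρ * rf (e.1 / pr) M * k₀) (xf β₂ ρ' * rf (e.2 / pr') M' * k₀') : ℕ) : ℝ) ^ 10 *
      max ((y₁ : ℝ) * (β₁ * (rf (e.1 / pr) M * ((b : ℝ) / c₁ * c.rr e.1))))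
        ((x : ℝ) * (β₂ * (rf (e.2 / pr') M' * ((b' : ℝ) / c₁' * c.rr e.2)))) := by
  obtain ⟨j, j', hj, hA, hA', e1, e2, i1, i2, y, i, a, i', a', z, z', hP, hP'⟩ :=
    PE_pts hM hM' hb hb' hF hF' hW hW' hc hc' he
  have e1' : j.1.1 = e.1 := e1
  have e2' : j'.1.1 = e.2 := e2
  have hpr : pr ∣ e.1 := (hF.item _ i1).2.1
  have hpr' : pr' ∣ e.2 := (hF'.item _ i2).2.1
  have q0 : 0 < e.1 := by rw [← e1']; exact h.pos _ (Cf.mem_S j)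
  have q0' : 0 < e.2 := by rw [← e2']; exact h.pos _ (Cf.mem_S j')
  have p0 : 0 < pr := Nat.pos_of_dvd_of_pos hpr q0
  have p0' : 0 < pr' := Nat.pos_of_dvd_of_pos hpr' q0'
  have c0 : 0 < c₁ := Nat.pos_of_dvd_of_pos hc hb
  have c0' : 0 < c₁' := Nat.pos_of_dvd_of_pos hc' hb'
  have r1 : c.rr e.1 = c.r e.1 := by rw [← e1']; exact Cf.rr_eq j
  have r2 : c.rr e.2 = c.r e.2 := by rw [← e2']; exact Cf.rr_eq j'
  have B1 : ((b : ℝ) / c₁) = ((b / c₁ : ℕ) : ℝ) := (cast_div' hc hb).symm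
  have B2 : ((b' : ℝ) / c₁') = ((b' / c₁' : ℕ) : ℝ) := (cast_div' hc' hb').symm
  rw [B1, B2, r1, r2, ← e1', ← e2'] at hFS ⊢
  rw [← e1'] at hk hthin hac
  rw [← e2'] at hk' hthin' hac'
  rw [← e1', ← e2'] at hxy
  rw [← e1'] at hP
  rw [← e2'] at hP'
  refine FG_lower h hl hP hP' hM hM' (Nat.div_pos (Nat.le_of_dvd hb hc) c0)
    (Nat.div_pos (Nat.le_of_dvd hb' hc') c0')
    (Nat.div_pos (Nat.le_of_dvd (by rw [e1']; exact q0) (by rw [e1']; exact hpr)) p0)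
    (Nat.div_pos (Nat.le_of_dvd (by rw [e2']; exact q0') (by rw [e2']; exact hpr')) p0') hβ₁ hβ₂ hx hy
    p0 p0' ?_ ?_ hcirc hxy hk hk' hthin hthin' hac hac' (hR hj) hFS
  · exact (Nat.mul_div_cancel' (by rw [e1']; exact hpr)).symm
  · exact (Nat.mul_div_cancel' (by rw [e2']; exact hpr')).symm

/-- **good or bad**: crossing at `β`, the factor on the right (the side without `β`).  Either the pair has
large factors *without* `β`, or `β` is accidental for the right target at the scale of the pair. -/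
theorem good_or_bad {N : ℕ} {θ θ' r r' D : ℝ} {x y₁ m m' β : ℕ} (hβ : 0 < β) (hx : 0 < x)
    (h : ∃ (t : ℝ) (ρ ρ' : ℚ), (2:ℝ) ^ N ≤ t ∧ 1 / (2 * t) < D ∧ D ≤ 1 / t ∧
      FF ((1 : ℕ) * θ) (β * θ') t ((1 : ℕ) * r) (β * r') x y₁ ρ ρ' ∧
      1 < 2 * ((max (xf 1 ρ * m) (xf β ρ' * m') : ℕ) : ℝ) ^ 10 * D)
    (hD : (x : ℝ) * (β * r') ≤ D) :
    1 < 2 * ((max m m' : ℕ) : ℝ) ^ 10 * D ∨
    (1 < 2 * ((max m (β * m') : ℕ) : ℝ) ^ 10 * D ∧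
      ∃ t : ℝ, (2:ℝ) ^ N ≤ t ∧ 1 / (2 * t) < D ∧ D ≤ 1 / t ∧ BadS β θ' t) := by
  obtain ⟨t, ρ, ρ', h1, h2, h3, h4, h5⟩ := h
  have ht : 1 ≤ t := le_trans (one_le_pow₀ (by norm_num)) h1
  have e1 : xf 1 ρ = 1 := by unfold xf; simp
  rw [e1, one_mul] at h5
  by_cases hd : (β : ℤ) ∣ ρ'.num
  · left
    have e2 : xf β ρ' = 1 := by unfold xf; rw [if_pos hd]
    rwa [e2, one_mul] at h5
  · right
    have e2 : xf β ρ' = β := by unfold xf; rw [if_neg hd]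
    rw [e2] at h5
    refine ⟨h5, t, h1, h2, h3, ?_⟩
    have hr' : 0 < (β : ℝ) * r' := h4.lab'.pos
    have hx1 : (1 : ℝ) ≤ x := by exact_mod_cast hx
    exact BadS.of_label ht hd h4.den' h4.near'
      ((le_mul_of_one_le_left hr'.le hx1).trans (hD.trans h3))

end Crest.Agent.R4.LinkG223
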