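import Crest.Agent.R4.LinkW758
import Crest.Agent.R4.GFinK927
import Crest.Agent.R4.ColW710

/-!
R4 (S0004), helper758: `Link758` / `LinkW758` in the form used by the columns.

* `fsok` : `ColW710.FSOk` (exception `Qf` = one of the labels is accurate; none for `lam = 0`);
  `fsok_br` (two missing sides), `fsok_os` (left ties, right node below the column).
* `hWH_data` : the hypothesis `hWH` of `GFinC927` / `GFinK927`.
-/

set_option autoImplicit false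
set_option linter.unusedSectionVars false
set_option linter.unusedVariables false
open MeasureTheory Filter

namespace Crest.Agent.R4.LinkG758

open Crest.Agent.R4.Tour104 Crest.Agent.R4.Tour758 Crest.Agent.R4.Avg758 Crest.Agent.R4.Clos758
open Crest.Agent.R4.ClosL758 Crest.Agent.R4.ClosG758 Crest.Agent.R4.ClosR758
open Crest.Agent.R4.Fam464 Crest.Agent.R4.Cnt588 Crest.Agent.R4.Walk560 Crest.Agent.R4.Item758
open Crest.Agent.R4.Piece464 Crest.Agent.R4.W363 Crest.Agent.R4.AvgItem710 Crest.Agent.R4.Data758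
open Crest.Agent.R4.LF363 (Lab lab_unique)
open Crest.Agent.R4.HVW560 (cof)
open Crest.Agent.R4.Link758 Crest.Agent.R4.LinkW758 Crest.Agent.R4.GSplit194
open Crest.Agent.R4.NMW710 Crest.Agent.R4.DeepSt579 Crest.Agent.R4.ColW710 Crest.Agent.R4.GFinC927 Crest.Agent.R4.GFin927
open Crest.Agent.R4.GSt927 Crest.Agent.R4.GStJ927 Crest.Agent.R4.WalkIT579 Crest.Agent.R4.Res927
open Crest.Agent.R4.Bld532 (NS All)

section
variable {c : Cf} {n : ℕ}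

/-- **`[F]` pairs of a column are payable** unless one of the labels is accurate -/
theorem fsok (h : c.Ok n) {l : ℕ} (hl : l ≤ n) (X : Finset (ℕ × ℕ × Finset ℕ))
    {M M' b pr c₁ b' pr' c₁' N : ℕ} {t t' : IT} {A A' : Finset c.Lam}
    (hM : 0 < M) (hM' : 0 < M') (hb : 0 < b) (hb' : 0 < b') (hF : Fit b pr t)
    (hF' : Fit b' pr' t') (hW : (c.D.par X).Wts pr t) (hW' : (c.D.par X).Wts pr' t')
    (hc : c₁ ∣ b) (hc' : c₁' ∣ b')
    (hcirc : pr * M * (b / c₁) = pr' * M' * (b' / c₁'))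
    (hk : ∀ q ∈ t.items, b / c₁ = Bl c l q) (hk' : ∀ q ∈ t'.items, b' / c₁' = Bl c l q)
    (hthr : (1 : ℝ) / 2 ^ N ≤ c.wp.thr l) :
    FSOk (c.D.par X) c.rr N l M b pr c₁ t A M' b' pr' c₁' t' A'
      (fun e => Ac c l e.1 ∨ Ac c l e.2) := by
  intro e i1 i2 hD hpos hFS
  by_cases hac : Ac c l e.1
  · exact Or.inr (Or.inl hac)
  by_cases hac' : Ac c l e.2
  · exact Or.inr (Or.inr hac')
  left
  have he := iF_PE hpos.ne'
  obtain ⟨j, j', hj, hA, hA', e1, e2, -, -, -⟩ := PE_pts hM hM' hb hb' hF hF' hW hW' hc hc' he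
  have e1' : j.1.1 = e.1 := e1
  have e2' : j'.1.1 = e.2 := e2
  have hpr : pr ∣ e.1 := (hF.item _ i1).2.1
  have hpr' : pr' ∣ e.2 := (hF'.item _ i2).2.1
  have q0 : 0 < e.1 := by rw [← e1']; exact h.pos _ (Cf.mem_S j)
  have q0' : 0 < e.2 := by rw [← e2']; exact h.pos _ (Cf.mem_S j')
  have p0 : 0 < pr := Nat.pos_of_dvd_of_pos hpr q0
  have p0' : 0 < pr' := Nat.pos_of_dvd_of_pos hpr' q0'
  have w0 : 0 < e.1 / pr := Nat.div_pos (Nat.le_of_dvd q0 hpr) p0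
  have w0' : 0 < e.2 / pr' := Nat.div_pos (Nat.le_of_dvd q0' hpr') p0'
  have c0 : 0 < c₁ := Nat.pos_of_dvd_of_pos hc hb
  have c0' : 0 < c₁' := Nat.pos_of_dvd_of_pos hc' hb'
  have B1 : ((b : ℝ) / c₁) = ((b / c₁ : ℕ) : ℝ) := (cast_div' hc hb).symm
  have B2 : ((b' : ℝ) / c₁') = ((b' / c₁' : ℕ) : ℝ) := (cast_div' hc' hb').symm
  have r1 : c.rr e.1 = c.r e.1 := by rw [← e1']; exact Cf.rr_eq j
  have r2 : c.rr e.2 = c.r e.2 := by rw [← e2']; exact Cf.rr_eq j'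
  have rp : 0 < c.r e.1 := by rw [← e1']; exact Cf.r_pos j
  have rp' : 0 < c.r e.2 := by rw [← e2']; exact Cf.r_pos j'
  have gW : 0 < e.1 / pr / M.gcd (e.1 / pr) := GSplit194.gcd_pos hM w0
  have gW' : 0 < e.2 / pr' / M'.gcd (e.2 / pr') := GSplit194.gcd_pos hM' w0'
  set V := e.1 / pr / M.gcd (e.1 / pr) with hV
  set V' := e.2 / pr' / M'.gcd (e.2 / pr') with hV'
  have hx : 0 < cof V V' := cof_pos gW
  have hy : 0 < cof V' V := cof_pos gW'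
  have g1 : V * cof V' V = V' * cof V V' := by
    have a1 : V.gcd V' * cof V V' = V := mul_cof
    have a2 : V.gcd V' * cof V' V = V' := mul_cof'
    calc V * cof V' V = (V.gcd V' * cof V V') * cof V' V := by rw [a1]
      _ = (V.gcd V' * cof V' V) * cof V V' := by ring
      _ = V' * cof V V' := by rw [a2]
  have r0 := rf_pos (w := e.1 / pr) hM
  have r0' := rf_pos (w := e.2 / pr') hM'
  have hDq : Dq c.rr M b pr c₁ M' b' pr' c₁' e =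
      max ((cof V' V : ℝ) * (rf (e.1 / pr) M * ((b : ℝ) / c₁ * c.rr e.1)))
        ((cof V V' : ℝ) * (rf (e.2 / pr') M' * ((b' : ℝ) / c₁' * c.rr e.2))) := rfl
  rw [hDq] at hD ⊢
  have hy1 : (1 : ℝ) ≤ cof V' V := by exact_mod_cast hy
  have hx1 : (1 : ℝ) ≤ cof V V' := by exact_mod_cast hx
  have r01 : (1 : ℝ) ≤ rf (e.1 / pr) M := by exact_mod_cast r0
  have r01' : (1 : ℝ) ≤ rf (e.2 / pr') M' := by exact_mod_cast r0'
  have t1 : (Bl c l e.1 : ℝ) * c.r e.1 ≤ c.wp.thr l := by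
    rw [← hk _ i1, ← B1, ← r1]
    have n0 : 0 ≤ (b : ℝ) / c₁ * c.rr e.1 := by rw [r1]; positivity
    calc (b : ℝ) / c₁ * c.rr e.1 ≤ rf (e.1 / pr) M * ((b : ℝ) / c₁ * c.rr e.1) :=
          le_mul_of_one_le_left n0 r01
      _ ≤ (cof V' V : ℝ) * (rf (e.1 / pr) M * ((b : ℝ) / c₁ * c.rr e.1)) :=
          le_mul_of_one_le_left (by positivity) hy1
      _ ≤ _ := (le_max_left _ _).trans (hD.trans hthr)
  have t2 : (Bl c l e.2 : ℝ) * c.r e.2 ≤ c.wp.thr l := by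
    rw [← hk' _ i2, ← B2, ← r2]
    have n0 : 0 ≤ (b' : ℝ) / c₁' * c.rr e.2 := by rw [r2]; positivity
    calc (b' : ℝ) / c₁' * c.rr e.2 ≤ rf (e.2 / pr') M' * ((b' : ℝ) / c₁' * c.rr e.2) :=
          le_mul_of_one_le_left n0 r01'
      _ ≤ (cof V V' : ℝ) * (rf (e.2 / pr') M' * ((b' : ℝ) / c₁' * c.rr e.2)) :=
          le_mul_of_one_le_left (by positivity) hx1
      _ ≤ _ := (le_max_right _ _).trans (hD.trans hthr)
  have hRo : Ro ((c.D.par X).rho l) ⊆ Ro (c.D.rho l) := by rw [Cf.Ro_par]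
  have key := PE_FS_lower h hl X (k₀ := 1) (k₀' := 1) hM hM' hb hb' hF hF' hW hW' hc hc' hRo he
    hcirc hx hy g1 (by rw [one_mul]; exact hk _ i1) (by rw [one_mul]; exact hk' _ i2) t1 t2
    hac hac' hFS
  refine key.trans_le ?_
  rw [mul_one, mul_one]
  have hmax : ((max (rf (e.1 / pr) M) (rf (e.2 / pr') M') : ℕ) : ℝ) ≤
      (rf (e.1 / pr) M : ℝ) * rf (e.2 / pr') M' := by
    rw [Nat.cast_max]
    refine max_le ?_ ?_
    · exact le_mul_of_one_le_right (by linarith) r01'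
    · exact le_mul_of_one_le_left (by linarith) r01
  have hD0 : 0 ≤ max ((cof V' V : ℝ) * (rf (e.1 / pr) M * ((b : ℝ) / c₁ * c.rr e.1)))
        ((cof V V' : ℝ) * (rf (e.2 / pr') M' * ((b' : ℝ) / c₁' * c.rr e.2))) := by
    refine le_max_of_le_left ?_
    rw [r1]; positivity
  gcongr

lemma div_col {B p : ℕ} (hp : 0 < p) : B * p / p = B := Nat.mul_div_cancel _ hp

/-- the ties below a column -/
lemma mt_Blw {τ : IT} {m p : ℕ} (hO : τ.Ok m) (hb : Blw p τ) : ∀ q, ∀ s ∈ τ.mt q, s ≤ p := by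
  intro q s hs
  cases τ with
  | leaf S => simp [IT.mt] at hs
  | br b t₁ t₀ =>
    have h1 : (IT.br b t₁ t₀).Ok (b + 1) := ⟨hO.1, Nat.lt_succ_self _, hO.2.2⟩
    have h2 : b < p := hb
    have := mt_lt _ h1 q s hs
    omega
  | add b t₁ t₀ =>
    have h1 : (IT.add b t₁ t₀).Ok (b + 1) := ⟨hO.1, Nat.lt_succ_self _, hO.2.2⟩
    have h2 : b < p := hb
    have := mt_lt _ h1 q s hs
    omega
  | up b S t =>
    have h1 : (IT.up b S t).Ok (b + 1) := ⟨hO.1, Nat.lt_succ_self _, hO.2.2⟩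
    have h2 : b ≤ p := hb
    have h3 : t.Ok b := hO.2.2.2
    simp only [IT.mt] at hs
    have := mt_lt _ h3 q s hs
    omega

/-- missing product above the column `p` for a node below the column -/
theorem Bl_of_Blw {u : NS} {p q : ℕ} {τ : IT} (h : MF c.t u τ) (hp : p < u.n) (hb : Blw p τ)
    (hq : q ∈ τ.items) : Bl c p q = u.B := by
  have hO : τ.Ok u.n := by
    obtain ⟨F, -, -, hO, -⟩ := h
    exact hO
  exact h.prod_lt hq hp (mt_Blw hO hb q)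

/-- `fsok` at a state with two ties -/
theorem fsok_br (h : c.Ok n) (X : Finset (ℕ × ℕ × Finset ℕ)) {sp : ℕ → Finset c.Lam}
    {M M' N p : ℕ} {u u' : NS} {t₁ t₀ t₁' t₀' : IT} {A A' : Finset c.Lam}
    {d d' : DT c.Lam (Lb (WL c.Lam) X)}
    (hM : 0 < M) (hM' : 0 < M')
    (hL : SideI (c.D.par X) sp u.B u.A (.br p t₁ t₀) A d)
    (hR : SideI (c.D.par X) sp u'.B u'.A (.br p t₁' t₀') A' d')
    (hcirc : u.A * u.B * M = u'.A * u'.B * M')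
    (mf : MF c.t u (.br p t₁ t₀)) (mf' : MF c.t u' (.br p t₁' t₀')) (hp : p ≤ n)
    (hthr : (1 : ℝ) / 2 ^ N ≤ c.wp.thr p) :
    FSOk (c.D.par X) c.rr N p M (u.B * p) u.A p t₀ A M' (u'.B * p) u'.A p t₀' A'
      (fun e => Ac c p e.1 ∨ Ac c p e.2) := by
  have hL0 := hL.br₀
  have hR0 := hR.br₀
  have hp0 : 0 < p := hL.hF.1.pos
  refine fsok h hp X hM hM' hL0.hb hR0.hb hL0.hF hR0.hF hL0.hW hR0.hW (Dvd.intro_left u.B rfl)
    (Dvd.intro_left u'.B rfl) ?_ ?_ ?_ hthr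
  · rw [div_col hp0, div_col hp0]
    linarith
  · intro q hq
    rw [div_col hp0]
    exact (Bl_of_MF mf (Finset.mem_union_right _ hq)).symm
  · intro q hq
    rw [div_col hp0]
    exact (Bl_of_MF mf' (Finset.mem_union_right _ hq)).symm

/-- `fsok` at a state: left ties, right node below the column -/
theorem fsok_os (h : c.Ok n) (X : Finset (ℕ × ℕ × Finset ℕ)) {sp : ℕ → Finset c.Lam}
    {M M' N p : ℕ} {u u' : NS} {t₁ t₀ τ' : IT} {A A' : Finset c.Lam}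
    {d d' : DT c.Lam (Lb (WL c.Lam) X)}
    (hM : 0 < M) (hM' : 0 < M')
    (hL : SideI (c.D.par X) sp u.B u.A (.br p t₁ t₀) A d)
    (hR : SideI (c.D.par X) sp u'.B u'.A τ' A' d')
    (hcirc : u.A * u.B * M = u'.A * u'.B * M')
    (mf : MF c.t u (.br p t₁ t₀)) (mf' : MF c.t u' τ') (hpu : p < u'.n) (hbl : Blw p τ')
    (hp : p ≤ n) (hthr : (1 : ℝ) / 2 ^ N ≤ c.wp.thr p) :
    FSOk (c.D.par X) c.rr N p M (u.B * p) u.A p t₀ A M' u'.B u'.A 1 τ' A'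
      (fun e => Ac c p e.1 ∨ Ac c p e.2) := by
  have hL0 := hL.br₀
  have hp0 : 0 < p := hL.hF.1.pos
  refine fsok h hp X hM hM' hL0.hb hR.hb hL0.hF hR.hF hL0.hW hR.hW (Dvd.intro_left u.B rfl)
    (one_dvd _) ?_ ?_ ?_ hthr
  · rw [div_col hp0, Nat.div_one]
    linarith
  · intro q hq
    rw [div_col hp0]
    exact (Bl_of_MF mf (Finset.mem_union_right _ hq)).symm
  · intro q hq
    rw [Nat.div_one]
    exact (Bl_of_Blw mf' hpu hbl hq).symm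

/-- **the hypothesis `hWH` of `GFinC927` / `GFinK927`** for the concrete data -/
theorem hWH_data (h : c.Ok n) (X : Finset (ℕ × ℕ × Finset ℕ)) {sp : ℕ → Finset c.Lam}
    {Qp : NS → IT → Prop} {U : ℕ → Finset ℕ} {Al : Finset ℕ}
    {Ix : XSt c.Lam (Lb (WL c.Lam) X) → Prop} (hρ₀ : 0 < c.wp.ρ₀)
    (hMF : ∀ u τ, Qp u τ → MF c.t u τ ∧ u.n ≤ n)
    (hbig : ∀ u τ, Qp u τ → ∀ p t₁ t₀, τ = .br p t₁ t₀ → 2 ^ 40 ≤ p ∧
      (1 : ℝ) / 2 ^ nn p ≤ c.wp.thr p ∧ ∀ q, ¬ Ac c p q)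
    {B₀ B₀' : ℕ} {x : XSt c.Lam (Lb (WL c.Lam) X)} {d : Dt}
    (hd : HD (c.D.par X) sp Qp (JJ (c.D.par X) U Ix) B₀ B₀' x d) {e : ℕ × ℕ}
    (he : e ∈ EB (c.D.par X) c.rr Al x d) (hr : R1 x d e) :
    ∃ (ρ₀ : ℝ) (n₀ : ℕ), 0 < ρ₀ ∧
      WH (c.D.par X) c.rr (Ro ((c.D.par X).rho d.p)) x.s.M (d.u.B * d.p) d.u.A d.p x.s.M'
        (d.u'.B * d.p) d.u'.A d.p ρ₀ n₀ (c.wp.dep d.p) e (FN (c.D.par X) x d e) := by
  classical
  refine ⟨c.wp.ρ₀, c.wp.n₀, hρ₀, ?_⟩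
  obtain ⟨he1, hE⟩ := Finset.mem_filter.1 he
  obtain ⟨he1, hF, hDq⟩ := Finset.mem_filter.1 he1
  obtain ⟨hi1, hi2⟩ := Finset.mem_product.1 he1
  have hj1 := (mem_Qi.1 hi1).1
  have hj2 := (mem_Qi.1 hi2).1
  obtain ⟨h1, h2⟩ := hd
  have hL0 := h1.L.br₀
  have hR0 := h1.R.br₀
  have hp0 : 0 < d.p := h1.L.hF.1.pos
  obtain ⟨mf, hn⟩ := hMF _ _ h1.qL.self
  obtain ⟨mf', hn'⟩ := hMF _ _ h1.qR.self
  obtain ⟨hp40, hthr, hac⟩ := hbig _ _ h1.qL.self _ _ _ rfl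
  have hpn : d.p ≤ n := by
    obtain ⟨-, -, -, hO, -⟩ := mf
    exact hO.2.1.le.trans hn
  have e1 : (((d.u.B * d.p : ℕ) : ℝ) / d.p) = d.u.B := cast_col hp0
  have e2 : (((d.u'.B * d.p : ℕ) : ℝ) / d.p) = d.u'.B := cast_col hp0
  have hDe : max ((cy x.s.M d.u.A x.s.M' d.u'.A e : ℝ) *
        (((d.u.B * d.p : ℕ) : ℝ) / d.p * c.rr e.1))
      (cx x.s.M d.u.A x.s.M' d.u'.A e * (((d.u'.B * d.p : ℕ) : ℝ) / d.p * c.rr e.2)) ≤
      1 / 2 ^ nn d.p := by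
    rw [← Da_eq hr.1 hr.2]
    exact hDq
  have pr0 : 0 < e.1 / d.u.A := by
    obtain ⟨a1, a2, -⟩ := hL0.hF.item _ hj1
    exact Nat.div_pos (Nat.le_of_dvd a1 a2) (Nat.pos_of_dvd_of_pos a2 a1)
  have pr0' : 0 < e.2 / d.u'.A := by
    obtain ⟨a1, a2, -⟩ := hR0.hF.item _ hj2
    exact Nat.div_pos (Nat.le_of_dvd a1 a2) (Nat.pos_of_dvd_of_pos a2 a1)
  have hx : 0 < cx x.s.M d.u.A x.s.M' d.u'.A e := cof_pos (GSplit194.gcd_pos h1.mL.pos pr0)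
  have hy : 0 < cy x.s.M d.u.A x.s.M' d.u'.A e := cof_pos (GSplit194.gcd_pos h1.mR.pos pr0')
  have hx1 : (1 : ℝ) ≤ cx x.s.M d.u.A x.s.M' d.u'.A e := by exact_mod_cast hx
  have hy1 : (1 : ℝ) ≤ cy x.s.M d.u.A x.s.M' d.u'.A e := by exact_mod_cast hy
  have hsm : (1 : ℝ) / 2 ^ nn d.p ≤ 1 / 2 * (1 / 4) := by
    have h3 := two_nn hp40
    have h4 : ((d.p : ℝ)) ^ (-(1 / 5 : ℝ)) ≤ 1 / 4 := by
      have hp1 : (0 : ℝ) < d.p := by exact_mod_cast hp0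
      rw [Real.rpow_neg hp1.le, ← one_div]
      refine one_div_le_one_div_of_le (by norm_num) ?_
      have h5 : ((2 : ℝ) ^ 40) ^ (1 / 5 : ℝ) ≤ (d.p : ℝ) ^ (1 / 5 : ℝ) :=
        Real.rpow_le_rpow (by positivity) (by exact_mod_cast hp40) (by norm_num)
      refine le_trans ?_ h5
      rw [← Real.rpow_natCast, ← Real.rpow_mul (by norm_num)]
      norm_num
    linarith
  have k1 := (le_max_left _ _).trans hDe
  have k2 := (le_max_right _ _).trans hDe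
  have n1 : 0 < ((d.u.B * d.p : ℕ) : ℝ) / d.p * c.rr e.1 := by
    have := (h.rad X).pos e.1
    have hb : 0 < d.u.B * d.p := hL0.hb
    positivity
  have n2 : 0 < ((d.u'.B * d.p : ℕ) : ℝ) / d.p * c.rr e.2 := by
    have := (h.rad X).pos e.2
    have hb : 0 < d.u'.B * d.p := hR0.hb
    positivity
  refine wh h hpn X h1.mL.pos h1.mR.pos hL0.hb hR0.hb hL0.hF hR0.hF hL0.hW hR0.hW
    (Dvd.intro_left d.u.B rfl) (Dvd.intro_left d.u'.B rfl) ?_ ?_ ?_ hr.1 hr.2 ?_ ?_ ?_ (hac _)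
    (hac _)
  · rw [div_col hp0, div_col hp0]
    have := h2.1.circ
    linarith
  · rw [div_col hp0]
    exact (Bl_of_MF mf (Finset.mem_union_right _ hj1)).symm
  · rw [div_col hp0]
    exact (Bl_of_MF mf' (Finset.mem_union_right _ hj2)).symm
  · linarith
  · exact (le_mul_of_one_le_left n1.le hy1).trans (k1.trans hthr)
  · exact (le_mul_of_one_le_left n2.le hx1).trans (k2.trans hthr)

/-- `FSx` (no `[F]` pairs which are not payable) for the concrete data -/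
theorem fsx_data (h : c.Ok n) (X : Finset (ℕ × ℕ × Finset ℕ)) {sp : ℕ → Finset c.Lam}
    {Qp : NS → IT → Prop} {U : ℕ → Finset ℕ}
    {Ix : XSt c.Lam (Lb (WL c.Lam) X) → Prop}
    (hMF : ∀ u τ, Qp u τ → MF c.t u τ ∧ u.n ≤ n)
    (hbig : ∀ u τ, Qp u τ → ∀ p t₁ t₀, τ = .br p t₁ t₀ → 2 ^ 40 ≤ p ∧
      (1 : ℝ) / 2 ^ nn p ≤ c.wp.thr p ∧ ∀ q, ¬ Ac c p q)
    {B₀ B₀' : ℕ} {x : XSt c.Lam (Lb (WL c.Lam) X)} {d : Dt}
    (hd : HD (c.D.par X) sp Qp (JJ (c.D.par X) U Ix) B₀ B₀' x d) : FSx (c.D.par X) c.rr x d := by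
  obtain ⟨h1, h2⟩ := hd
  obtain ⟨mf, hn⟩ := hMF _ _ h1.qL.self
  obtain ⟨mf', hn'⟩ := hMF _ _ h1.qR.self
  obtain ⟨hp40, hthr, hac⟩ := hbig _ _ h1.qL.self _ _ _ rfl
  have hpn : d.p ≤ n := by
    obtain ⟨-, -, -, hO, -⟩ := mf
    exact hO.2.1.le.trans hn
  have key := fsok_br h X h1.mL.pos h1.mR.pos h1.L h1.R h2.1.circ mf mf' hpn hthr
  intro e i1 i2 hD hpos hFS
  rcases key e i1 i2 hD hpos hFS with h3 | h3 | h3
  · exact Or.inl h3
  · exact absurd h3 (hac _)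
  · exact absurd h3 (hac _)

/-- **the inputs of the world of `GFinK927`** -/
theorem wld_data (h : c.Ok n) (X : Finset (ℕ × ℕ × Finset ℕ)) {sp : ℕ → Finset c.Lam}
    {Qp : NS → IT → Prop} {U : ℕ → Finset ℕ} {Al : Finset ℕ}
    {Ix : XSt c.Lam (Lb (WL c.Lam) X) → Prop} (hρ₀ : 0 < c.wp.ρ₀)
    (hMF : ∀ u τ, Qp u τ → MF c.t u τ ∧ u.n ≤ n)
    (hbig : ∀ u τ, Qp u τ → ∀ p t₁ t₀, τ = .br p t₁ t₀ → 2 ^ 40 ≤ p ∧
      (1 : ℝ) / 2 ^ nn p ≤ c.wp.thr p ∧ ∀ q, ¬ Ac c p q)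
    {stp : St c.Lam (Lb (WL c.Lam) X) → Prop} {B₀ : ℕ} {s₀ : St c.Lam (Lb (WL c.Lam) X)} :
    GFinK927.Wld (c.D.par X) sp c.rr Al U stp Qp Ix c.wp.dep B₀ s₀ where
  fs := fun x _ _ d hd => fsx_data h X hMF hbig hd
  wh := fun x _ _ d hd e he hr => hWH_data h X hρ₀ hMF hbig hd he hr

end

end Crest.Agent.R4.LinkG758
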