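import Crest.Agent.R4.NI927
import Crest.Agent.R4.LinkW758

/-!
R4 (S0004), helper927: **the near misses of a context** (`Skel189.Ctx`): at every node of the tree,
for every admissible population `A`, the walk sum of `eNM` is at most `(1 + κ') Σ_{j ∈ A} mI j`.

Hypotheses on the world: `WNM` (cells of thickness at most `exp ((log p)^(9/10))` at the columns, thinness at
least `2^(-nn p)`, no accurate labels); mean of the weights `Mean`.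
-/

set_option autoImplicit false
set_option linter.unusedSectionVars false
set_option linter.unusedVariables false
open MeasureTheory Filter

namespace Crest.Agent.R4.NMCtx927

open Crest.Agent.R4.Tour104 Crest.Agent.R4.Tour758 Crest.Agent.R4.Avg758 Crest.Agent.R4.Clos758
open Crest.Agent.R4.ClosL758 Crest.Agent.R4.ClosG758 Crest.Agent.R4.ClosR758
open Crest.Agent.R4.Fam464 Crest.Agent.R4.Cnt588 Crest.Agent.R4.Walk560 Crest.Agent.R4.Piece464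
open Crest.Agent.R4.Item758 Crest.Agent.R4.AvgItem710 Crest.Agent.R4.PrunePar33
open Crest.Agent.R4.Data758 Crest.Agent.R4.WalkIT579
open Crest.Agent.R4.Bld532 (NS All NodeOk Bk)
open Crest.Agent.R4.GInst194 Crest.Agent.R4.GFinC927 Crest.Agent.R4.NMW710
open Crest.Agent.R4.GSt927 Crest.Agent.R4.GStJ927 Crest.Agent.R4.GFin927 Crest.Agent.R4.Res927
open Crest.Agent.R4.ColW710 Crest.Agent.R4.GFinK927 Crest.Agent.R4.NI927 Crest.Agent.R4.Link758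
open Crest.Agent.R4.DeepSt579 (tq tq_nonneg tq_le_one rd)
open Crest.Agent.R4.GKap812 (Cnt)
open Crest.Agent.R4.HVW560 (cof)
open Crest.Agent.R4.Step588 (NDt ND1 ctx_NDt CT CT_pos tot_ge ctx_rr All_All)
open Crest.Agent.R4.Skel189 (Ctx top)
open Crest.Agent.R4

/-- levels below -/
theorem All_lvl {n : ℕ} : ∀ (t : IT) (u : NS), t.Ok u.n → u.n ≤ n →
    All (fun u τ => u.n ≤ n ∧ τ.Ok u.n) u t := by
  intro t
  induction t with
  | leaf S => intro u hO h; exact ⟨h, hO⟩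
  | br p t₁ t₀ ih₁ ih₀ =>
    intro u hO h
    have hp := hO.2.1
    exact ⟨⟨h, hO⟩, ih₁ ⟨p, _, _, _⟩ hO.2.2.2.1 (by show p ≤ n; omega),
      ih₀ ⟨p, _, _, _⟩ hO.2.2.2.2 (by show p ≤ n; omega)⟩
  | add p t₁ t₀ ih₁ ih₀ =>
    intro u hO h
    have hp := hO.2.1
    exact ⟨⟨h, hO⟩, ih₁ ⟨p, _, _, _⟩ hO.2.2.2.1 (by show p ≤ n; omega),
      ih₀ ⟨p, _, _, _⟩ hO.2.2.2.2 (by show p ≤ n; omega)⟩
  | up p Sp t ih =>
    intro u hO h
    have hp := hO.2.1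
    exact ⟨⟨h, hO⟩, ih ⟨p, _, _, _⟩ hO.2.2.2 (by show p ≤ n; omega)⟩

variable {N : Skel189.Num} {γ : ℝ} {p0 P₀ : ℕ}

/-- **conditions on the world of the columns** -/
structure WNM (X : Ctx N γ p0 P₀) : Prop where
  /-- the cells are not too fine -/
  dep : ∀ p : ℕ, p0 ≤ p → (2 : ℝ) ^ X.c.wp.dep p ≤ Real.exp (GDef864.rt (Real.log p))
  /-- small radii are thin -/
  thr : ∀ p : ℕ, p0 ≤ p → 1 / 2 ^ nn p ≤ X.c.wp.thr p
  /-- no accurate labels -/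
  ac : ∀ l q : ℕ, p0 ≤ l → ¬ Ac X.c l q

/-- the node predicate -/
def QX (X : Ctx N γ p0 P₀) (Y : Finset (ℕ × ℕ × Finset ℕ)) (c₀ : ℝ) (u : NS) (τ : IT) : Prop :=
  NB (X.c.D.par Y) X.S' X.par (Soft104.w X.ψ) X.c.t.uq (2 * CT) c₀ p0 u τ ∧
    MF X.c.t u τ ∧ u.n ≤ top X.S

section
variable {X : Ctx N γ p0 P₀} {Y : Finset (ℕ × ℕ × Finset ℕ)} {c₀ : ℝ}
  {stp : St X.c.Lam (Lb (WL X.c.Lam) Y) → Prop}
  {Ix : XSt X.c.Lam (Lb (WL X.c.Lam) Y) → Prop}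

lemma r_le_rr (c : Cf) (q : ℕ) : c.r q ≤ c.rr q := by
  unfold Cf.rr
  split_ifs with h
  · exact le_rfl
  · exact (not_lt.1 h).trans zero_le_one

lemma rr_pos (c : Cf) (q : ℕ) : 0 < c.rr q := by
  unfold Cf.rr
  split_ifs with h
  · exact h
  · exact one_pos

/-- the facts of a column -/
structure ColF (X : Ctx N γ p0 P₀) (Y : Finset (ℕ × ℕ × Finset ℕ))
    (x : XSt X.c.Lam (Lb (WL X.c.Lam) Y)) (d : Dt) : Prop where
  M0 : 0 < x.s.M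
  M0' : 0 < x.s.M'
  p1 : p0 ≤ d.p
  p0 : 0 < d.p
  ln : d.p ≤ top X.S
  B0 : 0 < d.u.B
  B0' : 0 < d.u'.B
  hF : Fit (d.u.B * d.p) d.u.A d.t₀
  hF' : Fit (d.u'.B * d.p) d.u'.A d.t₀'
  hW : (X.c.D.par Y).Wts d.u.A d.t₀
  hW' : (X.c.D.par Y).Wts d.u'.A d.t₀'
  circ : d.u.A * x.s.M * (d.u.B * d.p / d.p) = d.u'.A * x.s.M' * (d.u'.B * d.p / d.p)
  bl : ∀ q ∈ d.t₀.items, d.u.B * d.p / d.p = Bl X.c d.p q
  bl' : ∀ q ∈ d.t₀'.items, d.u'.B * d.p / d.p = Bl X.c d.p q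

lemma colF {B₀ : ℕ} {x : XSt X.c.Lam (Lb (WL X.c.Lam) Y)} {d : Dt}
    (h : HD (X.c.D.par Y) X.c.sp (QX X Y c₀) (JJ (X.c.D.par Y) X.c.t.uq Ix) B₀ B₀ x d) :
    ColF X Y x d := by
  obtain ⟨hI, hJ, -⟩ := h
  have q1 := hI.qL.self
  have q1' := hI.qR.self
  have hp0 : 0 < d.p := hI.L.p_pos
  have e : d.u.B * d.p / d.p = d.u.B := Nat.mul_div_cancel _ hp0
  have e' : d.u'.B * d.p / d.p = d.u'.B := Nat.mul_div_cancel _ hp0
  have hO : (IT.br d.p d.t₁ d.t₀).Ok d.u.n := by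
    obtain ⟨F, -, -, h, -⟩ := q1.2.1
    exact h
  exact
    { M0 := Nat.pos_of_ne_zero hJ.sq.ne_zero
      M0' := Nat.pos_of_ne_zero hJ.sq'.ne_zero
      p1 := q1.1.big _ _ _ rfl
      p0 := hp0
      ln := hO.2.1.le.trans q1.2.2
      B0 := hI.L.hb
      B0' := hI.R.hb
      hF := hI.L.br₀.hF
      hF' := hI.R.br₀.hF
      hW := hI.L.br₀.hW
      hW' := hI.R.br₀.hW
      circ := by
        rw [e, e']
        have := hJ.circ
        calc d.u.A * x.s.M * d.u.B = d.u.A * d.u.B * x.s.M := by ring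
          _ = d.u'.A * d.u'.B * x.s.M' := this
          _ = d.u'.A * x.s.M' * d.u'.B := by ring
      bl := fun q hq => by
        rw [e]; exact (LinkW758.Bl_of_MF q1.2.1 (Finset.mem_union_right _ hq)).symm
      bl' := fun q hq => by
        rw [e']; exact (LinkW758.Bl_of_MF q1'.2.1 (Finset.mem_union_right _ hq)).symm }

/-- the radii are at most the scale -/
lemma rd_le_D {ρ : ℕ → ℝ} (hρ : ∀ q, 0 < ρ q) {M b pr c M' b' pr' c' : ℕ} (hM : 0 < M)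
    (hM' : 0 < M') {e : ℕ × ℕ} (hw : 0 < e.1 / pr) (hw' : 0 < e.2 / pr') :
    rd b c ρ e.1 ≤ Dq ρ M b pr c M' b' pr' c' e ∧ rd b' c' ρ e.2 ≤ Dq ρ M b pr c M' b' pr' c' e := by
  have gW : 0 < e.1 / pr / M.gcd (e.1 / pr) := GSplit194.gcd_pos hM hw
  have gW' : 0 < e.2 / pr' / M'.gcd (e.2 / pr') := GSplit194.gcd_pos hM' hw'
  have hx : (1 : ℝ) ≤ cof (e.1 / pr / M.gcd (e.1 / pr)) (e.2 / pr' / M'.gcd (e.2 / pr')) := by
    exact_mod_cast cof_pos gW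
  have hy : (1 : ℝ) ≤ cof (e.2 / pr' / M'.gcd (e.2 / pr')) (e.1 / pr / M.gcd (e.1 / pr)) := by
    exact_mod_cast cof_pos gW'
  have r1 : (1 : ℝ) ≤ (rf (e.1 / pr) M : ℕ) := by exact_mod_cast rf_pos hM
  have r2 : (1 : ℝ) ≤ (rf (e.2 / pr') M' : ℕ) := by exact_mod_cast rf_pos hM'
  have d1 : 0 ≤ rd b c ρ e.1 := by
    have := (hρ e.1).le
    unfold rd; positivity
  have d2 : 0 ≤ rd b' c' ρ e.2 := by
    have := (hρ e.2).le
    unfold rd; positivity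
  constructor
  · refine le_trans ?_ (le_max_left _ _)
    calc rd b c ρ e.1 = 1 * (1 * rd b c ρ e.1) := by ring
      _ ≤ _ := mul_le_mul hy (mul_le_mul_of_nonneg_right r1 d1) (by positivity) (by positivity)
  · refine le_trans ?_ (le_max_right _ _)
    calc rd b' c' ρ e.2 = 1 * (1 * rd b' c' ρ e.2) := by ring
      _ ≤ _ := mul_le_mul hx (mul_le_mul_of_nonneg_right r2 d2) (by positivity) (by positivity)

lemma div_pos_of {q pr : ℕ} (hq : 0 < q) (h : pr ∣ q) : 0 < q / pr :=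
  Nat.div_pos (Nat.le_of_dvd hq h) (Nat.pos_of_dvd_of_pos h hq)

lemma cof_rel (W W' : ℕ) : W * cof W' W = W' * cof W W' := by
  have a1 : W.gcd W' * cof W W' = W := AvgItem710.mul_cof
  have a2 : W.gcd W' * cof W' W = W' := AvgItem710.mul_cof'
  calc W * cof W' W = (W.gcd W' * cof W W') * cof W' W := by rw [a1]
    _ = (W.gcd W' * cof W' W) * cof W W' := by ring
    _ = W' * cof W W' := by rw [a2]

/-- thinness of the items of a column, from the scale -/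
lemma thin_of (hw : WNM X) {M b pr c M' b' pr' c' p : ℕ} (hp : p0 ≤ p) (hM : 0 < M)
    (hM' : 0 < M') {e : ℕ × ℕ} (hq : 0 < e.1) (hd : pr ∣ e.1) (hq' : 0 < e.2) (hd' : pr' ∣ e.2)
    (hc : c ∣ b) (hb : 0 < b) (hc' : c' ∣ b') (hb' : 0 < b')
    (hbl : b / c = Bl X.c p e.1) (hbl' : b' / c' = Bl X.c p e.2)
    (hD : Dq X.c.rr M b pr c M' b' pr' c' e ≤ 1 / 2 ^ nn p) :
    (Bl X.c p e.1 : ℝ) * X.c.rr e.1 ≤ X.c.wp.thr p ∧
      (Bl X.c p e.2 : ℝ) * X.c.rr e.2 ≤ X.c.wp.thr p := by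
  obtain ⟨h1, h2⟩ := rd_le_D (b := b) (c := c) (b' := b') (c' := c') (rr_pos X.c) hM hM'
    (div_pos_of hq hd) (div_pos_of hq' hd')
  have h3 := hw.thr p hp
  unfold rd at h1 h2
  rw [← cast_div' hc hb, hbl] at h1
  rw [← cast_div' hc' hb', hbl'] at h2
  exact ⟨by linarith, by linarith⟩

/-- **no payable `[F]` pairs are left** (`Qf = False`) -/
theorem fs_ctx (hw : WNM X) {x : XSt X.c.Lam (Lb (WL X.c.Lam) Y)} {d : Dt} (hc : ColF X Y x d) :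
    FSx (X.c.D.par Y) X.c.rr x d := by
  intro e h1 h2 hD hF hFSI
  left
  have hb : 0 < d.u.B * d.p := Nat.mul_pos hc.B0 hc.p0
  have hb' : 0 < d.u'.B * d.p := Nat.mul_pos hc.B0' hc.p0
  have dv : d.p ∣ d.u.B * d.p := Dvd.intro_left _ rfl
  have dv' : d.p ∣ d.u'.B * d.p := Dvd.intro_left _ rfl
  obtain ⟨q0, hpr, -⟩ := hc.hF.item _ h1
  obtain ⟨q0', hpr', -⟩ := hc.hF'.item _ h2
  have gW : 0 < e.1 / d.u.A / x.s.M.gcd (e.1 / d.u.A) :=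
    GSplit194.gcd_pos hc.M0 (div_pos_of q0 hpr)
  have gW' : 0 < e.2 / d.u'.A / x.s.M'.gcd (e.2 / d.u'.A) :=
    GSplit194.gcd_pos hc.M0' (div_pos_of q0' hpr')
  obtain ⟨t1, t2⟩ := thin_of hw hc.p1 hc.M0 hc.M0' q0 hpr q0' hpr' dv hb dv' hb'
    (hc.bl _ h1) (hc.bl' _ h2) hD
  have key := PE_FS_lower X.ok hc.ln Y (A := x.s.A) (A' := x.s.A') hc.M0 hc.M0' hb hb' hc.hF hc.hF'
    hc.hW hc.hW' dv dv' (R := Ro ((X.c.D.par Y).rho d.p)) (Cf.Ro_par X.c Y d.p).subset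
    (LinkW758.iF_PE hF.ne') hc.circ (x := cof (e.1 / d.u.A / x.s.M.gcd (e.1 / d.u.A))
      (e.2 / d.u'.A / x.s.M'.gcd (e.2 / d.u'.A)))
    (y₁ := cof (e.2 / d.u'.A / x.s.M'.gcd (e.2 / d.u'.A))
      (e.1 / d.u.A / x.s.M.gcd (e.1 / d.u.A))) (cof_pos gW) (cof_pos gW') (cof_rel _ _)
    (k₀ := 1) (k₀' := 1) (by rw [one_mul]; exact hc.bl _ h1) (by rw [one_mul]; exact hc.bl' _ h2)
    ((mul_le_mul_of_nonneg_left (r_le_rr X.c _) (Nat.cast_nonneg _)).trans t1)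
    ((mul_le_mul_of_nonneg_left (r_le_rr X.c _) (Nat.cast_nonneg _)).trans t2)
    (hw.ac _ _ hc.p1) (hw.ac _ _ hc.p1) (N := nn d.p) hFSI
  refine lt_of_lt_of_le key ?_
  have r1 : (1 : ℝ) ≤ (rf (e.1 / d.u.A) x.s.M : ℕ) := by exact_mod_cast rf_pos hc.M0
  have r2 : (1 : ℝ) ≤ (rf (e.2 / d.u'.A) x.s.M' : ℕ) := by exact_mod_cast rf_pos hc.M0'
  have hm : ((max (rf (e.1 / d.u.A) x.s.M * 1) (rf (e.2 / d.u'.A) x.s.M' * 1) : ℕ) : ℝ) ≤
      (rf (e.1 / d.u.A) x.s.M : ℝ) * rf (e.2 / d.u'.A) x.s.M' := by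
    rw [Nat.cast_max, mul_one, mul_one]
    refine max_le ?_ ?_
    · nlinarith
    · nlinarith
  have hD0 : 0 ≤ Dq X.c.rr x.s.M (d.u.B * d.p) d.u.A d.p x.s.M' (d.u'.B * d.p) d.u'.A d.p e := by
    have := (rd_le_D (b := d.u.B * d.p) (c := d.p) (b' := d.u'.B * d.p) (c' := d.p)
      (rr_pos X.c) hc.M0 hc.M0' (div_pos_of q0 hpr) (div_pos_of q0' hpr')).1
    refine le_trans ?_ this
    have := (rr_pos X.c e.1).le
    unfold rd; positivity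
  have e1 : max ((cof (e.2 / d.u'.A / x.s.M'.gcd (e.2 / d.u'.A))
      (e.1 / d.u.A / x.s.M.gcd (e.1 / d.u.A)) : ℝ) *
        (rf (e.1 / d.u.A) x.s.M * (((d.u.B * d.p : ℕ) : ℝ) / d.p * X.c.rr e.1)))
      ((cof (e.1 / d.u.A / x.s.M.gcd (e.1 / d.u.A)) (e.2 / d.u'.A / x.s.M'.gcd (e.2 / d.u'.A)) : ℝ) *
        (rf (e.2 / d.u'.A) x.s.M' * (((d.u'.B * d.p : ℕ) : ℝ) / d.p * X.c.rr e.2))) =
      Dq X.c.rr x.s.M (d.u.B * d.p) d.u.A d.p x.s.M' (d.u'.B * d.p) d.u'.A d.p e := rfl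
  rw [e1]
  refine mul_le_mul_of_nonneg_right ?_ hD0
  refine mul_le_mul_of_nonneg_left ?_ (by norm_num)
  exact pow_le_pow_left₀ (Nat.cast_nonneg _) hm 10

/-- **194's `WH`** at the `[E]` pairs with raising factors one -/
theorem wh_ctx (hw : WNM X) (hp40 : 2 ^ 40 ≤ p0) {x : XSt X.c.Lam (Lb (WL X.c.Lam) Y)} {d : Dt}
    (hc : ColF X Y x d) {e : ℕ × ℕ} (he : e ∈ EB (X.c.D.par Y) X.c.rr X.S' x d) (h1 : R1 x d e) :
    GSplit194.WH (X.c.D.par Y) X.c.rr (Ro ((X.c.D.par Y).rho d.p)) x.s.M (d.u.B * d.p) d.u.A d.p x.s.M'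
      (d.u'.B * d.p) d.u'.A d.p X.c.wp.ρ₀ X.c.wp.n₀ (X.c.wp.dep d.p) e (FN (X.c.D.par Y) x d e) := by
  classical
  obtain ⟨he1, he2⟩ := Finset.mem_filter.1 he
  obtain ⟨he3, -, hD⟩ := Finset.mem_filter.1 he1
  obtain ⟨m1, m2⟩ := Finset.mem_product.1 he3
  have i1 := (mem_Qi.1 m1).2.1
  have i2 := (mem_Qi.1 m2).2.1
  obtain ⟨hr1, hr2⟩ := h1
  have hb : 0 < d.u.B * d.p := Nat.mul_pos hc.B0 hc.p0
  have hb' : 0 < d.u'.B * d.p := Nat.mul_pos hc.B0' hc.p0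
  have dv : d.p ∣ d.u.B * d.p := Dvd.intro_left _ rfl
  have dv' : d.p ∣ d.u'.B * d.p := Dvd.intro_left _ rfl
  have j1 : e.1 ∈ d.t₀.items := (mem_Qi.1 m1).1
  have j2 : e.2 ∈ d.t₀'.items := (mem_Qi.1 m2).1
  obtain ⟨q0, hpr, -⟩ := hc.hF.item _ j1
  obtain ⟨q0', hpr', -⟩ := hc.hF'.item _ j2
  obtain ⟨t1, t2⟩ := thin_of hw hc.p1 hc.M0 hc.M0' q0 hpr q0' hpr' dv hb dv' hb'
    (hc.bl _ j1) (hc.bl' _ j2) hD
  have hnum : 2 * (1 / (2 : ℝ) ^ nn d.p) < 1 / 2 := by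
    have hp40 : 2 ^ 40 ≤ d.p := hp40.trans hc.p1
    have g1 := two_nn hp40
    have g2 : (d.p : ℝ) ^ (-(1 / 5) : ℝ) ≤ ((2 : ℝ) ^ 40) ^ (-(1 / 5) : ℝ) :=
      Real.rpow_le_rpow_of_nonpos (by norm_num) (by exact_mod_cast hp40) (by norm_num)
    have g3 : ((2 : ℝ) ^ 40) ^ (-(1 / 5) : ℝ) = 1 / 256 := by
      rw [← Real.rpow_natCast, ← Real.rpow_mul (by norm_num)]
      norm_num
    linarith
  have hD4 : (GSplit194.cy x.s.M d.u.A x.s.M' d.u'.A e : ℝ) *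
      (((d.u.B * d.p : ℕ) : ℝ) / d.p * X.c.rr e.1) +
      GSplit194.cx x.s.M d.u.A x.s.M' d.u'.A e *
        (((d.u'.B * d.p : ℕ) : ℝ) / d.p * X.c.rr e.2) < 1 / 2 := by
    have e1 : Dq X.c.rr x.s.M (d.u.B * d.p) d.u.A d.p x.s.M' (d.u'.B * d.p) d.u'.A d.p e =
      max ((GSplit194.cy x.s.M d.u.A x.s.M' d.u'.A e : ℝ) *
        (rf (e.1 / d.u.A) x.s.M * (((d.u.B * d.p : ℕ) : ℝ) / d.p * X.c.rr e.1)))
      ((GSplit194.cx x.s.M d.u.A x.s.M' d.u'.A e : ℝ) *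
        (rf (e.2 / d.u'.A) x.s.M' * (((d.u'.B * d.p : ℕ) : ℝ) / d.p * X.c.rr e.2))) := rfl
    have hD' : Dq X.c.rr x.s.M (d.u.B * d.p) d.u.A d.p x.s.M' (d.u'.B * d.p) d.u'.A d.p e ≤
      1 / 2 ^ nn d.p := hD
    rw [e1, hr1, hr2, Nat.cast_one, one_mul, one_mul] at hD'
    have k1 := (le_max_left _ _).trans hD'
    have k2 := (le_max_right _ _).trans hD'
    linarith
  have hk : d.u.B * d.p / d.p = Bl X.c d.p e.1 := hc.bl _ j1
  have hk' : d.u'.B * d.p / d.p = Bl X.c d.p e.2 := hc.bl' _ j2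
  have r1 := r_le_rr X.c e.1
  refine LinkW758.wh X.ok hc.ln Y hc.M0 hc.M0' hb hb' hc.hF hc.hF' hc.hW hc.hW' dv dv' hc.circ hk hk'
    hr1 hr2 hD4 ?_ ?_ (hw.ac _ _ hc.p1) (hw.ac _ _ hc.p1)
  · rw [← cast_div' dv hb, hk]; exact t1
  · rw [← cast_div' dv' hb', hk']; exact t2

/-- a piece with a nonzero mass is an item of the node -/
lemma item_of_mI {Λ κ : Type*} [Fintype Λ] [DecidableEq Λ] [Fintype κ] [DecidableEq κ]
    {D : Item758.Par Λ κ} {sp : ℕ → Finset Λ} {b pr : ℕ} {t : IT} {A : Finset Λ}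
    (hs : SideI D sp b pr t A (D.toDT sp b pr t)) {j : Λ}
    (h : mI (D.toDT sp b pr t) j ≠ 0) : D.it j ∈ t.items := by
  by_contra hn
  apply h
  rw [SideI_mI hs]
  have e : (D.toFT b pr t).U 1 j = fun _ => 0 := funext fun x => D.U_zero t b pr 1 j hn x
  rw [e]
  simp [I]

/-- **the number of missing ties of alive items** -/
theorem ctx_cnt' {u : NS} {τ : IT} {A : Finset X.c.Lam}
    (hN : NDt X.par (Soft104.w X.ψ) X.c.t u τ) (hD : IMI194.Dv τ)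
    (hmt : ∀ q ∈ τ.items, τ.mt q ⊆ X.c.t.mt q) (hb : 0 < u.B) (hF : Fit u.B u.A τ)
    (hW : (X.c.D.par Y).Wts u.A τ)
    (hs : SideI (X.c.D.par Y) X.c.sp u.B u.A τ A ((X.c.D.par Y).toDT X.c.sp u.B u.A τ))
    {j : X.c.Lam} (hm : mI ((X.c.D.par Y).toDT X.c.sp u.B u.A τ) j ≠ 0) :
    Cnt (mtD (dvI (X.c.D.par Y)) j ((X.c.D.par Y).toDT X.c.sp u.B u.A τ)) p0
      (N.C1 + N.c2 + 1) := by
  have hq := item_of_mI hs hm
  have hal : (X.c.D.par Y).it j ∈ X.S' :=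
    mem_of_mI (D := X.c.D.par Y) (Al := X.S') (fun j hj a => ctx_dead X j hj a)
      (fun j => X.ok.bpm _ (Cf.mem_S j) (Cf.r_pos j) (Nat.le_succ _)) hb hF hW hs hq hm
  have e : mtD (dvI (X.c.D.par Y)) j ((X.c.D.par Y).toDT X.c.sp u.B u.A τ) =
      τ.mt ((X.c.D.par Y).it j) := OSWI245.mtD_toDT hD u.B u.A hq
  rw [e]
  intro P hP
  refine le_trans ?_ ((ctx_pr X hal).mt P hP)
  have := Finset.card_le_card (Finset.filter_subset_filter (· ≤ P) (hmt _ hq))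
  exact_mod_cast this

end

/-- **NEAR MISSES OF A CONTEXT** -/
theorem nm_ctx (N : Skel189.Num) {c₀ κ' : ℝ} (hc₀ : 0 < c₀) (hκ : 0 < κ') : ∃ p₁ : ℕ, ∀ p0 ≥ p₁,
    ∀ (γ : ℝ) (P₀ : ℕ) (X : Ctx N γ p0 P₀) (Y : Finset (ℕ × ℕ × Finset ℕ)), Mean X c₀ → WNM X →
    ∀ stp : St X.c.Lam (Lb (WL X.c.Lam) Y) → Prop, (∀ s, ¬ stp s → ¬ OSWS245.stpM s) →
    All (fun u τ => ∀ A, AdI (X.c.D.par Y).it ((X.c.D.par Y).toG u.B u.A τ) A →
      WS stp (eNM stp) (selfSt ((X.c.D.par Y).toDT X.c.sp u.B u.A τ) A) ≤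
        (1 + κ') * ∑ j ∈ A, mI ((X.c.D.par Y).toDT X.c.sp u.B u.A τ) j) ⟨top X.S, 1, 1, 1⟩ X.c.t := by
  have hB1 := N.hB
  have hC1 := N.hC1
  have hc2 := N.hc2
  have hCL : (1 : ℝ) ≤ 2 * CT := by
    have h1 : (1 : ℝ) ≤ Real.exp (22 / Real.log 2) := Real.one_le_exp (by positivity)
    have h2 : Real.log 2 ≤ 1 := (Real.log_two_lt_d9.le).trans (by norm_num)
    have h3 : 0 < Real.log 2 := Real.log_pos one_lt_two
    unfold CT
    rw [← mul_div_assoc, le_div_iff₀ h3]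
    nlinarith
  obtain ⟨a1, h1⟩ := exists_NumG (CL := 2 * CT) (C1 := N.B + N.c2) (c₀ := c₀)
    (Dc := N.C1 + N.c2 + 1) (κ := κ') hCL hc₀ (by linarith) hκ
  obtain ⟨a2, h2⟩ := ctx_NI N (2 * CT) hc₀
  obtain ⟨a3, h3⟩ := ctx_NB N (c₀ := c₀)
  refine ⟨a1 + a2 + a3 + 2 ^ 40, fun p0 hp0 γ P₀ X Y hm hw stp hst => ?_⟩
  have hN := h1 p0 (by omega)
  have hp1 : 1 ≤ p0 := by omega
  have hQ : All (QX X Y c₀) ⟨top X.S, 1, 1, 1⟩ X.c.t := by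
    refine All.mono (fun u τ hh => ?_)
      (((h3 p0 (by omega) γ P₀ X Y hm).and (MF_root X.tOk 1)).and
        (All_lvl X.c.t ⟨top X.S, 1, 1, 1⟩ X.tOk le_rfl))
    exact ⟨hh.1.1, hh.1.2, hh.2.1⟩
  have hall := (((ctx_NDt X).and X.all).and (ctx_mt X)).and
    ((All_All _ _ hQ).and (All_All _ _ X.nodes))
  refine All.mono (fun u τ hh A hA => ?_) hall
  obtain ⟨⟨⟨hND, hNQ, hNG⟩, hmt⟩, hq, hno⟩ := hh
  have hF : Fit u.B u.A τ := Fit_of_All τ u (All.mono (fun _ _ hh => hh.node) hND.all)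
    fun q hq => Nat.pos_of_ne_zero (hND.sq q (hND.self.sub hq)).ne_zero
  have hB : 0 < u.B := Nat.pos_of_ne_zero hND.bk.sfB.ne_zero
  have hW : (X.c.D.par Y).Wts u.A τ := by
    intro j hj
    rw [← hND.self.pp _ hj]
    exact X.ok.wt _ (Cf.mem_S j) _
  have hs : SideI (X.c.D.par Y) X.c.sp u.B u.A τ A ((X.c.D.par Y).toDT X.c.sp u.B u.A τ) :=
    ⟨rfl, hB, hF, hW, hA.1, u.n, hND.self.ok⟩
  have hspd : ∀ b, ∀ j ∈ X.c.sp b, b ∣ (X.c.D.par Y).it j := by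
    intro b j hj
    have h5 : b ∈ rt X.c.t j.1.1 := (Finset.mem_filter.1 hj).2
    have h6 := (ctx_NDt X).self.rd j.1.1 (by rw [X.items]; exact X.mem_S j) b h5
    exact h6.trans (Nat.div_dvd_of_dvd ((ctx_NDt X).self.dvd _ (by rw [X.items]; exact X.mem_S j)))
  refine eNM_final (Ix := OF927.OF p0) (Dc := N.C1 + N.c2 + 1) (dd := X.c.wp.dep) (Qp := QX X Y c₀)
    hN (by linarith) (fun p hp => h2 p0 (by omega) γ P₀ X Y p hp) (X.ok.spok.spOk Y)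
    (fun b => X.c.IL_sp b) hspd hw.dep hst (fun x hX hx => hx.next hp1 hst hX) (fun x hx => hx)
    (fun u τ h => h.1) hs hq hA.2 hND.self.ok hNG ?_ ?_ ?_
  · refine OF927.OF.start ⟨?_, ?_, ?_, ?_⟩ rfl rfl
    · intro q hq
      simp [XSt.st, selfSt] at hq
    · have e : OSWS245.mO (XSt.st u.n (selfSt ((X.c.D.par Y).toDT X.c.sp u.B u.A τ) A)).s = 0 := by
        unfold OSWS245.mO
        simp [XSt.st, selfSt]
      rw [e]; positivity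
    · exact OSWI245.topGe_toDT hno
    · exact OSWI245.topGe_toDT hno
  · exact
      { fs := fun x _ _ d hd => fs_ctx hw (colF hd)
        wh := fun x _ _ d hd e he hr => ⟨X.c.wp.ρ₀, X.c.wp.n₀, X.fine.ρ0,
          wh_ctx hw (by omega) (colF hd) he hr⟩ }
  · intro j hj hm0
    exact ctx_cnt' hND (IMI194.Dv_of_All hno) hmt hB hF hW hs hm0

end Crest.Agent.R4.NMCtx927
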