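import Mathlib
import Crest.Agent.R4.ClsS_944

/-!
R4 (S0004), helper579: near misses, unstructured pairs, LEAF-VARIABLE FORM.

The relation `‖θ' x - θ y‖ ≤ 2/t` lives at scale `t = κ tl` (level `p`), the pairs are pairs of the
leaves `V b`, `W a`, at the leaf scale `tl`; `x = a · cof q r`, `y = b · cof r q`, the tie parts `a, b`
have weight `1/(a b)`.
-/

set_option autoImplicit false
open Finset

namespace Crest.Agent.R4.NMS

open Crest.Agent.R4.HVW560 Crest.Agent.R4.Smo944 Crest.Agent.R4.LF10 Crest.Agent.R4.ClsS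
open Crest.Agent.R4.LF765 Crest.Agent.R016

/-! ### weights -/

theorem smooth_single {x : ℕ} (hx : 0 < x) : Smooth x {x} := by
  intro b hb
  rw [Finset.mem_singleton] at hb
  subst hb
  exact ⟨hx, fun p _ hp => Nat.le_of_dvd hx hp⟩

/-- `(1/a) wn(x/a) ≤ wn(x)` for squarefree `a ∣ x` -/
theorem wn_div_le {κ : ℝ} (hκ : 1 ≤ κ) {x a : ℕ} (hx : 0 < x) (ha : a ∣ x) (hsq : Squarefree a) :
    1 / (a:ℝ) * wn κ (x / a) ≤ wn κ x := by
  classical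
  have ha0 : 0 < a := Nat.pos_of_dvd_of_pos ha hx
  have hxa : 0 < x / a := Nat.div_pos (Nat.le_of_dvd hx ha) ha0
  set P := primesIoc 0 x with hP
  have hSm : Smooth x ({x, x/a} : Finset ℕ) := by
    intro b hb
    rw [Finset.mem_insert, Finset.mem_singleton] at hb
    rcases hb with rfl | rfl
    · exact ⟨hx, fun p _ hp => Nat.le_of_dvd hx hp⟩
    · exact ⟨hxa, fun p _ hp => (Nat.le_of_dvd hxa hp).trans (Nat.div_le_self _ _)⟩
  rw [wn_eq hSm (by simp : x ∈ ({x, x/a} : Finset ℕ)), wn_eq hSm (by simp : x/a ∈ ({x, x/a} : Finset ℕ))]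
  have hapf : a.primeFactors ⊆ P := by
    intro p hp
    have h1 := Nat.mem_primeFactors.1 hp
    rw [hP, mem_primesIoc]
    exact ⟨⟨h1.1.pos, (Nat.le_of_dvd ha0 h1.2.1).trans (Nat.le_of_dvd hx ha)⟩, h1.1⟩
  have h1 : (1:ℝ)/a = ∏ p ∈ P, ((p:ℝ)⁻¹)^(a.factorization p) := by
    have h2 := rpow_prod_fact ha0 hapf (-1)
    have h3 : (1:ℝ)/a = (a:ℝ)^(-1:ℝ) := by
      rw [Real.rpow_neg_one, one_div]
    rw [h3, ← h2]
    apply Finset.prod_congr rfl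
    intro p _
    rw [Real.rpow_neg_one, inv_pow]
  rw [h1, ← Finset.prod_mul_distrib]
  apply Finset.prod_le_prod
  · intro p hp
    have := wt2_nonneg (κ := κ) (by linarith) 6 p ((x/a).factorization p)
    positivity
  · intro p hp
    have hpp := (mem_primesIoc.1 hp).2
    have hp0 : (0:ℝ) < p := by exact_mod_cast hpp.pos
    have hf : (x/a).factorization p = x.factorization p - a.factorization p := by
      rw [Nat.factorization_div ha]; rfl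
    have hle : a.factorization p ≤ x.factorization p :=
      (Nat.factorization_le_iff_dvd ha0.ne' hx.ne').2 ha p
    have h1 : a.factorization p ≤ 1 := hsq.natFactorization_le_one p
    rw [hf]
    rcases Nat.eq_zero_or_pos (a.factorization p) with h0 | h0
    · rw [h0]; simp
    · have h2 : a.factorization p = 1 := by omega
      rw [h2, pow_one]
      set e := x.factorization p with he
      have he1 : 1 ≤ e := by omega
      unfold wt2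
      rw [if_neg (by omega : ¬ e = 0)]
      split_ifs with h3
      · have h4 : e = 1 := by omega
        rw [h4]
        simp only [Nat.cast_one, one_pow, mul_one, pow_one]
        rw [inv_eq_one_div]
        gcongr
      · have h5 : (p:ℝ)^e = p * (p:ℝ)^(e-1) := by
          rw [← pow_succ']; congr 1; omega
        rw [h5]
        have h6 : ((e - 1 : ℕ):ℝ) ≤ e := by exact_mod_cast Nat.sub_le _ _
        have h7 : (((e - 1 : ℕ):ℝ))^6 ≤ (e:ℝ)^6 := pow_le_pow_left₀ (by positivity) h6 6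
        have hκ0 : 0 ≤ κ := by linarith
        calc (p:ℝ)⁻¹ * (κ * (((e - 1 : ℕ):ℝ))^6 / (p:ℝ)^(e-1))
            = κ * (((e - 1 : ℕ):ℝ))^6 / (p * (p:ℝ)^(e-1)) := by field_simp
          _ ≤ κ * (e:ℝ)^6 / (p * (p:ℝ)^(e-1)) := by
              apply div_le_div_of_nonneg_right _ (by positivity)
              exact mul_le_mul_of_nonneg_left h7 hκ0

theorem wn_two_mul (κ : ℝ) (x : ℕ) : wn (2*κ) x = 2^(x.primeFactors.card) * wn κ x := by
  unfold wn Finsupp.prod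
  rw [Nat.support_factorization, ← Finset.prod_const, ← Finset.prod_mul_distrib]
  apply Finset.prod_congr rfl
  intro p _
  ring

theorem card_sqfree_div {x : ℕ} (hx : x ≠ 0) :
    ((x.divisors.filter Squarefree).card : ℝ) = 2^(x.primeFactors.card) := by
  have h := Nat.sum_divisors_filter_squarefree hx (f := fun _ => (1:ℕ))
  simp only [Finset.sum_const, smul_eq_mul, mul_one] at h
  rw [Finset.card_powerset] at h
  have h2 : (UniqueFactorizationMonoid.normalizedFactors x).toFinset = x.primeFactors := by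
    rw [Nat.factors_eq]
    ext p
    simp
  rw [h2] at h
  rw [h]
  push_cast
  rfl

/-- sum over the squarefree tie parts -/
theorem sum_sqfree_le {κ : ℝ} (hκ : 1 ≤ κ) {x : ℕ} (hx : 0 < x) (A : Finset ℕ)
    (hA : ∀ a ∈ A, Squarefree a) :
    ∑ a ∈ A.filter (fun a => a ∣ x), 1 / (a:ℝ) * wn κ (x / a) ≤ wn (2*κ) x := by
  classical
  have hκ0 : 0 ≤ κ := by linarith
  calc ∑ a ∈ A.filter (fun a => a ∣ x), 1 / (a:ℝ) * wn κ (x / a)
      ≤ ∑ a ∈ x.divisors.filter Squarefree, 1 / (a:ℝ) * wn κ (x / a) := by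
        apply Finset.sum_le_sum_of_subset_of_nonneg
        · intro a ha
          rw [Finset.mem_filter] at ha
          rw [Finset.mem_filter, Nat.mem_divisors]
          exact ⟨⟨ha.2, hx.ne'⟩, hA a ha.1⟩
        · intro a _ _
          exact mul_nonneg (by positivity) (wn_nonneg hκ0 _)
    _ ≤ ∑ _a ∈ x.divisors.filter Squarefree, wn κ x := by
        apply Finset.sum_le_sum
        intro a ha
        rw [Finset.mem_filter, Nat.mem_divisors] at ha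
        exact wn_div_le hκ hx ha.1.1 ha.2
    _ = wn (2*κ) x := by
        rw [Finset.sum_const, nsmul_eq_mul, card_sqfree_div hx.ne', wn_two_mul]

/-! ### grouping -/

/-- the relation of the full cofactors -/
noncomputable def Rel (A B : Finset ℕ) (S : ℕ → ℕ → Finset (ℕ × ℕ)) : Finset (ℕ × ℕ) := by
  classical
  exact A.biUnion fun a => B.biUnion fun b => (S a b).image (fun u => (a * u.1, b * u.2))

theorem mem_Rel {A B : Finset ℕ} {S : ℕ → ℕ → Finset (ℕ × ℕ)} {e : ℕ × ℕ} :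
    e ∈ Rel A B S ↔ ∃ a ∈ A, ∃ b ∈ B, ∃ u ∈ S a b, (a * u.1, b * u.2) = e := by
  classical
  unfold Rel
  simp only [Finset.mem_biUnion, Finset.mem_image]

theorem group_le {κ : ℝ} (hκ : 1 ≤ κ) (A B : Finset ℕ) (S : ℕ → ℕ → Finset (ℕ × ℕ))
    (hA : ∀ a ∈ A, Squarefree a) (hB : ∀ b ∈ B, Squarefree b)
    (hpos : ∀ a ∈ A, ∀ b ∈ B, ∀ u ∈ S a b, 0 < u.1 ∧ 0 < u.2) :
    ∑ a ∈ A, ∑ b ∈ B, 1 / ((a:ℝ) * b) * ∑ u ∈ S a b, wn κ u.1 * wn κ u.2 ≤
      ∑ e ∈ Rel A B S, wn (2*κ) e.1 * wn (2*κ) e.2 := by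
  classical
  have hκ0 : 0 ≤ κ := by linarith
  set g : ℕ → ℕ → ℕ × ℕ → ℝ := fun a b e =>
    (1 / (a:ℝ) * wn κ (e.1 / a)) * (1 / (b:ℝ) * wn κ (e.2 / b)) with hg
  have hg0 : ∀ a b e, 0 ≤ g a b e := fun a b e =>
    mul_nonneg (mul_nonneg (by positivity) (wn_nonneg hκ0 _))
      (mul_nonneg (by positivity) (wn_nonneg hκ0 _))
  have h1 : ∀ a ∈ A, ∀ b ∈ B, 1 / ((a:ℝ) * b) * ∑ u ∈ S a b, wn κ u.1 * wn κ u.2 ≤
      ∑ e ∈ (Rel A B S).filter (fun e => a ∣ e.1 ∧ b ∣ e.2), g a b e := by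
    intro a ha b hb
    have ha0 : 0 < a := Nat.pos_of_ne_zero (hA a ha).ne_zero
    have hb0 : 0 < b := Nat.pos_of_ne_zero (hB b hb).ne_zero
    have hinj : Set.InjOn (fun u : ℕ × ℕ => (a * u.1, b * u.2)) (S a b : Set (ℕ × ℕ)) := by
      intro u _ v _ huv
      simp only [Prod.mk.injEq] at huv
      exact Prod.ext (Nat.eq_of_mul_eq_mul_left ha0 huv.1) (Nat.eq_of_mul_eq_mul_left hb0 huv.2)
    have h2 : 1 / ((a:ℝ) * b) * ∑ u ∈ S a b, wn κ u.1 * wn κ u.2 =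
        ∑ e ∈ (S a b).image (fun u => (a * u.1, b * u.2)), g a b e := by
      rw [Finset.sum_image hinj, Finset.mul_sum]
      apply Finset.sum_congr rfl
      intro u _
      simp only [hg]
      rw [Nat.mul_div_cancel_left _ ha0, Nat.mul_div_cancel_left _ hb0]
      have : (1:ℝ) / ((a:ℝ) * b) = 1/a * (1/b) := by
        rw [one_div_mul_one_div]
      rw [this]; ring
    rw [h2]
    apply Finset.sum_le_sum_of_subset_of_nonneg
    · intro e he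
      obtain ⟨u, hu, rfl⟩ := Finset.mem_image.1 he
      rw [Finset.mem_filter]
      exact ⟨mem_Rel.2 ⟨a, ha, b, hb, u, hu, rfl⟩, Dvd.intro _ rfl, Dvd.intro _ rfl⟩
    · intro e _ _
      exact hg0 a b e
  calc ∑ a ∈ A, ∑ b ∈ B, 1 / ((a:ℝ) * b) * ∑ u ∈ S a b, wn κ u.1 * wn κ u.2
      ≤ ∑ a ∈ A, ∑ b ∈ B, ∑ e ∈ (Rel A B S).filter (fun e => a ∣ e.1 ∧ b ∣ e.2), g a b e :=
        Finset.sum_le_sum fun a ha => Finset.sum_le_sum fun b hb => h1 a ha b hb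
    _ = ∑ e ∈ Rel A B S, (∑ a ∈ A.filter (fun a => a ∣ e.1), 1 / (a:ℝ) * wn κ (e.1 / a)) *
          ∑ b ∈ B.filter (fun b => b ∣ e.2), 1 / (b:ℝ) * wn κ (e.2 / b) := by
        simp only [Finset.sum_filter, Finset.sum_mul_sum]
        have h3 : ∀ e : ℕ × ℕ, (∑ a ∈ A, if a ∣ e.1 then 1 / (a:ℝ) * wn κ (e.1 / a) else 0) *
            (∑ b ∈ B, if b ∣ e.2 then 1 / (b:ℝ) * wn κ (e.2 / b) else 0) =
            ∑ a ∈ A, ∑ b ∈ B, if a ∣ e.1 ∧ b ∣ e.2 then g a b e else 0 := by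
          intro e
          rw [Finset.sum_mul_sum]
          apply Finset.sum_congr rfl; intro a _
          apply Finset.sum_congr rfl; intro b _
          by_cases h1 : a ∣ e.1 <;> by_cases h2 : b ∣ e.2 <;> simp [h1, h2, hg]
        have h4 : ∀ e : ℕ × ℕ, (∑ a ∈ A, ∑ b ∈ B, (if a ∣ e.1 then 1 / (a:ℝ) * wn κ (e.1 / a) else 0) *
            (if b ∣ e.2 then 1 / (b:ℝ) * wn κ (e.2 / b) else 0)) =
            ∑ a ∈ A, ∑ b ∈ B, if a ∣ e.1 ∧ b ∣ e.2 then g a b e else 0 := by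
          intro e
          rw [← h3 e, Finset.sum_mul_sum]
        simp only [h4]
        have e1 : ∀ a ∈ A, (∑ b ∈ B, ∑ e ∈ Rel A B S, if a ∣ e.1 ∧ b ∣ e.2 then g a b e else 0) =
            ∑ e ∈ Rel A B S, ∑ b ∈ B, if a ∣ e.1 ∧ b ∣ e.2 then g a b e else 0 := fun a _ =>
          Finset.sum_comm
        rw [Finset.sum_congr rfl e1, Finset.sum_comm]
    _ ≤ ∑ e ∈ Rel A B S, wn (2*κ) e.1 * wn (2*κ) e.2 := by
        apply Finset.sum_le_sum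
        intro e he
        obtain ⟨a, ha, b, hb, u, hu, rfl⟩ := mem_Rel.1 he
        have hp := hpos a ha b hb u hu
        have ha0 : 0 < a := Nat.pos_of_ne_zero (hA a ha).ne_zero
        have hb0 : 0 < b := Nat.pos_of_ne_zero (hB b hb).ne_zero
        exact mul_le_mul (sum_sqfree_le hκ (Nat.mul_pos ha0 hp.1) A hA)
          (sum_sqfree_le hκ (Nat.mul_pos hb0 hp.2) B hB)
          (Finset.sum_nonneg fun b _ => mul_nonneg (by positivity) (wn_nonneg hκ0 _))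
          (wn_nonneg (by linarith) _)

/-- Hölder (concavity of `s ↦ s^u`) -/
theorem sum_rpow_le {ι : Type*} (I : Finset ι) (w s : ι → ℝ) {u : ℝ} (hu : 0 < u) (hu1 : u < 1)
    (hw : ∀ i ∈ I, 0 ≤ w i) (hs : ∀ i ∈ I, 0 ≤ s i) :
    ∑ i ∈ I, w i * (s i)^u ≤ (∑ i ∈ I, w i)^(1-u) * (∑ i ∈ I, w i * s i)^u := by
  have h1u : 0 < 1 - u := by linarith
  have hpq : (1/(1-u)).HolderConjugate (1/u) := by
    rw [Real.holderConjugate_iff]
    constructor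
    · rw [lt_div_iff₀ h1u]; linarith
    · simp
  have key := Real.inner_le_Lp_mul_Lq_of_nonneg I hpq (f := fun i => (w i)^(1-u))
    (g := fun i => (w i * s i)^u) (fun i hi => Real.rpow_nonneg (hw i hi) _)
    (fun i hi => Real.rpow_nonneg (mul_nonneg (hw i hi) (hs i hi)) _)
  have e1 : ∀ i ∈ I, w i * (s i)^u = (w i)^(1-u) * (w i * s i)^u := by
    intro i hi
    rw [Real.mul_rpow (hw i hi) (hs i hi), ← mul_assoc]
    rcases (hw i hi).eq_or_lt with h | h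
    · rw [← h, Real.zero_rpow h1u.ne']; ring
    · rw [← Real.rpow_add h]; simp
  rw [Finset.sum_congr rfl e1]
  refine key.trans (le_of_eq ?_)
  have e2 : ∑ i ∈ I, ((w i)^(1-u))^(1/(1-u)) = ∑ i ∈ I, w i := by
    apply Finset.sum_congr rfl
    intro i hi
    rw [← Real.rpow_mul (hw i hi), mul_one_div_cancel h1u.ne', Real.rpow_one]
  have e3 : ∑ i ∈ I, ((w i * s i)^u)^(1/u) = ∑ i ∈ I, w i * s i := by
    apply Finset.sum_congr rfl
    intro i hi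
    rw [← Real.rpow_mul (mul_nonneg (hw i hi) (hs i hi)), mul_one_div_cancel hu.ne', Real.rpow_one]
  rw [e2, e3]
  simp

/-! ### the counting -/

/-- an unstructured related pair of full cofactors (two targets), `z`-smooth -/
structure NMPair (θ θ' t N : ℝ) (z L : ℕ) (x y : ℕ) : Prop where
  hx : 0 < x
  hy : 0 < y
  sx : ∀ p, p.Prime → p ∣ x → p ≤ z
  sy : ∀ p, p.Prime → p ∣ y → p ≤ z
  hN : N < ((max x y : ℕ) : ℝ)
  hL : max x y ≤ 2^L
  rel : ∃ n : ℤ, |(n:ℝ) - (θ' * x - θ * y)| ≤ 2 / t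
  uns : ∀ Y : ℝ, 0 < Y → Y < ((max x y : ℕ) : ℝ) → ((max x y : ℕ) : ℝ) ≤ 2 * Y →
    (x ≤ y → ¬ Struct N θ t Y) ∧ (y ≤ x → ¬ Struct N θ' t Y)

theorem NMPair.swap {θ θ' t N : ℝ} {z L x y : ℕ} (h : NMPair θ θ' t N z L x y) :
    NMPair θ' θ t N z L y x where
  hx := h.hy
  hy := h.hx
  sx := h.sy
  sy := h.sx
  hN := by rw [max_comm]; exact h.hN
  hL := by rw [max_comm]; exact h.hL
  rel := by
    obtain ⟨n, hn⟩ := h.rel
    refine ⟨-n, ?_⟩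
    rw [← abs_neg]
    have : -(((-n : ℤ):ℝ) - (θ * y - θ' * x)) = (n:ℝ) - (θ' * x - θ * y) := by push_cast; ring
    rw [this]; exact hn
  uns := by
    intro Y h0 h1 h2
    rw [max_comm] at h1 h2
    exact ⟨(h.uns Y h0 h1 h2).2, (h.uns Y h0 h1 h2).1⟩

/-- the number of partners in a dyadic block -/
theorem count_block {θ θ' t N : ℝ} {z L : ℕ} (hN : 1 ≤ N) (ht : 200 * N ≤ t) (R : Finset (ℕ × ℕ))
    (hR : ∀ e ∈ R, NMPair θ θ' t N z L e.1 e.2 ∧ e.1 ≤ e.2) (x j : ℕ) :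
    ((R.filter (fun e => e.1 = x ∧ 2^j < e.2 ∧ e.2 ≤ 2^(j+1))).card : ℝ) ≤ 4 / N * 2^j := by
  classical
  have ht0 : 0 < t := by linarith
  have hN0 : 0 < N := by linarith
  set F := R.filter (fun e => e.1 = x ∧ 2^j < e.2 ∧ e.2 ≤ 2^(j+1)) with hF
  rcases F.eq_empty_or_nonempty with hem | ⟨e0, he0⟩
  · rw [hem]; simp; positivity
  rw [hF, Finset.mem_filter] at he0
  obtain ⟨he0R, he0x, he0l, he0u⟩ := he0
  obtain ⟨hP0, hle0⟩ := hR e0 he0R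
  have hmax : max e0.1 e0.2 = e0.2 := max_eq_right hle0
  have h0l : ((2:ℝ)^j) < e0.2 := by exact_mod_cast he0l
  have h0u : (e0.2:ℝ) ≤ 2 * 2^j := by
    have : (e0.2:ℝ) ≤ 2^(j+1) := by exact_mod_cast he0u
    rw [pow_succ] at this; linarith
  have hns := (hP0.uns (2^j) (by positivity) (by rw [hmax]; exact h0l) (by rw [hmax]; exact h0u)).1 hle0
  have hcard : F.card = (F.image Prod.snd).card := by
    rw [Finset.card_image_of_injOn]
    intro a ha b hb hab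
    have ha' := (Finset.mem_filter.1 ha).2
    have hb' := (Finset.mem_filter.1 hb).2
    exact Prod.ext (ha'.1.trans hb'.1.symm) hab
  have h1 := LF6 (N := N) (θ := θ) (t := t) (Y := 2^j) hN (by positivity) ht hns (θ' * x)
    (F.image Prod.snd) (by
      intro y hy
      obtain ⟨e, he, rfl⟩ := Finset.mem_image.1 hy
      rw [hF, Finset.mem_filter] at he
      obtain ⟨_, _, h2, h3⟩ := he
      have h3' : (e.2:ℝ) ≤ 2^(j+1) := by exact_mod_cast h3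
      rw [pow_succ] at h3'
      exact ⟨by exact_mod_cast h2, by linarith⟩) (by
      intro y hy
      obtain ⟨e, he, rfl⟩ := Finset.mem_image.1 hy
      rw [hF, Finset.mem_filter] at he
      obtain ⟨heR, hex, _, _⟩ := he
      obtain ⟨n, hn⟩ := (hR e heR).1.rel
      refine ⟨-n, ?_⟩
      rw [hex] at hn
      have e4 : θ * (e.2:ℝ) - θ' * x - ((-n : ℤ):ℝ) = (n:ℝ) - (θ' * x - θ * e.2) := by
        push_cast; ring
      rw [e4]; exact hn)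
  rw [← hcard] at h1
  have h2 := hP0.hN
  rw [hmax] at h2
  have h3 : 1 ≤ 2 * 2^j / N := by
    rw [le_div_iff₀ hN0]; linarith
  calc (F.card:ℝ) ≤ 2 * 2^j / N + 1 := h1.le
    _ ≤ 2 * 2^j / N + 2 * 2^j / N := by linarith
    _ = 4 / N * 2^j := by ring

/-- sum over the relation, one orientation -/
theorem sum_rel_half {κ : ℝ} (hκ : 0 ≤ κ) {θ θ' t N : ℝ} {z L : ℕ} (hz : 2 ≤ z) (hN : 1 ≤ N)
    (ht : 200 * N ≤ t) (R : Finset (ℕ × ℕ))
    (hR : ∀ e ∈ R, NMPair θ θ' t N z L e.1 e.2 ∧ e.1 ≤ e.2) :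
    ∑ e ∈ R, wn κ e.1 * wn κ e.2 ≤ (4 / N * L)^(1/2:ℝ) *
      Real.exp ((κ * Sm 6 + κ^2 * Sm 12) * (Real.log (Real.log z) + 6)) := by
  classical
  have hN0 : 0 < N := by linarith
  refine sum_R_le hκ hz (by positivity) L R ?_ ?_ ?_ ?_ (count_block hN ht R hR)
  · intro b hb
    obtain ⟨e, he, rfl⟩ := Finset.mem_image.1 hb
    exact ⟨(hR e he).1.hx, (hR e he).1.sx⟩
  · intro b hb
    obtain ⟨e, he, rfl⟩ := Finset.mem_image.1 hb
    exact ⟨(hR e he).1.hy, (hR e he).1.sy⟩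
  · intro e he
    have h := (hR e he).1.hN
    rw [max_eq_right (hR e he).2] at h
    have : (1:ℝ) < e.2 := by linarith
    exact_mod_cast this
  · intro e he
    have h := (hR e he).1.hL
    rwa [max_eq_right (hR e he).2] at h

/-- sum over the relation -/
theorem sum_rel {κ : ℝ} (hκ : 0 ≤ κ) {θ θ' t N : ℝ} {z L : ℕ} (hz : 2 ≤ z) (hN : 1 ≤ N)
    (ht : 200 * N ≤ t) (R : Finset (ℕ × ℕ)) (hR : ∀ e ∈ R, NMPair θ θ' t N z L e.1 e.2) :
    ∑ e ∈ R, wn κ e.1 * wn κ e.2 ≤ 2 * ((4 / N * L)^(1/2:ℝ) *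
      Real.exp ((κ * Sm 6 + κ^2 * Sm 12) * (Real.log (Real.log z) + 6))) := by
  classical
  set R1 := R.filter (fun e => e.1 ≤ e.2) with hR1
  set R2 := R.filter (fun e => ¬ e.1 ≤ e.2) with hR2
  have hsplit : ∑ e ∈ R, wn κ e.1 * wn κ e.2 =
      ∑ e ∈ R1, wn κ e.1 * wn κ e.2 + ∑ e ∈ R2, wn κ e.1 * wn κ e.2 := by
    rw [hR1, hR2, Finset.sum_filter_add_sum_filter_not]
  have b1 := sum_rel_half hκ hz hN ht R1 (fun e he => by
    rw [hR1, Finset.mem_filter] at he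
    exact ⟨hR e he.1, he.2⟩)
  have b2 := sum_rel_half (θ := θ') (θ' := θ) hκ hz hN ht (R2.image Prod.swap) (fun e he => by
    obtain ⟨e', he', rfl⟩ := Finset.mem_image.1 he
    rw [hR2, Finset.mem_filter] at he'
    exact ⟨(hR e' he'.1).swap, (not_le.1 he'.2).le⟩)
  rw [Finset.sum_image Prod.swap_injective.injOn] at b2
  have b3 : ∑ e ∈ R2, wn κ e.1 * wn κ e.2 = ∑ e ∈ R2, wn κ (Prod.swap e).1 * wn κ (Prod.swap e).2 := by
    apply Finset.sum_congr rfl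
    intro e _
    simp only [Prod.fst_swap, Prod.snd_swap]
    ring
  rw [hsplit, b3]
  linarith

/-! ### the main inequalities -/

theorem sum_inv_le {z : ℕ} (hz : 2 ≤ z) (A : Finset ℕ)
    (hA : ∀ a ∈ A, Squarefree a ∧ ∀ p, p.Prime → p ∣ a → p ≤ z) :
    ∑ a ∈ A, 1 / (a:ℝ) ≤ Real.exp (1 * Sm 6 * (Real.log (Real.log z) + 6)) := by
  classical
  have hS : Smooth z A := fun a ha => ⟨Nat.pos_of_ne_zero (hA a ha).1.ne_zero, (hA a ha).2⟩
  refine le_trans (le_of_eq ?_) (sum_wn_le (κ := 1) zero_le_one hz hS)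
  apply Finset.sum_congr rfl
  intro a ha
  have ha0 : 0 < a := (hS a ha).1
  have h1 : (1:ℝ)/a = ∏ p ∈ a.primeFactors, ((p:ℝ)⁻¹)^(a.factorization p) := by
    have h2 := rpow_prod_fact ha0 (Finset.Subset.refl a.primeFactors) (-1)
    have h3 : (1:ℝ)/a = (a:ℝ)^(-1:ℝ) := by
      rw [Real.rpow_neg_one, one_div]
    rw [h3, ← h2]
    apply Finset.prod_congr rfl
    intro p _
    rw [Real.rpow_neg_one, inv_pow]
  rw [h1]
  unfold wn Finsupp.prod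
  rw [Nat.support_factorization]
  apply Finset.prod_congr rfl
  intro p hp
  have hpp := Nat.mem_primeFactors.1 hp
  have h4 : a.factorization p = 1 := by
    have h5 : a.factorization p ≤ 1 := (hA a ha).1.natFactorization_le_one p
    have h6 : 0 < a.factorization p := hpp.1.factorization_pos_of_dvd ha0.ne' hpp.2.1
    omega
  rw [h4]; simp

theorem exp_loglog_le {K : ℝ} (hK : 0 ≤ K) {z : ℕ} (hz : 2 ≤ z) :
    Real.exp (K * (Real.log (Real.log z) + 6)) ≤ Real.exp (6*K) * (Real.log (z+1))^K := by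
  have hz2 : (2:ℝ) ≤ z := by exact_mod_cast hz
  have hl : 0 < Real.log z := Real.log_pos (by linarith)
  have hl2 : Real.log z ≤ Real.log (z+1) := Real.log_le_log (by linarith) (by linarith)
  have h1 : Real.exp (K * (Real.log (Real.log z) + 6)) = Real.exp (6*K) * (Real.log z)^K := by
    rw [Real.rpow_def_of_pos hl, ← Real.exp_add]
    congr 1; ring
  rw [h1]
  apply mul_le_mul_of_nonneg_left _ (Real.exp_pos _).le
  exact Real.rpow_le_rpow hl.le hl2 hK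

theorem one_le_log {z : ℕ} (hz : 2 ≤ z) : 1 ≤ Real.log ((z:ℝ)+1) := by
  have hz2 : (2:ℝ) ≤ z := by exact_mod_cast hz
  rw [Real.le_log_iff_exp_le (by linarith)]
  have := Real.exp_one_lt_d9
  linarith

/-- general form: any bound `Q` for the sum over the relation of the full cofactors -/
theorem core {ε : ℝ} (hε : 0 < ε) (hε4 : ε ≤ 1/4) {tl m m' Q X1 : ℝ} {A B : Finset ℕ}
    {V W : ℕ → Finset ℕ} {ψ ψ' : ℕ → ℕ → ℝ} {E : ℕ → ℕ → Finset (ℕ × ℕ)} (htl : 0 < tl)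
    (hA : ∀ a ∈ A, Squarefree a) (hB : ∀ b ∈ B, Squarefree b)
    (hA1 : ∑ a ∈ A, 1 / (a:ℝ) ≤ X1) (hB1 : ∑ b ∈ B, 1 / (b:ℝ) ≤ X1)
    (hs : ∀ a ∈ A, ∀ b ∈ B, Sys (V b) (W a) (E a b) (ψ b) (ψ' a) (1/tl))
    (hm0 : 0 ≤ m) (hm0' : 0 ≤ m')
    (hm : ∀ b ∈ B, ∑ v ∈ V b, wt (ψ b) v ≤ m) (hm' : ∀ a ∈ A, ∑ w ∈ W a, wt (ψ' a) w ≤ m')
    (hQ : ∑ e ∈ Rel A B (fun a b => (E a b).image (fun e => (cof e.1 e.2, cof e.2 e.1))),
      wn (2*(16*(72/ε)^3)) e.1 * wn (2*(16*(72/ε)^3)) e.2 ≤ Q) :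
    ∑ a ∈ A, ∑ b ∈ B, 1 / ((a:ℝ) * b) * ∑ e ∈ E a b,
        wt (ψ b) e.1 * wt (ψ' a) e.2 * (Af (cof e.1 e.2) * Af (cof e.2 e.1)) ≤
      (tl^(-(1-2*ε)) * (m*m')^(1/2+ε)) * ((X1*X1)^(1/2+ε) * Q^(1/2-ε)) := by
  classical
  set κ : ℝ := 16*(72/ε)^3 with hκd
  have hκ1 : 1 ≤ κ := by
    have h1 : (1:ℝ) ≤ 72/ε := by rw [le_div_iff₀ hε]; linarith
    have h2 : (1:ℝ) ≤ (72/ε)^3 := one_le_pow₀ h1
    rw [hκd]; linarith
  have hκ0 : 0 ≤ κ := by linarith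
  set u : ℝ := 1/2 - ε with hu
  have hu0 : 0 < u := by rw [hu]; linarith
  have hu1 : u < 1 := by rw [hu]; linarith
  set S : ℕ → ℕ → Finset (ℕ × ℕ) := fun a b => (E a b).image (fun e => (cof e.1 e.2, cof e.2 e.1)) with hS
  set sS : ℕ → ℕ → ℝ := fun a b => ∑ x ∈ S a b, wn κ x.1 * wn κ x.2 with hsS
  have hsS0 : ∀ a b, 0 ≤ sS a b := fun a b =>
    Finset.sum_nonneg fun x _ => mul_nonneg (wn_nonneg hκ0 _) (wn_nonneg hκ0 _)
  have hap : ∀ a ∈ A, (0:ℝ) < a := fun a ha => by exact_mod_cast Nat.pos_of_ne_zero (hA a ha).ne_zero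
  have hbp : ∀ b ∈ B, (0:ℝ) < b := fun a ha => by exact_mod_cast Nat.pos_of_ne_zero (hB a ha).ne_zero
  set K : ℝ := tl^(-(1-2*ε)) * (m*m')^(1/2+ε) with hK
  have hK0 : 0 ≤ K := by positivity
  have hX0 : 0 ≤ X1 := le_trans (Finset.sum_nonneg fun a ha => by positivity) hA1
  have hQ0 : 0 ≤ Q := le_trans (Finset.sum_nonneg fun x _ =>
    mul_nonneg (wn_nonneg (by positivity) _) (wn_nonneg (by positivity) _)) hQ
  -- one pair of leaves
  have h1 : ∀ a ∈ A, ∀ b ∈ B, ∑ e ∈ E a b,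
      wt (ψ b) e.1 * wt (ψ' a) e.2 * (Af (cof e.1 e.2) * Af (cof e.2 e.1)) ≤ K * (sS a b)^u := by
    intro a ha b hb
    have key := energy_R hε hε4 (hs a ha b hb)
    have hV0 : 0 ≤ ∑ v ∈ V b, wt (ψ b) v := Finset.sum_nonneg fun v hv =>
      wt_nonneg ((hs a ha b hb).hψ v hv)
    have hW0 : 0 ≤ ∑ w ∈ W a, wt (ψ' a) w := Finset.sum_nonneg fun v hv =>
      wt_nonneg ((hs a ha b hb).hθ v hv)
    refine key.trans ?_
    have e1 : (1/tl)^(1-2*ε) = tl^(-(1-2*ε)) := by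
      rw [one_div, Real.inv_rpow htl.le, Real.rpow_neg htl.le]
    rw [e1, hK]
    have h2 : ((∑ v ∈ V b, wt (ψ b) v) * (∑ w ∈ W a, wt (ψ' a) w))^(1/2+ε) ≤ (m*m')^(1/2+ε) :=
      Real.rpow_le_rpow (mul_nonneg hV0 hW0) (mul_le_mul (hm b hb) (hm' a ha) hW0 hm0) (by linarith)
    have h3 : 0 ≤ tl^(-(1-2*ε)) := by positivity
    have h4 : 0 ≤ (sS a b)^u := Real.rpow_nonneg (hsS0 a b) _
    calc tl^(-(1-2*ε)) * ((sS a b)^u * ((∑ v ∈ V b, wt (ψ b) v) * (∑ w ∈ W a, wt (ψ' a) w))^(1/2+ε))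
        ≤ tl^(-(1-2*ε)) * ((sS a b)^u * (m*m')^(1/2+ε)) := by gcongr
      _ = _ := by ring
  have h2 : ∑ a ∈ A, ∑ b ∈ B, 1 / ((a:ℝ) * b) * ∑ e ∈ E a b,
        wt (ψ b) e.1 * wt (ψ' a) e.2 * (Af (cof e.1 e.2) * Af (cof e.2 e.1)) ≤
      K * ∑ i ∈ A ×ˢ B, (1 / ((i.1:ℝ) * i.2)) * (sS i.1 i.2)^u := by
    rw [Finset.sum_product, Finset.mul_sum]
    apply Finset.sum_le_sum; intro a ha
    rw [Finset.mul_sum]
    apply Finset.sum_le_sum; intro b hb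
    have := mul_le_mul_of_nonneg_left (h1 a ha b hb) (by positivity : (0:ℝ) ≤ 1 / ((a:ℝ) * b))
    refine this.trans (le_of_eq ?_)
    ring
  have h3 := sum_rpow_le (A ×ˢ B) (fun i => 1 / ((i.1:ℝ) * i.2)) (fun i => sS i.1 i.2) hu0 hu1
    (fun i _ => by positivity) (fun i _ => hsS0 _ _)
  have h4 : ∑ i ∈ A ×ˢ B, 1 / ((i.1:ℝ) * i.2) ≤ X1 * X1 := by
    rw [Finset.sum_product]
    calc ∑ a ∈ A, ∑ b ∈ B, 1 / ((a:ℝ) * b) = (∑ a ∈ A, 1 / (a:ℝ)) * ∑ b ∈ B, 1 / (b:ℝ) := by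
          rw [Finset.sum_mul_sum]
          apply Finset.sum_congr rfl; intro a _
          apply Finset.sum_congr rfl; intro b _
          rw [one_div_mul_one_div]
      _ ≤ X1 * X1 := mul_le_mul hA1 hB1 (Finset.sum_nonneg fun b _ => by positivity) hX0
  have h5 : ∑ i ∈ A ×ˢ B, 1 / ((i.1:ℝ) * i.2) * sS i.1 i.2 ≤ Q := by
    rw [Finset.sum_product]
    refine (group_le hκ1 A B S hA hB ?_).trans hQ
    intro a ha b hb x hx
    obtain ⟨e, he, rfl⟩ := Finset.mem_image.1 hx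
    have hm := Finset.mem_product.1 ((hs a ha b hb).hE he)
    exact ⟨cof_pos ((hs a ha b hb).hV _ hm.1), cof_pos ((hs a ha b hb).hW _ hm.2)⟩
  have h6 : 1 - u = 1/2 + ε := by rw [hu]; ring
  refine h2.trans (mul_le_mul_of_nonneg_left (h3.trans ?_) hK0)
  rw [h6]
  have g1 : 0 ≤ ∑ i ∈ A ×ˢ B, 1 / ((i.1:ℝ) * i.2) := Finset.sum_nonneg fun i _ => by positivity
  have g2 : 0 ≤ ∑ i ∈ A ×ˢ B, 1 / ((i.1:ℝ) * i.2) * sS i.1 i.2 :=
    Finset.sum_nonneg fun i _ => mul_nonneg (by positivity) (hsS0 _ _)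
  exact mul_le_mul (Real.rpow_le_rpow g1 h4 (by linarith)) (Real.rpow_le_rpow g2 h5 hu0.le)
    (Real.rpow_nonneg g2 _) (Real.rpow_nonneg (mul_nonneg hX0 hX0) _)

/-- **NMS**: near misses, unstructured pairs, leaf-variable form. -/
theorem nms {ε : ℝ} (hε : 0 < ε) (hε4 : ε ≤ 1/4) : ∃ C : ℝ, 1 ≤ C ∧
    ∀ (θ θ' t tl N m m' : ℝ) (z L : ℕ) (A B : Finset ℕ) (V W : ℕ → Finset ℕ) (ψ ψ' : ℕ → ℕ → ℝ)
      (E : ℕ → ℕ → Finset (ℕ × ℕ)), 2 ≤ z → 1 ≤ N → 200 * N ≤ t → 0 < tl →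
    (∀ a ∈ A, Squarefree a ∧ ∀ p, p.Prime → p ∣ a → p ≤ z) →
    (∀ b ∈ B, Squarefree b ∧ ∀ p, p.Prime → p ∣ b → p ≤ z) →
    (∀ a ∈ A, ∀ b ∈ B, Sys (V b) (W a) (E a b) (ψ b) (ψ' a) (1/tl)) →
    0 ≤ m → 0 ≤ m' →
    (∀ b ∈ B, ∑ v ∈ V b, wt (ψ b) v ≤ m) → (∀ a ∈ A, ∑ w ∈ W a, wt (ψ' a) w ≤ m') →
    (∀ a ∈ A, ∀ b ∈ B, ∀ e ∈ E a b, NMPair θ θ' t N z L (a * cof e.1 e.2) (b * cof e.2 e.1)) →
    ∑ a ∈ A, ∑ b ∈ B, 1 / ((a:ℝ) * b) * ∑ e ∈ E a b,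
        wt (ψ b) e.1 * wt (ψ' a) e.2 * (Af (cof e.1 e.2) * Af (cof e.2 e.1)) ≤
      C * (tl^(-(1-2*ε)) * (m*m')^(1/2+ε)) * (Real.log (z+1))^C * ((L:ℝ)/N)^((1/2-ε)/2) := by
  classical
  set κ : ℝ := 16*(72/ε)^3 with hκd
  have hκ0 : 0 ≤ κ := by positivity
  have hS6 := (Sm_pos 6).le
  have hS12 := (Sm_pos 12).le
  set K2 : ℝ := (2*κ) * Sm 6 + (2*κ)^2 * Sm 12 with hK2
  set K3 : ℝ := 2 * (1 * Sm 6) + K2 with hK3
  have hK20 : 0 ≤ K2 := by positivity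
  have hK30 : 0 ≤ K3 := by positivity
  refine ⟨4 * Real.exp (6*K3), ?_, ?_⟩
  · have : 1 ≤ Real.exp (6*K3) := Real.one_le_exp (by positivity)
    linarith
  intro θ θ' t tl N m m' z L A B V W ψ ψ' E hz hN ht htl hA hB hs hm0 hm0' hm hm' hE
  have hN0 : 0 < N := by linarith
  set X1 : ℝ := Real.exp (1 * Sm 6 * (Real.log (Real.log z) + 6)) with hX1
  set X2 : ℝ := Real.exp (K2 * (Real.log (Real.log z) + 6)) with hX2
  have hQ := sum_rel (κ := 2*κ) (by positivity) (θ := θ) (θ' := θ') (t := t) (N := N) (L := L) hz hN ht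
    (Rel A B (fun a b => (E a b).image (fun e => (cof e.1 e.2, cof e.2 e.1)))) (by
      intro e he
      obtain ⟨a, ha, b, hb, x, hx, rfl⟩ := mem_Rel.1 he
      obtain ⟨e', he', rfl⟩ := Finset.mem_image.1 hx
      exact hE a ha b hb e' he')
  rw [← hK2, ← hX2] at hQ
  have key := core hε hε4 (X1 := X1) htl (fun a ha => (hA a ha).1) (fun b hb => (hB b hb).1)
    (sum_inv_le hz A hA) (sum_inv_le hz B hB) hs hm0 hm0' hm hm' hQ
  refine key.trans ?_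
  set K : ℝ := tl^(-(1-2*ε)) * (m*m')^(1/2+ε) with hK
  have hK0 : 0 ≤ K := by positivity
  have hz1 := one_le_log hz
  have hX10 : 0 < X1 := Real.exp_pos _
  have hX20 : 0 < X2 := Real.exp_pos _
  have hu : (0:ℝ) < 1/2 - ε := by linarith
  set ℓ : ℝ := Real.log (Real.log z) + 6 with hℓ
  have hℓ0 : 0 ≤ ℓ := by
    have hz2 : (2:ℝ) ≤ z := by exact_mod_cast hz
    have h3 : -1 ≤ Real.log (Real.log z) := by
      have h4 : Real.exp (-1) ≤ Real.log z := by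
        have h1 := Real.exp_neg_one_lt_d9
        have h2 := Real.log_two_gt_d9
        have h3 : Real.log 2 ≤ Real.log z := Real.log_le_log (by norm_num) hz2
        linarith
      calc (-1 : ℝ) = Real.log (Real.exp (-1)) := (Real.log_exp _).symm
        _ ≤ _ := Real.log_le_log (Real.exp_pos _) h4
    rw [hℓ]; linarith
  have hX11 : 1 ≤ X1 := Real.one_le_exp (by positivity)
  have hX21 : 1 ≤ X2 := Real.one_le_exp (by positivity)
  have hL0 : 0 ≤ (L:ℝ)/N := by positivity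
  have g1 : (X1*X1)^(1/2+ε) ≤ X1*X1 := by
    calc (X1*X1)^(1/2+ε) ≤ (X1*X1)^(1:ℝ) :=
          Real.rpow_le_rpow_of_exponent_le (by nlinarith) (by linarith)
      _ = X1*X1 := Real.rpow_one _
  have g2 : (2 * ((4 / N * L)^(1/2:ℝ) * X2))^(1/2-ε) ≤ 4 * X2 * ((L:ℝ)/N)^((1/2-ε)/2) := by
    have e1 : 4 / N * (L:ℝ) = 4 * (L/N) := by ring
    rw [e1, Real.mul_rpow (by norm_num : (0:ℝ) ≤ 4) hL0, ← mul_assoc, ← mul_assoc,
      Real.mul_rpow (by positivity) hX20.le, Real.mul_rpow (by positivity) (by positivity),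
      ← Real.rpow_mul hL0]
    have e2 : (1/2:ℝ) * (1/2 - ε) = (1/2-ε)/2 := by ring
    rw [e2]
    have h4 : (2 * (4:ℝ)^(1/2:ℝ))^(1/2-ε) ≤ 4 := by
      have h5 : (4:ℝ)^(1/2:ℝ) = 2 := by
        rw [show (4:ℝ) = 2^(2:ℝ) by norm_num, ← Real.rpow_mul (by norm_num)]; norm_num
      rw [h5]
      calc (2 * 2 : ℝ)^(1/2-ε) ≤ (2*2:ℝ)^(1:ℝ) :=
            Real.rpow_le_rpow_of_exponent_le (by norm_num) (by linarith)
        _ = 4 := by norm_num
    have h6 : X2^(1/2-ε) ≤ X2 := by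
      calc X2^(1/2-ε) ≤ X2^(1:ℝ) := Real.rpow_le_rpow_of_exponent_le hX21 (by linarith)
        _ = X2 := Real.rpow_one _
    calc (2 * (4:ℝ)^(1/2:ℝ))^(1/2-ε) * ((L:ℝ)/N)^((1/2-ε)/2) * X2^(1/2-ε)
        ≤ 4 * ((L:ℝ)/N)^((1/2-ε)/2) * X2 := by gcongr
      _ = _ := by ring
  have g3 : X1*X1*X2 ≤ Real.exp (6*K3) * (Real.log (z+1))^(4*Real.exp (6*K3)) := by
    have e1 : X1*X1*X2 = Real.exp (K3 * ℓ) := by
      rw [hX1, hX2, ← Real.exp_add, ← Real.exp_add]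
      congr 1
      rw [hK3]; ring
    rw [e1]
    refine (exp_loglog_le hK30 hz).trans ?_
    apply mul_le_mul_of_nonneg_left _ (Real.exp_pos _).le
    apply Real.rpow_le_rpow_of_exponent_le hz1
    have := Real.add_one_le_exp (6*K3)
    have : 1 ≤ Real.exp (6*K3) := Real.one_le_exp (by positivity)
    linarith
  have hLN : 0 ≤ ((L:ℝ)/N)^((1/2-ε)/2) := Real.rpow_nonneg hL0 _
  calc K * ((X1*X1)^(1/2+ε) * (2 * ((4 / N * L)^(1/2:ℝ) * X2))^(1/2-ε))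
      ≤ K * ((X1*X1) * (4 * X2 * ((L:ℝ)/N)^((1/2-ε)/2))) := by gcongr
    _ = 4 * K * ((L:ℝ)/N)^((1/2-ε)/2) * (X1*X1*X2) := by ring
    _ ≤ 4 * K * ((L:ℝ)/N)^((1/2-ε)/2) * (Real.exp (6*K3) * (Real.log (z+1))^(4*Real.exp (6*K3))) := by
        gcongr
    _ = _ := by ring

/-! ### large cofactors (Rankin) -/

/-- `∑ (j+1)^6 2^{-j/2}` -/
noncomputable def S2 : ℝ := ∑' j : ℕ, ((j:ℝ)+1)^6 * ((2:ℝ)^(-(1/2):ℝ))^j

theorem two_pow_lt2 : (2:ℝ)^(-(1/2):ℝ) < 1 := Real.rpow_lt_one_of_one_lt_of_neg (by norm_num) (by norm_num)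

theorem S2_pos : 0 < S2 := by
  unfold S2
  have h := summable_aux 6 (r := (2:ℝ)^(-(1/2):ℝ)) (by positivity) two_pow_lt2
  refine lt_of_lt_of_le ?_ (h.le_tsum 0 (fun j _ => by positivity))
  simp

/-- the Rankin exponent -/
noncomputable def dl (z : ℕ) : ℝ := 1 / (2 * Real.log ((z:ℝ)+1))

theorem dl_pos {z : ℕ} (hz : 2 ≤ z) : 0 < dl z := by
  have := one_le_log hz
  unfold dl; positivity

theorem dl_le {z : ℕ} (hz : 2 ≤ z) : dl z ≤ 1/2 := by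
  have := one_le_log hz
  unfold dl
  rw [div_le_div_iff₀ (by positivity) (by norm_num)]
  linarith

theorem rankin_local {κ : ℝ} (hκ : 0 ≤ κ) {z p : ℕ} (hz : 2 ≤ z) (hp : p.Prime) (hpz : p ≤ z) (J : ℕ) :
    ∑ j ∈ range J, ((p:ℝ)^j)^(dl z) * wt2 κ 6 p j ≤ 1 + κ * Real.exp (1/2) * S2 / p := by
  have hp0 : (0:ℝ) < p := by exact_mod_cast hp.pos
  have hp2 : (2:ℝ) ≤ p := by exact_mod_cast hp.two_le
  have hδ0 := dl_pos hz
  have hδ2 := dl_le hz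
  set δ := dl z with hδ
  have hS := S2_pos.le
  rcases Nat.eq_zero_or_pos J with rfl | hJ
  · simp; positivity
  obtain ⟨J', rfl⟩ : ∃ J', J = J' + 1 := ⟨J - 1, by omega⟩
  rw [Finset.sum_range_succ']
  have h0 : ((p:ℝ)^0)^δ * wt2 κ 6 p 0 = 1 := by simp [wt2]
  rw [h0]
  have hpδ : (p:ℝ)^δ ≤ Real.exp (1/2) := by
    rw [Real.rpow_def_of_pos hp0]
    apply Real.exp_le_exp.2
    have hz1 := one_le_log hz
    have h1 : Real.log p ≤ Real.log ((z:ℝ)+1) := by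
      apply Real.log_le_log hp0
      have : (p:ℝ) ≤ z := by exact_mod_cast hpz
      linarith
    have h2 : δ * (2 * Real.log ((z:ℝ)+1)) = 1 := by
      rw [hδ]; unfold dl; field_simp
    nlinarith [Real.log_nonneg (by linarith : (1:ℝ) ≤ p)]
  have hr : (p:ℝ)^(-(1-δ)) ≤ (2:ℝ)^(-(1/2):ℝ) := by
    calc (p:ℝ)^(-(1-δ)) ≤ (p:ℝ)^(-(1/2):ℝ) :=
          Real.rpow_le_rpow_of_exponent_le (by linarith) (by linarith)
      _ ≤ (2:ℝ)^(-(1/2):ℝ) := Real.rpow_le_rpow_of_nonpos (by norm_num) hp2 (by norm_num)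
  have hterm : ∀ j ∈ range J', ((p:ℝ)^(j+1))^δ * wt2 κ 6 p (j+1) ≤
      κ * Real.exp (1/2) / p * (((j:ℝ)+1)^6 * ((2:ℝ)^(-(1/2):ℝ))^j) := by
    intro j _
    unfold wt2
    rw [if_neg (by omega)]
    push_cast
    have e1 : ((p:ℝ)^(j+1))^δ * (κ * ((j:ℝ)+1)^6 / (p:ℝ)^(j+1)) =
        κ * ((j:ℝ)+1)^6 * ((p:ℝ)^δ * (p:ℝ)⁻¹ * ((p:ℝ)^(-(1-δ)))^j) := by
      have h1 : ((p:ℝ)^(j+1))^δ = (p:ℝ)^(δ * (j+1)) := by
        rw [← Real.rpow_natCast (p:ℝ) (j+1), ← Real.rpow_mul hp0.le]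
        congr 1; push_cast; ring
      have h2 : ((p:ℝ)^(j+1))⁻¹ = (p:ℝ)^(-((j:ℝ)+1)) := by
        rw [← Real.rpow_natCast (p:ℝ) (j+1), ← Real.rpow_neg hp0.le]
        congr 1; push_cast; ring
      have h3 : ((p:ℝ)^(-(1-δ)))^j = (p:ℝ)^(-(1-δ)*j) := by
        rw [← Real.rpow_natCast ((p:ℝ)^(-(1-δ))) j, ← Real.rpow_mul hp0.le]
      rw [div_eq_mul_inv, h1, h2, h3, ← Real.rpow_neg_one (p:ℝ)]
      have : (p:ℝ)^(δ * (j+1)) * (p:ℝ)^(-((j:ℝ)+1)) =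
          (p:ℝ)^δ * (p:ℝ)^(-1:ℝ) * (p:ℝ)^(-(1-δ)*j) := by
        rw [← Real.rpow_add hp0, ← Real.rpow_add hp0, ← Real.rpow_add hp0]
        congr 1; ring
      calc (p:ℝ)^(δ * (j+1)) * (κ * ((j:ℝ)+1)^6 * (p:ℝ)^(-((j:ℝ)+1)))
          = κ * ((j:ℝ)+1)^6 * ((p:ℝ)^(δ * (j+1)) * (p:ℝ)^(-((j:ℝ)+1))) := by ring
        _ = _ := by rw [this]
    rw [e1]
    have h4 : ((p:ℝ)^(-(1-δ)))^j ≤ ((2:ℝ)^(-(1/2):ℝ))^j :=
      pow_le_pow_left₀ (by positivity) hr j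
    calc κ * ((j:ℝ)+1)^6 * ((p:ℝ)^δ * (p:ℝ)⁻¹ * ((p:ℝ)^(-(1-δ)))^j)
        ≤ κ * ((j:ℝ)+1)^6 * (Real.exp (1/2) * (p:ℝ)⁻¹ * ((2:ℝ)^(-(1/2):ℝ))^j) := by gcongr
      _ = _ := by rw [div_eq_mul_inv]; ring
  have hsum := Finset.sum_le_sum hterm
  rw [← Finset.mul_sum] at hsum
  have htail : ∑ j ∈ range J', ((j:ℝ)+1)^6 * ((2:ℝ)^(-(1/2):ℝ))^j ≤ S2 :=
    (summable_aux 6 (r := (2:ℝ)^(-(1/2):ℝ)) (by positivity) two_pow_lt2).sum_le_tsum _
      (fun j _ => by positivity)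
  have h5 : κ * Real.exp (1/2) / p * ∑ j ∈ range J', ((j:ℝ)+1)^6 * ((2:ℝ)^(-(1/2):ℝ))^j ≤
      κ * Real.exp (1/2) / p * S2 := mul_le_mul_of_nonneg_left htail (by positivity)
  have e2 : κ * Real.exp (1/2) / p * S2 = κ * Real.exp (1/2) * S2 / p := by ring
  linarith

theorem rankin {κ : ℝ} (hκ : 0 ≤ κ) {z : ℕ} (hz : 2 ≤ z) {B : Finset ℕ} (hB : Smooth z B) {Y0 : ℝ}
    (hY : 0 < Y0) (hBY : ∀ b ∈ B, Y0 ≤ b) :
    ∑ b ∈ B, wn κ b ≤ Y0^(-dl z) * Real.exp (κ * Real.exp (1/2) * S2 * (Real.log (Real.log z) + 6)) := by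
  classical
  have hS := S2_pos.le
  have hδ0 := dl_pos hz
  set P := primesIoc 0 z with hP
  obtain ⟨J, hJ⟩ := exists_J B P
  have h1 := sum_prod_le P (fun p j => ((p:ℝ)^j)^(dl z) * wt2 κ 6 p j)
    (fun p _ j => mul_nonneg (by positivity) (wt2_nonneg hκ 6 p j)) B J
    (fun b hb => ⟨(hB b hb).1, hB.pf hb, hJ b hb⟩)
  have h2 : ∀ b ∈ B, wn κ b ≤ Y0^(-dl z) * ∏ p ∈ P, ((p:ℝ)^(b.factorization p))^(dl z) *
      wt2 κ 6 p (b.factorization p) := by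
    intro b hb
    have hb0 := (hB b hb).1
    have hbr : (0:ℝ) < b := by exact_mod_cast hb0
    rw [Finset.prod_mul_distrib, rpow_prod_fact hb0 (hB.pf hb), ← wn_eq hB hb, ← mul_assoc]
    have h3 : 1 ≤ Y0^(-dl z) * (b:ℝ)^(dl z) := by
      rw [Real.rpow_neg hY.le, ← div_eq_inv_mul, one_le_div (by positivity)]
      exact Real.rpow_le_rpow hY.le (hBY b hb) hδ0.le
    have h4 := wn_nonneg hκ b
    nlinarith
  calc ∑ b ∈ B, wn κ b ≤ ∑ b ∈ B, Y0^(-dl z) * ∏ p ∈ P, ((p:ℝ)^(b.factorization p))^(dl z) *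
      wt2 κ 6 p (b.factorization p) := Finset.sum_le_sum h2
    _ = Y0^(-dl z) * ∑ b ∈ B, ∏ p ∈ P, ((p:ℝ)^(b.factorization p))^(dl z) *
      wt2 κ 6 p (b.factorization p) := by rw [Finset.mul_sum]
    _ ≤ Y0^(-dl z) * ∏ p ∈ P, ∑ j ∈ range J, ((p:ℝ)^j)^(dl z) * wt2 κ 6 p j :=
        mul_le_mul_of_nonneg_left h1 (by positivity)
    _ ≤ Y0^(-dl z) * ∏ p ∈ P, Real.exp (κ * Real.exp (1/2) * S2 / p) := by
        apply mul_le_mul_of_nonneg_left _ (by positivity)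
        apply Finset.prod_le_prod
        · intro p _
          exact Finset.sum_nonneg fun j _ => mul_nonneg (by positivity) (wt2_nonneg hκ 6 p j)
        · intro p hp
          have hpp := mem_primesIoc.1 hp
          refine (rankin_local hκ hz hpp.2 hpp.1.2 J).trans ?_
          have := Real.add_one_le_exp (κ * Real.exp (1/2) * S2 / p)
          linarith
    _ ≤ _ := mul_le_mul_of_nonneg_left (prod_exp_inv (by positivity) hz) (by positivity)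

/-- pairs with one large cofactor -/
theorem sum_big {κ : ℝ} (hκ : 0 ≤ κ) {z : ℕ} (hz : 2 ≤ z) {Y0 : ℝ} (hY : 0 < Y0)
    (R : Finset (ℕ × ℕ)) (hR : ∀ e ∈ R, 0 < e.1 ∧ 0 < e.2 ∧ (∀ p, p.Prime → p ∣ e.1 → p ≤ z) ∧
      (∀ p, p.Prime → p ∣ e.2 → p ≤ z) ∧ Y0 ≤ ((max e.1 e.2 : ℕ) : ℝ)) :
    ∑ e ∈ R, wn κ e.1 * wn κ e.2 ≤ 2 * (Y0^(-dl z) *
      Real.exp ((κ * Real.exp (1/2) * S2 + κ * Sm 6) * (Real.log (Real.log z) + 6))) := by
  classical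
  set X := R.image Prod.fst with hX
  set Y := R.image Prod.snd with hYd
  have sX : Smooth z X := by
    intro b hb
    obtain ⟨e, he, rfl⟩ := Finset.mem_image.1 hb
    exact ⟨(hR e he).1, (hR e he).2.2.1⟩
  have sY : Smooth z Y := by
    intro b hb
    obtain ⟨e, he, rfl⟩ := Finset.mem_image.1 hb
    exact ⟨(hR e he).2.1, (hR e he).2.2.2.1⟩
  set X' : Finset ℕ := X.filter (fun b : ℕ => Y0 ≤ (b:ℝ)) with hX'
  set Y' : Finset ℕ := Y.filter (fun b : ℕ => Y0 ≤ (b:ℝ)) with hY'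
  have sX' : Smooth z X' := fun b hb => sX b (Finset.mem_filter.1 hb).1
  have sY' : Smooth z Y' := fun b hb => sY b (Finset.mem_filter.1 hb).1
  have hsub : R ⊆ (X' ×ˢ Y) ∪ (X ×ˢ Y') := by
    intro e he
    have h1 : e.1 ∈ X := Finset.mem_image_of_mem _ he
    have h2 : e.2 ∈ Y := Finset.mem_image_of_mem _ he
    have h3 := (hR e he).2.2.2.2
    rw [Finset.mem_union, Finset.mem_product, Finset.mem_product]
    rcases le_total e.1 e.2 with h | h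
    · right
      rw [max_eq_right h] at h3
      exact ⟨h1, Finset.mem_filter.2 ⟨h2, h3⟩⟩
    · left
      rw [max_eq_left h] at h3
      exact ⟨Finset.mem_filter.2 ⟨h1, h3⟩, h2⟩
  have hw : ∀ n, 0 ≤ wn κ n := wn_nonneg hκ
  have r1 := rankin hκ hz sX' hY (fun b hb => (Finset.mem_filter.1 hb).2)
  have r2 := rankin hκ hz sY' hY (fun b hb => (Finset.mem_filter.1 hb).2)
  have r3 := sum_wn_le hκ hz sX
  have r4 := sum_wn_le hκ hz sY
  set ℓ := Real.log (Real.log z) + 6 with hℓ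
  set a := Y0^(-dl z) * Real.exp (κ * Real.exp (1/2) * S2 * ℓ) with ha
  set b := Real.exp (κ * Sm 6 * ℓ) with hb
  have ha0 : 0 ≤ a := by positivity
  have hb0 : 0 ≤ b := by positivity
  calc ∑ e ∈ R, wn κ e.1 * wn κ e.2 ≤ ∑ e ∈ (X' ×ˢ Y) ∪ (X ×ˢ Y'), wn κ e.1 * wn κ e.2 :=
        Finset.sum_le_sum_of_subset_of_nonneg hsub fun e _ _ => mul_nonneg (hw _) (hw _)
    _ ≤ ∑ e ∈ X' ×ˢ Y, wn κ e.1 * wn κ e.2 + ∑ e ∈ X ×ˢ Y', wn κ e.1 * wn κ e.2 := by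
        rw [← Finset.sum_union_inter]
        have : 0 ≤ ∑ e ∈ (X' ×ˢ Y) ∩ (X ×ˢ Y'), wn κ e.1 * wn κ e.2 :=
          Finset.sum_nonneg fun e _ => mul_nonneg (hw _) (hw _)
        linarith
    _ = (∑ x ∈ X', wn κ x) * (∑ y ∈ Y, wn κ y) + (∑ x ∈ X, wn κ x) * (∑ y ∈ Y', wn κ y) := by
        rw [Finset.sum_mul_sum, Finset.sum_mul_sum, Finset.sum_product, Finset.sum_product]
    _ ≤ a * b + b * a := by
        apply add_le_add
        · exact mul_le_mul r1 r4 (Finset.sum_nonneg fun _ _ => hw _) ha0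
        · exact mul_le_mul r3 r2 (Finset.sum_nonneg fun _ _ => hw _) hb0
    _ = 2 * (Y0^(-dl z) * Real.exp ((κ * Real.exp (1/2) * S2 + κ * Sm 6) * ℓ)) := by
        rw [add_mul (κ * Real.exp (1/2) * S2), Real.exp_add, ha, hb]; ring

/-- **NMS, large cofactors**: no relation is needed, the gain is Rankin's. -/
theorem nms_big {ε : ℝ} (hε : 0 < ε) (hε4 : ε ≤ 1/4) : ∃ C : ℝ, 1 ≤ C ∧
    ∀ (tl m m' Y0 : ℝ) (z : ℕ) (A B : Finset ℕ) (V W : ℕ → Finset ℕ) (ψ ψ' : ℕ → ℕ → ℝ)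
      (E : ℕ → ℕ → Finset (ℕ × ℕ)), 2 ≤ z → 0 < tl → 0 < Y0 →
    (∀ a ∈ A, Squarefree a ∧ ∀ p, p.Prime → p ∣ a → p ≤ z) →
    (∀ b ∈ B, Squarefree b ∧ ∀ p, p.Prime → p ∣ b → p ≤ z) →
    (∀ a ∈ A, ∀ b ∈ B, Sys (V b) (W a) (E a b) (ψ b) (ψ' a) (1/tl)) →
    0 ≤ m → 0 ≤ m' →
    (∀ b ∈ B, ∑ v ∈ V b, wt (ψ b) v ≤ m) → (∀ a ∈ A, ∑ w ∈ W a, wt (ψ' a) w ≤ m') →
    (∀ a ∈ A, ∀ b ∈ B, ∀ e ∈ E a b, (∀ p, p.Prime → p ∣ a * cof e.1 e.2 → p ≤ z) ∧
      (∀ p, p.Prime → p ∣ b * cof e.2 e.1 → p ≤ z) ∧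
      Y0 ≤ ((max (a * cof e.1 e.2) (b * cof e.2 e.1) : ℕ) : ℝ)) →
    ∑ a ∈ A, ∑ b ∈ B, 1 / ((a:ℝ) * b) * ∑ e ∈ E a b,
        wt (ψ b) e.1 * wt (ψ' a) e.2 * (Af (cof e.1 e.2) * Af (cof e.2 e.1)) ≤
      C * (tl^(-(1-2*ε)) * (m*m')^(1/2+ε)) * (Real.log (z+1))^C * (Y0^(-dl z))^(1/2-ε) := by
  classical
  set κ : ℝ := 16*(72/ε)^3 with hκd
  have hκ0 : 0 ≤ κ := by positivity
  have hS6 := (Sm_pos 6).le
  have hS2 := S2_pos.le
  set K2 : ℝ := (2*κ) * Real.exp (1/2) * S2 + (2*κ) * Sm 6 with hK2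
  set K3 : ℝ := 2 * (1 * Sm 6) + K2 with hK3
  have hK20 : 0 ≤ K2 := by positivity
  have hK30 : 0 ≤ K3 := by positivity
  refine ⟨4 * Real.exp (6*K3), ?_, ?_⟩
  · have : 1 ≤ Real.exp (6*K3) := Real.one_le_exp (by positivity)
    linarith
  intro tl m m' Y0 z A B V W ψ ψ' E hz htl hY0 hA hB hs hm0 hm0' hm hm' hE
  set X1 : ℝ := Real.exp (1 * Sm 6 * (Real.log (Real.log z) + 6)) with hX1
  set X2 : ℝ := Real.exp (K2 * (Real.log (Real.log z) + 6)) with hX2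
  have hQ := sum_big (κ := 2*κ) (by positivity) hz hY0
    (Rel A B (fun a b => (E a b).image (fun e => (cof e.1 e.2, cof e.2 e.1)))) (by
      intro e he
      obtain ⟨a, ha, b, hb, x, hx, rfl⟩ := mem_Rel.1 he
      obtain ⟨e', he', rfl⟩ := Finset.mem_image.1 hx
      have h := hE a ha b hb e' he'
      have hmm := Finset.mem_product.1 ((hs a ha b hb).hE he')
      have ha0 : 0 < a := Nat.pos_of_ne_zero (hA a ha).1.ne_zero
      have hb0 : 0 < b := Nat.pos_of_ne_zero (hB b hb).1.ne_zero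
      exact ⟨Nat.mul_pos ha0 (cof_pos ((hs a ha b hb).hV _ hmm.1)),
        Nat.mul_pos hb0 (cof_pos ((hs a ha b hb).hW _ hmm.2)), h.1, h.2.1, h.2.2⟩)
  rw [← hK2, ← hX2] at hQ
  have key := core hε hε4 (X1 := X1) htl (fun a ha => (hA a ha).1) (fun b hb => (hB b hb).1)
    (sum_inv_le hz A hA) (sum_inv_le hz B hB) hs hm0 hm0' hm hm' hQ
  refine key.trans ?_
  set K : ℝ := tl^(-(1-2*ε)) * (m*m')^(1/2+ε) with hK
  have hK0 : 0 ≤ K := by positivity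
  have hz1 := one_le_log hz
  have hX10 : 0 < X1 := Real.exp_pos _
  have hX20 : 0 < X2 := Real.exp_pos _
  set ℓ : ℝ := Real.log (Real.log z) + 6 with hℓ
  have hℓ0 : 0 ≤ ℓ := by
    have hz2 : (2:ℝ) ≤ z := by exact_mod_cast hz
    have h3 : -1 ≤ Real.log (Real.log z) := by
      have h4 : Real.exp (-1) ≤ Real.log z := by
        have h1 := Real.exp_neg_one_lt_d9
        have h2 := Real.log_two_gt_d9
        have h3 : Real.log 2 ≤ Real.log z := Real.log_le_log (by norm_num) hz2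
        linarith
      calc (-1 : ℝ) = Real.log (Real.exp (-1)) := (Real.log_exp _).symm
        _ ≤ _ := Real.log_le_log (Real.exp_pos _) h4
    rw [hℓ]; linarith
  have hX11 : 1 ≤ X1 := Real.one_le_exp (by positivity)
  have hX21 : 1 ≤ X2 := Real.one_le_exp (by positivity)
  set yy : ℝ := Y0^(-dl z) with hyy
  have hyy0 : 0 ≤ yy := by positivity
  have g1 : (X1*X1)^(1/2+ε) ≤ X1*X1 := by
    calc (X1*X1)^(1/2+ε) ≤ (X1*X1)^(1:ℝ) :=
          Real.rpow_le_rpow_of_exponent_le (by nlinarith) (by linarith)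
      _ = X1*X1 := Real.rpow_one _
  have g2 : (2 * (yy * X2))^(1/2-ε) ≤ 4 * X2 * yy^(1/2-ε) := by
    rw [Real.mul_rpow (by norm_num) (by positivity), Real.mul_rpow hyy0 hX20.le]
    have h4 : (2:ℝ)^(1/2-ε) ≤ 4 := by
      calc (2 : ℝ)^(1/2-ε) ≤ (2:ℝ)^(1:ℝ) :=
            Real.rpow_le_rpow_of_exponent_le (by norm_num) (by linarith)
        _ ≤ 4 := by norm_num
    have h6 : X2^(1/2-ε) ≤ X2 := by
      calc X2^(1/2-ε) ≤ X2^(1:ℝ) := Real.rpow_le_rpow_of_exponent_le hX21 (by linarith)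
        _ = X2 := Real.rpow_one _
    calc (2:ℝ)^(1/2-ε) * (yy^(1/2-ε) * X2^(1/2-ε)) ≤ 4 * (yy^(1/2-ε) * X2) := by gcongr
      _ = _ := by ring
  have g3 : X1*X1*X2 ≤ Real.exp (6*K3) * (Real.log (z+1))^(4*Real.exp (6*K3)) := by
    have e1 : X1*X1*X2 = Real.exp (K3 * ℓ) := by
      rw [hX1, hX2, ← Real.exp_add, ← Real.exp_add]
      congr 1
      rw [hK3]; ring
    rw [e1]
    refine (exp_loglog_le hK30 hz).trans ?_
    apply mul_le_mul_of_nonneg_left _ (Real.exp_pos _).le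
    apply Real.rpow_le_rpow_of_exponent_le hz1
    have := Real.add_one_le_exp (6*K3)
    have : 1 ≤ Real.exp (6*K3) := Real.one_le_exp (by positivity)
    linarith
  have hyy2 : 0 ≤ yy^(1/2-ε) := Real.rpow_nonneg hyy0 _
  calc K * ((X1*X1)^(1/2+ε) * (2 * (yy * X2))^(1/2-ε))
      ≤ K * ((X1*X1) * (4 * X2 * yy^(1/2-ε))) := by gcongr
    _ = 4 * K * yy^(1/2-ε) * (X1*X1*X2) := by ring
    _ ≤ 4 * K * yy^(1/2-ε) * (Real.exp (6*K3) * (Real.log (z+1))^(4*Real.exp (6*K3))) := by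
        gcongr
    _ = _ := by ring

end Crest.Agent.R4.NMS
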