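import Mathlib
import Crest.Agent.R4.ColE710
import Crest.Agent.R4.OF927
import Crest.Agent.R4.GFinK927

/-!
R4 (S0004), helper710: **the one-sided columns are paid**: `eOS` in the form of 245's `WS_eOS`.

* `OB` : node facts; `GOS` : constants; `FSL` : no related `[F]` pairs of large scale (758).
* `os_local` : the cost of a column; `eOS_final` : `WS stp (eOS stp) s ≤ (3 κ₀ + 2) (∑ m + ∑ m')`.
-/

set_option autoImplicit false
set_option linter.unusedSectionVars false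
set_option linter.unusedVariables false
open Finset

namespace Crest.Agent.R4.OSFin710

open Crest.Agent.R4.HVW560 Crest.Agent.R4.Schur709 Crest.Agent.R4.StopHvw709
open Crest.Agent.R4.StopAsm709 Crest.Agent.R4.AvgItem710 Crest.Agent.R4.DeepSt579
open Crest.Agent.R4.Item758 Crest.Agent.R4.NMW710
open Crest.Agent.R4.OSCore709 (om om_nonneg om_le_one mm)
open Crest.Agent.R4.Tour104 Crest.Agent.R4.Tour758 Crest.Agent.R4.Avg758 Crest.Agent.R4.Clos758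
open Crest.Agent.R4.ClosL758 Crest.Agent.R4.ClosG758 Crest.Agent.R4.ClosR758
open Crest.Agent.R4.Fam464 Crest.Agent.R4.Cnt588 Crest.Agent.R4.Walk560 Crest.Agent.R4.Piece464
open Crest.Agent.R4.GInst194 Crest.Agent.R4.WalkIT579 Crest.Agent.R4.GSt927
open Crest.Agent.R4.OSCol710 Crest.Agent.R4.ColW710 Crest.Agent.R4.ColE710
open Crest.Agent.R4.Res927 Crest.Agent.R4.Flag532 Crest.Agent.R4.OSPot864 Crest.Agent.R4.OSWS245
open Crest.Agent.R4.GStJ927 Crest.Agent.R4.OF927 Crest.Agent.R4.OSWI245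
open Crest.Agent.R4.GFinC927 (nn)
open Crest.Agent.R4.Bld532 (NS All NodeOk Bk)

/-! ### numbers -/

/-- numbers of the one-sided columns -/
structure NumO (CL C1 c₀ : ℝ) (p0 : ℕ) : Prop where
  ck : CK CL C1 (1 / (2 * c₀)) p0
  ce : CEn CL c₀ p0
  num : ∀ p : ℕ, p0 ≤ p → (p:ℝ)^(-(1/6000):ℝ) + 3 * (p:ℝ)^(-(1/3):ℝ) ≤ (p:ℝ)^(-(1/7000):ℝ)
  half : ∀ l : ℕ, p0 ≤ l → (l:ℝ)^(-(1/30):ℝ) ≤ 1/2

theorem exists_NumO {CL c₀ : ℝ} (hCL : 1 ≤ CL) (C1 : ℝ) (hc₀ : 0 < c₀) :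
    ∃ p₁ : ℕ, ∀ p0 ≥ p₁, NumO CL C1 c₀ p0 := by
  obtain ⟨a1, h1⟩ := exists_CK hCL C1 (1 / (2 * c₀)) (by positivity)
  have tend : ∀ c : ℝ, 0 < c → Filter.Tendsto (fun x : ℝ => x ^ (-c)) Filter.atTop (nhds 0) :=
    fun c hc => tendsto_rpow_neg_atTop hc
  have e1 := (isLittleO_log_rpow_atTop (show (0:ℝ) < 1/12 by norm_num)).bound
    (c := 1 / (4 * (CL * (1 / (2 * c₀))))) (by positivity)
  have e2 := (tend (1/42000) (by norm_num)).eventually_lt_const (show (0:ℝ) < 1/4 by norm_num)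
  have e3 := (tend (1/30) (by norm_num)).eventually_lt_const (show (0:ℝ) < 1/2 by norm_num)
  have e4 := (tend (1/12) (by norm_num)).eventually_lt_const (show (0:ℝ) < 1/4 by norm_num)
  obtain ⟨x0, hx0⟩ := Filter.eventually_atTop.1
    ((e1.and e2).and ((e3.and e4).and (Filter.eventually_ge_atTop (1:ℝ))))
  refine ⟨max a1 (max (2^40) ⌈x0⌉₊), fun p0 hp0 => ?_⟩
  have q1 : a1 ≤ p0 := (le_max_left _ _).trans hp0
  have q2 : 2^40 ≤ p0 := (le_max_left _ _).trans ((le_max_right _ _).trans hp0)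
  have q3 : ∀ p : ℕ, p0 ≤ p → x0 ≤ (p : ℝ) := fun p hp => (Nat.le_ceil x0).trans (by
    exact_mod_cast ((le_max_right _ _).trans ((le_max_right _ _).trans hp0)).trans hp)
  refine ⟨h1.mono q1, ⟨q2, fun p hp => ?_⟩, fun p hp => ?_, fun l hl => ?_⟩
  · obtain ⟨⟨g1, -⟩, -, g5⟩ := hx0 p (q3 p hp)
    have hp0' : (0:ℝ) < p := by linarith
    have hl : 0 ≤ Real.log p := Real.log_nonneg g5
    rw [Real.norm_of_nonneg hl, Real.norm_of_nonneg (by positivity)] at g1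
    have hs : Real.sqrt ((p:ℝ)/2) = (p:ℝ)^(1/2:ℝ) / Real.sqrt 2 := by
      rw [Real.sqrt_div' _ (by norm_num), Real.sqrt_eq_rpow]
    have h2 : Real.sqrt 2 ≤ 2 := by
      rw [Real.sqrt_le_left (by norm_num)]; norm_num
    have hB : 0 < CL * (1 / (2 * c₀)) := by positivity
    have h3 : CL * Real.log p * (1/(2*c₀)) ≤ 1/4 * (p:ℝ)^(1/12:ℝ) := by
      calc CL * Real.log p * (1/(2*c₀)) = (CL * (1 / (2 * c₀))) * Real.log p := by ring
        _ ≤ (CL * (1 / (2 * c₀))) * (1 / (4 * (CL * (1 / (2 * c₀)))) * (p:ℝ)^(1/12:ℝ)) :=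
            mul_le_mul_of_nonneg_left g1 hB.le
        _ = _ := by field_simp
    rw [hs]
    have hh : 0 < (p:ℝ)^(1/2:ℝ) := Real.rpow_pos_of_pos hp0' _
    have h4 : 2 / ((p:ℝ)^(1/2:ℝ) / Real.sqrt 2) ≤ 4 * (p:ℝ)^(-(1/2):ℝ) := by
      rw [Real.rpow_neg hp0'.le, div_div_eq_mul_div, ← one_div, mul_one_div]
      exact div_le_div_of_nonneg_right (by linarith) hh.le
    calc 2 / ((p:ℝ)^(1/2:ℝ) / Real.sqrt 2) * (CL * Real.log p * (1/(2*c₀)))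
        ≤ 4 * (p:ℝ)^(-(1/2):ℝ) * (1/4 * (p:ℝ)^(1/12:ℝ)) := by
          refine mul_le_mul h4 h3 ?_ (by positivity)
          have : 0 ≤ CL * Real.log p := mul_nonneg (by linarith) hl
          positivity
      _ = (p:ℝ)^(-(5/12):ℝ) := by
          rw [show (-(5/12):ℝ) = -(1/2) + 1/12 by norm_num, Real.rpow_add hp0']
          ring
      _ ≤ (p:ℝ)^(-(1/3):ℝ) := Real.rpow_le_rpow_of_exponent_le g5 (by norm_num)
  · obtain ⟨⟨-, g2⟩, ⟨-, g4⟩, g5⟩ := hx0 p (q3 p hp)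
    have hp0' : (0:ℝ) < p := by linarith
    have e5 : (p:ℝ)^(-(1/6000):ℝ) = (p:ℝ)^(-(1/7000):ℝ) * (p:ℝ)^(-(1/42000):ℝ) := by
      rw [← Real.rpow_add hp0']; norm_num
    have e6 : (p:ℝ)^(-(1/3):ℝ) ≤ (p:ℝ)^(-(1/7000):ℝ) * (p:ℝ)^(-(1/12):ℝ) := by
      rw [← Real.rpow_add hp0']
      exact Real.rpow_le_rpow_of_exponent_le g5 (by norm_num)
    have h7 : 0 < (p:ℝ)^(-(1/7000):ℝ) := Real.rpow_pos_of_pos hp0' _
    rw [e5]
    nlinarith
  · obtain ⟨-, ⟨g3, -⟩, -⟩ := hx0 l (q3 l hl)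
    exact g3.le

/-! ### bookkeeping of the two sides -/

section book
variable {Λ : Type*}

lemma sum_tie {A B : Finset Λ} {m a : Λ → ℝ} {δ : ℝ} (hm : ∀ j, 0 ≤ m j)
    (ha : ∀ j, 0 ≤ a j) (hB : B ⊆ A) (h : ∀ j ∈ B, δ ≤ a j) :
    δ * ∑ j ∈ B, m j ≤ ∑ j ∈ A, m j * a j := by
  rw [Finset.mul_sum]
  refine (Finset.sum_le_sum (g := fun j => m j * a j) fun j hj => ?_).trans
    (Finset.sum_le_sum_of_subset_of_nonneg hB fun j _ _ => mul_nonneg (hm j) (ha j))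
  rw [mul_comm]
  exact mul_le_mul_of_nonneg_left (h j hj) (hm j)

lemma sum_oth {A B BQ BR : Finset Λ} {m a o : Λ → ℝ} {β δ ε C : ℝ}
    (hm : ∀ j, 0 ≤ m j) (ha : ∀ j, 0 ≤ a j) (hB : B ⊆ A) (hQ : BQ ⊆ B) (hR : BR ⊆ B)
    (hd : ∀ j ∈ BQ, j ∉ BR) (h0 : ∀ j ∈ B, β + δ * o j ≤ a j)
    (h1 : ∀ j ∈ BQ, β + δ * o j + ε ≤ a j) (h2 : ∀ j ∈ BR, β + δ * o j + C ≤ a j) :
    β * (∑ j ∈ B, m j) + δ * (∑ j ∈ B, o j * m j) + ε * (∑ j ∈ BQ, m j) +
      C * (∑ j ∈ BR, m j) ≤ ∑ j ∈ A, m j * a j := by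
  classical
  have e1 : ∀ T ⊆ B, ∑ j ∈ T, m j = ∑ j ∈ B, if j ∈ T then m j else 0 := fun T hT => by
    rw [← Finset.sum_filter, Finset.filter_mem_eq_inter, Finset.inter_eq_right.2 hT]
  rw [e1 BQ hQ, e1 BR hR]
  refine le_trans (b := ∑ j ∈ B, m j * a j) ?_
    (Finset.sum_le_sum_of_subset_of_nonneg hB fun j _ _ => mul_nonneg (hm j) (ha j))
  rw [Finset.mul_sum, Finset.mul_sum, Finset.mul_sum, Finset.mul_sum, ← Finset.sum_add_distrib,
    ← Finset.sum_add_distrib, ← Finset.sum_add_distrib]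
  refine Finset.sum_le_sum fun j hj => ?_
  by_cases k1 : j ∈ BQ
  · have k2 := hd j k1
    have h3 := mul_le_mul_of_nonneg_left (h1 j k1) (hm j)
    rw [if_pos k1, if_neg k2]
    linarith
  · by_cases k2 : j ∈ BR
    · have h3 := mul_le_mul_of_nonneg_left (h2 j k2) (hm j)
      rw [if_neg k1, if_pos k2]
      linarith
    · have h3 := mul_le_mul_of_nonneg_left (h0 j hj) (hm j)
      rw [if_neg k1, if_neg k2]
      linarith

end book

/-! ### the local cost -/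

section loc
variable {Λ κ : Type*} [Fintype Λ] [DecidableEq Λ] [Fintype κ] [DecidableEq κ] [WRel κ]
  {D : Par Λ κ} {sp : ℕ → Finset Λ} {ρ : ℕ → ℝ} {Al : Finset ℕ} {P : Bld532.Par}
  {W : ℕ → ℝ} {U : ℕ → Finset ℕ} {CL C1 c₀ : ℝ} {p0 : ℕ} {stp : St Λ κ → Prop}
  {Qp : NS → IT → Prop}

/-- node facts of the one-sided columns -/
structure OB (D : Par Λ κ) (sp : ℕ → Finset Λ) (Al : Finset ℕ) (P : Bld532.Par) (W : ℕ → ℝ)
    (U : ℕ → Finset ℕ) (CL c₀ : ℝ) (u : NS) (τ : IT) : Prop where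
  nq : NQ P W U u τ
  lgB : ∀ (p : ℕ) (t₁ t₀ : IT), τ = .br p t₁ t₀ → ∀ q ∈ Al, q ∈ τ.items →
    1 ≤ CL * Real.log p * tq (q / u.A)
  lgU : ∀ (p : ℕ) (S : Finset ℕ) (σ : IT), τ = .up p S σ → ∀ q ∈ Al, q ∈ τ.items →
    1 ≤ CL * Real.log p * tq (q / u.A)
  mean : ∀ j, D.it j ∈ Al → D.it j ∈ τ.items →
    c₀ * tq (D.it j / (u.A * pp τ (D.it j))) ≤ mnw (D.it j / (u.A * pp τ (D.it j))) (D.om j)
  up : ∀ (p : ℕ) (S : Finset ℕ) (σ : IT), τ = .up p S σ → ∀ j, D.it j ∈ τ.items →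
    p ∣ D.it j → j ∈ sp p

/-- constants of the one-sided columns -/
structure GOS (D : Par Λ κ) (ρ : ℕ → ℝ) (Al : Finset ℕ) (P : Bld532.Par) (W : ℕ → ℝ)
    (U : ℕ → Finset ℕ) (CL C1 c₀ : ℝ) (p0 : ℕ) (stp : St Λ κ → Prop) : Prop where
  num : NumO CL C1 c₀ p0
  CL0 : 0 ≤ CL
  ni : ∀ p, p0 ≤ p → NI D ρ Al P W U CL C1 c₀ p
  hi : ∀ p, p0 ≤ p → P.hi p ≤ (Real.log p)^C1
  pp0 : p0 ≤ P.p0
  st : ∀ s : St Λ κ, ¬ stp s → ¬ stpM s

/-- **no related `[F]` pairs of small raising factors** at the one-sided columns (758) -/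
def FSL (D : Par Λ κ) (sp : ℕ → Finset Λ) (ρ : ℕ → ℝ) (U : ℕ → Finset ℕ) (Qp : NS → IT → Prop)
    (B₀ B₀' : ℕ) (x : XSt Λ κ) : Prop :=
  (∀ (u u' : NS) (p : ℕ) (t₁ t₀ : IT) (S : Finset ℕ) (σ' : IT),
    HI D sp Qp B₀ B₀' x u u' (.br p t₁ t₀) (.up p S σ') →
    JS D U x.s u u' (.br p t₁ t₀) (.up p S σ') →
    FSOk D ρ (nn p) p x.s.M (u.B * p) u.A p t₀ x.s.A x.s.M' u'.B u'.A 1 (.up p S σ') x.s.A'
      (fun _ => False)) ∧
  (∀ (u u' : NS) (p : ℕ) (t₁' t₀' : IT) (S : Finset ℕ) (σ : IT),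
    HI D sp Qp B₀ B₀' x u u' (.up p S σ) (.br p t₁' t₀') →
    JS D U x.s u u' (.up p S σ) (.br p t₁' t₀') →
    FSOk D ρ (nn p) p x.s.M' (u'.B * p) u'.A p t₀' x.s.A' x.s.M u.B u.A 1 (.up p S σ) x.s.A
      (fun _ => False))

/-- the budgets -/
noncomputable def βo (p : ℕ) : ℝ := (p:ℝ)^(-(11/12):ℝ)
noncomputable def εo (j : Λ) (p : ℕ) : ℝ := (p:ℝ)^(-(1/7000):ℝ)
noncomputable def ωo (l : ℕ) : ℝ := (l:ℝ)^(-(1/30):ℝ)

lemma aG_nn (j : Λ) (x : XSt Λ κ) : 0 ≤ aG stp βo j x := by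
  unfold aG βo; split_ifs <;> positivity
lemma aTR_nn (j : Λ) (x : XSt Λ κ) : 0 ≤ aTR (dvI D) εo j x := by
  unfold aTR εo; split_ifs <;> positivity
lemma aTL_nn (j : Λ) (x : XSt Λ κ) : 0 ≤ aTL (dvI D) εo j x := by
  unfold aTL εo; split_ifs <;> positivity
lemma aUR_nn (j : Λ) (x : XSt Λ κ) : 0 ≤ aUR (Λ := Λ) (κ := κ) εo j x := by
  unfold aUR εo; split_ifs <;> positivity
lemma aUL_nn (j : Λ) (x : XSt Λ κ) : 0 ≤ aUL (Λ := Λ) (κ := κ) εo j x := by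
  unfold aUL εo; split_ifs <;> positivity
lemma ωo_nn (l : ℕ) : 0 ≤ ωo l := by unfold ωo; positivity
lemma aCR_nn (j : Λ) (x : XSt Λ κ) : 0 ≤ aCR stp (dvI D) (εo j p0) ωo j x := by
  unfold aCR
  split_ifs
  · exact mul_nonneg (by unfold εo; positivity) (gO_nonneg ωo_nn _ _)
  · exact le_rfl
lemma aCL_nn (j : Λ) (x : XSt Λ κ) : 0 ≤ aCL stp (dvI D) (εo j p0) ωo j x := by
  unfold aCL
  split_ifs
  · exact mul_nonneg (by unfold εo; positivity) (gO_nonneg ωo_nn _ _)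
  · exact le_rfl
lemma aDR_nn (j : Λ) (x : XSt Λ κ) : 0 ≤ aDR stp (dvI D) 2 j x :=
  mul_nonneg (by norm_num) (ind_nonneg _)
lemma aDL_nn (j : Λ) (x : XSt Λ κ) : 0 ≤ aDL stp (dvI D) 2 j x :=
  mul_nonneg (by norm_num) (ind_nonneg _)

/-- the cost of a right item -/
noncomputable def cR (D : Par Λ κ) (stp : St Λ κ → Prop) (p0 : ℕ) (j : Λ) (x : XSt Λ κ) : ℝ :=
  costR stp (dvI D) βo εo εo ((p0:ℝ)^(-(1/7000):ℝ)) 2 ωo j x

/-- the cost of a left item -/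
noncomputable def cL (D : Par Λ κ) (stp : St Λ κ → Prop) (p0 : ℕ) (j : Λ) (x : XSt Λ κ) : ℝ :=
  costL stp (dvI D) βo εo εo ((p0:ℝ)^(-(1/7000):ℝ)) 2 ωo j x

lemma cR_nn (j : Λ) (x : XSt Λ κ) : 0 ≤ cR D stp p0 j x := by
  unfold cR costR
  have := aG_nn (stp := stp) j x
  have := aTR_nn (D := D) j x
  have := aUR_nn j x
  have := aCR_nn (D := D) (stp := stp) (p0 := p0) j x
  have := aDR_nn (D := D) (stp := stp) j x
  unfold εo at *
  linarith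

lemma cL_nn (j : Λ) (x : XSt Λ κ) : 0 ≤ cL D stp p0 j x := by
  unfold cL costL
  have := aG_nn (stp := stp) j x
  have := aTL_nn (D := D) j x
  have := aUL_nn j x
  have := aCL_nn (D := D) (stp := stp) (p0 := p0) j x
  have := aDL_nn (D := D) (stp := stp) j x
  unfold εo at *
  linarith

/-- `om` is `gO` -/
lemma om_gO (D : Par Λ κ) (O : Finset ℕ) (j : Λ) : om O (D.it j) = gO (dvI D) ωo O j := by
  classical
  unfold om gO ωo dvI
  refine Finset.prod_congr ?_ fun _ _ => rfl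
  ext l
  simp only [Finset.mem_filter]

/-- cost of a right item at a tie of the left side -/
lemma cR_ge (hN : NumO CL C1 c₀ p0) {x : XSt Λ κ} (hl : ¬ (x.s.t.isLeaf ∨ x.s.t'.isLeaf))
    (hs : ¬ stp x.s) (hO : OSL x) (hp : p0 ≤ x.s.p) {j : Λ} (hO1 : ∀ l ∈ x.s.O, 0 < l)
    (hup : dvI D x.s.p j → j ∈ vSp x.s.p x.s.t') :
    (x.s.p:ℝ)^(-(11/12):ℝ) + (x.s.p:ℝ)^(-(1/6000):ℝ) * om x.s.O (D.it j) +
      (@ite _ (x.s.p ∣ D.it j) (Classical.dec _) (2 * (x.s.p:ℝ)^(-(1/3):ℝ)) 0) +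
      (@ite _ (¬ x.s.p ∣ D.it j ∧ ∀ l ∈ x.s.O, l ∣ D.it j) (Classical.dec _) 2 0) ≤
      cR D stp p0 j x := by
  classical
  have h40 : (2:ℝ)^40 ≤ x.s.p := by exact_mod_cast hN.ce.big.trans hp
  have hx1 : (1:ℝ) ≤ x.s.p := le_trans (by norm_num) h40
  have hx0 : (0:ℝ) < x.s.p := by linarith
  have hnum := hN.num _ hp
  have i1 : 0 ≤ (x.s.p:ℝ)^(-(1/3):ℝ) := by positivity
  have i2 : 0 ≤ (x.s.p:ℝ)^(-(1/6000):ℝ) := by positivity
  have hG : aG stp βo j x = (x.s.p:ℝ)^(-(11/12):ℝ) := by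
    unfold aG βo
    exact if_pos ⟨⟨hl, hs⟩, Or.inl hO⟩
  have n1 := aTR_nn (D := D) j x
  have n2 := aUR_nn j x
  have n3 := aCR_nn (D := D) (stp := stp) (p0 := p0) j x
  have n4 := aDR_nn (D := D) (stp := stp) j x
  have om1 : om x.s.O (D.it j) ≤ 1 := om_le_one hO1 _
  have om0 : 0 ≤ om x.s.O (D.it j) := om_nonneg _ _
  unfold cR costR
  rw [hG]
  by_cases hd : x.s.p ∣ D.it j
  · have hU : aUR (Λ := Λ) (κ := κ) εo j x = (x.s.p:ℝ)^(-(1/7000):ℝ) := by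
      unfold aUR εo
      exact if_pos (hup hd)
    rw [if_pos hd, if_neg (fun h => h.1 hd), hU]
    have h1 : (x.s.p:ℝ)^(-(1/6000):ℝ) * om x.s.O (D.it j) ≤ (x.s.p:ℝ)^(-(1/6000):ℝ) :=
      mul_le_of_le_one_right i2 om1
    unfold εo at n3
    linarith
  · have hC : aCR stp (dvI D) ((p0:ℝ)^(-(1/7000):ℝ)) ωo j x =
        (p0:ℝ)^(-(1/7000):ℝ) * om x.s.O (D.it j) := by
      unfold aCR
      rw [om_gO]
      exact if_pos ⟨⟨hl, hs⟩, hO, hd⟩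
    have h1 : (x.s.p:ℝ)^(-(1/6000):ℝ) * om x.s.O (D.it j) ≤
        (p0:ℝ)^(-(1/7000):ℝ) * om x.s.O (D.it j) := by
      refine mul_le_mul_of_nonneg_right ?_ om0
      have hp00 : (0:ℝ) < p0 := by
        have : 0 < p0 := lt_of_lt_of_le (by norm_num) hN.ce.big
        exact_mod_cast this
      calc (x.s.p:ℝ)^(-(1/6000):ℝ) ≤ (x.s.p:ℝ)^(-(1/7000):ℝ) :=
            Real.rpow_le_rpow_of_exponent_le hx1 (by norm_num)
        _ ≤ _ := Real.rpow_le_rpow_of_nonpos hp00 (by exact_mod_cast hp) (by norm_num)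
    rw [if_neg hd, hC]
    have h2 : (@ite _ (¬ x.s.p ∣ D.it j ∧ ∀ l ∈ x.s.O, l ∣ D.it j) (Classical.dec _) (2:ℝ) 0) ≤
        aDR stp (dvI D) 2 j x := by
      split_ifs with h
      · unfold aDR ind
        rw [if_pos ⟨⟨hl, hs⟩, hO, h.2, hd⟩]
        norm_num
      · exact n4
    linarith

/-- cost of a left item at a tie of the right side -/
lemma cL_ge (hN : NumO CL C1 c₀ p0) {x : XSt Λ κ} (hl : ¬ (x.s.t.isLeaf ∨ x.s.t'.isLeaf))
    (hs : ¬ stp x.s) (hO : OSR x) (hp : p0 ≤ x.s.p) {j : Λ} (hO1 : ∀ l ∈ x.s.O', 0 < l)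
    (hup : dvI D x.s.p j → j ∈ vSp x.s.p x.s.t) :
    (x.s.p:ℝ)^(-(11/12):ℝ) + (x.s.p:ℝ)^(-(1/6000):ℝ) * om x.s.O' (D.it j) +
      (@ite _ (x.s.p ∣ D.it j) (Classical.dec _) (2 * (x.s.p:ℝ)^(-(1/3):ℝ)) 0) +
      (@ite _ (¬ x.s.p ∣ D.it j ∧ ∀ l ∈ x.s.O', l ∣ D.it j) (Classical.dec _) 2 0) ≤
      cL D stp p0 j x := by
  classical
  have h40 : (2:ℝ)^40 ≤ x.s.p := by exact_mod_cast hN.ce.big.trans hp
  have hx1 : (1:ℝ) ≤ x.s.p := le_trans (by norm_num) h40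
  have hx0 : (0:ℝ) < x.s.p := by linarith
  have hnum := hN.num _ hp
  have i1 : 0 ≤ (x.s.p:ℝ)^(-(1/3):ℝ) := by positivity
  have i2 : 0 ≤ (x.s.p:ℝ)^(-(1/6000):ℝ) := by positivity
  have hG : aG stp βo j x = (x.s.p:ℝ)^(-(11/12):ℝ) := by
    unfold aG βo
    exact if_pos ⟨⟨hl, hs⟩, Or.inr hO⟩
  have n1 := aTL_nn (D := D) j x
  have n2 := aUL_nn j x
  have n3 := aCL_nn (D := D) (stp := stp) (p0 := p0) j x
  have n4 := aDL_nn (D := D) (stp := stp) j x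
  have om1 : om x.s.O' (D.it j) ≤ 1 := om_le_one hO1 _
  have om0 : 0 ≤ om x.s.O' (D.it j) := om_nonneg _ _
  unfold cL costL
  rw [hG]
  by_cases hd : x.s.p ∣ D.it j
  · have hU : aUL (Λ := Λ) (κ := κ) εo j x = (x.s.p:ℝ)^(-(1/7000):ℝ) := by
      unfold aUL εo
      exact if_pos (hup hd)
    rw [if_pos hd, if_neg (fun h => h.1 hd), hU]
    have h1 : (x.s.p:ℝ)^(-(1/6000):ℝ) * om x.s.O' (D.it j) ≤ (x.s.p:ℝ)^(-(1/6000):ℝ) :=
      mul_le_of_le_one_right i2 om1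
    unfold εo at n3
    linarith
  · have hC : aCL stp (dvI D) ((p0:ℝ)^(-(1/7000):ℝ)) ωo j x =
        (p0:ℝ)^(-(1/7000):ℝ) * om x.s.O' (D.it j) := by
      unfold aCL
      rw [om_gO]
      exact if_pos ⟨⟨hl, hs⟩, hO, hd⟩
    have h1 : (x.s.p:ℝ)^(-(1/6000):ℝ) * om x.s.O' (D.it j) ≤
        (p0:ℝ)^(-(1/7000):ℝ) * om x.s.O' (D.it j) := by
      refine mul_le_mul_of_nonneg_right ?_ om0
      have hp00 : (0:ℝ) < p0 := by
        have : 0 < p0 := lt_of_lt_of_le (by norm_num) hN.ce.big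
        exact_mod_cast this
      calc (x.s.p:ℝ)^(-(1/6000):ℝ) ≤ (x.s.p:ℝ)^(-(1/7000):ℝ) :=
            Real.rpow_le_rpow_of_exponent_le hx1 (by norm_num)
        _ ≤ _ := Real.rpow_le_rpow_of_nonpos hp00 (by exact_mod_cast hp) (by norm_num)
    rw [if_neg hd, hC]
    have h2 : (@ite _ (¬ x.s.p ∣ D.it j ∧ ∀ l ∈ x.s.O', l ∣ D.it j) (Classical.dec _) (2:ℝ) 0) ≤
        aDL stp (dvI D) 2 j x := by
      split_ifs with h
      · unfold aDL ind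
        rw [if_pos ⟨⟨hl, hs⟩, hO, h.2, hd⟩]
        norm_num
      · exact n4
    linarith

/-- cost of an item missing the tie -/
lemma cL_tie (hN : NumO CL C1 c₀ p0) {x : XSt Λ κ} (ht : tieL x) (hp : p0 ≤ x.s.p) {j : Λ}
    (hd : ¬ x.s.p ∣ D.it j) :
    (x.s.p:ℝ)^(-(1/6000):ℝ) + 3 * (x.s.p:ℝ)^(-(1/3):ℝ) ≤ cL D stp p0 j x := by
  have h1 : aTL (dvI D) εo j x = (x.s.p:ℝ)^(-(1/7000):ℝ) := by
    unfold aTL εo
    exact if_pos ⟨ht, hd⟩
  have n1 := aG_nn (stp := stp) j x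
  have n2 := aUL_nn j x
  have n3 := aCL_nn (D := D) (stp := stp) (p0 := p0) j x
  have n4 := aDL_nn (D := D) (stp := stp) j x
  have hnum := hN.num _ hp
  unfold cL costL
  rw [h1]
  unfold εo at *
  linarith

lemma cR_tie (hN : NumO CL C1 c₀ p0) {x : XSt Λ κ} (ht : tieR x) (hp : p0 ≤ x.s.p) {j : Λ}
    (hd : ¬ x.s.p ∣ D.it j) :
    (x.s.p:ℝ)^(-(1/6000):ℝ) + 3 * (x.s.p:ℝ)^(-(1/3):ℝ) ≤ cR D stp p0 j x := by
  have h1 : aTR (dvI D) εo j x = (x.s.p:ℝ)^(-(1/7000):ℝ) := by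
    unfold aTR εo
    exact if_pos ⟨ht, hd⟩
  have n1 := aG_nn (stp := stp) j x
  have n2 := aUR_nn j x
  have n3 := aCR_nn (D := D) (stp := stp) (p0 := p0) j x
  have n4 := aDR_nn (D := D) (stp := stp) j x
  have hnum := hN.num _ hp
  unfold cR costR
  rw [h1]
  unfold εo at *
  linarith

lemma one_le_nn {p : ℕ} (hp : 2^40 ≤ p) : 1 ≤ nn p := by
  unfold GFinC927.nn
  rw [Nat.one_le_floor_iff]
  have hl2 : 0 < Real.log 2 := Real.log_pos (by norm_num)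
  rw [le_div_iff₀ hl2]
  have h1 : Real.log ((2:ℝ)^40) ≤ Real.log p :=
    Real.log_le_log (by positivity) (by exact_mod_cast hp)
  rw [Real.log_pow] at h1
  push_cast at h1
  linarith

/-- **THE COST OF A ONE-SIDED COLUMN** -/
theorem os_local (H : GOS D ρ Al P W U CL C1 c₀ p0 stp)
    (hQ : ∀ u τ, Qp u τ → OB D sp Al P W U CL c₀ u τ) {B₀ B₀' : ℕ} {x : XSt Λ κ} {u u' : NS}
    {τ τ' : IT} (h : HI D sp Qp B₀ B₀' x u u' τ τ') (hj : JS D U x.s u u' τ τ') (of : OF p0 x)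
    (fs : ¬ stp x.s → FSL D sp ρ U Qp B₀ B₀' x) :
    eOS stp x.s ≤ ∑ j ∈ x.s.A, mI x.s.t j * cL D stp p0 j x +
      ∑ j ∈ x.s.A', mI x.s.t' j * cR D stp p0 j x := by
  classical
  have mL0 : ∀ j, 0 ≤ mI x.s.t j := mI_nn h.L
  have mR0 : ∀ j, 0 ≤ mI x.s.t' j := mI_nn h.R
  have nL : 0 ≤ ∑ j ∈ x.s.A, mI x.s.t j * cL D stp p0 j x :=
    Finset.sum_nonneg fun j _ => mul_nonneg (mL0 j) (cL_nn j x)
  have nR : 0 ≤ ∑ j ∈ x.s.A', mI x.s.t' j * cR D stp p0 j x :=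
    Finset.sum_nonneg fun j _ => mul_nonneg (mR0 j) (cR_nn j x)
  by_cases hl : x.s.t.isLeaf ∨ x.s.t'.isLeaf
  · have : eOS stp x.s = 0 := by unfold eOS; rw [if_pos hl]
    linarith
  by_cases hs : stp x.s
  · have : eOS stp x.s = 0 := by unfold eOS; rw [if_neg hl, if_pos hs]
    linarith
  have hlL : ¬ x.s.t.isLeaf := fun h => hl (Or.inl h)
  have hlR : ¬ x.s.t'.isLeaf := fun h => hl (Or.inr h)
  obtain ⟨e1, e2, hpp, hpn⟩ := h.tops (fun u τ hq => (hQ u τ hq).nq.1) hlL hlR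
  have n1 := hQ _ _ h.qL.self
  have n2 := hQ _ _ h.qR.self
  have hpL : x.s.p < u.n := h.nL ▸ hpn
  have hpR : x.s.p < u'.n := h.nR ▸ hpn
  have hthird := sum_le_third (H.st x.s hs)
  have hIS := HJ.is (fun u τ hq => (hQ u τ hq).nq) h hj
  have zero : (∀ a, a = eOS stp x.s → a = 0) → eOS stp x.s ≤
      ∑ j ∈ x.s.A, mI x.s.t j * cL D stp p0 j x + ∑ j ∈ x.s.A', mI x.s.t' j * cR D stp p0 j x := by
    intro h
    rw [h _ rfl]
    linarith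
  rcases hv : vw x.s.p x.s.t with ⟨w, r, t₁, t₀, v, B₁, G⟩ | ⟨r, t₁, t₀⟩ | ⟨Sp, d⟩ <;>
  rcases hv' : vw x.s.p x.s.t' with ⟨w', r', t₁', t₀', v', B', G'⟩ | ⟨r', t₁', t₀'⟩ | ⟨Sp', d'⟩
  · exact zero fun a ha => by rw [ha]; simp only [eOS, if_neg hl, if_neg hs, hv, hv']
  · exact zero fun a ha => by rw [ha]; simp only [eOS, if_neg hl, if_neg hs, hv, hv']
  · -- left tie
    have hOS : OSL x := ⟨⟨_, _, _, _, _, _, _, hv⟩, _, _, hv'⟩
    obtain ⟨τ₁, τ₀, hτ, -, -, -, -, -⟩ := AvgItem710.toDT_br (h.L.eq.symm.trans (vw_br hv))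
    subst hτ
    obtain ⟨S', σ', hτ', hSp, -⟩ := side_up h.R hlR e2 hv'
    subst hτ'
    have hp0 : p0 ≤ x.s.p := H.pp0.trans n1.nq.1.2.2.1.le
    have hp40 : 2^40 ≤ x.s.p := H.num.ce.big.trans hp0
    have hni := H.ni _ hp0
    have nsL : NSd D Al CL c₀ x.s.p u (.br x.s.p τ₁ τ₀) x.s.A :=
      ⟨h.ilL, fun q h1 h2 => n1.lgB _ _ _ rfl q h1 h2, n1.mean⟩
    have nsR : NSd D Al CL c₀ x.s.p u' (.up x.s.p S' σ') x.s.A' :=
      ⟨h.ilR, fun q h1 h2 => n2.lgU _ _ _ rfl q h1 h2, n2.mean⟩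
    have hhi : u'.c * Ws W (IT.up x.s.p S' σ').items ≤ (Real.log x.s.p)^C1 := by
      obtain ⟨-, -, -, -, -, -, -, k, -, -⟩ := n2.nq.1
      exact k.trans (H.hi _ hp0)
    have hle := of.le_one (by omega : 64 ≤ x.n)
    have key1 := os_state3 (stp := stp) H.num.ck hni h.st (le_refl x.s.p : Blw x.s.p (.up x.s.p S' σ'))
      hIS nsL nsR hhi H.CL0 hp0 (n := nn x.s.p) rfl hj.sq hj.sq' h.mL h.mR (fun _ => hle)
      ((fs hs).1 u u' _ _ _ _ _ h hj)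
    have key2 := col_E (O := x.s.O) (O' := x.s.O') H.num.ce hni H.CL0 hp0 (one_le_nn hp40) h.L n1.nq
      nsL h.mL h.R n2.nq nsR h.mR (fun l hl hd => hpL.trans_le (hj.geM' l hl hd))
      (fun hd => absurd ((WalkIT579.bk_of_nodeOk n2.nq.1).geA _ hpp hd) (not_le.2 hpR))
      hthird.2 hthird.1
    have pO : ∀ l ∈ x.s.O, 0 < l := by
      obtain ⟨G, -, -, -, -, h5⟩ := h.mR
      exact fun l hl => (h5 l hl).1.pos
    have hup : ∀ j, D.it j ∈ (IT.up x.s.p S' σ').items → dvI D x.s.p j → j ∈ vSp x.s.p x.s.t' := by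
      intro j h1 h2
      have : vSp x.s.p x.s.t' = Sp' := by simp [vSp, hv']
      rw [this, hSp]
      exact n2.up _ _ _ rfl j h1 h2
    have i1 : 0 ≤ (x.s.p:ℝ)^(-(1/3):ℝ) := by positivity
    have s1 := sum_tie (A := x.s.A) (B := x.s.A.filter (fun j => D.it j ∈ τ₀.items))
      (a := fun j => cL D stp p0 j x)
      (δ := (x.s.p:ℝ)^(-(1/6000):ℝ) + 3 * (x.s.p:ℝ)^(-(1/3):ℝ)) mL0 (fun j => cL_nn j x)
      (Finset.filter_subset _ _) fun j hj => by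
        refine cL_tie H.num ⟨_, _, _, _, _, _, _, hv⟩ hp0 fun hd => ?_
        have h1 := (Finset.mem_filter.1 hj).2
        have h2 := (h.L.br₀.hF.item _ h1).2.2
        exact (Nat.Prime.coprime_iff_not_dvd hpp).1 (Nat.Coprime.coprime_mul_left_right h2).symm hd
    have s2 := sum_oth (A := x.s.A')
      (B := x.s.A'.filter (fun j => D.it j ∈ (IT.up x.s.p S' σ').items))
      (BQ := x.s.A'.filter (fun j => D.it j ∈ (IT.up x.s.p S' σ').items ∧ x.s.p ∣ D.it j))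
      (BR := x.s.A'.filter (fun j => D.it j ∈ (IT.up x.s.p S' σ').items ∧ ¬ x.s.p ∣ D.it j ∧
        ∀ l ∈ x.s.O, l ∣ D.it j))
      (a := fun j => cR D stp p0 j x) (o := fun j => om x.s.O (D.it j))
      (β := (x.s.p:ℝ)^(-(11/12):ℝ)) (δ := (x.s.p:ℝ)^(-(1/6000):ℝ))
      (ε := 2 * (x.s.p:ℝ)^(-(1/3):ℝ)) (C := 2) mR0 (fun j => cR_nn j x) (Finset.filter_subset _ _)
      (fun j hj => by
        obtain ⟨k1, k2, k3⟩ := Finset.mem_filter.1 hj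
        exact Finset.mem_filter.2 ⟨k1, k2⟩)
      (fun j hj => by
        obtain ⟨k1, k2, k3⟩ := Finset.mem_filter.1 hj
        exact Finset.mem_filter.2 ⟨k1, k2⟩)
      (fun j hj hj' => by
        obtain ⟨k1, k2, k3⟩ := Finset.mem_filter.1 hj
        obtain ⟨k4, k5, k6⟩ := Finset.mem_filter.1 hj'
        exact k6.1 k3)
      (fun j hj => by
        obtain ⟨k1, k2⟩ := Finset.mem_filter.1 hj
        have := cR_ge (D := D) (p0 := p0) H.num hl hs hOS hp0 pO (hup j k2)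
        split_ifs at this <;> linarith)
      (fun j hj => by
        obtain ⟨k1, k2, k3⟩ := Finset.mem_filter.1 hj
        have := cR_ge (D := D) (p0 := p0) H.num hl hs hOS hp0 pO (hup j k2)
        rw [if_pos k3, if_neg (fun h => h.1 k3)] at this
        linarith)
      (fun j hj => by
        obtain ⟨k1, k2, k3⟩ := Finset.mem_filter.1 hj
        have := cR_ge (D := D) (p0 := p0) H.num hl hs hOS hp0 pO (hup j k2)
        rw [if_neg k3.1, if_pos k3] at this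
        linarith)
    linarith
  · exact zero fun a ha => by rw [ha]; simp only [eOS, if_neg hl, if_neg hs, hv, hv']
  · exact zero fun a ha => by rw [ha]; simp only [eOS, if_neg hl, if_neg hs, hv, hv']
  · exact zero fun a ha => by rw [ha]; simp only [eOS, if_neg hl, if_neg hs, hv, hv']
  · -- right tie
    have hOS : OSR x := ⟨⟨_, _, _, _, _, _, _, hv'⟩, _, _, hv⟩
    obtain ⟨τ₁', τ₀', hτ', -, -, -, -, -⟩ := AvgItem710.toDT_br (h.R.eq.symm.trans (vw_br hv'))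
    subst hτ'
    obtain ⟨S, σ, hτ, hSp, -⟩ := side_up h.L hlL e1 hv
    subst hτ
    have hp0 : p0 ≤ x.s.p := H.pp0.trans n2.nq.1.2.2.1.le
    have hp40 : 2^40 ≤ x.s.p := H.num.ce.big.trans hp0
    have hni := H.ni _ hp0
    have nsR : NSd D Al CL c₀ x.s.p u' (.br x.s.p τ₁' τ₀') x.s.A' :=
      ⟨h.ilR, fun q h1 h2 => n2.lgB _ _ _ rfl q h1 h2, n2.mean⟩
    have nsL : NSd D Al CL c₀ x.s.p u (.up x.s.p S σ) x.s.A :=
      ⟨h.ilL, fun q h1 h2 => n1.lgU _ _ _ rfl q h1 h2, n1.mean⟩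
    have hhi : u.c * Ws W (IT.up x.s.p S σ).items ≤ (Real.log x.s.p)^C1 := by
      obtain ⟨-, -, -, -, -, -, -, k, -, -⟩ := n1.nq.1
      exact k.trans (H.hi _ hp0)
    have hle := of.le_one (by omega : 64 ≤ x.n)
    have key1 := os_state3' (stp := stp) H.num.ck hni h.st (le_refl x.s.p : Blw x.s.p (.up x.s.p S σ))
      hIS nsL nsR hhi H.CL0 hp0 (n := nn x.s.p) rfl hj.sq hj.sq' h.mL h.mR (fun _ => hle)
      ((fs hs).2 u u' _ _ _ _ _ h hj)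
    have key2 := col_E (O := x.s.O') (O' := x.s.O) H.num.ce hni H.CL0 hp0 (one_le_nn hp40) h.R n2.nq
      nsR h.mR h.L n1.nq nsL h.mL (fun l hl hd => hpL.trans_le (hj.geM l hl hd))
      (fun hd => absurd ((WalkIT579.bk_of_nodeOk n1.nq.1).geA _ hpp hd) (not_le.2 hpL))
      hthird.1 hthird.2
    have pO : ∀ l ∈ x.s.O', 0 < l := by
      obtain ⟨G, -, -, -, -, h5⟩ := h.mL
      exact fun l hl => (h5 l hl).1.pos
    have hup : ∀ j, D.it j ∈ (IT.up x.s.p S σ).items → dvI D x.s.p j → j ∈ vSp x.s.p x.s.t := by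
      intro j h1 h2
      have : vSp x.s.p x.s.t = Sp := by simp [vSp, hv]
      rw [this, hSp]
      exact n1.up _ _ _ rfl j h1 h2
    have i1 : 0 ≤ (x.s.p:ℝ)^(-(1/3):ℝ) := by positivity
    have s1 := sum_tie (A := x.s.A') (B := x.s.A'.filter (fun j => D.it j ∈ τ₀'.items))
      (a := fun j => cR D stp p0 j x)
      (δ := (x.s.p:ℝ)^(-(1/6000):ℝ) + 3 * (x.s.p:ℝ)^(-(1/3):ℝ)) mR0 (fun j => cR_nn j x)
      (Finset.filter_subset _ _) fun j hj => by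
        refine cR_tie H.num ⟨_, _, _, _, _, _, _, hv'⟩ hp0 fun hd => ?_
        have h1 := (Finset.mem_filter.1 hj).2
        have h2 := (h.R.br₀.hF.item _ h1).2.2
        exact (Nat.Prime.coprime_iff_not_dvd hpp).1 (Nat.Coprime.coprime_mul_left_right h2).symm hd
    have s2 := sum_oth (A := x.s.A)
      (B := x.s.A.filter (fun j => D.it j ∈ (IT.up x.s.p S σ).items))
      (BQ := x.s.A.filter (fun j => D.it j ∈ (IT.up x.s.p S σ).items ∧ x.s.p ∣ D.it j))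
      (BR := x.s.A.filter (fun j => D.it j ∈ (IT.up x.s.p S σ).items ∧ ¬ x.s.p ∣ D.it j ∧
        ∀ l ∈ x.s.O', l ∣ D.it j))
      (a := fun j => cL D stp p0 j x) (o := fun j => om x.s.O' (D.it j))
      (β := (x.s.p:ℝ)^(-(11/12):ℝ)) (δ := (x.s.p:ℝ)^(-(1/6000):ℝ))
      (ε := 2 * (x.s.p:ℝ)^(-(1/3):ℝ)) (C := 2) mL0 (fun j => cL_nn j x) (Finset.filter_subset _ _)
      (fun j hj => by
        obtain ⟨k1, k2, k3⟩ := Finset.mem_filter.1 hj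
        exact Finset.mem_filter.2 ⟨k1, k2⟩)
      (fun j hj => by
        obtain ⟨k1, k2, k3⟩ := Finset.mem_filter.1 hj
        exact Finset.mem_filter.2 ⟨k1, k2⟩)
      (fun j hj hj' => by
        obtain ⟨k1, k2, k3⟩ := Finset.mem_filter.1 hj
        obtain ⟨k4, k5, k6⟩ := Finset.mem_filter.1 hj'
        exact k6.1 k3)
      (fun j hj => by
        obtain ⟨k1, k2⟩ := Finset.mem_filter.1 hj
        have := cL_ge (D := D) (p0 := p0) H.num hl hs hOS hp0 pO (hup j k2)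
        split_ifs at this <;> linarith)
      (fun j hj => by
        obtain ⟨k1, k2, k3⟩ := Finset.mem_filter.1 hj
        have := cL_ge (D := D) (p0 := p0) H.num hl hs hOS hp0 pO (hup j k2)
        rw [if_pos k3, if_neg (fun h => h.1 k3)] at this
        linarith)
      (fun j hj => by
        obtain ⟨k1, k2, k3⟩ := Finset.mem_filter.1 hj
        have := cL_ge (D := D) (p0 := p0) H.num hl hs hOS hp0 pO (hup j k2)
        rw [if_neg k3.1, if_pos k3] at this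
        linarith)
    linarith
  · exact zero fun a ha => by rw [ha]; simp only [eOS, if_neg hl, if_neg hs, hv, hv']
  · exact zero fun a ha => by rw [ha]; simp only [eOS, if_neg hl, if_neg hs, hv, hv']

lemma ωo_le (l : ℕ) : 0 ≤ ωo l ∧ ωo l ≤ 1 := by
  refine ⟨ωo_nn l, ?_⟩
  unfold ωo
  rcases Nat.eq_zero_or_pos l with h | h
  · subst h
    rw [Nat.cast_zero, Real.zero_rpow (by norm_num)]
    exact zero_le_one
  · exact Real.rpow_le_one_of_one_le_of_nonpos (by exact_mod_cast h) (by norm_num)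

/-- **THE ONE-SIDED COLUMNS OF A SELF STATE** -/
theorem eOS_final (H : GOS D ρ Al P W U CL C1 c₀ p0 stp) (spo : D.SpOk sp)
    (il : ∀ b, IL D.it (sp b)) (spd : ∀ b, ∀ j ∈ sp b, b ∣ D.it j)
    (hQ : ∀ u τ, Qp u τ → OB D sp Al P W U CL c₀ u τ)
    {Ix : XSt Λ κ → Prop} (ix : ∀ x, XI x.n x → Ix x → ∀ e ∈ steps stp (dvI D) x, Ix e.y)
    {u : NS} {τ : IT} {A : Finset Λ} (hs : SideI D sp u.B u.A τ A (D.toDT sp u.B u.A τ))
    (hq : All Qp u τ) (hilA : IL D.it A) (hO : τ.Ok u.n) (hG : NG U u τ)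
    (hix : Ix (XSt.st u.n (selfSt (D.toDT sp u.B u.A τ) A)))
    (fs : ∀ x, XI x.n x → Ix x → OF p0 x → ¬ stp x.s →
      (∃ v v' σ σ', HI D sp Qp u.B u.B x v v' σ σ' ∧ JS D U x.s v v' σ σ') →
      FSL D sp ρ U Qp u.B u.B x)
    {Dm E K κ₀ : ℝ} (hN : OSN (1/7000) Dm E K κ₀ p0)
    (hsp : ∀ j ∈ A, mI (D.toDT sp u.B u.A τ) j ≠ 0 →
      Spr p0 Dm (mtD (dvI D) j (D.toDT sp u.B u.A τ)) ∧
      Spr p0 Dm (upD (dvI D) j (D.toDT sp u.B u.A τ))) :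
    WS stp (eOS stp) (selfSt (D.toDT sp u.B u.A τ) A) ≤
      (3 * κ₀ + 2) * (2 * ∑ j ∈ A, mI (D.toDT sp u.B u.A τ) j) := by
  classical
  have hnq : ∀ u τ, Qp u τ → NQ P W U u τ := fun u τ h => (hQ u τ h).nq
  have hN' : ∀ u τ, Qp u τ → NodeOk P W u τ := fun u τ h => (hQ u τ h).nq.1
  have hp1 : 1 ≤ p0 := le_trans (by norm_num) H.num.ce.big
  have hni := H.ni p0 le_rfl
  set d := D.toDT sp u.B u.A τ with hd
  set I : XSt Λ κ → Prop := fun x => XI x.n x ∧ OF p0 x ∧ Ix x ∧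
    ∃ v v' σ σ', HI D sp Qp u.B u.B x v v' σ σ' ∧ JS D U x.s v v' σ σ' with hIdef
  have hI : ∀ x, I x → ∀ e ∈ steps stp (dvI D) x, I e.y := by
    intro x hx e he
    obtain ⟨h1, h2, h3, v, v', σ, σ', h4, h5⟩ := hx
    refine ⟨?_, h2.next hp1 H.st h1 e he, ix x h1 h3 e he,
      HJ.next spo il spd hnq h1 h4 h5 e he⟩
    have k1 := h1.next e he
    have k2 : e.y.n = x.s.p := k1.nn
    rw [k2]
    exact k1
  have colD : d.Col u.n := D.toDT_Col sp τ u.n u.B u.A hO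
  have imD : d.All (IM (dvI D) mI) :=
    IMI194.IM_toDT hni.ab τ u.B u.A u.n hs.hb hO hs.hF hs.hW (IMI194.Dv_of_All (hq.mono hN'))
  have tgD : d.All (TopGe p0) :=
    (topGe_toDT (D := D) (sp := sp) (hq.mono hN')).mono fun e h hl => H.pp0.trans (h hl)
  have hX : IX p0 (dvI D) mI (XSt.st u.n (selfSt d A)) :=
    IX_start (s := selfSt d A) (n := u.n) colD colD imD imD tgD tgD rfl rfl
  have hx : I (XSt.st u.n (selfSt d A)) :=
    ⟨hX.xi, OF.start hX.oi rfl rfl, hix, u, u, τ, τ, HI.self hs hq hilA, HJ.self (hq.mono hnq) hG⟩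
  have key := WS_eOS (stp := stp) (dv := dvI D) (m := mI) (p0 := p0) hp1 H.st hI (K := 1)
    zero_le_one (β := βo) (fun p _ => ⟨by unfold βo; positivity, by unfold βo; rw [one_mul]⟩)
    (ε := εo) (ε' := εo) (fun j p => by unfold εo; positivity) (fun j p => by unfold εo; positivity)
    (ε₀ := (p0:ℝ)^(-(1/7000):ℝ)) (by positivity) (ω := ωo) ωo_le (fun l hl => H.num.half l hl)
    (C := 2) (by norm_num) (loc := eOS stp)
    (fun x hx hX => by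
      obtain ⟨h1, h2, h3, v, v', σ, σ', h4, h5⟩ := hx
      exact os_local H hQ h4 h5 h2 fun hs => fs x h1 h3 h2 hs ⟨v, v', σ, σ', h4, h5⟩)
    hx hX rfl rfl
  have hsm := hN.sm
  have e1 : ∀ j ∈ A, mI d j * (4 * 1 * (p0 : ℝ) ^ (-(1/4) : ℝ) + ∑ q ∈ mtD (dvI D) j d, εo j q +
      ∑ q ∈ upD (dvI D) j d, εo j q + 2 * (p0:ℝ)^(-(1/7000):ℝ) + 2) ≤ mI d j * (3 * κ₀ + 2) := by
    intro j hj
    by_cases h0 : mI d j = 0
    · rw [h0]; simp
    · obtain ⟨k1, k2⟩ := hsp j hj h0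
      have g1 := hN.tail _ k1.1 k1.2
      have g2 := hN.tail _ k2.1 k2.2
      refine mul_le_mul_of_nonneg_left ?_ (hX.tc.L.self.nn j)
      unfold εo
      linarith
  refine key.trans ?_
  have e2 : ∑ j ∈ A, mI d j * (4 * 1 * (p0 : ℝ) ^ (-(1/4) : ℝ) + ∑ q ∈ mtD (dvI D) j d, εo j q +
      ∑ q ∈ upD (dvI D) j d, εo j q + 2 * (p0:ℝ)^(-(1/7000):ℝ) + 2) ≤
      (3 * κ₀ + 2) * ∑ j ∈ A, mI d j := by
    rw [Finset.mul_sum]
    refine Finset.sum_le_sum fun j hj => (e1 j hj).trans (le_of_eq (mul_comm _ _))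
  have e3 : (3 * κ₀ + 2) * (2 * ∑ j ∈ A, mI d j) = (3 * κ₀ + 2) * ∑ j ∈ A, mI d j +
      (3 * κ₀ + 2) * ∑ j ∈ A, mI d j := by ring
  rw [e3]
  exact add_le_add e2 e2

end loc

end Crest.Agent.R4.OSFin710
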