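import Mathlib
import Crest.Agent.R4.OSFin710
import Crest.Agent.R4.NI927
import Crest.Agent.R4.LinkG758

/-!
R4 (S0004), helper710: **`OSFin710.eOS_final` for a context of 189.**

* `ctx_OB` : node facts `OB` at all the nodes; `ctx_GOS` : constants; `ctx_Spr` : sparse missing ties and
  `up` primes of alive items; `fsl_data` : `FSL` for the concrete data (758's `fsok_os`).
* `ctx_eOS` : the one-sided columns of a self state of a node.
-/

set_option autoImplicit false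
set_option linter.unusedSectionVars false
set_option linter.unusedVariables false
open Finset

namespace Crest.Agent.R4.OSCtx710

open Crest.Agent.R4.Tour104 Crest.Agent.R4.Tour758 Crest.Agent.R4.Avg758 Crest.Agent.R4.Clos758
open Crest.Agent.R4.ClosL758 Crest.Agent.R4.ClosG758 Crest.Agent.R4.ClosR758
open Crest.Agent.R4.Fam464 Crest.Agent.R4.Cnt588 Crest.Agent.R4.Walk560 Crest.Agent.R4.Piece464
open Crest.Agent.R4.Item758 Crest.Agent.R4.AvgItem710 Crest.Agent.R4.PrunePar33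
open Crest.Agent.R4.Data758 Crest.Agent.R4.WalkIT579
open Crest.Agent.R4.Bld532 (NS All NodeOk Bk)
open Crest.Agent.R4.GInst194 Crest.Agent.R4.NMW710 Crest.Agent.R4.GSt927 Crest.Agent.R4.GStJ927
open Crest.Agent.R4.ColW710 Crest.Agent.R4.ColE710 Crest.Agent.R4.OSFin710 Crest.Agent.R4.NI927
open Crest.Agent.R4.Res927 Crest.Agent.R4.OSWS245 Crest.Agent.R4.OSWI245 Crest.Agent.R4.OF927
open Crest.Agent.R4.Link758 Crest.Agent.R4.LinkG758
open Crest.Agent.R4.GFinC927 (nn)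
open Crest.Agent.R4.DeepSt579 (tq tq_nonneg tq_le_one)
open Crest.Agent.R4.Step588 (NDt ND1 ctx_NDt CT CT_pos tot_ge ctx_rr)
open Crest.Agent.R4.Skel189 (Ctx top)

/-- all the columns of a tree are above `p0` -/
lemma cols_gt {P : Bld532.Par} {W : ℕ → ℝ} : ∀ (t : IT) (s : NS), All (NodeOk P W) s t →
    ∀ q, (∀ p ∈ t.mt q, P.p0 < p) ∧ ∀ p ∈ t.uq q, P.p0 < p := by
  intro t
  induction t with
  | leaf S => intro s _ q; simp [IT.mt, IT.uq]
  | br b t₁ t₀ ih₁ ih₀ =>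
    intro s h q
    have hb : P.p0 < b := h.1.2.2.1
    simp only [IT.mt, IT.uq]
    split_ifs
    · refine ⟨fun p hp => ?_, (ih₀ _ h.2.2 q).2⟩
      rcases Finset.mem_insert.1 hp with rfl | hp
      exacts [hb, (ih₀ _ h.2.2 q).1 p hp]
    · exact ih₁ _ h.2.1 q
  | add b t₁ t₀ ih₁ ih₀ =>
    intro s h q
    simp only [IT.mt, IT.uq]
    split_ifs
    · exact ih₀ _ h.2.2 q
    · exact ih₁ _ h.2.1 q
  | up b Sp t ih =>
    intro s h q
    have hb : P.p0 < b := h.1.2.2.1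
    simp only [IT.mt, IT.uq]
    refine ⟨(ih _ h.2 q).1, fun p hp => ?_⟩
    split_ifs at hp
    · rcases Finset.mem_insert.1 hp with rfl | hp
      exacts [hb, (ih _ h.2 q).2 p hp]
    · exact (ih _ h.2 q).2 p hp

section ctx
variable {N : Skel189.Num} {γ : ℝ} {p0 P₀ : ℕ}

lemma mem_sp (X : Ctx N γ p0 P₀) {b : ℕ} {j : X.c.Lam} : j ∈ X.c.sp b ↔ b ∈ rt X.c.t j.1.1 := by
  unfold Cf.sp
  simp

/-- retained primes divide the items -/
lemma ctx_spd (X : Ctx N γ p0 P₀) (Y : Finset (ℕ × ℕ × Finset ℕ)) (b : ℕ) :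
    ∀ j ∈ X.c.sp b, b ∣ (X.c.D.par Y).it j := by
  intro j hj
  have h1 := (mem_sp X).1 hj
  have h2 : j.1.1 ∈ X.c.t.items := by rw [X.items, ← X.hS]; exact Cf.mem_S j
  have h3 := (ctx_NDt X).self
  exact (h3.rd _ h2 b h1).trans (Nat.div_dvd_of_dvd (h3.dvd _ h2))

/-- **`OB` at all the nodes of a context** -/
theorem ctx_OB (N : Skel189.Num) {c₀ : ℝ} : ∃ p₁ : ℕ, ∀ p0 ≥ p₁, ∀ (γ : ℝ) (P₀ : ℕ)
    (X : Ctx N γ p0 P₀) (Y : Finset (ℕ × ℕ × Finset ℕ)), Mean X c₀ →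
    All (OB (X.c.D.par Y) X.c.sp X.S' X.par (Soft104.w X.ψ) X.c.t.uq (2 * CT) c₀)
      ⟨top X.S, 1, 1, 1⟩ X.c.t := by
  have hB1 := N.hB
  have hC1 := N.hC1
  have hc2 := N.hc2
  obtain ⟨p1, h1⟩ := tot_ge N.B (N.C1 + N.c2) (by linarith)
  refine ⟨p1 + 3, fun p0 hp0 γ P₀ X Y hm => ?_⟩
  refine All.mono (fun u τ hh => ?_) ((ctx_NDt X).and X.all)
  obtain ⟨hN, hQ, hG⟩ := hh
  have lg : ∀ p : ℕ, p0 < p → (∀ r : ℕ, r.Prime → r < u.n → r ≤ p) → ∀ q ∈ X.S', q ∈ τ.items →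
      1 ≤ 2 * CT * Real.log p * tq (q / u.A) := by
    intro p hpp h4 q hq hqt
    have key := h1 p0 (by omega) X.c.t q (ctx_pr X hq)
      (fun l hl => (rt_prime X.c.t X.tOk q l hl).1) (p + 1) (by omega) (q / u.A)
      (Nat.pos_of_ne_zero (hN.div_ne hqt)) fun l hl1 hl2 hl3 =>
        hN.self.ge q hqt l hl1 (by
          by_contra hlt
          have := h4 l hl1 (not_le.1 hlt)
          omega) hl2
    have hlog2 : Real.log ((p + 1 : ℕ) : ℝ) ≤ 2 * Real.log p := by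
      have hp2 : (2 : ℝ) ≤ p := by exact_mod_cast (by omega : 2 ≤ p)
      have h5 : ((p + 1 : ℕ) : ℝ) ≤ (p : ℝ) ^ 2 := by push_cast; nlinarith
      have h6 : (0 : ℝ) < ((p + 1 : ℕ) : ℝ) := by push_cast; linarith
      have h7 := Real.log_le_log h6 h5
      rw [Real.log_pow] at h7
      exact_mod_cast h7
    refine key.trans ?_
    have e : ((q / u.A).totient : ℝ) / ((q / u.A : ℕ) : ℝ) = tq (q / u.A) := rfl
    rw [e]
    refine mul_le_mul_of_nonneg_right ?_ (tq_nonneg _)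
    have := mul_le_mul_of_nonneg_left hlog2 CT_pos.le
    linarith
  refine ⟨hQ, ?_, ?_, ?_, ?_⟩
  · intro p t₁ t₀ e q hq hqt
    subst e
    exact lg p hN.self.node.2.2.1 hN.self.node.2.2.2.1 q hq hqt
  · intro p S σ e q hq hqt
    subst e
    exact lg p hN.self.node.2.2.1 hN.self.node.2.2.2.1 q hq hqt
  · intro j hj hjt
    have e := hN.self.pp _ hjt
    have := hm _ hj (X.c.bp j.1.1 j.1.2)
    have e' : u.A * pp τ ((X.c.D.par Y).it j) = pp X.c.t ((X.c.D.par Y).it j) := e.symm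
    rw [e']
    exact this
  · intro p S σ e j hjt hd
    subst e
    rw [mem_sp]
    have h2 : (X.c.D.par Y).it j ∈ S := by
      obtain ⟨-, -, -, -, -, h1, -⟩ := hN.self.node
      rw [h1]
      exact Bld532.mem_pr.2 ⟨hjt, hd⟩
    have h3 := (hQ.2 _ hjt).2
    have h4 : p ∈ (IT.up p S σ).uq ((X.c.D.par Y).it j) := by
      simp only [IT.uq, if_pos h2]
      exact Finset.mem_insert_self _ _
    exact Finset.mem_union_right _ (h3 h4)

/-- **constants of a context** -/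
theorem ctx_GOS (N : Skel189.Num) {c₀ : ℝ} (hc₀ : 0 < c₀) (hCT : 1 ≤ 2 * CT) :
    ∃ p₁ : ℕ, ∀ p0 ≥ p₁, ∀ (γ : ℝ) (P₀ : ℕ)
    (X : Ctx N γ p0 P₀) (Y : Finset (ℕ × ℕ × Finset ℕ))
    (stp : St X.c.Lam (Lb (WL X.c.Lam) Y) → Prop), (∀ s, ¬ stp s → ¬ stpM s) →
    GOS (X.c.D.par Y) X.c.rr X.S' X.par (Soft104.w X.ψ) X.c.t.uq (2 * CT) (N.B + N.c2) c₀ p0
      stp := by
  obtain ⟨p1, h1⟩ := exists_NumO hCT (N.B + N.c2) hc₀
  obtain ⟨p2, h2⟩ := ctx_NI N (2 * CT) hc₀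
  have hB1 := N.hB
  have hC1 := N.hC1
  have hc2 := N.hc2
  refine ⟨p1 + p2 + 3, fun p0 hp0 γ P₀ X Y stp hst => ?_⟩
  refine ⟨h1 p0 (by omega), by linarith, fun p hp => h2 p0 (by omega) γ P₀ X Y p hp, fun p hp => ?_,
    le_refl p0, hst⟩
  show Real.log p ^ N.c2 ≤ Real.log p ^ (N.B + N.c2)
  exact Real.rpow_le_rpow_of_exponent_le (Bld532.one_le_log_nat (by omega)) (by linarith)

/-- **sparse missing ties and `up` primes of alive pieces** -/
theorem ctx_Spr (X : Ctx N γ p0 P₀) (hp3 : 3 ≤ p0) {Y : Finset (ℕ × ℕ × Finset ℕ)}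
    {u : NS} {τ : IT} {A : Finset X.c.Lam}
    (hN : All (NodeOk X.par (Soft104.w X.ψ)) u τ)
    (hmt : ∀ q ∈ τ.items, τ.mt q ⊆ X.c.t.mt q) (huq : ∀ q ∈ τ.items, τ.uq q ⊆ X.c.t.uq q)
    (hs : SideI (X.c.D.par Y) X.c.sp u.B u.A τ A ((X.c.D.par Y).toDT X.c.sp u.B u.A τ))
    {j : X.c.Lam} (hq : (X.c.D.par Y).it j ∈ τ.items)
    (hm : mI ((X.c.D.par Y).toDT X.c.sp u.B u.A τ) j ≠ 0) :
    Spr p0 (N.B + 1) (mtD (dvI (X.c.D.par Y)) j ((X.c.D.par Y).toDT X.c.sp u.B u.A τ)) ∧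
    Spr p0 (N.B + 1) (upD (dvI (X.c.D.par Y)) j ((X.c.D.par Y).toDT X.c.sp u.B u.A τ)) := by
  have hB1 := N.hB
  have hC1 := N.hC1
  have hc2 := N.hc2
  have hal : (X.c.D.par Y).it j ∈ X.S' :=
    mem_of_mI (D := X.c.D.par Y) (Al := X.S') (fun j hj a => ctx_dead X j hj a)
      (fun j => X.ok.bpm _ (Cf.mem_S j) (Cf.r_pos j) (Nat.le_succ _)) hs.hb hs.hF hs.hW hs hq hm
  have hD : IMI194.Dv τ := IMI194.Dv_of_All hN
  have e : mtD (dvI (X.c.D.par Y)) j ((X.c.D.par Y).toDT X.c.sp u.B u.A τ) =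
      τ.mt ((X.c.D.par Y).it j) := OSWI245.mtD_toDT hD u.B u.A hq
  have e2 : upD (dvI (X.c.D.par Y)) j ((X.c.D.par Y).toDT X.c.sp u.B u.A τ) ⊆
      τ.uq ((X.c.D.par Y).it j) :=
    OSWI245.upD_toDT (ctx_spd X Y) hD (UpOk_of_All hN) u.B u.A hq
  have hpr := ctx_pr X hal
  have hgt := cols_gt τ u hN ((X.c.D.par Y).it j)
  have hlog : ∀ P : ℕ, p0 ≤ P → 1 ≤ Real.log P := fun P hP => Bld532.one_le_log_nat (by omega)
  refine ⟨⟨fun q h => hgt.1 q (by rw [← e]; exact h), fun P hP => ?_⟩,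
    ⟨fun q h => hgt.2 q (e2 h), fun P hP => ?_⟩⟩
  · rw [e]
    have h1 := hpr.mt P hP
    have h2 : (((τ.mt ((X.c.D.par Y).it j)).filter (· ≤ P)).card : ℝ) ≤
        (((X.c.t.mt ((X.c.D.par Y).it j)).filter (· ≤ P)).card : ℝ) := by
      exact_mod_cast Finset.card_le_card (Finset.filter_subset_filter _ (hmt _ hq))
    refine h2.trans (h1.trans ?_)
    exact Real.rpow_le_rpow_of_exponent_le (hlog P hP) (by linarith)
  · have h1 := hpr.uq P hP
    refine le_trans ?_ h1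
    exact_mod_cast Finset.card_le_card (Finset.filter_subset_filter _ (e2.trans (huq _ hq)))

/-- **`FSL` for the concrete data** (no accurate labels at the columns) -/
theorem fsl_data {c : Cf} {n : ℕ} (h : c.Ok n) (X : Finset (ℕ × ℕ × Finset ℕ))
    {sp : ℕ → Finset c.Lam} {Qp : NS → IT → Prop} {U : ℕ → Finset ℕ}
    (hMF : ∀ u τ, Qp u τ → MF c.t u τ ∧ u.n ≤ n)
    (hbig : ∀ u τ, Qp u τ → ∀ p t₁ t₀, τ = .br p t₁ t₀ →
      (1 : ℝ) / 2 ^ nn p ≤ c.wp.thr p ∧ ∀ q, ¬ Ac c p q)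
    {B₀ B₀' : ℕ} {x : XSt c.Lam (Lb (WL c.Lam) X)} :
    FSL (c.D.par X) sp c.rr U Qp B₀ B₀' x := by
  constructor
  · intro u u' p t₁ t₀ S σ' hi hj
    obtain ⟨mf, hn⟩ := hMF _ _ hi.qL.self
    obtain ⟨mf', hn'⟩ := hMF _ _ hi.qR.self
    obtain ⟨hthr, hac⟩ := hbig _ _ hi.qL.self _ _ _ rfl
    have hpn : p < u.n := by
      obtain ⟨-, -, -, hO, -⟩ := mf
      exact hO.2.1
    have key := fsok_os h X (N := nn p) hi.mL.pos hi.mR.pos hi.L hi.R hj.circ mf mf'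
      (by rw [hi.nR, ← hi.nL]; exact hpn) (le_refl p : Blw p (.up p S σ')) (hpn.le.trans hn) hthr
    intro e i1 i2 hD hpos hFS
    rcases key e i1 i2 hD hpos hFS with h3 | h3 | h3
    · exact Or.inl h3
    · exact absurd h3 (hac _)
    · exact absurd h3 (hac _)
  · intro u u' p t₁' t₀' S σ hi hj
    obtain ⟨mf, hn⟩ := hMF _ _ hi.qL.self
    obtain ⟨mf', hn'⟩ := hMF _ _ hi.qR.self
    obtain ⟨hthr, hac⟩ := hbig _ _ hi.qR.self _ _ _ rfl
    have hpn : p < u'.n := by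
      obtain ⟨-, -, -, hO, -⟩ := mf'
      exact hO.2.1
    have key := fsok_os h X (N := nn p) hi.mR.pos hi.mL.pos hi.R hi.L hj.circ.symm mf' mf
      (by rw [hi.nL, ← hi.nR]; exact hpn) (le_refl p : Blw p (.up p S σ)) (hpn.le.trans hn') hthr
    intro e i1 i2 hD hpos hFS
    rcases key e i1 i2 hD hpos hFS with h3 | h3 | h3
    · exact Or.inl h3
    · exact absurd h3 (hac _)
    · exact absurd h3 (hac _)

end ctx

end Crest.Agent.R4.OSCtx710
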