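import Mathlib
import Crest.Agent.R4.OSCtx710
import Crest.Agent.R4.NMCtx927

/-!
R4 (S0004), helper710: **the one-sided columns of a context** (`Skel189.Ctx`): at every node of the tree,
for every admissible population `A`, the walk sum of `eOS` is at most `(4 + κ') Σ_{j ∈ A} mI j`.

Hypotheses on the world: 927's `WNM`; mean of the weights `Mean`.
-/

set_option autoImplicit false
set_option linter.unusedSectionVars false
set_option linter.unusedVariables false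
open Finset

namespace Crest.Agent.R4.OSCtxF710

open Crest.Agent.R4.Tour104 Crest.Agent.R4.Tour758 Crest.Agent.R4.Avg758 Crest.Agent.R4.Clos758
open Crest.Agent.R4.ClosL758 Crest.Agent.R4.ClosG758 Crest.Agent.R4.ClosR758
open Crest.Agent.R4.Fam464 Crest.Agent.R4.Cnt588 Crest.Agent.R4.Walk560 Crest.Agent.R4.Piece464
open Crest.Agent.R4.Item758 Crest.Agent.R4.AvgItem710 Crest.Agent.R4.PrunePar33
open Crest.Agent.R4.Data758 Crest.Agent.R4.WalkIT579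
open Crest.Agent.R4.Bld532 (NS All NodeOk Bk)
open Crest.Agent.R4.GInst194 Crest.Agent.R4.NMW710 Crest.Agent.R4.GSt927 Crest.Agent.R4.GStJ927
open Crest.Agent.R4.ColW710 Crest.Agent.R4.ColE710 Crest.Agent.R4.OSFin710 Crest.Agent.R4.NI927
open Crest.Agent.R4.Res927 Crest.Agent.R4.OSWS245 Crest.Agent.R4.OSWI245 Crest.Agent.R4.OF927
open Crest.Agent.R4.Link758 Crest.Agent.R4.LinkG758 Crest.Agent.R4.OSCtx710
open Crest.Agent.R4.GFinC927 (nn)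
open Crest.Agent.R4.DeepSt579 (tq tq_nonneg tq_le_one)
open Crest.Agent.R4.Step588 (NDt ND1 ctx_NDt CT CT_pos tot_ge ctx_rr All_All)
open Crest.Agent.R4.Skel189 (Ctx top)
open Crest.Agent.R4.NMCtx927 (WNM All_lvl)

variable {N : Skel189.Num} {γ : ℝ} {p0 P₀ : ℕ}

lemma CT_ge : (1 : ℝ) ≤ 2 * CT := by
  have h1 : (1 : ℝ) ≤ Real.exp (22 / Real.log 2) := Real.one_le_exp (by positivity)
  have h2 : Real.log 2 ≤ 1 := (Real.log_two_lt_d9.le).trans (by norm_num)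
  have h3 : 0 < Real.log 2 := Real.log_pos one_lt_two
  unfold CT
  rw [← mul_div_assoc, le_div_iff₀ h3]
  nlinarith

/-- the node predicate -/
def QO (X : Ctx N γ p0 P₀) (Y : Finset (ℕ × ℕ × Finset ℕ)) (c₀ : ℝ) (u : NS) (τ : IT) : Prop :=
  OB (X.c.D.par Y) X.c.sp X.S' X.par (Soft104.w X.ψ) X.c.t.uq (2 * CT) c₀ u τ ∧
    MF X.c.t u τ ∧ u.n ≤ top X.S

/-- **ONE-SIDED COLUMNS OF A CONTEXT** -/
theorem ctx_eOS (N : Skel189.Num) {c₀ κ' : ℝ} (hc₀ : 0 < c₀) (hκ : 0 < κ') : ∃ p₁ : ℕ, ∀ p0 ≥ p₁,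
    ∀ (γ : ℝ) (P₀ : ℕ) (X : Ctx N γ p0 P₀) (Y : Finset (ℕ × ℕ × Finset ℕ)), Mean X c₀ → WNM X →
    ∀ stp : St X.c.Lam (Lb (WL X.c.Lam) Y) → Prop, (∀ s, ¬ stp s → ¬ stpM s) →
    All (fun u τ => ∀ A, AdI (X.c.D.par Y).it ((X.c.D.par Y).toG u.B u.A τ) A →
      WS stp (eOS stp) (selfSt ((X.c.D.par Y).toDT X.c.sp u.B u.A τ) A) ≤
        (4 + κ') * ∑ j ∈ A, mI ((X.c.D.par Y).toDT X.c.sp u.B u.A τ) j) ⟨top X.S, 1, 1, 1⟩ X.c.t := by
  have hB1 := N.hB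
  have hC1 := N.hC1
  have hc2 := N.hc2
  obtain ⟨a1, h1⟩ := ctx_GOS N hc₀ CT_ge
  obtain ⟨a2, h2⟩ := ctx_OB N (c₀ := c₀)
  obtain ⟨a3, h3⟩ := exists_OSN (1/7000) (N.B + 1) 0 0 (κ' / 6) (by norm_num) le_rfl (by positivity)
  refine ⟨a1 + a2 + a3 + 3, fun p0 hp0 γ P₀ X Y hm hw stp hst => ?_⟩
  have hG := h1 p0 (by omega) γ P₀ X Y stp hst
  have hp1 : 1 ≤ p0 := by omega
  have hQ : All (QO X Y c₀) ⟨top X.S, 1, 1, 1⟩ X.c.t := by
    refine All.mono (fun u τ hh => ?_)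
      (((h2 p0 (by omega) γ P₀ X Y hm).and (MF_root X.tOk 1)).and
        (All_lvl X.c.t ⟨top X.S, 1, 1, 1⟩ X.tOk le_rfl))
    exact ⟨hh.1.1, hh.1.2, hh.2.1⟩
  have hall := (((ctx_NDt X).and X.all).and ((ctx_mt X).and
    (All_uqs X.c.t _ ⟨top X.S, 1, 1, 1⟩ X.tOk fun _ _ => Finset.Subset.refl _))).and
    ((All_All _ _ hQ).and (All_All _ _ X.nodes))
  refine All.mono (fun u τ hh A hA => ?_) hall
  obtain ⟨⟨⟨hND, hNQ, hNG⟩, hmt, huq⟩, hq, hno⟩ := hh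
  have hF : Fit u.B u.A τ := Fit_of_All τ u (All.mono (fun _ _ hh => hh.node) hND.all)
    fun q hq => Nat.pos_of_ne_zero (hND.sq q (hND.self.sub hq)).ne_zero
  have hB : 0 < u.B := Nat.pos_of_ne_zero hND.bk.sfB.ne_zero
  have hW : (X.c.D.par Y).Wts u.A τ := by
    intro j hj
    rw [← hND.self.pp _ hj]
    exact X.ok.wt _ (Cf.mem_S j) _
  have hs : SideI (X.c.D.par Y) X.c.sp u.B u.A τ A ((X.c.D.par Y).toDT X.c.sp u.B u.A τ) :=
    ⟨rfl, hB, hF, hW, hA.1, u.n, hND.self.ok⟩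
  have key := eOS_final (Qp := QO X Y c₀) hG (X.ok.spok.spOk Y) (fun b => X.c.IL_sp b)
    (ctx_spd X Y) (fun u τ h => h.1) (Ix := fun _ => True) (fun _ _ _ _ _ => trivial) hs hq hA.2
    hND.self.ok hNG trivial
    (fun x _ _ _ _ _ => fsl_data X.ok Y (fun u τ h => ⟨h.2.1, h.2.2⟩) fun u τ h p t₁ t₀ e => by
      have hp : p0 ≤ p := by subst e; exact h.1.nq.1.2.2.1.le
      exact ⟨hw.thr p hp, fun q => hw.ac p q hp⟩)
    (h3 p0 (by omega)) (fun j hj hm0 => ctx_Spr X (by omega) hno hmt huq hs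
      (NMCtx927.item_of_mI hs hm0) hm0)
  refine key.trans (le_of_eq ?_)
  ring

end Crest.Agent.R4.OSCtxF710
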