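import Mathlib
import Crest.Agent.R4.CrossLoc709

/-!
R4 (S0004), helper709, module D: the POTENTIAL of the low parts along the cross walk, per item pair:
`pE = (#mt q + #mt' r + 1) vEl + Σ_{l ∈ mt q ∪ mt' r} vXl l`. `Part` describes one part of one side at a column
(moves, weights, missing ties). `pE_cont` (continuing child, pays `vEl` at a missing tie), `pE_exit` (exit pays
`vEl + vXl p`), `blocks` (disjoint parts).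
-/

set_option autoImplicit false
set_option linter.unusedSectionVars false
set_option linter.unusedVariables false
open Finset

namespace Crest.Agent.R4.PotL709

open Crest.Agent.R4.CrossInv709 Crest.Agent.R4.CrossLoc709
open Crest.Agent.R4.Cnt588 Crest.Agent.R4.Bld532

/-- potential of an item pair at a state -/
noncomputable def pE (γ : ℝ) (ρ : ℕ → ℝ) (t t' : IT) (M b pr M' b' pr' : ℕ) (e : ℕ × ℕ) : ℝ :=
  (((t.mt e.1).card : ℝ) + ((t'.mt e.2).card : ℝ) + 1) * vEl γ ρ M b pr M' b' pr' e +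
    ∑ l ∈ t.mt e.1 ∪ t'.mt e.2, vXl γ ρ l M b pr M' b' pr' e

lemma vEl_nonneg {ρ : ℕ → ℝ} (hρ : ∀ q, 0 < ρ q) (γ : ℝ) (M b pr M' b' pr' : ℕ) (e : ℕ × ℕ) :
    0 ≤ vEl γ ρ M b pr M' b' pr' e := by
  unfold vEl SE sc sd
  exact mul_nonneg (by positivity) (Flo_nonneg (hρ _).le (hρ _).le (by positivity))

lemma vXl_nonneg {ρ : ℕ → ℝ} (hρ : ∀ q, 0 < ρ q) (γ : ℝ) (l M b pr M' b' pr' : ℕ) (e : ℕ × ℕ) :
    0 ≤ vXl γ ρ l M b pr M' b' pr' e := by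
  unfold vXl SE sc sd
  exact mul_nonneg (by positivity) (Flo_nonneg (hρ _).le (hρ _).le (by positivity))

lemma pE_nonneg {ρ : ℕ → ℝ} (hρ : ∀ q, 0 < ρ q) (γ : ℝ) (t t' : IT) (M b pr M' b' pr' : ℕ)
    (e : ℕ × ℕ) : 0 ≤ pE γ ρ t t' M b pr M' b' pr' e := by
  unfold pE
  have h1 := vEl_nonneg hρ γ M b pr M' b' pr' e
  have h2 : 0 ≤ ∑ l ∈ t.mt e.1 ∪ t'.mt e.2, vXl γ ρ l M b pr M' b' pr' e :=
    Finset.sum_nonneg fun l _ => vXl_nonneg hρ γ l M b pr M' b' pr' e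
  positivity

/-- one part of one side at the column `p`: `i` = drops `p`, `ms` = at a missing tie, `w` = weight of the part -/
structure Part (p : ℕ) (i ms : Bool) (w : ℝ) (M b pr : ℕ) (τ : IT) (V : Finset ℕ)
    (M₂ b₂ pr₂ : ℕ) (τ₂ : IT) (V₂ : Finset ℕ) : Prop where
  sub : V₂ ⊆ V
  mv : ∀ q ∈ V₂, SMv p i M b pr M₂ b₂ pr₂ q
  w0 : 0 ≤ w
  wt : w * b₂ ≤ b
  mt : ∀ q ∈ V₂, τ₂.mt q ⊆ τ.mt q
  ms : ms = true → ∀ q ∈ V₂, p ∈ τ.mt q ∧ p ∉ τ₂.mt q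

section
variable {ρ : ℕ → ℝ} {p : ℕ} {i ms i' ms' : Bool} {w w' : ℝ} {M b pr M₂ b₂ pr₂ M' b' pr' M₂' b₂' pr₂' : ℕ}
  {τ τ₂ τ' τ₂' : IT} {V V₂ V' V₂' : Finset ℕ}

/-- continuing child: no cost -/
lemma pE_cont0 (hρ : ∀ q, 0 < ρ q) (γ : ℝ) (hp : p.Prime)
    (h : Part p i ms w M b pr τ V M₂ b₂ pr₂ τ₂ V₂) (h' : Part p i' ms' w' M' b' pr' τ' V' M₂' b₂' pr₂' τ₂' V₂')
    (hi : i = true ∨ i' = true) {e : ℕ × ℕ} (he : e ∈ V₂ ×ˢ V₂') :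
    w * w' * pE γ ρ τ₂ τ₂' M₂ b₂ pr₂ M₂' b₂' pr₂' e ≤ pE γ ρ τ τ' M b pr M' b' pr' e := by
  obtain ⟨h1, h2⟩ := Finset.mem_product.1 he
  have hw : w * w' * ((b₂:ℝ) * b₂') ≤ (b:ℝ) * b' := by
    have e1 : w * w' * ((b₂:ℝ) * b₂') = (w * b₂) * (w' * b₂') := by ring
    rw [e1]
    exact mul_le_mul h.wt h'.wt (mul_nonneg h'.w0 (Nat.cast_nonneg _)) (Nat.cast_nonneg _)
  have k1 := vEl_inv hρ γ hp (h.mv _ h1) (h'.mv _ h2) hi hw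
  have k2 : ∀ l, w * w' * vXl γ ρ l M₂ b₂ pr₂ M₂' b₂' pr₂' e ≤ vXl γ ρ l M b pr M' b' pr' e :=
    fun l => vXl_inv hρ γ l hp (h.mv _ h1) (h'.mv _ h2) hi hw
  have c1 : ((τ₂.mt e.1).card : ℝ) ≤ ((τ.mt e.1).card : ℝ) := by
    exact_mod_cast Finset.card_le_card (h.mt _ h1)
  have c2 : ((τ₂'.mt e.2).card : ℝ) ≤ ((τ'.mt e.2).card : ℝ) := by
    exact_mod_cast Finset.card_le_card (h'.mt _ h2)
  have n1 := vEl_nonneg hρ γ M b pr M' b' pr' e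
  have n2 := vEl_nonneg hρ γ M₂ b₂ pr₂ M₂' b₂' pr₂' e
  unfold pE
  rw [mul_add]
  refine add_le_add ?_ ?_
  · calc w * w' * ((((τ₂.mt e.1).card : ℝ) + ((τ₂'.mt e.2).card : ℝ) + 1) *
        vEl γ ρ M₂ b₂ pr₂ M₂' b₂' pr₂' e)
        = (((τ₂.mt e.1).card : ℝ) + ((τ₂'.mt e.2).card : ℝ) + 1) *
          (w * w' * vEl γ ρ M₂ b₂ pr₂ M₂' b₂' pr₂' e) := by ring
      _ ≤ (((τ₂.mt e.1).card : ℝ) + ((τ₂'.mt e.2).card : ℝ) + 1) * vEl γ ρ M b pr M' b' pr' e :=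
          mul_le_mul_of_nonneg_left k1 (by positivity)
      _ ≤ _ := mul_le_mul_of_nonneg_right (by linarith) n1
  · rw [Finset.mul_sum]
    refine (Finset.sum_le_sum fun l _ => k2 l).trans ?_
    exact Finset.sum_le_sum_of_subset_of_nonneg (Finset.union_subset_union (h.mt _ h1) (h'.mt _ h2))
      fun l _ _ => vXl_nonneg hρ γ l M b pr M' b' pr' e

/-- continuing child at a missing tie of one side: pays `vEl` -/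
lemma pE_cont1 (hρ : ∀ q, 0 < ρ q) (γ : ℝ) (hp : p.Prime)
    (h : Part p i ms w M b pr τ V M₂ b₂ pr₂ τ₂ V₂) (h' : Part p i' ms' w' M' b' pr' τ' V' M₂' b₂' pr₂' τ₂' V₂')
    (hi : i = true ∨ i' = true) (hm : ms = true ∨ ms' = true) {e : ℕ × ℕ} (he : e ∈ V₂ ×ˢ V₂') :
    w * w' * pE γ ρ τ₂ τ₂' M₂ b₂ pr₂ M₂' b₂' pr₂' e + vEl γ ρ M b pr M' b' pr' e ≤
      pE γ ρ τ τ' M b pr M' b' pr' e := by
  obtain ⟨h1, h2⟩ := Finset.mem_product.1 he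
  have hw : w * w' * ((b₂:ℝ) * b₂') ≤ (b:ℝ) * b' := by
    have e1 : w * w' * ((b₂:ℝ) * b₂') = (w * b₂) * (w' * b₂') := by ring
    rw [e1]
    exact mul_le_mul h.wt h'.wt (mul_nonneg h'.w0 (Nat.cast_nonneg _)) (Nat.cast_nonneg _)
  have k1 := vEl_inv hρ γ hp (h.mv _ h1) (h'.mv _ h2) hi hw
  have k2 : ∀ l, w * w' * vXl γ ρ l M₂ b₂ pr₂ M₂' b₂' pr₂' e ≤ vXl γ ρ l M b pr M' b' pr' e :=
    fun l => vXl_inv hρ γ l hp (h.mv _ h1) (h'.mv _ h2) hi hw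
  have d1 : (τ₂.mt e.1).card ≤ (τ.mt e.1).card := Finset.card_le_card (h.mt _ h1)
  have d2 : (τ₂'.mt e.2).card ≤ (τ'.mt e.2).card := Finset.card_le_card (h'.mt _ h2)
  have d3 : (τ₂.mt e.1).card + (τ₂'.mt e.2).card + 1 ≤ (τ.mt e.1).card + (τ'.mt e.2).card := by
    rcases hm with hm | hm
    · have := h.ms hm _ h1
      have h3 : (τ₂.mt e.1).card + 1 ≤ (τ.mt e.1).card := by
        rw [← Finset.card_insert_of_notMem this.2]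
        exact Finset.card_le_card (Finset.insert_subset this.1 (h.mt _ h1))
      omega
    · have := h'.ms hm _ h2
      have h3 : (τ₂'.mt e.2).card + 1 ≤ (τ'.mt e.2).card := by
        rw [← Finset.card_insert_of_notMem this.2]
        exact Finset.card_le_card (Finset.insert_subset this.1 (h'.mt _ h2))
      omega
  have c3 : ((τ₂.mt e.1).card : ℝ) + ((τ₂'.mt e.2).card : ℝ) + 1 ≤
      ((τ.mt e.1).card : ℝ) + ((τ'.mt e.2).card : ℝ) := by exact_mod_cast d3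
  have n1 := vEl_nonneg hρ γ M b pr M' b' pr' e
  unfold pE
  have a1 : w * w' * ((((τ₂.mt e.1).card : ℝ) + ((τ₂'.mt e.2).card : ℝ) + 1) *
        vEl γ ρ M₂ b₂ pr₂ M₂' b₂' pr₂' e) ≤
      (((τ.mt e.1).card : ℝ) + ((τ'.mt e.2).card : ℝ)) * vEl γ ρ M b pr M' b' pr' e := by
    calc w * w' * ((((τ₂.mt e.1).card : ℝ) + ((τ₂'.mt e.2).card : ℝ) + 1) *
        vEl γ ρ M₂ b₂ pr₂ M₂' b₂' pr₂' e)
        = (((τ₂.mt e.1).card : ℝ) + ((τ₂'.mt e.2).card : ℝ) + 1) *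
          (w * w' * vEl γ ρ M₂ b₂ pr₂ M₂' b₂' pr₂' e) := by ring
      _ ≤ (((τ₂.mt e.1).card : ℝ) + ((τ₂'.mt e.2).card : ℝ) + 1) * vEl γ ρ M b pr M' b' pr' e :=
          mul_le_mul_of_nonneg_left k1 (by positivity)
      _ ≤ _ := mul_le_mul_of_nonneg_right c3 n1
  have a2 : w * w' * ∑ l ∈ τ₂.mt e.1 ∪ τ₂'.mt e.2, vXl γ ρ l M₂ b₂ pr₂ M₂' b₂' pr₂' e ≤
      ∑ l ∈ τ.mt e.1 ∪ τ'.mt e.2, vXl γ ρ l M b pr M' b' pr' e := by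
    rw [Finset.mul_sum]
    refine (Finset.sum_le_sum fun l _ => k2 l).trans ?_
    exact Finset.sum_le_sum_of_subset_of_nonneg (Finset.union_subset_union (h.mt _ h1) (h'.mt _ h2))
      fun l _ _ => vXl_nonneg hρ γ l M b pr M' b' pr' e
  rw [mul_add]
  linarith

/-- exit: pays `vEl + vXl p` -/
lemma pE_exit (hρ : ∀ q, 0 < ρ q) (γ : ℝ)
    (h : Part p i ms w M b pr τ V M₂ b₂ pr₂ τ₂ V₂) (h' : Part p i' ms' w' M' b' pr' τ' V' M₂' b₂' pr₂' τ₂' V₂')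
    (hm : ms = true ∨ ms' = true) {e : ℕ × ℕ} (he : e ∈ V₂ ×ˢ V₂') :
    vEl γ ρ M b pr M' b' pr' e + vXl γ ρ p M b pr M' b' pr' e ≤
      pE γ ρ τ τ' M b pr M' b' pr' e := by
  obtain ⟨h1, h2⟩ := Finset.mem_product.1 he
  have n1 := vEl_nonneg hρ γ M b pr M' b' pr' e
  have hpm : p ∈ τ.mt e.1 ∪ τ'.mt e.2 := by
    rcases hm with hm | hm
    · exact Finset.mem_union_left _ (h.ms hm _ h1).1
    · exact Finset.mem_union_right _ (h'.ms hm _ h2).1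
  have a2 := Finset.single_le_sum (f := fun l => vXl γ ρ l M b pr M' b' pr' e)
    (fun l _ => vXl_nonneg hρ γ l M b pr M' b' pr' e) hpm
  unfold pE
  have a1 : vEl γ ρ M b pr M' b' pr' e ≤
      (((τ.mt e.1).card : ℝ) + ((τ'.mt e.2).card : ℝ) + 1) * vEl γ ρ M b pr M' b' pr' e := by
    have : (1:ℝ) ≤ ((τ.mt e.1).card : ℝ) + ((τ'.mt e.2).card : ℝ) + 1 := by
      have := Nat.cast_nonneg (α := ℝ) (τ.mt e.1).card
      have := Nat.cast_nonneg (α := ℝ) (τ'.mt e.2).card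
      linarith
    nlinarith
  linarith

/-- stop: pays `vEl` -/
lemma pE_stop (hρ : ∀ q, 0 < ρ q) (γ : ℝ) (τ τ' : IT) (M b pr M' b' pr' : ℕ) (e : ℕ × ℕ) :
    vEl γ ρ M b pr M' b' pr' e ≤ pE γ ρ τ τ' M b pr M' b' pr' e := by
  have n1 := vEl_nonneg hρ γ M b pr M' b' pr' e
  have n2 : 0 ≤ ∑ l ∈ τ.mt e.1 ∪ τ'.mt e.2, vXl γ ρ l M b pr M' b' pr' e :=
    Finset.sum_nonneg fun l _ => vXl_nonneg hρ γ l M b pr M' b' pr' e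
  unfold pE
  have : (1:ℝ) ≤ ((τ.mt e.1).card : ℝ) + ((τ'.mt e.2).card : ℝ) + 1 := by
    have := Nat.cast_nonneg (α := ℝ) (τ.mt e.1).card
    have := Nat.cast_nonneg (α := ℝ) (τ'.mt e.2).card
    linarith
  nlinarith

end

open Classical in
/-- four blocks -/
lemma blocks {V V₁ V₀ W W₁ W₀ : Finset ℕ} (h1 : V₁ ⊆ V) (h0 : V₀ ⊆ V) (hd : Disjoint V₁ V₀)
    (k1 : W₁ ⊆ W) (k0 : W₀ ⊆ W) (kd : Disjoint W₁ W₀) (P : ℕ × ℕ → Prop)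
    {F f11 f10 f01 f00 : ℕ × ℕ → ℝ} (hF : ∀ e, 0 ≤ F e)
    (g11 : ∀ e ∈ V₁ ×ˢ W₁, f11 e ≤ F e) (g10 : ∀ e ∈ V₁ ×ˢ W₀, f10 e ≤ F e)
    (g01 : ∀ e ∈ V₀ ×ˢ W₁, f01 e ≤ F e) (g00 : ∀ e ∈ V₀ ×ˢ W₀, f00 e ≤ F e) :
    ∑ e ∈ (V₁ ×ˢ W₁).filter P, f11 e + ∑ e ∈ (V₁ ×ˢ W₀).filter P, f10 e +
      ∑ e ∈ (V₀ ×ˢ W₁).filter P, f01 e + ∑ e ∈ (V₀ ×ˢ W₀).filter P, f00 e ≤
      ∑ e ∈ (V ×ˢ W).filter P, F e := by
  have s11 : ∑ e ∈ (V₁ ×ˢ W₁).filter P, f11 e ≤ ∑ e ∈ (V₁ ×ˢ W₁).filter P, F e :=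
    Finset.sum_le_sum fun e he => g11 e (Finset.mem_filter.1 he).1
  have s10 : ∑ e ∈ (V₁ ×ˢ W₀).filter P, f10 e ≤ ∑ e ∈ (V₁ ×ˢ W₀).filter P, F e :=
    Finset.sum_le_sum fun e he => g10 e (Finset.mem_filter.1 he).1
  have s01 : ∑ e ∈ (V₀ ×ˢ W₁).filter P, f01 e ≤ ∑ e ∈ (V₀ ×ˢ W₁).filter P, F e :=
    Finset.sum_le_sum fun e he => g01 e (Finset.mem_filter.1 he).1
  have s00 : ∑ e ∈ (V₀ ×ˢ W₀).filter P, f00 e ≤ ∑ e ∈ (V₀ ×ˢ W₀).filter P, F e :=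
    Finset.sum_le_sum fun e he => g00 e (Finset.mem_filter.1 he).1
  have dj : ∀ {A A' B B' : Finset ℕ}, (Disjoint A A' ∨ Disjoint B B') →
      Disjoint ((A ×ˢ B).filter P) ((A' ×ˢ B').filter P) := by
    intro A A' B B' h
    rw [Finset.disjoint_left]
    intro e he he'
    obtain ⟨a1, a2⟩ := Finset.mem_product.1 (Finset.mem_filter.1 he).1
    obtain ⟨b1, b2⟩ := Finset.mem_product.1 (Finset.mem_filter.1 he').1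
    rcases h with h | h
    · exact Finset.disjoint_left.1 h a1 b1
    · exact Finset.disjoint_left.1 h a2 b2
  have u1 : ∑ e ∈ (V₁ ×ˢ W₁).filter P, F e + ∑ e ∈ (V₁ ×ˢ W₀).filter P, F e =
      ∑ e ∈ (V₁ ×ˢ W₁).filter P ∪ (V₁ ×ˢ W₀).filter P, F e :=
    (Finset.sum_union (dj (Or.inr kd))).symm
  have u0 : ∑ e ∈ (V₀ ×ˢ W₁).filter P, F e + ∑ e ∈ (V₀ ×ˢ W₀).filter P, F e =
      ∑ e ∈ (V₀ ×ˢ W₁).filter P ∪ (V₀ ×ˢ W₀).filter P, F e :=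
    (Finset.sum_union (dj (Or.inr kd))).symm
  have u : ∑ e ∈ (V₁ ×ˢ W₁).filter P ∪ (V₁ ×ˢ W₀).filter P, F e +
      ∑ e ∈ (V₀ ×ˢ W₁).filter P ∪ (V₀ ×ˢ W₀).filter P, F e =
      ∑ e ∈ ((V₁ ×ˢ W₁).filter P ∪ (V₁ ×ˢ W₀).filter P) ∪
        ((V₀ ×ˢ W₁).filter P ∪ (V₀ ×ˢ W₀).filter P), F e := by
    refine (Finset.sum_union ?_).symm
    rw [Finset.disjoint_union_left, Finset.disjoint_union_right, Finset.disjoint_union_right]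
    exact ⟨⟨dj (Or.inl hd), dj (Or.inl hd)⟩, ⟨dj (Or.inl hd), dj (Or.inl hd)⟩⟩
  have hsub : ((V₁ ×ˢ W₁).filter P ∪ (V₁ ×ˢ W₀).filter P) ∪
        ((V₀ ×ˢ W₁).filter P ∪ (V₀ ×ˢ W₀).filter P) ⊆ (V ×ˢ W).filter P := by
    intro e he
    simp only [Finset.mem_union, Finset.mem_filter, Finset.mem_product] at he ⊢
    rcases he with (⟨⟨a, b⟩, c⟩ | ⟨⟨a, b⟩, c⟩) | (⟨⟨a, b⟩, c⟩ | ⟨⟨a, b⟩, c⟩)
    · exact ⟨⟨h1 a, k1 b⟩, c⟩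
    · exact ⟨⟨h1 a, k0 b⟩, c⟩
    · exact ⟨⟨h0 a, k1 b⟩, c⟩
    · exact ⟨⟨h0 a, k0 b⟩, c⟩
  have fin := Finset.sum_le_sum_of_subset_of_nonneg (f := F) hsub fun e _ _ => hF e
  linarith

end Crest.Agent.R4.PotL709
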