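import Crest.Agent.R4.InG207
import Crest.Agent.R4.LL207

/-!
R4 (S0004), helper207: **energy of the pairs of one node with the same index and different retained
parts, in moduli and radii** (`rse_abs`): the numbers of `ing_ret` and `ll_total` put together.

`S` = moduli of the alive items of the node, `ct` = targets of the cells used (`γ` or the label),
`lab` = labels of the labelled items (`SL`), `η` = relative width of the cells times the imbalance.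
-/

set_option autoImplicit false
open Finset

namespace Crest.Agent.R4.RseN207

open Crest.Agent.R4.HVW560 Crest.Agent.R4.HVWX793
open Crest.Agent.R4.ClsS (eps1)
open Crest.Agent.R4.LF363 (Lab)
open Crest.Agent.R4.InX944
open Crest.Agent.R4.StopAsm709

/-- polylog times `exp (-(log p)^(4/5)/500)` is small -/
lemma small (c K : ℝ) {δ : ℝ} (hδ : 0 < δ) : ∃ p₁ : ℕ, ∀ p : ℕ, p₁ ≤ p →
    c * Real.log p ^ K * Real.exp (-(1/500) * Real.log p ^ (4/5:ℝ)) ≤ δ := by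
  have h1 : Filter.Tendsto (fun x : ℝ => x ^ (5/4*K) * Real.exp (-(1/500) * x)) Filter.atTop
      (nhds 0) := tendsto_rpow_mul_exp_neg_mul_atTop_nhds_zero _ _ (by norm_num)
  have h2 : Filter.Tendsto (fun p : ℕ => Real.log (p:ℝ) ^ (4/5:ℝ)) Filter.atTop Filter.atTop :=
    (tendsto_rpow_atTop (by norm_num)).comp (Real.tendsto_log_atTop.comp tendsto_natCast_atTop_atTop)
  have h3 := (h1.comp h2).const_mul c
  rw [mul_zero] at h3
  have h4 := h3.eventually (gt_mem_nhds hδ)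
  obtain ⟨p₁, hp₁⟩ := Filter.eventually_atTop.1 h4
  refine ⟨max p₁ 3, fun p hp => ?_⟩
  have h5 := (hp₁ p (le_trans (le_max_left _ _) hp)).le
  simp only [Function.comp] at h5
  have hp3 : (3:ℝ) ≤ p := by exact_mod_cast le_trans (le_max_right _ _) hp
  have hl : 0 ≤ Real.log (p:ℝ) := Real.log_nonneg (by linarith)
  rw [← Real.rpow_mul hl] at h5
  have e : (4/5:ℝ) * (5/4*K) = K := by ring
  rw [e] at h5
  calc _ = c * (Real.log p ^ K * Real.exp (-(1/500) * Real.log p ^ (4/5:ℝ))) := by ring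
    _ ≤ δ := h5

/-- large logarithms -/
lemma log_large (B : ℝ) : ∃ p₁ : ℕ, ∀ p : ℕ, p₁ ≤ p → B ≤ Real.log (p:ℝ) := by
  have h2 : Filter.Tendsto (fun p : ℕ => Real.log (p:ℝ)) Filter.atTop Filter.atTop :=
    Real.tendsto_log_atTop.comp tendsto_natCast_atTop_atTop
  exact Filter.eventually_atTop.1 (h2.eventually (Filter.eventually_ge_atTop B))

/-- choice of the scale `2^n` -/
lemma exists_scale {c1 T0 : ℝ} (hc1 : 0 < c1) : ∃ p₁ : ℕ, ∀ p : ℕ, p₁ ≤ p → ∃ n : ℕ, 400 ≤ n ∧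
    T0 ≤ (2:ℝ)^n ∧ (p:ℝ)^2 ≤ Real.exp (((2:ℝ)^n)^c1) ∧ (2:ℝ)^n ≤ 2 * (2 * Real.log p)^(1/c1) := by
  obtain ⟨pa, hpa⟩ := log_large (1/2 * (max T0 ((2:ℝ)^(400:ℕ)))^c1)
  obtain ⟨pb, hpb⟩ := log_large 1
  refine ⟨max (max pa pb) 3, fun p hp => ?_⟩
  have h1 := hpa p (le_trans (le_trans (le_max_left _ _) (le_max_left _ _)) hp)
  have h2 := hpb p (le_trans (le_trans (le_max_right _ _) (le_max_left _ _)) hp)
  have hp3 : (3:ℝ) ≤ p := by exact_mod_cast le_trans (le_max_right _ _) hp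
  set ℓ := Real.log (p:ℝ) with hℓ
  set Y := (2*ℓ)^(1/c1) with hY
  have hM0 : (0:ℝ) ≤ max T0 (2^400) := le_trans (by positivity) (le_max_right _ _)
  have h3 : max T0 (2^400) ≤ Y := by
    have h4 : (max T0 (2^400))^c1 ≤ 2*ℓ := by linarith
    calc max T0 (2^400) = ((max T0 (2^400))^c1)^(1/c1) := by
          rw [← Real.rpow_mul hM0, mul_one_div_cancel hc1.ne', Real.rpow_one]
      _ ≤ Y := Real.rpow_le_rpow (by positivity) h4 (by positivity)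
  have hY0 : 0 < Y := lt_of_lt_of_le (lt_of_lt_of_le (by positivity) (le_max_right T0 (2^400))) h3
  have hY1 : 1 ≤ Y := by
    refine le_trans ?_ h3
    refine le_trans ?_ (le_max_right _ _)
    exact one_le_pow₀ (by norm_num)
  -- n with 2^(n-1) < Y ≤ 2^n
  obtain ⟨n, hn1, hn2⟩ := exists_nat_pow_near hY1 (one_lt_two)
  refine ⟨n+1, ?_, ?_, ?_, ?_⟩
  · by_contra hlt
    push Not at hlt
    have h5 : (2:ℝ)^(n+1) ≤ 2^400 := pow_le_pow_right₀ (by norm_num) (by omega)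
    have h6 : (2:ℝ)^400 ≤ Y := (le_max_right _ _).trans h3
    linarith
  · exact (le_max_left _ _).trans (h3.trans hn2.le)
  · have h5 : 2*ℓ ≤ ((2:ℝ)^(n+1))^c1 := by
      calc 2*ℓ = Y^c1 := by
            rw [hY, ← Real.rpow_mul (by linarith), one_div_mul_cancel hc1.ne', Real.rpow_one]
        _ ≤ _ := Real.rpow_le_rpow hY0.le hn2.le hc1.le
    have h6 : (p:ℝ)^2 = Real.exp (2*ℓ) := by
      rw [hℓ, two_mul, Real.exp_add, Real.exp_log (by linarith)]; ring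
    rw [h6]
    exact Real.exp_le_exp.2 h5
  · rw [pow_succ]
    linarith

set_option maxHeartbeats 4000000 in
/-- **rseR in moduli and radii.** -/
theorem rse_abs (CL C2 : ℝ) (hCL : 0 ≤ CL) (hC2 : 0 ≤ C2) {κ : ℝ} (hκ : 0 < κ) :
    ∃ p₁ : ℕ, ∀ p : ℕ, p₁ ≤ p → ∃ n : ℕ, 400 ≤ n ∧
    ∀ (η θ : ℝ) (S SL : Finset ℕ) (E : Finset (ℕ × ℕ)) (R ct a : ℕ → ℝ) (lab : ℕ → ℚ)
      (Λf : Finset ℚ) (F : ℕ × ℕ → ℝ),
    0 < η → η ≤ Real.exp (-(Real.log p ^ (4/5:ℝ))) → E ⊆ S ×ˢ S → SL ⊆ S →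
    (((S.image ct).card : ℕ) : ℝ) ≤ Real.log p ^ 2 → ((Λf.card : ℕ) : ℝ) ≤ Real.log p →
    (∀ w ∈ S, Squarefree w ∧ 0 < R w) → (∀ w ∈ S, R w ≤ CL * Real.log p * wt R w) →
    (∀ z : ℝ, (p:ℝ)^2 ≤ z → ∀ w ∈ S, Crest.Agent.R4.ClsB.Tame z 1 w) →
    ∑ w ∈ S, wt R w ≤ Real.log p ^ C2 →
    (∀ e ∈ E, p ≤ cof e.1 e.2 ∨ p ≤ cof e.2 e.1) →
    (∀ e ∈ E, F e ≤ 2 * ((R e.1 * R e.2) / DP R R e) * (2 * η * DP R R e + 1)) →
    (∀ e ∈ E, 0 < F e → ∃ m m' : ℤ,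
      |(m + ct e.1) * (cof e.2 e.1 : ℕ) - (m' + ct e.2) * (cof e.1 e.2 : ℕ)| ≤ η * DP R R e) →
    (∀ q ∈ SL, (Lab θ (a q) (lab q) ∧ a q ≤ R q) ∨ (lab q ∈ Λf ∧ (p:ℝ)⁻¹ ≤ R q)) →
    (∀ e ∈ E, 0 < F e →
      FS n (ct e.1) (ct e.2) (cof e.1 e.2) (cof e.2 e.1) (η * R e.1) (η * R e.2) →
      e.1 ∈ SL ∧ e.2 ∈ SL ∧ lab e.1 ≠ lab e.2 ∧ (p:ℝ) ≤ (LL207.Zc (lab e.1) (lab e.2) : ℝ) ∧
      ∃ m m' : ℤ, ((m:ℝ) + lab e.1) * (cof e.2 e.1 : ℕ) = (m' + lab e.2) * (cof e.1 e.2 : ℕ)) →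
    ∑ e ∈ E, F e ≤ κ * ∑ w ∈ S, wt R w := by
  classical
  obtain ⟨C, c0, hC1, hc0, H⟩ := InG207.ing_ret
  obtain ⟨T0, hT01, H⟩ := H c0 hc0 le_rfl
  have hKH := (KH_pos 1 0 eps1).le
  have hCX := LL207.CX_pos
  have hLe := LL207.CL_nonneg (ε := LL207.e1) (by unfold LL207.e1; norm_num)
  obtain ⟨pa, hpa⟩ := exists_scale (c1 := c0) (T0 := T0) hc0
  obtain ⟨pb, hpb⟩ := log_large 1
  -- four small quantities
  obtain ⟨p1, hp1⟩ := small (6 * CL^2) (2 + C2) (δ := κ/4) (by positivity)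
  obtain ⟨p2, hp2⟩ := small (6 * CL^2 * (2 * KH 1 0 eps1 + C) * (2 * 2^(1/c0))^2)
    (6 + 2/c0 + C2) (δ := κ/4) (by positivity)
  obtain ⟨p3, hp3⟩ := small (12 * CL) 3 (δ := κ/4) (by positivity)
  obtain ⟨p4, hp4⟩ := small (10^5 * LL207.CL LL207.e1 * (6 * CL^2) * (LL207.CX + 1)) (3 + C2)
    (δ := κ/4) (by positivity)
  refine ⟨pa + pb + p1 + p2 + p3 + p4 + 3, fun p hp => ?_⟩
  obtain ⟨n, hn400, hnT, hnX, hnU⟩ := hpa p (by omega)
  refine ⟨n, hn400, ?_⟩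
  intro η θ S SL E R ct a lab Λf F hη hη1 hES hSL hcard hΛ hS hLS hSt hMb hbig hF hrel hlab hFS
  have hl1 := hpb p (by omega)
  set ℓ := Real.log (p:ℝ) with hℓ
  have hℓ0 : 0 < ℓ := by linarith
  have hpN : 0 < p := by omega
  have hp0 : (0:ℝ) < p := by exact_mod_cast hpN
  have hp1R : (1:ℝ) ≤ p := by exact_mod_cast hpN
  set L := CL * ℓ with hL
  have hL0 : 0 ≤ L := by positivity
  set M := ∑ w ∈ S, wt R w with hM
  have hwt : ∀ q ∈ S, 0 ≤ wt R q := fun q hq => by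
    unfold wt; exact mul_nonneg (hS q hq).2.le (by positivity)
  have hM0 : 0 ≤ M := Finset.sum_nonneg hwt
  have hS0 : ∀ w ∈ S, 0 < w ∧ 0 < R w := fun w hw =>
    ⟨Nat.pos_of_ne_zero (hS w hw).1.ne_zero, (hS w hw).2⟩
  have hmem : ∀ e ∈ E, e.1 ∈ S ∧ e.2 ∈ S := fun e he => Finset.mem_product.1 (hES he)
  -- powers of the mass
  have hMC : ∀ x : ℝ, 0 ≤ x → x ≤ 1 → M^(1+x) ≤ M * ℓ^C2 := by
    intro x hx0 hx1
    rcases hM0.eq_or_lt with h0 | h0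
    · rw [← h0, Real.zero_rpow (by linarith)]; simp
    · rw [Real.rpow_add h0, Real.rpow_one]
      apply mul_le_mul_of_nonneg_left _ hM0
      calc M^x ≤ (ℓ^C2)^x := Real.rpow_le_rpow hM0 hMb hx0
        _ = ℓ^(C2*x) := by rw [← Real.rpow_mul hℓ0.le]
        _ ≤ ℓ^C2 := Real.rpow_le_rpow_of_exponent_le hl1 (by nlinarith)
  set W := Real.exp (-(1/500) * ℓ^(4/5:ℝ)) with hW
  have hW0 : 0 < W := Real.exp_pos _
  have hx45 : 0 ≤ ℓ^(4/5:ℝ) := by positivity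
  have hx451 : ℓ^(4/5:ℝ) ≤ ℓ := by
    calc ℓ^(4/5:ℝ) ≤ ℓ^(1:ℝ) := Real.rpow_le_rpow_of_exponent_le hl1 (by norm_num)
      _ = ℓ := Real.rpow_one _
  have hηW : η ≤ W := hη1.trans (Real.exp_le_exp.2 (by nlinarith))
  have hηe : η^(2*eps1) ≤ W := by
    have he1 : eps1 = 1/1000 := rfl
    calc η^(2*eps1) ≤ (Real.exp (-(ℓ^(4/5:ℝ))))^(2*eps1) :=
          Real.rpow_le_rpow hη.le hη1 (by rw [he1]; norm_num)
      _ = Real.exp (-(ℓ^(4/5:ℝ)) * (2*eps1)) := by rw [← Real.exp_mul]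
      _ = W := by rw [hW, he1]; congr 1; ring
  have hpinv : (p:ℝ)^(-(1/6):ℝ) ≤ W := by
    rw [Real.rpow_def_of_pos hp0, hW]
    apply Real.exp_le_exp.2
    show ℓ * -(1/6) ≤ _
    nlinarith
  have hpinv1 : 1/(p:ℝ) ≤ W := by
    have : 1/(p:ℝ) = Real.exp (-ℓ) := by
      rw [Real.exp_neg, hℓ, Real.exp_log hp0, one_div]
    rw [this, hW]
    apply Real.exp_le_exp.2
    nlinarith
  -- splitting
  set EF := E.filter (fun e => 0 < F e ∧
    FS n (ct e.1) (ct e.2) (cof e.1 e.2) (cof e.2 e.1) (η * R e.1) (η * R e.2)) with hEF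
  set EG := E.filter (fun e => ¬ (0 < F e ∧
    FS n (ct e.1) (ct e.2) (cof e.1 e.2) (cof e.2 e.1) (η * R e.1) (η * R e.2))) with hEG
  have hsplit : ∑ e ∈ E, F e = ∑ e ∈ EF, F e + ∑ e ∈ EG, F e :=
    (Finset.sum_filter_add_sum_filter_not _ _ _).symm
  -- the unstructured part
  have bG := H ((p:ℝ)^2) L η n 1 p (S.image ct).card S EG R ct F hn400 hpN hnT hnX one_pos hη hL0
    ((Finset.filter_subset _ _).trans hES) le_rfl hS0 hLS hSt
    (fun e he => hbig e (Finset.mem_filter.1 he).1) (fun e he => hF e (Finset.mem_filter.1 he).1)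
    (fun e he hpos => hrel e (Finset.mem_filter.1 he).1 hpos)
    (fun e he hpos h => (Finset.mem_filter.1 he).2 ⟨hpos, h⟩)
  -- the structured part
  have bF := LL207.ll_total (θ := θ) (P := p) (K := 6 * L^2) hp1R (by positivity) (S := SL)
    (R := R) (a := a) (lab := lab) (Λf := Λf) (fun q hq => hS q (hSL hq)) hlab (E := EF)
    (fun e he => by
      obtain ⟨h1, h2, h3⟩ := Finset.mem_filter.1 he
      obtain ⟨h4, h5, -⟩ := hFS e h1 h2 h3
      exact Finset.mem_product.2 ⟨h4, h5⟩) (F := F)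
    (fun e he => by
      obtain ⟨h1, h2, h3⟩ := Finset.mem_filter.1 he
      have hh := hmem e h1
      have hR := (hS _ hh.1).2
      have hR' := (hS _ hh.2).2
      have hD := DP_pos (R := R) (R' := R) (hS0 _ hh.2).1 hR
      have eD : LLpair207.Dp R R e = DP R R e := by
        unfold LLpair207.Dp DP
        exact max_comm _ _
      rw [eD]
      have hηD : η * DP R R e ≤ 1 := by
        obtain ⟨t, m1, m1', ρ, ρ', ht, -, hDt, -⟩ := h3
        have ht1 : 1 ≤ t := (one_le_pow₀ (by norm_num)).trans ht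
        have e1 : max ((cof e.2 e.1 : ℝ) * (η * R e.1)) ((cof e.1 e.2 : ℝ) * (η * R e.2)) =
            η * DP R R e := by
          unfold DP
          rw [mul_max_of_nonneg _ _ hη.le]
          congr 1 <;> ring
        rw [e1] at hDt
        refine hDt.trans ?_
        rw [div_le_one (by linarith)]
        exact ht1
      have hRR : R e.1 * R e.2 ≤ L^2 * (wt R e.1 * wt R e.2) := by
        have f1 := hLS _ hh.1
        have f2 := hLS _ hh.2
        have f5 : 0 ≤ L * wt R e.1 := hR.le.trans f1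
        calc R e.1 * R e.2 ≤ (L * wt R e.1) * (L * wt R e.2) := mul_le_mul f1 f2 hR'.le f5
          _ = _ := by ring
      calc F e ≤ 2 * ((R e.1 * R e.2) / DP R R e) * (2 * η * DP R R e + 1) := hF e h1
        _ ≤ 2 * ((R e.1 * R e.2) / DP R R e) * 3 := by
            apply mul_le_mul_of_nonneg_left _ (by positivity)
            nlinarith
        _ ≤ 2 * ((L^2 * (wt R e.1 * wt R e.2)) / DP R R e) * 3 := by
            gcongr
        _ = 6 * L^2 * (wt R e.1 * wt R e.2 / DP R R e) := by ring)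
    (fun e he hpos => by
      obtain ⟨h1, h2, h3⟩ := Finset.mem_filter.1 he
      obtain ⟨-, -, h6, h7, h8⟩ := hFS e h1 h2 h3
      exact ⟨h6, h7, h8⟩)
  have hNl : (((S.image ct).card : ℕ) : ℝ) ≤ ℓ^2 := hcard
  set N : ℝ := (((S.image ct).card : ℕ) : ℝ) with hN
  have hN0 : 0 ≤ N := Nat.cast_nonneg _
  -- term 1
  have t1 : 6 * η * L^2 * M^2 ≤ κ/4 * M := by
    have h := hp1 p (by omega)
    have h2 : M ≤ ℓ^C2 := hMb
    calc 6 * η * L^2 * M^2 = 6 * L^2 * η * M * M := by ring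
      _ ≤ 6 * L^2 * W * ℓ^C2 * M := by gcongr
      _ = (6 * CL^2) * (ℓ^(2:ℝ) * ℓ^C2) * W * M := by rw [hL, Real.rpow_two]; ring
      _ = (6 * CL^2) * ℓ^(2 + C2) * W * M := by rw [Real.rpow_add hℓ0]
      _ ≤ κ/4 * M := mul_le_mul_of_nonneg_right h hM0
  -- term 2
  have hn2 : (n:ℝ) ≤ (2:ℝ)^n := by
    exact_mod_cast (Nat.lt_two_pow_self (n := n)).le
  set T := (2:ℝ)^n with hT
  have hT1 : 1 ≤ T := one_le_pow₀ (by norm_num)
  have hTT : (2:ℝ)^(2*eps1*n) ≤ T := by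
    have he1 : eps1 = 1/1000 := rfl
    rw [hT, ← Real.rpow_natCast]
    apply Real.rpow_le_rpow_of_exponent_le (by norm_num)
    rw [he1]
    have : (0:ℝ) ≤ n := Nat.cast_nonneg _
    linarith
  have hTC : T^(-(1/1000):ℝ) ≤ 1 := Real.rpow_le_one_of_one_le_of_nonpos hT1 (by norm_num)
  have hB : n * (2 * KH 1 0 eps1 * (2:ℝ)^(2*eps1*n)) + C * T^(-(1/1000):ℝ) ≤
      (2 * KH 1 0 eps1 + C) * T^2 := by
    have h1 : n * (2 * KH 1 0 eps1 * (2:ℝ)^(2*eps1*n)) ≤ T * (2 * KH 1 0 eps1 * T) := by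
      gcongr
    have h2 : C * T^(-(1/1000):ℝ) ≤ C * T^2 := by
      apply mul_le_mul_of_nonneg_left _ (by linarith)
      nlinarith
    nlinarith
  have hT2 : T^2 ≤ (2 * 2^(1/c0))^2 * ℓ^(2/c0) := by
    calc T^2 ≤ (2 * (2*ℓ)^(1/c0))^2 := pow_le_pow_left₀ (by positivity) hnU 2
      _ = (2 * 2^(1/c0))^2 * (ℓ^(1/c0) * ℓ^(1/c0)) := by
          rw [Real.mul_rpow (by norm_num) hℓ0.le]; ring
      _ = _ := by
          rw [← Real.rpow_add hℓ0]
          congr 2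
          ring
  have t2 : N^2 * (6 * L^2 * (n * (2 * KH 1 0 eps1 * (2:ℝ)^(2*eps1*n)) +
        C * T^(-(1/1000):ℝ)) * (η^(2*eps1) * (M * M)^(1/2+eps1))) ≤ κ/4 * M := by
    have h := hp2 p (by omega)
    have he1 : eps1 = 1/1000 := rfl
    have h1 : (M * M)^(1/2+eps1) ≤ M * ℓ^C2 := by
      have e1 : (M * M)^(1/2+eps1) = M^(1+2*eps1) := by
        rw [← sq, ← Real.rpow_natCast M 2, ← Real.rpow_mul hM0]
        congr 1
        push_cast
        ring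
      rw [e1]
      exact hMC (2*eps1) (by rw [he1]; norm_num) (by rw [he1]; norm_num)
    have h0 : 0 ≤ (M * M)^(1/2+eps1) := by positivity
    have hηp : 0 ≤ η^(2*eps1) := by positivity
    calc N^2 * (6 * L^2 * (n * (2 * KH 1 0 eps1 * (2:ℝ)^(2*eps1*n)) +
          C * T^(-(1/1000):ℝ)) * (η^(2*eps1) * (M * M)^(1/2+eps1)))
        ≤ (ℓ^2)^2 * (6 * L^2 * ((2 * KH 1 0 eps1 + C) * ((2 * 2^(1/c0))^2 * ℓ^(2/c0))) *
          (W * (M * ℓ^C2))) := by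
          have h2 := hB.trans (mul_le_mul_of_nonneg_left hT2 (by linarith : 0 ≤ 2 * KH 1 0 eps1 + C))
          gcongr
      _ = (6 * CL^2 * (2 * KH 1 0 eps1 + C) * (2 * 2^(1/c0))^2) *
          (ℓ^(6:ℝ) * ℓ^(2/c0) * ℓ^C2) * W * M := by
          rw [hL]
          have : ℓ^(6:ℝ) = ℓ^6 := by exact_mod_cast Real.rpow_natCast ℓ 6
          rw [this]; ring
      _ = (6 * CL^2 * (2 * KH 1 0 eps1 + C) * (2 * 2^(1/c0))^2) *
          ℓ^(6 + 2/c0 + C2) * W * M := by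
          rw [← Real.rpow_add hℓ0, ← Real.rpow_add hℓ0]
      _ ≤ κ/4 * M := mul_le_mul_of_nonneg_right h hM0
  -- term 3
  have t3 : 12 * N * (L / p) * M ≤ κ/4 * M := by
    have h := hp3 p (by omega)
    apply mul_le_mul_of_nonneg_right _ hM0
    calc 12 * N * (L / p) = 12 * N * L * (1/p) := by ring
      _ ≤ 12 * ℓ^2 * L * W := by gcongr
      _ = 12 * CL * ℓ^(3:ℝ) * W := by
          rw [hL]
          have : ℓ^(3:ℝ) = ℓ^3 := by exact_mod_cast Real.rpow_natCast ℓ 3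
          rw [this]; ring
      _ ≤ κ/4 := h
  -- term 4
  have t4 : (10^5 * LL207.CL LL207.e1) * (6 * L^2) * ((LL207.CX + Λf.card) * (p:ℝ)^(-(1/6) : ℝ)) *
      (∑ q ∈ SL, wt R q)^(1+2*LL207.e1) ≤ κ/4 * M := by
    have h := hp4 p (by omega)
    have he1 : LL207.e1 = 1/1000 := rfl
    have hMSL : ∑ q ∈ SL, wt R q ≤ M :=
      Finset.sum_le_sum_of_subset_of_nonneg hSL fun q hq _ => hwt q hq
    have hMSL0 : 0 ≤ ∑ q ∈ SL, wt R q := Finset.sum_nonneg fun q hq => hwt q (hSL hq)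
    have h1 : (∑ q ∈ SL, wt R q)^(1+2*LL207.e1) ≤ M * ℓ^C2 :=
      (Real.rpow_le_rpow hMSL0 hMSL (by rw [he1]; norm_num)).trans
        (hMC (2*LL207.e1) (by rw [he1]; norm_num) (by rw [he1]; norm_num))
    have h2 : LL207.CX + Λf.card ≤ (LL207.CX + 1) * ℓ := by
      have : ((Λf.card : ℕ) : ℝ) ≤ ℓ := hΛ
      nlinarith
    have h3 : 0 ≤ (∑ q ∈ SL, wt R q)^(1+2*LL207.e1) := by positivity
    calc (10^5 * LL207.CL LL207.e1) * (6 * L^2) * ((LL207.CX + Λf.card) * (p:ℝ)^(-(1/6) : ℝ)) *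
        (∑ q ∈ SL, wt R q)^(1+2*LL207.e1)
        ≤ (10^5 * LL207.CL LL207.e1) * (6 * L^2) * (((LL207.CX + 1) * ℓ) * W) * (M * ℓ^C2) := by
          gcongr
      _ = (10^5 * LL207.CL LL207.e1 * (6 * CL^2) * (LL207.CX + 1)) * (ℓ^(3:ℝ) * ℓ^C2) * W * M := by
          rw [hL]
          have : ℓ^(3:ℝ) = ℓ^3 := by exact_mod_cast Real.rpow_natCast ℓ 3
          rw [this]; ring
      _ = (10^5 * LL207.CL LL207.e1 * (6 * CL^2) * (LL207.CX + 1)) * ℓ^(3 + C2) * W * M := by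
          rw [← Real.rpow_add hℓ0]
      _ ≤ κ/4 * M := mul_le_mul_of_nonneg_right h hM0
  rw [hsplit]
  have := bF.trans t4
  linarith

end Crest.Agent.R4.RseN207
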