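import Crest.Agent.R4.LfDat734
import Crest.Agent.R4.Ret0_709

/-!
R4 (S0004), helper709: the concrete leaf weights have no class at the SEP primes: `SepTop` at every node of
the tree, hence `eRET = 0` along the whole pair walk.
-/

set_option autoImplicit false
set_option linter.unusedSectionVars false

namespace Crest.Agent.R4.Ret0_709

open Crest.Agent.R4.Cnt588 Crest.Agent.R4.Item758 Crest.Agent.R4.Om532 Crest.Agent.R4.OmData532
open Crest.Agent.R4.Bld532 (NS All NodeOk Bk)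
open Crest.Agent.R4.Data758 (rt rt_prime)
open Crest.Agent.R4

/-! ### the weight is periodic without the prime `l` -/

theorem omw_per {good : Prop} {ret : Finset ℕ} {T : ℕ → Finset ℚ} {u : ℕ → ℤ → ℝ} {w : ℕ}
    (hu : Ovl560.LW w.primeFactors u) (hw : w ≠ 0) {l : ℕ} (hl : l.Prime) (hlr : l ∈ ret)
    (hT : T l = ∅) {d : ℕ} (hd : ∀ p ∈ w.primeFactors, p ≠ l → p ∣ d) (a : ℤ) :
    omw good ret T u w (a + d) = omw good ret T u w a := by
  classical
  unfold omw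
  split_ifs with hg
  · unfold Ovl560.nw
    refine Finset.prod_congr rfl fun p hp => ?_
    by_cases hpl : p = l
    · subst hpl
      unfold locw
      rw [if_pos hlr, if_pos hlr, hT]
      simp [cls]
    · obtain ⟨k, hk⟩ := hd p hp hpl
      have := (LW_locw (ret := ret) (T := T) hu).add_mul hp a (k : ℤ)
      rw [← this, hk]
      push_cast
      rfl
  · rfl

/-! ### sub-nodes of the root tree -/

lemma pp_lt (t : IT) : ∀ {n : ℕ}, t.Ok n → ∀ q l : ℕ, l.Prime → l ∣ pp t q → l < n := by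
  induction t with
  | leaf S => intro n _ q l hl h; exact absurd (Nat.dvd_one.1 h) hl.one_lt.ne'
  | br p t₁ t₀ ih₁ ih₀ =>
    intro n hO q l hl h
    obtain ⟨hp, hpn, -, h1, h0⟩ := hO
    unfold pp at h
    split_ifs at h
    · exact (ih₀ h0 q l hl h).trans hpn
    · rcases (Nat.Prime.dvd_mul hl).1 h with h2 | h2
      · exact ((Nat.prime_dvd_prime_iff_eq hl hp).1 h2) ▸ hpn
      · exact (ih₁ h1 q l hl h2).trans hpn
  | add p t₁ t₀ ih₁ ih₀ =>
    intro n hO q l hl h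
    obtain ⟨hp, hpn, -, h1, h0⟩ := hO
    unfold pp at h
    split_ifs at h
    · exact (ih₀ h0 q l hl h).trans hpn
    · exact (ih₁ h1 q l hl h).trans hpn
  | up p Sp t ih =>
    intro n hO q l hl h
    obtain ⟨hp, hpn, -, h1⟩ := hO
    exact (ih h1 q l hl h).trans hpn

/-- SEP-present and `up`-present primes are different -/
lemma sp_uq_disj (t : IT) : ∀ {n : ℕ}, t.Ok n → ∀ q b : ℕ, b ∈ t.sp q → b ∉ t.uq q := by
  induction t with
  | leaf S => intro n _ q b hb; simp [IT.sp] at hb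
  | br p t₁ t₀ ih₁ ih₀ =>
    intro n hO q b hb
    obtain ⟨hp, hpn, -, h1, h0⟩ := hO
    simp only [IT.sp, IT.uq] at hb ⊢
    split_ifs at hb ⊢ with hq
    · exact ih₀ h0 q b hb
    · exact ih₁ h1 q b hb
  | add p t₁ t₀ ih₁ ih₀ =>
    intro n hO q b hb
    obtain ⟨hp, hpn, -, h1, h0⟩ := hO
    simp only [IT.sp, IT.uq] at hb ⊢
    split_ifs at hb ⊢ with hq
    · exact ih₀ h0 q b hb
    · rcases Finset.mem_insert.1 hb with rfl | hb
      · intro hu
        exact absurd (rt_prime t₁ h1 q b (Finset.mem_union_right _ hu)).2 (lt_irrefl _)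
      · exact ih₁ h1 q b hb
  | up p Sp t ih =>
    intro n hO q b hb
    obtain ⟨hp, hpn, -, h1⟩ := hO
    simp only [IT.sp, IT.uq] at hb ⊢
    split_ifs with hq
    · intro hu
      rcases Finset.mem_insert.1 hu with rfl | hu
      · exact absurd (rt_prime t h1 q b (Finset.mem_union_left _ hb)).2 (lt_irrefl _)
      · exact ih h1 q b hb hu
    · exact ih h1 q b hb

/-- facts of a sub-node relative to the root tree -/
def NR (T : IT) (u : NS) (τ : IT) : Prop :=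
  τ.Ok u.n ∧ ∀ q ∈ τ.items, pp T q = u.A * pp τ q ∧ mp T q = u.B * mp τ q ∧ τ.sp q ⊆ T.sp q ∧
    τ.uq q ⊆ T.uq q

theorem All_NR {T : IT} (τ : IT) : ∀ u : NS, NR T u τ → All (NR T) u τ := by
  induction τ with
  | leaf S => intro u h; exact h
  | br p t₁ t₀ ih₁ ih₀ =>
    intro u h
    obtain ⟨⟨hp, hpn, hd, h1, h0⟩, hq⟩ := h
    refine ⟨⟨⟨hp, hpn, hd, h1, h0⟩, hq⟩, ih₁ _ ⟨h1, fun q hq1 => ?_⟩, ih₀ _ ⟨h0, fun q hq0 => ?_⟩⟩
    · have hn : q ∉ t₀.items := Finset.disjoint_left.1 hd hq1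
      obtain ⟨a1, a2, a3, a4⟩ := hq q (Finset.mem_union_left _ hq1)
      simp only [pp, mp, IT.sp, IT.uq, if_neg hn] at a1 a2 a3 a4
      exact ⟨by rw [a1, mul_assoc], a2, a3, a4⟩
    · obtain ⟨a1, a2, a3, a4⟩ := hq q (Finset.mem_union_right _ hq0)
      simp only [pp, mp, IT.sp, IT.uq, if_pos hq0] at a1 a2 a3 a4
      exact ⟨a1, by rw [a2, mul_assoc], a3, a4⟩
  | add p t₁ t₀ ih₁ ih₀ =>
    intro u h
    obtain ⟨⟨hp, hpn, hd, h1, h0⟩, hq⟩ := h
    refine ⟨⟨⟨hp, hpn, hd, h1, h0⟩, hq⟩, ih₁ _ ⟨h1, fun q hq1 => ?_⟩, ih₀ _ ⟨h0, fun q hq0 => ?_⟩⟩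
    · have hn : q ∉ t₀.items := Finset.disjoint_left.1 hd hq1
      obtain ⟨a1, a2, a3, a4⟩ := hq q (Finset.mem_union_left _ hq1)
      simp only [pp, mp, IT.sp, IT.uq, if_neg hn] at a1 a2 a3 a4
      exact ⟨a1, a2, (Finset.subset_insert _ _).trans a3, a4⟩
    · obtain ⟨a1, a2, a3, a4⟩ := hq q (Finset.mem_union_right _ hq0)
      simp only [pp, mp, IT.sp, IT.uq, if_pos hq0] at a1 a2 a3 a4
      exact ⟨a1, a2, a3, a4⟩
  | up p Sp t ih =>
    intro u h
    obtain ⟨⟨hp, hpn, hd, h1⟩, hq⟩ := h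
    refine ⟨⟨⟨hp, hpn, hd, h1⟩, hq⟩, ih _ ⟨h1, fun q hq1 => ?_⟩⟩
    obtain ⟨a1, a2, a3, a4⟩ := hq q hq1
    refine ⟨a1, a2, a3, ?_⟩
    simp only [IT.uq] at a4
    split_ifs at a4
    · exact (Finset.subset_insert _ _).trans a4
    · exact a4

theorem All_NR_root {T : IT} {n : ℕ} (hO : T.Ok n) (c : ℝ) : All (NR T) ⟨n, c, 1, 1⟩ T :=
  All_NR T _ ⟨hO, fun q _ => ⟨(one_mul _).symm, (one_mul _).symm, Finset.Subset.refl _,
    Finset.Subset.refl _⟩⟩

section
variable {Λ κ : Type*} [Fintype Λ] [DecidableEq Λ] [Fintype κ] [DecidableEq κ]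

/-- **no class at the SEP primes** -/
theorem sepTop_of {D : Par Λ κ} {T : IT} {S' : Finset ℕ} {Tc : ℕ → ℕ → Finset ℚ} {th ph : ℕ → ℝ}
    {lab : ℕ → Option ℚ} (hom : ∀ j, D.om j = omT T S' Tc th ph lab (D.it j))
    (hTc : ∀ q, ∀ b ∈ T.sp q, Tc q b = ∅) {P : Bld532.Par} {W : ℕ → ℝ} {u : NS} {τ : IT}
    (hsq : ∀ q ∈ τ.items, Squarefree q) (hN : NodeOk P W u τ) (hR : NR T u τ)
    (hF : Fit u.B u.A τ) : SepTop D u.A τ := by
  cases τ with
  | leaf S => trivial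
  | br p t₁ t₀ => trivial
  | up b Sp t => trivial
  | add p t₁ t₀ =>
    obtain ⟨hp, hpn, -, hmax, hk, hi1, hi0, -⟩ := hN
    obtain ⟨⟨-, -, hd, hO1, hO0⟩, hq⟩ := hR
    refine ⟨hp.pos, fun j hj => ?_⟩
    set q := D.it j with hqd
    have hm : q ∈ (IT.add p t₁ t₀).items := Finset.mem_union_left _ hj
    have hn : q ∉ t₀.items := Finset.disjoint_left.1 hd hj
    have h4 : q ∈ Bld532.pr p (t₁.items ∪ t₀.items) := hi1 ▸ hj
    have hpq : p ∣ q := (Bld532.mem_pr.1 h4).2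
    have hsqq := hsq q hm
    have hq0 : 0 < q := Nat.pos_of_ne_zero hsqq.ne_zero
    have hAq : u.A ∣ q := hk.dvd q hm
    have hcop : Nat.Coprime p u.A := by
      rw [Nat.Prime.coprime_iff_not_dvd hp]
      intro h
      exact absurd (hk.geA p hp h) (not_le.2 hpn)
    have hAp : u.A * p ∣ q := Nat.Coprime.mul_dvd_of_dvd_of_dvd hcop.symm hAq hpq
    refine ⟨hAp, fun a => ?_⟩
    rw [hom j]
    obtain ⟨a1, -, a3, -⟩ := hq q hm
    simp only [pp, if_neg hn] at a1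
    have hsp : p ∈ T.sp q := by
      apply a3
      simp only [IT.sp, if_neg hn]
      exact Finset.mem_insert_self _ _
    unfold omT
    rcases eq_or_ne (q / pp T q) 0 with h0 | h0
    · rw [h0]
      unfold omw Ovl560.nw
      simp
    · refine omw_per (LF363.LW_uw _ _ _ _) h0 hp (Finset.mem_union_left _ hsp) (hTc q p hsp)
        (fun l hl hlp => ?_) a
      -- `l ∣ q / pp T q`, `l ≠ p`: `l ∣ q / (A p)`
      have hlp' := Nat.prime_of_mem_primeFactors hl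
      have hl1 : l ∣ q / pp T q := Nat.dvd_of_mem_primeFactors hl
      have hppq : pp T q ∣ q := by
        have h7 := AvgItem710.pp_dvd hF q hm
        simp only [pp, if_neg hn] at h7
        rw [a1]; exact h7
      have hAT : u.A ∣ pp T q := by rw [a1]; exact Dvd.intro _ rfl
      have hl2 : l ∣ q / u.A := by
        refine hl1.trans ?_
        obtain ⟨k, hk'⟩ := hAT
        rw [hk', ← Nat.div_div_eq_div_mul]
        exact Nat.div_dvd_of_dvd (by
          rw [Nat.dvd_div_iff_mul_dvd hAq, ← hk']; exact hppq)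
      have hA0 : 0 < u.A := Nat.pos_of_dvd_of_pos hAq hq0
      obtain ⟨m, hm'⟩ := hAp
      have e1 : q / (u.A * p) = m := by
        conv_lhs => rw [hm']
        exact Nat.mul_div_cancel_left m (Nat.mul_pos hA0 hp.pos)
      have e2 : q / u.A = p * m := by
        conv_lhs => rw [hm', mul_assoc]
        exact Nat.mul_div_cancel_left _ hA0
      rw [e1]
      rw [e2] at hl2
      rcases (Nat.Prime.dvd_mul hlp').1 hl2 with h5 | h5
      · exact absurd ((Nat.prime_dvd_prime_iff_eq hlp' hp).1 h5) hlp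
      · exact h5

/-- **`eRET = 0` at a state of the walk in item form** -/
theorem eRET_zero_IS [ClosR758.WRel κ] {D : Par Λ κ} {T : IT} {S' : Finset ℕ} {Tc : ℕ → ℕ → Finset ℚ}
    {th ph : ℕ → ℝ} {lab : ℕ → Option ℚ} (hom : ∀ j, D.om j = omT T S' Tc th ph lab (D.it j))
    (hTc : ∀ q, ∀ b ∈ T.sp q, Tc q b = ∅) {sp : ℕ → Finset Λ} {P : Bld532.Par} {W : ℕ → ℝ}
    {U : ℕ → Finset ℕ} {s : Walk560.St Λ κ} {u u' : NS} {τ τ' : IT}
    (hI : WalkIT579.IS D sp P W U s u u' τ τ') (h : AvgItem710.StI D sp s u.B u.A τ u'.B u'.A τ')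
    (hR : NR T u τ) (hR' : NR T u' τ') (stp : Walk560.St Λ κ → Prop) :
    Walk560.eRET stp s = 0 := by
  by_cases hl : s.t.isLeaf ∨ s.t'.isLeaf
  · unfold Walk560.eRET
    rw [if_pos hl]
  rw [not_or] at hl
  have hl1 : ¬ WalkIT579.isL τ := fun h => hl.1 (by rw [hI.tL]; exact (WalkIT579.toDT_leaf D sp _ _ τ).2 h)
  have hl2 : ¬ WalkIT579.isL τ' := fun h => hl.2 (by rw [hI.tR]; exact (WalkIT579.toDT_leaf D sp _ _ τ').2 h)
  have q1 := hI.qL.self
  have q2 := hI.qR.self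
  obtain ⟨p1, p2, -⟩ := WalkIT579.top_of_nodeOk q1.1 hl1
  have e0 : WalkIT579.tp τ = WalkIT579.tp τ' := WalkIT579.tp_eq q1.1 q2.1 hl1 hl2 hI.n_eq
  have e1 : s.p = WalkIT579.tp τ := by
    unfold Walk560.St.p
    rw [hI.tL, hI.tR, WalkIT579.toDT_top, WalkIT579.toDT_top, ← e0, max_self]
  have cop : ∀ M : ℕ, (∀ l : ℕ, l.Prime → l ∣ M → u.n ≤ l) → Nat.Coprime s.p M := by
    intro M hM
    rw [e1, Nat.Prime.coprime_iff_not_dvd p1]
    intro hd
    exact absurd (hM _ p1 hd) (not_le.2 p2)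
  exact eRET_zero h stp (cop _ hI.geM) (cop _ hI.geM')
    (sepTop_of hom hTc (fun q hq => (q1.2 q hq).1) q1.1 hR h.L.hF)
    (sepTop_of hom hTc (fun q hq => (q2.2 q hq).1) q2.1 hR' h.R.hF)

end

/-- the classes of the concrete data -/
lemma TE_sp (P : W363.WP) (γ : ℝ) (r : ℕ → ℝ) {t : IT} {n : ℕ} (hO : t.Ok n) (lab : ℕ → Option ℚ)
    (q : ℕ) : ∀ b ∈ t.sp q, TE P γ r t t.uq lab q b = ∅ := by
  intro b hb
  unfold TE
  rw [if_neg (sp_uq_disj t hO q b hb)]

end Crest.Agent.R4.Ret0_709
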