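import Mathlib
import Crest.Agent.R4.CrossShot709

/-!
R4 (S0004), helper223, module D: helper709's one-shot number with the `[F]` pairs of the crossing level
paid by HVW (`1 < 2 (A mm)^10 D`, `A = b^2`, see `LinkX223`), and the Young forms.
-/

set_option autoImplicit false
open Finset

namespace Crest.Agent.R4.ShotFF223
open Crest.Agent.R4.HVW560 Crest.Agent.R4.HVWX793
open Crest.Agent.R4.Schur709 Crest.Agent.R4.StopHvw709 Crest.Agent.R4.StopAsm709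
open Crest.Agent.R4.ClsS (eps1)
open Crest.Agent.R4.OSCore709 Crest.Agent.R4.CrossShot709

/-- the exact-false pairs of a group, crossing at `b₀`, with the extra factor `A` -/
theorem ff_x_gb {N : ℕ} {O O' V W : Finset ℕ} {E : Finset (ℕ × ℕ)}
    {R R' : ℕ → ℝ} (hO : ∀ p ∈ O, p.Prime ∧ N ≤ p) (hO' : ∀ p ∈ O', p.Prime ∧ N ≤ p)
    (hV : ∀ w ∈ V, 0 < w ∧ 0 < R w) (hW : ∀ w ∈ W, 0 < w ∧ 0 < R' w)
    {b₀ : ℕ} (hb₀ : b₀.Prime) (hbV : ∀ w ∈ V, b₀ ∣ uu O' w)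
    (hbW : ∀ w ∈ W, ¬ b₀ ∣ uu O w) (hE : E ⊆ V ×ˢ W)
    {S S' : Finset ℕ} (hS : S ⊆ O) (hS' : S' ⊆ O')
    (hES : ∀ e ∈ E, miss O e.2 = S ∧ miss O' e.1 = S')
    {K A : ℝ} (hK : 0 ≤ K) (hA : 1 ≤ A) {F : ℕ × ℕ → ℝ} (h1 : ∀ e ∈ E, Dc O O' R R' e ≤ 1)
    (hm : ∀ e ∈ E, 1 < 2 * (A * mm O O' e)^10 * Dc O O' R R' e)
    (hF : ∀ e ∈ E, F e ≤ K * ((mu O' R e.1 * mu O R' e.2) / Dc O O' R R' e)) :
    ∑ e ∈ E, F e ≤ K * (60000 * KH 1 0 eps1 * Bf b₀ eps1 * A^(22/1000:ℝ)) *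
      ((∏ p ∈ S, (p:ℝ))^(22/1000:ℝ) * (∏ p ∈ S', (p:ℝ))^(22/1000:ℝ)) *
      ZG (1/2-eps1) (1/2+eps1) O O' V W S S' (mu O' R) (mu O R') := by
  have he1 : eps1 = 1/1000 := rfl
  have hBf := Bf_nonneg b₀ eps1
  have hA0 : 0 ≤ A := by linarith
  rcases E.eq_empty_or_nonempty with h0 | ⟨e0, he0⟩
  · rw [h0, Finset.sum_empty]
    have := ZG_nonneg (α := 1/2-eps1) (β := 1/2+eps1) (O := O) (O' := O') (S := S) (S' := S') (V := V) (W := W)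
      (μ := mu O' R) (μ' := mu O R') (fun q hq => mu_nonneg (hV q hq).2.le) (fun q hq => mu_nonneg (hW q hq).2.le)
    have := (KH_pos 1 0 eps1).le
    positivity
  set m : ℝ := A * mm O O' e0 with hmd
  have hmm1 : 1 ≤ mm O O' e0 := one_le_mm (fun p hp => (hO p hp).1.pos) (fun p hp => (hO' p hp).1.pos) e0
  have hm1 : 1 ≤ m := by rw [hmd]; nlinarith
  have hmE : ∀ e ∈ E, mm O O' e = mm O O' e0 := by
    intro e he
    unfold mm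
    rw [(hES e he).1, (hES e he).2, (hES e0 he0).1, (hES e0 he0).2]
  have hme : m = A * ((∏ p ∈ S, (p:ℝ)) * (∏ p ∈ S', (p:ℝ))) := by
    rw [hmd]; unfold mm
    rw [(hES e0 he0).1, (hES e0 he0).2]
  obtain ⟨n, hn1, hn2⟩ := pow_near hm1
  have key := mid_dyadic_x_g (ε := eps1) (by rw [he1]; norm_num) (by rw [he1]; norm_num) hO hO' hV hW
    hb₀ hbV hbW hS hS'
    hK (F := F) n E hE hES h1 (by
      intro e he
      have h3 := hm e he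
      rw [hmE e he] at h3
      rw [div_pow, one_pow, div_lt_iff₀ (by positivity)]
      have hD : 0 < Dc O O' R R' e := by
        by_contra hneg
        have : 2 * (A * mm O O' e0)^10 * Dc O O' R R' e ≤ 0 :=
          mul_nonpos_of_nonneg_of_nonpos (by positivity) (not_lt.1 hneg)
        linarith
      rw [← hmd] at h3
      nlinarith) hF
  refine key.trans ?_
  have hZ := ZG_nonneg (α := 1/2-eps1) (β := 1/2+eps1) (O := O) (O' := O') (S := S) (S' := S') (V := V) (W := W)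
      (μ := mu O' R) (μ' := mu O R') (fun q hq => mu_nonneg (hV q hq).2.le) (fun q hq => mu_nonneg (hW q hq).2.le)
  apply mul_le_mul_of_nonneg_right _ hZ
  have hKH := (KH_pos 1 0 eps1).le
  have hp1 : 0 ≤ ∏ p ∈ S, (p:ℝ) := Finset.prod_nonneg fun p _ => by positivity
  have hp2 : 0 ≤ ∏ p ∈ S', (p:ℝ) := Finset.prod_nonneg fun p _ => by positivity
  have e3 : A^(22/1000:ℝ) * ((∏ p ∈ S, (p:ℝ))^(22/1000:ℝ) * (∏ p ∈ S', (p:ℝ))^(22/1000:ℝ)) =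
      m^(22/1000:ℝ) := by
    rw [← Real.mul_rpow hp1 hp2, ← Real.mul_rpow hA0 (mul_nonneg hp1 hp2), ← hme]
  calc (n:ℝ) * (2 * K * KH 1 0 eps1 * Bf b₀ eps1 * (2:ℝ)^(2*eps1*n))
      = (2 * K * KH 1 0 eps1 * Bf b₀ eps1) * ((n:ℝ) * (2:ℝ)^(2*eps1*n)) := by ring
    _ ≤ (2 * K * KH 1 0 eps1 * Bf b₀ eps1) * (30000 * m^(22/1000:ℝ)) :=
        mul_le_mul_of_nonneg_left hn2 (by positivity)
    _ = K * (60000 * KH 1 0 eps1 * Bf b₀ eps1) *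
          (A^(22/1000:ℝ) * ((∏ p ∈ S, (p:ℝ))^(22/1000:ℝ) * (∏ p ∈ S', (p:ℝ))^(22/1000:ℝ))) := by
        rw [e3]; ring
    _ = _ := by ring

/-- all exact-false pairs -/
theorem ff_x_all {N : ℕ} {O O' V W : Finset ℕ} {E : Finset (ℕ × ℕ)}
    {R R' : ℕ → ℝ} (hO : ∀ p ∈ O, p.Prime ∧ N ≤ p) (hO' : ∀ p ∈ O', p.Prime ∧ N ≤ p)
    (hV : ∀ w ∈ V, 0 < w ∧ 0 < R w) (hW : ∀ w ∈ W, 0 < w ∧ 0 < R' w)
    {b₀ : ℕ} (hb₀ : b₀.Prime) (hbV : ∀ w ∈ V, b₀ ∣ uu O' w)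
    (hbW : ∀ w ∈ W, ¬ b₀ ∣ uu O w) (hE : E ⊆ V ×ˢ W)
    {K A : ℝ} (hK : 0 ≤ K) (hA : 1 ≤ A) {F : ℕ × ℕ → ℝ} (h1 : ∀ e ∈ E, Dc O O' R R' e ≤ 1)
    (hm : ∀ e ∈ E, 1 < 2 * (A * mm O O' e)^10 * Dc O O' R R' e)
    (hF : ∀ e ∈ E, F e ≤ K * ((mu O' R e.1 * mu O R' e.2) / Dc O O' R R' e)) :
    ∑ e ∈ E, F e ≤ K * (60000 * KH 1 0 eps1 * Bf b₀ eps1 * A^(22/1000:ℝ)) *
      Real.exp ((1/2-eps1) * ((∑ p ∈ O, (p:ℝ)^(-(11/12):ℝ)) + ∑ p ∈ O', (p:ℝ)^(-(11/12):ℝ))) *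
      ((∑ q ∈ V, om O' q * mu O' R q) * (∑ r ∈ W, om O r * mu O R' r))^(1/2+eps1) := by
  have he1 : eps1 = 1/1000 := rfl
  have hα : (0:ℝ) < 1/2-eps1 := by rw [he1]; norm_num
  have hβ : (0:ℝ) < 1/2+eps1 := by rw [he1]; norm_num
  have hBf := Bf_nonneg b₀ eps1
  have hKH := (KH_pos 1 0 eps1).le
  have sE : ∀ {E : Finset (ℕ × ℕ)} {S S' : Finset ℕ} (e : ℕ × ℕ), e ∈ Eg O O' E S S' → e ∈ E :=
    fun e he => (Finset.mem_filter.1 he).1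
  exact group_sum_t (E := E) (F := F)
    (G := K * (60000 * KH 1 0 eps1 * Bf b₀ eps1 * A^(22/1000:ℝ))) (τ := 22/1000)
    hα hβ (by ring) (by rw [he1]; norm_num) (fun p hp => (hO p hp).1.pos) (fun p hp => (hO' p hp).1.pos)
    hE (fun q hq => mu_nonneg (hV q hq).2.le) (fun q hq => mu_nonneg (hW q hq).2.le)
    (by positivity) (by
      intro S hS S' hS'
      exact ff_x_gb hO hO' hV hW hb₀ hbV hbW (fun e he => hE (sE e he)) hS hS' sub_ES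
        hK hA (fun e he => h1 e (sE e he)) (fun e he => hm e (sE e he)) (fun e he => hF e (sE e he)))

lemma inv_le_pow {p : ℕ} (hp : 1 ≤ p) : 1/(p:ℝ) ≤ (p:ℝ)^(-(11/12):ℝ) := by
  have h0 : (0:ℝ) < p := by exact_mod_cast hp
  rw [one_div, ← Real.rpow_neg_one]
  exact Real.rpow_le_rpow_of_exponent_le (by exact_mod_cast hp) (by norm_num)

open Classical in
/-- **the one-shot number with the `[F]` pairs paid**: `hFG` is supplied by `LinkX223.PE_FX_lower`. -/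
theorem one_shot_ff {CL C0 : ℝ} (hCL : 1 ≤ CL) (hC0 : 0 ≤ C0) : ∃ (cl C1 : ℝ) (b₁ : ℕ), 0 ≤ C1 ∧ 2 ≤ b₁ ∧
    (∀ b : ℕ, b₁ ≤ b → (2:ℝ)^(lev cl b) ≤ (Real.log b)^C1) ∧
    ∀ (N G b : ℕ) (O O' V W : Finset ℕ) (R R' : ℕ → ℝ)
    (γ γ' : Finset ℕ → ℝ) (F : ℕ × ℕ → ℝ) (Q : ℕ × ℕ → Prop),
    b₁ ≤ b → b.Prime → 0 < G →
    (∀ p ∈ O, p.Prime ∧ N ≤ p) → (∀ p ∈ O', p.Prime ∧ N ≤ p) →
    ∑ p ∈ O, (p:ℝ)^(-(11/12):ℝ) ≤ 1 → ∑ p ∈ O', (p:ℝ)^(-(11/12):ℝ) ≤ 1 →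
    (∀ w ∈ V, 0 < w ∧ 0 < R w) → (∀ w ∈ W, 0 < w ∧ 0 < R' w) →
    (∀ w ∈ V, R w ≤ (CL * Real.log b) * mu O' R w) → (∀ w ∈ W, R' w ≤ (CL * Real.log b) * mu O R' w) →
    (∀ w ∈ V, b ∣ uu O' w) → (∀ w ∈ W, ¬ b ∣ uu O w) →
    (∀ z : ℝ, (b:ℝ) ≤ z → ∀ w ∈ V, Crest.Agent.R4.ClsB.Tame z (G * b) (uu O' w)) →
    (∀ z : ℝ, (b:ℝ) ≤ z → ∀ w ∈ W, Crest.Agent.R4.ClsB.Tame z G (uu O w)) →
    (∀ e ∈ V ×ˢ W, Dc O O' R R' e ≤ 1 →
      F e ≤ (Real.log b)^C0 * ((R e.1 * R' e.2) / Dc O O' R R' e)) →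
    (∀ e ∈ V ×ˢ W, Dc O O' R R' e ≤ 1/2^(lev cl b) → 0 < F e → RelG O O' R R' γ γ' e) →
    (∀ e ∈ V ×ˢ W, Dc O O' R R' e ≤ 1/2^(lev cl b) → 0 < F e →
      FX b O O' R R' γ γ' (lev cl b) e →
      1 < 2 * ((b:ℝ)^2 * mm O O' e)^10 * Dc O O' R R' e ∨ Q e) →
    ∑ e ∈ (V ×ˢ W).filter (fun e => Dc O O' R R' e ≤ 1), F e ≤
      (Real.log b)^C1 * ((b:ℝ)^(-(1/2-eps1)) *
        ((∑ q ∈ V, mu O' R q) * (∑ r ∈ W, mu O R' r))^(1/2+eps1) +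
        (b:ℝ)^(-(1/2):ℝ) * ((∑ q ∈ V, R q) * (∑ r ∈ W, R' r))^(1/2:ℝ)) +
      (Real.log b)^C1 * (b:ℝ)^(-(455/1000):ℝ) *
        ((∑ q ∈ V, om O' q * mu O' R q) * (∑ r ∈ W, om O r * mu O R' r))^(1/2+eps1) +
      ∑ e ∈ (V ×ˢ W).filter (fun e => 0 < F e ∧ (Dc O O' R R' e ≤ 1/2^(lev cl b) ∧ Q e)), F e := by
  obtain ⟨cl, C1, b₁, hC1, hb₁, hlev, H⟩ := one_shot hCL hC0
  have he1 : eps1 = 1/1000 := rfl
  have hKH := (KH_pos 1 0 eps1).le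
  obtain ⟨x1, hx1⟩ := Filter.eventually_atTop.1
    ((Real.tendsto_log_atTop.eventually_ge_atTop
      (1 + CL^2 * (120000 * KH 1 0 eps1) * Real.exp 1)))
  refine ⟨cl, C1 + C0 + 3, max b₁ ⌈x1⌉₊, by positivity, hb₁.trans (le_max_left _ _), ?_, ?_⟩
  · intro b hb
    have hbx : x1 ≤ (b:ℝ) := (Nat.le_ceil _).trans (by exact_mod_cast (le_max_right _ _).trans hb)
    have hl1 : 1 ≤ Real.log b := by
      have := hx1 b hbx
      have : 0 ≤ CL^2 * (120000 * KH 1 0 eps1) * Real.exp 1 := by positivity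
      linarith
    exact (hlev b ((le_max_left _ _).trans hb)).trans (Real.rpow_le_rpow_of_exponent_le hl1 (by linarith))
  intro N G b O O' V W R R' γ γ' F Q hb hbp hG hO hO' hsO hsO' hV hW hLV hLW hbV hbW hVt hWt hsmall hrel hFG
  have hb' : b₁ ≤ b := (le_max_left _ _).trans hb
  have hbx : x1 ≤ (b:ℝ) := (Nat.le_ceil _).trans (by exact_mod_cast (le_max_right _ _).trans hb)
  have hlog := hx1 b hbx
  have hX0 : 0 ≤ CL^2 * (120000 * KH 1 0 eps1) * Real.exp 1 := by positivity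
  have hl1 : 1 ≤ Real.log b := by linarith
  have hl0 : 0 < Real.log b := by linarith
  have hb0 : (0:ℝ) < b := by exact_mod_cast hbp.pos
  have hb1 : (1:ℝ) ≤ b := by exact_mod_cast hbp.one_lt.le
  have hs1 : ∑ p ∈ O, 1/(p:ℝ) ≤ 1 :=
    (Finset.sum_le_sum fun p hp => inv_le_pow (hO p hp).1.one_lt.le).trans hsO
  have hs1' : ∑ p ∈ O', 1/(p:ℝ) ≤ 1 :=
    (Finset.sum_le_sum fun p hp => inv_le_pow (hO' p hp).1.one_lt.le).trans hsO'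
  have main := H N G b O O' V W R R' γ γ' F hb' hbp hG hO hO' hs1 hs1' hV hW hLV hLW hbV hbW hVt hWt
    hsmall hrel
  set ℓ := Real.log b with hℓ
  have hmu : ∀ q ∈ V, 0 ≤ mu O' R q := fun q hq => mu_nonneg (hV q hq).2.le
  have hmu' : ∀ q ∈ W, 0 ≤ mu O R' q := fun q hq => mu_nonneg (hW q hq).2.le
  -- the rest splits
  set P := V ×ˢ W with hP
  set EA := P.filter (fun e => 0 < F e ∧ (Dc O O' R R' e ≤ 1/2^(lev cl b) ∧
        FX b O O' R R' γ γ' (lev cl b) e)) with hEA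
  set EF := EA.filter (fun e => 1 < 2 * ((b:ℝ)^2 * mm O O' e)^10 * Dc O O' R R' e) with hEF
  set EQ := EA.filter (fun e => ¬ 1 < 2 * ((b:ℝ)^2 * mm O O' e)^10 * Dc O O' R R' e) with hEQ
  have hsp : ∑ e ∈ EA, F e = ∑ e ∈ EF, F e + ∑ e ∈ EQ, F e := by
    rw [hEF, hEQ, Finset.sum_filter_add_sum_filter_not]
  have hAP : ∀ e ∈ EA, e ∈ P := fun e he => (Finset.mem_filter.1 he).1
  have hD1 : ∀ e ∈ EA, Dc O O' R R' e ≤ 1 := by
    intro e he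
    have h := (Finset.mem_filter.1 he).2.2.1
    refine h.trans ?_
    rw [div_le_one (by positivity)]
    exact one_le_pow₀ (by norm_num)
  have hRR : ∀ e ∈ P, R e.1 * R' e.2 ≤ (CL * ℓ)^2 * (mu O' R e.1 * mu O R' e.2) := by
    intro e he
    have h := Finset.mem_product.1 he
    have h1 := hLV _ h.1
    have h2 := hLW _ h.2
    have h3 := (hW _ h.2).2
    have h5 : 0 ≤ CL * ℓ * mu O' R e.1 := (hV _ h.1).2.le.trans h1
    calc R e.1 * R' e.2 ≤ (CL * ℓ * mu O' R e.1) * (CL * ℓ * mu O R' e.2) :=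
          mul_le_mul h1 h2 h3.le h5
      _ = _ := by ring
  have hDpos : ∀ e ∈ P, 0 < Dc O O' R R' e := by
    intro e he
    have h := Finset.mem_product.1 he
    exact Dc_pos hO hO' (hV _ h.1).2 (hW _ h.2).1
  have hFmu : ∀ e ∈ EA, F e ≤ ℓ^C0 * (CL * ℓ)^2 * ((mu O' R e.1 * mu O R' e.2) / Dc O O' R R' e) := by
    intro e he
    have heP := hAP e he
    calc F e ≤ ℓ^C0 * ((R e.1 * R' e.2) / Dc O O' R R' e) := hsmall e heP (hD1 e he)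
      _ ≤ ℓ^C0 * (((CL * ℓ)^2 * (mu O' R e.1 * mu O R' e.2)) / Dc O O' R R' e) :=
          mul_le_mul_of_nonneg_left (div_le_div_of_nonneg_right (hRR e heP) (hDpos e heP).le) (by positivity)
      _ = _ := by ring
  have hA1 : (1:ℝ) ≤ (b:ℝ)^2 := one_le_pow₀ hb1
  have boundF := ff_x_all (E := EF) (F := F) (K := ℓ^C0 * (CL * ℓ)^2) (A := (b:ℝ)^2) hO hO' hV hW hbp hbV hbW
    (fun e he => hAP e (Finset.mem_filter.1 he).1) (by positivity) hA1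
    (fun e he => hD1 e (Finset.mem_filter.1 he).1) (fun e he => (Finset.mem_filter.1 he).2)
    (fun e he => hFmu e (Finset.mem_filter.1 he).1)
  have boundQ : ∑ e ∈ EQ, F e ≤
      ∑ e ∈ P.filter (fun e => 0 < F e ∧ (Dc O O' R R' e ≤ 1/2^(lev cl b) ∧ Q e)), F e := by
    apply Finset.sum_le_sum_of_subset_of_nonneg
    · intro e he
      obtain ⟨h1, h2⟩ := Finset.mem_filter.1 he
      obtain ⟨h3, h4, h5, h6⟩ := Finset.mem_filter.1 h1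
      rcases hFG e h3 h5 h4 h6 with h7 | h7
      · exact absurd h7 h2
      · exact Finset.mem_filter.2 ⟨h3, h4, h5, h7⟩
    · intro e he _
      exact (Finset.mem_filter.1 he).2.1.le
  set Z := ((∑ q ∈ V, om O' q * mu O' R q) * (∑ r ∈ W, om O r * mu O R' r))^(1/2+eps1) with hZ
  have hZ0 : 0 ≤ Z := Real.rpow_nonneg (mul_nonneg
    (Finset.sum_nonneg fun q hq => mul_nonneg (om_nonneg _ _) (hmu q hq))
    (Finset.sum_nonneg fun q hq => mul_nonneg (om_nonneg _ _) (hmu' q hq))) _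
  have hexp : Real.exp ((1/2-eps1) * ((∑ p ∈ O, (p:ℝ)^(-(11/12):ℝ)) + ∑ p ∈ O', (p:ℝ)^(-(11/12):ℝ)))
      ≤ Real.exp 1 := by
    apply Real.exp_le_exp.2
    rw [he1]; linarith
  have hBf : Bf b eps1 ≤ 2 * (b:ℝ)^(-(499/1000):ℝ) := by
    have := Bf_le hbp (ε := eps1) (by rw [he1]; norm_num) (by rw [he1]; norm_num)
    rw [he1] at this ⊢
    norm_num at this ⊢
    exact this
  have hBf0 := Bf_nonneg b eps1
  have hApow : ((b:ℝ)^2)^(22/1000:ℝ) = (b:ℝ)^(44/1000:ℝ) := by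
    rw [← Real.rpow_natCast, ← Real.rpow_mul hb0.le]; norm_num
  have hmul : (b:ℝ)^(-(499/1000):ℝ) * (b:ℝ)^(44/1000:ℝ) = (b:ℝ)^(-(455/1000):ℝ) := by
    rw [← Real.rpow_add hb0]; norm_num
  have hbF : ∑ e ∈ EF, F e ≤ ℓ^(C1+C0+3) * (b:ℝ)^(-(455/1000):ℝ) * Z := by
    refine boundF.trans ?_
    apply mul_le_mul_of_nonneg_right _ hZ0
    rw [hApow]
    calc ℓ^C0 * (CL * ℓ)^2 * (60000 * KH 1 0 eps1 * Bf b eps1 * (b:ℝ)^(44/1000:ℝ)) *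
          Real.exp ((1/2-eps1) * ((∑ p ∈ O, (p:ℝ)^(-(11/12):ℝ)) + ∑ p ∈ O', (p:ℝ)^(-(11/12):ℝ)))
        ≤ ℓ^C0 * (CL * ℓ)^2 * (60000 * KH 1 0 eps1 * (2 * (b:ℝ)^(-(499/1000):ℝ)) * (b:ℝ)^(44/1000:ℝ)) *
          Real.exp 1 := by
          apply mul_le_mul _ hexp (Real.exp_nonneg _) (by positivity)
          apply mul_le_mul_of_nonneg_left _ (by positivity)
          apply mul_le_mul_of_nonneg_right _ (by positivity)
          exact mul_le_mul_of_nonneg_left hBf (by positivity)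
      _ = (ℓ^C0 * ℓ^2) * (CL^2 * (120000 * KH 1 0 eps1) * Real.exp 1) *
          ((b:ℝ)^(-(499/1000):ℝ) * (b:ℝ)^(44/1000:ℝ)) := by ring
      _ ≤ (ℓ^C0 * ℓ^2) * ℓ * ((b:ℝ)^(-(499/1000):ℝ) * (b:ℝ)^(44/1000:ℝ)) := by
          apply mul_le_mul_of_nonneg_right _ (by positivity)
          apply mul_le_mul_of_nonneg_left _ (by positivity)
          linarith
      _ = ℓ^(C0+3) * (b:ℝ)^(-(455/1000):ℝ) := by
          rw [hmul]
          congr 1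
          rw [show C0 + 3 = C0 + 2 + 1 by ring, Real.rpow_add hl0, Real.rpow_add hl0, Real.rpow_one,
            Real.rpow_two]
      _ ≤ _ := by
          apply mul_le_mul_of_nonneg_right _ (by positivity)
          exact Real.rpow_le_rpow_of_exponent_le hl1 (by linarith)
  have hT : (Real.log b)^C1 * ((b:ℝ)^(-(1/2-eps1)) *
        ((∑ q ∈ V, mu O' R q) * (∑ r ∈ W, mu O R' r))^(1/2+eps1) +
        (b:ℝ)^(-(1/2):ℝ) * ((∑ q ∈ V, R q) * (∑ r ∈ W, R' r))^(1/2:ℝ)) ≤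
      ℓ^(C1+C0+3) * ((b:ℝ)^(-(1/2-eps1)) *
        ((∑ q ∈ V, mu O' R q) * (∑ r ∈ W, mu O R' r))^(1/2+eps1) +
        (b:ℝ)^(-(1/2):ℝ) * ((∑ q ∈ V, R q) * (∑ r ∈ W, R' r))^(1/2:ℝ)) := by
    apply mul_le_mul_of_nonneg_right (Real.rpow_le_rpow_of_exponent_le hl1 (by linarith))
    have h1 : 0 ≤ (∑ q ∈ V, mu O' R q) * (∑ r ∈ W, mu O R' r) :=
      mul_nonneg (Finset.sum_nonneg hmu) (Finset.sum_nonneg hmu')
    have h2 : 0 ≤ (∑ q ∈ V, R q) * (∑ r ∈ W, R' r) :=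
      mul_nonneg (Finset.sum_nonneg fun q hq => (hV q hq).2.le)
        (Finset.sum_nonneg fun q hq => (hW q hq).2.le)
    have h3 := Real.rpow_nonneg h1 (1/2+eps1)
    have h4 := Real.rpow_nonneg h2 (1/2:ℝ)
    positivity
  linarith

/-! ### Young forms -/

/-- **Young**, one side kept linear: `c b^{-α} (x y)^β ≤ ν y + c^{1/α} (x/ν)^{β/α} / b`. -/
theorem young_one {c b x y ν α β : ℝ} (hα : 0 < α) (hβ : 0 < β) (hαβ : α + β = 1) (hc : 0 ≤ c) (hb : 0 < b)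
    (hx : 0 ≤ x) (hy : 0 ≤ y) (hν : 0 < ν) :
    c * b^(-α) * (x * y)^β ≤ ν * y + c^(1/α) * (x/ν)^(β/α) / b := by
  have hp1 : 0 ≤ ν * y := by positivity
  have hp2 : 0 ≤ c^(1/α) * (x/ν)^(β/α) / b := by positivity
  have key := Real.geom_mean_le_arith_mean2_weighted hβ.le hα.le hp1 hp2 (by linarith)
  have e1 : (c^(1/α) * (x/ν)^(β/α) / b)^α = c * (x/ν)^β * b^(-α) := by
    rw [Real.div_rpow (by positivity) hb.le, Real.mul_rpow (by positivity) (by positivity),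
      ← Real.rpow_mul hc, ← Real.rpow_mul (by positivity), one_div, inv_mul_cancel₀ hα.ne', Real.rpow_one,
      div_mul_cancel₀ _ hα.ne', Real.rpow_neg hb.le, div_eq_mul_inv]
  have e2 : (ν * y)^β * (c^(1/α) * (x/ν)^(β/α) / b)^α = c * b^(-α) * (x * y)^β := by
    rw [e1, Real.mul_rpow hν.le hy, Real.div_rpow hx hν.le, Real.mul_rpow hx hy]
    have : ν^β ≠ 0 := (Real.rpow_pos_of_pos hν _).ne'
    field_simp
  rw [e2] at key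
  refine key.trans (add_le_add ?_ ?_)
  · exact mul_le_of_le_one_left hp1 (by linarith)
  · exact mul_le_of_le_one_left hp2 (by linarith)

/-- logs are absorbed by a small power -/
lemma log_absorb (C δ : ℝ) (hδ : 0 < δ) : ∃ b₀ : ℕ, 3 ≤ b₀ ∧ ∀ b : ℕ, b₀ ≤ b →
    1 ≤ Real.log b ∧ (Real.log b)^C ≤ (b:ℝ)^δ := by
  have h := (isLittleO_log_rpow_rpow_atTop C hδ).bound (c := 1) one_pos
  obtain ⟨x0, hx0⟩ := Filter.eventually_atTop.1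
    (h.and (Real.tendsto_log_atTop.eventually_ge_atTop 1))
  refine ⟨max 3 ⌈x0⌉₊, le_max_left _ _, ?_⟩
  intro b hb
  have hbx : x0 ≤ (b:ℝ) := (Nat.le_ceil _).trans (by exact_mod_cast (le_max_right _ _).trans hb)
  obtain ⟨h1, h2⟩ := hx0 b hbx
  refine ⟨h2, ?_⟩
  have hb0 : (0:ℝ) ≤ b := Nat.cast_nonneg b
  rw [Real.norm_of_nonneg (Real.rpow_nonneg (by linarith) _), Real.norm_of_nonneg (Real.rpow_nonneg hb0 _),
    one_mul] at h1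
  exact h1

/-- **Young form of the HVW part**: `polylog(b) b^{-0.455} (x y)^{1/2+eps1} ≤ ν y + b^{-0.91} (x/ν)^{501/499}` -/
theorem young_b (C : ℝ) : ∃ b₀ : ℕ, 3 ≤ b₀ ∧ ∀ b : ℕ, b₀ ≤ b → ∀ x y ν : ℝ, 0 ≤ x → 0 ≤ y → 0 < ν →
    (Real.log b)^C * (b:ℝ)^(-(455/1000):ℝ) * (x * y)^(1/2+eps1) ≤
      ν * y + (b:ℝ)^(-(91/100):ℝ) * (x/ν)^(501/499:ℝ) := by
  obtain ⟨b₀, hb₀, h⟩ := log_absorb C (1/5000) (by norm_num)
  refine ⟨b₀, hb₀, ?_⟩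
  intro b hb x y ν hx hy hν
  obtain ⟨hl1, h2⟩ := h b hb
  have hb0 : (0:ℝ) < b := by
    have : 3 ≤ b := hb₀.trans hb
    exact_mod_cast (by omega : 0 < b)
  have hb1 : (1:ℝ) ≤ b := by exact_mod_cast (by omega : 1 ≤ b)
  have he1 : (1/2+eps1 : ℝ) = 501/1000 := by
    have : eps1 = 1/1000 := rfl
    rw [this]; norm_num
  rw [he1]
  have hxy : 0 ≤ (x*y)^(501/1000:ℝ) := by positivity
  have key := young_one (c := 1) (b := (b:ℝ)^(91/100:ℝ)) (x := x) (y := y) (ν := ν) (α := 499/1000)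
    (β := 501/1000) (by norm_num) (by norm_num) (by norm_num) zero_le_one (by positivity) hx hy hν
  have e1 : ((b:ℝ)^(91/100:ℝ))^(-(499/1000):ℝ) = (b:ℝ)^(-(45409/100000):ℝ) := by
    rw [← Real.rpow_mul hb0.le]; norm_num
  rw [e1, one_mul, Real.one_rpow, one_mul, div_eq_mul_inv _ ((b:ℝ)^(91/100:ℝ)), ← Real.rpow_neg hb0.le,
    mul_comm ((x/ν)^((501/1000:ℝ)/(499/1000))), show (501/1000:ℝ)/(499/1000) = 501/499 by norm_num] at key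
  refine le_trans ?_ key
  apply mul_le_mul_of_nonneg_right _ hxy
  calc (Real.log b)^C * (b:ℝ)^(-(455/1000):ℝ) ≤ (b:ℝ)^(1/5000:ℝ) * (b:ℝ)^(-(455/1000):ℝ) :=
        mul_le_mul_of_nonneg_right h2 (by positivity)
    _ = (b:ℝ)^(1/5000 + -(455/1000):ℝ) := (Real.rpow_add hb0 _ _).symm
    _ ≤ _ := Real.rpow_le_rpow_of_exponent_le hb1 (by norm_num)

/-- **Young form of the matched part** -/
theorem young_sqrt (C : ℝ) : ∃ b₀ : ℕ, 3 ≤ b₀ ∧ ∀ b : ℕ, b₀ ≤ b → ∀ x y ν : ℝ, 0 ≤ x → 0 ≤ y → 0 < ν →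
    (Real.log b)^C * (b:ℝ)^(-(1/2):ℝ) * (x * y)^(1/2:ℝ) ≤ ν * y + (b:ℝ)^(-(99/100):ℝ) * (x/ν) := by
  obtain ⟨b₀, hb₀, h⟩ := log_absorb C (1/200) (by norm_num)
  refine ⟨b₀, hb₀, ?_⟩
  intro b hb x y ν hx hy hν
  obtain ⟨hl1, h2⟩ := h b hb
  have hb0 : (0:ℝ) < b := by
    have : 3 ≤ b := hb₀.trans hb
    exact_mod_cast (by omega : 0 < b)
  have hb1 : (1:ℝ) ≤ b := by exact_mod_cast (by omega : 1 ≤ b)
  have hxy : 0 ≤ (x*y)^(1/2:ℝ) := by positivity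
  have key := young_one (c := 1) (b := (b:ℝ)^(99/100:ℝ)) (x := x) (y := y) (ν := ν) (α := 1/2)
    (β := 1/2) (by norm_num) (by norm_num) (by norm_num) zero_le_one (by positivity) hx hy hν
  have e1 : ((b:ℝ)^(99/100:ℝ))^(-(1/2):ℝ) = (b:ℝ)^(-(99/200):ℝ) := by
    rw [← Real.rpow_mul hb0.le]; norm_num
  rw [e1, one_mul, Real.one_rpow, one_mul, div_eq_mul_inv _ ((b:ℝ)^(99/100:ℝ)), ← Real.rpow_neg hb0.le,
    show (1/2:ℝ)/(1/2) = 1 by norm_num, Real.rpow_one, mul_comm (x/ν)] at key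
  refine le_trans ?_ key
  apply mul_le_mul_of_nonneg_right _ hxy
  calc (Real.log b)^C * (b:ℝ)^(-(1/2):ℝ) ≤ (b:ℝ)^(1/200:ℝ) * (b:ℝ)^(-(1/2):ℝ) :=
        mul_le_mul_of_nonneg_right h2 (by positivity)
    _ = (b:ℝ)^(1/200 + -(1/2):ℝ) := (Real.rpow_add hb0 _ _).symm
    _ ≤ _ := Real.rpow_le_rpow_of_exponent_le hb1 (by norm_num)

end Crest.Agent.R4.ShotFF223
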