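import Mathlib
import Crest.Agent.R4.ShotFF223
import Crest.Agent.R4.Bad223

/-!
R4 (S0004), helper223, module D: the one-shot number with the `[F]` pairs split into

* large factors without the crossing prime (`1 < 2 (a₀ mm)^10 D`),
* `b` accidental for the target of the side without `b` (only `mm = 1` matters: `mm ≠ 1` gives `mm ≥ b`).

Everything has the full factor `b^(-(1/2-ε))`, no loss; the accidental pairs have the explicit factor `acc`.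
-/

set_option autoImplicit false
open Finset

namespace Crest.Agent.R4.ShotG223
open Crest.Agent.R4.HVW560 Crest.Agent.R4.HVWX793
open Crest.Agent.R4.Schur709 Crest.Agent.R4.StopHvw709 Crest.Agent.R4.StopAsm709
open Crest.Agent.R4.ClsS (eps1)
open Crest.Agent.R4.OSCore709 Crest.Agent.R4.CrossShot709 Crest.Agent.R4.Bad223

/-- the exponent of the `[F]` pairs -/
noncomputable def eps2 : ℝ := 1/4000

lemma pow_near2 {m : ℝ} (hm : 1 ≤ m) : ∃ n : ℕ, 2 * m^10 < 2^n ∧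
    (n:ℝ) * (2:ℝ)^(2*eps2*n) ≤ 60000 * m^(6/1000:ℝ) := by
  have he1 : eps2 = 1/4000 := rfl
  have hm10 : (1:ℝ) ≤ m^10 := one_le_pow₀ hm
  obtain ⟨k, hk1, hk2⟩ := exists_nat_pow_near (x := 2 * m^10) (y := (2:ℝ)) (by linarith) (by norm_num)
  refine ⟨k+1, hk2, ?_⟩
  set n : ℕ := k+1 with hn
  have h2n : (2:ℝ)^n ≤ 4 * m^10 := by
    rw [hn, pow_succ]; linarith
  have hl2 : (0.69:ℝ) ≤ Real.log 2 := by have := Real.log_two_gt_d9; linarith
  have h1 : (n:ℝ) ≤ 15000 * (2:ℝ)^((n:ℝ)/10000) := by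
    have h3 : (n:ℝ)/10000 * Real.log 2 + 1 ≤ (2:ℝ)^((n:ℝ)/10000) := by
      rw [Real.rpow_def_of_pos (by norm_num), mul_comm (Real.log 2)]
      exact Real.add_one_le_exp _
    have h4 : (0:ℝ) ≤ n := Nat.cast_nonneg _
    nlinarith
  have h5 : (2:ℝ)^((n:ℝ)/10000) * (2:ℝ)^(2*eps2*n) = ((2:ℝ)^n)^(6/10000:ℝ) := by
    rw [← Real.rpow_add (by norm_num), ← Real.rpow_natCast, ← Real.rpow_mul (by norm_num)]
    congr 1
    rw [he1]; ring
  have h6 : ((2:ℝ)^n)^(6/10000:ℝ) ≤ 4 * m^(6/1000:ℝ) := by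
    calc ((2:ℝ)^n)^(6/10000:ℝ) ≤ (4 * m^10)^(6/10000:ℝ) :=
          Real.rpow_le_rpow (by positivity) h2n (by norm_num)
      _ = 4^(6/10000:ℝ) * m^(6/1000:ℝ) := by
          rw [Real.mul_rpow (by norm_num) (by positivity)]
          congr 1
          rw [← Real.rpow_natCast, ← Real.rpow_mul (by linarith)]
          norm_num
      _ ≤ 4^(1:ℝ) * m^(6/1000:ℝ) := by
          apply mul_le_mul_of_nonneg_right _ (by positivity)
          exact Real.rpow_le_rpow_of_exponent_le (by norm_num) (by norm_num)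
      _ = _ := by rw [Real.rpow_one]
  calc (n:ℝ) * (2:ℝ)^(2*eps2*n) ≤ (15000 * (2:ℝ)^((n:ℝ)/10000)) * (2:ℝ)^(2*eps2*n) :=
        mul_le_mul_of_nonneg_right h1 (by positivity)
    _ = 15000 * ((2:ℝ)^((n:ℝ)/10000) * (2:ℝ)^(2*eps2*n)) := by ring
    _ ≤ 15000 * (4 * m^(6/1000:ℝ)) := by rw [h5]; exact mul_le_mul_of_nonneg_left h6 (by norm_num)
    _ = _ := by ring

/-- the exact-false pairs of a group, crossing at `b₀`, condition `1 < 2 (A mm^j)^10 D` -/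
theorem ff_y_gb {N : ℕ} {O O' V W : Finset ℕ} {E : Finset (ℕ × ℕ)}
    {R R' : ℕ → ℝ} (hO : ∀ p ∈ O, p.Prime ∧ N ≤ p) (hO' : ∀ p ∈ O', p.Prime ∧ N ≤ p)
    (hV : ∀ w ∈ V, 0 < w ∧ 0 < R w) (hW : ∀ w ∈ W, 0 < w ∧ 0 < R' w)
    {b₀ : ℕ} (hb₀ : b₀.Prime) (hbV : ∀ w ∈ V, b₀ ∣ uu O' w)
    (hbW : ∀ w ∈ W, ¬ b₀ ∣ uu O w) (hE : E ⊆ V ×ˢ W)
    {S S' : Finset ℕ} (hS : S ⊆ O) (hS' : S' ⊆ O')
    (hES : ∀ e ∈ E, miss O e.2 = S ∧ miss O' e.1 = S') (j : ℕ)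
    {K A : ℝ} (hK : 0 ≤ K) (hA : 1 ≤ A) {F : ℕ × ℕ → ℝ} (h1 : ∀ e ∈ E, Dc O O' R R' e ≤ 1)
    (hm : ∀ e ∈ E, 1 < 2 * (A * (mm O O' e)^j)^10 * Dc O O' R R' e)
    (hF : ∀ e ∈ E, F e ≤ K * ((mu O' R e.1 * mu O R' e.2) / Dc O O' R R' e)) :
    ∑ e ∈ E, F e ≤ K * (120000 * KH 1 0 eps2 * Bf b₀ eps2 * A^(6/1000:ℝ)) *
      ((∏ p ∈ S, (p:ℝ))^(6*j/1000:ℝ) * (∏ p ∈ S', (p:ℝ))^(6*j/1000:ℝ)) *
      ZG (1/2-eps2) (1/2+eps2) O O' V W S S' (mu O' R) (mu O R') := by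
  have he1 : eps2 = 1/4000 := rfl
  have hBf := Bf_nonneg b₀ eps2
  have hA0 : 0 ≤ A := by linarith
  have hp1 : 0 ≤ ∏ p ∈ S, (p:ℝ) := Finset.prod_nonneg fun p _ => by positivity
  have hp2 : 0 ≤ ∏ p ∈ S', (p:ℝ) := Finset.prod_nonneg fun p _ => by positivity
  rcases E.eq_empty_or_nonempty with h0 | ⟨e0, he0⟩
  · rw [h0, Finset.sum_empty]
    have := ZG_nonneg (α := 1/2-eps2) (β := 1/2+eps2) (O := O) (O' := O') (S := S) (S' := S') (V := V) (W := W)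
      (μ := mu O' R) (μ' := mu O R') (fun q hq => mu_nonneg (hV q hq).2.le) (fun q hq => mu_nonneg (hW q hq).2.le)
    have := (KH_pos 1 0 eps2).le
    positivity
  set m : ℝ := A * (mm O O' e0)^j with hmd
  have hmm1 : 1 ≤ mm O O' e0 := one_le_mm (fun p hp => (hO p hp).1.pos) (fun p hp => (hO' p hp).1.pos) e0
  have hmj : 1 ≤ (mm O O' e0)^j := one_le_pow₀ hmm1
  have hm1 : 1 ≤ m := by rw [hmd]; nlinarith
  have hmE : ∀ e ∈ E, mm O O' e = mm O O' e0 := by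
    intro e he
    unfold mm
    rw [(hES e he).1, (hES e he).2, (hES e0 he0).1, (hES e0 he0).2]
  have hme : m = A * ((∏ p ∈ S, (p:ℝ)) * (∏ p ∈ S', (p:ℝ)))^j := by
    rw [hmd]; unfold mm
    rw [(hES e0 he0).1, (hES e0 he0).2]
  obtain ⟨n, hn1, hn2⟩ := pow_near2 hm1
  have key := mid_dyadic_x_g (ε := eps2) (by rw [he1]; norm_num) (by rw [he1]; norm_num) hO hO' hV hW
    hb₀ hbV hbW hS hS'
    hK (F := F) n E hE hES h1 (by
      intro e he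
      have h3 := hm e he
      rw [hmE e he] at h3
      rw [div_pow, one_pow, div_lt_iff₀ (by positivity)]
      have hD : 0 < Dc O O' R R' e := by
        by_contra hneg
        have : 2 * (A * (mm O O' e0)^j)^10 * Dc O O' R R' e ≤ 0 :=
          mul_nonpos_of_nonneg_of_nonpos (by positivity) (not_lt.1 hneg)
        linarith
      rw [← hmd] at h3
      nlinarith) hF
  refine key.trans ?_
  have hZ := ZG_nonneg (α := 1/2-eps2) (β := 1/2+eps2) (O := O) (O' := O') (S := S) (S' := S') (V := V) (W := W)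
      (μ := mu O' R) (μ' := mu O R') (fun q hq => mu_nonneg (hV q hq).2.le) (fun q hq => mu_nonneg (hW q hq).2.le)
  apply mul_le_mul_of_nonneg_right _ hZ
  have hKH := (KH_pos 1 0 eps2).le
  have e3 : A^(6/1000:ℝ) * ((∏ p ∈ S, (p:ℝ))^(6*j/1000:ℝ) * (∏ p ∈ S', (p:ℝ))^(6*j/1000:ℝ)) =
      m^(6/1000:ℝ) := by
    rw [← Real.mul_rpow hp1 hp2, hme, Real.mul_rpow hA0 (by positivity)]
    congr 1
    rw [← Real.rpow_natCast, ← Real.rpow_mul (mul_nonneg hp1 hp2)]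
    congr 1
    ring
  calc (n:ℝ) * (2 * K * KH 1 0 eps2 * Bf b₀ eps2 * (2:ℝ)^(2*eps2*n))
      = (2 * K * KH 1 0 eps2 * Bf b₀ eps2) * ((n:ℝ) * (2:ℝ)^(2*eps2*n)) := by ring
    _ ≤ (2 * K * KH 1 0 eps2 * Bf b₀ eps2) * (60000 * m^(6/1000:ℝ)) :=
        mul_le_mul_of_nonneg_left hn2 (by positivity)
    _ = K * (120000 * KH 1 0 eps2 * Bf b₀ eps2) *
          (A^(6/1000:ℝ) * ((∏ p ∈ S, (p:ℝ))^(6*j/1000:ℝ) * (∏ p ∈ S', (p:ℝ))^(6*j/1000:ℝ))) := by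
        rw [e3]; ring
    _ = _ := by ring

/-- all exact-false pairs with `1 < 2 (A mm^j)^10 D`, `j ≤ 2` -/
theorem ff_y_all {N : ℕ} {O O' V W : Finset ℕ} {E : Finset (ℕ × ℕ)}
    {R R' : ℕ → ℝ} (hO : ∀ p ∈ O, p.Prime ∧ N ≤ p) (hO' : ∀ p ∈ O', p.Prime ∧ N ≤ p)
    (hV : ∀ w ∈ V, 0 < w ∧ 0 < R w) (hW : ∀ w ∈ W, 0 < w ∧ 0 < R' w)
    {b₀ : ℕ} (hb₀ : b₀.Prime) (hbV : ∀ w ∈ V, b₀ ∣ uu O' w)
    (hbW : ∀ w ∈ W, ¬ b₀ ∣ uu O w) (hE : E ⊆ V ×ˢ W) {j : ℕ} (hj : j ≤ 2)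
    {K A : ℝ} (hK : 0 ≤ K) (hA : 1 ≤ A) {F : ℕ × ℕ → ℝ} (h1 : ∀ e ∈ E, Dc O O' R R' e ≤ 1)
    (hm : ∀ e ∈ E, 1 < 2 * (A * (mm O O' e)^j)^10 * Dc O O' R R' e)
    (hF : ∀ e ∈ E, F e ≤ K * ((mu O' R e.1 * mu O R' e.2) / Dc O O' R R' e))
    (hs : ∑ p ∈ O, (p:ℝ)^(-(11/12):ℝ) ≤ 1) (hs' : ∑ p ∈ O', (p:ℝ)^(-(11/12):ℝ) ≤ 1) :
    ∑ e ∈ E, F e ≤ K * (120000 * KH 1 0 eps2 * Bf b₀ eps2 * A^(6/1000:ℝ)) *
      Real.exp 1 * ((∑ q ∈ V, mu O' R q) * (∑ r ∈ W, mu O R' r))^(1/2+eps2) := by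
  have he1 : eps2 = 1/4000 := rfl
  have hα : (0:ℝ) < 1/2-eps2 := by rw [he1]; norm_num
  have hβ : (0:ℝ) < 1/2+eps2 := by rw [he1]; norm_num
  have hBf := Bf_nonneg b₀ eps2
  have hKH := (KH_pos 1 0 eps2).le
  have hjR : (j:ℝ) ≤ 2 := by exact_mod_cast hj
  have sE : ∀ {E : Finset (ℕ × ℕ)} {S S' : Finset ℕ} (e : ℕ × ℕ), e ∈ Eg O O' E S S' → e ∈ E :=
    fun e he => (Finset.mem_filter.1 he).1
  have hmu : ∀ q ∈ V, 0 ≤ mu O' R q := fun q hq => mu_nonneg (hV q hq).2.le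
  have hmu' : ∀ q ∈ W, 0 ≤ mu O R' q := fun q hq => mu_nonneg (hW q hq).2.le
  have main := group_sum_t (E := E) (F := F)
    (G := K * (120000 * KH 1 0 eps2 * Bf b₀ eps2 * A^(6/1000:ℝ))) (τ := 6*j/1000)
    hα hβ (by ring) (by rw [he1]; linarith) (fun p hp => (hO p hp).1.pos) (fun p hp => (hO' p hp).1.pos)
    hE hmu hmu' (by positivity) (by
      intro S hS S' hS'
      exact ff_y_gb hO hO' hV hW hb₀ hbV hbW (fun e he => hE (sE e he)) hS hS' sub_ES j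
        hK hA (fun e he => h1 e (sE e he)) (fun e he => hm e (sE e he)) (fun e he => hF e (sE e he)))
  refine main.trans ?_
  apply mul_le_mul
  · apply mul_le_mul_of_nonneg_left _ (by positivity)
    apply Real.exp_le_exp.2
    rw [he1]; linarith
  · apply Real.rpow_le_rpow _ _ hβ.le
    · exact mul_nonneg (Finset.sum_nonneg fun q hq => mul_nonneg (om_nonneg _ _) (hmu q hq))
        (Finset.sum_nonneg fun q hq => mul_nonneg (om_nonneg _ _) (hmu' q hq))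
    · apply mul_le_mul
      · exact Finset.sum_le_sum fun q hq => mul_le_of_le_one_left (hmu q hq)
          (om_le_one (fun p hp => (hO' p hp).1.pos) q)
      · exact Finset.sum_le_sum fun q hq => mul_le_of_le_one_left (hmu' q hq)
          (om_le_one (fun p hp => (hO p hp).1.pos) q)
      · exact Finset.sum_nonneg fun q hq => mul_nonneg (om_nonneg _ _) (hmu' q hq)
      · exact Finset.sum_nonneg hmu
  · apply Real.rpow_nonneg
    exact mul_nonneg (Finset.sum_nonneg fun q hq => mul_nonneg (om_nonneg _ _) (hmu q hq))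
        (Finset.sum_nonneg fun q hq => mul_nonneg (om_nonneg _ _) (hmu' q hq))
  · positivity

/-! ### accidental scales -/

/-- number of dyadic scales below `2 b^20` -/
def Kmx (b : ℕ) : ℕ := 20 * Nat.clog 2 b + 2

/-- `b` is accidental for `θ` at a scale in `[2^k, 2^(k+1))`, at least `(log b)^A` -/
def BadK (A : ℝ) (b : ℕ) (θ : ℝ) (k : ℕ) : Prop :=
  ∃ t : ℝ, (2:ℝ)^k ≤ t ∧ t < 2^(k+1) ∧ (Real.log b)^A ≤ t ∧ BadS b θ t

open Classical in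
/-- **the accident factor** -/
noncomputable def acc (A : ℝ) (b : ℕ) (θ : ℝ) : ℝ :=
  ∑ k ∈ Finset.range (Kmx b), if BadK A b θ k then (2:ℝ)^(2*eps2*k) else 0

lemma acc_nonneg (A : ℝ) (b : ℕ) (θ : ℝ) : 0 ≤ acc A b θ := by
  classical
  unfold acc
  apply Finset.sum_nonneg
  intro k _
  split_ifs <;> positivity

lemma lt_Kmx {b k : ℕ} {t D : ℝ} (hb : 1 ≤ b) (hk : (2:ℝ)^k ≤ t) (htD : D ≤ 1/t)
    (hD : 1 < 2 * ((b:ℝ)^2)^10 * D) (ht : 0 < t) : k < Kmx b := by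
  have hb1 : (1:ℝ) ≤ b := by exact_mod_cast hb
  have h1 : (2:ℝ)^k < 2 * (b:ℝ)^20 := by
    have h2 : 1 < 2 * ((b:ℝ)^2)^10 * (1/t) :=
      lt_of_lt_of_le hD (mul_le_mul_of_nonneg_left htD (by positivity))
    have h3 : t < 2 * ((b:ℝ)^2)^10 := by
      rw [mul_one_div, lt_div_iff₀ ht] at h2
      linarith
    calc (2:ℝ)^k ≤ t := hk
      _ < 2 * ((b:ℝ)^2)^10 := h3
      _ = 2 * (b:ℝ)^20 := by ring
  have h4 : b ≤ 2 ^ Nat.clog 2 b := Nat.le_pow_clog (by norm_num) b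
  have h5 : (2:ℝ)^k < (2:ℝ)^(Kmx b) := by
    refine h1.trans_le ?_
    unfold Kmx
    have h6 : (b:ℝ) ≤ (2:ℝ)^(Nat.clog 2 b) := by exact_mod_cast h4
    calc 2 * (b:ℝ)^20 ≤ 2 * ((2:ℝ)^(Nat.clog 2 b))^20 :=
          mul_le_mul_of_nonneg_left (pow_le_pow_left₀ (by positivity) h6 20) (by norm_num)
      _ ≤ 4 * ((2:ℝ)^(Nat.clog 2 b))^20 := by
          apply mul_le_mul_of_nonneg_right (by norm_num) (by positivity)
      _ = _ := by rw [pow_add, mul_comm 20, pow_mul]; ring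
  exact (pow_lt_pow_iff_right₀ (by norm_num)).1 h5

open Classical in
/-- **accidental pairs**: one HVW bound per accidental scale -/
theorem acc_all {N : ℕ} {O O' V W : Finset ℕ} {E : Finset (ℕ × ℕ)}
    {R R' : ℕ → ℝ} (hO : ∀ p ∈ O, p.Prime ∧ N ≤ p) (hO' : ∀ p ∈ O', p.Prime ∧ N ≤ p)
    (hV : ∀ w ∈ V, 0 < w ∧ 0 < R w) (hW : ∀ w ∈ W, 0 < w ∧ 0 < R' w)
    {b₀ : ℕ} (hb₀ : b₀.Prime) (hbV : ∀ w ∈ V, b₀ ∣ uu O' w)
    (hbW : ∀ w ∈ W, ¬ b₀ ∣ uu O w) (hE : E ⊆ V ×ˢ W)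
    {K A θ : ℝ} (hK : 0 ≤ K) {F : ℕ × ℕ → ℝ} (hF0 : ∀ e ∈ E, 0 ≤ F e)
    (hm : ∀ e ∈ E, ∃ k ∈ Finset.range (Kmx b₀), BadK A b₀ θ k ∧
      1/2^(k+2) < Dc O O' R R' e ∧ Dc O O' R R' e ≤ 1/2^k)
    (hF : ∀ e ∈ E, F e ≤ K * ((mu O' R e.1 * mu O R' e.2) / Dc O O' R R' e))
    (hs : ∑ p ∈ O, 1/(p:ℝ) ≤ 1) (hs' : ∑ p ∈ O', 1/(p:ℝ) ≤ 1) :
    ∑ e ∈ E, F e ≤ K * (4 * KH 1 0 eps2 * Bf b₀ eps2) * Real.exp 3 * acc A b₀ θ *
      ((∑ q ∈ V, mu O' R q) * (∑ r ∈ W, mu O R' r))^(1/2+eps2) := by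
  have he1 : eps2 = 1/4000 := rfl
  have hBf := Bf_nonneg b₀ eps2
  have hKH := (KH_pos 1 0 eps2).le
  have hmu : ∀ q ∈ V, 0 ≤ mu O' R q := fun q hq => mu_nonneg (hV q hq).2.le
  have hmu' : ∀ q ∈ W, 0 ≤ mu O R' q := fun q hq => mu_nonneg (hW q hq).2.le
  set Z := ((∑ q ∈ V, mu O' R q) * (∑ r ∈ W, mu O R' r))^(1/2+eps2) with hZ
  have hZ0 : 0 ≤ Z := Real.rpow_nonneg (mul_nonneg (Finset.sum_nonneg hmu) (Finset.sum_nonneg hmu')) _
  set Ek : ℕ → Finset (ℕ × ℕ) := fun k => E.filter (fun e => BadK A b₀ θ k ∧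
      1/2^(k+2) < Dc O O' R R' e ∧ Dc O O' R R' e ≤ 1/2^k) with hEk
  have h1 : ∑ e ∈ E, F e ≤ ∑ k ∈ Finset.range (Kmx b₀), ∑ e ∈ Ek k, F e := by
    have h2 : ∑ k ∈ Finset.range (Kmx b₀), ∑ e ∈ Ek k, F e =
        ∑ e ∈ E, ∑ k ∈ Finset.range (Kmx b₀), if (BadK A b₀ θ k ∧
          1/2^(k+2) < Dc O O' R R' e ∧ Dc O O' R R' e ≤ 1/2^k) then F e else 0 := by
      rw [Finset.sum_comm]
      apply Finset.sum_congr rfl
      intro k _
      rw [hEk, Finset.sum_filter]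
    rw [h2]
    apply Finset.sum_le_sum
    intro e he
    obtain ⟨k, hk, h3⟩ := hm e he
    have h4 := Finset.single_le_sum (f := fun k => if (BadK A b₀ θ k ∧
          1/2^(k+2) < Dc O O' R R' e ∧ Dc O O' R R' e ≤ 1/2^k) then F e else 0)
      (s := Finset.range (Kmx b₀)) (fun i _ => by
        show 0 ≤ if _ then F e else 0
        split_ifs
        · exact hF0 e he
        · exact le_rfl) hk
    refine le_trans (le_of_eq ?_) h4
    show F e = if _ then F e else 0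
    rw [if_pos h3]
  refine h1.trans ?_
  have h5 : ∀ k ∈ Finset.range (Kmx b₀), ∑ e ∈ Ek k, F e ≤
      K * (4 * KH 1 0 eps2 * Bf b₀ eps2) * Real.exp 3 *
        (if BadK A b₀ θ k then (2:ℝ)^(2*eps2*k) else 0) * Z := by
    intro k _
    by_cases hk : BadK A b₀ θ k
    · rw [if_pos hk]
      have hmem : ∀ e ∈ Ek k, e ∈ E ∧ 1/2^(k+2) < Dc O O' R R' e ∧ Dc O O' R R' e ≤ 1/2^k := by
        intro e he
        obtain ⟨a1, _, a2, a3⟩ := Finset.mem_filter.1 he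
        exact ⟨a1, a2, a3⟩
      have T0 : (0:ℝ) < 1/2^k := by positivity
      have key := mid_x (ε := eps2) (by rw [he1]; norm_num) (by rw [he1]; norm_num) (E := Ek k) (F := F)
        hO hO' (fun w hw => (hV w hw).1) (fun w hw => (hW w hw).1) (fun w hw => (hV w hw).2.le)
        (fun w hw => (hW w hw).2.le) (fun e he => hE (hmem e he).1) hb₀ hbV hbW (c := 0) (c' := 0)
        (fun r _ => Finset.sum_nonneg fun p _ => by positivity)
        (fun r _ => Finset.sum_nonneg fun p _ => by positivity) (T := 1/2^k) (K := K * 2^(k+2)) T0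
        (by positivity)
        (fun e he => (le_max_right _ _).trans (hmem e he).2.2)
        (fun e he => (le_max_left _ _).trans (hmem e he).2.2)
        (by
          intro e he
          obtain ⟨a1, a2, a3⟩ := hmem e he
          have hD0 : 0 < Dc O O' R R' e := lt_trans (by positivity) a2
          have hmm0 : 0 ≤ mu O' R e.1 * mu O R' e.2 := by
            have := Finset.mem_product.1 (hE a1)
            exact mul_nonneg (hmu _ this.1) (hmu' _ this.2)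
          refine (hF e a1).trans ?_
          have h6 : (mu O' R e.1 * mu O R' e.2) / Dc O O' R R' e ≤
              2^(k+2) * (mu O' R e.1 * mu O R' e.2) := by
            rw [div_le_iff₀ hD0]
            have h7 : 1 ≤ 2^(k+2) * Dc O O' R R' e := by
              rw [div_lt_iff₀ (by positivity)] at a2
              linarith
            nlinarith
          calc K * ((mu O' R e.1 * mu O R' e.2) / Dc O O' R R' e)
              ≤ K * (2^(k+2) * (mu O' R e.1 * mu O R' e.2)) := mul_le_mul_of_nonneg_left h6 hK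
            _ = _ := by ring)
      refine key.trans ?_
      rw [← hZ]
      have hpw : (2:ℝ)^(k+2) * ((1/2^k : ℝ))^(1-2*eps2) = 4 * (2:ℝ)^(2*eps2*k) := by
        have h8 : (1/2^k : ℝ) = (2:ℝ)^(-(k:ℝ)) := by
          rw [Real.rpow_neg (by norm_num), Real.rpow_natCast, one_div]
        rw [h8, ← Real.rpow_mul (by norm_num), pow_add, ← Real.rpow_natCast, mul_right_comm,
          ← Real.rpow_add (by norm_num)]
        rw [mul_comm]
        congr 1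
        · norm_num
        · congr 1; ring
      have hex : Real.exp ((1/2-eps2) * (-(N*0) + 3 * (∑ p ∈ O, 1/(p:ℝ)) +
          (-(N*0) + 3 * ∑ p ∈ O', 1/(p:ℝ)))) ≤ Real.exp 3 := by
        apply Real.exp_le_exp.2
        rw [he1]
        linarith
      calc K * 2^(k+2) * (KH 1 0 eps2 * ((1/2^k : ℝ))^(1-2*eps2) * Bf b₀ eps2) *
            Real.exp ((1/2-eps2) * (-(N*0) + 3 * (∑ p ∈ O, 1/(p:ℝ)) +
              (-(N*0) + 3 * ∑ p ∈ O', 1/(p:ℝ)))) * Z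
          = K * KH 1 0 eps2 * Bf b₀ eps2 * (2^(k+2) * ((1/2^k : ℝ))^(1-2*eps2)) *
            Real.exp ((1/2-eps2) * (-(N*0) + 3 * (∑ p ∈ O, 1/(p:ℝ)) +
              (-(N*0) + 3 * ∑ p ∈ O', 1/(p:ℝ)))) * Z := by ring
        _ = K * KH 1 0 eps2 * Bf b₀ eps2 * (4 * (2:ℝ)^(2*eps2*k)) *
            Real.exp ((1/2-eps2) * (-(N*0) + 3 * (∑ p ∈ O, 1/(p:ℝ)) +
              (-(N*0) + 3 * ∑ p ∈ O', 1/(p:ℝ)))) * Z := by rw [hpw]
        _ ≤ K * KH 1 0 eps2 * Bf b₀ eps2 * (4 * (2:ℝ)^(2*eps2*k)) * Real.exp 3 * Z := by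
            apply mul_le_mul_of_nonneg_right _ hZ0
            exact mul_le_mul_of_nonneg_left hex (by positivity)
        _ = _ := by ring
    · have h9 : Ek k = ∅ := by
        rw [Finset.eq_empty_iff_forall_notMem]
        intro e he
        exact hk (Finset.mem_filter.1 he).2.1
      rw [h9, Finset.sum_empty, if_neg hk]
      simp
  calc ∑ k ∈ Finset.range (Kmx b₀), ∑ e ∈ Ek k, F e
      ≤ ∑ k ∈ Finset.range (Kmx b₀), K * (4 * KH 1 0 eps2 * Bf b₀ eps2) * Real.exp 3 *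
        (if BadK A b₀ θ k then (2:ℝ)^(2*eps2*k) else 0) * Z := Finset.sum_le_sum h5
    _ = _ := by
        rw [← Finset.sum_mul, ← Finset.mul_sum]
        rfl

lemma mm_cases {N b : ℕ} {O O' : Finset ℕ} (hbN : b ≤ N) (hO : ∀ p ∈ O, p.Prime ∧ N ≤ p)
    (hO' : ∀ p ∈ O', p.Prime ∧ N ≤ p) (e : ℕ × ℕ) :
    (miss O e.2 = ∅ ∧ miss O' e.1 = ∅) ∨ (b:ℝ) ≤ mm O O' e := by
  have one_le : ∀ {U : Finset ℕ} (w : ℕ), (∀ p ∈ U, p.Prime ∧ N ≤ p) →
      (1:ℝ) ≤ ∏ p ∈ miss U w, (p:ℝ) := by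
    intro U w hU
    have : (1:ℕ) ≤ ∏ p ∈ miss U w, p :=
      Finset.one_le_prod' fun p hp => (hU p (Finset.mem_filter.1 hp).1).1.pos
    calc (1:ℝ) ≤ ((∏ p ∈ miss U w, p : ℕ) : ℝ) := by exact_mod_cast this
      _ = _ := by push_cast; rfl
  have big : ∀ {U : Finset ℕ} (w : ℕ), (∀ p ∈ U, p.Prime ∧ N ≤ p) → (miss U w).Nonempty →
      (b:ℝ) ≤ ∏ p ∈ miss U w, (p:ℝ) := by
    intro U w hU hne
    obtain ⟨p, hp⟩ := hne
    have hpU := hU p (Finset.mem_filter.1 hp).1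
    have h1 : p ≤ ∏ p ∈ miss U w, p :=
      Finset.single_le_prod' (f := fun p => p)
        (fun i hi => (hU i (Finset.mem_filter.1 hi).1).1.pos) hp
    have h2 : b ≤ ∏ p ∈ miss U w, p := (hbN.trans hpU.2).trans h1
    calc (b:ℝ) ≤ ((∏ p ∈ miss U w, p : ℕ) : ℝ) := by exact_mod_cast h2
      _ = _ := by push_cast; rfl
  by_cases h1 : (miss O e.2).Nonempty
  · right
    unfold mm
    have a := big e.2 hO h1
    have c := one_le e.1 hO'
    nlinarith [(Nat.cast_nonneg b : (0:ℝ) ≤ b)]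
  · by_cases h2 : (miss O' e.1).Nonempty
    · right
      unfold mm
      have a := big e.1 hO' h2
      have c := one_le e.2 hO
      nlinarith [(Nat.cast_nonneg b : (0:ℝ) ≤ b)]
    · left
      exact ⟨Finset.not_nonempty_iff_eq_empty.1 h1, Finset.not_nonempty_iff_eq_empty.1 h2⟩

open Classical in
lemma five_split {ι : Type*} (s : Finset ι) (c1 c2 c3 c4 c5 : ι → Prop) (F : ι → ℝ)
    (h0 : ∀ e ∈ s, 0 ≤ F e) (hc : ∀ e ∈ s, c1 e ∨ c2 e ∨ c3 e ∨ c4 e ∨ c5 e) :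
    ∑ e ∈ s, F e ≤ ∑ e ∈ s.filter c1, F e + ∑ e ∈ s.filter c2, F e +
      ∑ e ∈ s.filter c3, F e + ∑ e ∈ s.filter c4, F e + ∑ e ∈ s.filter c5, F e := by
  rw [Finset.sum_filter, Finset.sum_filter, Finset.sum_filter, Finset.sum_filter, Finset.sum_filter,
    ← Finset.sum_add_distrib, ← Finset.sum_add_distrib, ← Finset.sum_add_distrib,
    ← Finset.sum_add_distrib]
  apply Finset.sum_le_sum
  intro e he
  have f0 := h0 e he
  have g1 : (0:ℝ) ≤ if c1 e then F e else 0 := by split_ifs <;> [exact f0; exact le_rfl]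
  have g2 : (0:ℝ) ≤ if c2 e then F e else 0 := by split_ifs <;> [exact f0; exact le_rfl]
  have g3 : (0:ℝ) ≤ if c3 e then F e else 0 := by split_ifs <;> [exact f0; exact le_rfl]
  have g4 : (0:ℝ) ≤ if c4 e then F e else 0 := by split_ifs <;> [exact f0; exact le_rfl]
  have g5 : (0:ℝ) ≤ if c5 e then F e else 0 := by split_ifs <;> [exact f0; exact le_rfl]
  rcases hc e he with h | h | h | h | h
  · rw [if_pos h]; linarith
  · rw [if_pos h]; linarith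
  · rw [if_pos h]; linarith
  · rw [if_pos h]; linarith
  · rw [if_pos h]; linarith

set_option maxHeartbeats 4000000 in
open Classical in
/-- **the one-shot number, no loss in `b`**: the accidental pairs have the explicit factor `acc`. -/
theorem one_shot_g {CL C0 : ℝ} (hCL : 1 ≤ CL) (hC0 : 0 ≤ C0) : ∃ (cl C2 : ℝ), 0 ≤ C2 ∧
    ∀ A : ℝ, 0 ≤ A → ∃ (C1 : ℝ) (b₁ : ℕ), 0 ≤ C1 ∧ 2 ≤ b₁ ∧
    (∀ b : ℕ, b₁ ≤ b → (2:ℝ)^(lev cl b) ≤ (Real.log b)^C1) ∧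
    ∀ (N G b a₀ : ℕ) (O O' V W : Finset ℕ) (R R' : ℕ → ℝ)
    (γ γ' : Finset ℕ → ℝ) (F : ℕ × ℕ → ℝ) (Q : ℕ × ℕ → Prop),
    b₁ ≤ b → b.Prime → 0 < G → b ≤ N → 1 ≤ a₀ → a₀ ≤ b →
    (∀ p ∈ O, p.Prime ∧ N ≤ p) → (∀ p ∈ O', p.Prime ∧ N ≤ p) →
    ∑ p ∈ O, (p:ℝ)^(-(11/12):ℝ) ≤ 1 → ∑ p ∈ O', (p:ℝ)^(-(11/12):ℝ) ≤ 1 →
    (∀ w ∈ V, 0 < w ∧ 0 < R w) → (∀ w ∈ W, 0 < w ∧ 0 < R' w) →
    (∀ w ∈ V, R w ≤ (CL * Real.log b) * mu O' R w) → (∀ w ∈ W, R' w ≤ (CL * Real.log b) * mu O R' w) →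
    (∀ w ∈ V, b ∣ uu O' w) → (∀ w ∈ W, ¬ b ∣ uu O w) →
    (∀ z : ℝ, (b:ℝ) ≤ z → ∀ w ∈ V, Crest.Agent.R4.ClsB.Tame z (G * b) (uu O' w)) →
    (∀ z : ℝ, (b:ℝ) ≤ z → ∀ w ∈ W, Crest.Agent.R4.ClsB.Tame z G (uu O w)) →
    (∀ e ∈ V ×ˢ W, Dc O O' R R' e ≤ 1 →
      F e ≤ (Real.log b)^C0 * ((R e.1 * R' e.2) / Dc O O' R R' e)) →
    (∀ e ∈ V ×ˢ W, Dc O O' R R' e ≤ 1/2^(lev cl b) → 0 < F e → RelG O O' R R' γ γ' e) →
    (∀ e ∈ V ×ˢ W, Dc O O' R R' e ≤ 1/2^(lev cl b) → 0 < F e →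
      FX b O O' R R' γ γ' (lev cl b) e →
      1 < 2 * ((a₀:ℝ) * mm O O' e)^10 * Dc O O' R R' e ∨
      (1 < 2 * ((b:ℝ) * (a₀ * mm O O' e))^10 * Dc O O' R R' e ∧
        ∃ t : ℝ, 0 < t ∧ 1/(2*t) < Dc O O' R R' e ∧ Dc O O' R R' e ≤ 1/t ∧
          BadS b (γ' (miss O e.2)) t) ∨ Q e) →
    ∑ e ∈ (V ×ˢ W).filter (fun e => Dc O O' R R' e ≤ 1), F e ≤
      (Real.log b)^C1 * ((b:ℝ)^(-(1/2-eps1)) *
        ((∑ q ∈ V, mu O' R q) * (∑ r ∈ W, mu O R' r))^(1/2+eps1) +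
        (b:ℝ)^(-(1/2):ℝ) * ((∑ q ∈ V, R q) * (∑ r ∈ W, R' r))^(1/2:ℝ)) +
      ((Real.log b)^C1 * (a₀:ℝ)^(6/1000:ℝ) + (Real.log b)^C2 * acc A b (γ' ∅)) *
        ((b:ℝ)^(-(1/2-eps2)) * ((∑ q ∈ V, mu O' R q) * (∑ r ∈ W, mu O R' r))^(1/2+eps2)) +
      ∑ e ∈ (V ×ˢ W).filter (fun e => 0 < F e ∧ (Dc O O' R R' e ≤ 1/2^(lev cl b) ∧ Q e)), F e := by
  obtain ⟨cl, C1, b₁, hC1, hb₁, hlev, H⟩ := one_shot hCL hC0
  have he2 : eps2 = 1/4000 := rfl
  have hKH := (KH_pos 1 0 eps2).le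
  refine ⟨cl, C0 + 3, by positivity, ?_⟩
  intro A hA
  obtain ⟨x1, hx1⟩ := Filter.eventually_atTop.1
    ((Real.tendsto_log_atTop.eventually_ge_atTop
      (1 + 3 * (CL^2 * (240000 * KH 1 0 eps2) * Real.exp 1) +
        CL^2 * (8 * KH 1 0 eps2) * Real.exp 3)))
  refine ⟨C1 + (C0 + 3) + A, max b₁ ⌈x1⌉₊, by positivity, hb₁.trans (le_max_left _ _), ?_, ?_⟩
  · intro b hb
    have hbx : x1 ≤ (b:ℝ) := (Nat.le_ceil _).trans (by exact_mod_cast (le_max_right _ _).trans hb)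
    have hl1 : 1 ≤ Real.log b := by
      have := hx1 b hbx
      have : 0 ≤ 3 * (CL^2 * (240000 * KH 1 0 eps2) * Real.exp 1) := by positivity
      have : 0 ≤ CL^2 * (8 * KH 1 0 eps2) * Real.exp 3 := by positivity
      linarith
    exact (hlev b ((le_max_left _ _).trans hb)).trans (Real.rpow_le_rpow_of_exponent_le hl1 (by linarith))
  intro N G b a₀ O O' V W R R' γ γ' F Q hb hbp hG hbN ha1 hab hO hO' hsO hsO' hV hW hLV hLW hbV hbW hVt hWt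
    hsmall hrel hFG
  have hb' : b₁ ≤ b := (le_max_left _ _).trans hb
  have hbx : x1 ≤ (b:ℝ) := (Nat.le_ceil _).trans (by exact_mod_cast (le_max_right _ _).trans hb)
  have hlog := hx1 b hbx
  have hX0 : 0 ≤ CL^2 * (240000 * KH 1 0 eps2) * Real.exp 1 := by positivity
  have hX1 : 0 ≤ CL^2 * (8 * KH 1 0 eps2) * Real.exp 3 := by positivity
  have hl1 : 1 ≤ Real.log b := by linarith
  have hl0 : 0 < Real.log b := by linarith
  have hb0 : (0:ℝ) < b := by exact_mod_cast hbp.pos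
  have hb1 : (1:ℝ) ≤ b := by exact_mod_cast hbp.one_lt.le
  have ha1R : (1:ℝ) ≤ a₀ := by exact_mod_cast ha1
  have habR : (a₀:ℝ) ≤ b := by exact_mod_cast hab
  have hs1 : ∑ p ∈ O, 1/(p:ℝ) ≤ 1 :=
    (Finset.sum_le_sum fun p hp => ShotFF223.inv_le_pow (hO p hp).1.one_lt.le).trans hsO
  have hs1' : ∑ p ∈ O', 1/(p:ℝ) ≤ 1 :=
    (Finset.sum_le_sum fun p hp => ShotFF223.inv_le_pow (hO' p hp).1.one_lt.le).trans hsO'
  have main := H N G b O O' V W R R' γ γ' F hb' hbp hG hO hO' hs1 hs1' hV hW hLV hLW hbV hbW hVt hWt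
    hsmall hrel
  set ℓ := Real.log b with hℓ
  have hmu : ∀ q ∈ V, 0 ≤ mu O' R q := fun q hq => mu_nonneg (hV q hq).2.le
  have hmu' : ∀ q ∈ W, 0 ≤ mu O R' q := fun q hq => mu_nonneg (hW q hq).2.le
  have hmm1 : ∀ e : ℕ × ℕ, 1 ≤ mm O O' e := fun e =>
    one_le_mm (fun p hp => (hO p hp).1.pos) (fun p hp => (hO' p hp).1.pos) e
  -- the rest splits
  set P := V ×ˢ W with hP
  set EA := P.filter (fun e => 0 < F e ∧ (Dc O O' R R' e ≤ 1/2^(lev cl b) ∧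
        FX b O O' R R' γ γ' (lev cl b) e)) with hEA
  obtain ⟨c1, hc1⟩ : ∃ c : ℕ × ℕ → Prop, c = fun e =>
      1 < 2 * ((a₀:ℝ) * (mm O O' e)^1)^10 * Dc O O' R R' e := ⟨_, rfl⟩
  obtain ⟨c2, hc2⟩ : ∃ c : ℕ × ℕ → Prop, c = fun e =>
      1 < 2 * ((a₀:ℝ) * (mm O O' e)^2)^10 * Dc O O' R R' e := ⟨_, rfl⟩
  obtain ⟨c3, hc3⟩ : ∃ c : ℕ × ℕ → Prop, c = fun e =>
      1 < 2 * (ℓ^A * (mm O O' e)^0)^10 * Dc O O' R R' e := ⟨_, rfl⟩
  obtain ⟨c4, hc4⟩ : ∃ c : ℕ × ℕ → Prop, c = fun e =>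
      ∃ k ∈ Finset.range (Kmx b), BadK A b (γ' ∅) k ∧
      1/2^(k+2) < Dc O O' R R' e ∧ Dc O O' R R' e ≤ 1/2^k := ⟨_, rfl⟩
  have hAP : ∀ e ∈ EA, e ∈ P := fun e he => (Finset.mem_filter.1 he).1
  have hFpos : ∀ e ∈ EA, 0 < F e := fun e he => (Finset.mem_filter.1 he).2.1
  have hD1 : ∀ e ∈ EA, Dc O O' R R' e ≤ 1 := by
    intro e he
    have h := (Finset.mem_filter.1 he).2.2.1
    refine h.trans ?_
    rw [div_le_one (by positivity)]
    exact one_le_pow₀ (by norm_num)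
  have hDpos : ∀ e ∈ P, 0 < Dc O O' R R' e := by
    intro e he
    have h := Finset.mem_product.1 he
    exact Dc_pos hO hO' (hV _ h.1).2 (hW _ h.2).1
  have hlA : 1 ≤ ℓ^A := Real.one_le_rpow hl1 hA
  have hcase : ∀ e ∈ EA, c1 e ∨ c2 e ∨ c3 e ∨ c4 e ∨ Q e := by
    intro e he
    obtain ⟨h3, h4, h5, h6⟩ := Finset.mem_filter.1 he
    have hD0 := hDpos e h3
    rcases hFG e h3 h5 h4 h6 with h7 | ⟨h7, t, ht0, ht1, ht2, ht3⟩ | h7
    · left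
      simp only [hc1, pow_one]
      exact h7
    · rcases mm_cases hbN hO hO' e with ⟨m1, m2⟩ | hbm
      · -- `mm = 1`
        have hmm : mm O O' e = 1 := by unfold mm; rw [m1, m2]; simp
        rw [m1] at ht3
        by_cases htA : t < ℓ^A
        · right; right; left
          simp only [hc3, pow_zero, mul_one]
          have h8 : 1 < 2 * t * Dc O O' R R' e := by
            rw [div_lt_iff₀ (by positivity)] at ht1
            linarith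
          have h9 : t ≤ (ℓ^A)^10 := htA.le.trans (le_self_pow₀ hlA (by norm_num))
          nlinarith
        · right; right; right; left
          rw [not_lt] at htA
          have h1D : 1 ≤ 1/Dc O O' R R' e := by
            rw [le_div_iff₀ hD0]; linarith [hD1 e he]
          have ht1' : 1 ≤ t := hlA.trans htA
          obtain ⟨k, hk1, hk2⟩ := exists_nat_pow_near ht1' (show (1:ℝ) < 2 by norm_num)
          have hk3 : k < Kmx b := by
            refine lt_Kmx hbp.one_lt.le hk1 ht2 ?_ ht0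
            rw [hmm, mul_one] at h7
            refine h7.trans_le ?_
            apply mul_le_mul_of_nonneg_right _ hD0.le
            apply mul_le_mul_of_nonneg_left _ (by norm_num)
            apply pow_le_pow_left₀ (by positivity)
            rw [pow_two]
            exact mul_le_mul_of_nonneg_left habR hb0.le
          rw [hc4]
          refine ⟨k, Finset.mem_range.2 hk3, ⟨t, hk1, hk2, htA, ht3⟩, ?_, ?_⟩
          · refine lt_of_le_of_lt ?_ ht1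
            apply one_div_le_one_div_of_le (by positivity)
            rw [pow_succ 2 (k+1)]
            linarith
          · refine ht2.trans ?_
            exact one_div_le_one_div_of_le (by positivity) hk1
      · right; left
        simp only [hc2]
        refine h7.trans_le ?_
        apply mul_le_mul_of_nonneg_right _ hD0.le
        apply mul_le_mul_of_nonneg_left _ (by norm_num)
        apply pow_le_pow_left₀ (by have := hmm1 e; positivity)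
        have := hmm1 e
        calc (b:ℝ) * (a₀ * mm O O' e) ≤ mm O O' e * (a₀ * mm O O' e) :=
              mul_le_mul_of_nonneg_right hbm (by positivity)
          _ = _ := by ring
    · right; right; right; right; exact h7
  have hsum : ∑ e ∈ EA, F e ≤ ∑ e ∈ EA.filter c1, F e + ∑ e ∈ EA.filter c2, F e +
      ∑ e ∈ EA.filter c3, F e + ∑ e ∈ EA.filter c4, F e + ∑ e ∈ EA.filter Q, F e :=
    five_split EA c1 c2 c3 c4 Q F (fun e he => (hFpos e he).le) hcase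
  have hRR : ∀ e ∈ P, R e.1 * R' e.2 ≤ (CL * ℓ)^2 * (mu O' R e.1 * mu O R' e.2) := by
    intro e he
    have h := Finset.mem_product.1 he
    have h1 := hLV _ h.1
    have h2 := hLW _ h.2
    have h3 := (hW _ h.2).2
    have h5 : 0 ≤ CL * ℓ * mu O' R e.1 := (hV _ h.1).2.le.trans h1
    calc R e.1 * R' e.2 ≤ (CL * ℓ * mu O' R e.1) * (CL * ℓ * mu O R' e.2) :=
          mul_le_mul h1 h2 h3.le h5
      _ = _ := by ring
  have hFmu : ∀ e ∈ EA, F e ≤ ℓ^C0 * (CL * ℓ)^2 * ((mu O' R e.1 * mu O R' e.2) / Dc O O' R R' e) := by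
    intro e he
    have heP := hAP e he
    calc F e ≤ ℓ^C0 * ((R e.1 * R' e.2) / Dc O O' R R' e) := hsmall e heP (hD1 e he)
      _ ≤ ℓ^C0 * (((CL * ℓ)^2 * (mu O' R e.1 * mu O R' e.2)) / Dc O O' R R' e) :=
          mul_le_mul_of_nonneg_left (div_le_div_of_nonneg_right (hRR e heP) (hDpos e heP).le) (by positivity)
      _ = _ := by ring
  have fA : ∀ {c : ℕ × ℕ → Prop} (e : ℕ × ℕ), e ∈ EA.filter c → e ∈ EA :=
    fun e he => (Finset.mem_filter.1 he).1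
  set Z := ((∑ q ∈ V, mu O' R q) * (∑ r ∈ W, mu O R' r))^(1/2+eps2) with hZ
  have hZ0 : 0 ≤ Z := Real.rpow_nonneg (mul_nonneg (Finset.sum_nonneg hmu) (Finset.sum_nonneg hmu')) _
  have bound1 := ff_y_all (E := EA.filter c1) (F := F) (K := ℓ^C0 * (CL * ℓ)^2) (A := (a₀:ℝ)) (j := 1)
    hO hO' hV hW hbp hbV hbW (fun e he => hAP e (fA e he)) (by norm_num) (by positivity) ha1R
    (fun e he => hD1 e (fA e he)) (fun e he => by have := (Finset.mem_filter.1 he).2; rwa [hc1] at this)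
    (fun e he => hFmu e (fA e he)) hsO hsO'
  have bound2 := ff_y_all (E := EA.filter c2) (F := F) (K := ℓ^C0 * (CL * ℓ)^2) (A := (a₀:ℝ)) (j := 2)
    hO hO' hV hW hbp hbV hbW (fun e he => hAP e (fA e he)) (by norm_num) (by positivity) ha1R
    (fun e he => hD1 e (fA e he)) (fun e he => by have := (Finset.mem_filter.1 he).2; rwa [hc2] at this)
    (fun e he => hFmu e (fA e he)) hsO hsO'
  have bound3 := ff_y_all (E := EA.filter c3) (F := F) (K := ℓ^C0 * (CL * ℓ)^2) (A := ℓ^A) (j := 0)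
    hO hO' hV hW hbp hbV hbW (fun e he => hAP e (fA e he)) (by norm_num) (by positivity) hlA
    (fun e he => hD1 e (fA e he)) (fun e he => by have := (Finset.mem_filter.1 he).2; rwa [hc3] at this)
    (fun e he => hFmu e (fA e he)) hsO hsO'
  have bound4 := acc_all (E := EA.filter c4) (F := F) (K := ℓ^C0 * (CL * ℓ)^2) (A := A) (θ := γ' ∅)
    hO hO' hV hW hbp hbV hbW (fun e he => hAP e (fA e he)) (by positivity)
    (fun e he => (hFpos e (fA e he)).le) (fun e he => by have := (Finset.mem_filter.1 he).2; rwa [hc4] at this)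
    (fun e he => hFmu e (fA e he)) hs1 hs1'
  have boundQ : ∑ e ∈ EA.filter Q, F e ≤
      ∑ e ∈ P.filter (fun e => 0 < F e ∧ (Dc O O' R R' e ≤ 1/2^(lev cl b) ∧ Q e)), F e := by
    apply Finset.sum_le_sum_of_subset_of_nonneg
    · intro e he
      obtain ⟨h1, h2⟩ := Finset.mem_filter.1 he
      obtain ⟨h3, h4, h5, h6⟩ := Finset.mem_filter.1 h1
      exact Finset.mem_filter.2 ⟨h3, h4, h5, h2⟩
    · intro e he _
      exact (Finset.mem_filter.1 he).2.1.le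
  rw [← hZ] at bound1 bound2 bound3 bound4
  set bb : ℝ := (b:ℝ)^(-(1/2-eps2)) with hbb
  have hbb0 : 0 < bb := by positivity
  have hBf : Bf b eps2 ≤ 2 * bb := by
    rw [hbb]
    exact Bf_le hbp (ε := eps2) (by rw [he2]; norm_num) (by rw [he2]; norm_num)
  have hBf0 := Bf_nonneg b eps2
  have har : 1 ≤ (a₀:ℝ)^(6/1000:ℝ) := Real.one_le_rpow ha1R (by norm_num)
  have hll : ℓ^C0 * ℓ^2 * ℓ = ℓ^(C0+3) := by
    rw [show C0 + 3 = C0 + 2 + 1 by ring, Real.rpow_add hl0, Real.rpow_add hl0, Real.rpow_one,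
      Real.rpow_two]
  -- the three `HVW` parts
  have q : ∀ {X : ℝ}, 0 ≤ X → ℓ^C0 * (CL * ℓ)^2 * (120000 * KH 1 0 eps2 * Bf b eps2 * X) * Real.exp 1 * Z ≤
      (ℓ^C0 * ℓ^2) * (CL^2 * (240000 * KH 1 0 eps2) * Real.exp 1) * (X * (bb * Z)) := by
    intro X hX
    calc ℓ^C0 * (CL * ℓ)^2 * (120000 * KH 1 0 eps2 * Bf b eps2 * X) * Real.exp 1 * Z
        = (ℓ^C0 * ℓ^2) * (CL^2 * (120000 * KH 1 0 eps2) * Real.exp 1) * (X * Z) * Bf b eps2 := by ring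
      _ ≤ (ℓ^C0 * ℓ^2) * (CL^2 * (120000 * KH 1 0 eps2) * Real.exp 1) * (X * Z) * (2 * bb) :=
          mul_le_mul_of_nonneg_left hBf (by positivity)
      _ = _ := by ring
  have b1 := bound1.trans (q (by positivity))
  have b2 := bound2.trans (q (by positivity))
  have b3 := bound3.trans (q (by positivity))
  have hlA3 : (ℓ^A)^(6/1000:ℝ) ≤ ℓ^A := by
    calc (ℓ^A)^(6/1000:ℝ) ≤ (ℓ^A)^(1:ℝ) := Real.rpow_le_rpow_of_exponent_le hlA (by norm_num)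
      _ = _ := Real.rpow_one _
  have b123 : ∑ e ∈ EA.filter c1, F e + ∑ e ∈ EA.filter c2, F e + ∑ e ∈ EA.filter c3, F e ≤
      ℓ^(C0+3) * ℓ^A * (a₀:ℝ)^(6/1000:ℝ) * (bb * Z) := by
    have w0 : 0 ≤ bb * Z := by positivity
    have hX3 : (a₀:ℝ)^(6/1000:ℝ) + (a₀:ℝ)^(6/1000:ℝ) + (ℓ^A)^(6/1000:ℝ) ≤
        3 * (ℓ^A * (a₀:ℝ)^(6/1000:ℝ)) := by
      nlinarith
    calc ∑ e ∈ EA.filter c1, F e + ∑ e ∈ EA.filter c2, F e + ∑ e ∈ EA.filter c3, F e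
        ≤ (ℓ^C0 * ℓ^2) * (CL^2 * (240000 * KH 1 0 eps2) * Real.exp 1) *
            (((a₀:ℝ)^(6/1000:ℝ) + (a₀:ℝ)^(6/1000:ℝ) + (ℓ^A)^(6/1000:ℝ)) * (bb * Z)) := by
          linarith
      _ ≤ (ℓ^C0 * ℓ^2) * (CL^2 * (240000 * KH 1 0 eps2) * Real.exp 1) *
            (3 * (ℓ^A * (a₀:ℝ)^(6/1000:ℝ)) * (bb * Z)) := by
          apply mul_le_mul_of_nonneg_left _ (by positivity)
          exact mul_le_mul_of_nonneg_right hX3 w0
      _ = (3 * (CL^2 * (240000 * KH 1 0 eps2) * Real.exp 1)) *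
            ((ℓ^C0 * ℓ^2) * (ℓ^A * (a₀:ℝ)^(6/1000:ℝ)) * (bb * Z)) := by ring
      _ ≤ ℓ * ((ℓ^C0 * ℓ^2) * (ℓ^A * (a₀:ℝ)^(6/1000:ℝ)) * (bb * Z)) := by
          apply mul_le_mul_of_nonneg_right _ (by positivity)
          linarith
      _ = _ := by rw [← hll]; ring
  have b4 : ∑ e ∈ EA.filter c4, F e ≤ ℓ^(C0+3) * acc A b (γ' ∅) * (bb * Z) := by
    have hacc := acc_nonneg A b (γ' ∅)
    refine bound4.trans ?_
    calc ℓ^C0 * (CL * ℓ)^2 * (4 * KH 1 0 eps2 * Bf b eps2) * Real.exp 3 * acc A b (γ' ∅) * Z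
        = (ℓ^C0 * ℓ^2) * (CL^2 * (4 * KH 1 0 eps2) * Real.exp 3) * (acc A b (γ' ∅) * Z) * Bf b eps2 := by
          ring
      _ ≤ (ℓ^C0 * ℓ^2) * (CL^2 * (4 * KH 1 0 eps2) * Real.exp 3) * (acc A b (γ' ∅) * Z) * (2 * bb) :=
          mul_le_mul_of_nonneg_left hBf (by positivity)
      _ = (CL^2 * (8 * KH 1 0 eps2) * Real.exp 3) * ((ℓ^C0 * ℓ^2) * (acc A b (γ' ∅) * (bb * Z))) := by ring
      _ ≤ ℓ * ((ℓ^C0 * ℓ^2) * (acc A b (γ' ∅) * (bb * Z))) := by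
          apply mul_le_mul_of_nonneg_right _ (by positivity)
          linarith
      _ = _ := by rw [← hll]; ring
  have hT : (Real.log b)^C1 * ((b:ℝ)^(-(1/2-eps1)) *
        ((∑ q ∈ V, mu O' R q) * (∑ r ∈ W, mu O R' r))^(1/2+eps1) +
        (b:ℝ)^(-(1/2):ℝ) * ((∑ q ∈ V, R q) * (∑ r ∈ W, R' r))^(1/2:ℝ)) ≤
      ℓ^(C1+(C0+3)+A) * ((b:ℝ)^(-(1/2-eps1)) *
        ((∑ q ∈ V, mu O' R q) * (∑ r ∈ W, mu O R' r))^(1/2+eps1) +
        (b:ℝ)^(-(1/2):ℝ) * ((∑ q ∈ V, R q) * (∑ r ∈ W, R' r))^(1/2:ℝ)) := by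
    apply mul_le_mul_of_nonneg_right (Real.rpow_le_rpow_of_exponent_le hl1 (by linarith))
    have h1 : 0 ≤ (∑ q ∈ V, mu O' R q) * (∑ r ∈ W, mu O R' r) :=
      mul_nonneg (Finset.sum_nonneg hmu) (Finset.sum_nonneg hmu')
    have h2 : 0 ≤ (∑ q ∈ V, R q) * (∑ r ∈ W, R' r) :=
      mul_nonneg (Finset.sum_nonneg fun q hq => (hV q hq).2.le)
        (Finset.sum_nonneg fun q hq => (hW q hq).2.le)
    have h3 := Real.rpow_nonneg h1 (1/2+eps1)
    have h4 := Real.rpow_nonneg h2 (1/2:ℝ)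
    positivity
  have b123' : ℓ^(C0+3) * ℓ^A * (a₀:ℝ)^(6/1000:ℝ) * (bb * Z) ≤
      ℓ^(C1+(C0+3)+A) * (a₀:ℝ)^(6/1000:ℝ) * (bb * Z) := by
    apply mul_le_mul_of_nonneg_right _ (by positivity)
    apply mul_le_mul_of_nonneg_right _ (by positivity)
    rw [← Real.rpow_add hl0]
    exact Real.rpow_le_rpow_of_exponent_le hl1 (by linarith)
  have hfin : (ℓ^(C1+(C0+3)+A) * (a₀:ℝ)^(6/1000:ℝ) + ℓ^(C0+3) * acc A b (γ' ∅)) * (bb * Z) =
      ℓ^(C1+(C0+3)+A) * (a₀:ℝ)^(6/1000:ℝ) * (bb * Z) + ℓ^(C0+3) * acc A b (γ' ∅) * (bb * Z) := by ring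
  rw [hfin]
  linarith

end Crest.Agent.R4.ShotG223
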