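import Crest.Agent.R4.SkelNodeA189
import Crest.Agent.R4.OSWS245

/-!
R4 (S0004), helper189: **THE NODE ASSEMBLY OF A CONTEXT.**

`Part X j₀ Hb E η` : the error `E` of a node is at most `η (μ + μ ν)`, at every node, every admissible
nonempty population.  The eight errors of a node (`dseR`, `rseR` and the six walk sums) are combined to
the field `node` of `MAINsf_of_parts`.
-/

set_option autoImplicit false

open MeasureTheory Filter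

namespace Crest.Agent.R4.Skel189

open Crest.Agent.R4.Cnt588 Crest.Agent.R4.Max709 Crest.Agent.R4.Tour104 Crest.Agent.R4.Item758
open Crest.Agent.R4.Bld532 Crest.Agent.R4.PrunePar33 Crest.Agent.R4.PruneSep532
open Crest.Agent.R4.Data758 Crest.Agent.R4.OmData532 Crest.Agent.R4.LfDat734
open Crest.Agent.R4.W363 Crest.Agent.R4.WPex189 Crest.Agent.R4.Asm532 Crest.Agent.R4.Walk560
open Crest.Agent.R4.Soft104 Crest.Agent.R4.Frame758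
open Crest.Agent.R4.Step588 Crest.Agent.R4.Chi464
open Crest.Agent.R4.NI927 Crest.Agent.R4.DeepSt579 Crest.Agent.R4.GInst194 Crest.Agent.R4.IMI194
open Crest.Agent.R4.ClosR758 Crest.Agent.R4.Avg758 Crest.Agent.R4.Clos758 Crest.Agent.R4.ClosL758
open Crest.Agent.R4.ClosG758 Crest.Agent.R4.Tour758 Crest.Agent.R4.Fam464

section part
variable {N : Num} {γ : ℝ} {p0 P₀ : ℕ}

/-- the leaf data of a context -/
abbrev Ctx.Y (X : Ctx N γ p0 P₀) : Finset (ℕ × ℕ × Finset ℕ) := leafs 1 1 X.c.t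

/-- the states of the walk of a context -/
abbrev Ctx.Sta (X : Ctx N γ p0 P₀) : Type := St X.c.Lam (Lb (WL X.c.Lam) X.Y)

/-- the closure tree of a node -/
noncomputable abbrev Ctx.g (X : Ctx N γ p0 P₀) (u : NS) (τ : IT) : TrG X.c.Lam (Lb (WL X.c.Lam) X.Y) :=
  tG X.c.D X.Y u.B u.A τ

/-- raw mass of a population at a node -/
noncomputable abbrev Ctx.mu (X : Ctx N γ p0 P₀) (j₀ : X.c.Lam) (u : NS) (τ : IT)
    (A : Finset X.c.Lam) : ℝ :=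
  tM X.c.D (wt X.c.D) j₀ X.Y (X.g u τ) A

/-- the self state of a node -/
noncomputable abbrev Ctx.self (X : Ctx N γ p0 P₀) (u : NS) (τ : IT) (A : Finset X.c.Lam) : X.Sta :=
  selfSt (tD X.c.D X.Y X.c.sp u.B u.A τ) A

/-- the bootstrap hypothesis of a node: second moments of the nodes strictly below -/
def Ctx.Boot (X : Ctx N γ p0 P₀) (j₀ : X.c.Lam)
    (δ : TrG X.c.Lam (Lb (WL X.c.Lam) X.Y) → Finset X.c.Lam → ℝ) (Kb : ℝ) (u : NS) (τ : IT) : Prop :=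
  Below (SMR (AdI X.c.D.it) (tM X.c.D (wt X.c.D) j₀ X.Y) (tN X.c.D (wt X.c.D) j₀ X.Y) δ Kb) (X.g u τ)

/-- **a part of the error of the nodes** -/
def Part (X : Ctx N γ p0 P₀) (j₀ : X.c.Lam) (Hb : NS → IT → Prop)
    (E : NS → IT → Finset X.c.Lam → ℝ) (η : ℝ) : Prop :=
  All (fun u τ => Hb u τ → ∀ A, AdI X.c.D.it (X.g u τ) A → A.Nonempty →
    E u τ A ≤ η * (X.mu j₀ u τ A + X.mu j₀ u τ A * X.mu j₀ u τ Finset.univ))
    ⟨top X.S, 1, 1, 1⟩ X.c.t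

/-- a part of the walk error -/
def PartW (X : Ctx N γ p0 P₀) (j₀ : X.c.Lam) (Hb : NS → IT → Prop) (stp : X.Sta → Prop)
    (loc : X.Sta → ℝ) (η : ℝ) : Prop :=
  Part X j₀ Hb (fun u τ A => WS stp loc (X.self u τ A)) η

variable {X : Ctx N γ p0 P₀} {j₀ : X.c.Lam} {Hb : NS → IT → Prop}
  {E E' : NS → IT → Finset X.c.Lam → ℝ} {η η' : ℝ} {stp : X.Sta → Prop} {loc loc' : X.Sta → ℝ}

lemma Part.add (h : Part X j₀ Hb E η) (h' : Part X j₀ Hb E' η') :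
    Part X j₀ Hb (fun u τ A => E u τ A + E' u τ A) (η + η') :=
  All.mono (fun u τ hh hb A hA hn => by
    have h1 := hh.1 hb A hA hn
    have h2 := hh.2 hb A hA hn
    rw [add_mul]
    exact add_le_add h1 h2) (All.and h h')

lemma Part.mono (h : Part X j₀ Hb E η) (hη : η ≤ η') : Part X j₀ Hb E η' :=
  All.mono (fun u τ hh hb A hA hn => by
    refine (hh.1 hb A hA hn).trans (mul_le_mul_of_nonneg_right hη ?_)
    have h1 := (hh.2 A A (Finset.Subset.refl _)).1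
    have h2 := (hh.2 Finset.univ Finset.univ (Finset.Subset.refl _)).1
    exact add_nonneg h1 (mul_nonneg h1 h2)) (All.and h (ctx_tM_mono X j₀))

/-- errors which vanish -/
lemma Part.zero (hη : 0 ≤ η) (h : All (fun u τ => ∀ A, AdI X.c.D.it (X.g u τ) A → A.Nonempty →
    E u τ A ≤ 0) ⟨top X.S, 1, 1, 1⟩ X.c.t) : Part X j₀ Hb E η :=
  All.mono (fun u τ hh _ A hA hn => by
    refine (hh.1 A hA hn).trans (mul_nonneg hη ?_)
    have h1 := (hh.2 A A (Finset.Subset.refl _)).1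
    have h2 := (hh.2 Finset.univ Finset.univ (Finset.Subset.refl _)).1
    exact add_nonneg h1 (mul_nonneg h1 h2)) (All.and h (ctx_tM_mono X j₀))

/-- errors bounded by `K` times the integral mass -/
lemma Part.of_mI {K : ℝ} (hK : 0 ≤ K)
    (hm : All (fun u τ => ∀ A : Finset X.c.Lam,
        ∑ j ∈ A, mI (tD X.c.D (leafs 1 1 X.c.t) X.c.sp u.B u.A τ) j ≤
          2 * tM X.c.D (wt X.c.D) j₀ (leafs 1 1 X.c.t)
            (tG X.c.D (leafs 1 1 X.c.t) u.B u.A τ) A) ⟨top X.S, 1, 1, 1⟩ X.c.t)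
    (h : All (fun u τ => ∀ A, AdI X.c.D.it (X.g u τ) A → A.Nonempty →
      E u τ A ≤ K * ∑ j ∈ A, mI (tD X.c.D X.Y X.c.sp u.B u.A τ) j) ⟨top X.S, 1, 1, 1⟩ X.c.t) :
    Part X j₀ Hb E (2 * K) :=
  All.mono (fun u τ hh _ A hA hn => by
    obtain ⟨⟨k1, k2⟩, k3⟩ := hh
    refine (k1 A hA hn).trans ?_
    have h1 := (k3 A A (Finset.Subset.refl _)).1
    have h2 := (k3 Finset.univ Finset.univ (Finset.Subset.refl _)).1
    have h3 := mul_le_mul_of_nonneg_left (k2 A) hK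
    have h4 : 0 ≤ 2 * K * (X.mu j₀ u τ A * X.mu j₀ u τ Finset.univ) :=
      mul_nonneg (by positivity) (mul_nonneg h1 h2)
    have e : 2 * K * (X.mu j₀ u τ A + X.mu j₀ u τ A * X.mu j₀ u τ Finset.univ) =
      K * (2 * X.mu j₀ u τ A) + 2 * K * (X.mu j₀ u τ A * X.mu j₀ u τ Finset.univ) := by ring
    rw [e]
    linarith) (All.and (All.and h hm) (ctx_tM_mono X j₀))

lemma PartW.add (h : PartW X j₀ Hb stp loc η) (h' : PartW X j₀ Hb stp loc' η') :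
    PartW X j₀ Hb stp (fun s => loc s + loc' s) (η + η') := by
  have := Part.add h h'
  refine All.mono (fun u τ hh hb A hA hn => ?_) this
  have h1 := hh hb A hA hn
  show WS stp (fun s => loc s + loc' s) (X.self u τ A) ≤ _
  rw [WS_add]
  exact h1

end part

/-- **the eight errors of the nodes of a context** -/
structure NodeParts {N : Num} {γ : ℝ} {p0 P₀ : ℕ} (X : Ctx N γ p0 P₀) (j₀ : X.c.Lam)
    (Hb : NS → IT → Prop) (stp : X.Sta → Prop) (B η : ℝ) : Prop where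
  parts : ∃ a₁ a₂ a₃ a₄ a₅ a₆ a₇ a₈ : ℝ, a₁ + a₂ + a₃ + a₄ + a₅ + a₆ + a₇ + a₈ ≤ η ∧
    Part X j₀ Hb (fun u τ A => dseR A (X.g u τ)) a₁ ∧
    Part X j₀ Hb (fun u τ A => rseR A (X.g u τ)) a₂ ∧
    PartW X j₀ Hb stp (eNM stp) a₃ ∧
    PartW X j₀ Hb stp (eOS stp) a₄ ∧
    PartW X j₀ Hb stp (eRET stp) a₅ ∧
    PartW X j₀ Hb stp (eSHR stp) a₆ ∧
    PartW X j₀ Hb stp (eX stp (tM X.c.D (wt X.c.D) j₀ X.Y) B) a₇ ∧
    PartW X j₀ Hb stp (eSTOP stp (tM X.c.D (wt X.c.D) j₀ X.Y) (tN X.c.D (wt X.c.D) j₀ X.Y) B) a₈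

/-- **the errors of the nodes from the eight parts** -/
theorem nodeE_of_parts {N : Num} {γ : ℝ} {p0 P₀ : ℕ} {X : Ctx N γ p0 P₀} {j₀ : X.c.Lam}
    {δ : TrG X.c.Lam (Lb (WL X.c.Lam) X.Y) → Finset X.c.Lam → ℝ}
    (hδ : ∀ u τ A, AdI X.c.D.it (X.g u τ) A → 0 ≤ δ (X.g u τ) A) {stp : X.Sta → Prop} {B η Kb : ℝ}
    (h : NodeParts X j₀ (X.Boot j₀ δ Kb) stp B η) :
    All (fun s t' => NodeE X.c.D (leafs 1 1 X.c.t) X.c.sp (wt X.c.D) j₀ stp δ B η Kb s.B s.A t')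
      ⟨top X.S, 1, 1, 1⟩ X.c.t := by
  obtain ⟨a₁, a₂, a₃, a₄, a₅, a₆, a₇, a₈, ha, h1, h2, h3, h4, h5, h6, h7, h8⟩ := h.parts
  have k := ((h1.add h2).add (((((h3.add h4).add h5).add h6).add h7).add h8)).mono
    (η' := η) (by linarith)
  refine All.mono (fun u τ hh hb A hA hn => ?_) k
  have key := hh hb A hA hn
  have e0 := hδ u τ A hA
  refine le_trans ?_ (le_add_of_nonneg_right e0)
  exact key

/-- slack `0` -/
lemma slack_zero {Λ κ : Type*} [Fintype Λ] [DecidableEq Λ] [Fintype κ] [DecidableEq κ]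
    (Ad : TrG Λ κ → Finset Λ → Prop) : ∀ t : TrG Λ κ, t.All (SlackR Ad fun _ _ => 0) := by
  have hB : ∀ t : TrG Λ κ, SlackB Ad (fun _ _ => 0) t := fun t =>
    ⟨fun _ _ => le_rfl, fun _ _ _ _ _ => by simp⟩
  intro t
  induction t with
  | leaf r f => exact hB _
  | br P w r t₁ t₀ v B G ih₁ ih₀ => exact ⟨⟨hB _, fun A _ => by simp⟩, ih₁, ih₀⟩
  | add r t₁ t₀ ih₁ ih₀ => exact ⟨⟨hB _, fun A _ => by simp⟩, ih₁, ih₀⟩

/-- **MAIN (squarefree) FROM THE LEAVES AND THE EIGHT PARTS OF THE NODE ERRORS** -/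
theorem MAINsf_of_nodeParts (N : Num) {γ : ℝ}
    (hS2 : ∃ p₁ : ℕ, ∀ p0 ≥ p₁, ∀ (P₀ : ℕ) (ψ : ℕ → ℝ) (S : Finset ℕ), (∀ q ∈ S, Squarefree q) →
      SysM P₀ ψ S → N.S2 p0 ψ S ⊆ S ∧ (1 - 1 / 4) * Ws (w ψ) S ≤ Ws (w ψ) (N.S2 p0 ψ S))
    {C C₀ η B : ℕ → ℝ} (hC : ∀ p, 0 ≤ C p) (hC₀ : ∀ p, 0 ≤ C₀ p) (hη : ∀ p, 0 ≤ η p)
    (hB : ∀ p, 0 ≤ B p)
    (leafE : ∃ p₁ : ℕ, ∀ p0 ≥ p₁, ∃ Q₁ : ℕ, ∀ P₀ ≥ Q₁, ∀ X : Ctx N γ p0 P₀,
      LeafAll (LeafE X.c.D (wt X.c.D) (C p0)) 1 1 X.c.t)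
    (leafI : ∃ p₁ : ℕ, ∀ p0 ≥ p₁, ∃ Q₁ : ℕ, ∀ P₀ ≥ Q₁, ∀ X : Ctx N γ p0 P₀,
      LeafAll (LeafI X.c.D (wt X.c.D) (C₀ p0)) 1 1 X.c.t)
    (node : ∃ p₁ : ℕ, ∀ p0 ≥ p₁, ∃ Q₁ : ℕ, ∀ P₀ ≥ Q₁, ∀ X : Ctx N γ p0 P₀, ∀ j₀ : X.c.Lam,
      NodeParts X j₀ (X.Boot j₀ (fun _ _ => 0) (16 * (C p0 + C₀ p0 + η p0 + B p0 + 1)))
        OSWS245.stpM (B p0) (η p0)) :
    MAINsf γ := by
  refine MAINsf_of_parts N hS2 (δ₀ := fun _ => 0) hC hC₀ hη hB (fun _ => le_rfl) leafE leafI ?_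
  obtain ⟨p₁, h⟩ := node
  refine ⟨p₁, fun p0 hp0 => ?_⟩
  obtain ⟨Q₁, h1⟩ := h p0 hp0
  refine ⟨Q₁, fun P₀ hP X j₀ => ⟨OSWS245.stpM, fun _ _ => 0, fun s h1 h2 => OSWS245.stpM_root s h1 h2,
    slack_zero _ _, le_rfl, ?_⟩⟩
  exact nodeE_of_parts (fun _ _ _ _ => le_rfl) (h1 P₀ hP X j₀)

end Crest.Agent.R4.Skel189
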