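import Crest.Agent.R4.SkelMain464
import Crest.Agent.R4.NI927
import Crest.Agent.R4.IMI194
import Crest.Agent.R4.LeafA734

/-!
R4 (S0004), helper189: **facts at the nodes of a context**, for the assembly of the node errors.

* `ctx_mean` : the weights of a context have mean between `1/2` and `2` times `φ(w)/w`;
* `ctx_sum_mI` : at every node the integral masses are at most `2` times the raw masses.
-/

set_option autoImplicit false

open MeasureTheory Filter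

namespace Crest.Agent.R4.Skel189

open Crest.Agent.R4.Cnt588 Crest.Agent.R4.Max709 Crest.Agent.R4.Tour104 Crest.Agent.R4.Item758
open Crest.Agent.R4.Bld532 Crest.Agent.R4.PrunePar33 Crest.Agent.R4.PruneSep532
open Crest.Agent.R4.Data758 Crest.Agent.R4.OmData532 Crest.Agent.R4.LfDat734
open Crest.Agent.R4.W363 Crest.Agent.R4.WPex189 Crest.Agent.R4.Asm532 Crest.Agent.R4.Walk560
open Crest.Agent.R4.Soft104 Crest.Agent.R4.Frame758
open Crest.Agent.R4.Step588 Crest.Agent.R4.Chi464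
open Crest.Agent.R4.Om532 Crest.Agent.R4.OmSt532 Crest.Agent.R4.Ovl560 Crest.Agent.R4.LF363
open Crest.Agent.R4.Piece464 Crest.Agent.R4.NI927 Crest.Agent.R4.DeepSt579 Crest.Agent.R4.GInst194 Crest.Agent.R4.IMI194

/-- the leaf data of the nodes are leaf data of the root -/
theorem All_leafs (t : IT) : ∀ s : NS, All (fun u τ => leafs u.B u.A τ ⊆ leafs s.B s.A t) s t := by
  induction t with
  | leaf S => intro s; exact Finset.Subset.refl _
  | br p t₁ t₀ ih₁ ih₀ =>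
    intro s
    refine ⟨Finset.Subset.refl _, All.mono (fun u τ h => ?_) (ih₁ _), All.mono (fun u τ h => ?_) (ih₀ _)⟩
    · exact h.trans Finset.subset_union_left
    · exact h.trans Finset.subset_union_right
  | add b t₁ t₀ ih₁ ih₀ =>
    intro s
    refine ⟨Finset.Subset.refl _, All.mono (fun u τ h => ?_) (ih₁ _), All.mono (fun u τ h => ?_) (ih₀ _)⟩
    · exact h.trans Finset.subset_union_left
    · exact h.trans Finset.subset_union_right
  | up b Sp t ih =>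
    intro s
    exact ⟨Finset.Subset.refl _, ih ⟨b, s.c, s.A, s.B⟩⟩

/-- **means of the weights of a context** -/
theorem ctx_mean (N : Num) : ∃ p₁ : ℕ, ∀ p0 ≥ p₁, ∀ (γ : ℝ) (P₀ : ℕ), 2 ≤ P₀ →
    ∀ X : Ctx N γ p0 P₀, Mean X (1 / 2) ∧
      ∀ q ∈ X.S, ∀ z, mnw (q / pp X.c.t q) (X.c.om q z) ≤ 2 * tq (q / pp X.c.t q) := by
  obtain ⟨p1, h1⟩ := omT_cond4 N.B N.C1 N.c2 N.hC1 N.hc2 N.hB
  obtain ⟨p4, h4⟩ := ctx_card N
  obtain ⟨p5, h5⟩ := LeafA734.rt_half N.B (N.C1 + N.c2) (by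
    have := N.hB; have := N.hC1; have := N.hc2; linarith)
  refine ⟨p1 + p4 + p5, fun p0 hp0 γ P₀ hP X => ?_⟩
  have ht : X.c.t = bld (Bld532.par N.B N.C1 N.c2 p0) (w X.ψ) (top X.S) 1 X.S := X.ht
  have H := h1 p0 (by omega) X.ψ X.S X.sq P₀ hP X.sys (top X.S) X.S' X.prn.sub X.prn.pr
  rw [← ht] at H
  have hH : ∀ z, _ := fun z => H (X.Tz z) X.th X.ph X.lab
    (fun q _ b _ hb => by
      show Chi464.Tz _ _ _ _ _ _ _ _ _ = ∅
      unfold Chi464.Tz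
      rw [if_neg hb]
      exact Tc_emp X hb)
    (fun q hq b hb => h4 p0 (by omega) γ P₀ hP X z q hq b hb)
  refine ⟨fun q hq z => ?_, fun q hq z => ?_⟩
  · rw [X.om_eq]
    exact (hH z).2.2.2.1 q hq
  · by_cases hq' : q ∈ X.S'
    · rw [X.om_eq]
      have hd := X.ok.dvd q (by rw [X.hS]; exact hq)
      have hq0 := X.sys.pos q hq
      refine omT_mean_le (Nat.div_pos (Nat.le_of_dvd hq0 hd) (Nat.pos_of_dvd_of_pos hd hq0)) ?_
      refine h5 p0 (by omega) X.c.t q (ctx_pr X hq') fun b hb => ?_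
      rw [ht] at hb
      have hb' : b ∈ (bld (Bld532.par N.B N.C1 N.c2 p0) (w X.ψ) (top X.S) 1 X.S).sp q ∨
        b ∈ (bld (Bld532.par N.B N.C1 N.c2 p0) (w X.ψ) (top X.S) 1 X.S).uq q := Finset.mem_union.1 hb
      exact (bld_gt _ (w X.ψ) (top X.S) 1 X.S q b (Or.inr hb')).2.1
    · have e : mnw (q / pp X.c.t q) (X.c.om q z) = 0 := by
        unfold mnw
        rw [Finset.sum_eq_zero fun a _ => X.om_zero hq' z _, zero_div]
      rw [e]
      exact mul_nonneg (by norm_num) (tq_nonneg _)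

/-- **the raw masses at the nodes of a context** -/
theorem ctx_tM {N : Num} {γ : ℝ} {p0 P₀ : ℕ} (X : Ctx N γ p0 P₀) (j₀ : X.c.Lam) :
    All (fun u τ => ∀ A : Finset X.c.Lam,
      tM X.c.D (wt X.c.D) j₀ (leafs 1 1 X.c.t) (tG X.c.D (leafs 1 1 X.c.t) u.B u.A τ) A =
        Item758.cf u.B u.A * ∑ j ∈ A.filter (fun j => X.c.D.it j ∈ τ.items), wt X.c.D j)
      ⟨top X.S, 1, 1, 1⟩ X.c.t := by
  refine All.mono (fun u τ hh A => ?_)
    ((ctx_NDt X).and ((All_leafs X.c.t ⟨top X.S, 1, 1, 1⟩).and (All_All _ _ X.nodes)))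
  obtain ⟨hND, hlf, hno⟩ := hh
  have hF : Fit u.B u.A τ := Fit_of_All τ u (All.mono (fun _ _ hh => hh.node) hND.all)
    fun q hq => Nat.pos_of_ne_zero (hND.sq q (hND.self.sub hq)).ne_zero
  exact tM_eq X.c.D (wt X.c.D) j₀ hF (Cop_of_All τ u hno) hlf A

lemma wt_nonneg {N : Num} {γ : ℝ} {p0 P₀ : ℕ} (X : Ctx N γ p0 P₀) (j : X.c.Lam) :
    0 ≤ wt X.c.D j :=
  mul_nonneg (sub_nonneg.2 (X.ok.bpm _ (Cf.mem_S j) (Cf.r_pos j) (Nat.le_succ _))) (by positivity)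

/-- raw masses are nonnegative and monotone in the population -/
theorem ctx_tM_mono {N : Num} {γ : ℝ} {p0 P₀ : ℕ} (X : Ctx N γ p0 P₀) (j₀ : X.c.Lam) :
    All (fun u τ => ∀ A A' : Finset X.c.Lam, A ⊆ A' →
      0 ≤ tM X.c.D (wt X.c.D) j₀ (leafs 1 1 X.c.t) (tG X.c.D (leafs 1 1 X.c.t) u.B u.A τ) A ∧
      tM X.c.D (wt X.c.D) j₀ (leafs 1 1 X.c.t) (tG X.c.D (leafs 1 1 X.c.t) u.B u.A τ) A ≤
      tM X.c.D (wt X.c.D) j₀ (leafs 1 1 X.c.t) (tG X.c.D (leafs 1 1 X.c.t) u.B u.A τ) A')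
      ⟨top X.S, 1, 1, 1⟩ X.c.t := by
  refine All.mono (fun u τ hh A A' hA => ?_) (ctx_tM X j₀)
  rw [hh A, hh A']
  refine ⟨mul_nonneg (cf_nonneg _ _) (Finset.sum_nonneg fun j _ => wt_nonneg X j), ?_⟩
  exact mul_le_mul_of_nonneg_left (Finset.sum_le_sum_of_subset_of_nonneg
    (Finset.filter_subset_filter _ hA) fun j _ _ => wt_nonneg X j) (cf_nonneg _ _)

/-- **integral masses and raw masses at the nodes of a context** -/
theorem ctx_sum_mI (N : Num) : ∃ p₁ : ℕ, ∀ p0 ≥ p₁, ∀ (γ : ℝ) (P₀ : ℕ), 2 ≤ P₀ →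
    ∀ X : Ctx N γ p0 P₀, ∀ j₀ : X.c.Lam,
      All (fun u τ => ∀ A : Finset X.c.Lam,
        ∑ j ∈ A, mI (tD X.c.D (leafs 1 1 X.c.t) X.c.sp u.B u.A τ) j ≤
          2 * tM X.c.D (wt X.c.D) j₀ (leafs 1 1 X.c.t)
            (tG X.c.D (leafs 1 1 X.c.t) u.B u.A τ) A) ⟨top X.S, 1, 1, 1⟩ X.c.t := by
  obtain ⟨p1, h1⟩ := ctx_mean N
  refine ⟨p1, fun p0 hp0 γ P₀ hP X j₀ => ?_⟩
  obtain ⟨-, h2⟩ := h1 p0 hp0 γ P₀ hP X
  refine All.mono (fun u τ hh A => ?_)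
    ((ctx_NDt X).and ((All_leafs X.c.t ⟨top X.S, 1, 1, 1⟩).and (All_All _ _ X.nodes)))
  obtain ⟨hND, hlf, hno⟩ := hh
  have hF : Fit u.B u.A τ := Fit_of_All τ u (All.mono (fun _ _ hh => hh.node) hND.all)
    fun q hq => Nat.pos_of_ne_zero (hND.sq q (hND.self.sub hq)).ne_zero
  have hB : 0 < u.B := Nat.pos_of_ne_zero hND.bk.sfB.ne_zero
  have hW : (X.c.D.par (leafs 1 1 X.c.t)).Wts u.A τ := by
    intro j hj
    rw [← hND.self.pp _ hj]
    exact X.ok.wt _ (Cf.mem_S j) _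
  refine sum_mI_le X.c.D (sp := X.c.sp) j₀
    (fun j => X.ok.bpm _ (Cf.mem_S j) (Cf.r_pos j) (Nat.le_succ _)) (n := u.n) hlf hB
    hND.self.ok hF (Cop_of_All τ u hno) hW ?_ A
  intro j hj
  have hjS : j.1.1 ∈ X.S := X.mem_S j
  refine ⟨X.sq _ hjS, ?_, ?_⟩
  · rw [← hND.self.pp _ hj]
    exact X.ok.dvd _ (Cf.mem_S j)
  · rw [← hND.self.pp _ hj]
    exact h2 _ hjS _

end Crest.Agent.R4.Skel189
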