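import Crest.Agent.R4.StepPer588
import Crest.Agent.R4.StepCut588
import Crest.Agent.R4.Data758
import Crest.Agent.R4.WPex189
import Crest.Agent.R4.LfDat734
import Crest.Agent.R4.Skel189

/-!
R4 (S0004), helper189: **(G0) of T9'**: the hypotheses of `Step588` for the concrete data of
`Data758`.

* `data_Cov`, `data_Wld`, `data_WOk`, `data_fine`
* `rgh`, `smt` : rough / smooth part of a modulus (primes `≥ y` / `< y`)
* `NDt` : facts about the node of a subtree of the built tree; `NDt.subt` : the cut;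
  `NDt.rgh_eq` : **(hrp)** equal retained parts at a column of the cut tree ⟹ equal rough parts
* `smt_dvd_pml`, `pml_le`, `card_rgh_le` : bounds for the smooth parts.
-/

set_option autoImplicit false
set_option linter.unusedSectionVars false
set_option linter.unusedVariables false
open MeasureTheory Filter

namespace Crest.Agent.R4.Step588

open Crest.Agent.R4.Tour104 Crest.Agent.R4.Tour758 Crest.Agent.R4.Avg758 Crest.Agent.R4.Clos758
open Crest.Agent.R4.ClosL758 Crest.Agent.R4.ClosG758 Crest.Agent.R4.Lam368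
open Crest.Agent.R4.Piece464 Crest.Agent.R4.Fam464 Crest.Agent.R4.Cnt588 Crest.Agent.R4.Item758
open Crest.Agent.R4.W363 Crest.Agent.R4.Data758
open Crest.Agent.R4.Bld532 (NS All NodeOk Bk)

/-! ### the data -/

section
variable {c : Cf} {n : ℕ}

theorem data_Cov (h : c.Ok n) (X : Finset (ℕ × ℕ × Finset ℕ)) : Cov (c.D.par X) c.rr where
  cov := by
    classical
    intro j z h1 h2
    have h1' : -c.rr j.1.1 ≤ z := h1
    have h2' : z < c.rr j.1.1 := h2
    rw [Cf.rr_eq] at h1' h2'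
    have hj := Cf.mem_S j
    have hr := Cf.r_pos j
    have hex : ∃ m, z < c.bp j.1.1 m := ⟨c.K, by rw [h.bpK _ hj hr]; exact h2'⟩
    obtain ⟨m, hm⟩ : ∃ m, m = Nat.find hex := ⟨_, rfl⟩
    have h3 : z < c.bp j.1.1 m := by rw [hm]; exact Nat.find_spec hex
    have h4 : ∀ k < m, ¬ z < c.bp j.1.1 k := fun k hk => Nat.find_min hex (by rw [← hm]; exact hk)
    have hmK : m ≤ c.K := by
      rw [hm]; exact Nat.find_min' hex (by rw [h.bpK _ hj hr]; exact h2')
    rcases Nat.eq_zero_or_pos m with h0 | h0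
    · rw [h0, h.bp0 _ hj hr] at h3; linarith
    · have hk : m - 1 < c.K := by omega
      refine ⟨⟨(j.1.1, m - 1), Finset.mem_product.2 ⟨Finset.mem_filter.2 ⟨hj, hr⟩,
        Finset.mem_range.2 hk⟩⟩, rfl, ?_, ?_⟩
      · exact not_lt.1 (h4 (m - 1) (by omega))
      · show z < c.bp j.1.1 (m - 1 + 1)
        rw [Nat.sub_add_cancel h0]; exact h3
  al := (h.rad X).al
  be := (h.rad X).be
  dj := by
    intro j k z e h1 h2 h3 h4
    by_contra hne
    rcases h.disj j k hne e with h5 | h5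
    · exact absurd (lt_of_lt_of_le h2 h5) (not_lt.2 h3)
    · exact absurd (lt_of_lt_of_le h4 h5) (not_lt.2 h1)

/-- the classes are given by the worlds `W*` at the columns `≤ n` (`lg = false`) -/
theorem data_Wld (h : c.Ok n) (hlg : c.lg = fun _ => false) (X : Finset (ℕ × ℕ × Finset ℕ))
    {C : Finset ℕ} (hC : ∀ p ∈ C, p ≤ n) : Wld (c.D.par X) c.wp c.st (ret c.t) C where
  rho := by
    intro p _ j k
    have e : ∀ (q : ℕ) (s : Option ℚ) (z : ℝ), ixG c.wp c.lg c.γ p q s z = c.wp.ix c.γ p q s z :=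
      fun q s z => ixG_false (by rw [hlg])
    rw [Par0.rho_eq, Cf.D_rho]
    unfold Cf.world
    rw [Prod.ext_iff, e, e]
    exact Iff.rfl
  pt := fun p hp j z h1 h2 => by
    have e : ∀ (q : ℕ) (s : Option ℚ) (z : ℝ), ixG c.wp c.lg c.γ p q s z = c.wp.ix c.γ p q s z :=
      fun q s z => ixG_false (by rw [hlg])
    have := h.ix_point (hC p hp) j h1 h2
    rw [e, e] at this
    exact this

/-- `Fine` world parameters give `WOk` (`N = B * sn ≤ K`) -/
theorem data_WOk (h : c.Ok n) (X : Finset (ℕ × ℕ × Finset ℕ)) {C T : Finset ℕ} {K dm N : ℕ}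
    (hf : WPex189.Fine c.wp c.γ c.r c.t c.S n K) (hC : ∀ p ∈ C, p ≤ n) (hT : T ⊆ c.S)
    (hdep : ∀ p ∈ C, c.wp.dep p ≤ dm) (hN : N ≤ K) :
    WOk (c.D.par X) c.wp c.st C T dm N where
  dep := hdep
  δ := hf.δ0
  snap := by
    intro p hp q hq r hr σ τ hσ hτ
    refine le_trans ?_ (hf.grid p (hC p hp) p (hC p hp) q (hT hq) r (hT hr) σ τ
      (stA_some.1 hσ).1 (stA_some.1 hτ).1)
    refine mul_le_mul_of_nonneg_left ?_ hf.δ0.le
    have key : N * ((σ.den * q) * (τ.den * r)) ≤ K * ((σ.den * q) * (τ.den * r)) :=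
      Nat.mul_le_mul_right _ hN
    exact_mod_cast key
  rng := by
    intro p hp j hj σ hσ z h1 h2
    have h1' : c.bp j.1.1 j.1.2 ≤ z := h1
    have h2' : z < c.bp j.1.1 (j.1.2 + 1) := h2
    refine hf.off p (hC p hp) j.1.1 (Cf.mem_S j) (h.pos _ (Cf.mem_S j)) σ (stA_some.1 hσ).1 z ?_
    rw [abs_le]
    exact ⟨(h.bp_ge j _).trans h1', (h2'.le).trans (h.bp_le j (Cf.k_lt j))⟩

/-- the grid of the pieces is fine -/
theorem data_fine (h : c.Ok n) (X : Finset (ℕ × ℕ × Finset ℕ)) {sn B : ℕ}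
    (hd : (sn : ℝ) * c.d1 * B ≤ 1) (j : c.Lam) :
    (sn : ℝ) * ((c.D.par X).be j - (c.D.par X).al j) * B ≤ 1 := by
  refine le_trans ?_ hd
  have h1 : (c.D.par X).be j - (c.D.par X).al j ≤ c.d1 :=
    h.fine _ (Cf.mem_S j) (Cf.r_pos j) _ (Cf.k_lt j)
  exact mul_le_mul_of_nonneg_right (mul_le_mul_of_nonneg_left h1 (Nat.cast_nonneg _))
    (Nat.cast_nonneg _)

end

/-! ### rough and smooth parts -/

lemma rgh_pos (y w : ℕ) : 0 < rgh y w :=
  Finset.prod_pos fun _ hl => (Nat.prime_of_mem_primeFactors (Finset.mem_filter.1 hl).1).pos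

lemma smt_pos (y w : ℕ) : 0 < smt y w :=
  Finset.prod_pos fun _ hl => (Nat.prime_of_mem_primeFactors (Finset.mem_filter.1 hl).1).pos

lemma rgh_mul_smt {w : ℕ} (hw : Squarefree w) (y : ℕ) : rgh y w * smt y w = w := by
  have h := Nat.prod_primeFactors_of_squarefree hw
  conv_rhs => rw [← h]
  unfold rgh smt
  rw [← Finset.prod_filter_mul_prod_filter_not w.primeFactors (y ≤ ·)]
  congr 1
  refine Finset.prod_congr ?_ fun _ _ => rfl
  ext l
  simp only [Finset.mem_filter, not_le]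

lemma smt_dvd_pml (y w : ℕ) : smt y w ∣ pml y := by
  unfold smt pml
  refine Finset.prod_dvd_prod_of_subset _ _ _ fun l hl => ?_
  obtain ⟨h1, h2⟩ := Finset.mem_filter.1 hl
  exact Finset.mem_filter.2 ⟨Finset.mem_range.2 h2, Nat.prime_of_mem_primeFactors h1⟩

lemma smt_le_pml (y w : ℕ) : smt y w ≤ pml y := Nat.le_of_dvd (pml_pos y) (smt_dvd_pml y w)

lemma pml_le (y : ℕ) : pml y ≤ 4 ^ y := by
  cases y with
  | zero => simp [pml]
  | succ y =>
    have h := primorial_le_four_pow y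
    have e : pml (y + 1) = primorial y := rfl
    rw [e]
    exact h.trans (Nat.pow_le_pow_right (by norm_num) (Nat.le_succ y))

lemma prime_dvd_smt {y w l : ℕ} (hl : l.Prime) (h : l ∣ smt y w) : l < y := by
  unfold smt at h
  obtain ⟨c, hc, hlc⟩ := (hl.prime.dvd_finsetProd_iff _).1 h
  obtain ⟨h1, h2⟩ := Finset.mem_filter.1 hc
  have := (Nat.prime_dvd_prime_iff_eq hl (Nat.prime_of_mem_primeFactors h1)).1 hlc
  rw [this]; exact h2

/-- equal prime factors `≥ y`: equal rough parts -/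
lemma rgh_congr {y w w' : ℕ} (hw : w ≠ 0) (hw' : w' ≠ 0)
    (h : ∀ l : ℕ, l.Prime → y ≤ l → (l ∣ w ↔ l ∣ w')) : rgh y w = rgh y w' := by
  unfold rgh
  refine Finset.prod_congr ?_ fun _ _ => rfl
  ext l
  simp only [Finset.mem_filter, Nat.mem_primeFactors]
  constructor
  · rintro ⟨⟨h1, h2, -⟩, h3⟩
    exact ⟨⟨h1, (h l h1 h3).1 h2, hw'⟩, h3⟩
  · rintro ⟨⟨h1, h2, -⟩, h3⟩
    exact ⟨⟨h1, (h l h1 h3).2 h2, hw⟩, h3⟩

/-- number of squarefree moduli with a given rough part -/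
lemma card_rgh_le {ι : Type*} [DecidableEq ι] (T : Finset ι) (f : ι → ℕ)
    (hinj : ∀ a ∈ T, ∀ b ∈ T, f a = f b → a = b) (hsq : ∀ a ∈ T, Squarefree (f a)) (y g : ℕ)
    (hg : ∀ a ∈ T, rgh y (f a) = g) : T.card ≤ 2 ^ y := by
  classical
  have h1 : T.card ≤ ((Finset.range y).powerset).card := by
    refine Finset.card_le_card_of_injOn (fun a => (f a).primeFactors.filter (· < y)) ?_ ?_
    · intro a ha
      rw [Finset.mem_coe, Finset.mem_powerset]
      intro l hl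
      exact Finset.mem_range.2 (Finset.mem_filter.1 hl).2
    · intro a ha b hb e
      refine hinj a ha b hb ?_
      have e1 : smt y (f a) = smt y (f b) := by
        unfold smt
        have e' : (f a).primeFactors.filter (· < y) = (f b).primeFactors.filter (· < y) := e
        rw [e']
      rw [← rgh_mul_smt (hsq a ha) y, ← rgh_mul_smt (hsq b hb) y, e1, hg a ha, hg b hb]
  rwa [Finset.card_powerset, Finset.card_range] at h1

/-! ### columns -/

lemma cols_lt (t : IT) : ∀ {n : ℕ}, t.Ok n → ∀ p ∈ cols t, p.Prime ∧ p < n := by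
  induction t with
  | leaf S => intro n _ p hp; simp [cols] at hp
  | br p t₁ t₀ ih₁ ih₀ =>
    intro n hO l hl
    obtain ⟨hp, hpn, -, h1, h0⟩ := hO
    simp only [cols, Finset.mem_insert, Finset.mem_union] at hl
    rcases hl with rfl | hl | hl
    · exact ⟨hp, hpn⟩
    · exact ⟨(ih₁ h1 l hl).1, (ih₁ h1 l hl).2.trans hpn⟩
    · exact ⟨(ih₀ h0 l hl).1, (ih₀ h0 l hl).2.trans hpn⟩
  | add p t₁ t₀ ih₁ ih₀ =>
    intro n hO l hl
    obtain ⟨hp, hpn, -, h1, h0⟩ := hO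
    simp only [cols, Finset.mem_union] at hl
    rcases hl with hl | hl
    · exact ⟨(ih₁ h1 l hl).1, (ih₁ h1 l hl).2.trans hpn⟩
    · exact ⟨(ih₀ h0 l hl).1, (ih₀ h0 l hl).2.trans hpn⟩
  | up p Sp t ih =>
    intro n hO l hl
    obtain ⟨hp, hpn, -, h1⟩ := hO
    exact ⟨(ih h1 l hl).1, (ih h1 l hl).2.trans hpn⟩

/-! ### nodes of a subtree -/

/-- the node of the cut tree; its level is at least `y` -/
theorem All_subt {Q : NS → IT → Prop} (y q : ℕ) : ∀ (t : IT) (u : NS), y ≤ u.n → All Q u t →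
    ∃ (m : ℕ) (c' : ℝ), y ≤ m ∧
      All Q ⟨m, c', u.A * ppc y t q, u.B * mpc y t q⟩ (subt y t q) := by
  intro t
  induction t with
  | leaf S =>
    intro u hy h
    refine ⟨u.n, u.c, hy, ?_⟩
    have e1 : ppc y (.leaf S) q = 1 := rfl
    have e2 : mpc y (.leaf S) q = 1 := rfl
    rw [e1, e2, mul_one, mul_one]
    exact h
  | br p t₁ t₀ ih₁ ih₀ =>
    intro u hy h
    by_cases hp : p < y
    · rw [subt_br_lt hp, ppc_br_lt hp, mpc_br_lt hp, mul_one, mul_one]
      exact ⟨u.n, u.c, hy, h⟩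
    · by_cases hq : q ∈ t₀.items
      · rw [subt_br0 hp hq, ppc_br0 hp hq, mpc_br0 hp hq]
        obtain ⟨m, c', h1, hm⟩ := ih₀ _ (not_lt.1 hp) h.2.2
        refine ⟨m, c', h1, ?_⟩
        have e : u.B * (p * mpc y t₀ q) = u.B * p * mpc y t₀ q := by ring
        rw [e]; exact hm
      · rw [subt_br1 hp hq, ppc_br1 hp hq, mpc_br1 hp hq]
        obtain ⟨m, c', h1, hm⟩ := ih₁ _ (not_lt.1 hp) h.2.1
        refine ⟨m, c', h1, ?_⟩
        have e : u.A * (p * ppc y t₁ q) = u.A * p * ppc y t₁ q := by ring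
        rw [e]; exact hm
  | add p t₁ t₀ ih₁ ih₀ =>
    intro u hy h
    by_cases hp : p < y
    · rw [subt_add_lt hp, ppc_add_lt hp, mpc_add_lt hp, mul_one, mul_one]
      exact ⟨u.n, u.c, hy, h⟩
    · by_cases hq : q ∈ t₀.items
      · rw [subt_add0 hp hq, ppc_add0 hp hq, mpc_add0 hp hq]
        obtain ⟨m, c', h1, hm⟩ := ih₀ ⟨p, u.c, u.A, u.B⟩ (not_lt.1 hp) h.2.2
        exact ⟨m, c', h1, hm⟩
      · rw [subt_add1 hp hq, ppc_add1 hp hq, mpc_add1 hp hq]
        obtain ⟨m, c', h1, hm⟩ := ih₁ ⟨p, u.c, u.A, u.B⟩ (not_lt.1 hp) h.2.1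
        exact ⟨m, c', h1, hm⟩
  | up p Sp t ih =>
    intro u hy h
    by_cases hp : p < y
    · rw [subt_up_lt hp, ppc_up_lt hp, mpc_up_lt hp, mul_one, mul_one]
      exact ⟨u.n, u.c, hy, h⟩
    · rw [subt_up hp, ppc_up hp, mpc_up hp]
      obtain ⟨m, c', h1, hm⟩ := ih ⟨p, u.c, u.A, u.B⟩ (not_lt.1 hp) h.2
      exact ⟨m, c', h1, hm⟩

/-- the product of the present ties of an item is the one of the node times the one inside -/
theorem All_pp {t' : IT} : ∀ (t : IT) (n : ℕ) (u : NS), t.Ok n →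
    (∀ q ∈ t.items, pp t' q = u.A * pp t q) →
    All (fun u τ => ∀ q ∈ τ.items, pp t' q = u.A * pp τ q) u t := by
  intro t
  induction t with
  | leaf S => intro n u _ h; exact h
  | br p t₁ t₀ ih₁ ih₀ =>
    intro n u hO h
    obtain ⟨h1, h2, h3, h4, h5⟩ := hO
    refine ⟨h, ih₁ _ _ h4 fun q hq => ?_, ih₀ _ _ h5 fun q hq => ?_⟩
    · have := h q (Finset.mem_union_left _ hq)
      have hn : q ∉ t₀.items := Finset.disjoint_left.1 h3 hq
      rw [this]
      simp only [pp, if_neg hn]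
      ring
    · have := h q (Finset.mem_union_right _ hq)
      rw [this]
      simp only [pp, if_pos hq]
  | add b t₁ t₀ ih₁ ih₀ =>
    intro n u hO h
    obtain ⟨h1, h2, h3, h4, h5⟩ := hO
    refine ⟨h, ih₁ _ _ h4 fun q hq => ?_, ih₀ _ _ h5 fun q hq => ?_⟩
    · have := h q (Finset.mem_union_left _ hq)
      have hn : q ∉ t₀.items := Finset.disjoint_left.1 h3 hq
      rw [this]
      simp only [pp, if_neg hn]
    · have := h q (Finset.mem_union_right _ hq)
      rw [this]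
      simp only [pp, if_pos hq]
  | up b Sp t ih =>
    intro n u hO h
    obtain ⟨h1, h2, h3, h4⟩ := hO
    refine ⟨h, ih _ _ h4 fun q hq => ?_⟩
    have := h q hq
    rw [this]
    simp only [pp]

/-- the same for the missing ties -/
theorem All_mp {t' : IT} : ∀ (t : IT) (n : ℕ) (u : NS), t.Ok n →
    (∀ q ∈ t.items, mp t' q = u.B * mp t q) →
    All (fun u τ => ∀ q ∈ τ.items, mp t' q = u.B * mp τ q) u t := by
  intro t
  induction t with
  | leaf S => intro n u _ h; exact h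
  | br p t₁ t₀ ih₁ ih₀ =>
    intro n u hO h
    obtain ⟨h1, h2, h3, h4, h5⟩ := hO
    refine ⟨h, ih₁ _ _ h4 fun q hq => ?_, ih₀ _ _ h5 fun q hq => ?_⟩
    · have := h q (Finset.mem_union_left _ hq)
      have hn : q ∉ t₀.items := Finset.disjoint_left.1 h3 hq
      rw [this]
      simp only [mp, if_neg hn]
    · have := h q (Finset.mem_union_right _ hq)
      rw [this]
      simp only [mp, if_pos hq]
      ring
  | add b t₁ t₀ ih₁ ih₀ =>
    intro n u hO h
    obtain ⟨h1, h2, h3, h4, h5⟩ := hO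
    refine ⟨h, ih₁ _ _ h4 fun q hq => ?_, ih₀ _ _ h5 fun q hq => ?_⟩
    · have := h q (Finset.mem_union_left _ hq)
      have hn : q ∉ t₀.items := Finset.disjoint_left.1 h3 hq
      rw [this]
      simp only [mp, if_neg hn]
    · have := h q (Finset.mem_union_right _ hq)
      rw [this]
      simp only [mp, if_pos hq]
  | up b Sp t ih =>
    intro n u hO h
    obtain ⟨h1, h2, h3, h4⟩ := hO
    refine ⟨h, ih _ _ h4 fun q hq => ?_⟩
    have := h q hq
    rw [this]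
    simp only [mp]

/-- items of a subtree are items of the tree -/
theorem All_it {t' : IT} : ∀ (t : IT) (u : NS), t.items ⊆ t'.items →
    All (fun _ τ => τ.items ⊆ t'.items) u t := by
  intro t
  induction t with
  | leaf S => intro u h; exact h
  | br p t₁ t₀ ih₁ ih₀ =>
    intro u h
    exact ⟨h, ih₁ _ (Finset.subset_union_left.trans h), ih₀ _ (Finset.subset_union_right.trans h)⟩
  | add p t₁ t₀ ih₁ ih₀ =>
    intro u h
    exact ⟨h, ih₁ _ (Finset.subset_union_left.trans h), ih₀ _ (Finset.subset_union_right.trans h)⟩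
  | up p Sp t ih => intro u h; exact ⟨h, ih _ h⟩

/-- `Ok` at every node (at the level of the node) -/
theorem All_Ok : ∀ (t : IT) (u : NS), t.Ok u.n → All (fun u τ => τ.Ok u.n) u t := by
  intro t
  induction t with
  | leaf S => intro u h; exact h
  | br p t₁ t₀ ih₁ ih₀ => intro u h; exact ⟨h, ih₁ _ h.2.2.2.1, ih₀ _ h.2.2.2.2⟩
  | add p t₁ t₀ ih₁ ih₀ =>
    intro u h; exact ⟨h, ih₁ ⟨p, u.c, u.A, u.B⟩ h.2.2.2.1, ih₀ ⟨p, u.c, u.A, u.B⟩ h.2.2.2.2⟩
  | up p Sp t ih => intro u h; exact ⟨h, ih ⟨p, u.c, u.A, u.B⟩ h.2.2.2⟩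

/-- `All` at every node -/
theorem All_All {Q : NS → IT → Prop} : ∀ (t : IT) (u : NS), All Q u t →
    All (fun u τ => All Q u τ) u t := by
  intro t
  induction t with
  | leaf S => intro u h; exact h
  | br p t₁ t₀ ih₁ ih₀ => intro u h; exact ⟨h, ih₁ _ h.2.1, ih₀ _ h.2.2⟩
  | add p t₁ t₀ ih₁ ih₀ =>
    intro u h; exact ⟨h, ih₁ ⟨p, u.c, u.A, u.B⟩ h.2.1, ih₀ ⟨p, u.c, u.A, u.B⟩ h.2.2⟩
  | up p Sp t ih => intro u h; exact ⟨h, ih ⟨p, u.c, u.A, u.B⟩ h.2⟩

lemma uq_lt {t : IT} {n : ℕ} (hO : t.Ok n) {q l : ℕ} (h : l ∈ t.uq q) : l.Prime ∧ l < n :=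
  rt_prime t hO q l (Finset.mem_union_right _ h)

/-- the `up` primes above a node: a set `UP` of columns common to all the items -/
def UPn (t' : IT) (u : NS) (τ : IT) : Prop :=
  (∀ q ∈ τ.items, ∀ l < u.n, (l ∈ t'.uq q ↔ l ∈ τ.uq q)) ∧
    ∃ UP : Finset ℕ, ∀ q ∈ τ.items, ∀ l : ℕ, u.n ≤ l → (l ∈ t'.uq q ↔ l ∈ UP ∧ l ∣ q)

theorem All_UPn {t' : IT} {P : Bld532.Par} {W : ℕ → ℝ} : ∀ (t : IT) (u : NS), t.Ok u.n →
    All (NodeOk P W) u t → UPn t' u t → All (UPn t') u t := by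
  classical
  intro t
  induction t with
  | leaf S => intro u _ _ h; exact h
  | br p t₁ t₀ ih₁ ih₀ =>
    intro u hO hN h
    obtain ⟨hp, hpn, hd, h4, h5⟩ := hO
    obtain ⟨h1, UP, h2⟩ := h
    refine ⟨⟨h1, UP, h2⟩, ih₁ _ h4 hN.2.1 ⟨fun q hq l hl => ?_, UP.filter (u.n ≤ ·),
      fun q hq l hl => ?_⟩, ih₀ _ h5 hN.2.2 ⟨fun q hq l hl => ?_, UP.filter (u.n ≤ ·),
      fun q hq l hl => ?_⟩⟩
    · have hn : q ∉ t₀.items := Finset.disjoint_left.1 hd hq
      have hl' : l < p := hl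
      rw [h1 q (Finset.mem_union_left _ hq) l (hl'.trans hpn)]
      simp only [IT.uq, if_neg hn]
    · have hn : q ∉ t₀.items := Finset.disjoint_left.1 hd hq
      have hl' : p ≤ l := hl
      rcases lt_or_ge l u.n with h6 | h6
      · rw [h1 q (Finset.mem_union_left _ hq) l h6]
        simp only [IT.uq, if_neg hn, Finset.mem_filter]
        constructor
        · intro h7; exact absurd (uq_lt h4 h7).2 (not_lt.2 hl')
        · rintro ⟨⟨-, h7⟩, -⟩; exact absurd h6 (not_lt.2 h7)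
      · rw [h2 q (Finset.mem_union_left _ hq) l h6, Finset.mem_filter]
        exact ⟨fun h7 => ⟨⟨h7.1, h6⟩, h7.2⟩, fun h7 => ⟨h7.1.1, h7.2⟩⟩
    · have hl' : l < p := hl
      rw [h1 q (Finset.mem_union_right _ hq) l (hl'.trans hpn)]
      simp only [IT.uq, if_pos hq]
    · have hl' : p ≤ l := hl
      rcases lt_or_ge l u.n with h6 | h6
      · rw [h1 q (Finset.mem_union_right _ hq) l h6]
        simp only [IT.uq, if_pos hq, Finset.mem_filter]
        constructor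
        · intro h7; exact absurd (uq_lt h5 h7).2 (not_lt.2 hl')
        · rintro ⟨⟨-, h7⟩, -⟩; exact absurd h6 (not_lt.2 h7)
      · rw [h2 q (Finset.mem_union_right _ hq) l h6, Finset.mem_filter]
        exact ⟨fun h7 => ⟨⟨h7.1, h6⟩, h7.2⟩, fun h7 => ⟨h7.1.1, h7.2⟩⟩
  | add p t₁ t₀ ih₁ ih₀ =>
    intro u hO hN h
    obtain ⟨hp, hpn, hd, h4, h5⟩ := hO
    obtain ⟨h1, UP, h2⟩ := h
    refine ⟨⟨h1, UP, h2⟩, ih₁ ⟨p, u.c, u.A, u.B⟩ h4 hN.2.1 ⟨fun q hq l hl => ?_,
      UP.filter (u.n ≤ ·), fun q hq l hl => ?_⟩, ih₀ ⟨p, u.c, u.A, u.B⟩ h5 hN.2.2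
      ⟨fun q hq l hl => ?_, UP.filter (u.n ≤ ·), fun q hq l hl => ?_⟩⟩
    · have hn : q ∉ t₀.items := Finset.disjoint_left.1 hd hq
      have hl' : l < p := hl
      rw [h1 q (Finset.mem_union_left _ hq) l (hl'.trans hpn)]
      simp only [IT.uq, if_neg hn]
    · have hn : q ∉ t₀.items := Finset.disjoint_left.1 hd hq
      have hl' : p ≤ l := hl
      rcases lt_or_ge l u.n with h6 | h6
      · rw [h1 q (Finset.mem_union_left _ hq) l h6]
        simp only [IT.uq, if_neg hn, Finset.mem_filter]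
        constructor
        · intro h7; exact absurd (uq_lt h4 h7).2 (not_lt.2 hl')
        · rintro ⟨⟨-, h7⟩, -⟩; exact absurd h6 (not_lt.2 h7)
      · rw [h2 q (Finset.mem_union_left _ hq) l h6, Finset.mem_filter]
        exact ⟨fun h7 => ⟨⟨h7.1, h6⟩, h7.2⟩, fun h7 => ⟨h7.1.1, h7.2⟩⟩
    · have hl' : l < p := hl
      rw [h1 q (Finset.mem_union_right _ hq) l (hl'.trans hpn)]
      simp only [IT.uq, if_pos hq]
    · have hl' : p ≤ l := hl
      rcases lt_or_ge l u.n with h6 | h6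
      · rw [h1 q (Finset.mem_union_right _ hq) l h6]
        simp only [IT.uq, if_pos hq, Finset.mem_filter]
        constructor
        · intro h7; exact absurd (uq_lt h5 h7).2 (not_lt.2 hl')
        · rintro ⟨⟨-, h7⟩, -⟩; exact absurd h6 (not_lt.2 h7)
      · rw [h2 q (Finset.mem_union_right _ hq) l h6, Finset.mem_filter]
        exact ⟨fun h7 => ⟨⟨h7.1, h6⟩, h7.2⟩, fun h7 => ⟨h7.1.1, h7.2⟩⟩
  | up p Sp t ih =>
    intro u hO hN h
    obtain ⟨hp, hpn, hd, h4⟩ := hO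
    obtain ⟨h1, UP, h2⟩ := h
    have hSp : Sp = Bld532.pr p t.items := hN.1.2.2.2.2.2.1
    refine ⟨⟨h1, UP, h2⟩, ih ⟨p, u.c, u.A, u.B⟩ h4 hN.2 ⟨fun q hq l hl => ?_,
      insert p (UP.filter (u.n ≤ ·)), fun q hq l hl => ?_⟩⟩
    · have hl' : l < p := hl
      rw [h1 q hq l (hl'.trans hpn)]
      simp only [IT.uq]
      split_ifs
      · rw [Finset.mem_insert]
        exact ⟨fun h7 => h7.resolve_left hl'.ne, Or.inr⟩
      · exact Iff.rfl
    · have hl' : p ≤ l := hl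
      rcases lt_or_ge l u.n with h6 | h6
      · rw [h1 q hq l h6]
        simp only [IT.uq, Finset.mem_insert, Finset.mem_filter]
        rcases eq_or_lt_of_le hl' with h8 | h8
        · subst h8
          split_ifs with h9
          · rw [hSp] at h9
            exact ⟨fun _ => ⟨Or.inl rfl, (Bld532.mem_pr.1 h9).2⟩,
              fun _ => Finset.mem_insert_self _ _⟩
          · constructor
            · intro h7; exact absurd (uq_lt h4 h7).2 (lt_irrefl _)
            · rintro ⟨-, h7⟩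
              rw [hSp] at h9
              exact absurd (Bld532.mem_pr.2 ⟨hq, h7⟩) h9
        · constructor
          · intro h7
            exfalso
            split_ifs at h7
            · rcases Finset.mem_insert.1 h7 with h10 | h10
              · omega
              · exact absurd (uq_lt h4 h10).2 (not_lt.2 hl')
            · exact absurd (uq_lt h4 h7).2 (not_lt.2 hl')
          · rintro ⟨h7 | h7, -⟩
            · omega
            · exact absurd h6 (not_lt.2 h7.2)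
      · rw [h2 q hq l h6, Finset.mem_insert, Finset.mem_filter]
        exact ⟨fun h7 => ⟨Or.inr ⟨h7.1, h6⟩, h7.2⟩, fun h7 => ⟨h7.1.elim (fun h8 => by omega)
          fun h8 => h8.1, h7.2⟩⟩

/-- the facts of one node of a subtree of `t'` -/
structure ND1 (P : Bld532.Par) (W : ℕ → ℝ) (t' : IT) (u : NS) (τ : IT) : Prop where
  node : NodeOk P W u τ
  ok : τ.Ok u.n
  sub : τ.items ⊆ t'.items
  pp : ∀ q ∈ τ.items, pp t' q = u.A * pp τ q
  mp : ∀ q ∈ τ.items, mp t' q = u.B * mp τ q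
  /-- the primes `≥` the level are retained -/
  ge : ∀ q ∈ τ.items, ∀ l : ℕ, l.Prime → u.n ≤ l → l ∣ q / u.A → l ∈ rt t' q
  /-- the `up` columns above the node -/
  up : UPn t' u τ

/-- **facts about a node `(u, τ)` of the tree `t'`** (`NDt` = at all the nodes of `τ`) -/
structure NDt (P : Bld532.Par) (W : ℕ → ℝ) (t' : IT) (u : NS) (τ : IT) : Prop where
  all : All (ND1 P W t') u τ
  dvd : ∀ q ∈ t'.items, pp t' q ∣ q
  sq : ∀ q ∈ t'.items, Squarefree q
  rd : ∀ q ∈ t'.items, ∀ b ∈ rt t' q, b ∣ q / pp t' q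

/-- the built tree -/
theorem bld_NDt (P : Bld532.Par) (W : ℕ → ℝ) (n : ℕ) (S : Finset ℕ)
    (hS : ∀ q ∈ S, Squarefree q) (hn : ∀ q ∈ S, ∀ l : ℕ, l.Prime → l ∣ q → l < n) :
    All (NDt P W (Bld532.bld P W n 1 S)) ⟨n, 1, 1, 1⟩ (Bld532.bld P W n 1 S) := by
  set t := Bld532.bld P W n 1 S with ht
  have hit : t.items = S := Bld532.bld_items P W n 1 S
  have hO : t.Ok n := Bld532.bld_Ok P W n 1 S
  have h1 := Bld532.bld_All_root P W n S
  have h2 := All_pp (t' := t) t n ⟨n, 1, 1, 1⟩ hO (fun q hq => (one_mul _).symm)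
  have h4 := LfDat734.All_ge (t' := t) t ⟨n, 1, 1, 1⟩ (Bld532.bld_All_root P W n S)
    (by rw [hit]; exact hS) (fun q _ => Finset.Subset.refl _) (fun q hq l hl h5 h6 => by
      rw [hit] at hq
      have h7 : l ∣ q := h6.trans (Nat.div_dvd_of_dvd (one_dvd _))
      have h8 : n ≤ l := h5
      exact absurd (hn q hq l hl h7) (not_lt.2 h8))
  have h5 := All_it (t' := t) t ⟨n, 1, 1, 1⟩ (Finset.Subset.refl _)
  have h6 := All_Ok t ⟨n, 1, 1, 1⟩ hO
  have h7 := All_mp (t' := t) t n ⟨n, 1, 1, 1⟩ hO (fun q hq => (one_mul _).symm)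
  have h8 := All_UPn (t' := t) t ⟨n, 1, 1, 1⟩ hO h1 ⟨fun _ _ _ _ => Iff.rfl, ∅,
    fun q hq l hl => ⟨fun h9 => absurd (uq_lt hO h9).2 (not_lt.2 hl), fun h9 => by
      simp at h9⟩⟩
  have h := ((((((h1.and h6).and h5).and h2).and h7).and h4).and h8)
  have h' : All (ND1 P W t) ⟨n, 1, 1, 1⟩ t := All.mono (fun u τ hh =>
    ⟨hh.1.1.1.1.1.1, hh.1.1.1.1.1.2, hh.1.1.1.1.2, hh.1.1.1.2, hh.1.1.2, hh.1.2, hh.2⟩) h
  refine All.mono (fun u τ hh => ?_) (All_All t _ h')
  exact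
    { all := hh
      dvd := fun q hq => (Bld532.bld_pp P W n S (hit ▸ hq)).1
      sq := fun q hq => hS q (hit ▸ hq)
      rd := fun q hq b hb => OmSt532.bld_ret_dvd P W n S (hit ▸ hq) hb }

section
variable {P : Bld532.Par} {W : ℕ → ℝ} {t' : IT} {u : NS} {τ : IT}

lemma NDt.self (h : NDt P W t' u τ) : ND1 P W t' u τ := h.all.self

lemma NDt.bk (h : NDt P W t' u τ) : Bk τ.items u := WalkIT579.bk_of_nodeOk h.self.node

/-- the cut tree is a node too, of level `≥ y` -/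
theorem NDt.subt (h : NDt P W t' u τ) {y : ℕ} (hy : y ≤ u.n) (q : ℕ) :
    ∃ (m : ℕ) (c' : ℝ), y ≤ m ∧
      NDt P W t' ⟨m, c', u.A * ppc y τ q, u.B * mpc y τ q⟩ (subt y τ q) := by
  obtain ⟨m, c', hm, h1⟩ := All_subt y q τ u hy h.all
  exact ⟨m, c', hm, h1, h.dvd, h.sq, h.rd⟩

/-- the cut tree is a leaf or its top column is `< y` -/
lemma tp_subt_lt (y q : ℕ) : ∀ t : IT, ¬ WalkIT579.isL (subt y t q) →
    WalkIT579.tp (subt y t q) < y := by
  intro t
  induction t with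
  | leaf S => intro h; exact absurd trivial h
  | br p t₁ t₀ ih₁ ih₀ =>
    by_cases hp : p < y
    · rw [subt_br_lt hp]; intro _; exact hp
    · by_cases hq : q ∈ t₀.items
      · rw [subt_br0 hp hq]; exact ih₀
      · rw [subt_br1 hp hq]; exact ih₁
  | add p t₁ t₀ ih₁ ih₀ =>
    by_cases hp : p < y
    · rw [subt_add_lt hp]; intro _; exact hp
    · by_cases hq : q ∈ t₀.items
      · rw [subt_add0 hp hq]; exact ih₀
      · rw [subt_add1 hp hq]; exact ih₁
  | up p Sp t ih =>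
    by_cases hp : p < y
    · rw [subt_up_lt hp]; intro _; exact hp
    · rw [subt_up hp]; exact ih

lemma cols_of_isL {t : IT} (h : WalkIT579.isL t) : cols t = ∅ := by
  cases t with
  | leaf S => rfl
  | br p t₁ t₀ => exact absurd h (by simp [WalkIT579.isL])
  | add p t₁ t₀ => exact absurd h (by simp [WalkIT579.isL])
  | up p Sp t => exact absurd h (by simp [WalkIT579.isL])

/-- **(hrp)**: at a node whose top column is `< y` (or a leaf), equal retained parts at a column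
`p < y` force equal prime factors `≥ y` -/
theorem NDt.prime_iff (h : NDt P W t' u τ) {n : ℕ} (hO : t'.Ok n) (hl : ¬ WalkIT579.isL τ) {y : ℕ}
    (hy : WalkIT579.tp τ < y) {p : ℕ} (hp : p < y) {r r' : ℕ} (hr : r ∈ τ.items)
    (hr' : r' ∈ τ.items) (e : ret t' p r = ret t' p r') {l : ℕ} (hlp : l.Prime) (hly : y ≤ l)
    (hd : l ∣ r / u.A) : l ∣ r' / u.A := by
  obtain ⟨h1, h2, h3, h4, -, h5, -⟩ := h.self
  have hln : u.n ≤ l := by
    rcases WalkIT579.prime_ge h1 hl hlp (hy.le.trans hly) with h6 | h6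
    · omega
    · exact h6
  have h6 := h5 r hr l hlp hln hd
  have h7 := (dvd_ret hO (p := p) (q := r) hlp).2 ⟨h6, lt_of_lt_of_le hp hly⟩
  rw [e] at h7
  have h8 := ((dvd_ret hO hlp).1 h7).1
  have h9 := h.rd r' (h3 hr') l h8
  have e1 := h4 r' hr'
  have hA : u.A ∣ pp t' r' := by rw [e1]; exact Dvd.intro _ rfl
  refine h9.trans ?_
  obtain ⟨k, hk⟩ := hA
  have hd' := h.dvd r' (h3 hr')
  obtain ⟨m, hm⟩ := hd'
  have hr0 : 0 < r' := Nat.pos_of_ne_zero (h.sq r' (h3 hr')).ne_zero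
  have hpp0 : 0 < pp t' r' := Nat.pos_of_dvd_of_pos (h.dvd r' (h3 hr')) hr0
  have hA0 : 0 < u.A := Nat.pos_of_ne_zero (by rintro h0; rw [hk, h0, zero_mul] at hpp0; omega)
  have e2 : r' / pp t' r' = m := Nat.div_eq_of_eq_mul_right hpp0 hm
  have e4 : pp t' r' * m = u.A * (k * m) := by rw [hk]; ring
  have e3 : r' / u.A = k * m := Nat.div_eq_of_eq_mul_right hA0 (hm.trans e4)
  rw [e2, e3]
  exact Dvd.intro_left _ rfl

lemma NDt.div_ne (h : NDt P W t' u τ) {r : ℕ} (hr : r ∈ τ.items) : r / u.A ≠ 0 := by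
  have hr0 : 0 < r := Nat.pos_of_ne_zero (h.sq r (h.self.sub hr)).ne_zero
  have hd := h.bk.dvd r hr
  exact (Nat.div_pos (Nat.le_of_dvd hr0 hd) (Nat.pos_of_dvd_of_pos hd hr0)).ne'

lemma NDt.sq_div (h : NDt P W t' u τ) {r : ℕ} (hr : r ∈ τ.items) : Squarefree (r / u.A) :=
  (h.sq r (h.self.sub hr)).squarefree_of_dvd (Nat.div_dvd_of_dvd (h.bk.dvd r hr))

/-- **(hrp)** for the cut tree: `rp := fun r => rgh y (r / A2)` -/
theorem NDt.rgh_eq (h : NDt P W t' u τ) {n : ℕ} (hO : t'.Ok n) {y : ℕ} (hyn : y ≤ u.n) {q : ℕ}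
    {p : ℕ} (hp : p ∈ cols (Step588.subt y τ q)) {r r' : ℕ}
    (hr : r ∈ (Step588.subt y τ q).items) (hr' : r' ∈ (Step588.subt y τ q).items)
    (e : ret t' p r = ret t' p r') :
    rgh y (r / (u.A * ppc y τ q)) = rgh y (r' / (u.A * ppc y τ q)) := by
  obtain ⟨m, c', -, h2⟩ := h.subt hyn q
  by_cases hl : WalkIT579.isL (Step588.subt y τ q)
  · rw [cols_of_isL hl] at hp; simp at hp
  have hty := tp_subt_lt y q τ hl
  have hpy := (cols_lt _ (Ok_subt y τ q h.self.ok hyn) p hp).2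
  refine rgh_congr (h2.div_ne hr) (h2.div_ne hr') fun l hlp hly => ?_
  exact ⟨h2.prime_iff hO hl hty hpy hr hr' e hlp hly,
    h2.prime_iff hO hl hty hpy hr' hr e.symm hlp hly⟩

/-- retained primes of an item divide `q / A` -/
lemma NDt.rt_dvd (h : NDt P W t' u τ) {r l : ℕ} (hr : r ∈ τ.items) (hl : l ∈ rt t' r) :
    l ∣ r / u.A := by
  have h3 := h.self.sub hr
  have e1 := h.self.pp r hr
  have hr0 : 0 < r := Nat.pos_of_ne_zero (h.sq r h3).ne_zero
  have hpp0 : 0 < pp t' r := Nat.pos_of_dvd_of_pos (h.dvd r h3) hr0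
  have hA0 : 0 < u.A := Nat.pos_of_ne_zero (by rintro h0; rw [e1, h0, zero_mul] at hpp0; omega)
  obtain ⟨m, hm⟩ := h.dvd r h3
  have e2 : r / pp t' r = m := Nat.div_eq_of_eq_mul_right hpp0 hm
  have e4 : pp t' r * m = u.A * (pp τ r * m) := by rw [e1]; ring
  have e3 : r / u.A = pp τ r * m := Nat.div_eq_of_eq_mul_right hA0 (hm.trans e4)
  have h9 := h.rd r h3 l hl
  rw [e2] at h9
  rw [e3]
  exact h9.mul_left _

/-- **mates have the same `up` primes `≥ y`** (`l ∣ r / A ↔ l ∣ r' / A` for the primes `≥ y`) -/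
theorem NDt.uq_iff (h : NDt P W t' u τ) {n : ℕ} (hO : t'.Ok n) {y : ℕ} (hyn : y ≤ u.n) {q r r' : ℕ}
    (hr : r ∈ (Step588.subt y τ q).items) (hr' : r' ∈ (Step588.subt y τ q).items)
    (e : rgh y (r / (u.A * ppc y τ q)) = rgh y (r' / (u.A * ppc y τ q))) {l : ℕ} (hly : y ≤ l) :
    l ∈ t'.uq r ↔ l ∈ t'.uq r' := by
  obtain ⟨m, c', -, h2⟩ := h.subt hyn q
  have hO2 := Ok_subt y τ q h.self.ok hyn
  obtain ⟨g1, UP, g2⟩ := h2.self.up
  have key : ∀ a ∈ (Step588.subt y τ q).items, ∀ b ∈ (Step588.subt y τ q).items,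
      rgh y (a / (u.A * ppc y τ q)) = rgh y (b / (u.A * ppc y τ q)) → l ∈ t'.uq a →
      l ∈ t'.uq b := by
    intro a ha b hb e hla
    have hlm : m ≤ l := by
      by_contra hc
      push Not at hc
      have := (g1 a ha l hc).1 hla
      exact absurd (uq_lt hO2 this).2 (not_lt.2 hly)
    have hlp := (uq_lt hO hla).1
    have h3 := h2.rt_dvd ha (Finset.mem_union_right _ hla)
    have h4 : l ∣ rgh y (a / (u.A * ppc y τ q)) := Finset.dvd_prod_of_mem _
      (Finset.mem_filter.2 ⟨Nat.mem_primeFactors.2 ⟨hlp, h3, h2.div_ne ha⟩, hly⟩)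
    rw [e] at h4
    unfold rgh at h4
    obtain ⟨c, hc, hlc⟩ := (hlp.prime.dvd_finsetProd_iff _).1 h4
    have h5 := Nat.mem_primeFactors.1 (Finset.mem_filter.1 hc).1
    have h6 := (Nat.prime_dvd_prime_iff_eq hlp h5.1).1 hlc
    subst h6
    have h7 : l ∣ b := h5.2.1.trans (Nat.div_dvd_of_dvd (h2.bk.dvd b hb))
    exact (g2 b hb l hlm).2 ⟨((g2 a ha l hlm).1 hla).1, h7⟩
  exact ⟨key r hr r' hr' e, key r' hr' r hr e.symm⟩

/-- number of relevant items -/
theorem NDt.card_rel (h : NDt P W t' u τ) (y g : ℕ) :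
    (τ.items.filter fun r => rgh y (r / u.A) = g).card ≤ 2 ^ y := by
  classical
  refine card_rgh_le _ (fun r => r / u.A) ?_ ?_ y g ?_
  · intro a ha b hb e
    have h1 := h.bk.dvd a (Finset.mem_filter.1 ha).1
    have h2 := h.bk.dvd b (Finset.mem_filter.1 hb).1
    have e' : a / u.A = b / u.A := e
    rw [← Nat.mul_div_cancel' h1, ← Nat.mul_div_cancel' h2, e']
  · intro a ha; exact h.sq_div (Finset.mem_filter.1 ha).1
  · intro a ha; exact (Finset.mem_filter.1 ha).2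

/-- the missing ties of a node are primes below the level of the tree -/
theorem NDt.B_lt (h : NDt P W t' u τ) {n : ℕ} (hO : t'.Ok n) {q : ℕ} (hq : q ∈ τ.items) {l : ℕ}
    (hl : l.Prime) (hd : l ∣ u.B) : l < n := by
  have e := Bld532.mp_eq_prod t' n hO q
  have e1 := h.self.mp q hq
  have h1 : l ∣ ∏ p ∈ t'.mt q, p := by
    rw [← e, e1]; exact hd.mul_right _
  obtain ⟨c, hc, hlc⟩ := (hl.prime.dvd_finsetProd_iff _).1 h1
  have h2 := Bld532.mt_lt t' n hO q c hc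
  have := (Nat.prime_dvd_prime_iff_eq hl h2.1).1 hlc
  rw [this]; exact h2.2

/-- a squarefree number with primes in `[y, n)` times `pml y` divides `pml n` -/
lemma mul_pml_dvd_pml {B y n : ℕ} (hB : Squarefree B)
    (h : ∀ l : ℕ, l.Prime → l ∣ B → y ≤ l ∧ l < n) (hyn : y ≤ n) : B * pml y ∣ pml n := by
  have e := Nat.prod_primeFactors_of_squarefree hB
  have hd : Disjoint B.primeFactors ((Finset.range y).filter Nat.Prime) := by
    rw [Finset.disjoint_left]
    intro l hl hl'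
    have h1 := h l (Nat.prime_of_mem_primeFactors hl) (Nat.dvd_of_mem_primeFactors hl)
    have h2 := Finset.mem_range.1 (Finset.mem_filter.1 hl').1
    omega
  have e2 : B * pml y = ∏ l ∈ B.primeFactors ∪ (Finset.range y).filter Nat.Prime, l := by
    rw [Finset.prod_union hd, e]
    rfl
  rw [e2]
  unfold pml
  refine Finset.prod_dvd_prod_of_subset _ _ _ fun l hl => ?_
  rw [Finset.mem_filter, Finset.mem_range]
  rcases Finset.mem_union.1 hl with h1 | h1
  · exact ⟨(h l (Nat.prime_of_mem_primeFactors h1) (Nat.dvd_of_mem_primeFactors h1)).2,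
      Nat.prime_of_mem_primeFactors h1⟩
  · obtain ⟨h2, h3⟩ := Finset.mem_filter.1 h1
    exact ⟨(Finset.mem_range.1 h2).trans_le hyn, h3⟩

/-- **the number `N = B * sn`** of `WOk` (`sn = u.B`, `B = mpc * pml y`) divides `pml n` -/
theorem NDt.N_dvd (h : NDt P W t' u τ) {n : ℕ} (hO : t'.Ok n) {y : ℕ} (hy : y ≤ u.n) (hyn : y ≤ n)
    {q : ℕ} (hq : q ∈ τ.items) : (mpc y τ q * pml y) * u.B ∣ pml n := by
  obtain ⟨m, c', hm, h2⟩ := h.subt hy q
  have hq2 := mem_subt y τ hq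
  have e : mpc y τ q * pml y * u.B = (u.B * mpc y τ q) * pml y := by ring
  rw [e]
  refine mul_pml_dvd_pml h2.bk.sfB (fun l hl hd => ⟨hm.trans (h2.bk.geB l hl hd), ?_⟩) hyn
  exact h2.B_lt hO hq2 hl hd

end

/-! ### the context -/

section ctx
open Crest.Agent.R4.Skel189
open Crest.Agent.R4.Soft104 (w)

lemma pml_le_Kc (S : Finset ℕ) : pml (top S) ≤ Kc S := by
  unfold pml Kc
  refine Finset.prod_le_prod_of_subset_of_one_le' (fun l hl => ?_) fun i hi _ =>
    (Finset.mem_Icc.1 hi).1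
  obtain ⟨h1, h2⟩ := Finset.mem_filter.1 hl
  exact Finset.mem_Icc.2 ⟨h2.one_lt.le, (Finset.mem_range.1 h1).le⟩

variable {N : Skel189.Num} {γ : ℝ} {p0 P₀ : ℕ} (X : Ctx N γ p0 P₀)

/-- all the node facts of a context -/
theorem ctx_NDt : All (NDt X.par (w X.ψ) X.c.t) ⟨top X.S, 1, 1, 1⟩ X.c.t := by
  rw [X.ht']
  exact bld_NDt X.par (w X.ψ) (top X.S) X.S X.sq fun q hq l _ h => X.lt hq h

theorem ctx_Cov (Y : Finset (ℕ × ℕ × Finset ℕ)) : Cov (X.c.D.par Y) X.c.rr := data_Cov X.ok Y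

variable {X} {u : NS} {τ : IT}

/-- **everything at a cut of a node** (`sn = u.B`, `B = mpc * pml y`, `t2 = subt y τ q`) -/
theorem ctx_step (h : NDt X.par (w X.ψ) X.c.t u τ) (Y : Finset (ℕ × ℕ × Finset ℕ)) {y dm : ℕ}
    (hy : y ≤ u.n) (hyt : y ≤ top X.S) (hdep : ∀ p, p < y → X.c.wp.dep p ≤ dm)
    (hd1 : X.c.d1 * Kc X.S ≤ 1) {q : ℕ} (hq : q ∈ τ.items) :
    Wld (X.c.D.par Y) X.c.wp X.c.st (ret X.c.t) (cols (subt y τ q)) ∧
    WOk (X.c.D.par Y) X.c.wp X.c.st (cols (subt y τ q))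
      (subt y τ q).items dm ((mpc y τ q * pml y) * u.B) ∧
    (∀ j, (u.B : ℝ) * ((X.c.D.par Y).be j - (X.c.D.par Y).al j) * ((mpc y τ q * pml y : ℕ) : ℝ)
      ≤ 1) ∧
    ∀ p ∈ cols (subt y τ q), ∀ r ∈ (subt y τ q).items, ∀ r' ∈ (subt y τ q).items,
      ret X.c.t p r = ret X.c.t p r' →
        rgh y (r / (u.A * ppc y τ q)) = rgh y (r' / (u.A * ppc y τ q)) := by
  have hcl : ∀ p ∈ cols (subt y τ q), p < y := fun p hp =>
    (cols_lt _ (Ok_subt y τ q h.self.ok hy) p hp).2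
  have hC : ∀ p ∈ cols (subt y τ q), p ≤ top X.S := fun p hp => (hcl p hp).le.trans hyt
  have hN : (mpc y τ q * pml y) * u.B ≤ Kc X.S :=
    (Nat.le_of_dvd (pml_pos _) (h.N_dvd X.tOk hy hyt hq)).trans (pml_le_Kc X.S)
  refine ⟨data_Wld X.ok X.lg Y hC, data_WOk X.ok Y X.fine hC ?_ (fun p hp => hdep p (hcl p hp)) hN,
    fun j => data_fine X.ok Y ?_ j, fun p hp r hr r' hr' e => h.rgh_eq X.tOk hy hp hr hr' e⟩
  · intro r hr
    have h1 := h.self.sub (subt_items y τ q hr)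
    rw [X.items] at h1
    rw [X.hS]; exact h1
  · have hd0 : 0 < X.c.d1 := by rw [X.d1]; exact N.hd1 p0 X.ψ X.S
    have h1 : (((mpc y τ q * pml y) * u.B : ℕ) : ℝ) ≤ Kc X.S := by exact_mod_cast hN
    have h2 : (u.B : ℝ) * X.c.d1 * ((mpc y τ q * pml y : ℕ) : ℝ) =
        X.c.d1 * (((mpc y τ q * pml y) * u.B : ℕ) : ℝ) := by push_cast; ring
    rw [h2]
    exact (mul_le_mul_of_nonneg_left h1 hd0.le).trans hd1

end ctx

end Crest.Agent.R4.Step588
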