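import Crest.Agent.R4.StepState693
import Crest.Agent.R4.StepFat588
import Crest.Agent.R4.StepNum442

/-!
R4 (S0004), helper693, **T9', (G): high_state on `IZ2`** (fat items) and its numbers.

* `pairBd_IZ2` : `PairBd` for 588's `IZ2` (`Cp = 18 H`); `ItHi2`, `ItHi2.of_flat`.
* `high_state2` : the hypothesis `hhigh` of 95's `stop_state` with `Ch = C1 ^ 2`.
* `num_high` : the error term.
-/

set_option autoImplicit false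
set_option linter.unusedSectionVars false
set_option linter.unusedVariables false
open MeasureTheory Filter

namespace Crest.Agent.R4.Step588

open Crest.Agent.R4.Tour104 Crest.Agent.R4.Tour758 Crest.Agent.R4.Avg758 Crest.Agent.R4.Clos758
open Crest.Agent.R4.ClosL758 Crest.Agent.R4.ClosG758 Crest.Agent.R4.ClosR758 Crest.Agent.R4.Lam368
open Crest.Agent.R4.Piece464 Crest.Agent.R4.Fam464 Crest.Agent.R4.Cnt588 Crest.Agent.R4.Item758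
open Crest.Agent.R4.AvgItem710 Crest.Agent.R4.Walk560 Crest.Agent.R4.NMW710 Crest.Agent.R4.DeepSt579
open Crest.Agent.R4.GInst194 Crest.Agent.R4.StepNum442
open Crest.Agent.R4.Bld532 (NS)

theorem pairBd_IZ2 (H : ℝ) : PairBd (fun F R K v w θ μ => PB F ∧ IZ2 F R K v w θ μ H) (18 * H) where
  R0 h := h.2.pos.1
  mu0 h := h.2.pos.2.2
  v0 h := h.2.pos.2.1
  pair h h' hM hM' := IZ2.pair h.1 h'.1 h.2 h'.2 hM hM'

section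
variable {Λ κ : Type*} [Fintype Λ] [DecidableEq Λ] [Fintype κ] [DecidableEq κ]

/-- **item data of the high part**, fat items -/
def ItHi2 (D : Par Λ κ) (ρ : ℕ → ℝ) (b pr : ℕ) (t : IT) (K V0 : ℕ) (C1 η H : ℝ) (q : ℕ) : Prop :=
  ∃ k v : ℕ, k ≤ K ∧ v ≤ V0 ∧ IZ2 (Fq D b pr t 1 q) (b * ρ q) k v (q / pr) (b * D.γ)
    (C1 * (I (Fq D b pr t 1 q) + η * (b * ρ q))) H

lemma ItHi2.itHi {D : Par Λ κ} {ρ : ℕ → ℝ} {b pr : ℕ} {t : IT} {K V0 : ℕ} {C1 η H : ℝ} {q : ℕ}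
    (hb : 0 < b) (hF : Fit b pr t) (hW : D.Wts pr t) (h : ItHi2 D ρ b pr t K V0 C1 η H q) :
    ItHi (fun F R K v w θ μ => PB F ∧ IZ2 F R K v w θ μ H) D ρ b pr t K V0 C1 η q := by
  obtain ⟨k, v, hk, hv, h⟩ := h
  exact ⟨k, v, hk, hv, PB_Fq D q hb hF hW (one_dvd _), h⟩

/-- from a flat family `Db` -/
theorem ItHi2.of_flat {D Db : Par Λ κ} (hγ : Db.γ = D.γ) {ρ : ℕ → ℝ} {b pr y k v K V0 q : ℕ}
    {t : IT} {H C1 η err : ℝ} {N : ℕ} (hO : t.Ok N)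
    (hiz : IZ2 (Fq Db b pr t 1 q) (b * ρ q) k v (q / pr) (b * Db.γ)
      (I (Fq Db b pr t 1 q) / prfc y t q + err) H)
    (hle : ∀ x, Fq D b pr t 1 q x ≤ Fq Db b pr t 1 q x)
    (h2 : I (Fq Db b pr t 1 q) ≤ 2 * I (Fq D b pr t 1 q)) (hnn : 0 ≤ I (Fq D b pr t 1 q))
    (hk : k ≤ K) (hv : v ≤ V0) (hC1 : 1 ≤ C1) (hC : 2 / prfc y t q ≤ C1) (hη : 0 ≤ η)
    (herr : err ≤ η * (b * ρ q)) : ItHi2 D ρ b pr t K V0 C1 η H q := by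
  refine ⟨k, v, hk, hv, ?_⟩
  rw [← hγ]
  refine hiz.mono hle ?_ le_rfl
  have hp := prfc_pos y t q hO
  have h0 : 0 ≤ (b : ℝ) * ρ q := hiz.pos.1.le
  have e1 : I (Fq Db b pr t 1 q) / prfc y t q ≤ C1 * I (Fq D b pr t 1 q) := by
    calc I (Fq Db b pr t 1 q) / prfc y t q ≤ (2 * I (Fq D b pr t 1 q)) / prfc y t q :=
          div_le_div_of_nonneg_right h2 hp.le
      _ = (2 / prfc y t q) * I (Fq D b pr t 1 q) := by ring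
      _ ≤ _ := mul_le_mul_of_nonneg_right hC hnn
  have e2 : err ≤ C1 * (η * (b * ρ q)) :=
    herr.trans (le_mul_of_one_le_left (mul_nonneg hη h0) hC1)
  calc I (Fq Db b pr t 1 q) / prfc y t q + err ≤ C1 * I (Fq D b pr t 1 q) + C1 * (η * (b * ρ q)) :=
        add_le_add e1 e2
    _ = _ := by ring

variable [WRel κ]

open Classical in
/-- **high_state** for `IZ2` -/
theorem high_state2 {D : Par Λ κ} {ρ : ℕ → ℝ} (hR : D.Rad ρ) {sp : ℕ → Finset Λ} {s : St Λ κ}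
    {u u' : NS} {τ τ' : IT} (h : StI D sp s u.B u.A τ u'.B u'.A τ') (hil : IL D.it s.A)
    (hil' : IL D.it s.A') (Al : Finset ℕ) {K V0 : ℕ} {C1 η T H : ℝ} (hT : 0 < T) (hη : 0 ≤ η)
    (hH : 0 ≤ H)
    (hI : ∀ q ∈ Qi D Al τ s.A, ItHi2 D ρ u.B u.A τ K V0 C1 η H q)
    (hI' : ∀ r ∈ Qi D Al τ' s.A', ItHi2 D ρ u'.B u'.A τ' K V0 C1 η H r) :
    ∑ e ∈ (Qi D Al τ s.A ×ˢ Qi D Al τ' s.A').filter
        (fun e => T < Dq ρ s.M u.B u.A 1 s.M' u'.B u'.A 1 e),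
        D.iF s.R (D.uA s.M u.B u.A τ s.A 1) (D.uA s.M' u'.B u'.A τ' s.A' 1) e ≤
      C1 ^ 2 * ((∑ j ∈ s.A, mI s.t j) * ∑ j ∈ s.A', mI s.t' j) +
        (C1 ^ 2 * (4 * η + η ^ 2) +
          18 * H / T * ((V0 : ℝ) * V0 * ((K * (V0 + 2)) * (K * (V0 + 2))))) *
          ((∑ q ∈ Qi D Al τ s.A, rd u.B 1 ρ q) * ∑ r ∈ Qi D Al τ' s.A', rd u'.B 1 ρ r) :=
  high_stateQ (pairBd_IZ2 H) (by linarith) hR h hil hil' Al hT hη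
    (fun q hq => (hI q hq).itHi h.L.hb h.L.hF h.L.hW)
    (fun r hr => (hI' r hr).itHi h.R.hb h.R.hF h.R.hW)

open Classical in
/-- **hhigh** of 95's `stop_state2` / `eSTOP_le2` -/
theorem high_stop2 {D : Par Λ κ} {ρ : ℕ → ℝ} (hR : D.Rad ρ) {sp : ℕ → Finset Λ} {s : St Λ κ}
    {u u' : NS} {τ τ' : IT} (h : StI D sp s u.B u.A τ u'.B u'.A τ') (hil : IL D.it s.A)
    (hil' : IL D.it s.A') (Al : Finset ℕ) {K V0 : ℕ} {C1 η T H : ℝ} (hT : 0 < T) (hη : 0 ≤ η)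
    (hH : 0 ≤ H)
    (hI : ∀ q ∈ Qi D Al τ s.A, ItHi2 D ρ u.B u.A τ K V0 C1 η H q)
    (hI' : ∀ r ∈ Qi D Al τ' s.A', ItHi2 D ρ u'.B u'.A τ' K V0 C1 η H r) :
    ∑ e ∈ (Qi D Al τ s.A ×ˢ Qi D Al τ' s.A').filter
        (fun e => T < Dq ρ s.M u.B u.A 1 s.M' u'.B u'.A 1 e),
        D.iF s.R (D.uA s.M u.B u.A τ s.A 1) (D.uA s.M' u'.B u'.A τ' s.A' 1) e ≤
      C1 ^ 2 * ((∑ j ∈ s.A, mI s.t j) * ∑ j ∈ s.A', mI s.t' j) +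
        (C1 ^ 2 * (4 * η + η ^ 2) +
          18 * H / T * ((V0 : ℝ) * V0 * ((K * (V0 + 2)) * (K * (V0 + 2))))) *
          ((∑ q ∈ Qi D Al τ s.A, (u.B : ℝ) * ρ q) * ∑ q ∈ Qi D Al τ' s.A', (u'.B : ℝ) * ρ q) := by
  have erd : ∀ (b q : ℕ), rd b 1 ρ q = (b : ℝ) * ρ q := fun b q => by
    unfold rd; rw [Nat.cast_one, div_one]
  have key := high_state2 hR h hil hil' Al hT hη hH hI hI'
  simp only [erd] at key
  exact key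

end

/-! ### numbers -/

/-- the error term of `high_state2` -/
theorem num_high (C1 CL c₀ : ℝ) : ∃ N0 : ℕ, ∀ N : ℕ, N0 ≤ N → ∀ (V0 : ℕ) (H T : ℝ),
    (V0 : ℝ) ≤ Real.exp ((N : ℝ) ^ (1 / 4 : ℝ)) → 0 ≤ H →
    H ≤ 2 * Real.exp ((N : ℝ) ^ (1 / 8 : ℝ)) → Real.exp (20 * (N : ℝ) ^ (1 / 2 : ℝ)) ≤ T →
    (C1 ^ 2 * (4 * Real.exp (-((N : ℝ) ^ (1 / 2 : ℝ)) / 4) +
        Real.exp (-((N : ℝ) ^ (1 / 2 : ℝ)) / 4) ^ 2) +
      18 * H / T * ((V0 : ℝ) * V0 * (((Kn N : ℕ) * ((V0 : ℝ) + 2)) * ((Kn N : ℕ) * ((V0 : ℝ) + 2))))) *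
      (CL * Real.log N / (2 * c₀)) ^ 2 ≤ 1 := by
  obtain ⟨N1, h1⟩ := num_pairT
  obtain ⟨N2, h2⟩ := num_e3 (κ := 1 / 4) (by norm_num) (5 * C1 ^ 2 + 18) CL c₀
  have h3 : ∀ᶠ N : ℕ in atTop, 2 * (N : ℝ) ^ (1 / 8 : ℝ) ≤ (N : ℝ) ^ (1 / 2 : ℝ) :=
    ev_pow (by norm_num) 2
  obtain ⟨N3, h3⟩ := eventually_atTop.1 h3
  refine ⟨max (max N1 N2) N3, fun N hN V0 H T hV hH0 hH hT => ?_⟩
  have hN1 : N1 ≤ N := (le_max_left _ _).trans ((le_max_left _ _).trans hN)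
  have hN2 : N2 ≤ N := (le_max_right _ _).trans ((le_max_left _ _).trans hN)
  have hN3 : N3 ≤ N := (le_max_right _ _).trans hN
  have k1 := h1 N hN1 V0 V0 (Kn N) (Kn N) T (Kn_le N) (Kn_le N) hV hV hT
  have k3 := h3 N hN3
  set s : ℝ := (N : ℝ) ^ (1 / 2 : ℝ) with hs
  have hs0 : 0 ≤ s := by positivity
  have hT0 : 0 < T := lt_of_lt_of_le (Real.exp_pos _) hT
  refine h2 N hN2 _ ?_
  set X : ℝ := (V0 : ℝ) * V0 * (((Kn N : ℕ) * ((V0 : ℝ) + 2)) * ((Kn N : ℕ) * ((V0 : ℝ) + 2)))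
    with hX
  have e1 : 18 * H / T * X = 9 * H * (2 * ((V0 : ℝ) * V0) *
      (((Kn N : ℕ) * ((V0 : ℝ) + 2)) * ((Kn N : ℕ) * ((V0 : ℝ) + 2))) / T) := by
    rw [hX]; ring
  have e2 : 18 * H / T * X ≤ 18 * Real.exp (-s / 2) := by
    rw [e1]
    calc 9 * H * (2 * ((V0 : ℝ) * V0) *
          (((Kn N : ℕ) * ((V0 : ℝ) + 2)) * ((Kn N : ℕ) * ((V0 : ℝ) + 2))) / T)
        ≤ 9 * H * Real.exp (-s) := mul_le_mul_of_nonneg_left k1 (by linarith)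
      _ ≤ 9 * (2 * Real.exp ((N : ℝ) ^ (1 / 8 : ℝ))) * Real.exp (-s) :=
          mul_le_mul_of_nonneg_right (by linarith) (Real.exp_pos _).le
      _ = 18 * (Real.exp ((N : ℝ) ^ (1 / 8 : ℝ)) * Real.exp (-s)) := by ring
      _ = 18 * Real.exp ((N : ℝ) ^ (1 / 8 : ℝ) + -s) := by rw [Real.exp_add]
      _ ≤ 18 * Real.exp (-s / 2) := by
          refine mul_le_mul_of_nonneg_left (Real.exp_le_exp.2 ?_) (by norm_num)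
          linarith
  have e3 : Real.exp (-s / 2) ≤ Real.exp (-s / 4) := Real.exp_le_exp.2 (by linarith)
  have e4 : Real.exp (-s / 4) ^ 2 ≤ Real.exp (-s / 4) := by
    have h5 : Real.exp (-s / 4) ≤ 1 := Real.exp_le_one_iff.2 (by linarith)
    have h6 := (Real.exp_pos (-s / 4)).le
    nlinarith
  have e5 : C1 ^ 2 * (4 * Real.exp (-s / 4) + Real.exp (-s / 4) ^ 2) ≤
      C1 ^ 2 * (5 * Real.exp (-s / 4)) := mul_le_mul_of_nonneg_left (by linarith) (sq_nonneg _)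
  have e6 : Real.exp (-(1 / 4 * s)) = Real.exp (-s / 4) := by congr 1; ring
  rw [e6]
  nlinarith

/-- the same in the form of 95's `he` -/
theorem num_high' (C1 CL c₀ : ℝ) : ∃ N0 : ℕ, ∀ N : ℕ, N0 ≤ N → ∀ (V0 : ℕ) (H T : ℝ),
    (V0 : ℝ) ≤ Real.exp ((N : ℝ) ^ (1 / 4 : ℝ)) → 0 ≤ H →
    H ≤ 2 * Real.exp ((N : ℝ) ^ (1 / 8 : ℝ)) → Real.exp (20 * (N : ℝ) ^ (1 / 2 : ℝ)) ≤ T →
    (C1 ^ 2 * (4 * Real.exp (-((N : ℝ) ^ (1 / 2 : ℝ)) / 4) +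
        Real.exp (-((N : ℝ) ^ (1 / 2 : ℝ)) / 4) ^ 2) +
      18 * H / T * ((V0 : ℝ) * V0 * (((Kn N : ℕ) * ((V0 : ℝ) + 2)) * ((Kn N : ℕ) * ((V0 : ℝ) + 2))))) *
      (CL * Real.log N * (1 / (2 * c₀))) ^ 2 ≤ 1 := by
  obtain ⟨N0, h⟩ := num_high C1 CL c₀
  refine ⟨N0, fun N hN V0 H T h1 h2 h3 h4 => ?_⟩
  rw [← div_eq_mul_one_div]
  exact h N hN V0 H T h1 h2 h3 h4

/-- `exp(20 √N)` is below the stop radius `exp(N^(2/3)/80)` -/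
theorem num_Tstop : ∃ N0 : ℕ, ∀ N : ℕ, N0 ≤ N →
    Real.exp (20 * (N : ℝ) ^ (1 / 2 : ℝ)) ≤
      Real.exp (N * ((N : ℝ) ^ (-(1 / 3) : ℝ) / 4) / 20) := by
  have h3 : ∀ᶠ N : ℕ in atTop, 1600 * (N : ℝ) ^ (1 / 2 : ℝ) ≤ (N : ℝ) ^ (2 / 3 : ℝ) :=
    ev_pow (by norm_num) 1600
  obtain ⟨N3, h3⟩ := eventually_atTop.1 h3
  refine ⟨max N3 1, fun N hN => Real.exp_le_exp.2 ?_⟩
  have k3 := h3 N ((le_max_left _ _).trans hN)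
  have hN1 : (0 : ℝ) < N := by exact_mod_cast (le_max_right _ _).trans hN
  have e1 : (N : ℝ) * (N : ℝ) ^ (-(1 / 3) : ℝ) = (N : ℝ) ^ (2 / 3 : ℝ) := by
    rw [← Real.rpow_one_add' hN1.le (by norm_num)]
    norm_num
  have e2 : (N : ℝ) * ((N : ℝ) ^ (-(1 / 3) : ℝ) / 4) / 20 = (N : ℝ) ^ (2 / 3 : ℝ) / 80 := by
    rw [← e1]; ring
  rw [e2]
  linarith

end Crest.Agent.R4.Step588
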