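import Crest.Agent.R4.StepFin588
import Crest.Agent.R4.StepFinNum588
import Crest.Agent.R4.StepState2_693

/-!
R4 (S0004), helper588: **THE ITEM STATEMENT OF T9' AT ALL THE NODES OF A CONTEXT** (`ItHi2`).
-/

set_option autoImplicit false
set_option linter.unusedSectionVars false
set_option linter.unusedVariables false
open MeasureTheory Filter

namespace Crest.Agent.R4.Step588

open Crest.Agent.R4.Tour104 Crest.Agent.R4.Tour758 Crest.Agent.R4.Avg758 Crest.Agent.R4.Clos758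
open Crest.Agent.R4.ClosL758 Crest.Agent.R4.ClosG758 Crest.Agent.R4.Lam368
open Crest.Agent.R4.Piece464 Crest.Agent.R4.Fam464 Crest.Agent.R4.Cnt588 Crest.Agent.R4.Item758
open Crest.Agent.R4.W363 Crest.Agent.R4.Data758 Crest.Agent.R4.OmSt532 Crest.Agent.R4.Om532
open Crest.Agent.R4.Ovl560 Crest.Agent.R4.LF363 Crest.Agent.R4.OmData532
open Crest.Agent.R4.Bld532 (NS All NodeOk Bk)
open Crest.Agent.R4.Skel189 Crest.Agent.R4.Chi464
open Crest.Agent.R4.Soft104 (w)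
open Crest.Agent.R4.StepFin588 Crest.Agent.R4.StepNum442
open Crest.Agent.R4.WalkIT579 (isL tp)

/-! ### small facts -/

lemma Ok_tp {t : IT} (hl : ¬ isL t) {n : ℕ} (h : t.Ok n) : t.Ok (tp t + 1) := by
  cases t with
  | leaf S => exact absurd trivial hl
  | br p t₁ t₀ => exact ⟨h.1, Nat.lt_succ_self _, h.2.2⟩
  | add p t₁ t₀ => exact ⟨h.1, Nat.lt_succ_self _, h.2.2⟩
  | up p Sp t => exact ⟨h.1, Nat.lt_succ_self _, h.2.2⟩

lemma cols_gt {P : Bld532.Par} {W : ℕ → ℝ} : ∀ (t : IT) (u : NS), All (NodeOk P W) u t →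
    ∀ p ∈ cols t, P.p0 < p := by
  intro t
  induction t with
  | leaf S => intro u _ p hp; simp [cols] at hp
  | br b t₁ t₀ ih₁ ih₀ =>
    intro u h p hp
    have h1 := (nodeOk_hi h.1 (by simp [isL])).2.1
    rcases Finset.mem_insert.1 hp with rfl | hp
    · exact h1
    · rcases Finset.mem_union.1 hp with hp | hp
      · exact ih₁ _ h.2.1 p hp
      · exact ih₀ _ h.2.2 p hp
  | add b t₁ t₀ ih₁ ih₀ =>
    intro u h p hp
    rcases Finset.mem_union.1 hp with hp | hp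
    · exact ih₁ _ h.2.1 p hp
    · exact ih₀ _ h.2.2 p hp
  | up b Sp t ih => intro u h p hp; exact ih _ h.2 p hp

/-- `1 / ∏ (1 - 1/s)` -/
lemma inv_pY_le {y n : ℕ} (hy : 2 ≤ y) (hn : y ≤ n) {L : ℝ}
    (hL : Real.log n / Real.log y ≤ L) :
    1 / ∏ s ∈ pY y n, (1 - 1 / (s : ℝ)) ≤ 2 * Real.exp (22 / Real.log 2) * L := by
  have h1 := prod_pY_ge hy hn
  have hy1 : (1 : ℝ) < y := by exact_mod_cast (by omega : 1 < y)
  have hly : 0 < Real.log y := Real.log_pos hy1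
  have hn1 : (y : ℝ) ≤ n := by exact_mod_cast hn
  have hln : 0 < Real.log n := Real.log_pos (by linarith)
  have h0 : 0 < 1 / 2 * (Real.exp (-(22 / Real.log 2)) * (Real.log y / Real.log n)) := by
    positivity
  have h2 : 1 / ∏ s ∈ pY y n, (1 - 1 / (s : ℝ)) ≤
      1 / (1 / 2 * (Real.exp (-(22 / Real.log 2)) * (Real.log y / Real.log n))) :=
    one_div_le_one_div_of_le h0 h1
  refine h2.trans ?_
  have e : 1 / (1 / 2 * (Real.exp (-(22 / Real.log 2)) * (Real.log y / Real.log n))) =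
      2 * Real.exp (22 / Real.log 2) * (Real.log n / Real.log y) := by
    rw [Real.exp_neg]
    have := (Real.exp_pos (22 / Real.log 2)).ne'
    field_simp
  rw [e]
  exact mul_le_mul_of_nonneg_left hL (by positivity)

section
variable {N : Skel189.Num} {γ : ℝ} {p0 P₀ : ℕ} {X : Ctx N γ p0 P₀} {u : NS} {τ : IT}

/-- size of `vN` -/
lemma vN_size {p y : ℕ} (hF : FN N.B (N.C1 + N.c2) N.c2 p) (hy : y = yn (cc N.B) p)
    (hp : p0 < p) {A r : ℕ} (hr : r ∈ X.S') :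
    (vN X.c.t y (fun b => PPb b < y) A r : ℝ) ≤ Real.exp ((p : ℝ) ^ (1 / 4 : ℝ)) := by
  classical
  have hB0 : 0 ≤ N.B := by have := N.hB; have := N.hC1; have := N.hc2; linarith
  set Y : ℕ := ⌊Real.exp (100 * y)⌋₊ + 1 with hY
  have hYge : Real.exp (100 * y) ≤ (Y : ℝ) := by
    rw [hY]; push_cast; exact (Nat.lt_floor_add_one _).le
  have hpY : (p : ℝ) ≤ Real.exp (100 * y) := by rw [hy]; exact hF.pY
  have hpY' : p ≤ Y := by
    have := hpY.trans hYge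
    exact_mod_cast this
  have hy2 : 2 ≤ y := by rw [hy]; exact hF.y2
  have hYle : (Y : ℝ) ≤ Real.exp (101 * y) := by
    have h1 : (Y : ℝ) ≤ Real.exp (100 * y) + 1 := by
      rw [hY]; push_cast
      have := Nat.floor_le (Real.exp_pos (100 * (y : ℝ))).le
      linarith
    have hy1 : (2 : ℝ) ≤ y := by exact_mod_cast hy2
    have h2 : Real.exp (101 * (y : ℝ)) = Real.exp (100 * y) * Real.exp y := by
      rw [← Real.exp_add]; ring_nf
    have h3 : (2 : ℝ) ≤ Real.exp y := by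
      have := Real.add_one_le_exp (y : ℝ)
      linarith
    have h4 : 1 ≤ Real.exp (100 * (y : ℝ)) := Real.one_le_exp (by positivity)
    rw [h2]
    nlinarith
  have hlY : Real.log Y ≤ 101 * y := by
    have hY0 : (0 : ℝ) < Y := (Real.exp_pos _).trans_le hYge
    rw [Real.log_le_iff_le_exp hY0]; exact hYle
  have hY2 : 2 ≤ Y := by
    have h1 : (2 : ℝ) ≤ Y := by
      have hy1 : (2 : ℝ) ≤ y := by exact_mod_cast hy2
      have := Real.add_one_le_exp (100 * (y : ℝ))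
      linarith
    exact_mod_cast h1
  have hpr : PrunePar33.Pr X.c.t p0 (N.C1 + N.c2) N.B r := by
    rw [X.ht]; exact X.prn.pr r hr
  obtain ⟨-, k⟩ := Pr_uq hpr hY2 (hp.le.trans hpY') (Finset.Subset.refl (X.c.t.uq r))
  have hsub : ∀ l ∈ X.c.t.uq r, PPb l < y → l ∈ (X.c.t.uq r).filter (· ≤ Y) := by
    intro l h1 h2
    refine Finset.mem_filter.2 ⟨h1, ?_⟩
    have hlp := (uq_lt X.tOk h1).1
    have hl0 : (0 : ℝ) < l := by exact_mod_cast hlp.pos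
    have h3 : Real.log l / 100 < y := by
      unfold PPb at h2
      exact (Nat.floor_lt (div_nonneg (Real.log_natCast_nonneg _) (by norm_num))).1 h2
    have h4 : (l : ℝ) ≤ Real.exp (100 * y) := by
      rw [← Real.log_le_iff_le_exp hl0]
      linarith
    have := h4.trans hYge
    exact_mod_cast this
  have h1 : vN X.c.t y (fun b => PPb b < y) A r ≤ pml y * ∏ l ∈ (X.c.t.uq r).filter (· ≤ Y), l := by
    refine (vN_le X.tOk).trans (Nat.mul_le_mul_left _ ?_)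
    refine Finset.prod_le_prod_of_subset_of_one_le' ?_ ?_
    · intro l hl
      simp only [Finset.mem_filter] at hl
      exact hsub l hl.1 hl.2
    · intro l hl _
      simp only [Finset.mem_filter] at hl
      exact (uq_lt X.tOk hl.1).1.pos
  have h2 : (vN X.c.t y (fun b => PPb b < y) A r : ℝ) ≤
      (pml y : ℝ) * ((∏ l ∈ (X.c.t.uq r).filter (· ≤ Y), l : ℕ) : ℝ) := by exact_mod_cast h1
  refine h2.trans ?_
  have h3 : (pml y : ℝ) ≤ 4 ^ y := by exact_mod_cast pml_le y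
  have h4 : ((∏ l ∈ (X.c.t.uq r).filter (· ≤ Y), l : ℕ) : ℝ) ≤
      Real.exp ((101 * y) ^ (N.B + 2)) := by
    refine k.trans (Real.exp_le_exp.2 ?_)
    exact Real.rpow_le_rpow (Real.log_natCast_nonneg _) hlY (by linarith)
  have h5 := hF.V
  rw [← hy] at h5
  exact (mul_le_mul h3 h4 (Nat.cast_nonneg _) (by positivity)).trans h5

/-- **ONE NODE** -/
theorem node_ItHi2 {Cm : ℝ} (hCm : 0 < Cm)
    (hmer : ∀ y N : ℕ, 2 ≤ y → y ≤ N → ∀ t : IT, t.Ok N → ∀ q : ℕ,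
      1 ≤ Cm * (Real.log N / Real.log y) * prfc y t q)
    {N0 : ℕ} (hbad : ∀ p : ℕ, N0 ≤ p → ∀ (NR V0 B v K dm : ℕ) (bR : ℝ),
      0 ≤ bR → 0 < v → Real.exp ((p : ℝ) ^ (1 / 2 : ℝ)) ≤ K →
      (NR : ℝ) ≤ Real.exp ((p : ℝ) ^ (1 / 4 : ℝ)) → (V0 : ℝ) ≤ Real.exp ((p : ℝ) ^ (1 / 4 : ℝ)) →
      (B : ℝ) ≤ Real.exp ((p : ℝ) ^ (1 / 4 : ℝ)) →
      (2 : ℝ) ^ dm ≤ Real.exp ((p : ℝ) ^ (1 / 4 : ℝ)) →
      180 * NR * (B : ℝ) * (V0 : ℝ) ^ 2 * (2 ^ (dm + 2) + 1) * √(K : ℝ) * (2 * bR / (K * v)) ≤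
        Real.exp (-((p : ℝ) ^ (1 / 2 : ℝ)) / 4) * bR)
    (hFN : ∀ p : ℕ, N0 ≤ p → FN N.B (N.C1 + N.c2) N.c2 p) (hp0 : N0 ≤ p0)
    (h : NDt X.par (w X.ψ) X.c.t u τ) (hnc : NC X.c.t (top X.S) u τ) (hrd : RdOk X u τ)
    (hCM : CM X) (Y : Finset (ℕ × ℕ × Finset ℕ)) (hd1 : X.c.d1 * Kc X.S ≤ 1)
    (hdp : ∀ p, p0 ≤ p → (2 : ℝ) ^ X.c.wp.dep p ≤ p) (hl : ¬ isL τ) {q : ℕ} (hqS : q ∈ X.S')
    (hq : q ∈ τ.items) {C1 : ℝ}
    (hC1 : 2 * (Cm * (4 / cc N.B)) + 1 +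
      Cm * (4 / cc N.B) * (4 * (2 * Real.exp (22 / Real.log 2) * (4 / cc N.B))) ≤ C1) :
    ItHi2 (X.c.D.par Y) X.c.rr u.B u.A τ (Kn (tp τ))
      ⌊Real.exp (((tp τ : ℕ) : ℝ) ^ (1 / 4 : ℝ))⌋₊ C1
      (Real.exp (-(((tp τ : ℕ) : ℝ) ^ (1 / 2 : ℝ)) / 4))
      (2 * Real.exp (((tp τ : ℕ) : ℝ) ^ (1 / 8 : ℝ))) q := by
  classical
  obtain ⟨-, hp1, hpn, -⟩ := nodeOk_hi h.self.node hl
  have hOk := Ok_tp hl h.self.ok
  set p := tp τ with hp
  have hpp : p0 < p := hp1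
  have hF := hFN p (by omega)
  have hB0 : 0 ≤ N.B := by have := N.hB; have := N.hC1; have := N.hc2; linarith
  have hcc := cc_pos hB0
  set y := yn (cc N.B) p with hy
  have hyp : y ≤ p := hF.yp
  have hyu : y ≤ u.n := hyp.trans hpn.le
  have hy2 : 2 ≤ y := hF.y2
  -- Mertens
  have hprf := prfc_pos y τ q h.self.ok
  have hm1 := hmer y (p + 1) hy2 (by omega) τ hOk q
  have hinv : 1 / prfc y τ q ≤ Cm * (4 / cc N.B) := by
    rw [div_le_iff₀ hprf]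
    refine hm1.trans (mul_le_mul_of_nonneg_right ?_ hprf.le)
    exact mul_le_mul_of_nonneg_left hF.ratio hCm.le
  have hinv0 : 0 ≤ 1 / prfc y τ q := by positivity
  set L := 4 / cc N.B with hL
  have hL0 : 0 < L := by positivity
  have hbR : 0 < (u.B : ℝ) * X.c.rr q := by
    have h1 : (0 : ℝ) < u.B := by exact_mod_cast h.B_pos
    have h2 : 0 < X.c.rr q := by
      unfold Cf.rr; split_ifs with hr
      · exact hr
      · exact one_pos
    exact mul_pos h1 h2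
  have hI0 : 0 ≤ I (Fq (X.c.D.par Y) u.B u.A τ 1 q) :=
    I_nonneg (PB_Fq (X.c.D.par Y) q h.B_pos h.fit (om_Wts h Y) (one_dvd _)).nonneg
  have hη : 0 < Real.exp (-((p : ℝ) ^ (1 / 2 : ℝ)) / 4) := Real.exp_pos _
  have hV0 : ((⌊Real.exp ((p : ℝ) ^ (1 / 4 : ℝ))⌋₊ : ℕ) : ℝ) ≤ Real.exp ((p : ℝ) ^ (1 / 4 : ℝ)) :=
    Nat.floor_le (Real.exp_pos _).le
  have hCB0 : 0 ≤ Cm * L * (4 * (2 * Real.exp (22 / Real.log 2) * L)) := by positivity
  by_cases hlc : isL (subt y τ q)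
  · -- leaf cut
    have hn : ∀ l : ℕ, l.Prime → p + 1 ≤ l → l ∣ q / pp X.c.t q → l ∈ rt X.c.t q := by
      intro l hlp hpl hld
      have e := h.self.pp q hq
      have hd : q / pp X.c.t q ∣ q / u.A := Nat.div_dvd_div_left (h.dvd q (h.self.sub hq))
        (by rw [e]; exact Dvd.intro _ rfl)
      have h1 : u.n ≤ l := by
        rcases WalkIT579.prime_ge h.self.node hl hlp (by rw [← hp]; omega) with h6 | h6
        · rw [← hp] at h6; omega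
        · exact h6
      exact h.self.ge q hq l hlp h1 (hld.trans hd)
    have hpy := inv_pY_le (n := p + 1) hy2 (by omega) hF.ratio
    have hP0 : 0 ≤ ∏ s ∈ pY y (p + 1), (1 - 1 / (s : ℝ)) := Finset.prod_nonneg fun s hs =>
      fac_nonneg (mem_pY.1 hs).2
    have hC : 1 / prfc y τ q * (4 / ∏ s ∈ pY y (p + 1), (1 - 1 / (s : ℝ))) ≤ C1 := by
      have e : (4 : ℝ) / ∏ s ∈ pY y (p + 1), (1 - 1 / (s : ℝ)) =
          4 * (1 / ∏ s ∈ pY y (p + 1), (1 - 1 / (s : ℝ))) := by ring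
      rw [e]
      have h1 : 1 / prfc y τ q * (4 * (1 / ∏ s ∈ pY y (p + 1), (1 - 1 / (s : ℝ)))) ≤
          Cm * L * (4 * (2 * Real.exp (22 / Real.log 2) * L)) :=
        mul_le_mul hinv (mul_le_mul_of_nonneg_left hpy (by norm_num))
          (mul_nonneg (by norm_num) (div_nonneg zero_le_one hP0)) (by positivity)
      have h2 : 0 ≤ 2 * (Cm * L) + 1 := by positivity
      linarith
    have hB := caseB h hnc hCM Y (K := Kn p) hyu hy2 (n := p + 1) (by omega) hq hqS hlc (Kn_pos p)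
      hn hη.le hC
    refine ⟨Kn p, vN X.c.t y (fun _ => False) (u.A * ppc y τ q) q, le_rfl, ?_, hB.toIZ2 ?_⟩
    · refine Nat.le_floor ?_
      have h1 : vN X.c.t y (fun _ => False) (u.A * ppc y τ q) q ≤ pml y := by
        refine (vN_le X.tOk).trans (le_of_eq ?_)
        rw [Finset.filter_false, Finset.prod_empty, mul_one]
      have h2 : (vN X.c.t y (fun _ => False) (u.A * ppc y τ q) q : ℝ) ≤ 4 ^ y := by
        exact_mod_cast h1.trans (pml_le y)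
      refine h2.trans ((le_mul_of_one_le_right (by positivity) ?_).trans hF.V)
      exact Real.one_le_exp (by positivity)
    · have := hF.E1
      linarith
  · -- non-leaf cut
    obtain ⟨m, c', hm, h2⟩ := h.subt hyu q
    set E0 := Real.exp ((p : ℝ) ^ (1 / 8 : ℝ)) with hE0
    have hE1 : 1 ≤ E0 := hF.E1
    set dm := Nat.log 2 y with hdm
    have hdep : ∀ p' ∈ cols (subt y τ q), X.c.wp.dep p' ≤ dm := by
      intro p' hp'
      have h3 := (cols_lt _ (Ok_subt y τ q h.self.ok hyu) p' hp').2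
      have h4 : p0 < p' := cols_gt _ _ (All.mono (fun _ _ hh => hh.node) h2.all) p' hp'
      refine Nat.le_log_of_pow_le (by norm_num) ?_
      have h5 := hdp p' h4.le
      have h6 : 2 ^ X.c.wp.dep p' ≤ p' := by exact_mod_cast h5
      exact h6.trans h3.le
    have hV : ∀ r ∈ (subt y τ q).items, r ∈ X.S' →
        vN X.c.t y (fun b => PPb b < y) (u.A * ppc y τ q) r ≤
          ⌊Real.exp ((p : ℝ) ^ (1 / 4 : ℝ))⌋₊ := fun r _ hrS =>
      Nat.le_floor (vN_size hF hy hpp hrS)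
    have hR : ∀ r ∈ (subt y τ q).items, r ∈ X.S' → (u.B : ℝ) * X.c.rr r ≤ E0 := by
      intro r hr hrS
      exact (hrd.col hl r (subt_items y τ q hr) hrS).trans hF.E
    have hA := caseA h hnc hCM Y (K := Kn p) hyu hd1 hq hqS hdep hlc (Kn_pos p) hV
      (by linarith : 1 / 2 ≤ E0) hR
    refine ⟨Kn p, vN X.c.t y (fun b => PPb b < y) (u.A * ppc y τ q) q, le_rfl,
      hV q (mem_subt y τ hq) hqS, hA.mono (fun x => le_rfl) ?_ le_rfl⟩
    set v := vN X.c.t y (fun b => PPb b < y) (u.A * ppc y τ q) q with hv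
    set V0 : ℕ := ⌊Real.exp ((p : ℝ) ^ (1 / 4 : ℝ))⌋₊ with hV0def
    have hNR : ((⌈E0⌉₊ * 2 ^ y : ℕ) : ℝ) ≤ Real.exp ((p : ℝ) ^ (1 / 4 : ℝ)) := by
      have h3 : ((⌈E0⌉₊ : ℕ) : ℝ) ≤ 2 * E0 := by
        have := (Nat.ceil_lt_add_one (by linarith : 0 ≤ E0)).le
        linarith
      push_cast
      exact (mul_le_mul_of_nonneg_right h3 (by positivity)).trans hF.R
    have hpr : PrunePar33.Pr X.c.t p0 (N.C1 + N.c2) N.B q := by
      rw [X.ht]; exact X.prn.pr q hqS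
    have hmp := Pr_mpc hpr (N := p + 1) (by omega) (by omega) hOk (hnc.mt q hq) y
    have hBm : ((mpc y τ q * pml y : ℕ) : ℝ) ≤ Real.exp ((p : ℝ) ^ (1 / 4 : ℝ)) := by
      push_cast
      have h3 : (pml y : ℝ) ≤ 4 ^ y := by exact_mod_cast pml_le y
      exact (mul_le_mul hmp h3 (Nat.cast_nonneg _) (Real.exp_pos _).le).trans hF.M
    have h2dm : (2 : ℝ) ^ dm ≤ Real.exp ((p : ℝ) ^ (1 / 4 : ℝ)) := by
      have h3 : 2 ^ dm ≤ y := Nat.pow_log_le_self 2 (by omega)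
      have h4 : (2 : ℝ) ^ dm ≤ y := by exact_mod_cast h3
      exact h4.trans hF.d
    have key := hbad p (by omega) (⌈E0⌉₊ * 2 ^ y) V0 (mpc y τ q * pml y) v (Kn p) dm
      (u.B * X.c.rr q) hbR.le vN_pos (Kn_ge p) hNR hV0 hBm h2dm
    have hx0 : 0 ≤ ((mpc y τ q * pml y : ℕ) : ℝ) * (V0 : ℝ) ^ 2 * (2 ^ (dm + 2) + 1) *
        √(Kn p : ℝ) * (2 * ((u.B : ℝ) * X.c.rr q) / (Kn p * v)) := by positivity
    have herr : 60 * E0 * (2 ^ y : ℕ) * ((mpc y τ q * pml y : ℕ) : ℝ) * (V0 : ℝ) ^ 2 *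
        (2 ^ (dm + 2) + 1) * √(Kn p : ℝ) * (2 * (3 * (u.B * X.c.rr q)) / (Kn p * v)) ≤
        Real.exp (-((p : ℝ) ^ (1 / 2 : ℝ)) / 4) * (u.B * X.c.rr q) := by
      refine le_trans ?_ key
      have e1 : 60 * E0 * (2 ^ y : ℕ) * ((mpc y τ q * pml y : ℕ) : ℝ) * (V0 : ℝ) ^ 2 *
          (2 ^ (dm + 2) + 1) * √(Kn p : ℝ) * (2 * (3 * (u.B * X.c.rr q)) / (Kn p * v)) =
          180 * (E0 * (2 ^ y : ℕ)) * (((mpc y τ q * pml y : ℕ) : ℝ) * (V0 : ℝ) ^ 2 *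
            (2 ^ (dm + 2) + 1) * √(Kn p : ℝ) * (2 * (u.B * X.c.rr q) / (Kn p * v))) := by ring
      have e2 : 180 * ((⌈E0⌉₊ * 2 ^ y : ℕ) : ℝ) * ((mpc y τ q * pml y : ℕ) : ℝ) * (V0 : ℝ) ^ 2 *
          (2 ^ (dm + 2) + 1) * √(Kn p : ℝ) * (2 * (u.B * X.c.rr q) / (Kn p * v)) =
          180 * ((⌈E0⌉₊ * 2 ^ y : ℕ) : ℝ) * (((mpc y τ q * pml y : ℕ) : ℝ) * (V0 : ℝ) ^ 2 *
            (2 ^ (dm + 2) + 1) * √(Kn p : ℝ) * (2 * (u.B * X.c.rr q) / (Kn p * v))) := by ring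
      rw [e1, e2]
      refine mul_le_mul_of_nonneg_right ?_ hx0
      refine mul_le_mul_of_nonneg_left ?_ (by norm_num)
      rw [Nat.cast_mul]
      exact mul_le_mul_of_nonneg_right (Nat.le_ceil _) (Nat.cast_nonneg _)
    have h3 : 2 * I (Fq (X.c.D.par Y) u.B u.A τ 1 q) / prfc y τ q ≤
        2 * (Cm * L) * I (Fq (X.c.D.par Y) u.B u.A τ 1 q) := by
      have e : 2 * I (Fq (X.c.D.par Y) u.B u.A τ 1 q) / prfc y τ q =
          2 * (1 / prfc y τ q) * I (Fq (X.c.D.par Y) u.B u.A τ 1 q) := by ring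
      rw [e]
      exact mul_le_mul_of_nonneg_right (mul_le_mul_of_nonneg_left hinv (by norm_num)) hI0
    have hCm0 : 0 ≤ Cm * L := by positivity
    have h4 : 2 * (Cm * L) * I (Fq (X.c.D.par Y) u.B u.A τ 1 q) ≤
        C1 * I (Fq (X.c.D.par Y) u.B u.A τ 1 q) :=
      mul_le_mul_of_nonneg_right (by linarith) hI0
    have h5 : Real.exp (-((p : ℝ) ^ (1 / 2 : ℝ)) / 4) * (u.B * X.c.rr q) ≤
        C1 * (Real.exp (-((p : ℝ) ^ (1 / 2 : ℝ)) / 4) * (u.B * X.c.rr q)) :=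
      le_mul_of_one_le_left (by positivity) (by linarith)
    linarith

end

/-- **THE ITEM STATEMENT OF T9' AT ALL THE NON-LEAF NODES OF A CONTEXT** -/
theorem ctx_ItHi2 (N : Skel189.Num) : ∃ C1 : ℝ, 0 < C1 ∧ ∃ p₁ : ℕ, ∀ p0 ≥ p₁, ∀ (γ : ℝ) (P₀ : ℕ),
    2 ≤ P₀ → ∀ X : Ctx N γ p0 P₀, X.c.d1 * Kc X.S ≤ 1 →
    (∀ p, p0 ≤ p → (2 : ℝ) ^ X.c.wp.dep p ≤ p) → ∀ Y : Finset (ℕ × ℕ × Finset ℕ),
    All (fun u τ => ¬ isL τ → ∀ q ∈ X.S', q ∈ τ.items →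
      ItHi2 (X.c.D.par Y) X.c.rr u.B u.A τ (Kn (tp τ))
        ⌊Real.exp (((tp τ : ℕ) : ℝ) ^ (1 / 4 : ℝ))⌋₊ C1
        (Real.exp (-(((tp τ : ℕ) : ℝ) ^ (1 / 2 : ℝ)) / 4))
        (2 * Real.exp (((tp τ : ℕ) : ℝ) ^ (1 / 8 : ℝ))) q) ⟨top X.S, 1, 1, 1⟩ X.c.t := by
  obtain ⟨Cm, hCm, hmer⟩ := prfc_mertens
  have hB0 : 0 ≤ N.B := by have := N.hB; have := N.hC1; have := N.hc2; linarith
  have hcc := cc_pos hB0
  obtain ⟨Na, ha⟩ := num_badF 180
  obtain ⟨Nb, hb⟩ := exists_FN N.B (N.C1 + N.c2) N.c2 hB0 (add_nonneg N.hC1 N.hc2) N.hc2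
  obtain ⟨pc, hc⟩ := ctx_rd N
  obtain ⟨pd, hd⟩ := ctx_CM N
  refine ⟨2 * (Cm * (4 / cc N.B)) + 1 +
      Cm * (4 / cc N.B) * (4 * (2 * Real.exp (22 / Real.log 2) * (4 / cc N.B))), by positivity,
    Na + Nb + pc + pd, fun p0 hp0 γ P₀ hP X hd1 hdp Y => ?_⟩
  have hrd := hc p0 (by omega) γ P₀ hP X
  have hCM := hd p0 (by omega) γ P₀ hP X
  have hnc := All_NC_root (c := 1) X.tOk
  refine All.mono (fun u τ hh hl q hqS hq => ?_) (((ctx_NDt X).and hnc).and hrd)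
  exact node_ItHi2 hCm hmer (N0 := Na + Nb) (fun p hp => ha p (by omega))
    (fun p hp => hb p (by omega)) (by omega) hh.1.1 hh.1.2 hh.2 hCM Y hd1 hdp hl hqS hq le_rfl

end Crest.Agent.R4.Step588
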