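import Crest.Agent.R4.StepItem2F588
import Crest.Agent.R4.SkelMain464
import Crest.Agent.R4.StepLeaf588
import Crest.Agent.R4.StepNum442
import Crest.Agent.R4.StepNum463

/-!
R4 (S0004), helper588: **T9' for the items of a context**.

* `CM` / `ctx_CM` : means of the weights (464's closed exclusion).
* `caseA` : non-leaf cut.
-/

set_option autoImplicit false
set_option linter.unusedSectionVars false
set_option linter.unusedVariables false
open MeasureTheory Filter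

namespace Crest.Agent.R4.Step588

open Crest.Agent.R4.Tour104 Crest.Agent.R4.Tour758 Crest.Agent.R4.Avg758 Crest.Agent.R4.Clos758
open Crest.Agent.R4.ClosL758 Crest.Agent.R4.ClosG758 Crest.Agent.R4.Lam368
open Crest.Agent.R4.Piece464 Crest.Agent.R4.Fam464 Crest.Agent.R4.Cnt588 Crest.Agent.R4.Item758
open Crest.Agent.R4.W363 Crest.Agent.R4.Data758 Crest.Agent.R4.OmSt532 Crest.Agent.R4.Om532
open Crest.Agent.R4.Ovl560 Crest.Agent.R4.LF363 Crest.Agent.R4.OmData532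
open Crest.Agent.R4.Bld532 (NS All NodeOk Bk)
open Crest.Agent.R4.Skel189 Crest.Agent.R4.Chi464
open Crest.Agent.R4.Soft104 (w)

variable {N : Skel189.Num} {γ : ℝ} {p0 P₀ : ℕ}

/-- means of the weights of a context -/
structure CM (X : Ctx N γ p0 P₀) : Prop where
  sum : ∀ z, ∀ q ∈ X.S', ∑ l ∈ (q / pp X.c.t q).primeFactors.filter (· ∈ rt X.c.t q),
    ((X.Tz z q l).card : ℝ) / l ≤ 1 / 2
  mean2 : ∀ z, ∀ q ∈ X.S', ∀ T' : ℕ → ℕ → Finset ℚ,
    mnw (q / pp X.c.t q) (omT X.c.t X.S' T' X.th X.ph X.lab q) ≤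
      2 * mnw (q / pp X.c.t q) (X.c.om q z)

theorem ctx_CM (N : Skel189.Num) : ∃ p₁ : ℕ, ∀ p0 ≥ p₁, ∀ (γ : ℝ) (P₀ : ℕ), 2 ≤ P₀ →
    ∀ X : Ctx N γ p0 P₀, CM X := by
  obtain ⟨p1, h1⟩ := omT_cond4 N.B N.C1 N.c2 N.hC1 N.hc2 N.hB
  obtain ⟨p2, h2⟩ := ctx_card N
  refine ⟨p1 + p2, fun p0 hp0 γ P₀ hP X => ?_⟩
  have ht : Bld532.bld (Bld532.par N.B N.C1 N.c2 p0) (w X.ψ) (top X.S) 1 X.S = X.c.t := X.ht.symm
  have key := h1 p0 (by omega) X.ψ X.S X.sq P₀ hP X.sys (top X.S) X.S' X.prn.sub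
    (fun q hq => X.prn.pr q hq)
  rw [ht] at key
  have hc := h2 p0 (by omega) γ P₀ hP X
  have hemp : ∀ z, ∀ q ∈ X.S', ∀ b ∈ rt X.c.t q, b ∉ X.c.t.uq q → X.Tz z q b = ∅ := by
    intro z q _ b _ hu
    show Chi464.Tz _ _ _ _ _ _ _ _ _ = ∅
    unfold Chi464.Tz
    rw [if_neg hu]
    exact Tc_emp X hu
  constructor
  · intro z q hq
    exact (key (X.Tz z) X.th X.ph X.lab (hemp z) (hc z)).2.2.2.2.2 q hq
  · intro z q hq T'
    have := (key (X.Tz z) X.th X.ph X.lab (hemp z) (hc z)).2.2.2.2.1 q hq T'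
    rw [X.om_eq]
    exact this

section
variable {X : Ctx N γ p0 P₀} {u : NS} {τ : IT}

/-- flat weights of a context -/
noncomputable abbrev fX (X : Ctx N γ p0 P₀) (Y : Finset (ℕ × ℕ × Finset ℕ)) (y : ℕ) :
    X.c.Lam → ℤ → ℝ :=
  flX (X.c.D.par Y) X.c.rr X.S' X.Tc X.c.t PPb X.th X.ph X.lab y

lemma item_pos (X : Ctx N γ p0 P₀) {q : ℕ} (hq : q ∈ X.c.t.items) : 0 < q / pp X.c.t q := by
  have h0 : 0 < q := X.ok.pos q (by rw [← X.ok.items]; exact hq)
  have h1 := X.ok.dvd q (by rw [← X.ok.items]; exact hq)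
  exact Nat.div_pos (Nat.le_of_dvd h0 h1) (Nat.pos_of_dvd_of_pos h1 h0)

lemma fX_zero {Y : Finset (ℕ × ℕ × Finset ℕ)} {y : ℕ} (j : X.c.Lam) (h : j.1.1 ∉ X.S') (a : ℤ) :
    fX X Y y j a = 0 := by
  show flw (j.1.1 ∈ X.S') _ _ _ _ _ a = 0
  unfold flw
  rw [if_neg h]

lemma fX_le {Y : Finset (ℕ × ℕ × Finset ℕ)} {y : ℕ} (j : X.c.Lam) (a : ℤ) : fX X Y y j a ≤ 1 :=
  flw_le_one (LW_uw _ _ _ _) (fun l _ a => uw_le_one _ _ _ _ _) a

lemma fX_Wt {Y : Finset (ℕ × ℕ × Finset ℕ)} {y : ℕ} (j : X.c.Lam) :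
    Wt (j.1.1 / pp X.c.t j.1.1) (fX X Y y j) := flw_Wt_self (LW_uw _ _ _ _)

/-- the dropped primes are retained: mean of the flat weights -/
lemma fX_mean (hCM : CM X) {Y : Finset (ℕ × ℕ × Finset ℕ)} {y : ℕ} (j : X.c.Lam)
    (hjS : j.1.1 ∈ X.S')
    (hge : ∀ l : ℕ, l.Prime → y ≤ l → l ∣ j.1.1 / pp X.c.t j.1.1 → l ∈ rt X.c.t j.1.1) :
    mnw (j.1.1 / pp X.c.t j.1.1) (fX X Y y j) ≤
      2 * mnw (j.1.1 / pp X.c.t j.1.1) ((X.c.D.par Y).om j) := by
  classical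
  have hw := item_pos X (q := j.1.1) (by rw [X.items]; exact X.prn.sub hjS)
  have k := flw_mean_le (good := j.1.1 ∈ X.S') (ret := rt X.c.t j.1.1)
    (T := X.Tz ((X.c.D.par Y).al j) j.1.1)
    (u := uw (X.th j.1.1) (X.ph j.1.1) (X.lab j.1.1)) (w := j.1.1 / pp X.c.t j.1.1)
    (sel := sel X.c.t y (fun b => PPb b < y) j.1.1) hw (LW_uw _ _ _ _)
    (fun l hl _ => (mn_uw _ _ _ (Nat.prime_of_mem_primeFactors hl)).ge) (by
      refine le_trans ?_ (hCM.sum ((X.c.D.par Y).al j) _ hjS)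
      refine Finset.sum_le_sum_of_subset_of_nonneg ?_ fun i _ _ => by positivity
      intro l hl
      simp only [Finset.mem_filter] at hl ⊢
      exact ⟨hl.1, hl.2.2⟩) (lam := 1) zero_le_one (by
      refine le_of_eq (Eq.symm (Finset.prod_eq_one fun l hl => ?_))
      simp only [Finset.mem_filter] at hl
      obtain ⟨h1, h2, h3⟩ := hl
      unfold sel at h2
      push Not at h2
      exact absurd (hge l (Nat.prime_of_mem_primeFactors h1) h2.1
        (Nat.dvd_of_mem_primeFactors h1)) h3)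
  rw [one_mul] at k
  have e : (X.c.D.par Y).om j = omX X.c.γ X.c.rr X.S' X.Tc X.c.t PPb X.th X.ph X.lab j.1.1
      ((X.c.D.par Y).al j) := X.om_eq _ _
  rw [e]
  exact k

/-- the weights of the pieces are weights -/
lemma om_Wts (h : NDt X.par (w X.ψ) X.c.t u τ) (Y : Finset (ℕ × ℕ × Finset ℕ)) :
    (X.c.D.par Y).Wts u.A τ :=
  h.wts (D := X.c.D.par Y) fun j _ => X.ok.wt _ (Cf.mem_S j) _

/-- masses -/
lemma I_flat_le (h : NDt X.par (w X.ψ) X.c.t u τ) (Y : Finset (ℕ × ℕ × Finset ℕ))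
    {f : X.c.Lam → ℤ → ℝ} (hfW : ∀ j : X.c.Lam, Wt (j.1.1 / pp X.c.t j.1.1) (f j)) {q : ℕ}
    (hq : q ∈ τ.items)
    (hm : ∀ j : X.c.Lam, j.1.1 = q → mnw (q / pp X.c.t q) (f j) ≤
      2 * mnw (q / pp X.c.t q) ((X.c.D.par Y).om j)) :
    I (Fq (fl X Y f) u.B u.A τ 1 q) ≤ 2 * I (Fq (X.c.D.par Y) u.B u.A τ 1 q) := by
  have hab : ∀ j, (X.c.D.par Y).al j ≤ (X.c.D.par Y).be j := fun j =>
    X.ok.bpm _ (Cf.mem_S j) (Cf.r_pos j) (Nat.le_succ _)
  rw [I_Fq (fl X Y f) hab h.B_pos h.fit (h.wts (D := fl X Y f) fun j _ => hfW j)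
    (mul_one u.B).symm hq, I_Fq (X.c.D.par Y) hab h.B_pos h.fit (om_Wts h Y) (mul_one u.B).symm hq,
    Finset.mul_sum]
  refine Finset.sum_le_sum fun j hj => ?_
  have hjq : j.1.1 = q := (Finset.mem_filter.1 hj).2
  have e := h.self.pp q hq
  rw [← e]
  have h0 : 0 ≤ (u.B : ℝ) * ((X.c.D.par Y).be j - (X.c.D.par Y).al j) * prf τ q :=
    mul_nonneg (mul_nonneg (Nat.cast_nonneg _) (sub_nonneg.2 (hab j))) (Bld532.prf_pos τ u.n h.self.ok q).1.le
  have := mul_le_mul_of_nonneg_left (hm j hjq) h0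
  calc (u.B : ℝ) * ((X.c.D.par Y).be j - (X.c.D.par Y).al j) * prf τ q *
        mnw (q / pp X.c.t q) (f j) ≤ _ := this
    _ = _ := by ring

/-! ### non-leaf cut -/

/-- **the item majorant, non-leaf cut** -/
theorem caseA (h : NDt X.par (w X.ψ) X.c.t u τ) (hnc : NC X.c.t (top X.S) u τ) (hCM : CM X)
    (Y : Finset (ℕ × ℕ × Finset ℕ)) {y dm K V0 : ℕ} (hy : y ≤ u.n)
    (hd1 : X.c.d1 * Kc X.S ≤ 1) {q : ℕ} (hq : q ∈ τ.items) (hqS : q ∈ X.S')
    (hdep : ∀ p ∈ cols (subt y τ q), X.c.wp.dep p ≤ dm) (hl : ¬ WalkIT579.isL (subt y τ q)) (hK : 0 < K)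
    (hV : ∀ r ∈ (subt y τ q).items, r ∈ X.S' →
      vN X.c.t y (fun b => PPb b < y) (u.A * ppc y τ q) r ≤ V0) {E0 : ℝ} (hE0 : 1 / 2 ≤ E0)
    (hR : ∀ r ∈ (subt y τ q).items, r ∈ X.S' → (u.B : ℝ) * X.c.rr r ≤ E0) :
    IZ2 (Fq (X.c.D.par Y) u.B u.A τ 1 q) (u.B * X.c.rr q) K
      (vN X.c.t y (fun b => PPb b < y) (u.A * ppc y τ q) q) (q / u.A) (u.B * X.c.γ)
      (2 * I (Fq (X.c.D.par Y) u.B u.A τ 1 q) / prfc y τ q +
          60 * E0 * (2 ^ y : ℕ) * ((mpc y τ q * pml y : ℕ) : ℝ) * (V0 : ℝ) ^ 2 *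
            (2 ^ (dm + 2) + 1) * √K *
            (2 * (3 * (u.B * X.c.rr q)) / (K * vN X.c.t y (fun b => PPb b < y)
              (u.A * ppc y τ q) q))) (2 * E0) := by
  classical
  obtain ⟨e1, e2, e3⟩ := hnc.cut q hq y hy
  have hyt : y ≤ top X.S := hy.trans hnc.lev
  have hqT : q ∈ X.c.t.items := hnc.mem hq
  have hXD := ctx_XD X Y
  have hq2 : q ∈ (subt y τ q).items := mem_subt y τ hq
  obtain ⟨m, c', hm, h2⟩ := h.subt hy q
  have hty := tp_subt_lt y q τ hl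
  -- primes `≥ y` of the items of the cut are retained
  have hge : ∀ r ∈ (subt y τ q).items, ∀ l : ℕ, l.Prime → y ≤ l → l ∣ r / pp X.c.t r →
      l ∈ rt X.c.t r := by
    intro r hr l hlp hyl hd
    have h3 : l ∣ r / (u.A * ppc y τ q) := hd.trans (h.w_dvd hy hr)
    have h4 : m ≤ l := by
      rcases WalkIT579.prime_ge h2.self.node hl hlp (hty.le.trans hyl) with h6 | h6
      · omega
      · exact h6
    exact h2.self.ge r hr l hlp h4 h3
  -- means
  have hmean : ∀ j : X.c.Lam, j.1.1 = q → mnw (q / pp X.c.t q) (fX X Y y j) ≤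
      2 * mnw (q / pp X.c.t q) ((X.c.D.par Y).om j) := by
    intro j hj
    have := fX_mean hCM (Y := Y) (y := y) j (by rw [hj]; exact hqS) (by
      rw [hj]; exact hge q hq2)
    rw [hj] at this
    exact this
  have hI := I_flat_le h Y (f := fX X Y y) (fun j => fX_Wt j) hq hmean
  -- pointwise
  have hFle : ∀ x, Fq (X.c.D.par Y) u.B u.A τ 1 q x ≤ Fq (fl X Y (fX X Y y)) (u.B * mpc y τ q)
      (u.A * ppc y τ q) (subt y τ q) (mpc y τ q) q ((ppc y τ q : ℕ) * x) := by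
    intro x
    refine (Fq_cut (y := y) (X.c.D.par Y) h.B_pos h.fit (om_Wts h Y) hq x).trans ?_
    have k := Fq_le_flat (D := X.c.D.par Y) (R := X.c.rr) (S' := X.S') (Tc := X.Tc) (y := y)
      (f := fX X Y y) X.root
      (hXD.rel (y := y) (T' := (subt y X.c.t q).items) (subt_items y X.c.t q) (by
        rw [e1]; exact hge)) hqT (by
        rw [e1, e2]
        exact Wts_subt y τ q (Fit_dj h.fit) (om_Wts h Y)) (by
        rw [e1, e2]
        exact Wts_subt y τ q (Fit_dj h.fit) (h.wts (D := fl X Y (fX X Y y)) fun j _ => fX_Wt j))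
      (by
        rw [e1, e2]
        intro r hr r' hr' e b hyb hb
        exact (h.uq_iff X.tOk hy hr hr' e (hyb.trans (PPb_le b))).1 hb) (by
        rw [e1, e2]
        intro p hp j k hj hk e
        obtain ⟨g1, -, -, g4⟩ := ctx_step' h Y hy hyt hq hdep hd1
        exact g4 p hp _ hk _ hj ((g1.rho p hp k j).1 e).2)
      (c := mpc y τ q) (by rw [e3]; exact Dvd.intro_left _ rfl) ((ppc y τ q : ℕ) * x)
    rw [e1, e2, e3] at k
    exact k
  -- `OmCA`
  have homc : OmCA (fl X Y (fX X Y y)) X.c.wp (subt y τ q) dm (mpc y τ q) u.B (u.A * ppc y τ q)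
      (mpc y τ q * pml y) X.c.rr (fun r => rgh y (r / (u.A * ppc y τ q))) q X.S' := by
    have k := OmCA_chi (D := fl X Y (fX X Y y)) (PP := PPb) X.root (hXD.sm y) hqT X.c.wp dm
      (sn := u.B) (c2 := mpc y τ q) h.B_pos (mpc_pos y τ q h.self.ok) e3.symm
    rw [e1, e2] at k
    exact k
  refine (ctx_itemF h Y hy hyt hq hdep hd1 hqS (f := fX X Y y) (fun j hj a => fX_zero j hj a)
    (fun j a => fX_le j a) (fun j => fX_Wt j) (fun b => PPb b < y) ?_ hK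
    (fun r hr hrS _ => hV r hr hrS) hE0 (fun r hr hrS _ => hR r hr hrS) homc hFle).mono
    (fun x => le_rfl) ?_ le_rfl
  · intro j hj hjS _ a
    have hW := flw_Wt_vN (T := X.c.t) (y := y) (E := fun b => PPb b < y) (r := j.1.1)
      (A := u.A * ppc y τ q) (good := j.1.1 ∈ X.S') (ret := rt X.c.t j.1.1)
      (Tc := X.Tz ((X.c.D.par Y).al j) j.1.1)
      (u := uw (X.th j.1.1) (X.ph j.1.1) (X.lab j.1.1)) (w := j.1.1 / pp X.c.t j.1.1)
      (h.w_dvd hy hj) (h2.div_ne hj) (LW_uw _ _ _ _)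
    exact hW.per a
  · refine add_le_add ?_ le_rfl
    exact div_le_div_of_nonneg_right hI (prfc_pos y τ q h.self.ok).le

/-! ### leaf cut -/

lemma isL_iff {t : IT} (h : WalkIT579.isL t) : ∃ S, t = .leaf S := by
  cases t with
  | leaf S => exact ⟨S, rfl⟩
  | br p t₁ t₀ => exact absurd h (by simp [WalkIT579.isL])
  | add p t₁ t₀ => exact absurd h (by simp [WalkIT579.isL])
  | up p Sp t => exact absurd h (by simp [WalkIT579.isL])

/-- **the item majorant, leaf cut** (`n` : all the unretained primes of `q / pp` are `< n`) -/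
theorem caseB (h : NDt X.par (w X.ψ) X.c.t u τ) (hnc : NC X.c.t (top X.S) u τ) (hCM : CM X)
    (Y : Finset (ℕ × ℕ × Finset ℕ)) {y K n : ℕ} (hy : y ≤ u.n) (hy2 : 2 ≤ y) (hyn : y ≤ n)
    {q : ℕ} (hq : q ∈ τ.items) (hqS : q ∈ X.S') (hl : WalkIT579.isL (subt y τ q)) (hK : 0 < K)
    (hn : ∀ l : ℕ, l.Prime → n ≤ l → l ∣ q / pp X.c.t q → l ∈ rt X.c.t q)
    {C1 η : ℝ} (hη : 0 ≤ η)
    (hC1 : 1 / prfc y τ q * (4 / ∏ s ∈ pY y n, (1 - 1 / (s : ℝ))) ≤ C1) :
    IZ (Fq (X.c.D.par Y) u.B u.A τ 1 q) (u.B * X.c.rr q) K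
      (vN X.c.t y (fun _ => False) (u.A * ppc y τ q) q) (q / u.A) (u.B * X.c.γ)
      (C1 * (I (Fq (X.c.D.par Y) u.B u.A τ 1 q) + η * (u.B * X.c.rr q))) (fun _ => 0) := by
  classical
  obtain ⟨e1, e2, e3⟩ := hnc.cut q hq y hy
  have hqT : q ∈ X.c.t.items := hnc.mem hq
  have hq2 : q ∈ (subt y τ q).items := mem_subt y τ hq
  obtain ⟨m, c', hm, h2⟩ := h.subt hy q
  obtain ⟨S, hS⟩ := isL_iff hl
  have epp : pp X.c.t q = u.A * ppc y τ q := by
    rw [pp_cut y X.c.t q, e1, e2, hS]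
    show _ * 1 = _
    ring
  set w := q / (u.A * ppc y τ q) with hw
  have ew : q / pp X.c.t q = w := by rw [epp]
  have hw0 : 0 < w := by rw [← ew]; exact item_pos X hqT
  set g : ℤ → ℝ := flw (q ∈ X.S') (rt X.c.t q) (X.Tc q) (uw (X.th q) (X.ph q) (X.lab q)) w
    (sel X.c.t y (fun _ => False) q) with hg
  have hLW : LW w.primeFactors (uw (X.th q) (X.ph q) (X.lab q)) := LW_uw _ _ _ _
  have hu1 : ∀ l ∈ w.primeFactors, ∀ a, uw (X.th q) (X.ph q) (X.lab q) l a ≤ 1 :=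
    fun l _ a => uw_le_one _ _ _ _ _
  have hgW : Wt (vN X.c.t y (fun _ => False) (u.A * ppc y τ q) q) g :=
    flw_Wt_vN (dvd_refl _) (h2.div_ne hq2) hLW
  have hab : ∀ j, (X.c.D.par Y).al j ≤ (X.c.D.par Y).be j := fun j =>
    X.ok.bpm _ (Cf.mem_S j) (Cf.r_pos j) (Nat.le_succ _)
  have hrr : 0 < X.c.rr q := by
    unfold Cf.rr; split_ifs with hr
    · exact hr
    · exact one_pos
  have hom : ∀ j : X.c.Lam, j.1.1 = q → (X.c.D.par Y).om j =
      omX X.c.γ X.c.rr X.S' X.Tc X.c.t PPb X.th X.ph X.lab q ((X.c.D.par Y).al j) := by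
    intro j hj
    have : (X.c.D.par Y).om j = omX X.c.γ X.c.rr X.S' X.Tc X.c.t PPb X.th X.ph X.lab j.1.1
      ((X.c.D.par Y).al j) := X.om_eq _ _
    rw [this, hj]
  have hle : ∀ j : X.c.Lam, j.1.1 = q → ∀ a, (X.c.D.par Y).om j a ≤ g a := by
    intro j hj a
    rw [hom j hj]
    refine (omX_le a).trans ?_
    show omw (q ∈ X.S') (rt X.c.t q) (X.Tc q) (uw (X.th q) (X.ph q) (X.lab q))
      (q / pp X.c.t q) a ≤ g a
    rw [ew, hg]
    exact omw_le_flw hLW hu1 a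
  -- means
  have hlam0 : 0 < ∏ s ∈ pY y n, (1 - 1 / (s : ℝ)) := Finset.prod_pos fun s hs => by
    have := (mem_pY.1 hs).2.one_lt
    have h1 : (1 : ℝ) < s := by exact_mod_cast this
    have h3 : 1 / (s : ℝ) < 1 := by rw [div_lt_one (by linarith)]; exact h1
    linarith
  set lam0 := ∏ s ∈ pY y n, (1 - 1 / (s : ℝ)) with hlam
  have hmean : ∀ j : X.c.Lam, j.1.1 = q → lam0 / 4 * mnw w g ≤ mnw w ((X.c.D.par Y).om j) := by
    intro j hj
    have k := flw_mean_le (good := q ∈ X.S') (ret := rt X.c.t q) (T := X.Tc q)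
      (u := uw (X.th q) (X.ph q) (X.lab q)) (w := w)
      (sel := sel X.c.t y (fun _ => False) q) hw0 hLW
      (fun l hl _ => (mn_uw _ _ _ (Nat.prime_of_mem_primeFactors hl)).ge) (by
        refine le_trans ?_ (hCM.sum 0 _ hqS)
        rw [ew]
        refine (Finset.sum_le_sum_of_subset_of_nonneg (t := w.primeFactors.filter
          (· ∈ rt X.c.t q)) ?_ fun i _ _ => by positivity).trans
          (Finset.sum_le_sum fun l _ => ?_)
        · intro l hl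
          simp only [Finset.mem_filter] at hl ⊢
          exact ⟨hl.1, hl.2.2⟩
        · have hc : (X.Tc q l).card ≤ (X.Tz 0 q l).card := Finset.card_le_card Tc_sub_Tz
          gcongr) (lam := lam0) hlam0.le (by
        rw [hlam]
        refine pr_anti (fun s hs => (mem_pY.1 hs).2) ?_
        intro l hl
        simp only [Finset.mem_filter] at hl
        obtain ⟨a1, a2, a3⟩ := hl
        have hlp := Nat.prime_of_mem_primeFactors a1
        have hld := Nat.dvd_of_mem_primeFactors a1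
        have hly : y ≤ l := by
          by_contra hc
          exact a2 (Or.inl (not_le.1 hc))
        refine mem_pY.2 ⟨⟨hly, ?_⟩, hlp⟩
        by_contra hc
        exact a3 (hn l hlp (not_lt.1 hc) (by rw [ew]; exact hld)))
    have k2 := hCM.mean2 ((X.c.D.par Y).al j) q hqS X.Tc
    rw [ew] at k2
    have e4 : (X.c.D.par Y).om j = X.c.om q ((X.c.D.par Y).al j) := by
      rw [hom j hj, X.om_eq]
    have e5 : omT X.c.t X.S' X.Tc X.th X.ph X.lab q = omw (q ∈ X.S') (rt X.c.t q) (X.Tc q)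
        (uw (X.th q) (X.ph q) (X.lab q)) w := by
      rw [← ew]; rfl
    rw [e5] at k2
    rw [e4]
    have : lam0 * mnw w g ≤ 4 * mnw w (X.c.om q ((X.c.D.par Y).al j)) := by
      rw [hg]; linarith
    linarith
  have hqS2 : q ∈ X.c.S' := by rw [X.hS']; exact hqS
  have hr := X.ok.r' q hqS2
  have hlen := X.ok.len (X.ok.sub hqS2) hr
  have hrr2 : X.c.rr q = X.c.r q := by unfold Cf.rr; rw [if_pos hr]
  refine item_leaf (D := X.c.D.par Y) (R := X.c.rr) (ctx_Cov X Y)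
    (fun j a => X.ok.le1 _ (Cf.mem_S j) _ a) hab (N := u.n) (g := g) h.B_pos h.fit (om_Wts h Y)
    h.self.ok hq hS hK hrr vN_pos (vN_dvd (h2.sq_div hq2)) hgW (flw_le_one hLW hu1) hle ?_
    (lam := lam0 / 4) (by positivity) hη hmean ?_
  · rw [hrr2]
    exact hlen
  · have : 1 / (lam0 / 4) = 4 / lam0 := by rw [one_div_div]
    rw [this]
    exact hC1

end

end Crest.Agent.R4.Step588
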