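import Crest.Agent.R4.CtxItem189
import Crest.Agent.R4.StepNC588

/-!
R4 (S0004), helper588 (T9'): **`item_step2` for any function below the item sum of the cut**.

The flat weights (464's closed exclusion) dominate only on the cut tree, so the majorant of the
item sum of the node is built from the cut of the flat family.
-/

set_option autoImplicit false
set_option linter.unusedSectionVars false
set_option linter.unusedVariables false
open MeasureTheory Filter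

namespace Crest.Agent.R4.Step588

open Crest.Agent.R4.Tour104 Crest.Agent.R4.Tour758 Crest.Agent.R4.Avg758 Crest.Agent.R4.Clos758
open Crest.Agent.R4.ClosL758 Crest.Agent.R4.ClosG758 Crest.Agent.R4.Lam368
open Crest.Agent.R4.Piece464 Crest.Agent.R4.Fam464 Crest.Agent.R4.Cnt588 Crest.Agent.R4.Item758
open Crest.Agent.R4.W363 Crest.Agent.R4.Data758
open Crest.Agent.R4.Bld532 (NS All NodeOk Bk)

section
variable {Λ κ : Type*} [Fintype Λ] [DecidableEq κ] [DecidableEq Λ]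

/-- **(F2)** with fat items, for any function `F` below the item sum of the cut -/
theorem item_step2F {D : Par Λ κ} {P : WP} {stt : ℕ → ℕ → Option ℚ} {rtt : ℕ → ℕ → ℕ}
    {C : Finset ℕ} {dm b pr N y K V0 u NR q : ℕ} {R : ℕ → ℝ} {t : IT} (hC : Cov D R)
    (hom : ∀ j a, D.om j a ≤ 1)
    (hab : ∀ j, D.al j ≤ D.be j) (hw : Wld D P stt rtt C) (hρ : 0 < P.ρ₀) (hb : 0 < b)
    (hF : Fit b pr t) (hW : D.Wts pr t) (hO : t.Ok N) (hy : y ≤ N) (hq : q ∈ t.items)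
    (ho : WOk D P stt C (subt y t q).items dm (mpc y t q * pml y * b))
    (hfine : ∀ j, (b : ℝ) * (D.be j - D.al j) * ((mpc y t q * pml y : ℕ) : ℝ) ≤ 1)
    (hcols : cols (subt y t q) ⊆ C)
    {rp : ℕ → ℕ} (hrp : ∀ p ∈ cols (subt y t q), ∀ q' ∈ (subt y t q).items,
      ∀ r ∈ (subt y t q).items, rtt p q' = rtt p r → rp q' = rp r)
    (hK : 0 < K) (hu : 0 < u) {v : ℕ → ℕ}
    (hv : ∀ r ∈ (subt y t q).items, rp r = rp q → r / (pr * ppc y t q) = u * v r)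
    (hV : ∀ r ∈ (subt y t q).items, rp r = rp q → v r ≤ V0)
    (hper : ∀ j, D.it j ∈ (subt y t q).items → rp (D.it j) = rp q →
      ∀ a, D.om j (a + v (D.it j)) = D.om j a) {E0 : ℝ} (hE0 : 1 / 2 ≤ E0)
    (hR : ∀ r ∈ (subt y t q).items, rp r = rp q → 0 < R r ∧ (b : ℝ) * R r ≤ E0)
    (hNR : ((subt y t q).items.filter (fun r => rp r = rp q)).card ≤ NR)
    (homc : OmC D P (subt y t q) dm (mpc y t q) b (pr * ppc y t q) (mpc y t q * pml y) R rp q)
    {F : ℝ → ℝ} (hFle : ∀ x, F x ≤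
      Fq D (b * mpc y t q) (pr * ppc y t q) (subt y t q) (mpc y t q) q ((ppc y t q : ℕ) * x)) :
    IZ2 F (b * R q) K (v q) (q / pr) (b * D.γ)
      (I (Fq D b pr t 1 q) / prfc y t q +
          60 * E0 * NR * ((mpc y t q * pml y : ℕ) : ℝ) * (V0 : ℝ) ^ 2 * (2 ^ (dm + 2) + 1) * √K *
            (2 * (3 * (b * R q)) / (K * v q))) (2 * E0) := by
  classical
  set m := mpc y t q with hm_def
  set ϖ := ppc y t q with hϖ_def
  set t2 := subt y t q with ht2_def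
  have hm : 0 < m := mpc_pos y t q hO
  have hϖ : 0 < ϖ := ppc_pos y t q hO
  have hq2 : q ∈ t2.items := mem_subt y t hq
  have hF2 : Fit (b * m) (pr * ϖ) t2 := Fit_subt y t q hF
  have hW2 : D.Wts (pr * ϖ) t2 := Wts_subt y t q (Fit_dj hF) hW
  have hO2 : t2.Ok y := Ok_subt y t q hO hy
  have hb2 : 0 < b * m := Nat.mul_pos hb hm
  have hc2 : m ∣ b * m := Dvd.intro_left b rfl
  obtain ⟨hq0, hprq, -⟩ := hF2.item q hq2
  have hpr2 : 0 < pr * ϖ := Nat.pos_of_dvd_of_pos hprq hq0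
  have hpr : 0 < pr := Nat.pos_of_mul_pos_right hpr2
  have hB : 0 < m * pml y := Nat.mul_pos hm (pml_pos y)
  have hbR : (0 : ℝ) < b := by exact_mod_cast hb
  -- moduli
  have hvpos : ∀ r ∈ t2.items, rp r = rp q → 0 < v r := by
    intro r hr hrq
    obtain ⟨hr0, hprr, -⟩ := hF2.item r hr
    have h1 : 0 < r / (pr * ϖ) := Nat.div_pos (Nat.le_of_dvd hr0 hprr) hpr2
    rw [hv r hr hrq] at h1
    exact Nat.pos_of_ne_zero (by rintro h; rw [h] at h1; simp at h1)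
  have hvq : 0 < v q := hvpos q hq2 rfl
  have hw0 : q / (pr * ϖ) = u * v q := hv q hq2 rfl
  have hRq := hR q hq2 rfl
  have hbRq : 0 < (b : ℝ) * R q := mul_pos hbR hRq.1
  -- bad windows
  have hρ1 : 0 < min ((b : ℝ) * R q) (1/2) := lt_min hbRq (by norm_num)
  obtain ⟨bad, -, hcard, hgood⟩ := good_badE (B := m * pml y) (sn := b) (θ := b * D.γ)
    (ρ := min (b * R q) (1/2)) hC hw ho hb2 hF2 hW2 rfl hB (NB_of_Ok t2 hO2 (dvd_refl _)) hfine
    hpr2 hcols hrp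
    hq2 homc hρ hvq hK hE0 (hV q hq2 rfl) hρ1 (min_le_right _ _) hw0
    (fun r hr hrq => ⟨hvpos r hr hrq, hV r hr hrq, hv r hr hrq⟩)
    (fun r hr hrq => ⟨(mul_pos hbR (hR r hr hrq).1).le, (hR r hr hrq).2⟩)
  -- majorant on the subtree
  obtain ⟨n, κ', hn1, hnR, hOk, hmaj, hI⟩ := maj2 (PB_Fq D q hb2 hF2 hW2 hc2) hu hvq hK hbRq hw0
    (per_const hw hb2 hF2 hW2 hc2 hcols hrp hq2 hu hv hper)
    (Fq_le_arc hC hom hb2 hF2 hW2 rfl hq2) bad hgood
  have hdiv : ϖ * (q / (pr * ϖ)) = q / pr := by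
    obtain ⟨k, hk⟩ := hprq
    rw [hk, Nat.mul_div_cancel_left k hpr2, mul_assoc pr ϖ k, Nat.mul_div_cancel_left _ hpr]
  have hRH : (b : ℝ) * R q ≤ 2 * E0 * min ((b : ℝ) * R q) (1/2) := by
    rcases le_or_gt ((b : ℝ) * R q) (1/2) with h | h
    · rw [min_eq_left h]
      exact le_mul_of_one_le_left hbRq.le (by linarith)
    · rw [min_eq_right h.le]
      have := hRq.2
      linarith
  refine ⟨min ((b : ℝ) * R q) (1/2), n, wl (min ((b : ℝ) * R q) (1/2)) K,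
    fun i => wl (min ((b : ℝ) * R q) (1/2)) K (i + 1), κ', hρ1, min_le_left _ _, hRH, hn1, hnR,
    ?_, ?_, ?_⟩
  · have := hOk.push hϖ
    rwa [hdiv] at this
  · intro x
    refine (hFle x).trans ((hmaj _).trans (le_of_eq ?_))
    rw [← WF_push, hdiv]
  · have hprf0 : 0 < prfc y t q := prfc_pos y t q hO
    have e2 : I (Fq D (b * m) (pr * ϖ) t2 m q) = I (Fq D b pr t 1 q) / prfc y t q := by
      rw [eq_div_iff hprf0.ne']
      exact I_Fq_cut D hab hb hF hW hO hq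
    rw [← hdiv, I_WF_push hϖ hOk.w0 hOk.vw hOk.wt]
    refine hI.trans ?_
    rw [e2]
    have hx0 : 0 ≤ 2 * (3 * (b * R q)) / (K * v q) := by
      have := hbRq.le
      positivity
    have hcard' : (bad.card : ℝ) ≤ 60 * E0 * NR * ((m * pml y : ℕ) : ℝ) * (V0 : ℝ) ^ 2 *
        (2 ^ (dm + 2) + 1) * √K := by
      refine hcard.trans ?_
      have hNR' : ((t2.items.filter (fun r => rp r = rp q)).card : ℝ) ≤ NR := by exact_mod_cast hNR
      have h3 : (60 * E0 : ℝ) * ((t2.items.filter (fun r => rp r = rp q)).card : ℝ) ≤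
          60 * E0 * NR := mul_le_mul_of_nonneg_left hNR' (by linarith)
      have h4 : (0 : ℝ) ≤ ((m * pml y : ℕ) : ℝ) := Nat.cast_nonneg _
      have h5 := mul_le_mul_of_nonneg_right h3 h4
      have h6 := mul_le_mul_of_nonneg_right h5 (sq_nonneg (V0 : ℝ))
      have h7 := mul_le_mul_of_nonneg_right h6 (show (0 : ℝ) ≤ 2 ^ (dm + 2) + 1 by positivity)
      exact mul_le_mul_of_nonneg_right h7 (Real.sqrt_nonneg _)
    have := mul_le_mul_of_nonneg_right hcard' hx0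
    linarith

/-- **`item_step2F` with hypotheses for the alive mates only** -/
theorem item_step2F_al {D : Par Λ κ} {Al : Finset ℕ} (hdead : ∀ j, D.it j ∉ Al → ∀ a, D.om j a = 0)
    {P : WP} {stt : ℕ → ℕ → Option ℚ} {rtt : ℕ → ℕ → ℕ}
    {C : Finset ℕ} {dm b pr N y K V0 u NR q : ℕ} {R : ℕ → ℝ} {t : IT} (hC : Cov D R)
    (hom : ∀ j a, D.om j a ≤ 1)
    (hab : ∀ j, D.al j ≤ D.be j) (hw : Wld D P stt rtt C) (hρ : 0 < P.ρ₀) (hb : 0 < b)
    (hF : Fit b pr t) (hW : D.Wts pr t) (hO : t.Ok N) (hy : y ≤ N) (hq : q ∈ t.items)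
    (hqA : q ∈ Al)
    (ho : WOk D P stt C (subt y t q).items dm (mpc y t q * pml y * b))
    (hfine : ∀ j, (b : ℝ) * (D.be j - D.al j) * ((mpc y t q * pml y : ℕ) : ℝ) ≤ 1)
    (hcols : cols (subt y t q) ⊆ C)
    {rp : ℕ → ℕ} (hrp : ∀ p ∈ cols (subt y t q), ∀ q' ∈ (subt y t q).items,
      ∀ r ∈ (subt y t q).items, rtt p q' = rtt p r → rp q' = rp r)
    (hK : 0 < K) (hu : 0 < u) {v : ℕ → ℕ}
    (hv : ∀ r ∈ (subt y t q).items, r ∈ Al → rp r = rp q → r / (pr * ppc y t q) = u * v r)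
    (hV : ∀ r ∈ (subt y t q).items, r ∈ Al → rp r = rp q → v r ≤ V0)
    (hper : ∀ j, D.it j ∈ (subt y t q).items → D.it j ∈ Al → rp (D.it j) = rp q →
      ∀ a, D.om j (a + v (D.it j)) = D.om j a) {E0 : ℝ} (hE0 : 1 / 2 ≤ E0)
    (hR : ∀ r ∈ (subt y t q).items, r ∈ Al → rp r = rp q → 0 < R r ∧ (b : ℝ) * R r ≤ E0)
    (hNR : ((subt y t q).items.filter (fun r => r ∈ Al ∧ rp r = rp q)).card ≤ NR)
    (homc : OmCA D P (subt y t q) dm (mpc y t q) b (pr * ppc y t q) (mpc y t q * pml y) R rp q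
      Al)
    {F : ℝ → ℝ} (hFle : ∀ x, F x ≤
      Fq D (b * mpc y t q) (pr * ppc y t q) (subt y t q) (mpc y t q) q ((ppc y t q : ℕ) * x)) :
    IZ2 F (b * R q) K (v q) (q / pr) (b * D.γ)
      (I (Fq D b pr t 1 q) / prfc y t q +
          60 * E0 * NR * ((mpc y t q * pml y : ℕ) : ℝ) * (V0 : ℝ) ^ 2 * (2 ^ (dm + 2) + 1) * √K *
            (2 * (3 * (b * R q)) / (K * v q))) (2 * E0) := by
  classical
  set rp' : ℕ → ℕ := fun r => if r ∈ Al then rp r + 1 else 0 with hrp'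
  have key : ∀ r, rp' r = rp' q → r ∈ Al ∧ rp r = rp q := by
    intro r h
    simp only [hrp', if_pos hqA] at h
    by_cases hr : r ∈ Al
    · rw [if_pos hr] at h
      exact ⟨hr, Nat.add_right_cancel h⟩
    · rw [if_neg hr] at h
      omega
  have hb2 : 0 < b * mpc y t q := Nat.mul_pos hb (mpc_pos y t q hO)
  have hFle' : ∀ x, F x ≤ Fq (D.res Al) (b * mpc y t q) (pr * ppc y t q) (subt y t q)
      (mpc y t q) q ((ppc y t q : ℕ) * x) := fun x => by
    rw [← Fq_res D hdead hb2 (Fit_subt y t q hF) (Wts_subt y t q (Fit_dj hF) hW) _ q]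
    exact hFle x
  rw [Fq_res D hdead hb hF hW 1 q]
  refine item_step2F (D := D.res Al) (P := P) (stt := stt) (rtt := rttA Al rtt) (C := C) (dm := dm)
    (N := N) (u := u) (NR := NR) (rp := rp') hC.res (fun j a => hom j.1 a) (fun j => hab j.1)
    hw.res hρ hb hF (fun j hj => hW j.1 hj) hO hy hq ho.res (fun j => hfine j.1) hcols ?_ hK hu
    (fun r hr e => hv r hr (key r e).1 (key r e).2) (fun r hr e => hV r hr (key r e).1 (key r e).2)
    (fun j hj e => hper j.1 hj j.2 (key _ e).2) hE0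
    (fun r hr e => hR r hr (key r e).1 (key r e).2) ?_ ?_ hFle'
  · intro p hp q' hq' r hr e
    unfold rttA at e
    simp only [hrp']
    by_cases h1 : q' ∈ Al
    · by_cases h2 : r ∈ Al
      · rw [if_pos h1, if_pos h2] at e
        rw [if_pos h1, if_pos h2, hrp p hp q' hq' r hr (Nat.add_right_cancel e)]
      · rw [if_pos h1, if_neg h2] at e
        omega
    · by_cases h2 : r ∈ Al
      · rw [if_neg h1, if_pos h2] at e
        omega
      · rw [if_neg h1, if_neg h2]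
  · refine le_trans (Finset.card_le_card fun r hr => ?_) hNR
    obtain ⟨h1, h2⟩ := Finset.mem_filter.1 hr
    exact Finset.mem_filter.2 ⟨h1, key r h2⟩
  · intro x x' hfl j k M hj hj2 ek a1 a2 z hz
    refine homc x x' (fun r hr hrA hre e he => ?_) j.1 k.1 M hj j.2 (key _ hj2).2 ek a1 a2 z hz
    refine hfl r hr ?_ e he
    simp only [hrp', if_pos hrA, if_pos hqA, hre]

end

/-! ### contexts -/

section ctx
open Crest.Agent.R4.Skel189
open Crest.Agent.R4.Soft104 (w)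

variable {N : Skel189.Num} {γ : ℝ} {p0 P₀ : ℕ} {X : Ctx N γ p0 P₀} {u : NS} {τ : IT}

/-- everything at a cut of a node, `hdep` only for the columns of the cut tree -/
theorem ctx_step' (h : NDt X.par (w X.ψ) X.c.t u τ) (Y : Finset (ℕ × ℕ × Finset ℕ)) {y dm : ℕ}
    (hy : y ≤ u.n) (hyt : y ≤ top X.S) {q : ℕ} (hq : q ∈ τ.items)
    (hdep : ∀ p ∈ cols (subt y τ q), X.c.wp.dep p ≤ dm)
    (hd1 : X.c.d1 * Kc X.S ≤ 1) :
    Wld (X.c.D.par Y) X.c.wp X.c.st (ret X.c.t) (cols (subt y τ q)) ∧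
    WOk (X.c.D.par Y) X.c.wp X.c.st (cols (subt y τ q))
      (subt y τ q).items dm ((mpc y τ q * pml y) * u.B) ∧
    (∀ j, (u.B : ℝ) * ((X.c.D.par Y).be j - (X.c.D.par Y).al j) * ((mpc y τ q * pml y : ℕ) : ℝ)
      ≤ 1) ∧
    ∀ p ∈ cols (subt y τ q), ∀ r ∈ (subt y τ q).items, ∀ r' ∈ (subt y τ q).items,
      ret X.c.t p r = ret X.c.t p r' →
        rgh y (r / (u.A * ppc y τ q)) = rgh y (r' / (u.A * ppc y τ q)) := by
  have hcl : ∀ p ∈ cols (subt y τ q), p < y := fun p hp =>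
    (cols_lt _ (Ok_subt y τ q h.self.ok hy) p hp).2
  have hC : ∀ p ∈ cols (subt y τ q), p ≤ top X.S := fun p hp => (hcl p hp).le.trans hyt
  have hN : (mpc y τ q * pml y) * u.B ≤ Kc X.S :=
    (Nat.le_of_dvd (pml_pos _) (h.N_dvd X.tOk hy hyt hq)).trans (pml_le_Kc X.S)
  refine ⟨data_Wld X.ok X.lg Y hC, data_WOk X.ok Y X.fine hC ?_ hdep hN,
    fun j => data_fine X.ok Y ?_ j, fun p hp r hr r' hr' e => h.rgh_eq X.tOk hy hp hr hr' e⟩
  · intro r hr
    have h1 := h.self.sub (subt_items y τ q hr)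
    rw [X.items] at h1
    rw [X.hS]; exact h1
  · have hd0 : 0 < X.c.d1 := by rw [X.d1]; exact N.hd1 p0 X.ψ X.S
    have h1 : (((mpc y τ q * pml y) * u.B : ℕ) : ℝ) ≤ Kc X.S := by exact_mod_cast hN
    have h2 : (u.B : ℝ) * X.c.d1 * ((mpc y τ q * pml y : ℕ) : ℝ) =
        X.c.d1 * (((mpc y τ q * pml y) * u.B : ℕ) : ℝ) := by push_cast; ring
    rw [h2]
    exact (mul_le_mul_of_nonneg_left h1 hd0.le).trans hd1

/-- **THE MAJORANT OF AN ITEM OF A CONTEXT**, any function below the item sum of the cut of the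
flat family -/
theorem ctx_itemF (h : NDt X.par (w X.ψ) X.c.t u τ) (Y : Finset (ℕ × ℕ × Finset ℕ)) {y dm K V0 : ℕ}
    (hy : y ≤ u.n) (hyt : y ≤ top X.S) {q : ℕ} (hq : q ∈ τ.items)
    (hdep : ∀ p ∈ cols (subt y τ q), X.c.wp.dep p ≤ dm)
    (hd1 : X.c.d1 * Kc X.S ≤ 1) (hqS : q ∈ X.S')
    {f : X.c.Lam → ℤ → ℝ} (hf0 : ∀ j : X.c.Lam, j.1.1 ∉ X.S' → ∀ a, f j a = 0)
    (hf1 : ∀ j a, f j a ≤ 1) (hfW : ∀ j : X.c.Lam, Wt (j.1.1 / pp X.c.t j.1.1) (f j))
    (E : ℕ → Prop)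
    (hper : ∀ j : X.c.Lam, j.1.1 ∈ (subt y τ q).items → j.1.1 ∈ X.S' → mate u τ y q j.1.1 →
      ∀ a, f j (a + vN X.c.t y E (u.A * ppc y τ q) j.1.1) = f j a)
    (hK : 0 < K)
    (hV : ∀ r ∈ (subt y τ q).items, r ∈ X.S' → mate u τ y q r →
      vN X.c.t y E (u.A * ppc y τ q) r ≤ V0) {E0 : ℝ} (hE0 : 1 / 2 ≤ E0)
    (hR : ∀ r ∈ (subt y τ q).items, r ∈ X.S' → mate u τ y q r → (u.B : ℝ) * X.c.rr r ≤ E0)
    (homc : OmCA (fl X Y f) X.c.wp (subt y τ q) dm (mpc y τ q) u.B (u.A * ppc y τ q)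
      (mpc y τ q * pml y) X.c.rr (fun r => rgh y (r / (u.A * ppc y τ q))) q X.S')
    {F : ℝ → ℝ} (hFle : ∀ x, F x ≤ Fq (fl X Y f) (u.B * mpc y τ q) (u.A * ppc y τ q)
      (subt y τ q) (mpc y τ q) q ((ppc y τ q : ℕ) * x)) :
    IZ2 F (u.B * X.c.rr q) K (vN X.c.t y E (u.A * ppc y τ q) q)
      (q / u.A) (u.B * X.c.γ)
      (I (Fq (fl X Y f) u.B u.A τ 1 q) / prfc y τ q +
          60 * E0 * (2 ^ y : ℕ) * ((mpc y τ q * pml y : ℕ) : ℝ) * (V0 : ℝ) ^ 2 *
            (2 ^ (dm + 2) + 1) * √K *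
            (2 * (3 * (u.B * X.c.rr q)) / (K * vN X.c.t y E (u.A * ppc y τ q) q))) (2 * E0) := by
  classical
  obtain ⟨h1, h2, h3, h4⟩ := ctx_step' h Y hy hyt hq hdep hd1
  have hab : ∀ j, (fl X Y f).al j ≤ (fl X Y f).be j := fun j =>
    X.ok.bpm _ (Cf.mem_S j) (Cf.r_pos j) (Nat.le_succ _)
  have hrr : ∀ r, 0 < X.c.rr r := fun r => by
    unfold Cf.rr; split_ifs with hr
    · exact hr
    · exact one_pos
  have hW : (fl X Y f).Wts u.A τ := h.wts (D := fl X Y f) fun j _ => hfW j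
  refine item_step2F_al (D := fl X Y f) (Al := X.S') hf0 (P := X.c.wp) (stt := X.c.st)
    (rtt := ret X.c.t) (C := cols (subt y τ q)) (dm := dm) (N := u.n)
    (u := uN X.c.t y E (u.A * ppc y τ q) q) (NR := 2 ^ y)
    (rp := fun r => rgh y (r / (u.A * ppc y τ q)))
    (v := vN X.c.t y E (u.A * ppc y τ q)) (ctx_Cov X Y).flat hf1 hab h1.flat X.fine.ρ0 h.B_pos
    h.fit hW h.self.ok hy hq hqS h2.flat h3 (Finset.Subset.refl _) h4 hK uN_pos ?_
    (fun r hr hrS e => hV r hr hrS e) (fun j hj hjS e => hper j hj hjS e) hE0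
    (fun r hr hrS e => ⟨hrr r, hR r hr hrS e⟩) ?_ homc hFle
  · intro r hr _ e
    exact h.uv X.tOk hy E hq hr e
  · refine le_trans (Finset.card_le_card fun r hr => ?_) (h.card_mates hy q
      (rgh y (q / (u.A * ppc y τ q))))
    obtain ⟨a1, a2⟩ := Finset.mem_filter.1 hr
    exact Finset.mem_filter.2 ⟨a1, a2.2⟩

end ctx

end Crest.Agent.R4.Step588
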