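import Crest.Agent.R4.StepData189

/-!
R4 (S0004), helper463: **(R2) of T9'**: raised radii of alive items (`q ∈ S'`).

* `tot_ge` : `φ(m)/m ≥ c / log N` if the primes `≥ N` of `m` are retained primes of a pruned item.
* `ctx_mass` : masses of the nodes of the tree of a context.
* `rad_node` : `u.B ψ q ≤ CT log n · M` (`M` = bound of the mass of the node).
* `RdOk`, `ctx_rd` : at every node, for alive `q`: `u.B · rr q ≤ (log n)^(B + c2 + 2)` for all `n > p0`
  with `u.n ≤ n`; non-leaf: `u.B · rr q ≤ (log tp)^(c2 + 2)`.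
* `All_subt'` : the level `m` of the cut node satisfies `m ≤ u.n` and `m ≤ b` for all columns `b ≥ y`
  (missing tie or retained) of the item.
* `rd_cut`, `rd_cut_b` : the same at the cut node.
-/

set_option autoImplicit false
set_option linter.unusedSectionVars false
set_option linter.unusedVariables false

namespace Crest.Agent.R4.Step588

open Crest.Agent.R4.Cnt588 Crest.Agent.R4.PrunePar33 Crest.Agent.R4.Data758
open Crest.Agent.R4.W363 Crest.Agent.R4.Item758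
open Crest.Agent.R4.Bld532 (NS All NodeOk Bk)
open Crest.Agent.R4.Skel189 (Ctx top Num)

/-! ### `φ(m)/m` -/

lemma totient_div_prod {m : ℕ} (hw : 0 < m) :
    (m.totient : ℝ) / m = ∏ p ∈ m.primeFactors, (1 - 1 / (p : ℝ)) := by
  have h := Nat.totient_mul_prod_primeFactors m
  have h2 : ∏ p ∈ m.primeFactors, (1 - 1 / (p : ℝ)) =
      (∏ p ∈ m.primeFactors, ((p : ℝ) - 1)) / ∏ p ∈ m.primeFactors, (p : ℝ) := by
    rw [← Finset.prod_div_distrib]
    refine Finset.prod_congr rfl fun p hp => ?_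
    have := (Nat.prime_of_mem_primeFactors hp).pos
    field_simp
  have h3 : (∏ p ∈ m.primeFactors, ((p : ℝ) - 1)) = ((∏ p ∈ m.primeFactors, (p - 1) : ℕ) : ℝ) := by
    rw [Nat.cast_prod]
    refine Finset.prod_congr rfl fun p hp => ?_
    have := (Nat.prime_of_mem_primeFactors hp).one_le
    push_cast [this]; ring
  have h4 : (∏ p ∈ m.primeFactors, (p : ℝ)) = ((∏ p ∈ m.primeFactors, p : ℕ) : ℝ) := by
    rw [Nat.cast_prod]
  have h5 : (0 : ℝ) < ((∏ p ∈ m.primeFactors, p : ℕ) : ℝ) := by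
    have : 0 < ∏ p ∈ m.primeFactors, p := Finset.prod_pos fun p hp =>
      (Nat.prime_of_mem_primeFactors hp).pos
    exact_mod_cast this
  have hw' : (0 : ℝ) < m := by exact_mod_cast hw
  rw [h2, h3, h4, div_eq_div_iff hw'.ne' h5.ne']
  have h6 : ((Nat.totient m * ∏ p ∈ m.primeFactors, p : ℕ) : ℝ) =
      ((m * ∏ p ∈ m.primeFactors, (p - 1) : ℕ) : ℝ) := by exact_mod_cast h
  push_cast at h6 ⊢
  linarith

lemma one_sub_sum_le_pr {S : Finset ℕ} (f : ℕ → ℝ) (h0 : ∀ p ∈ S, 0 ≤ f p)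
    (h1 : ∀ p ∈ S, f p ≤ 1) : 1 - ∑ p ∈ S, f p ≤ ∏ p ∈ S, (1 - f p) := by
  classical
  induction S using Finset.induction_on with
  | empty => simp
  | insert p S hp ih =>
    rw [Finset.sum_insert hp, Finset.prod_insert hp]
    have ih' := ih (fun q hq => h0 q (Finset.mem_insert_of_mem hq))
      (fun q hq => h1 q (Finset.mem_insert_of_mem hq))
    have hp0 := h0 p (Finset.mem_insert_self _ _)
    have hp1 := h1 p (Finset.mem_insert_self _ _)
    have hs0 : 0 ≤ ∑ q ∈ S, f q :=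
      Finset.sum_nonneg fun q hq => h0 q (Finset.mem_insert_of_mem hq)
    have := mul_le_mul_of_nonneg_left ih' (show 0 ≤ 1 - f p by linarith)
    nlinarith

/-- the constant -/
noncomputable def CT : ℝ := 4 * Real.exp (22 / Real.log 2) / Real.log 2

lemma CT_pos : 0 < CT := by
  unfold CT
  have := Real.log_pos one_lt_two
  positivity

/-- **`φ(m)/m ≥ 1 / (CT log N)`** if the primes `≥ N` of `m` are retained primes of a pruned item -/
theorem tot_ge (B C : ℝ) (hB : C + 4 ≤ B) : ∃ p₁ : ℕ, ∀ p0 ≥ p₁, ∀ (t : IT) (q : ℕ),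
    Pr t p0 C B q → (∀ l ∈ rt t q, l.Prime) → ∀ N : ℕ, p0 < N → ∀ m : ℕ, 0 < m →
      (∀ l : ℕ, l.Prime → l ∣ m → N ≤ l → l ∈ rt t q) →
      1 ≤ CT * Real.log N * ((m.totient : ℝ) / m) := by
  classical
  obtain ⟨p1, h1⟩ := Pr_tails B C 0 1 1 (by norm_num) le_rfl (by norm_num) (by linarith)
  refine ⟨p1 + ⌈Real.exp 2⌉₊ + 3, fun p0 hp0 t q hq hpr N hN m hm hl => ?_⟩
  obtain ⟨-, -, h2⟩ := h1 p0 (by omega) t q hq (N - 1) (by omega)
  have hexp : Real.exp 2 ≤ ((N - 1 : ℕ) : ℝ) := by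
    have h5 : Real.exp 2 ≤ ⌈Real.exp 2⌉₊ := Nat.le_ceil _
    have h6 : ((⌈Real.exp 2⌉₊ : ℕ) : ℝ) ≤ ((N - 1 : ℕ) : ℝ) := by
      have : ⌈Real.exp 2⌉₊ ≤ N - 1 := by omega
      exact_mod_cast this
    linarith
  have hN1 : (0 : ℝ) < ((N - 1 : ℕ) : ℝ) := lt_of_lt_of_le (Real.exp_pos 2) hexp
  have hlog : 2 ≤ Real.log ((N - 1 : ℕ) : ℝ) := by rwa [Real.le_log_iff_exp_le hN1]
  have hinv : Real.log ((N - 1 : ℕ) : ℝ) ^ (-(1:ℝ)) ≤ 1 / 2 := by
    rw [Real.rpow_neg_one, inv_eq_one_div]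
    exact one_div_le_one_div_of_le (by norm_num) hlog
  set F2 := (rt t q).filter (fun b => N ≤ b) with hF2
  have hsum : ∑ l ∈ F2, 1 / (l : ℝ) ≤ 1 / 2 := by
    refine le_trans ?_ (h2.trans hinv)
    refine le_of_eq ?_
    have e : F2 = (t.sp q ∪ t.uq q).filter (fun b => N - 1 < b) := by
      rw [hF2]
      unfold rt
      refine Finset.filter_congr fun b _ => ?_
      omega
    rw [e]
    refine Finset.sum_congr rfl fun b _ => ?_
    rw [Real.rpow_zero]
  have hF2p : ∀ l ∈ F2, l.Prime := fun l h => hpr l (Finset.mem_filter.1 h).1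
  have hpYp : ∀ l ∈ pY 2 N, l.Prime := fun l h => (mem_pY.1 h).2
  have hsub : m.primeFactors ⊆ pY 2 N ∪ F2 := by
    intro l h
    have hp := Nat.prime_of_mem_primeFactors h
    have hd := Nat.dvd_of_mem_primeFactors h
    rw [Finset.mem_union]
    by_cases hlN : l < N
    · exact Or.inl (mem_pY.2 ⟨⟨hp.two_le, hlN⟩, hp⟩)
    · exact Or.inr (Finset.mem_filter.2 ⟨hl l hp hd (not_lt.1 hlN), not_lt.1 hlN⟩)
  have hdisj : Disjoint (pY 2 N) F2 := by
    rw [Finset.disjoint_left]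
    intro l h h'
    have h3 := (mem_pY.1 h).1.2
    have h4 := (Finset.mem_filter.1 h').2
    omega
  have h3 : ∏ l ∈ pY 2 N ∪ F2, (1 - 1 / (l : ℝ)) ≤ ∏ l ∈ m.primeFactors, (1 - 1 / (l : ℝ)) :=
    pr_anti (fun l h => (Finset.mem_union.1 h).elim (hpYp l) (hF2p l)) hsub
  rw [Finset.prod_union hdisj] at h3
  have h4 := prod_pY_ge (y := 2) (N := N) le_rfl (by omega)
  have h5 : 1 / 2 ≤ ∏ l ∈ F2, (1 - 1 / (l : ℝ)) := by
    refine le_trans ?_ (one_sub_sum_le_pr (fun l : ℕ => 1 / (l : ℝ)) (fun l _ => by positivity) fun l h => ?_)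
    · linarith
    · have h6 : (1 : ℝ) ≤ l := by exact_mod_cast (hF2p l h).one_lt.le
      rw [div_le_one (by linarith)]; exact h6
  rw [totient_div_prod hm]
  have hl2 : 0 < Real.log 2 := Real.log_pos one_lt_two
  have hNR : (2 : ℝ) ≤ N := by exact_mod_cast (by omega : 2 ≤ N)
  have hlN : 0 < Real.log N := Real.log_pos (by linarith)
  have h6 : 0 ≤ 1 / 2 * (Real.exp (-(22 / Real.log 2)) * (Real.log (2 : ℕ) / Real.log N)) := by
    have : 0 ≤ Real.log ((2 : ℕ) : ℝ) := Real.log_natCast_nonneg 2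
    positivity
  have h7 : 1 / 2 * (Real.exp (-(22 / Real.log 2)) * (Real.log (2 : ℕ) / Real.log N)) * (1 / 2) ≤
      ∏ l ∈ m.primeFactors, (1 - 1 / (l : ℝ)) :=
    (mul_le_mul h4 h5 (by norm_num) (h6.trans h4)).trans h3
  have h8 : 0 ≤ CT * Real.log N := mul_nonneg CT_pos.le hlN.le
  refine le_trans (le_of_eq ?_) (mul_le_mul_of_nonneg_left h7 h8)
  unfold CT
  rw [Real.exp_neg]
  have he : Real.exp (22 / Real.log 2) ≠ 0 := (Real.exp_pos _).ne'
  have hl2' : Real.log 2 ≠ 0 := hl2.ne'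
  push_cast
  field_simp
  norm_num

/-! ### one node -/

/-- **raised radius at a node**, in terms of the mass of the node -/
theorem rad_node (B C : ℝ) (hB : C + 4 ≤ B) : ∃ p₁ : ℕ, ∀ p0 ≥ p₁,
    ∀ (P : Bld532.Par) (ψ : ℕ → ℝ), (∀ q, 0 ≤ ψ q) → ∀ (t' : IT) (u : NS) (τ : IT),
      NDt P (Soft104.w ψ) t' u τ → ∀ q ∈ τ.items, Pr t' p0 C B q →
      (∀ l ∈ rt t' q, l.Prime) → ∀ n : ℕ, p0 < n → (∀ l : ℕ, l.Prime → n ≤ l → u.n ≤ l) →
      ∀ M : ℝ, u.c * Ws (Soft104.w ψ) τ.items ≤ M →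
      (u.B : ℝ) * ψ q ≤ CT * Real.log n * M := by
  obtain ⟨p1, h1⟩ := tot_ge B C hB
  refine ⟨p1, fun p0 hp0 P ψ hψ t' u τ h q hq hpr hrt n hn hlev M hM => ?_⟩
  have hsf := h.sq q (h.self.sub hq)
  have hq0 : 0 < q := Nat.pos_of_ne_zero hsf.ne_zero
  have hk := h.bk
  have hd : u.A ∣ q := hk.dvd q hq
  have hA0 : 0 < u.A := Nat.pos_of_ne_zero hk.sfA.ne_zero
  have hAR : (0:ℝ) < u.A := by exact_mod_cast hA0
  have htA : (0:ℝ) < (u.A.totient : ℝ) := by exact_mod_cast Nat.totient_pos.2 hA0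
  have hc0 : 0 ≤ u.c := by
    have h1 : 0 ≤ u.c * (u.A.totient : ℝ) := by rw [hk.ceq]; positivity
    by_contra hneg
    push Not at hneg
    nlinarith
  have hw0 : ∀ q, 0 ≤ Soft104.w ψ q := fun q => by
    have := hψ q
    unfold Soft104.w; positivity
  have hwpos : 0 < q / u.A := Nat.div_pos (Nat.le_of_dvd hq0 hd) hA0
  have key := h1 p0 hp0 t' q hpr hrt n hn (q / u.A) hwpos fun l hl1 hl2 hl3 =>
    h.self.ge q hq l hl1 (hlev l hl1 hl3) hl2
  have e1 : (u.B : ℝ) * ψ q * (((q / u.A).totient : ℝ) / ((q / u.A : ℕ) : ℝ)) =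
      u.c * Soft104.w ψ q := by
    obtain ⟨v, hv⟩ := hd
    subst hv
    rw [Nat.mul_div_cancel_left _ hA0]
    have hcop : Nat.Coprime u.A v := Nat.coprime_of_squarefree_mul hsf
    have hv0 : 0 < v := Nat.pos_of_mul_pos_left hq0
    have hvR : (v : ℝ) ≠ 0 := by exact_mod_cast hv0.ne'
    unfold Soft104.w
    rw [Nat.totient_mul hcop]
    have h4 : u.c * ((u.A.totient : ℝ) / u.A) = u.B := by
      rw [← mul_div_assoc, hk.ceq]
      field_simp
    rw [← h4]
    push_cast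
    field_simp
  have h2 : u.c * Soft104.w ψ q ≤ M := by
    refine le_trans (mul_le_mul_of_nonneg_left ?_ hc0) hM
    unfold Ws
    exact Finset.single_le_sum (f := fun q => Soft104.w ψ q) (fun q _ => hw0 q) hq
  have hBψ : 0 ≤ (u.B : ℝ) * ψ q := mul_nonneg (Nat.cast_nonneg _) (hψ q)
  have hCl : 0 ≤ CT * Real.log n := mul_nonneg CT_pos.le (Real.log_natCast_nonneg n)
  calc (u.B : ℝ) * ψ q = (u.B : ℝ) * ψ q * 1 := (mul_one _).symm
    _ ≤ (u.B : ℝ) * ψ q * (CT * Real.log n * (((q / u.A).totient : ℝ) / ((q / u.A : ℕ) : ℝ))) :=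
        mul_le_mul_of_nonneg_left key hBψ
    _ = CT * Real.log n * ((u.B : ℝ) * ψ q *
          (((q / u.A).totient : ℝ) / ((q / u.A : ℕ) : ℝ))) := by ring
    _ = CT * Real.log n * (u.c * Soft104.w ψ q) := by rw [e1]
    _ ≤ CT * Real.log n * M := mul_le_mul_of_nonneg_left h2 hCl

/-! ### the level of the cut node -/

/-- the columns on the path of an item where it is a missing tie or retained are below `n` -/
lemma pc_lt {t : IT} {n : ℕ} (hO : t.Ok n) {q b : ℕ} (h : b ∈ t.mt q ∪ rt t q) : b < n := by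
  rcases Finset.mem_union.1 h with h | h
  · exact (Bld532.mt_lt t n hO q b h).2
  · revert n
    induction t with
    | leaf S => intro n _; simp [rt, IT.sp, IT.uq] at h
    | br p t₁ t₀ ih₁ ih₀ =>
      intro n hO
      by_cases hq : q ∈ t₀.items
      · have h' : b ∈ rt t₀ q := by simpa [rt, IT.sp, IT.uq, hq] using h
        exact (ih₀ (Finset.mem_union_right _ h') h' hO.2.2.2.2).trans hO.2.1
      · have h' : b ∈ rt t₁ q := by simpa [rt, IT.sp, IT.uq, hq] using h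
        exact (ih₁ (Finset.mem_union_right _ h') h' hO.2.2.2.1).trans hO.2.1
    | add p t₁ t₀ ih₁ ih₀ =>
      intro n hO
      by_cases hq : q ∈ t₀.items
      · have h' : b ∈ rt t₀ q := by simpa [rt, IT.sp, IT.uq, hq] using h
        exact (ih₀ (Finset.mem_union_right _ h') h' hO.2.2.2.2).trans hO.2.1
      · have h' : b = p ∨ b ∈ rt t₁ q := by
          simp only [rt, IT.sp, IT.uq, if_neg hq, Finset.mem_union, Finset.mem_insert] at h ⊢
          tauto
        rcases h' with rfl | h'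
        · exact hO.2.1
        · exact (ih₁ (Finset.mem_union_right _ h') h' hO.2.2.2.1).trans hO.2.1
    | up p Sp t ih =>
      intro n hO
      have h' : b = p ∨ b ∈ rt t q := by
        simp only [rt, IT.sp, IT.uq, Finset.mem_union] at h ⊢
        split_ifs at h with h1
        · rw [Finset.mem_insert] at h; tauto
        · tauto
      rcases h' with rfl | h'
      · exact hO.2.1
      · exact (ih (Finset.mem_union_right _ h') h' hO.2.2.2).trans hO.2.1

/-- **the node of the cut tree with its level**: `y ≤ m ≤ u.n`, and `m ≤ b` for every column `b ≥ y`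
where the item is a missing tie or retained -/
theorem All_subt' {Q : NS → IT → Prop} (y q : ℕ) : ∀ (t : IT) (u : NS), y ≤ u.n → t.Ok u.n →
    All Q u t → ∃ (m : ℕ) (c' : ℝ), y ≤ m ∧ m ≤ u.n ∧ (∀ b ∈ t.mt q ∪ rt t q, y ≤ b → m ≤ b) ∧
      All Q ⟨m, c', u.A * ppc y t q, u.B * mpc y t q⟩ (subt y t q) := by
  intro t
  induction t with
  | leaf S =>
    intro u hy _ h
    refine ⟨u.n, u.c, hy, le_rfl, fun b hb => by simp [rt, IT.mt, IT.sp, IT.uq] at hb, ?_⟩
    have e1 : ppc y (.leaf S) q = 1 := rfl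
    have e2 : mpc y (.leaf S) q = 1 := rfl
    rw [e1, e2, mul_one, mul_one]
    exact h
  | br p t₁ t₀ ih₁ ih₀ =>
    intro u hy hO h
    have hO' : IT.Ok (p + 1) (.br p t₁ t₀) := ⟨hO.1, Nat.lt_succ_self p, hO.2.2⟩
    by_cases hp : p < y
    · rw [subt_br_lt hp, ppc_br_lt hp, mpc_br_lt hp, mul_one, mul_one]
      refine ⟨u.n, u.c, hy, le_rfl, fun b hb hyb => ?_, h⟩
      have := pc_lt hO' hb
      omega
    · by_cases hq : q ∈ t₀.items
      · rw [subt_br0 hp hq, ppc_br0 hp hq, mpc_br0 hp hq]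
        obtain ⟨m, c', h1, h2, h3, hm⟩ := ih₀ ⟨p, u.c * p, u.A, u.B * p⟩ (not_lt.1 hp)
          hO.2.2.2.2 h.2.2
        refine ⟨m, c', h1, h2.trans hO.2.1.le, fun b hb hyb => ?_, ?_⟩
        · have hb' : b = p ∨ b ∈ t₀.mt q ∪ rt t₀ q := by
            simp only [rt, IT.mt, IT.sp, IT.uq, if_pos hq, Finset.mem_union,
              Finset.mem_insert] at hb ⊢
            tauto
          rcases hb' with rfl | hb'
          · exact h2
          · exact h3 b hb' hyb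
        · have e : u.B * (p * mpc y t₀ q) = u.B * p * mpc y t₀ q := by ring
          rw [e]; exact hm
      · rw [subt_br1 hp hq, ppc_br1 hp hq, mpc_br1 hp hq]
        obtain ⟨m, c', h1, h2, h3, hm⟩ := ih₁ ⟨p, u.c / (1 - 1 / (p : ℝ)), u.A * p, u.B⟩
          (not_lt.1 hp) hO.2.2.2.1 h.2.1
        refine ⟨m, c', h1, h2.trans hO.2.1.le, fun b hb hyb => ?_, ?_⟩
        · have hb' : b ∈ t₁.mt q ∪ rt t₁ q := by
            simpa only [rt, IT.mt, IT.sp, IT.uq, if_neg hq] using hb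
          exact h3 b hb' hyb
        · have e : u.A * (p * ppc y t₁ q) = u.A * p * ppc y t₁ q := by ring
          rw [e]; exact hm
  | add p t₁ t₀ ih₁ ih₀ =>
    intro u hy hO h
    have hO' : IT.Ok (p + 1) (.add p t₁ t₀) := ⟨hO.1, Nat.lt_succ_self p, hO.2.2⟩
    by_cases hp : p < y
    · rw [subt_add_lt hp, ppc_add_lt hp, mpc_add_lt hp, mul_one, mul_one]
      refine ⟨u.n, u.c, hy, le_rfl, fun b hb hyb => ?_, h⟩
      have := pc_lt hO' hb
      omega
    · by_cases hq : q ∈ t₀.items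
      · rw [subt_add0 hp hq, ppc_add0 hp hq, mpc_add0 hp hq]
        obtain ⟨m, c', h1, h2, h3, hm⟩ := ih₀ ⟨p, u.c, u.A, u.B⟩ (not_lt.1 hp) hO.2.2.2.2 h.2.2
        refine ⟨m, c', h1, h2.trans hO.2.1.le, fun b hb hyb => ?_, hm⟩
        have hb' : b ∈ t₀.mt q ∪ rt t₀ q := by
          simpa only [rt, IT.mt, IT.sp, IT.uq, if_pos hq] using hb
        exact h3 b hb' hyb
      · rw [subt_add1 hp hq, ppc_add1 hp hq, mpc_add1 hp hq]
        obtain ⟨m, c', h1, h2, h3, hm⟩ := ih₁ ⟨p, u.c, u.A, u.B⟩ (not_lt.1 hp) hO.2.2.2.1 h.2.1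
        refine ⟨m, c', h1, h2.trans hO.2.1.le, fun b hb hyb => ?_, hm⟩
        have hb' : b = p ∨ b ∈ t₁.mt q ∪ rt t₁ q := by
          simp only [rt, IT.mt, IT.sp, IT.uq, if_neg hq, Finset.mem_union,
            Finset.mem_insert] at hb ⊢
          tauto
        rcases hb' with rfl | hb'
        · exact h2
        · exact h3 b hb' hyb
  | up p Sp t ih =>
    intro u hy hO h
    have hO' : IT.Ok (p + 1) (.up p Sp t) := ⟨hO.1, Nat.lt_succ_self p, hO.2.2⟩
    by_cases hp : p < y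
    · rw [subt_up_lt hp, ppc_up_lt hp, mpc_up_lt hp, mul_one, mul_one]
      refine ⟨u.n, u.c, hy, le_rfl, fun b hb hyb => ?_, h⟩
      have := pc_lt hO' hb
      omega
    · rw [subt_up hp, ppc_up hp, mpc_up hp]
      obtain ⟨m, c', h1, h2, h3, hm⟩ := ih ⟨p, u.c, u.A, u.B⟩ (not_lt.1 hp) hO.2.2.2 h.2
      refine ⟨m, c', h1, h2.trans hO.2.1.le, fun b hb hyb => ?_, hm⟩
      have hb' : b = p ∨ b ∈ t.mt q ∪ rt t q := by
        simp only [rt, IT.mt, IT.sp, IT.uq, Finset.mem_union] at hb ⊢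
        split_ifs at hb with h4
        · rw [Finset.mem_insert] at hb; tauto
        · tauto
      rcases hb' with rfl | hb'
      · exact h2
      · exact h3 b hb' hyb

/-! ### contexts -/

/-- the mass of a non-leaf node is at most `hi`, its column is `> p0` and all the primes below the
level are at most the column -/
lemma nodeOk_hi {P : Bld532.Par} {W : ℕ → ℝ} {u : NS} {τ : IT} (h : NodeOk P W u τ)
    (hl : ¬ WalkIT579.isL τ) : u.c * Ws W τ.items ≤ P.hi (WalkIT579.tp τ) ∧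
      P.p0 < WalkIT579.tp τ ∧ WalkIT579.tp τ < u.n ∧
      ∀ r : ℕ, r.Prime → r < u.n → r ≤ WalkIT579.tp τ := by
  cases τ with
  | leaf S => exact absurd trivial hl
  | br p t₁ t₀ => exact ⟨h.2.2.2.2.2.2.2.2.1, h.2.2.1, h.2.1, h.2.2.2.1⟩
  | add b t₁ t₀ => exact ⟨h.2.2.2.2.2.2.2.2.1, h.2.2.1, h.2.1, h.2.2.2.1⟩
  | up b Sp t => exact ⟨h.2.2.2.2.2.2.2.1, h.2.2.1, h.2.1, h.2.2.2.1⟩

section ctx
open Crest.Agent.R4.Skel189

variable {N : Skel189.Num} {γ : ℝ} {p0 P₀ : ℕ}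

/-- **masses of the nodes of a context** -/
theorem ctx_mass (X : Ctx N γ p0 P₀) (hP : 2 ≤ P₀) (h2 : 2 ≤ p0) :
    All (fun s t => 0 < s.c ∧ s.c * Ws (Soft104.w X.ψ) t.items ≤
      3 * Real.log s.n ^ (N.B + N.c2)) ⟨top X.S, 1, 1, 1⟩ X.c.t := by
  have hB0 : 0 ≤ N.B := by have := N.hB; have := N.hC1; have := N.hc2; linarith
  have hw0 : ∀ q, 0 ≤ Soft104.w X.ψ q := fun q => by
    have := X.sys.nonneg q
    unfold Soft104.w; positivity
  have htop : 3 ≤ top X.S := by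
    have h := X.sys.mass_lo
    have hne : X.S.Nonempty := by
      rw [Finset.nonempty_iff_ne_empty]
      rintro e
      rw [e, Finset.sum_empty] at h
      norm_num at h
    obtain ⟨q, hq⟩ := hne
    have h1 : q ≤ X.S.sup id := Finset.le_sup (f := id) hq
    have h2 := X.sys.large q hq
    unfold top
    omega
  have hmass : ∑ q ∈ X.S, Soft104.w X.ψ q ≤ 1 := by
    have h := X.sys.node 1 one_pos
    rwa [Max709.NM_one] at h
  have h1 : (1 : ℝ) ≤ Real.log (top X.S) ^ (N.B + N.c2) :=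
    Real.one_le_rpow (Bld532.one_le_log_nat htop) (by have := N.hc2; linarith)
  have hroot : Ws (Soft104.w X.ψ) X.S ≤ 3 * Real.log (top X.S) ^ (N.B + N.c2) := by
    unfold Ws
    linarith
  have h3 := Bld532.par_mass N.B N.C1 N.c2 p0 hB0 h2 (Soft104.w X.ψ) hw0 (top X.S) (top X.S) X.S
    hroot 1 1
  rw [X.ht]
  exact h3

/-- **raised radii of the alive items at a node** -/
structure RdOk (X : Ctx N γ p0 P₀) (u : NS) (τ : IT) : Prop where
  /-- any node -/
  gen : ∀ q ∈ τ.items, q ∈ X.S' → ∀ n : ℕ, p0 < n → u.n ≤ n →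
    (u.B : ℝ) * X.c.rr q ≤ Real.log n ^ (N.B + N.c2 + 2)
  /-- non-leaf nodes -/
  col : ¬ WalkIT579.isL τ → ∀ q ∈ τ.items, q ∈ X.S' →
    (u.B : ℝ) * X.c.rr q ≤ Real.log (WalkIT579.tp τ) ^ (N.c2 + 2)

lemma ctx_rr (X : Ctx N γ p0 P₀) {q : ℕ} (hq : q ∈ X.S') : X.c.rr q = X.ψ q / 2 := by
  unfold Cf.rr
  rw [if_pos (X.rpos hq), X.hr]

/-- **(R2)**: raised radii of the alive items at all the nodes of a context -/
theorem ctx_rd (N : Skel189.Num) : ∃ p₁ : ℕ, ∀ p0 ≥ p₁, ∀ (γ : ℝ) (P₀ : ℕ), 2 ≤ P₀ →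
    ∀ X : Ctx N γ p0 P₀, All (RdOk X) ⟨top X.S, 1, 1, 1⟩ X.c.t := by
  have hB1 := N.hB
  have hC1 := N.hC1
  have hc2 := N.hc2
  obtain ⟨p1, h1⟩ := rad_node N.B (N.C1 + N.c2) (by linarith)
  refine ⟨p1 + ⌈Real.exp (2 * CT + 2)⌉₊ + 3, fun p0 hp0 γ P₀ hP X => ?_⟩
  have hlogp : 2 * CT + 2 ≤ Real.log p0 := by
    have h5 : Real.exp (2 * CT + 2) ≤ ⌈Real.exp (2 * CT + 2)⌉₊ := Nat.le_ceil _
    have h6 : ((⌈Real.exp (2 * CT + 2)⌉₊ : ℕ) : ℝ) ≤ p0 := by
      have : ⌈Real.exp (2 * CT + 2)⌉₊ ≤ p0 := by omega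
      exact_mod_cast this
    have hp : (0 : ℝ) < p0 := lt_of_lt_of_le (Real.exp_pos _) (h5.trans h6)
    rw [Real.le_log_iff_exp_le hp]
    linarith
  have hp0R : (0 : ℝ) < p0 := by exact_mod_cast (by omega : 0 < p0)
  have hCT := CT_pos
  have hlogn : ∀ n : ℕ, p0 < n → 2 * CT + 2 ≤ Real.log n := fun n hn =>
    hlogp.trans (Real.log_le_log hp0R (by exact_mod_cast hn.le))
  have hall := (ctx_NDt X).and (ctx_mass X hP (by omega))
  refine All.mono (fun u τ hh => ?_) hall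
  obtain ⟨hN, hc, hM⟩ := hh
  have hpr : ∀ q, q ∈ X.S' → Pr X.c.t p0 (N.C1 + N.c2) N.B q := fun q hq => by
    rw [X.ht]; exact X.prn.pr q hq
  have hrt : ∀ q, ∀ l ∈ rt X.c.t q, l.Prime := fun q l hl => (rt_prime X.c.t X.tOk q l hl).1
  refine ⟨fun q hq hq' n hn hun => ?_, fun hl q hq hq' => ?_⟩
  · have hL := hlogn n hn
    have hL0 : 0 < Real.log n := by linarith
    have h2 : u.c * Ws (Soft104.w X.ψ) τ.items ≤ 3 * Real.log n ^ (N.B + N.c2) := by
      refine hM.trans (mul_le_mul_of_nonneg_left ?_ (by norm_num))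
      refine Real.rpow_le_rpow (Real.log_natCast_nonneg _) ?_ (by linarith)
      rcases Nat.eq_zero_or_pos u.n with h0 | h0
      · rw [h0, Nat.cast_zero, Real.log_zero]; exact hL0.le
      · exact Real.log_le_log (by exact_mod_cast h0) (by exact_mod_cast hun)
    have h3 := h1 p0 (by omega) X.par X.ψ X.sys.nonneg X.c.t u τ hN q hq (hpr q hq') (hrt q) n hn
      (fun l _ hnl => hun.trans hnl) _ h2
    rw [ctx_rr X hq']
    have e1 : Real.log n ^ (N.B + N.c2 + 2) =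
        Real.log n ^ (N.B + N.c2) * (Real.log n * Real.log n) := by
      rw [Real.rpow_add hL0, show (2 : ℝ) = ((2 : ℕ) : ℝ) by norm_num, Real.rpow_natCast]
      ring
    have hY : 0 < Real.log n ^ (N.B + N.c2) := Real.rpow_pos_of_pos hL0 _
    rw [e1]
    have h4 : (u.B : ℝ) * (X.ψ q / 2) ≤ CT * Real.log n * (3 * Real.log n ^ (N.B + N.c2)) / 2 := by
      linarith
    refine h4.trans ?_
    have h5 : CT * Real.log n * (3 * Real.log n ^ (N.B + N.c2)) / 2 =
        Real.log n ^ (N.B + N.c2) * (Real.log n * (3 / 2 * CT)) := by ring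
    rw [h5]
    refine mul_le_mul_of_nonneg_left ?_ hY.le
    refine mul_le_mul_of_nonneg_left ?_ hL0.le
    linarith
  · obtain ⟨k1, k2, k3, k4⟩ := nodeOk_hi hN.self.node hl
    set p := WalkIT579.tp τ with hp
    have k2' : p0 < p := k2
    have k1' : u.c * Ws (Soft104.w X.ψ) τ.items ≤ Real.log p ^ N.c2 := k1
    have hL := hlogn p k2'
    have hL0 : 0 < Real.log p := by linarith
    have h3 := h1 p0 (by omega) X.par X.ψ X.sys.nonneg X.c.t u τ hN q hq (hpr q hq') (hrt q)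
      (p + 1) (by omega) (fun l hl1 hnl => by
        by_contra hlt
        have := k4 l hl1 (not_le.1 hlt)
        omega) _ k1'
    have hlog2 : Real.log ((p + 1 : ℕ) : ℝ) ≤ 2 * Real.log p := by
      have hp2 : (2 : ℝ) ≤ p := by exact_mod_cast (by omega : 2 ≤ p)
      have h5 : ((p + 1 : ℕ) : ℝ) ≤ (p : ℝ) ^ 2 := by push_cast; nlinarith
      have h6 : (0 : ℝ) < ((p + 1 : ℕ) : ℝ) := by push_cast; linarith
      have h7 := Real.log_le_log h6 h5
      rw [Real.log_pow] at h7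
      exact_mod_cast h7
    rw [ctx_rr X hq']
    have e1 : Real.log p ^ (N.c2 + 2) =
        Real.log p ^ N.c2 * (Real.log p * Real.log p) := by
      rw [Real.rpow_add hL0, show (2 : ℝ) = ((2 : ℕ) : ℝ) by norm_num, Real.rpow_natCast]
      ring
    have hY : 0 < Real.log p ^ N.c2 := Real.rpow_pos_of_pos hL0 _
    rw [e1]
    have h4 : (u.B : ℝ) * X.ψ q ≤ CT * (2 * Real.log p) * Real.log p ^ N.c2 :=
      h3.trans (mul_le_mul_of_nonneg_right (mul_le_mul_of_nonneg_left hlog2 hCT.le) hY.le)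
    have h5 : (u.B : ℝ) * (X.ψ q / 2) ≤ Real.log p ^ N.c2 * (Real.log p * CT) := by
      have e2 : CT * (2 * Real.log p) * Real.log p ^ N.c2 =
        2 * (Real.log p ^ N.c2 * (Real.log p * CT)) := by ring
      linarith
    refine h5.trans ?_
    refine mul_le_mul_of_nonneg_left ?_ hY.le
    refine mul_le_mul_of_nonneg_left ?_ hL0.le
    linarith

variable {X : Ctx N γ p0 P₀} {u : NS} {τ : IT}

/-- **(R2) at the cut node**, in terms of the level of the node -/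
theorem rd_cut (h : All (RdOk X) u τ) (hO : τ.Ok u.n) {y : ℕ} (hy : y ≤ u.n) (hn : p0 < u.n)
    {q r : ℕ} (hr : r ∈ (subt y τ q).items) (hr' : r ∈ X.S') :
    ((u.B * mpc y τ q : ℕ) : ℝ) * X.c.rr r ≤ Real.log u.n ^ (N.B + N.c2 + 2) := by
  obtain ⟨m, c', -, h2, -, h4⟩ := All_subt' y q τ u hy hO h
  exact h4.self.gen r hr hr' u.n hn h2

/-- **(R2) at the cut node**, in terms of a column `b ≥ y` of the item -/
theorem rd_cut_b (h : All (RdOk X) u τ) (hO : τ.Ok u.n) {y : ℕ} (hy : y ≤ u.n)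
    {q b r : ℕ} (hb : b ∈ τ.mt q ∪ rt τ q) (hyb : y ≤ b) (hbp : p0 < b)
    (hr : r ∈ (subt y τ q).items) (hr' : r ∈ X.S') :
    ((u.B * mpc y τ q : ℕ) : ℝ) * X.c.rr r ≤ Real.log b ^ (N.B + N.c2 + 2) := by
  obtain ⟨m, c', -, -, h3, h4⟩ := All_subt' y q τ u hy hO h
  exact h4.self.gen r hr hr' b hbp (h3 b hb hyb)

/-- **(R2) at a non-leaf cut node**: `(log y)^(c2+2)` (its column is `< y`) -/
theorem rd_cut_col (h : All (RdOk X) u τ) (hO : τ.Ok u.n) {y : ℕ} (hy : y ≤ u.n)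
    {q r : ℕ} (hl : ¬ WalkIT579.isL (subt y τ q)) (hr : r ∈ (subt y τ q).items)
    (hr' : r ∈ X.S') :
    ((u.B * mpc y τ q : ℕ) : ℝ) * X.c.rr r ≤ Real.log y ^ (N.c2 + 2) := by
  obtain ⟨m, c', -, -, -, h4⟩ := All_subt' y q τ u hy hO h
  refine (h4.self.col hl r hr hr').trans ?_
  have h1 := tp_subt_lt y q τ hl
  have hc2 := N.hc2
  refine Real.rpow_le_rpow (Real.log_natCast_nonneg _) ?_ (by linarith)
  rcases Nat.eq_zero_or_pos (WalkIT579.tp (subt y τ q)) with h0 | h0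
  · rw [h0, Nat.cast_zero, Real.log_zero]; exact Real.log_natCast_nonneg _
  · exact Real.log_le_log (by exact_mod_cast h0) (by exact_mod_cast h1.le)

/-- the root version for 464's `(R2)` -/
theorem rd_root (h : All (RdOk X) ⟨top X.S, 1, 1, 1⟩ X.c.t) {y : ℕ}
    {q b r : ℕ} (hb : b ∈ X.c.t.mt q ∪ rt X.c.t q) (hyb : y ≤ b) (hbp : p0 < b)
    (hr : r ∈ (subt y X.c.t q).items) (hr' : r ∈ X.S') :
    (mpc y X.c.t q : ℝ) * X.c.rr r ≤ Real.log b ^ (N.B + N.c2 + 2) := by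
  have hlt := pc_lt X.tOk hb
  have h1 := rd_cut_b h X.tOk (y := y) (hyb.trans hlt.le) hb hyb hbp hr hr'
  have e : (((⟨top X.S, 1, 1, 1⟩ : NS).B * mpc y X.c.t q : ℕ) : ℝ) = (mpc y X.c.t q : ℝ) := by
    show ((1 * mpc y X.c.t q : ℕ) : ℝ) = _
    rw [one_mul]
  rwa [e] at h1

end ctx

end Crest.Agent.R4.Step588
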