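import Crest.Agent.R4.StepItemZ693
import Crest.Agent.R4.NMW710

/-!
R4 (S0004), helper693, **T9', (G): high_state** (helper588 #15076, #15093, #15199; form of helper95
#15056): the item pairs of a state with `T < D`.

* `PairBd Q Cp` : a predicate "window majorant" with its pair bound (`Cp = 2` for `IZ` with `Z = 0`,
  `Cp = 36 E0` for 588's `IZ2`).
* `high_sumG`, `high_nodeQ` : the sum over the pairs of two nodes.
* `Fq_le_arc_rad`, `I_Fq_le`, `sum_IFq_le` : arcs and masses.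
* `high_stateQ` : the literal hypothesis `hHigh` of the stop theorem.
-/

set_option autoImplicit false
set_option linter.unusedSectionVars false
set_option linter.unusedVariables false
open MeasureTheory Filter

namespace Crest.Agent.R4.Step588

open Crest.Agent.R4.Tour104 Crest.Agent.R4.Tour758 Crest.Agent.R4.Avg758 Crest.Agent.R4.Clos758
open Crest.Agent.R4.ClosL758 Crest.Agent.R4.ClosG758 Crest.Agent.R4.ClosR758 Crest.Agent.R4.Lam368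
open Crest.Agent.R4.Piece464 Crest.Agent.R4.Fam464 Crest.Agent.R4.Cnt588 Crest.Agent.R4.Item758
open Crest.Agent.R4.AvgItem710 Crest.Agent.R4.Walk560 Crest.Agent.R4.NMW710 Crest.Agent.R4.DeepSt579
open Crest.Agent.R4.GInst194
open Crest.Agent.R4.Bld532 (NS)

/-! ### sums -/

theorem high_sumG {V W : Finset ℕ} {E : Finset (ℕ × ℕ)} (hE : E ⊆ V ×ˢ W) {F : ℕ × ℕ → ℝ}
    {R R' μ μ' : ℕ → ℝ} {X : ℝ} (hX : 0 ≤ X) (hR : ∀ q ∈ V, 0 ≤ R q) (hR' : ∀ r ∈ W, 0 ≤ R' r)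
    (hμ : ∀ q ∈ V, 0 ≤ μ q) (hμ' : ∀ r ∈ W, 0 ≤ μ' r)
    (hF : ∀ e ∈ E, F e ≤ μ e.1 * μ' e.2 + X * (R e.1 * R' e.2)) :
    ∑ e ∈ E, F e ≤ (∑ q ∈ V, μ q) * (∑ r ∈ W, μ' r) +
      X * ((∑ q ∈ V, R q) * ∑ r ∈ W, R' r) := by
  classical
  have h2 : ∑ e ∈ E, (μ e.1 * μ' e.2 + X * (R e.1 * R' e.2)) ≤
      ∑ e ∈ V ×ˢ W, (μ e.1 * μ' e.2 + X * (R e.1 * R' e.2)) := by
    refine Finset.sum_le_sum_of_subset_of_nonneg hE fun e he _ => ?_
    obtain ⟨hq, hr⟩ := Finset.mem_product.1 he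
    have := mul_nonneg (hμ _ hq) (hμ' _ hr)
    have := mul_nonneg hX (mul_nonneg (hR _ hq) (hR' _ hr))
    linarith
  refine (Finset.sum_le_sum hF).trans (h2.trans (le_of_eq ?_))
  rw [Finset.sum_add_distrib, ← Finset.mul_sum, Finset.sum_mul_sum, Finset.sum_mul_sum,
    ← Finset.sum_product', ← Finset.sum_product']

/-- a kind of window majorant with its pair bound -/
structure PairBd (Q : (ℝ → ℝ) → ℝ → ℕ → ℕ → ℕ → ℝ → ℝ → Prop) (Cp : ℝ) : Prop where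
  R0 : ∀ {F : ℝ → ℝ} {R : ℝ} {K v w : ℕ} {θ μ : ℝ}, Q F R K v w θ μ → 0 < R
  mu0 : ∀ {F : ℝ → ℝ} {R : ℝ} {K v w : ℕ} {θ μ : ℝ}, Q F R K v w θ μ → 0 ≤ μ
  v0 : ∀ {F : ℝ → ℝ} {R : ℝ} {K v w : ℕ} {θ μ : ℝ}, Q F R K v w θ μ → 0 < v
  pair : ∀ {F F' : ℝ → ℝ} {R R' : ℝ} {K v w K' v' w' : ℕ} {θ μ θ' μ' : ℝ} {M M' : ℕ},
    Q F R K v w θ μ → Q F' R' K' v' w' θ' μ' → 0 < M → 0 < M' →
    I (fun y => Ep M F y * Ep M' F' y) ≤ μ * μ' + Cp * (R * R' / Da w M w' M' R R') *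
      ((v.lcm v' : ℕ) * ((K * (v + 2)) * (K' * (v' + 2))))

theorem pairBd_IZ : PairBd (fun F R K v w θ μ => IZ F R K v w θ μ (fun _ => 0)) 2 where
  R0 h := by obtain ⟨α, β, κ, h1, -⟩ := h.ex; exact h1.R0
  mu0 {F R K v w θ μ} h := by
    obtain ⟨α, β, κ, h1, -, -, h4⟩ := h.ex
    exact (I_nonneg (h1.pb θ).nonneg).trans h4
  v0 h := by obtain ⟨α, β, κ, h1, -⟩ := h.ex; exact h1.v0
  pair {F F' R R' K v w K' v' w' θ μ θ' μ' M M'} h h' hM hM' := by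
    have e1 : I (fun y => Ep M (fun _ => (0 : ℝ)) y * Ep M' (arcF θ' R' w') y) ≤ 0 := by
      have : (fun y => Ep M (fun _ => (0 : ℝ)) y * Ep M' (arcF θ' R' w') y) = fun _ => 0 := by
        funext y; rw [Ep_const hM]; ring
      rw [this]; simp [I]
    have e2 : I (fun y => Ep M (arcF θ R w) y * Ep M' (fun _ => (0 : ℝ)) y) ≤ 0 := by
      have : (fun y => Ep M (arcF θ R w) y * Ep M' (fun _ => (0 : ℝ)) y) = fun _ => 0 := by
        funext y; rw [Ep_const hM']; ring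
      rw [this]; simp [I]
    have h3 := high_pairZ wfPair h h' hM hM' e1 e2
    linarith

/-! ### two nodes -/

section
variable {Λ κ : Type*} [Fintype Λ] [DecidableEq Λ] [Fintype κ] [DecidableEq κ]

/-- item data of the high part -/
def ItHi (Q : (ℝ → ℝ) → ℝ → ℕ → ℕ → ℕ → ℝ → ℝ → Prop) (D : Par Λ κ) (ρ : ℕ → ℝ) (b pr : ℕ)
    (t : IT) (K V0 : ℕ) (C1 η : ℝ) (q : ℕ) : Prop :=
  ∃ k v : ℕ, k ≤ K ∧ v ≤ V0 ∧ Q (Fq D b pr t 1 q) (b * ρ q) k v (q / pr) (b * D.γ)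
    (C1 * (I (Fq D b pr t 1 q) + η * (b * ρ q)))

theorem high_nodeQ {Q : (ℝ → ℝ) → ℝ → ℕ → ℕ → ℕ → ℝ → ℝ → Prop} {Cp : ℝ} (hQ : PairBd Q Cp)
    (hCp : 0 ≤ Cp) {D : Par Λ κ} {M M' b pr b' pr' : ℕ} {t t' : IT} (hM : 0 < M) (hM' : 0 < M')
    (hb : 0 < b) (hb' : 0 < b') (hF : Fit b pr t) (hF' : Fit b' pr' t') (hW : D.Wts pr t)
    (hW' : D.Wts pr' t') (Rl : Finset (Λ × Λ)) (A A' : Finset Λ) {V W : Finset ℕ} {ρ : ℕ → ℝ}
    {K V0 : ℕ} {C1 η T : ℝ} (hT : 0 < T) (hη : 0 ≤ η)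
    (hI : ∀ q ∈ V, ItHi Q D ρ b pr t K V0 C1 η q)
    (hI' : ∀ r ∈ W, ItHi Q D ρ b' pr' t' K V0 C1 η r)
    (hm : ∀ q ∈ V, I (Fq D b pr t 1 q) ≤ 2 * (b * ρ q))
    (hm' : ∀ r ∈ W, I (Fq D b' pr' t' 1 r) ≤ 2 * (b' * ρ r))
    {E : Finset (ℕ × ℕ)} (hE : E ⊆ V ×ˢ W)
    (hD : ∀ e ∈ E, T ≤ Da (e.1 / pr) M (e.2 / pr') M' (b * ρ e.1) (b' * ρ e.2)) :
    ∑ e ∈ E, D.iF Rl (D.uA M b pr t A 1) (D.uA M' b' pr' t' A' 1) e ≤
      C1 ^ 2 * ((∑ q ∈ V, I (Fq D b pr t 1 q)) * ∑ r ∈ W, I (Fq D b' pr' t' 1 r)) +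
        (C1 ^ 2 * (4 * η + η ^ 2) +
          Cp / T * ((V0 : ℝ) * V0 * ((K * (V0 + 2)) * (K * (V0 + 2))))) *
          ((∑ q ∈ V, (b : ℝ) * ρ q) * ∑ r ∈ W, (b' : ℝ) * ρ r) := by
  classical
  set Y : ℝ := Cp / T * ((V0 : ℝ) * V0 * ((K * (V0 + 2)) * (K * (V0 + 2)))) with hY
  set Rq : ℕ → ℝ := fun q => (b : ℝ) * ρ q with hRq
  set Rr : ℕ → ℝ := fun r => (b' : ℝ) * ρ r with hRr
  set X : ℕ → ℝ := fun q => I (Fq D b pr t 1 q) with hXd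
  set X' : ℕ → ℝ := fun r => I (Fq D b' pr' t' 1 r) with hXd'
  have hY0 : 0 ≤ Y := by rw [hY]; positivity
  have hR0 : ∀ q ∈ V, 0 < Rq q := fun q hq => by
    obtain ⟨k, v, -, -, h⟩ := hI q hq; exact hQ.R0 h
  have hR0' : ∀ r ∈ W, 0 < Rr r := fun r hr => by
    obtain ⟨k, v, -, -, h⟩ := hI' r hr; exact hQ.R0 h
  have hμ : ∀ q ∈ V, 0 ≤ C1 * (X q + η * Rq q) := fun q hq => by
    obtain ⟨k, v, -, -, h⟩ := hI q hq; exact hQ.mu0 h
  have hμ' : ∀ r ∈ W, 0 ≤ C1 * (X' r + η * Rr r) := fun r hr => by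
    obtain ⟨k, v, -, -, h⟩ := hI' r hr; exact hQ.mu0 h
  have h1 : ∀ e ∈ E, I (fun y => Ep M (Fq D b pr t 1 e.1) y * Ep M' (Fq D b' pr' t' 1 e.2) y) ≤
      (C1 * (X e.1 + η * Rq e.1)) * (C1 * (X' e.2 + η * Rr e.2)) + Y * (Rq e.1 * Rr e.2) := by
    intro e he
    obtain ⟨hq, hr⟩ := Finset.mem_product.1 (hE he)
    obtain ⟨k, v, hk, hv, h⟩ := hI _ hq
    obtain ⟨k', v', hk', hv', h'⟩ := hI' _ hr
    refine (hQ.pair h h' hM hM').trans ?_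
    have r0 := hR0 _ hq
    have r0' := hR0' _ hr
    have v0 := hQ.v0 h
    have v0' := hQ.v0 h'
    have b1 : Rq e.1 * Rr e.2 / Da (e.1 / pr) M (e.2 / pr') M' (Rq e.1) (Rr e.2) ≤
        Rq e.1 * Rr e.2 / T :=
      div_le_div_of_nonneg_left (mul_nonneg r0.le r0'.le) hT (hD e he)
    have b2 : (v.lcm v' : ℕ) ≤ V0 * V0 :=
      (Nat.le_of_dvd (Nat.mul_pos v0 v0') (Nat.lcm_dvd_mul _ _)).trans (Nat.mul_le_mul hv hv')
    have b3 : ((v.lcm v' : ℕ) : ℝ) ≤ V0 * V0 := by exact_mod_cast b2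
    have b4 : (v : ℝ) ≤ V0 := by exact_mod_cast hv
    have b4' : (v' : ℝ) ≤ V0 := by exact_mod_cast hv'
    have d4 : (k : ℝ) ≤ K := by exact_mod_cast hk
    have d4' : (k' : ℝ) ≤ K := by exact_mod_cast hk'
    have b5 : ((v.lcm v' : ℕ) : ℝ) * (((k : ℝ) * ((v : ℝ) + 2)) * ((k' : ℝ) * ((v' : ℝ) + 2))) ≤
        (V0 : ℝ) * V0 * ((K * (V0 + 2)) * (K * (V0 + 2))) := by
      gcongr
    have b6 : Cp * (Rq e.1 * Rr e.2 / Da (e.1 / pr) M (e.2 / pr') M' (Rq e.1) (Rr e.2)) *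
        (((v.lcm v' : ℕ) : ℝ) * (((k : ℝ) * ((v : ℝ) + 2)) * ((k' : ℝ) * ((v' : ℝ) + 2)))) ≤
        Cp * (Rq e.1 * Rr e.2 / T) * ((V0 : ℝ) * V0 * ((K * (V0 + 2)) * (K * (V0 + 2)))) := by
      refine mul_le_mul (mul_le_mul_of_nonneg_left b1 hCp) b5 (by positivity) (by positivity)
    have b7 : Cp * (Rq e.1 * Rr e.2 / T) *
        ((V0 : ℝ) * V0 * ((K * (V0 + 2)) * (K * (V0 + 2)))) = Y * (Rq e.1 * Rr e.2) := by
      rw [hY]; ring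
    have b8 : (b : ℝ) * ρ e.1 = Rq e.1 := rfl
    have b8' : (b' : ℝ) * ρ e.2 = Rr e.2 := rfl
    rw [b8, b8']
    have b9 : I (Fq D b pr t 1 e.1) = X e.1 := rfl
    have b9' : I (Fq D b' pr' t' 1 e.2) = X' e.2 := rfl
    rw [b9, b9']
    linarith
  have h2 := high_sumG hE hY0 (fun q hq => (hR0 q hq).le) (fun r hr => (hR0' r hr).le) hμ hμ' h1
  refine (Finset.sum_le_sum fun e _ =>
    iF_le_Fq hM hM' hb hb' hF hF' hW hW' Rl A A' e).trans (h2.trans ?_)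
  have e1 : ∑ q ∈ V, C1 * (X q + η * Rq q) = C1 * (∑ q ∈ V, X q + η * ∑ q ∈ V, Rq q) := by
    rw [← Finset.mul_sum, Finset.sum_add_distrib, ← Finset.mul_sum]
  have e2 : ∑ r ∈ W, C1 * (X' r + η * Rr r) = C1 * (∑ r ∈ W, X' r + η * ∑ r ∈ W, Rr r) := by
    rw [← Finset.mul_sum, Finset.sum_add_distrib, ← Finset.mul_sum]
  have e3 : ∑ q ∈ V, X q ≤ 2 * ∑ q ∈ V, Rq q := by
    rw [Finset.mul_sum]; exact Finset.sum_le_sum hm
  have e4 : ∑ r ∈ W, X' r ≤ 2 * ∑ r ∈ W, Rr r := by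
    rw [Finset.mul_sum]; exact Finset.sum_le_sum hm'
  have s1 : 0 ≤ ∑ q ∈ V, Rq q := Finset.sum_nonneg fun q hq => (hR0 q hq).le
  have s2 : 0 ≤ ∑ r ∈ W, Rr r := Finset.sum_nonneg fun r hr => (hR0' r hr).le
  rw [e1, e2]
  generalize (∑ q ∈ V, X q) = x at *
  generalize (∑ r ∈ W, X' r) = x' at *
  generalize (∑ q ∈ V, Rq q) = S at *
  generalize (∑ r ∈ W, Rr r) = S' at *
  have f1 : C1 ^ 2 * η * (x * S') ≤ C1 ^ 2 * η * (2 * S * S') :=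
    mul_le_mul_of_nonneg_left (mul_le_mul_of_nonneg_right e3 s2) (by positivity)
  have f2 : C1 ^ 2 * η * (S * x') ≤ C1 ^ 2 * η * (S * (2 * S')) :=
    mul_le_mul_of_nonneg_left (mul_le_mul_of_nonneg_left e4 s1) (by positivity)
  nlinarith

/-! ### arcs and masses -/

/-- the item sum is below the arc (`Rad`) -/
theorem Fq_le_arc_rad {D : Par Λ κ} {ρ : ℕ → ℝ} (hR : D.Rad ρ) {b pr : ℕ} {t : IT} {q : ℕ}
    (hb : 0 < b) (hF : Fit b pr t) (hW : D.Wts pr t) (hq : q ∈ t.items) (x : ℝ) :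
    Fq D b pr t 1 q x ≤ arcF (b * D.γ) (b * ρ q) (q / pr) x := by
  have hbR : (0 : ℝ) < b := by exact_mod_cast hb
  unfold Fq arcF
  have h1 : ∑ j ∈ Finset.univ.filter (fun j => D.it j = q), (D.toFT b pr t).U 1 j x ≤
      ∑ j ∈ Finset.univ.filter (fun j => D.it j = q), pc (b * D.γ) (b * D.al j) (b * D.be j)
        (q / pr) (fun a => D.om j ((1 * mp t q : ℕ) * a)) x := by
    refine Finset.sum_le_sum fun j hj => ?_
    have hjq := (Finset.mem_filter.1 hj).2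
    have := D.U_le t b pr 1 hb hF hW (one_dvd _) j (by rw [hjq]; exact hq) x
    rw [Nat.cast_one, div_one, hjq] at this
    exact this
  refine h1.trans (sum_pc_le_pc (fun j hj => ?_) (fun j hj => ?_)
    (fun i hi j hj z h2 h3 h4 h5 => ?_) (fun j _ a => hR.om j _) x)
  · have hjq := (Finset.mem_filter.1 hj).2
    have := hR.al j
    rw [hjq] at this
    have := mul_le_mul_of_nonneg_left this hbR.le
    linarith
  · have hjq := (Finset.mem_filter.1 hj).2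
    have := hR.be j
    rw [hjq] at this
    exact mul_le_mul_of_nonneg_left this hbR.le
  · have hiq := (Finset.mem_filter.1 hi).2
    have hjq := (Finset.mem_filter.1 hj).2
    by_contra hij
    rcases hR.dj i j hij (hiq.trans hjq.symm) with h | h
    · have := mul_le_mul_of_nonneg_left h hbR.le
      linarith
    · have := mul_le_mul_of_nonneg_left h hbR.le
      linarith

theorem I_Fq_le {D : Par Λ κ} {ρ : ℕ → ℝ} (hR : D.Rad ρ) {b pr : ℕ} {t : IT} {q : ℕ}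
    (hb : 0 < b) (hF : Fit b pr t) (hW : D.Wts pr t) (hq : q ∈ t.items) :
    I (Fq D b pr t 1 q) ≤ 2 * (b * ρ q) := by
  have hbR : (0 : ℝ) < b := by exact_mod_cast hb
  obtain ⟨a1, a2, -⟩ := hF.item q hq
  have w0 : 0 < q / pr := Nat.div_pos (Nat.le_of_dvd a1 a2) (Nat.pos_of_dvd_of_pos a2 a1)
  have h := I_mono (PB_Fq D q hb hF hW (one_dvd _)).integrableOn
    (PB_arcF (θ := b * D.γ) (R := b * ρ q) w0).integrableOn (Fq_le_arc_rad hR hb hF hW hq)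
  rw [I_arcF (mul_nonneg hbR.le (hR.pos q).le) w0] at h
  exact h

/-- masses of the items of a population -/
theorem sum_IFq_le {D : Par Λ κ} {sp : ℕ → Finset Λ} {b pr : ℕ} {t : IT} {A : Finset Λ}
    {d : DT Λ κ} (h : SideI D sp b pr t A d) (hil : IL D.it A) (Al : Finset ℕ)
    (hnn : ∀ j, 0 ≤ mI d j) :
    ∑ q ∈ Qi D Al t A, I (Fq D b pr t 1 q) ≤ ∑ j ∈ A, mI d j := by
  classical
  have h1 : ∀ q ∈ Qi D Al t A, I (Fq D b pr t 1 q) = ∑ j ∈ A.filter (fun j => D.it j = q),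
      mI d j := by
    intro q hq
    obtain ⟨h2, h3, j₀, hj₀, hj₀q⟩ := mem_Qi.1 hq
    have e : Fq D b pr t 1 q = fun x =>
        ∑ j ∈ Finset.univ.filter (fun j => D.it j = q), (D.toFT b pr t).U 1 j x := rfl
    rw [e, I_sum _ fun j _ =>
      (FT.pb h.hb (D.toFT_Adm t b pr h.hb h.hF h.hW) (one_dvd _) j).integrableOn]
    have hfil : A.filter (fun j => D.it j = q) = Finset.univ.filter (fun j => D.it j = q) := by
      ext j
      simp only [Finset.mem_filter, Finset.mem_univ, true_and]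
      exact ⟨fun h => h.2, fun h => ⟨(hil j j₀ (h.trans hj₀q.symm)).2 hj₀, h⟩⟩
    rw [hfil]
    exact Finset.sum_congr rfl fun j _ => (SideI_mI h j).symm
  rw [Finset.sum_congr rfl h1]
  have h2 := Finset.sum_fiberwise_of_maps_to (s := A.filter fun j => D.it j ∈ Qi D Al t A)
    (t := Qi D Al t A) (g := D.it) (fun j hj => (Finset.mem_filter.1 hj).2) (fun j => mI d j)
  have h3 : ∑ q ∈ Qi D Al t A, ∑ j ∈ A.filter (fun j => D.it j = q), mI d j =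
      ∑ j ∈ A.filter (fun j => D.it j ∈ Qi D Al t A), mI d j := by
    rw [← h2]
    refine Finset.sum_congr rfl fun q hq => Finset.sum_congr ?_ fun _ _ => rfl
    ext j
    simp only [Finset.mem_filter]
    exact ⟨fun k => ⟨⟨k.1, k.2 ▸ hq⟩, k.2⟩, fun k => ⟨k.1.1, k.2⟩⟩
  rw [h3]
  exact Finset.sum_le_sum_of_subset_of_nonneg (Finset.filter_subset _ _) fun j _ _ => hnn j

/-! ### a state -/

variable [WRel κ]

open Classical in
/-- **high_state**: the item pairs of a state with `T < D` (any kind `Q` of window majorants) -/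
theorem high_stateQ {Q : (ℝ → ℝ) → ℝ → ℕ → ℕ → ℕ → ℝ → ℝ → Prop} {Cp : ℝ} (hQ : PairBd Q Cp)
    (hCp : 0 ≤ Cp) {D : Par Λ κ} {ρ : ℕ → ℝ} (hR : D.Rad ρ) {sp : ℕ → Finset Λ} {s : St Λ κ}
    {u u' : NS} {τ τ' : IT} (h : StI D sp s u.B u.A τ u'.B u'.A τ') (hil : IL D.it s.A)
    (hil' : IL D.it s.A') (Al : Finset ℕ) {K V0 : ℕ} {C1 η T : ℝ} (hT : 0 < T) (hη : 0 ≤ η)
    (hI : ∀ q ∈ Qi D Al τ s.A, ItHi Q D ρ u.B u.A τ K V0 C1 η q)
    (hI' : ∀ r ∈ Qi D Al τ' s.A', ItHi Q D ρ u'.B u'.A τ' K V0 C1 η r) :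
    ∑ e ∈ (Qi D Al τ s.A ×ˢ Qi D Al τ' s.A').filter
        (fun e => T < Dq ρ s.M u.B u.A 1 s.M' u'.B u'.A 1 e),
        D.iF s.R (D.uA s.M u.B u.A τ s.A 1) (D.uA s.M' u'.B u'.A τ' s.A' 1) e ≤
      C1 ^ 2 * ((∑ j ∈ s.A, mI s.t j) * ∑ j ∈ s.A', mI s.t' j) +
        (C1 ^ 2 * (4 * η + η ^ 2) +
          Cp / T * ((V0 : ℝ) * V0 * ((K * (V0 + 2)) * (K * (V0 + 2))))) *
          ((∑ q ∈ Qi D Al τ s.A, rd u.B 1 ρ q) * ∑ r ∈ Qi D Al τ' s.A', rd u'.B 1 ρ r) := by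
  have mnn : ∀ (d : DT Λ κ), d.g.Ok → ∀ j, 0 ≤ mI d j := fun d hd j => by
    unfold mI
    exact I_nonneg fun x => (hd.pb j).nonneg x
  have okL : s.t.g.Ok := by rw [h.L.eq, D.toDT_g]; exact D.toG_Ok h.L.hb h.L.hF h.L.hW
  have okR : s.t'.g.Ok := by rw [h.R.eq, D.toDT_g]; exact D.toG_Ok h.R.hb h.R.hF h.R.hW
  have erd : ∀ (b q : ℕ), rd b 1 ρ q = (b : ℝ) * ρ q := fun b q => by
    unfold rd; rw [Nat.cast_one, div_one]
  have key := high_nodeQ hQ hCp h.M0 h.M0' h.L.hb h.R.hb h.L.hF h.R.hF h.L.hW h.R.hW s.R s.A s.A'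
    hT hη hI hI' (fun q hq => I_Fq_le hR h.L.hb h.L.hF h.L.hW (mem_Qi.1 hq).1)
    (fun r hr => I_Fq_le hR h.R.hb h.R.hF h.R.hW (mem_Qi.1 hr).1)
    (E := (Qi D Al τ s.A ×ˢ Qi D Al τ' s.A').filter
        (fun e => T < Dq ρ s.M u.B u.A 1 s.M' u'.B u'.A 1 e)) (Finset.filter_subset _ _)
    (fun e he => by
      have h2 := (Finset.mem_filter.1 he).2
      unfold Dq at h2
      rw [erd, erd] at h2
      exact h2.le)
  refine key.trans ?_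
  simp only [erd]
  refine add_le_add ?_ le_rfl
  refine mul_le_mul_of_nonneg_left ?_ (sq_nonneg _)
  have m1 := sum_IFq_le h.L hil Al (mnn _ okL)
  have m2 := sum_IFq_le h.R hil' Al (mnn _ okR)
  have n2 : 0 ≤ ∑ r ∈ Qi D Al τ' s.A', I (Fq D u'.B u'.A τ' 1 r) :=
    Finset.sum_nonneg fun r _ => I_nonneg (PB_Fq D r h.R.hb h.R.hF h.R.hW (one_dvd _)).nonneg
  have n1 : 0 ≤ ∑ j ∈ s.A, mI s.t j := Finset.sum_nonneg fun j _ => mnn _ okL j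
  exact mul_le_mul m1 m2 n2 n1

end

end Crest.Agent.R4.Step588
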