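import Crest.Agent.R4.StopInv95
import Crest.Agent.R4.OSCore709

/-!
R4 (S0004), helper95: **the `[F]` pairs of a STOP** (709's groups, 758's lower bound `1 < 2 (Y m)^10 D`).

* `ff_gY` : 709's `ff_g` with an additional factor `Y`; `ff_sum` : sum over the groups.
* `om_small` : the weight `om` of an item which misses the mass `cc` of the one-sided primes `≥ N`.
* `ff_items` : item pairs of two nodes.
* `stop_state2` : `Qs s ≤ (Ch + 2) Lh(..)`; `eSTOP_zero`.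
-/

set_option autoImplicit false
set_option linter.unusedSectionVars false
set_option linter.unusedVariables false
open Finset

namespace Crest.Agent.R4.StopFF95

open Crest.Agent.R4.HVW560 Crest.Agent.R4.HVWX793 Crest.Agent.R4.Schur709 Crest.Agent.R4.StopHvw709
open Crest.Agent.R4.StopAsm709 Crest.Agent.R4.AvgItem710 Crest.Agent.R4.DeepSt579
open Crest.Agent.R4.Item758 Crest.Agent.R4.NMW710 Crest.Agent.R4.OSCore709 Crest.Agent.R4.StopW95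
open Crest.Agent.R4.ClsS (eps1)

theorem ff_gY {N : ℕ} {O O' V W : Finset ℕ} {E : Finset (ℕ × ℕ)}
    {R R' : ℕ → ℝ} (hO : ∀ p ∈ O, p.Prime ∧ N ≤ p) (hO' : ∀ p ∈ O', p.Prime ∧ N ≤ p)
    (hV : ∀ w ∈ V, 0 < w ∧ 0 < R w) (hW : ∀ w ∈ W, 0 < w ∧ 0 < R' w) (hE : E ⊆ V ×ˢ W)
    {S S' : Finset ℕ} (hS : S ⊆ O) (hS' : S' ⊆ O')
    (hES : ∀ e ∈ E, miss O e.2 = S ∧ miss O' e.1 = S')
    {K Y : ℝ} (hK : 0 ≤ K) (hY : 1 ≤ Y) {F : ℕ × ℕ → ℝ} (h1 : ∀ e ∈ E, Dc O O' R R' e ≤ 1)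
    (hm : ∀ e ∈ E, 1 < 2 * (Y * mm O O' e)^10 * Dc O O' R R' e)
    (hF : ∀ e ∈ E, F e ≤ K * ((mu O' R e.1 * mu O R' e.2) / Dc O O' R R' e)) :
    ∑ e ∈ E, F e ≤ K * (60000 * KH 1 0 eps1) * Y^(22/1000:ℝ) * ((∏ p ∈ S, (p:ℝ))^(22/1000:ℝ) *
      (∏ p ∈ S', (p:ℝ))^(22/1000:ℝ)) *
      ZG (1/2-eps1) (1/2+eps1) O O' V W S S' (mu O' R) (mu O R') := by
  have he1 : eps1 = 1/1000 := rfl
  rcases E.eq_empty_or_nonempty with h0 | ⟨e0, he0⟩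
  · rw [h0, Finset.sum_empty]
    have := ZG_nonneg (α := 1/2-eps1) (β := 1/2+eps1) (O := O) (O' := O') (S := S) (S' := S') (V := V) (W := W)
      (μ := mu O' R) (μ' := mu O R') (fun q hq => mu_nonneg (hV q hq).2.le) (fun q hq => mu_nonneg (hW q hq).2.le)
    have := (KH_pos 1 0 eps1).le
    positivity
  set m : ℝ := mm O O' e0 with hmd
  have hm1 : 1 ≤ m := one_le_mm (fun p hp => (hO p hp).1.pos) (fun p hp => (hO' p hp).1.pos) e0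
  have hmY : 1 ≤ Y * m := by nlinarith
  have hmE : ∀ e ∈ E, mm O O' e = m := by
    intro e he
    rw [hmd]
    unfold mm
    rw [(hES e he).1, (hES e he).2, (hES e0 he0).1, (hES e0 he0).2]
  have hme : m = (∏ p ∈ S, (p:ℝ)) * (∏ p ∈ S', (p:ℝ)) := by
    rw [hmd]; unfold mm
    rw [(hES e0 he0).1, (hES e0 he0).2]
  obtain ⟨n, hn1, hn2⟩ := pow_near hmY
  have key := mid_dyadic_g (ε := eps1) (by rw [he1]; norm_num) (by rw [he1]; norm_num) hO hO' hV hW hS hS'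
    hK (F := F) n E hE hES h1 (by
      intro e he
      have h3 := hm e he
      rw [hmE e he] at h3
      rw [div_pow, one_pow, div_lt_iff₀ (by positivity)]
      have hD : 0 < Dc O O' R R' e := by
        by_contra hneg
        have : 2 * (Y * m)^10 * Dc O O' R R' e ≤ 0 :=
          mul_nonpos_of_nonneg_of_nonpos (by positivity) (not_lt.1 hneg)
        linarith
      nlinarith) hF
  refine key.trans ?_
  have hZ := ZG_nonneg (α := 1/2-eps1) (β := 1/2+eps1) (O := O) (O' := O') (S := S) (S' := S') (V := V) (W := W)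
      (μ := mu O' R) (μ' := mu O R') (fun q hq => mu_nonneg (hV q hq).2.le) (fun q hq => mu_nonneg (hW q hq).2.le)
  apply mul_le_mul_of_nonneg_right _ hZ
  have hKH := (KH_pos 1 0 eps1).le
  rw [← Real.mul_rpow (Finset.prod_nonneg fun p _ => by positivity) (Finset.prod_nonneg fun p _ => by positivity),
    ← hme]
  have hYm : (Y * m)^(22/1000:ℝ) = Y^(22/1000:ℝ) * m^(22/1000:ℝ) :=
    Real.mul_rpow (by linarith) (by linarith)
  calc (n:ℝ) * (2 * K * KH 1 0 eps1 * (2:ℝ)^(2*eps1*n))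
      = (2 * K * KH 1 0 eps1) * ((n:ℝ) * (2:ℝ)^(2*eps1*n)) := by ring
    _ ≤ (2 * K * KH 1 0 eps1) * (30000 * (Y * m)^(22/1000:ℝ)) :=
        mul_le_mul_of_nonneg_left hn2 (by positivity)
    _ = _ := by rw [hYm]; ring

/-- **exact-false pairs**, sum over the groups -/
theorem ff_sum {N : ℕ} {O O' V W : Finset ℕ} {E : Finset (ℕ × ℕ)}
    {R R' : ℕ → ℝ} (hO : ∀ p ∈ O, p.Prime ∧ N ≤ p) (hO' : ∀ p ∈ O', p.Prime ∧ N ≤ p)
    (hV : ∀ w ∈ V, 0 < w ∧ 0 < R w) (hW : ∀ w ∈ W, 0 < w ∧ 0 < R' w) (hE : E ⊆ V ×ˢ W)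
    {K Y : ℝ} (hK : 0 ≤ K) (hY : 1 ≤ Y) {F : ℕ × ℕ → ℝ} (h1 : ∀ e ∈ E, Dc O O' R R' e ≤ 1)
    (hm : ∀ e ∈ E, 1 < 2 * (Y * mm O O' e)^10 * Dc O O' R R' e)
    (hF : ∀ e ∈ E, F e ≤ K * ((mu O' R e.1 * mu O R' e.2) / Dc O O' R R' e)) :
    ∑ e ∈ E, F e ≤ K * (60000 * KH 1 0 eps1) * Y^(22/1000:ℝ) *
      Real.exp ((1/2-eps1) * ((∑ p ∈ O, (p:ℝ)^(-(11/12):ℝ)) + ∑ p ∈ O', (p:ℝ)^(-(11/12):ℝ))) *
      ((∑ q ∈ V, om O' q * mu O' R q) * (∑ r ∈ W, om O r * mu O R' r))^(1/2+eps1) := by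
  classical
  have he1 : eps1 = 1/1000 := rfl
  have hKH := (KH_pos 1 0 eps1).le
  refine group_sum_t (τ := 22/1000) (by rw [he1]; norm_num) (by rw [he1]; norm_num) (by ring)
    (by rw [he1]; norm_num) (fun p hp => (hO p hp).1.pos) (fun p hp => (hO' p hp).1.pos) hE
    (fun q hq => mu_nonneg (hV q hq).2.le) (fun q hq => mu_nonneg (hW q hq).2.le)
    (by positivity) ?_
  intro S hS S' hS'
  have hsub : Eg O O' E S S' ⊆ E := Finset.filter_subset _ _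
  have h2 := ff_gY hO hO' hV hW (hsub.trans hE) hS hS'
    (fun e he => (Finset.mem_filter.1 he).2) hK hY (F := F) (fun e he => h1 e (hsub he))
    (fun e he => hm e (hsub he)) (fun e he => hF e (hsub he))
  exact h2

/-- the weight of an item which misses the mass `cc` -/
lemma om_small {N r : ℕ} {O : Finset ℕ} {cc : ℝ} (hN : 1 ≤ N) (hO : ∀ l ∈ O, N ≤ l)
    (h : cc ≤ ∑ l ∈ O.filter (fun l => ¬ l ∣ r), 1/(l:ℝ)) :
    om O r ≤ Real.exp (-(N * cc * Real.log N / 30)) := by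
  have hN0 : (0:ℝ) < N := by exact_mod_cast hN
  have hlog : 0 ≤ Real.log N := Real.log_natCast_nonneg N
  set S := O.filter (fun l => ¬ l ∣ r) with hS
  have h1 : (N:ℝ) * cc ≤ S.card := by
    have h2 : ∑ l ∈ S, 1/(l:ℝ) ≤ ∑ l ∈ S, 1/(N:ℝ) := Finset.sum_le_sum fun l hl =>
      one_div_le_one_div_of_le hN0 (by exact_mod_cast hO l (Finset.mem_filter.1 hl).1)
    rw [Finset.sum_const, nsmul_eq_mul] at h2
    have h3 := h.trans h2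
    rw [mul_one_div, le_div_iff₀ hN0] at h3
    linarith
  have h2 : om O r ≤ ∏ l ∈ S, (N:ℝ)^(-(1/30):ℝ) := by
    unfold om
    refine Finset.prod_le_prod (fun _ _ => by positivity) fun l hl => ?_
    exact Real.rpow_le_rpow_of_nonpos hN0 (by exact_mod_cast hO l (Finset.mem_filter.1 hl).1)
      (by norm_num)
  refine h2.trans ?_
  rw [Finset.prod_const, Real.rpow_def_of_pos hN0, ← Real.exp_nat_mul]
  apply Real.exp_le_exp.2
  nlinarith [mul_le_mul_of_nonneg_right h1 hlog]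

/-- final form of the sum -/
lemma ff_fin {a b X X' θ : ℝ} (ha : 0 ≤ a) (hb : 0 ≤ b) (hX : 0 ≤ X) (hX' : 0 ≤ X')
    (hθ : 0 ≤ θ) (hab : a * b ≤ Real.exp (-θ) * (X * X')) :
    (a * b)^(1/2+eps1) ≤ Real.exp (-(θ/2)) * (Real.sqrt (X * X') * ((1 + X) * (1 + X'))) := by
  have he1 : eps1 = 1/1000 := rfl
  have hXX : 0 ≤ X * X' := mul_nonneg hX hX'
  have h1 : (a * b)^(1/2+eps1) ≤ (Real.exp (-θ) * (X * X'))^(1/2+eps1) :=
    Real.rpow_le_rpow (mul_nonneg ha hb) hab (by rw [he1]; norm_num)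
  refine h1.trans ?_
  rw [Real.mul_rpow (Real.exp_nonneg _) hXX]
  have h2 : (Real.exp (-θ))^(1/2+eps1) ≤ Real.exp (-(θ/2)) := by
    rw [← Real.exp_mul]
    apply Real.exp_le_exp.2
    rw [he1]; nlinarith
  have h3 : (X * X')^(1/2+eps1) ≤ Real.sqrt (X * X') * ((1 + X) * (1 + X')) := by
    have h4 : (X * X')^(1/2+eps1) = (X * X')^(1/2:ℝ) * (X * X')^eps1 :=
      Real.rpow_add_of_nonneg hXX (by norm_num) (by rw [he1]; norm_num)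
    rw [h4, Real.sqrt_eq_rpow]
    refine mul_le_mul_of_nonneg_left ?_ (by positivity)
    have h5 : (X * X')^eps1 ≤ (1 + X * X')^eps1 :=
      Real.rpow_le_rpow hXX (by linarith) (by rw [he1]; norm_num)
    have h6 : (1 + X * X')^eps1 ≤ (1 + X * X')^(1:ℝ) :=
      Real.rpow_le_rpow_of_exponent_le (by linarith) (by rw [he1]; norm_num)
    rw [Real.rpow_one] at h6
    nlinarith
  exact mul_le_mul h2 h3 (by positivity) (Real.exp_nonneg _)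

section items
variable {Λ κι : Type*}

open Classical in
/-- **exact-false pairs of items** -/
theorem ff_items {ρ : ℕ → ℝ} {F : ℕ × ℕ → ℝ} {L cc Y : ℝ}
    {N M b pr c M' b' pr' c' : ℕ} {V W : Finset ℕ} (hN1 : 1 ≤ N) (hcc : 0 ≤ cc) (hY : 1 ≤ Y)
    (hL0 : 0 ≤ L)
    (hρ : ∀ q, 0 < ρ q) (hb : 0 < b) (hc : 0 < c) (hb' : 0 < b') (hc' : 0 < c')
    (hM : Squarefree M) (hM' : Squarefree M')
    (hMp : ∀ l : ℕ, l.Prime → l ∣ M → N ≤ l) (hMp' : ∀ l : ℕ, l.Prime → l ∣ M' → N ≤ l)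
    (hs : ∑ l ∈ M.primeFactors, (l:ℝ)^(-(11/12):ℝ) ≤ 1)
    (hs' : ∑ l ∈ M'.primeFactors, (l:ℝ)^(-(11/12):ℝ) ≤ 1)
    (hV : ∀ q ∈ V, 0 < q ∧ pr ∣ q) (hW : ∀ q ∈ W, 0 < q ∧ pr' ∣ q)
    (lV : ∀ q ∈ V, 1 ≤ L * tq (q / pr / M.gcd (q / pr)))
    (lW : ∀ q ∈ W, 1 ≤ L * tq (q / pr' / M'.gcd (q / pr')))
    (hcm : (∀ q ∈ W, cc ≤ ∑ l ∈ M'.primeFactors.filter (fun l => ¬ l ∣ q / pr'), 1/(l:ℝ)) ∨
      (∀ q ∈ V, cc ≤ ∑ l ∈ M.primeFactors.filter (fun l => ¬ l ∣ q / pr), 1/(l:ℝ)))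
    (E : Finset (ℕ × ℕ)) (hE : E ⊆ V ×ˢ W)
    (hE1 : ∀ e ∈ E, Dq ρ M b pr c M' b' pr' c' e ≤ 1)
    (hmE : ∀ e ∈ E, 1 < 2 * (Y * ((rf (e.1 / pr) M : ℝ) * rf (e.2 / pr') M'))^10 *
      Dq ρ M b pr c M' b' pr' c' e)
    (hF : ∀ e ∈ E, F e ≤ 6 * (rd b c ρ e.1 * rd b' c' ρ e.2 / Dq ρ M b pr c M' b' pr' c' e)) :
    ∑ e ∈ E, F e ≤ (6 * L^2 * (60000 * KH 1 0 eps1) * Y^(22/1000:ℝ) * 3 *
        Real.exp (-(N * cc * Real.log N / 60))) *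
      (Real.sqrt ((∑ q ∈ V, rd b c ρ q) * (∑ q ∈ W, rd b' c' ρ q)) *
        ((1 + ∑ q ∈ V, rd b c ρ q) * (1 + ∑ q ∈ W, rd b' c' ρ q))) := by
  classical
  have he1 : eps1 = 1/1000 := rfl
  have hKH := (KH_pos 1 0 eps1).le
  have hb0 : (0:ℝ) < b := by exact_mod_cast hb
  have hc0' : (0:ℝ) < c := by exact_mod_cast hc
  have hbb0 : (0:ℝ) < b' := by exact_mod_cast hb'
  have hcc0 : (0:ℝ) < c' := by exact_mod_cast hc'
  have hR : ∀ q, 0 < rd b c ρ q := fun q => mul_pos (div_pos hb0 hc0') (hρ q)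
  have hR' : ∀ q, 0 < rd b' c' ρ q := fun q => mul_pos (div_pos hbb0 hcc0) (hρ q)
  have hVw : ∀ q ∈ V, 0 < q / pr := fun q hq =>
    Nat.div_pos (Nat.le_of_dvd (hV q hq).1 (hV q hq).2) (Nat.pos_of_dvd_of_pos (hV q hq).2 (hV q hq).1)
  have hWw : ∀ q ∈ W, 0 < q / pr' := fun q hq =>
    Nat.div_pos (Nat.le_of_dvd (hW q hq).1 (hW q hq).2) (Nat.pos_of_dvd_of_pos (hW q hq).2 (hW q hq).1)
  have hVm : ∀ q ∈ V, pr * (q / pr) = q := fun q hq => Nat.mul_div_cancel' (hV q hq).2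
  have hWm : ∀ q ∈ W, pr' * (q / pr') = q := fun q hq => Nat.mul_div_cancel' (hW q hq).2
  set V0 := V.image (fun q => q / pr) with hV0
  set W0 := W.image (fun q => q / pr') with hW0
  set O' := M.primeFactors with hO'd
  set O := M'.primeFactors with hOd
  have hO : ∀ l ∈ O, l.Prime ∧ N ≤ l := fun l hl =>
    ⟨Nat.prime_of_mem_primeFactors hl, hMp' l (Nat.prime_of_mem_primeFactors hl)
      (Nat.dvd_of_mem_primeFactors hl)⟩
  have hO' : ∀ l ∈ O', l.Prime ∧ N ≤ l := fun l hl =>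
    ⟨Nat.prime_of_mem_primeFactors hl, hMp l (Nat.prime_of_mem_primeFactors hl)
      (Nat.dvd_of_mem_primeFactors hl)⟩
  set R : ℕ → ℝ := fun w => rd b c ρ (pr * w) with hRd
  set R' : ℕ → ℝ := fun w => rd b' c' ρ (pr' * w) with hRd'
  have hRe : ∀ q ∈ V, R (q / pr) = rd b c ρ q := fun q hq => by rw [hRd]; simp only; rw [hVm q hq]
  have hRe' : ∀ q ∈ W, R' (q / pr') = rd b' c' ρ q := fun q hq => by rw [hRd']; simp only; rw [hWm q hq]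
  set F0 : ℕ × ℕ → ℝ := fun f => F (pr * f.1, pr' * f.2) with hF0
  have hF0e : ∀ e ∈ V ×ˢ W, F0 (e.1 / pr, e.2 / pr') = F e := fun e he => by
    obtain ⟨h1, h2⟩ := Finset.mem_product.1 he
    rw [hF0]; simp only; rw [hVm _ h1, hWm _ h2]
  have hDc : ∀ e ∈ V ×ˢ W, Dc O O' R R' (e.1 / pr, e.2 / pr') = Dq ρ M b pr c M' b' pr' c' e :=
    fun e he => by
    obtain ⟨k1, k2⟩ := Finset.mem_product.1 he
    have h1 := Dc_pf hM hM' R R' (e.1 / pr, e.2 / pr') (hVw _ k1) (hWw _ k2)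
    rw [hRe _ k1, hRe' _ k2] at h1
    exact h1
  have hmm : ∀ e ∈ V ×ˢ W, mm O O' (e.1 / pr, e.2 / pr') =
      (rf (e.1 / pr) M : ℝ) * rf (e.2 / pr') M' := fun e he => by
    obtain ⟨k1, k2⟩ := Finset.mem_product.1 he
    unfold mm
    rw [mul_comm]
    congr 1
    · rw [← miss_pf_prod hM _ (hVw _ k1)]; push_cast; rfl
    · rw [← miss_pf_prod hM' _ (hWw _ k2)]; push_cast; rfl
  have hinjV : Set.InjOn (fun q => q / pr) (V : Set ℕ) := by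
    intro e he f hf hef
    simp only at hef
    rw [← hVm _ (Finset.mem_coe.1 he), ← hVm _ (Finset.mem_coe.1 hf), hef]
  have hinjW : Set.InjOn (fun q => q / pr') (W : Set ℕ) := by
    intro e he f hf hef
    simp only at hef
    rw [← hWm _ (Finset.mem_coe.1 he), ← hWm _ (Finset.mem_coe.1 hf), hef]
  have hinj : Set.InjOn (fun e : ℕ × ℕ => (e.1 / pr, e.2 / pr')) ((V ×ˢ W : Finset (ℕ × ℕ)) : Set (ℕ × ℕ)) := by
    intro e he f hf hef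
    obtain ⟨h1, h2⟩ := Finset.mem_product.1 (Finset.mem_coe.1 he)
    obtain ⟨h3, h4⟩ := Finset.mem_product.1 (Finset.mem_coe.1 hf)
    simp only [Prod.mk.injEq] at hef
    exact Prod.ext (hinjV h1 h3 hef.1) (hinjW h2 h4 hef.2)
  set E0 := E.image (fun e : ℕ × ℕ => (e.1 / pr, e.2 / pr')) with hE0
  have hE0s : E0 ⊆ V0 ×ˢ W0 := by
    intro f hf
    obtain ⟨e, he, rfl⟩ := Finset.mem_image.1 hf
    obtain ⟨h1, h2⟩ := Finset.mem_product.1 (hE he)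
    exact Finset.mem_product.2 ⟨Finset.mem_image_of_mem _ h1, Finset.mem_image_of_mem _ h2⟩
  have hsumE : ∑ f ∈ E0, F0 f = ∑ e ∈ E, F e := by
    rw [hE0, Finset.sum_image (hinj.mono (by intro x hx; exact hE (Finset.mem_coe.1 hx)))]
    exact Finset.sum_congr rfl fun e he => hF0e e (hE he)
  have muV : ∀ q ∈ V, mu O' R (q / pr) = rd b c ρ q * tq (q / pr / M.gcd (q / pr)) := fun q hq => by
    unfold mu tq
    rw [hRe q hq, uu_pf hM _ (hVw q hq)]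
  have muW : ∀ q ∈ W, mu O R' (q / pr') = rd b' c' ρ q * tq (q / pr' / M'.gcd (q / pr')) := fun q hq => by
    unfold mu tq
    rw [hRe' q hq, uu_pf hM' _ (hWw q hq)]
  have gV : ∀ q ∈ V, rd b c ρ q ≤ L * mu O' R (q / pr) := fun q hq => by
    rw [muV q hq]
    have := mul_le_mul_of_nonneg_left (lV q hq) (hR q).le
    calc rd b c ρ q = rd b c ρ q * 1 := (mul_one _).symm
      _ ≤ _ := this
      _ = _ := by ring
  have gW : ∀ q ∈ W, rd b' c' ρ q ≤ L * mu O R' (q / pr') := fun q hq => by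
    rw [muW q hq]
    have := mul_le_mul_of_nonneg_left (lW q hq) (hR' q).le
    calc rd b' c' ρ q = rd b' c' ρ q * 1 := (mul_one _).symm
      _ ≤ _ := this
      _ = _ := by ring
  have posV : ∀ w ∈ V0, 0 < w ∧ 0 < R w := by
    intro w hw
    obtain ⟨q, hq, rfl⟩ := Finset.mem_image.1 hw
    exact ⟨hVw q hq, by rw [hRe q hq]; exact hR q⟩
  have posW : ∀ w ∈ W0, 0 < w ∧ 0 < R' w := by
    intro w hw
    obtain ⟨q, hq, rfl⟩ := Finset.mem_image.1 hw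
    exact ⟨hWw q hq, by rw [hRe' q hq]; exact hR' q⟩
  have hD0 : ∀ e ∈ E, 0 < Dq ρ M b pr c M' b' pr' c' e := fun e he => by
    by_contra hneg
    have h1 := hmE e he
    have : 2 * (Y * ((rf (e.1 / pr) M : ℝ) * rf (e.2 / pr') M'))^10 *
      Dq ρ M b pr c M' b' pr' c' e ≤ 0 :=
      mul_nonpos_of_nonneg_of_nonpos (by positivity) (not_lt.1 hneg)
    linarith
  have key := ff_sum (K := 6 * L^2) (Y := Y) (F := F0) hO hO' posV posW hE0s (by positivity) hY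
    (by
      intro f hf
      obtain ⟨e, he, rfl⟩ := Finset.mem_image.1 hf
      rw [hDc e (hE he)]
      exact hE1 e he)
    (by
      intro f hf
      obtain ⟨e, he, rfl⟩ := Finset.mem_image.1 hf
      rw [hDc e (hE he), hmm e (hE he)]
      exact hmE e he)
    (by
      intro f hf
      obtain ⟨e, he, rfl⟩ := Finset.mem_image.1 hf
      obtain ⟨k1, k2⟩ := Finset.mem_product.1 (hE he)
      rw [hDc e (hE he), hF0e e (hE he)]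
      refine (hF e he).trans ?_
      have h1 : rd b c ρ e.1 * rd b' c' ρ e.2 ≤
          (L * mu O' R (e.1 / pr)) * (L * mu O R' (e.2 / pr')) :=
        mul_le_mul (gV _ k1) (gW _ k2) (hR' _).le ((hR _).le.trans (gV _ k1))
      have h2 : rd b c ρ e.1 * rd b' c' ρ e.2 / Dq ρ M b pr c M' b' pr' c' e ≤
          (L * mu O' R (e.1 / pr)) * (L * mu O R' (e.2 / pr')) / Dq ρ M b pr c M' b' pr' c' e :=
        div_le_div_of_nonneg_right h1 (hD0 e he).le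
      calc 6 * (rd b c ρ e.1 * rd b' c' ρ e.2 / Dq ρ M b pr c M' b' pr' c' e)
          ≤ 6 * ((L * mu O' R (e.1 / pr)) * (L * mu O R' (e.2 / pr')) /
            Dq ρ M b pr c M' b' pr' c' e) := mul_le_mul_of_nonneg_left h2 (by norm_num)
        _ = _ := by ring)
  rw [hsumE] at key
  refine key.trans ?_
  have hexp : Real.exp ((1/2-eps1) * ((∑ p ∈ O, (p:ℝ)^(-(11/12):ℝ)) +
      ∑ p ∈ O', (p:ℝ)^(-(11/12):ℝ))) ≤ 3 := by
    have h1 : (1/2-eps1) * ((∑ p ∈ O, (p:ℝ)^(-(11/12):ℝ)) + ∑ p ∈ O', (p:ℝ)^(-(11/12):ℝ)) ≤ 1 := by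
      have h0 : 0 ≤ (∑ p ∈ O, (p:ℝ)^(-(11/12):ℝ)) + ∑ p ∈ O', (p:ℝ)^(-(11/12):ℝ) :=
        add_nonneg (Finset.sum_nonneg fun _ _ => by positivity)
          (Finset.sum_nonneg fun _ _ => by positivity)
      rw [he1]; nlinarith
    have h2 := Real.exp_one_lt_d9
    linarith [Real.exp_le_exp.2 h1]
  have hlogN : 0 ≤ Real.log N := Real.log_natCast_nonneg N
  have hθ0 : 0 ≤ N * cc * Real.log N / 30 := by positivity
  -- the masses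
  have muR : ∀ w ∈ V0, mu O' R w ≤ R w := by
    intro w hw
    obtain ⟨q, hq, rfl⟩ := Finset.mem_image.1 hw
    rw [muV q hq, hRe q hq]
    have := Crest.Agent.R4.NMW927.tq_le_one (q / pr / M.gcd (q / pr))
    nlinarith [hR q]
  have muR' : ∀ w ∈ W0, mu O R' w ≤ R' w := by
    intro w hw
    obtain ⟨q, hq, rfl⟩ := Finset.mem_image.1 hw
    rw [muW q hq, hRe' q hq]
    have := Crest.Agent.R4.NMW927.tq_le_one (q / pr' / M'.gcd (q / pr'))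
    nlinarith [hR' q]
  have hsV : ∑ w ∈ V0, R w = ∑ q ∈ V, rd b c ρ q := by
    rw [hV0, Finset.sum_image hinjV]
    exact Finset.sum_congr rfl fun q hq => hRe q hq
  have hsW : ∑ w ∈ W0, R' w = ∑ q ∈ W, rd b' c' ρ q := by
    rw [hW0, Finset.sum_image hinjW]
    exact Finset.sum_congr rfl fun q hq => hRe' q hq
  have nmu : ∀ w ∈ V0, 0 ≤ mu O' R w := fun w hw => mu_nonneg (posV w hw).2.le
  have nmu' : ∀ w ∈ W0, 0 ≤ mu O R' w := fun w hw => mu_nonneg (posW w hw).2.le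
  have n1 : 0 ≤ ∑ q ∈ V0, om O' q * mu O' R q :=
    Finset.sum_nonneg fun w hw => mul_nonneg (om_nonneg _ _) (nmu w hw)
  have n2 : 0 ≤ ∑ r ∈ W0, om O r * mu O R' r :=
    Finset.sum_nonneg fun w hw => mul_nonneg (om_nonneg _ _) (nmu' w hw)
  have b1 : ∑ q ∈ V0, om O' q * mu O' R q ≤ ∑ q ∈ V, rd b c ρ q := by
    rw [← hsV]
    refine Finset.sum_le_sum fun w hw => ?_
    have h1 := om_le_one (fun p hp => (hO' p hp).1.pos) w
    calc om O' w * mu O' R w ≤ 1 * mu O' R w := mul_le_mul_of_nonneg_right h1 (nmu w hw)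
      _ ≤ R w := by rw [one_mul]; exact muR w hw
  have b2 : ∑ r ∈ W0, om O r * mu O R' r ≤ ∑ q ∈ W, rd b' c' ρ q := by
    rw [← hsW]
    refine Finset.sum_le_sum fun w hw => ?_
    have h1 := om_le_one (fun p hp => (hO p hp).1.pos) w
    calc om O w * mu O R' w ≤ 1 * mu O R' w := mul_le_mul_of_nonneg_right h1 (nmu' w hw)
      _ ≤ R' w := by rw [one_mul]; exact muR' w hw
  have x0 : 0 ≤ ∑ q ∈ V, rd b c ρ q := Finset.sum_nonneg fun q _ => (hR q).le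
  have x0' : 0 ≤ ∑ q ∈ W, rd b' c' ρ q := Finset.sum_nonneg fun q _ => (hR' q).le
  have hab : (∑ q ∈ V0, om O' q * mu O' R q) * (∑ r ∈ W0, om O r * mu O R' r) ≤
      Real.exp (-(N * cc * Real.log N / 30)) *
        ((∑ q ∈ V, rd b c ρ q) * (∑ q ∈ W, rd b' c' ρ q)) := by
    rcases hcm with hcm | hcm
    · have b3 : ∑ r ∈ W0, om O r * mu O R' r ≤
          Real.exp (-(N * cc * Real.log N / 30)) * ∑ q ∈ W, rd b' c' ρ q := by
        rw [← hsW, Finset.mul_sum]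
        refine Finset.sum_le_sum fun w hw => ?_
        have h1 : om O w ≤ Real.exp (-(N * cc * Real.log N / 30)) := by
          obtain ⟨q, hq, rfl⟩ := Finset.mem_image.1 hw
          exact om_small hN1 (fun l hl => (hO l hl).2) (hcm q hq)
        calc om O w * mu O R' w ≤ Real.exp (-(N * cc * Real.log N / 30)) * mu O R' w :=
              mul_le_mul_of_nonneg_right h1 (nmu' w hw)
          _ ≤ _ := mul_le_mul_of_nonneg_left (muR' w hw) (Real.exp_nonneg _)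
      calc _ ≤ (∑ q ∈ V, rd b c ρ q) * (Real.exp (-(N * cc * Real.log N / 30)) *
            ∑ q ∈ W, rd b' c' ρ q) := mul_le_mul b1 b3 n2 x0
        _ = _ := by ring
    · have b3 : ∑ q ∈ V0, om O' q * mu O' R q ≤
          Real.exp (-(N * cc * Real.log N / 30)) * ∑ q ∈ V, rd b c ρ q := by
        rw [← hsV, Finset.mul_sum]
        refine Finset.sum_le_sum fun w hw => ?_
        have h1 : om O' w ≤ Real.exp (-(N * cc * Real.log N / 30)) := by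
          obtain ⟨q, hq, rfl⟩ := Finset.mem_image.1 hw
          exact om_small hN1 (fun l hl => (hO' l hl).2) (hcm q hq)
        calc om O' w * mu O' R w ≤ Real.exp (-(N * cc * Real.log N / 30)) * mu O' R w :=
              mul_le_mul_of_nonneg_right h1 (nmu w hw)
          _ ≤ _ := mul_le_mul_of_nonneg_left (muR w hw) (Real.exp_nonneg _)
      calc _ ≤ (Real.exp (-(N * cc * Real.log N / 30)) * ∑ q ∈ V, rd b c ρ q) *
            (∑ q ∈ W, rd b' c' ρ q) := mul_le_mul b3 b2 n2 (by positivity)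
        _ = _ := by ring
  have hfin := ff_fin n1 n2 x0 x0' hθ0 hab
  have e60 : N * cc * Real.log N / 30 / 2 = N * cc * Real.log N / 60 := by ring
  rw [e60] at hfin
  have hY0 : 0 ≤ Y^(22/1000:ℝ) := by positivity
  have hpre : 0 ≤ 6 * L^2 * (60000 * KH 1 0 eps1) * Y^(22/1000:ℝ) := by positivity
  have hrp : 0 ≤ ((∑ q ∈ V0, om O' q * mu O' R q) * (∑ r ∈ W0, om O r * mu O R' r))^(1/2+eps1) :=
    Real.rpow_nonneg (mul_nonneg n1 n2) _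
  calc 6 * L^2 * (60000 * KH 1 0 eps1) * Y^(22/1000:ℝ) *
        Real.exp ((1/2-eps1) * ((∑ p ∈ O, (p:ℝ)^(-(11/12):ℝ)) + ∑ p ∈ O', (p:ℝ)^(-(11/12):ℝ))) *
        ((∑ q ∈ V0, om O' q * mu O' R q) * (∑ r ∈ W0, om O r * mu O R' r))^(1/2+eps1)
      ≤ 6 * L^2 * (60000 * KH 1 0 eps1) * Y^(22/1000:ℝ) * 3 *
        (Real.exp (-(N * cc * Real.log N / 60)) *
          (Real.sqrt ((∑ q ∈ V, rd b c ρ q) * (∑ q ∈ W, rd b' c' ρ q)) *
          ((1 + ∑ q ∈ V, rd b c ρ q) * (1 + ∑ q ∈ W, rd b' c' ρ q)))) :=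
        mul_le_mul (mul_le_mul_of_nonneg_left hexp hpre) hfin hrp (by positivity)
    _ = _ := by ring

end items


/-! ### numbers -/

/-- numbers for the exact-false pairs of a stop -/
structure SF (CL : ℝ) (p₁ : ℕ) : Prop where
  lp : ∀ p : ℕ, p₁ ≤ p → 480 ≤ Real.log p
  ct : ∀ p : ℕ, p₁ ≤ p → 6 * (60000 * KH 1 0 eps1) * 3 ≤ Real.exp (p * ((p:ℝ)^(-(1/3):ℝ)/4))

lemma SF.mono {CL : ℝ} {p₁ p₂ : ℕ} (h : SF CL p₁) (h2 : p₁ ≤ p₂) : SF CL p₂ :=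
  ⟨fun p hp => h.lp p (h2.trans hp), fun p hp => h.ct p (h2.trans hp)⟩

lemma pcc_eq {x : ℝ} (hx : 0 < x) : x * (x^(-(1/3):ℝ)/4) = x^(2/3:ℝ)/4 := by
  have : x^(2/3:ℝ) = x * x^(-(1/3):ℝ) := by
    rw [show (2/3:ℝ) = 1 + (-(1/3)) by norm_num, Real.rpow_add hx, Real.rpow_one]
  rw [this]; ring

theorem exists_SF (CL : ℝ) : ∃ p₁ : ℕ, SF CL p₁ := by
  have e1 := Real.tendsto_log_atTop.eventually_ge_atTop (480:ℝ)
  have e2 : ∀ᶠ x : ℝ in Filter.atTop, 4 * Real.log (6 * (60000 * KH 1 0 eps1) * 3) ≤ x^(2/3:ℝ) :=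
    (tendsto_rpow_atTop (by norm_num : (0:ℝ) < 2/3)).eventually_ge_atTop _
  obtain ⟨x0, hx0⟩ := Filter.eventually_atTop.1 (e1.and (e2.and (Filter.eventually_ge_atTop (1:ℝ))))
  refine ⟨⌈x0⌉₊, fun p hp => ?_, fun p hp => ?_⟩
  · exact (hx0 p ((Nat.le_ceil x0).trans (by exact_mod_cast hp))).1
  · obtain ⟨g1, g2, g3⟩ := hx0 p ((Nat.le_ceil x0).trans (by exact_mod_cast hp))
    have hp0 : (0:ℝ) < p := by linarith
    rw [pcc_eq hp0]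
    have hKH := KH_pos 1 0 eps1
    rw [← Real.log_le_iff_le_exp (by positivity)]
    linarith

/-- the numbers of `ff_items` at a stop -/
lemma ff_num {N0 CL C2 c₀ : ℝ} {p₁ : ℕ} (hsc : SC N0 CL C2 c₀ p₁) (hsf : SF CL p₁) {p : ℕ}
    (hp : p₁ ≤ p) (hCL : 0 ≤ CL) (hc₀ : 0 < c₀) {Y : ℝ} (hY : 1 ≤ Y)
    (hYp : Y ≤ Real.exp (p * ((p:ℝ)^(-(1/3):ℝ)/4))) :
    (6 * (CL * Real.log p)^2 * (60000 * KH 1 0 eps1) * Y^(22/1000:ℝ) * 3 *
        Real.exp (-(p * ((p:ℝ)^(-(1/3):ℝ)/4) * Real.log p / 60))) *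
      (CL * Real.log p * (1/(2*c₀)) * (1 + CL * Real.log p * (Real.log p)^C2)^2) ≤ 1 := by
  have h1 := hsc.fin p hp
  have h2 := hsc.lg p hp
  have h3 := hsf.lp p hp
  have h4 := hsf.ct p hp
  set y : ℝ := p * ((p:ℝ)^(-(1/3):ℝ)/4) with hy
  have hy0 : 0 ≤ y := by rw [hy]; positivity
  have hKH := (KH_pos 1 0 eps1).le
  have hlogp : 0 ≤ Real.log p := by linarith
  set Z : ℝ := CL * Real.log p * (1/(2*c₀)) * (1 + CL * Real.log p * (Real.log p)^C2)^2 with hZ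
  have hZ0 : 0 ≤ Z := by rw [hZ]; positivity
  have h5 : Y^(22/1000:ℝ) ≤ Real.exp y := by
    have h6 : Y^(22/1000:ℝ) ≤ Y^(1:ℝ) := Real.rpow_le_rpow_of_exponent_le hY (by norm_num)
    rw [Real.rpow_one] at h6
    exact h6.trans hYp
  have h7 : Real.exp (-(y * Real.log p / 60)) ≤ Real.exp (-(8 * y)) := by
    apply Real.exp_le_exp.2
    nlinarith
  have hY0 : 0 ≤ Y^(22/1000:ℝ) := by positivity
  have key : 6 * (CL * Real.log p)^2 * (60000 * KH 1 0 eps1) * Y^(22/1000:ℝ) * 3 *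
      Real.exp (-(y * Real.log p / 60)) ≤ Real.exp (-(y/10)) := by
    calc 6 * (CL * Real.log p)^2 * (60000 * KH 1 0 eps1) * Y^(22/1000:ℝ) * 3 *
        Real.exp (-(y * Real.log p / 60))
        = (6 * (60000 * KH 1 0 eps1) * 3) * (CL * Real.log p)^2 * Y^(22/1000:ℝ) *
          Real.exp (-(y * Real.log p / 60)) := by ring
      _ ≤ Real.exp y * Real.exp (y/50) * Real.exp y * Real.exp (-(8 * y)) := by
          refine mul_le_mul (mul_le_mul (mul_le_mul h4 h2 (sq_nonneg _) (Real.exp_nonneg _)) h5 hY0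
            (by positivity)) h7 (Real.exp_nonneg _) (by positivity)
      _ = Real.exp (y + y/50 + y + -(8 * y)) := by
          rw [Real.exp_add, Real.exp_add, Real.exp_add]
      _ ≤ Real.exp (-(y/10)) := Real.exp_le_exp.2 (by linarith)
  calc _ ≤ Real.exp (-(y/10)) * Z := mul_le_mul_of_nonneg_right key hZ0
    _ ≤ 1 := h1

/-! ### a state -/

section state
open Crest.Agent.R4.Tour104 Crest.Agent.R4.Tour758 Crest.Agent.R4.Avg758 Crest.Agent.R4.Clos758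
open Crest.Agent.R4.ClosL758 Crest.Agent.R4.ClosG758 Crest.Agent.R4.ClosR758
open Crest.Agent.R4.Fam464 Crest.Agent.R4.Cnt588 Crest.Agent.R4.Walk560 Crest.Agent.R4.Piece464
open Crest.Agent.R4.GInst194 Crest.Agent.R4.WalkIT579 Crest.Agent.R4.GSt927 Crest.Agent.R4.NMW927
open Crest.Agent.R4.StopInv95 Crest.Agent.R4.OSWS245
open Crest.Agent.R4.Bld532 (NS All NodeOk Bk)

variable {Λ κ : Type*} [Fintype Λ] [DecidableEq Λ] [Fintype κ] [DecidableEq κ]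
  {D : Par Λ κ} {ρ : ℕ → ℝ} {Al : Finset ℕ}
variable [WRel κ] {sp : ℕ → Finset Λ} {s : St Λ κ} {P : Bld532.Par} {W : ℕ → ℝ}
  {U : ℕ → Finset ℕ} {CL C1 C2 c₀ N0 : ℝ} {p₁ : ℕ}

/-- `√(X X') (1 + X) (1 + X')` in terms of the masses -/
lemma ff_num2 {F0 X X' Φ Φ' L0 H E : ℝ} (hX0 : 0 ≤ X) (hX0' : 0 ≤ X')
    (hΦ : 0 ≤ Φ) (hΦ' : 0 ≤ Φ')
    (hL0 : 0 ≤ L0) (hX : X ≤ L0 * Φ) (hX' : X' ≤ L0 * Φ') (hH : X ≤ H) (hH' : X' ≤ H)
    (hE : 0 ≤ E) (hnum : E * (L0 * (1 + H)^2) ≤ 1)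
    (h0 : F0 ≤ E * (Real.sqrt (X * X') * ((1 + X) * (1 + X')))) :
    F0 ≤ (Φ + Φ')/2 := by
  have hH0 : 0 ≤ H := hX0.trans hH
  have a2 : Real.sqrt (X * X') ≤ L0 * ((Φ + Φ')/2) := by
    refine Real.sqrt_le_iff.2 ⟨by positivity, ?_⟩
    have h2 : X * X' ≤ (L0 * Φ) * (L0 * Φ') := mul_le_mul hX hX' hX0' (hX0.trans hX)
    have h3 : (L0 * Φ) * (L0 * Φ') = L0^2 * (Φ * Φ') := by ring
    have h4 : Φ * Φ' ≤ ((Φ + Φ')/2)^2 := by nlinarith [sq_nonneg (Φ - Φ')]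
    have h5 : L0^2 * (Φ * Φ') ≤ L0^2 * ((Φ + Φ')/2)^2 := mul_le_mul_of_nonneg_left h4 (sq_nonneg _)
    calc X * X' ≤ L0^2 * ((Φ + Φ')/2)^2 := by linarith
      _ = _ := by ring
  have a3 : (1 + X) * (1 + X') ≤ (1 + H)^2 := by
    rw [sq]
    exact mul_le_mul (by linarith) (by linarith) (by linarith) (by linarith)
  have h2 : Real.sqrt (X * X') * ((1 + X) * (1 + X')) ≤ (L0 * ((Φ + Φ')/2)) * (1 + H)^2 :=
    mul_le_mul a2 a3 (by positivity) (by positivity)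
  calc F0 ≤ E * (Real.sqrt (X * X') * ((1 + X) * (1 + X'))) := h0
    _ ≤ E * ((L0 * ((Φ + Φ')/2)) * (1 + H)^2) := mul_le_mul_of_nonneg_left h2 hE
    _ = (E * (L0 * (1 + H)^2)) * ((Φ + Φ')/2) := by ring
    _ ≤ 1 * ((Φ + Φ')/2) := mul_le_mul_of_nonneg_right hnum (by positivity)
    _ = _ := one_mul _

open Classical in
/-- **the exact-false pairs of a stopped state** -/
theorem ff_state (hsc : SC N0 CL C2 c₀ p₁) (hsf : SF CL p₁) {p n : ℕ} {Y : ℝ}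
    (hni : NI D ρ Al P W U CL C1 c₀ p)
    {u u' : NS} {τ τ' : IT} (hl : ¬ isL τ) (hl' : ¬ isL τ')
    (h : StI D sp s u.B u.A τ u'.B u'.A τ')
    (hI : IS D sp P W U s u u' τ τ')
    (hL : NSd D Al CL c₀ p u τ s.A) (hR : NSd D Al CL c₀ p u' τ' s.A')
    (hCL : 0 ≤ CL) (hhi : P.hi p ≤ (Real.log p)^C2)
    (hp : p₁ ≤ p) (htp : p = tp τ) (hn1 : 1 ≤ n)
    (hM : Squarefree s.M) (hM' : Squarefree s.M') {N N' : ℕ}
    (mL : MS N u.A τ.items s.M s.O') (mR : MS N' u'.A τ'.items s.M' s.O)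
    (hs : ∑ l ∈ s.O, (l:ℝ)^(-(11/12):ℝ) ≤ 1) (hs' : ∑ l ∈ s.O', (l:ℝ)^(-(11/12):ℝ) ≤ 1)
    (hO : OU U s.O τ'.items) (hO' : OU U s.O' τ.items)
    (hstop : (p:ℝ)^(-(1/3):ℝ) ≤ ∑ l ∈ s.O ∪ s.O', 1/(l:ℝ))
    (hY : 1 ≤ Y) (hYp : Y ≤ Real.exp (p * ((p:ℝ)^(-(1/3):ℝ)/4)))
    (E : Finset (ℕ × ℕ)) (hE : E ⊆ Qi D Al τ s.A ×ˢ Qi D Al τ' s.A')
    (hED : ∀ e ∈ E, Dq ρ s.M u.B u.A 1 s.M' u'.B u'.A 1 e ≤ 1/2^n)
    (hEm : ∀ e ∈ E, 1 < 2 * (Y * ((rf (e.1 / u.A) s.M : ℝ) * rf (e.2 / u'.A) s.M'))^10 *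
      Dq ρ s.M u.B u.A 1 s.M' u'.B u'.A 1 e) :
    ∑ e ∈ E, D.iF s.R (D.uA s.M u.B u.A τ s.A 1) (D.uA s.M' u'.B u'.A τ' s.A' 1) e ≤
      ((∑ j ∈ s.A, mI s.t j) + ∑ j ∈ s.A', mI s.t' j) / 2 := by
  classical
  set cc : ℝ := (p:ℝ)^(-(1/3):ℝ)/4 with hcc
  set F : ℕ × ℕ → ℝ := D.iF s.R (D.uA s.M u.B u.A τ s.A 1) (D.uA s.M' u'.B u'.A τ' s.A' 1) with hFdef
  have mnn : ∀ (d : DT Λ κ), d.g.Ok → ∀ j, 0 ≤ mI d j := fun d hd j => by
    unfold mI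
    exact I_nonneg fun x => (hd.pb j).nonneg x
  have okL : s.t.g.Ok := by rw [h.L.eq, D.toDT_g]; exact D.toG_Ok h.L.hb h.L.hF h.L.hW
  have okR : s.t'.g.Ok := by rw [h.R.eq, D.toDT_g]; exact D.toG_Ok h.R.hb h.R.hF h.R.hW
  have nΦ : 0 ≤ ∑ j ∈ s.A, mI s.t j := Finset.sum_nonneg fun j _ => mnn _ okL j
  have nΦ' : 0 ≤ ∑ j ∈ s.A', mI s.t' j := Finset.sum_nonneg fun j _ => mnn _ okR j
  -- the pieces of the estimate
  obtain ⟨G, hG, tL, tR⟩ := hI.tame h.M0 h.M0'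
  obtain ⟨H, eM, hH, dH, -, pO⟩ := mL
  obtain ⟨H', eM', hH', dH', -, pO'⟩ := mR
  have q1 := hI.qL.self
  have q2 := hI.qR.self
  have top1 := top_of_nodeOk q1.1 hl
  have top2 := top_of_nodeOk q2.1 hl'
  have etp : tp τ = tp τ' := tp_eq q1.1 q2.1 hl hl' hI.n_eq
  rw [← htp] at top1
  rw [← etp, ← htp] at top2
  have hpp : p.Prime := top1.1
  have hp0 : 0 < p := hpp.pos
  have bkL := bk_of_nodeOk q1.1
  have bkR := bk_of_nodeOk q2.1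
  have bB : 0 < u.B := h.L.hb
  have bB' : 0 < u'.B := h.R.hb
  have lev : ∀ z : ℝ, (p:ℝ) ≤ z → ∀ l : ℕ, l.Prime → z < l → u.n ≤ l := by
    intro z hz l hl hzl
    by_contra hc
    push Not at hc
    have h3 : l ≤ p := top1.2.2 l hl hc
    have : (l:ℝ) ≤ p := by exact_mod_cast h3
    linarith
  have sqL : ∀ q ∈ τ.items, Squarefree q := fun q hq => (q1.2 q hq).1
  have sqR : ∀ q ∈ τ'.items, Squarefree q := fun q hq => (q2.2 q hq).1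
  have itL : ∀ q ∈ Qi D Al τ s.A, q ∈ τ.items := fun q hq => (mem_Qi.1 hq).1
  have itR : ∀ q ∈ Qi D Al τ' s.A', q ∈ τ'.items := fun q hq => (mem_Qi.1 hq).1
  have hOge : ∀ l ∈ s.O, l.Prime ∧ p < l := fun l hl => ⟨(pO' l hl).1, top1.2.1.trans_le
    (hI.geM' l (pO' l hl).1 ((Finset.dvd_prod_of_mem _ hl).trans (eM' ▸ Dvd.intro_left _ rfl)))⟩
  have hOge' : ∀ l ∈ s.O', l.Prime ∧ p < l := fun l hl => ⟨(pO l hl).1, top1.2.1.trans_le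
    (hI.geM l (pO l hl).1 ((Finset.dvd_prod_of_mem _ hl).trans (eM ▸ Dvd.intro_left _ rfl)))⟩
  have hMp : ∀ l : ℕ, l.Prime → l ∣ ∏ l ∈ s.O', l → p ≤ l := fun l hl hd =>
    (top1.2.1.le).trans (hI.geM l hl (hd.trans (eM ▸ Dvd.intro_left _ rfl)))
  have hMp' : ∀ l : ℕ, l.Prime → l ∣ ∏ l ∈ s.O, l → p ≤ l := fun l hl hd =>
    (top1.2.1.le).trans (hI.geM' l hl (hd.trans (eM' ▸ Dvd.intro_left _ rfl)))
  have w0L : ∀ q ∈ Qi D Al τ s.A, 0 < q / u.A := fun q hq => by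
    have hq0 := (h.L.hF.item q (mem_Qi.1 hq).1)
    exact Nat.div_pos (Nat.le_of_dvd hq0.1 hq0.2.1) (Nat.pos_of_dvd_of_pos hq0.2.1 hq0.1)
  have w0R : ∀ q ∈ Qi D Al τ' s.A', 0 < q / u'.A := fun q hq => by
    have hq0 := (h.R.hF.item q (mem_Qi.1 hq).1)
    exact Nat.div_pos (Nat.le_of_dvd hq0.1 hq0.2.1) (Nat.pos_of_dvd_of_pos hq0.2.1 hq0.1)
  have hlogp0 : 0 ≤ Real.log p := Real.log_natCast_nonneg p
  have logp : 0 ≤ CL * Real.log p := mul_nonneg hCL hlogp0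
  have dvL : ∀ q ∈ Qi D Al τ s.A, 0 < q ∧ u.A * H ∣ q := fun q hq => by
    have hq0 := (h.L.hF.item q (mem_Qi.1 hq).1)
    refine ⟨hq0.1, ?_⟩
    obtain ⟨w, hw⟩ := dH q (itL q hq)
    exact ⟨w, by rw [mul_assoc, ← hw, Nat.mul_div_cancel' hq0.2.1]⟩
  have dvR : ∀ q ∈ Qi D Al τ' s.A', 0 < q ∧ u'.A * H' ∣ q := fun q hq => by
    have hq0 := (h.R.hF.item q (mem_Qi.1 hq).1)
    refine ⟨hq0.1, ?_⟩
    obtain ⟨w, hw⟩ := dH' q (itR q hq)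
    exact ⟨w, by rw [mul_assoc, ← hw, Nat.mul_div_cancel' hq0.2.1]⟩
  have quoL : ∀ q ∈ Qi D Al τ s.A, q / u.A / s.M.gcd (q / u.A) =
      q / (u.A * H) / (∏ l ∈ s.O', l).gcd (q / (u.A * H)) := fun q hq => by
    rw [eM]; exact quo_G (dH q (itL q hq)) hH
  have quoR : ∀ q ∈ Qi D Al τ' s.A', q / u'.A / s.M'.gcd (q / u'.A) =
      q / (u'.A * H') / (∏ l ∈ s.O, l).gcd (q / (u'.A * H')) := fun q hq => by
    rw [eM']; exact quo_G (dH' q (itR q hq)) hH'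
  have lgL : ∀ q ∈ Qi D Al τ s.A, 1 ≤ CL * Real.log p * tq (q / u.A) := fun q hq =>
    hL.lg q (mem_Qi.1 hq).2.1 (itL q hq)
  have lgR : ∀ q ∈ Qi D Al τ' s.A', 1 ≤ CL * Real.log p * tq (q / u'.A) := fun q hq =>
    hR.lg q (mem_Qi.1 hq).2.1 (itR q hq)
  have hlog2 : 0 < Real.log 2 := Real.log_pos (by norm_num)
  have lL' : ∀ q ∈ Qi D Al τ s.A, 1 ≤ CL * Real.log p *
      tq (q / (u.A * H) / (∏ l ∈ s.O', l).gcd (q / (u.A * H))) := by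
    intro q hq
    rw [← quoL q hq]
    refine (lgL q hq).trans ?_
    exact mul_le_mul_of_nonneg_left (tq_mono (Nat.div_dvd_of_dvd (Nat.gcd_dvd_right _ _))
      (w0L q hq)) logp
  have lR' : ∀ q ∈ Qi D Al τ' s.A', 1 ≤ CL * Real.log p *
      tq (q / (u'.A * H') / (∏ l ∈ s.O, l).gcd (q / (u'.A * H'))) := by
    intro q hq
    rw [← quoR q hq]
    refine (lgR q hq).trans ?_
    exact mul_le_mul_of_nonneg_left (tq_mono (Nat.div_dvd_of_dvd (Nat.gcd_dvd_right _ _))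
      (w0R q hq)) logp
  have hFpb : ∀ e ∈ Qi D Al τ s.A ×ˢ Qi D Al τ' s.A', F e ≤
      D.pb ρ (∏ l ∈ s.O', l) u.B (u.A * H) 1 e.1 (∏ l ∈ s.O, l) u'.B (u'.A * H') 1 e.2 := by
    intro e he
    obtain ⟨h1, h2⟩ := Finset.mem_product.1 he
    have k1 := iF_le hni.rad h.M0 h.M0' h.L.hb h.R.hb h.L.hF h.R.hF h.L.hW h.R.hW
      (one_dvd u.B) (one_dvd u'.B) s.R s.A s.A' e (mem_Qi.1 h1).1 (mem_Qi.1 h2).1
    refine k1.trans (le_of_eq ?_)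
    unfold Item758.Par.pb
    rw [eM, eM']
    exact pbd_G (dH _ (itL _ h1)) hH (dH' _ (itR _ h2)) hH'
  have sqO' : Squarefree (∏ l ∈ s.O', l) := hM.squarefree_of_dvd (eM ▸ Dvd.intro_left _ rfl)
  have sqO : Squarefree (∏ l ∈ s.O, l) := hM'.squarefree_of_dvd (eM' ▸ Dvd.intro_left _ rfl)
  have pfO' : (∏ l ∈ s.O', l).primeFactors = s.O' := Nat.primeFactors_prod fun l hl => (pO l hl).1
  have pfO : (∏ l ∈ s.O, l).primeFactors = s.O := Nat.primeFactors_prod fun l hl => (pO' l hl).1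
  have eD : ∀ e ∈ Qi D Al τ s.A ×ˢ Qi D Al τ' s.A',
      Dq ρ s.M u.B u.A 1 s.M' u'.B u'.A 1 e = Dq ρ (∏ l ∈ s.O', l) u.B (u.A * H) 1 (∏ l ∈ s.O, l)
        u'.B (u'.A * H') 1 e := by
    intro e he
    obtain ⟨h1, h2⟩ := Finset.mem_product.1 he
    obtain ⟨d1, d2, d3⟩ := dat_G (ρ := ρ) (γ := D.γ) (n := n) (M₀ := ∏ l ∈ s.O', l)
      (M₀' := ∏ l ∈ s.O, l) (b := u.B) (b' := u'.B) (c := 1) (c' := 1) (e := e)
      (dH _ (itL _ h1)) hH (dH' _ (itR _ h2)) hH'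
    rw [eM, eM', d1]
  have hst0 := hsc.st p hp
  have hpp1 : (1:ℝ) ≤ p := by exact_mod_cast hpp.one_lt.le
  have hcc0 : 0 ≤ cc := by rw [hcc]; positivity
  have hsum : ∑ l ∈ s.O ∪ s.O', 1/(l:ℝ) ≤ ∑ l ∈ s.O, 1/(l:ℝ) + ∑ l ∈ s.O', 1/(l:ℝ) := by
    rw [← Finset.sum_union_inter]
    have : 0 ≤ ∑ l ∈ s.O ∩ s.O', 1/(l:ℝ) := Finset.sum_nonneg fun l _ => by positivity
    linarith
  have hc2 := hsc.cc p hp
  have hcm : (∀ q ∈ Qi D Al τ' s.A', cc ≤ ∑ l ∈ (∏ l ∈ s.O, l).primeFactors.filter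
        (fun l => ¬ l ∣ q / (u'.A * H')), 1/(l:ℝ)) ∨
      (∀ q ∈ Qi D Al τ s.A, cc ≤ ∑ l ∈ (∏ l ∈ s.O', l).primeFactors.filter
        (fun l => ¬ l ∣ q / (u.A * H)), 1/(l:ℝ)) := by
    rcases le_total (∑ l ∈ s.O', 1/(l:ℝ)) (∑ l ∈ s.O, 1/(l:ℝ)) with hcase | hcase
    · left
      intro q hq
      rw [pfO]
      obtain ⟨h1, h2, -⟩ := mem_Qi.1 hq
      refine miss_mass hO (p := p) (Nat.div_dvd_of_dvd (dvR q hq).2) h1 hOge ?_ (hni.U q h2 p le_rfl)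
      linarith
    · right
      intro q hq
      rw [pfO']
      obtain ⟨h1, h2, -⟩ := mem_Qi.1 hq
      refine miss_mass hO' (p := p) (Nat.div_dvd_of_dvd (dvL q hq).2) h1 hOge' ?_ (hni.U q h2 p le_rfl)
      linarith
  have hhalf : ∀ e ∈ E, Dq ρ s.M u.B u.A 1 s.M' u'.B u'.A 1 e ≤ 1/2 := fun e he => by
    refine (hED e he).trans ?_
    apply one_div_le_one_div_of_le (by norm_num)
    calc (2:ℝ) = 2^1 := (pow_one _).symm
      _ ≤ 2^n := pow_le_pow_right₀ (by norm_num) hn1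
  have main := ff_items (ρ := ρ) (F := F) (L := CL * Real.log p) (cc := cc) (Y := Y) (N := p)
    (M := ∏ l ∈ s.O', l) (M' := ∏ l ∈ s.O, l) (pr := u.A * H) (pr' := u'.A * H') (b := u.B)
    (b' := u'.B) (c := 1) (c' := 1) (V := Qi D Al τ s.A) (W := Qi D Al τ' s.A')
    hp0 hcc0 hY logp hni.rad.pos bB one_pos bB' one_pos
    sqO' sqO hMp hMp' (by rw [pfO']; exact hs') (by rw [pfO]; exact hs) dvL dvR lL' lR' hcm E hE
    (fun e he => by rw [← eD e (hE he)]; linarith [hhalf e he])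
    (fun e he => by
      obtain ⟨h1, h2⟩ := Finset.mem_product.1 (hE he)
      rw [← eD e (hE he), ← rf_G (M₀ := ∏ l ∈ s.O', l) (dH _ (itL _ h1)) hH,
        ← rf_G (M₀ := ∏ l ∈ s.O, l) (dH' _ (itR _ h2)) hH', ← eM, ← eM']
      exact hEm e he)
    (fun e he => by
      have h1 := hFpb e (hE he)
      rw [pb_rd] at h1
      have r1 : 0 ≤ rd u.B 1 ρ e.1 := by
        rw [rd_one]; exact mul_nonneg (Nat.cast_nonneg _) (hni.rad.pos _).le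
      have r2 : 0 ≤ rd u'.B 1 ρ e.2 := by
        rw [rd_one]; exact mul_nonneg (Nat.cast_nonneg _) (hni.rad.pos _).le
      have h3 := pbd_le (θ := (u.B : ℝ) / (1:ℕ) * D.γ) (θ' := (u'.B : ℝ) / (1:ℕ) * D.γ)
        (w := e.1 / (u.A * H)) (M := ∏ l ∈ s.O', l)
        (w' := e.2 / (u'.A * H')) (M' := ∏ l ∈ s.O, l) r1 r2 (T := 1) (by norm_num)
        (show Dq ρ (∏ l ∈ s.O', l) u.B (u.A * H) 1 (∏ l ∈ s.O, l) u'.B (u'.A * H') 1 e ≤ 1 by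
          rw [← eD e (hE he)]; linarith [hhalf e he])
      refine h1.trans (h3.trans (le_of_eq ?_))
      have e6 : (4 * (1:ℝ) + 2) = 6 := by norm_num
      rw [e6]
      rfl)
  have xX : ∀ (b pr : ℕ) (S : Finset ℕ), (∀ q ∈ S, 1 ≤ CL * Real.log p * tq (q / pr)) →
      ∑ q ∈ S, rd b 1 ρ q ≤ CL * Real.log p * ∑ q ∈ S, rd b 1 ρ q * tq (q / pr) := by
    intro b pr S hS
    rw [Finset.mul_sum]
    refine Finset.sum_le_sum fun q hq => ?_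
    have h1 : 0 ≤ rd b 1 ρ q := by
      rw [rd_one]
      exact mul_nonneg (Nat.cast_nonneg _) (hni.rad.pos q).le
    calc rd b 1 ρ q = rd b 1 ρ q * 1 := (mul_one _).symm
      _ ≤ rd b 1 ρ q * (CL * Real.log p * tq (q / pr)) := mul_le_mul_of_nonneg_left (hS q hq) h1
      _ = _ := by ring
  have x0 : ∀ (b : ℕ) (S : Finset ℕ), 0 ≤ ∑ q ∈ S, rd b 1 ρ q := fun b S =>
    Finset.sum_nonneg fun q _ => by
      rw [rd_one]
      exact mul_nonneg (Nat.cast_nonneg _) (hni.rad.pos q).le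
  have mL1 := (xX u.B u.A _ lgL).trans (mul_le_mul_of_nonneg_left
    (rad_le_mass hni.ab h.L sqL hni.c0 hL.mean hni.full hL.il (mnn _ okL)) logp)
  have mR1 := (xX u'.B u'.A _ lgR).trans (mul_le_mul_of_nonneg_left
    (rad_le_mass hni.ab h.R sqR hni.c0 hR.mean hni.full hR.il (mnn _ okR)) logp)
  have hiL : u.c * Ws W τ.items ≤ (Real.log p)^C2 := by
    refine (hi_of_nodeOk q1.1 hl).trans ?_
    rw [← htp]; exact hhi
  have hiR : u'.c * Ws W τ'.items ≤ (Real.log p)^C2 := by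
    refine (hi_of_nodeOk q2.1 hl').trans ?_
    rw [← etp, ← htp]; exact hhi
  have mL2 := (xX u.B u.A _ lgL).trans (mul_le_mul_of_nonneg_left
    ((rad_le_raw (D := D) (ρ := ρ) bkL sqL hni.W0 hni.Wρ s.A).trans hiL) logp)
  have mR2 := (xX u'.B u'.A _ lgR).trans (mul_le_mul_of_nonneg_left
    ((rad_le_raw (D := D) (ρ := ρ) bkR sqR hni.W0 hni.Wρ s.A').trans hiR) logp)
  exact ff_num2 (L0 := CL * Real.log p * (1/(2*c₀))) (H := CL * Real.log p * (Real.log p)^C2)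
    (x0 _ _) (x0 _ _) nΦ nΦ' (mul_nonneg logp (by have := hni.c0; positivity))
    (mL1.trans (le_of_eq (by ring))) (mR1.trans (le_of_eq (by ring))) mL2 mR2
    (by have := (KH_pos 1 0 eps1).le; positivity) (ff_num hsc hsf hp hCL hni.c0 hY hYp) main


/-- the `[F]` pairs of a stopped state: payable (with the factor `Y` = previous column) or named by `Qf` -/
def FSY (D : Par Λ κ) (ρ : ℕ → ℝ) (n : ℕ) (Y : ℝ) (s : St Λ κ) (b pr : ℕ) (t : IT) (b' pr' : ℕ)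
    (t' : IT) (Qf : ℕ × ℕ → Prop) : Prop :=
  ∀ e : ℕ × ℕ, e.1 ∈ t.items → e.2 ∈ t'.items → Dq ρ s.M b pr 1 s.M' b' pr' 1 e ≤ 1/2^n →
    0 < D.iF s.R (D.uA s.M b pr t s.A 1) (D.uA s.M' b' pr' t' s.A' 1) e →
    FSI D.γ ρ n s.M b pr 1 s.M' b' pr' 1 e →
    1 < 2 * (Y * ((rf (e.1 / pr) s.M : ℝ) * rf (e.2 / pr') s.M'))^10 *
      Dq ρ s.M b pr 1 s.M' b' pr' 1 e ∨ Qf e

open Classical in
/-- **STOP at a state, final form** -/
theorem stop_state2 (hst : StopCls N0) (hsc : SC N0 CL C2 c₀ p₁) (hsf : SF CL p₁) {p n : ℕ}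
    {T Ch e₃ Y : ℝ} {Qf : ℕ × ℕ → Prop}
    (hni : NI D ρ Al P W U CL C1 c₀ p)
    {u u' : NS} {τ τ' : IT} (hl : ¬ isL τ) (hl' : ¬ isL τ')
    (h : StI D sp s u.B u.A τ u'.B u'.A τ')
    (hI : IS D sp P W U s u u' τ τ')
    (hL : NSd D Al CL c₀ p u τ s.A) (hR : NSd D Al CL c₀ p u' τ' s.A')
    (hCL : 0 ≤ CL) (hhi : P.hi p ≤ (Real.log p)^C2)
    (hp : p₁ ≤ p) (htp : p = tp τ)
    (hn : n = ⌊100 * (p * ((p:ℝ)^(-(1/3):ℝ)/4)) / Real.log 2⌋₊)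
    (hM : Squarefree s.M) (hM' : Squarefree s.M') {N N' : ℕ}
    (mL : MS N u.A τ.items s.M s.O') (mR : MS N' u'.A τ'.items s.M' s.O)
    (hs : ∑ l ∈ s.O, (l:ℝ)^(-(11/12):ℝ) ≤ 1) (hs' : ∑ l ∈ s.O', (l:ℝ)^(-(11/12):ℝ) ≤ 1)
    (hO : OU U s.O τ'.items) (hO' : OU U s.O' τ.items)
    (hstop : (p:ℝ)^(-(1/3):ℝ) ≤ ∑ l ∈ s.O ∪ s.O', 1/(l:ℝ))
    (hT1 : 1 ≤ T) (hT : T ≤ Real.exp (p * ((p:ℝ)^(-(1/3):ℝ)/4)/20))
    (hY : 1 ≤ Y) (hYp : Y ≤ Real.exp (p * ((p:ℝ)^(-(1/3):ℝ)/4)))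
    (hFS : FSY D ρ n Y s u.B u.A τ u'.B u'.A τ' Qf)
    (hCh : 0 ≤ Ch) (he₃ : 0 ≤ e₃) (he : e₃ * (CL * Real.log p * (1/(2*c₀)))^2 ≤ 1)
    (hhigh : ∑ e ∈ (Qi D Al τ s.A ×ˢ Qi D Al τ' s.A').filter (fun e =>
        T < Dq ρ s.M u.B u.A 1 s.M' u'.B u'.A 1 e),
        D.iF s.R (D.uA s.M u.B u.A τ s.A 1) (D.uA s.M' u'.B u'.A τ' s.A' 1) e ≤
      Ch * ((∑ j ∈ s.A, mI s.t j) * ∑ j ∈ s.A', mI s.t' j) +
      e₃ * ((∑ q ∈ Qi D Al τ s.A, u.B * ρ q) * ∑ q ∈ Qi D Al τ' s.A', u'.B * ρ q))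
    {ν ν' : ℝ} (hν : 0 ≤ ν) (hν' : 0 ≤ ν') :
    Qs s ≤ (Ch + 2) * Lh (∑ j ∈ s.A, mI s.t j) ν (∑ j ∈ s.A', mI s.t' j) ν' +
      ∑ e ∈ (Qi D Al τ s.A ×ˢ Qi D Al τ' s.A').filter (fun e =>
        0 < D.iF s.R (D.uA s.M u.B u.A τ s.A 1) (D.uA s.M' u'.B u'.A τ' s.A' 1) e ∧
        (Dq ρ s.M u.B u.A 1 s.M' u'.B u'.A 1 e ≤ 1/2^n ∧ Qf e)),
        D.iF s.R (D.uA s.M u.B u.A τ s.A 1) (D.uA s.M' u'.B u'.A τ' s.A' 1) e := by
  classical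
  set F : ℕ × ℕ → ℝ := D.iF s.R (D.uA s.M u.B u.A τ s.A 1) (D.uA s.M' u'.B u'.A τ' s.A' 1) with hFdef
  have one_le : ∀ O : Finset ℕ, (∀ l ∈ O, l.Prime) → ∑ l ∈ O, (l:ℝ)^(-(11/12):ℝ) ≤ 1 →
      ∑ l ∈ O, 1/(l:ℝ) ≤ 1 := by
    intro O hO h1
    refine (Finset.sum_le_sum fun l hl => ?_).trans h1
    have h2 : (1:ℝ) ≤ l := by exact_mod_cast (hO l hl).one_lt.le
    rw [one_div, ← Real.rpow_neg_one]
    exact Real.rpow_le_rpow_of_exponent_le h2 (by norm_num)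
  have pr1 : ∀ l ∈ s.O, l.Prime := by obtain ⟨_, _, _, _, _, h2⟩ := mR; exact fun l hl => (h2 l hl).1
  have pr2 : ∀ l ∈ s.O', l.Prime := by obtain ⟨_, _, _, _, _, h2⟩ := mL; exact fun l hl => (h2 l hl).1
  have key := stop_state hst hsc hni hl hl' h hI hL hR hCL hhi hp htp hn hM hM' mL mR
    (one_le _ pr1 hs) (one_le _ pr2 hs') hO hO' hstop hT1 hT hCh he₃ he hhigh hν hν'
  have hn1 : 1 ≤ n := by
    have hlog2 : 0 < Real.log 2 := Real.log_pos (by norm_num)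
    have hst0 := hsc.st p hp
    have top1 := top_of_nodeOk hI.qL.self.1 hl
    rw [← htp] at top1
    have hpp1 : (1:ℝ) ≤ p := by exact_mod_cast top1.1.one_lt.le
    have hs1 : 1 ≤ Real.sqrt p := Real.one_le_sqrt.2 hpp1
    rw [hn]
    apply Nat.le_floor
    rw [Nat.cast_one, le_div_iff₀ hlog2]
    have := Real.log_two_lt_d9
    nlinarith
  set E0 := (Qi D Al τ s.A ×ˢ Qi D Al τ' s.A').filter (fun e => 0 < F e ∧
        (Dq ρ s.M u.B u.A 1 s.M' u'.B u'.A 1 e ≤ 1/2^n ∧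
          FSI D.γ ρ n s.M u.B u.A 1 s.M' u'.B u'.A 1 e)) with hE0
  set E1 := E0.filter (fun e => 1 < 2 * (Y * ((rf (e.1 / u.A) s.M : ℝ) * rf (e.2 / u'.A) s.M'))^10 *
      Dq ρ s.M u.B u.A 1 s.M' u'.B u'.A 1 e) with hE1
  have hsub : E1 ⊆ Qi D Al τ s.A ×ˢ Qi D Al τ' s.A' := fun e he =>
    (Finset.mem_filter.1 (Finset.mem_filter.1 he).1).1
  have ff := ff_state hsc hsf hni hl hl' h hI hL hR hCL hhi hp htp hn1 hM hM' mL mR hs hs' hO hO'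
    hstop hY hYp E1 hsub (fun e he => (Finset.mem_filter.1 (Finset.mem_filter.1 he).1).2.2.1)
    (fun e he => (Finset.mem_filter.1 he).2)
  have split : ∑ e ∈ E0, F e ≤ ∑ e ∈ E1, F e +
      ∑ e ∈ (Qi D Al τ s.A ×ˢ Qi D Al τ' s.A').filter (fun e => 0 < F e ∧
        (Dq ρ s.M u.B u.A 1 s.M' u'.B u'.A 1 e ≤ 1/2^n ∧ Qf e)), F e := by
    rw [← Finset.sum_filter_add_sum_filter_not E0 (fun e => 1 < 2 * (Y *
      ((rf (e.1 / u.A) s.M : ℝ) * rf (e.2 / u'.A) s.M'))^10 *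
      Dq ρ s.M u.B u.A 1 s.M' u'.B u'.A 1 e)]
    refine add_le_add le_rfl ?_
    refine Finset.sum_le_sum_of_subset_of_nonneg ?_ fun e he _ => (Finset.mem_filter.1 he).2.1.le
    intro e he
    obtain ⟨h1, h2⟩ := Finset.mem_filter.1 he
    obtain ⟨h3, h4, h5, h6⟩ := Finset.mem_filter.1 h1
    obtain ⟨k1, k2⟩ := Finset.mem_product.1 h3
    refine Finset.mem_filter.2 ⟨h3, h4, h5, ?_⟩
    rcases hFS e (mem_Qi.1 k1).1 (mem_Qi.1 k2).1 h5 h4 h6 with h7 | h7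
    · exact absurd h7 h2
    · exact h7
  have mnn : ∀ (d : DT Λ κ), d.g.Ok → ∀ j, 0 ≤ mI d j := fun d hd j => by
    unfold mI
    exact I_nonneg fun x => (hd.pb j).nonneg x
  have okL : s.t.g.Ok := by rw [h.L.eq, D.toDT_g]; exact D.toG_Ok h.L.hb h.L.hF h.L.hW
  have okR : s.t'.g.Ok := by rw [h.R.eq, D.toDT_g]; exact D.toG_Ok h.R.hb h.R.hF h.R.hW
  have nΦ : 0 ≤ ∑ j ∈ s.A, mI s.t j := Finset.sum_nonneg fun j _ => mnn _ okL j
  have nΦ' : 0 ≤ ∑ j ∈ s.A', mI s.t' j := Finset.sum_nonneg fun j _ => mnn _ okR j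
  have hLh : ((∑ j ∈ s.A, mI s.t j) + ∑ j ∈ s.A', mI s.t' j) / 2 ≤
      Lh (∑ j ∈ s.A, mI s.t j) ν (∑ j ∈ s.A', mI s.t' j) ν' := by
    unfold Lh
    have a1 := mul_nonneg nΦ nΦ'
    have a2 := mul_nonneg nΦ hν'
    have a3 := mul_nonneg hν nΦ'
    linarith
  have e1 : (Ch + 2) * Lh (∑ j ∈ s.A, mI s.t j) ν (∑ j ∈ s.A', mI s.t' j) ν' =
      (Ch + 1) * Lh (∑ j ∈ s.A, mI s.t j) ν (∑ j ∈ s.A', mI s.t' j) ν' +
      Lh (∑ j ∈ s.A, mI s.t j) ν (∑ j ∈ s.A', mI s.t' j) ν' := by ring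
  rw [e1]
  linarith

open Classical in
/-- **the stop symbol vanishes** (up to the named pairs) -/
theorem eSTOP_le2 (hst : StopCls N0) (hsc : SC N0 CL C2 c₀ p₁) (hsf : SF CL p₁) {n : ℕ}
    {T Ch e₃ Y : ℝ} {Qf : ℕ × ℕ → Prop}
    (hni : NI D ρ Al P W U CL C1 c₀ s.p)
    {u u' : NS} {τ τ' : IT}
    (h : StI D sp s u.B u.A τ u'.B u'.A τ')
    (hI : IS D sp P W U s u u' τ τ')
    (hL : NSd D Al CL c₀ s.p u τ s.A) (hR : NSd D Al CL c₀ s.p u' τ' s.A')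
    (hCL : 0 ≤ CL) (hhi : P.hi s.p ≤ (Real.log s.p)^C2)
    (hp : p₁ ≤ s.p)
    (hn : n = ⌊100 * (s.p * ((s.p:ℝ)^(-(1/3):ℝ)/4)) / Real.log 2⌋₊)
    (hM : Squarefree s.M) (hM' : Squarefree s.M') {N N' : ℕ}
    (mL : MS N u.A τ.items s.M s.O') (mR : MS N' u'.A τ'.items s.M' s.O)
    (hs : ∑ l ∈ s.O, (l:ℝ)^(-(11/12):ℝ) ≤ 1) (hs' : ∑ l ∈ s.O', (l:ℝ)^(-(11/12):ℝ) ≤ 1)
    (hO : OU2 U s τ τ')
    {stp : St Λ κ → Prop} (hstp : stp s → stpM s)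
    (hT1 : 1 ≤ T) (hT : T ≤ Real.exp (s.p * ((s.p:ℝ)^(-(1/3):ℝ)/4)/20))
    (hY : 1 ≤ Y) (hYp : Y ≤ Real.exp (s.p * ((s.p:ℝ)^(-(1/3):ℝ)/4)))
    (hFS : FSY D ρ n Y s u.B u.A τ u'.B u'.A τ' Qf)
    (hCh : 0 ≤ Ch) (he₃ : 0 ≤ e₃) (he : e₃ * (CL * Real.log s.p * (1/(2*c₀)))^2 ≤ 1)
    (hhigh : ∑ e ∈ (Qi D Al τ s.A ×ˢ Qi D Al τ' s.A').filter (fun e =>
        T < Dq ρ s.M u.B u.A 1 s.M' u'.B u'.A 1 e),
        D.iF s.R (D.uA s.M u.B u.A τ s.A 1) (D.uA s.M' u'.B u'.A τ' s.A' 1) e ≤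
      Ch * ((∑ j ∈ s.A, mI s.t j) * ∑ j ∈ s.A', mI s.t' j) +
      e₃ * ((∑ q ∈ Qi D Al τ s.A, u.B * ρ q) * ∑ q ∈ Qi D Al τ' s.A', u'.B * ρ q))
    {μ : TrG Λ κ → Finset Λ → ℝ} {ν : TrG Λ κ → ℝ} {B : ℝ} (hB : Ch + 2 ≤ B)
    (hμ : ∑ j ∈ s.A, mI s.t j ≤ μ s.t.g s.A) (hμ' : ∑ j ∈ s.A', mI s.t' j ≤ μ s.t'.g s.A')
    (hν : 0 ≤ ν s.t.g) (hν' : 0 ≤ ν s.t'.g) :
    eSTOP stp μ ν B s ≤
      ∑ e ∈ (Qi D Al τ s.A ×ˢ Qi D Al τ' s.A').filter (fun e =>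
        0 < D.iF s.R (D.uA s.M u.B u.A τ s.A 1) (D.uA s.M' u'.B u'.A τ' s.A' 1) e ∧
        (Dq ρ s.M u.B u.A 1 s.M' u'.B u'.A 1 e ≤ 1/2^n ∧ Qf e)),
        D.iF s.R (D.uA s.M u.B u.A τ s.A 1) (D.uA s.M' u'.B u'.A τ' s.A' 1) e := by
  have hsum0 : 0 ≤ ∑ e ∈ (Qi D Al τ s.A ×ˢ Qi D Al τ' s.A').filter (fun e =>
        0 < D.iF s.R (D.uA s.M u.B u.A τ s.A 1) (D.uA s.M' u'.B u'.A τ' s.A' 1) e ∧
        (Dq ρ s.M u.B u.A 1 s.M' u'.B u'.A 1 e ≤ 1/2^n ∧ Qf e)),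
        D.iF s.R (D.uA s.M u.B u.A τ s.A 1) (D.uA s.M' u'.B u'.A τ' s.A' 1) e :=
    Finset.sum_nonneg fun e he => (Finset.mem_filter.1 he).2.1.le
  unfold eSTOP
  split_ifs with h1 h2
  · exact hsum0
  swap
  · exact hsum0
  have hl : ¬ isL τ := fun h3 => h1 (Or.inl (by rw [hI.tL]; exact (toDT_leaf D sp _ _ τ).2 h3))
  have hl' : ¬ isL τ' := fun h3 => h1 (Or.inr (by rw [hI.tR]; exact (toDT_leaf D sp _ _ τ').2 h3))
  have etp : tp τ = tp τ' := tp_eq hI.qL.self.1 hI.qR.self.1 hl hl' hI.n_eq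
  have hsp' : s.p = tp τ := by
    unfold St.p
    rw [hI.tL, hI.tR, WalkIT579.toDT_top, WalkIT579.toDT_top, ← etp, max_self]
  have mnn : ∀ (d : DT Λ κ), d.g.Ok → ∀ j, 0 ≤ mI d j := fun d hd j => by
    unfold mI
    exact I_nonneg fun x => (hd.pb j).nonneg x
  have okL : s.t.g.Ok := by rw [h.L.eq, D.toDT_g]; exact D.toG_Ok h.L.hb h.L.hF h.L.hW
  have okR : s.t'.g.Ok := by rw [h.R.eq, D.toDT_g]; exact D.toG_Ok h.R.hb h.R.hF h.R.hW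
  have nΦ : 0 ≤ ∑ j ∈ s.A, mI s.t j := Finset.sum_nonneg fun j _ => mnn _ okL j
  have nΦ' : 0 ≤ ∑ j ∈ s.A', mI s.t' j := Finset.sum_nonneg fun j _ => mnn _ okR j
  have key := stop_state2 hst hsc hsf hni hl hl' h hI hL hR hCL hhi hp hsp' hn hM hM' mL mR hs hs'
    hO.1 hO.2 (hstp h2).2 hT1 hT hY hYp hFS hCh he₃ he hhigh hν hν'
  refine max_le hsum0 ?_
  have hmono : (Ch + 2) * Lh (∑ j ∈ s.A, mI s.t j) (ν s.t.g) (∑ j ∈ s.A', mI s.t' j) (ν s.t'.g) ≤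
      B * Lh (μ s.t.g s.A) (ν s.t.g) (μ s.t'.g s.A') (ν s.t'.g) := by
    refine mul_le_mul hB ?_ (Lh_nonneg nΦ hν nΦ' hν') (by linarith)
    unfold Lh
    have a1 := mul_le_mul hμ hμ' nΦ' (nΦ.trans hμ)
    have a2 := mul_le_mul_of_nonneg_right hμ hν'
    have a3 := mul_le_mul_of_nonneg_left hμ' hν
    linarith
  linarith

end state

end Crest.Agent.R4.StopFF95
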