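import Crest.Agent.R4.StepState2_693
import Crest.Agent.R4.StopFF95
import Crest.Agent.R4.OSCtxF710

/-!
R4 (S0004), helper693: **the stop symbol of a context is zero** (up to the item statement of T9').

* `RI` : walk invariant: the relation of a state is the relation of the previous column, unless the mass of the
  one-sided columns is below `n^(-1/3)`; hence at a stopped state `R = Ro (rho n)`.
* `fsy_data` : 95's `FSY` from 758's `PE_FS_lower` (`Y` = previous column).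
* `SB`, `GSP` : node facts and constants; `stop_local` : `eSTOP ≤ 0` at a state; `eSTOP_final` : walk sum `≤ 0`.
* `ctx_eSTOP` : for a context, from the item statement `IHi`.
-/

set_option autoImplicit false
set_option linter.unusedSectionVars false
set_option linter.unusedVariables false

namespace Crest.Agent.R4.StopCtx693

open Crest.Agent.R4.Tour104 Crest.Agent.R4.Tour758 Crest.Agent.R4.Avg758 Crest.Agent.R4.Clos758
open Crest.Agent.R4.ClosL758 Crest.Agent.R4.ClosG758 Crest.Agent.R4.ClosR758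
open Crest.Agent.R4.Fam464 Crest.Agent.R4.Cnt588 Crest.Agent.R4.Walk560 Crest.Agent.R4.Piece464
open Crest.Agent.R4.Item758 Crest.Agent.R4.AvgItem710 Crest.Agent.R4.PrunePar33
open Crest.Agent.R4.Data758 Crest.Agent.R4.WalkIT579
open Crest.Agent.R4.Bld532 (NS All NodeOk Bk)
open Crest.Agent.R4.GInst194 Crest.Agent.R4.NMW710 Crest.Agent.R4.GSt927 Crest.Agent.R4.GStJ927
open Crest.Agent.R4.Res927 Crest.Agent.R4.OSWS245 Crest.Agent.R4.OSWI245 Crest.Agent.R4.OF927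
open Crest.Agent.R4.OSPot864 Crest.Agent.R4.StopW95 Crest.Agent.R4.StopInv95 Crest.Agent.R4.StopFF95
open Crest.Agent.R4.Link758 Crest.Agent.R4.LinkW758 Crest.Agent.R4.LinkG758 Crest.Agent.R4.NI927
open Crest.Agent.R4.DeepSt579 (tq tq_nonneg tq_le_one rd)
open Crest.Agent.R4.HVW560 (cof)
open Crest.Agent.R4.GFinC927 (nn)
open Crest.Agent.R4.Step588 (NDt ND1 ctx_NDt CT CT_pos tot_ge ctx_rr All_All ItHi2 high_stop2
  num_high' num_Tstop)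
open Crest.Agent.R4.StepNum442 (Kn)
open Crest.Agent.R4.Skel189 (Ctx top)
open Crest.Agent.R4.NMCtx927 (WNM All_lvl)
open Crest.Agent.R4

/-! ### the relation of a state -/

section inv
variable {Λ κ : Type*} [Fintype Λ] [DecidableEq Λ] [Fintype κ] [DecidableEq κ] [WRel κ]
  {D : Par Λ κ} {sp : ℕ → Finset Λ} {Qp : NS → IT → Prop} {stp : St Λ κ → Prop}
  {dv : ℕ → Λ → Prop}

/-- the relation of a state is that of the previous column, or the state is far from the stop rule -/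
def RI (D : Par Λ κ) (x : XSt Λ κ) : Prop :=
  mO x.s ≤ (x.n : ℝ) ^ (-(1/3) : ℝ) ∨ x.s.R = Ro (D.rho x.n)

theorem RI.next (hst : ∀ s, ¬ stp s → ¬ stpM s) {x : XSt Λ κ} (hX : XI x.n x) {B₀ B₀' : ℕ}
    {u u' : NS} {τ τ' : IT} (h : HI D sp Qp B₀ B₀' x u u' τ τ') :
    ∀ e ∈ steps stp dv x, RI D e.y := by
  intro e he
  obtain ⟨h1, h2⟩ := steps_act he
  have hn : e.y.n = x.s.p := (hX.next e he).nn
  have h3 := mO_le_of_not (hst _ h2)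
  unfold RI
  rw [hn]
  clear hn
  rcases hv : vw x.s.p x.s.t with ⟨w, r, t₁, t₀, v, B₁, G⟩ | ⟨r, t₁, t₀⟩ | ⟨Sp, d⟩ <;>
  rcases hv' : vw x.s.p x.s.t' with ⟨w', r', t₁', t₀', v', B', G'⟩ | ⟨r', t₁', t₀'⟩ | ⟨Sp', d'⟩ <;>
  simp only [steps, h1, h2, hv, hv', if_false, List.mem_cons, List.not_mem_nil, or_false] at he
  · obtain ⟨τ₁, τ₀, -, hr, -⟩ := AvgItem710.toDT_br (h.L.eq.symm.trans (vw_br hv))
    right
    rw [← hr]
    rcases he with rfl | rfl | rfl | rfl <;> rfl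
  · obtain ⟨τ₁, τ₀, -, hr, -⟩ := AvgItem710.toDT_br (h.L.eq.symm.trans (vw_br hv))
    right
    rw [← hr]
    rcases he with rfl | rfl <;> rfl
  · obtain ⟨τ₁, τ₀, -, hr, -⟩ := AvgItem710.toDT_br (h.L.eq.symm.trans (vw_br hv))
    right
    rw [← hr]
    rcases he with rfl | rfl <;> rfl
  · obtain ⟨τ₁, τ₀, -, hr, -⟩ := AvgItem710.toDT_br (h.R.eq.symm.trans (vw_br hv'))
    right
    rw [← hr]
    rcases he with rfl | rfl <;> rfl
  · left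
    rcases he with rfl | rfl <;> exact h3
  · left
    rcases he with rfl | rfl <;> exact h3
  · obtain ⟨τ₁, τ₀, -, hr, -⟩ := AvgItem710.toDT_br (h.R.eq.symm.trans (vw_br hv'))
    right
    rw [← hr]
    rcases he with rfl | rfl <;> rfl
  · left
    rcases he with rfl | rfl <;> exact h3
  · left
    subst he; exact h3

/-- at a stopped state the relation is that of the previous column -/
lemma RI.stop {x : XSt Λ κ} (h : RI D x) (hp : x.s.p < x.n) (hp0 : 0 < x.s.p) (hs : stpM x.s) :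
    x.s.R = Ro (D.rho x.n) := by
  rcases h with h | h
  · exfalso
    have h1 := hs.2.trans h
    have h2 : (x.n : ℝ) ^ (-(1/3) : ℝ) < (x.s.p : ℝ) ^ (-(1/3) : ℝ) :=
      Real.rpow_lt_rpow_of_neg (by exact_mod_cast hp0) (by exact_mod_cast hp) (by norm_num)
    linarith
  · exact h

/-- Bertrand -/
lemma prev_le {n p : ℕ} (hp : p ≠ 0) (hmax : ∀ r : ℕ, r.Prime → r < n → r ≤ p) : n ≤ 2 * p := by
  by_contra hc
  obtain ⟨r, h1, h2, h3⟩ := Nat.exists_prime_lt_and_le_two_mul p hp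
  have := hmax r h1 (by omega)
  omega

end inv

/-! ### `FSY` -/

section fsy
variable {c : Cf} {n : ℕ}

theorem fsy_data (h : c.Ok n) (X : Finset (ℕ × ℕ × Finset ℕ)) {sp : ℕ → Finset c.Lam}
    {s : St c.Lam (Lb (WL c.Lam) X)} {u u' : NS} {τ τ' : IT} {N m : ℕ}
    (hs : StI (c.D.par X) sp s u.B u.A τ u'.B u'.A τ')
    (hcirc : u.A * u.B * s.M = u'.A * u'.B * s.M')
    (mf : MF c.t u τ) (mf' : MF c.t u' τ') (e1 : u.n = m) (e2 : u'.n = m) (hm : m ≤ n)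
    (hm0 : 0 < m) (hRo : s.R = Ro ((c.D.par X).rho m)) (hthr : (1 : ℝ) / 2 ^ N ≤ c.wp.thr m)
    (hac : ∀ q, ¬ Ac c m q) :
    FSY (c.D.par X) c.rr N m s u.B u.A τ u'.B u'.A τ' (fun _ => False) := by
  intro e i1 i2 hD hpos hFS
  left
  have hM := hs.M0
  have hM' := hs.M0'
  have hb := hs.L.hb
  have hb' := hs.R.hb
  have hF := hs.L.hF
  have hF' := hs.R.hF
  have hW := hs.L.hW
  have hW' := hs.R.hW
  have he := iF_PE hpos.ne'
  obtain ⟨j, j', hj, hA, hA', f1, f2, -, -, -⟩ := PE_pts hM hM' hb hb' hF hF' hW hW'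
    (one_dvd _) (one_dvd _) he
  have f1' : j.1.1 = e.1 := f1
  have f2' : j'.1.1 = e.2 := f2
  have hpr : u.A ∣ e.1 := (hF.item _ i1).2.1
  have hpr' : u'.A ∣ e.2 := (hF'.item _ i2).2.1
  have q0 : 0 < e.1 := by rw [← f1']; exact h.pos _ (Cf.mem_S j)
  have q0' : 0 < e.2 := by rw [← f2']; exact h.pos _ (Cf.mem_S j')
  have p0 : 0 < u.A := Nat.pos_of_dvd_of_pos hpr q0
  have p0' : 0 < u'.A := Nat.pos_of_dvd_of_pos hpr' q0'
  have w0 : 0 < e.1 / u.A := Nat.div_pos (Nat.le_of_dvd q0 hpr) p0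
  have w0' : 0 < e.2 / u'.A := Nat.div_pos (Nat.le_of_dvd q0' hpr') p0'
  have r1 : c.rr e.1 = c.r e.1 := by rw [← f1']; exact Cf.rr_eq j
  have r2 : c.rr e.2 = c.r e.2 := by rw [← f2']; exact Cf.rr_eq j'
  have rp : 0 < c.r e.1 := by rw [← f1']; exact Cf.r_pos j
  have rp' : 0 < c.r e.2 := by rw [← f2']; exact Cf.r_pos j'
  have gW : 0 < e.1 / u.A / s.M.gcd (e.1 / u.A) := GSplit194.gcd_pos hM w0
  have gW' : 0 < e.2 / u'.A / s.M'.gcd (e.2 / u'.A) := GSplit194.gcd_pos hM' w0'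
  set V := e.1 / u.A / s.M.gcd (e.1 / u.A) with hV
  set V' := e.2 / u'.A / s.M'.gcd (e.2 / u'.A) with hV'
  have hx : 0 < cof V V' := AvgItem710.cof_pos gW
  have hy : 0 < cof V' V := AvgItem710.cof_pos gW'
  have g1 : V * cof V' V = V' * cof V V' := by
    have a1 : V.gcd V' * cof V V' = V := AvgItem710.mul_cof
    have a2 : V.gcd V' * cof V' V = V' := AvgItem710.mul_cof'
    calc V * cof V' V = (V.gcd V' * cof V V') * cof V' V := by rw [a1]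
      _ = (V.gcd V' * cof V' V) * cof V V' := by ring
      _ = V' * cof V V' := by rw [a2]
  have r0 := AvgItem710.rf_pos (w := e.1 / u.A) hM
  have r0' := AvgItem710.rf_pos (w := e.2 / u'.A) hM'
  have hDq : Dq c.rr s.M u.B u.A 1 s.M' u'.B u'.A 1 e =
      max ((cof V' V : ℝ) * (rf (e.1 / u.A) s.M * ((u.B : ℝ) / (1 : ℕ) * c.rr e.1)))
        ((cof V V' : ℝ) * (rf (e.2 / u'.A) s.M' * ((u'.B : ℝ) / (1 : ℕ) * c.rr e.2))) := rfl
  rw [hDq] at hD ⊢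
  have hy1 : (1 : ℝ) ≤ cof V' V := by exact_mod_cast hy
  have hx1 : (1 : ℝ) ≤ cof V V' := by exact_mod_cast hx
  have r01 : (1 : ℝ) ≤ rf (e.1 / u.A) s.M := by exact_mod_cast r0
  have r01' : (1 : ℝ) ≤ rf (e.2 / u'.A) s.M' := by exact_mod_cast r0'
  obtain ⟨k₀, hk, hk1⟩ := mf.prod_self i1
  obtain ⟨k₀', hk', hk1'⟩ := mf'.prod_self i2
  rw [e1] at hk hk1
  rw [e2] at hk' hk1'
  have kp : 0 < k₀ := by rcases hk1 with rfl | ⟨rfl, -⟩ <;> omega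
  have kp' : 0 < k₀' := by rcases hk1' with rfl | ⟨rfl, -⟩ <;> omega
  have km : k₀ ≤ m := by rcases hk1 with rfl | ⟨rfl, -⟩ <;> omega
  have km' : k₀' ≤ m := by rcases hk1' with rfl | ⟨rfl, -⟩ <;> omega
  have hk2 : u.B = k₀ * Bl c m e.1 := hk
  have hk2' : u'.B = k₀' * Bl c m e.2 := hk'
  have bB : (Bl c m e.1 : ℝ) ≤ u.B := by
    have : Bl c m e.1 ≤ u.B := by rw [hk2]; exact Nat.le_mul_of_pos_left _ kp
    exact_mod_cast this
  have bB' : (Bl c m e.2 : ℝ) ≤ u'.B := by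
    have : Bl c m e.2 ≤ u'.B := by rw [hk2']; exact Nat.le_mul_of_pos_left _ kp'
    exact_mod_cast this
  have t1 : (Bl c m e.1 : ℝ) * c.r e.1 ≤ c.wp.thr m := by
    have n0 : 0 ≤ (u.B : ℝ) / (1 : ℕ) * c.rr e.1 := by rw [r1]; positivity
    calc (Bl c m e.1 : ℝ) * c.r e.1 ≤ (u.B : ℝ) * c.r e.1 :=
          mul_le_mul_of_nonneg_right bB rp.le
      _ = (u.B : ℝ) / (1 : ℕ) * c.rr e.1 := by rw [r1, Nat.cast_one, div_one]
      _ ≤ rf (e.1 / u.A) s.M * ((u.B : ℝ) / (1 : ℕ) * c.rr e.1) := le_mul_of_one_le_left n0 r01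
      _ ≤ (cof V' V : ℝ) * (rf (e.1 / u.A) s.M * ((u.B : ℝ) / (1 : ℕ) * c.rr e.1)) :=
          le_mul_of_one_le_left (by positivity) hy1
      _ ≤ _ := (le_max_left _ _).trans (hD.trans hthr)
  have t2 : (Bl c m e.2 : ℝ) * c.r e.2 ≤ c.wp.thr m := by
    have n0 : 0 ≤ (u'.B : ℝ) / (1 : ℕ) * c.rr e.2 := by rw [r2]; positivity
    calc (Bl c m e.2 : ℝ) * c.r e.2 ≤ (u'.B : ℝ) * c.r e.2 :=
          mul_le_mul_of_nonneg_right bB' rp'.le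
      _ = (u'.B : ℝ) / (1 : ℕ) * c.rr e.2 := by rw [r2, Nat.cast_one, div_one]
      _ ≤ rf (e.2 / u'.A) s.M' * ((u'.B : ℝ) / (1 : ℕ) * c.rr e.2) := le_mul_of_one_le_left n0 r01'
      _ ≤ (cof V V' : ℝ) * (rf (e.2 / u'.A) s.M' * ((u'.B : ℝ) / (1 : ℕ) * c.rr e.2)) :=
          le_mul_of_one_le_left (by positivity) hx1
      _ ≤ _ := (le_max_right _ _).trans (hD.trans hthr)
  have hRo' : s.R ⊆ Ro (c.D.rho m) := by rw [hRo, Cf.Ro_par]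
  have key := PE_FS_lower h hm X (k₀ := k₀) (k₀' := k₀') hM hM' hb hb' hF hF' hW hW' (one_dvd _)
    (one_dvd _) hRo' he (by rw [Nat.div_one, Nat.div_one]; linarith) hx hy g1
    (by rw [Nat.div_one]; exact hk2) (by rw [Nat.div_one]; exact hk2') t1 t2
    (hac _) (hac _) hFS
  refine key.trans_le ?_
  have hmax : ((max (rf (e.1 / u.A) s.M * k₀) (rf (e.2 / u'.A) s.M' * k₀') : ℕ) : ℝ) ≤
      (m : ℝ) * ((rf (e.1 / u.A) s.M : ℝ) * rf (e.2 / u'.A) s.M') := by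
    have a1 : (k₀ : ℝ) ≤ m := by exact_mod_cast km
    have a2 : (k₀' : ℝ) ≤ m := by exact_mod_cast km'
    have m0 : (0 : ℝ) ≤ m := Nat.cast_nonneg _
    rw [Nat.cast_max, Nat.cast_mul, Nat.cast_mul]
    refine max_le ?_ ?_
    · calc (rf (e.1 / u.A) s.M : ℝ) * k₀ ≤ (rf (e.1 / u.A) s.M : ℝ) * m :=
            mul_le_mul_of_nonneg_left a1 (by linarith)
        _ = m * ((rf (e.1 / u.A) s.M : ℝ) * 1) := by ring
        _ ≤ _ := mul_le_mul_of_nonneg_left (mul_le_mul_of_nonneg_left r01' (by linarith)) m0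
    · calc (rf (e.2 / u'.A) s.M' : ℝ) * k₀' ≤ (rf (e.2 / u'.A) s.M' : ℝ) * m :=
            mul_le_mul_of_nonneg_left a2 (by linarith)
        _ = m * (1 * (rf (e.2 / u'.A) s.M' : ℝ)) := by ring
        _ ≤ _ := mul_le_mul_of_nonneg_left (mul_le_mul_of_nonneg_right r01 (by linarith)) m0
  have hD0 : 0 ≤ max ((cof V' V : ℝ) * (rf (e.1 / u.A) s.M * ((u.B : ℝ) / (1 : ℕ) * c.rr e.1)))
        ((cof V V' : ℝ) * (rf (e.2 / u'.A) s.M' * ((u'.B : ℝ) / (1 : ℕ) * c.rr e.2))) := by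
    refine le_max_of_le_left ?_
    rw [r1]; positivity
  gcongr

end fsy

/-! ### the walk -/

section walk
variable {Λ κ : Type*} [Fintype Λ] [DecidableEq Λ] [Fintype κ] [DecidableEq κ] [WRel κ]
  {D : Par Λ κ} {sp : ℕ → Finset Λ} {ρ : ℕ → ℝ} {Al : Finset ℕ} {P : Bld532.Par}
  {W : ℕ → ℝ} {U : ℕ → Finset ℕ} {CL C1 C2 c₀ N0 Ch : ℝ} {p0 : ℕ} {stp : St Λ κ → Prop}
  {Qp : NS → IT → Prop}

/-- moduli of the windows -/
noncomputable def Vn (p : ℕ) : ℕ := ⌊Real.exp ((p : ℝ) ^ (1 / 4 : ℝ))⌋₊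
/-- fatness -/
noncomputable def Hn (p : ℕ) : ℝ := 2 * Real.exp ((p : ℝ) ^ (1 / 8 : ℝ))
/-- relative error -/
noncomputable def ηn (p : ℕ) : ℝ := Real.exp (-((p : ℝ) ^ (1 / 2 : ℝ)) / 4)
/-- threshold -/
noncomputable def Tn (p : ℕ) : ℝ := Real.exp (20 * (p : ℝ) ^ (1 / 2 : ℝ))

lemma Vn_le (p : ℕ) : (Vn p : ℝ) ≤ Real.exp ((p : ℝ) ^ (1 / 4 : ℝ)) :=
  Nat.floor_le (Real.exp_pos _).le

/-- the error term -/
noncomputable def e3 (Ch : ℝ) (p : ℕ) : ℝ :=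
  Ch ^ 2 * (4 * ηn p + ηn p ^ 2) +
    18 * Hn p / Tn p * ((Vn p : ℝ) * Vn p * ((Kn p * (Vn p + 2)) * (Kn p * (Vn p + 2))))

lemma e3_nonneg (Ch : ℝ) (p : ℕ) : 0 ≤ e3 Ch p := by
  unfold e3 Hn Tn ηn
  positivity

lemma sum_ff {α : Type*} (S : Finset α) (Q : α → Prop) (i : DecidablePred Q) (f : α → ℝ)
    (h : ∀ a, ¬ Q a) : (@Finset.filter α Q i S).sum f = 0 := by
  rw [Finset.filter_false_of_mem fun e _ => h e]
  exact Finset.sum_empty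

/-- node facts of the stop rule -/
structure SB (D : Par Λ κ) (ρ : ℕ → ℝ) (Al : Finset ℕ) (P : Bld532.Par) (W : ℕ → ℝ)
    (U : ℕ → Finset ℕ) (CL c₀ Ch : ℝ) (u : NS) (τ : IT) : Prop where
  nq : NQ P W U u τ
  lg : ¬ isL τ → ∀ q ∈ Al, q ∈ τ.items → 1 ≤ CL * Real.log (tp τ) * tq (q / u.A)
  mean : ∀ j, D.it j ∈ Al → D.it j ∈ τ.items →
    c₀ * tq (D.it j / (u.A * pp τ (D.it j))) ≤ mnw (D.it j / (u.A * pp τ (D.it j))) (D.om j)
  ih : ¬ isL τ → ∀ q ∈ Al, q ∈ τ.items →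
    ItHi2 D ρ u.B u.A τ (Kn (tp τ)) (Vn (tp τ)) Ch (ηn (tp τ)) (Hn (tp τ)) q

/-- constants of the stop rule -/
structure GSP (D : Par Λ κ) (ρ : ℕ → ℝ) (Al : Finset ℕ) (P : Bld532.Par) (W : ℕ → ℝ)
    (U : ℕ → Finset ℕ) (CL C1 C2 c₀ N0 Ch : ℝ) (p0 : ℕ) : Prop where
  hst : StopCls N0
  sc : SC N0 CL C2 c₀ p0
  sf : SF CL p0
  CL0 : 0 ≤ CL
  ni : ∀ p, p0 ≤ p → NI D ρ Al P W U CL C1 c₀ p
  hi : ∀ p, p0 ≤ p → P.hi p ≤ (Real.log p) ^ C2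
  pp0 : p0 ≤ P.p0
  T : ∀ p : ℕ, p0 ≤ p → Tn p ≤ Real.exp (p * ((p:ℝ)^(-(1/3):ℝ)/4)/20)
  e : ∀ p : ℕ, p0 ≤ p → e3 Ch p * (CL * Real.log p * (1/(2*c₀)))^2 ≤ 1
  Y : ∀ p : ℕ, p0 ≤ p → 2 * (p : ℝ) ≤ Real.exp (p * ((p:ℝ)^(-(1/3):ℝ)/4))
  n64 : 64 ≤ p0

lemma tp_gt {u : NS} {τ : IT} (h : NodeOk P W u τ) (hl : ¬ isL τ) : P.p0 < tp τ := by
  cases τ with
  | leaf S => exact absurd trivial hl
  | br p t₁ t₀ => exact h.2.2.1
  | add b t₁ t₀ => exact h.2.2.1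
  | up b Sp t => exact h.2.2.1

/-- scale of the `[F]` pairs -/
noncomputable def nS (p : ℕ) : ℕ := ⌊100 * (p * ((p:ℝ)^(-(1/3):ℝ)/4)) / Real.log 2⌋₊

/-- **a stopped state costs nothing** -/
theorem stop_local (H : GSP D ρ Al P W U CL C1 C2 c₀ N0 Ch p0)
    (hQ : ∀ u τ, Qp u τ → SB D ρ Al P W U CL c₀ Ch u τ)
    (hstp : ∀ s, stp s → stpM s) {B₀ B₀' : ℕ} {x : XSt Λ κ} {u u' : NS} {τ τ' : IT}
    (h : HI D sp Qp B₀ B₀' x u u' τ τ') (hj : JS D U x.s u u' τ τ') (ho : OU2 U x.s τ τ')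
    (hof : OF p0 x)
    (hFS : ¬ (x.s.t.isLeaf ∨ x.s.t'.isLeaf) → stpM x.s →
      FSY D ρ (nS x.s.p) x.n x.s u.B u.A τ u'.B u'.A τ' (fun _ => False))
    {μ : TrG Λ κ → Finset Λ → ℝ} {ν : TrG Λ κ → ℝ} {B cμ : ℝ} (hc : 1 ≤ cμ)
    (hB : cμ ^ 2 * (Ch ^ 2 + 2) ≤ B)
    (hμ : ∑ j ∈ x.s.A, mI x.s.t j ≤ cμ * μ x.s.t.g x.s.A)
    (hμ' : ∑ j ∈ x.s.A', mI x.s.t' j ≤ cμ * μ x.s.t'.g x.s.A')
    (hν : 0 ≤ ν x.s.t.g) (hν' : 0 ≤ ν x.s.t'.g) :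
    eSTOP stp μ ν B x.s ≤ 0 := by
  classical
  unfold eSTOP
  split_ifs with h1 h2
  · exact le_rfl
  swap
  · exact le_rfl
  have hl0 : ¬ x.s.t.isLeaf := fun k => h1 (Or.inl k)
  have hl0' : ¬ x.s.t'.isLeaf := fun k => h1 (Or.inr k)
  have hnq : ∀ u τ, Qp u τ → NQ P W U u τ := fun u τ h => (hQ u τ h).nq
  obtain ⟨e1, e2, hpp, hpn⟩ := h.tops (fun u τ hq => (hnq u τ hq).1) hl0 hl0'
  have hl : ¬ isL τ := fun k => hl0 (by rw [h.L.eq]; exact (toDT_leaf D sp _ _ τ).2 k)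
  have hl' : ¬ isL τ' := fun k => hl0' (by rw [h.R.eq]; exact (toDT_leaf D sp _ _ τ').2 k)
  have q1 := hQ _ _ h.qL.self
  have q2 := hQ _ _ h.qR.self
  have hI := HJ.is hnq h hj
  have t1 : tp τ = x.s.p := by
    rw [← e1, h.L.eq]; exact (WalkIT579.toDT_top D sp _ _ τ).symm
  have t2 : tp τ' = x.s.p := by
    rw [← e2, h.R.eq]; exact (WalkIT579.toDT_top D sp _ _ τ').symm
  have hp : p0 ≤ x.s.p := by
    rw [← t1]; exact H.pp0.trans (tp_gt q1.nq.1 hl).le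
  have hp1 : 1 ≤ x.s.p := hpp.one_lt.le
  have nL : NSd D Al CL c₀ x.s.p u τ x.s.A :=
    ⟨h.ilL, fun q hq hqt => by have := q1.lg hl q hq hqt; rwa [t1] at this, q1.mean⟩
  have nR : NSd D Al CL c₀ x.s.p u' τ' x.s.A' :=
    ⟨h.ilR, fun q hq hqt => by have := q2.lg hl' q hq hqt; rwa [t2] at this, q2.mean⟩
  have hni := H.ni _ hp
  have hbig : x.n ≤ 2 * x.s.p := by
    have h5 := (top_of_nodeOk q1.nq.1 hl).2.2
    rw [t1, h.nL] at h5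
    exact prev_le (by omega) h5
  have hT1 : (1 : ℝ) ≤ Tn x.s.p := by
    unfold Tn
    exact Real.one_le_exp (by positivity)
  have hhigh := high_stop2 hni.rad h.st h.ilL h.ilR Al (K := Kn x.s.p) (V0 := Vn x.s.p)
    (C1 := Ch) (η := ηn x.s.p) (T := Tn x.s.p) (H := Hn x.s.p) (by linarith)
    (by unfold ηn; positivity) (by unfold Hn; positivity)
    (fun q hq => by
      have := q1.ih hl q (mem_Qi.1 hq).2.1 (mem_Qi.1 hq).1
      rwa [t1] at this)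
    (fun q hq => by
      have := q2.ih hl' q (mem_Qi.1 hq).2.1 (mem_Qi.1 hq).1
      rwa [t2] at this)
  have sums := hof.le_one (by have := H.n64; omega)
  have hYn : (1 : ℝ) ≤ x.n := by exact_mod_cast hp1.trans hpn.le
  have key := stop_state2 (n := nS x.s.p) (T := Tn x.s.p) (Ch := Ch ^ 2) (e₃ := e3 Ch x.s.p)
    (Y := (x.n : ℝ)) (Qf := fun _ => False) H.hst H.sc H.sf hni hl hl' h.st hI nL nR H.CL0
    (H.hi _ hp) hp t1.symm rfl hj.sq hj.sq' h.mL h.mR sums.1 sums.2 ho.1 ho.2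
    (hstp _ h2).2 hT1 (H.T _ hp) hYn
    (le_trans (by exact_mod_cast hbig) (H.Y _ hp)) (hFS h1 (hstp _ h2)) (sq_nonneg _)
    (e3_nonneg _ _) (H.e _ hp) hhigh hν hν'
  have key2 : Qs x.s ≤ (Ch ^ 2 + 2) * Lh (∑ j ∈ x.s.A, mI x.s.t j) (ν x.s.t.g)
      (∑ j ∈ x.s.A', mI x.s.t' j) (ν x.s.t'.g) := by
    rw [sum_ff] at key
    · rw [add_zero] at key
      exact key
    · exact fun e he => he.2.2
  clear key
  have mnn : ∀ (d : DT Λ κ), d.g.Ok → ∀ j, 0 ≤ mI d j := fun d hd j => by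
    unfold mI
    exact I_nonneg fun x => (hd.pb j).nonneg x
  have okL : x.s.t.g.Ok := by rw [h.L.eq, D.toDT_g]; exact D.toG_Ok h.L.hb h.L.hF h.L.hW
  have okR : x.s.t'.g.Ok := by rw [h.R.eq, D.toDT_g]; exact D.toG_Ok h.R.hb h.R.hF h.R.hW
  have nΦ : 0 ≤ ∑ j ∈ x.s.A, mI x.s.t j := Finset.sum_nonneg fun j _ => mnn _ okL j
  have nΦ' : 0 ≤ ∑ j ∈ x.s.A', mI x.s.t' j := Finset.sum_nonneg fun j _ => mnn _ okR j
  refine max_le le_rfl ?_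
  generalize (∑ j ∈ x.s.A, mI x.s.t j) = Φ at *
  generalize (∑ j ∈ x.s.A', mI x.s.t' j) = Φ' at *
  generalize μ x.s.t.g x.s.A = m at *
  generalize μ x.s.t'.g x.s.A' = m' at *
  generalize ν x.s.t.g = v at *
  generalize ν x.s.t'.g = v' at *
  have m0 : 0 ≤ m := by
    by_contra hc0
    push Not at hc0
    have : cμ * m < 0 := mul_neg_of_pos_of_neg (by linarith) hc0
    linarith
  have m0' : 0 ≤ m' := by
    by_contra hc0
    push Not at hc0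
    have : cμ * m' < 0 := mul_neg_of_pos_of_neg (by linarith) hc0
    linarith
  have hL1 : Lh Φ v Φ' v' ≤ cμ ^ 2 * Lh m v m' v' := by
    have c2 : cμ ≤ cμ ^ 2 := by nlinarith
    unfold Lh
    have a1 : Φ * Φ' ≤ (cμ * m) * (cμ * m') := mul_le_mul hμ hμ' nΦ' (nΦ.trans hμ)
    have a2 : Φ * v' ≤ cμ ^ 2 * (m * v') := by
      calc Φ * v' ≤ (cμ * m) * v' := mul_le_mul_of_nonneg_right hμ hν'
        _ = cμ * (m * v') := by ring
        _ ≤ _ := mul_le_mul_of_nonneg_right c2 (mul_nonneg m0 hν')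
    have a3 : v * Φ' ≤ cμ ^ 2 * (v * m') := by
      calc v * Φ' ≤ v * (cμ * m') := mul_le_mul_of_nonneg_left hμ' hν
        _ = cμ * (v * m') := by ring
        _ ≤ _ := mul_le_mul_of_nonneg_right c2 (mul_nonneg hν m0')
    have a4 : cμ * m ≤ cμ ^ 2 * m := mul_le_mul_of_nonneg_right c2 m0
    have a5 : cμ * m' ≤ cμ ^ 2 * m' := mul_le_mul_of_nonneg_right c2 m0'
    have e6 : cμ ^ 2 * (m * m' + (m * v' + v * m') / 2 + (m + m') / 2) =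
        (cμ * m) * (cμ * m') + (cμ ^ 2 * (m * v') + cμ ^ 2 * (v * m')) / 2 +
          (cμ ^ 2 * m + cμ ^ 2 * m') / 2 := by ring
    rw [e6]
    linarith
  have hL0 : 0 ≤ Lh m v m' v' := Lh_nonneg m0 hν m0' hν'
  have h9 : (Ch ^ 2 + 2) * Lh Φ v Φ' v' ≤ B * Lh m v m' v' := by
    calc (Ch ^ 2 + 2) * Lh Φ v Φ' v' ≤ (Ch ^ 2 + 2) * (cμ ^ 2 * Lh m v m' v') :=
          mul_le_mul_of_nonneg_left hL1 (by positivity)
      _ = (cμ ^ 2 * (Ch ^ 2 + 2)) * Lh m v m' v' := by ring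
      _ ≤ _ := mul_le_mul_of_nonneg_right hB hL0
  linarith

/-- **THE STOP SYMBOL OF A SELF STATE IS ZERO** -/
theorem eSTOP_final (H : GSP D ρ Al P W U CL C1 C2 c₀ N0 Ch p0) (spo : D.SpOk sp)
    (il : ∀ b, IL D.it (sp b)) (spd : ∀ b, ∀ j ∈ sp b, b ∣ D.it j)
    (hQ : ∀ u τ, Qp u τ → SB D ρ Al P W U CL c₀ Ch u τ)
    (hstp : ∀ s, stp s → stpM s) (hst : ∀ s, ¬ stp s → ¬ stpM s)
    {u : NS} {τ : IT} {A : Finset Λ} (hs : SideI D sp u.B u.A τ A (D.toDT sp u.B u.A τ))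
    (hq : All Qp u τ) (hilA : IL D.it A) (hO : τ.Ok u.n) (hG : NG U u τ)
    (fs : ∀ (x : XSt Λ κ) (v v' : NS) (σ σ' : IT), HI D sp Qp u.B u.B x v v' σ σ' →
      JS D U x.s v v' σ σ' → ¬ (x.s.t.isLeaf ∨ x.s.t'.isLeaf) → x.s.p < x.n → p0 ≤ x.s.p →
      x.n ≤ 2 * x.s.p → x.s.R = Ro (D.rho x.n) →
      FSY D ρ (nS x.s.p) x.n x.s v.B v.A σ v'.B v'.A σ' (fun _ => False))
    {μ : TrG Λ κ → Finset Λ → ℝ} {ν : TrG Λ κ → ℝ} {B cμ : ℝ} (hc : 1 ≤ cμ)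
    (hB : cμ ^ 2 * (Ch ^ 2 + 2) ≤ B)
    (hμ : ∀ (v : NS) (σ : IT) (A : Finset Λ) (d : DT Λ κ), All Qp v σ →
      SideI D sp v.B v.A σ A d → ∑ j ∈ A, mI d j ≤ cμ * μ d.g A)
    (hν : ∀ (v : NS) (σ : IT) (A : Finset Λ) (d : DT Λ κ), All Qp v σ →
      SideI D sp v.B v.A σ A d → 0 ≤ ν d.g) :
    WS stp (eSTOP stp μ ν B) (selfSt (D.toDT sp u.B u.A τ) A) ≤ 0 := by
  classical
  have hnq : ∀ u τ, Qp u τ → NQ P W U u τ := fun u τ h => (hQ u τ h).nq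
  have hN' : ∀ u τ, Qp u τ → NodeOk P W u τ := fun u τ h => (hQ u τ h).nq.1
  have hp1 : 1 ≤ p0 := le_trans (by norm_num) H.n64
  have hni := H.ni p0 le_rfl
  set d := D.toDT sp u.B u.A τ with hd
  set I : XSt Λ κ → Prop := fun x => XI x.n x ∧ OF p0 x ∧ RI D x ∧
    ∃ v v' σ σ', HI D sp Qp u.B u.B x v v' σ σ' ∧ JS D U x.s v v' σ σ' ∧ OU2 U x.s σ σ' with hIdef
  have hI : ∀ x, I x → ∀ e ∈ steps stp (dvI D) x, I e.y := by
    intro x hx e he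
    obtain ⟨h1, h2, h3, v, v', σ, σ', h4, h5, h6⟩ := hx
    refine ⟨?_, h2.next hp1 hst h1 e he, RI.next hst h1 h4 e he,
      HJO.next spo il spd hnq h1 h4 h5 h6 e he⟩
    have k1 := h1.next e he
    have k2 : e.y.n = x.s.p := k1.nn
    rw [k2]
    exact k1
  have colD : d.Col u.n := D.toDT_Col sp τ u.n u.B u.A hO
  have imD : d.All (IM (dvI D) mI) :=
    IMI194.IM_toDT hni.ab τ u.B u.A u.n hs.hb hO hs.hF hs.hW (IMI194.Dv_of_All (hq.mono hN'))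
  have tgD : d.All (TopGe p0) :=
    (topGe_toDT (D := D) (sp := sp) (hq.mono hN')).mono fun e h hl => H.pp0.trans (h hl)
  have hX : IX p0 (dvI D) mI (XSt.st u.n (selfSt d A)) :=
    IX_start (s := selfSt d A) (n := u.n) colD colD imD imD tgD tgD rfl rfl
  have hR0 : RI D (XSt.st u.n (selfSt d A)) := by
    left
    have e : mO (XSt.st u.n (selfSt d A)).s = 0 := by
      unfold OSWS245.mO
      simp [XSt.st, selfSt]
    rw [e]; positivity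
  have hx : I (XSt.st u.n (selfSt d A)) :=
    ⟨hX.xi, OF.start hX.oi rfl rfl, hR0, u, u, τ, τ, HI.self hs hq hilA,
      HJ.self (hq.mono hnq) hG, OU2.self rfl rfl τ τ⟩
  have hloc : ∀ x, I x → eSTOP stp μ ν B x.s ≤ 0 := by
    intro x hx
    obtain ⟨h1, h2, h3, v, v', σ, σ', h4, h5, h6⟩ := hx
    refine stop_local H hQ hstp h4 h5 h6 h2 (fun hl hs => ?_) hc hB (hμ _ _ _ _ h4.qL h4.L)
      (hμ _ _ _ _ h4.qR h4.R) (hν _ _ _ _ h4.qL h4.L) (hν _ _ _ _ h4.qR h4.R)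
    obtain ⟨e1, e2, hpp, hpn⟩ := h4.tops hN' (fun k => hl (Or.inl k)) (fun k => hl (Or.inr k))
    have hl0 : ¬ isL σ := fun k => hl (Or.inl (by rw [h4.L.eq]; exact (toDT_leaf D sp _ _ σ).2 k))
    have t1 : tp σ = x.s.p := by
      rw [← e1, h4.L.eq]; exact (WalkIT579.toDT_top D sp _ _ σ).symm
    have q1 := hN' _ _ h4.qL.self
    have hp : p0 ≤ x.s.p := by
      rw [← t1]; exact H.pp0.trans (tp_gt q1 hl0).le
    have hbig : x.n ≤ 2 * x.s.p := by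
      have h5 := (top_of_nodeOk q1 hl0).2.2
      rw [t1, h4.nL] at h5
      exact prev_le hpp.ne_zero h5
    exact fs x v v' σ σ' h4 h5 hl hpn hp hbig (h3.stop hpn hpp.pos hs)
  have key := W_mono (nxH_rank stp (dvI D)) (Inv := fun x => I x ∧ TC (dvI D) mI x)
    (f := fun x => eSTOP stp μ ν B x.s) (g := fun _ => (0 : ℝ))
    (fun x hx q hq => by
      obtain ⟨e, he, rfl⟩ := List.mem_map.1 hq
      have := steps_w hx.2.wL hx.2.wR e he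
      exact ⟨⟨hI x hx.1 e he, hx.2.next e he⟩, mul_nonneg this.1.le this.2.le⟩)
    (fun x hx => hloc x hx.1) (XSt.st u.n (selfSt d A)) ⟨hx, hX.tc⟩
  have h0 := W_smul (nxH_rank stp (dvI D)) 0 (fun _ => (0 : ℝ)) (XSt.st u.n (selfSt d A))
  simp only [mul_zero, zero_mul] at h0
  have h9 := WS_eq_H stp (dvI D) (eSTOP stp μ ν B) (XSt.st u.n (selfSt d A))
  rw [h0] at key
  exact h9.le.trans key

end walk

/-! ### contexts -/

section ctx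
variable {N : Skel189.Num} {γ : ℝ} {p0 P₀ : ℕ}

/-- **the item statement of T9' at all the nodes of a context** -/
def IHi (X : Ctx N γ p0 P₀) (Y : Finset (ℕ × ℕ × Finset ℕ)) (Ch : ℝ) : Prop :=
  All (fun u τ => ¬ isL τ → ∀ q ∈ X.S', q ∈ τ.items →
    ItHi2 (X.c.D.par Y) X.c.rr u.B u.A τ (Kn (tp τ)) (Vn (tp τ)) Ch (ηn (tp τ)) (Hn (tp τ)) q)
    ⟨top X.S, 1, 1, 1⟩ X.c.t

theorem ctx_SB (N : Skel189.Num) {c₀ : ℝ} : ∃ p₁ : ℕ, ∀ p0 ≥ p₁, ∀ (γ : ℝ) (P₀ : ℕ)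
    (X : Ctx N γ p0 P₀) (Y : Finset (ℕ × ℕ × Finset ℕ)) (Ch : ℝ), Mean X c₀ → IHi X Y Ch →
    All (SB (X.c.D.par Y) X.c.rr X.S' X.par (Soft104.w X.ψ) X.c.t.uq (2 * CT) c₀ Ch)
      ⟨top X.S, 1, 1, 1⟩ X.c.t := by
  have hB1 := N.hB
  have hC1 := N.hC1
  have hc2 := N.hc2
  obtain ⟨p1, h1⟩ := tot_ge N.B (N.C1 + N.c2) (by linarith)
  refine ⟨p1 + 3, fun p0 hp0 γ P₀ X Y Ch hm hi => ?_⟩
  refine All.mono (fun u τ hh => ?_) (((ctx_NDt X).and X.all).and hi)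
  obtain ⟨⟨hN, hQ, hG⟩, hh3⟩ := hh
  have lg : ∀ p : ℕ, p0 < p → (∀ r : ℕ, r.Prime → r < u.n → r ≤ p) → ∀ q ∈ X.S', q ∈ τ.items →
      1 ≤ 2 * CT * Real.log p * tq (q / u.A) := by
    intro p hpp h4 q hq hqt
    have key := h1 p0 (by omega) X.c.t q (ctx_pr X hq)
      (fun l hl => (rt_prime X.c.t X.tOk q l hl).1) (p + 1) (by omega) (q / u.A)
      (Nat.pos_of_ne_zero (hN.div_ne hqt)) fun l hl1 hl2 hl3 =>
        hN.self.ge q hqt l hl1 (by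
          by_contra hlt
          have := h4 l hl1 (not_le.1 hlt)
          omega) hl2
    have hlog2 : Real.log ((p + 1 : ℕ) : ℝ) ≤ 2 * Real.log p := by
      have hp2 : (2 : ℝ) ≤ p := by exact_mod_cast (by omega : 2 ≤ p)
      have h5 : ((p + 1 : ℕ) : ℝ) ≤ (p : ℝ) ^ 2 := by push_cast; nlinarith
      have h6 : (0 : ℝ) < ((p + 1 : ℕ) : ℝ) := by push_cast; linarith
      have h7 := Real.log_le_log h6 h5
      rw [Real.log_pow] at h7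
      exact_mod_cast h7
    refine key.trans ?_
    have e : ((q / u.A).totient : ℝ) / ((q / u.A : ℕ) : ℝ) = tq (q / u.A) := rfl
    rw [e]
    refine mul_le_mul_of_nonneg_right ?_ (tq_nonneg _)
    have := mul_le_mul_of_nonneg_left hlog2 CT_pos.le
    linarith
  refine ⟨hQ, fun hl q hq hqt => ?_, ?_, hh3⟩
  · exact lg (tp τ) (tp_gt hN.self.node hl) (top_of_nodeOk hN.self.node hl).2.2 q hq hqt
  · intro j hj hjt
    have e := hN.self.pp _ hjt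
    have := hm _ hj (X.c.bp j.1.1 j.1.2)
    have e' : u.A * pp τ ((X.c.D.par Y).it j) = pp X.c.t ((X.c.D.par Y).it j) := e.symm
    rw [e']
    exact this

lemma num_Y : ∀ p : ℕ, 768 ≤ p → 2 * (p : ℝ) ≤ Real.exp (p * ((p:ℝ)^(-(1/3):ℝ)/4)) := by
  intro p hp
  have h0 : (768 : ℝ) ≤ p := by exact_mod_cast hp
  have h1 : (0 : ℝ) < p := by linarith
  set t : ℝ := p * ((p:ℝ)^(-(1/3):ℝ)/4) with ht
  have t0 : 0 ≤ t := by positivity
  have h2 := Real.pow_div_factorial_le_exp t t0 3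
  have h3 : t ^ 3 = (p : ℝ) ^ 2 / 64 := by
    have e1 : ((p : ℝ) ^ (-(1/3) : ℝ)) ^ 3 = (p : ℝ)⁻¹ := by
      rw [← Real.rpow_natCast, ← Real.rpow_mul h1.le, ← Real.rpow_neg_one]
      norm_num
    calc t ^ 3 = (p : ℝ) ^ 3 * (((p:ℝ)^(-(1/3):ℝ)) ^ 3) / 64 := by rw [ht]; ring
      _ = (p : ℝ) ^ 2 / 64 := by rw [e1]; field_simp
  have h4 : ((3 : ℕ).factorial : ℝ) = 6 := by norm_num [Nat.factorial]
  rw [h3, h4] at h2
  refine le_trans ?_ h2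
  rw [div_div, le_div_iff₀ (by norm_num)]
  nlinarith

/-- **constants of a context** -/
theorem ctx_GSP (N : Skel189.Num) {c₀ : ℝ} (hc₀ : 0 < c₀) (Ch : ℝ) :
    ∃ (N0 : ℝ) (p₁ : ℕ), ∀ p0 ≥ p₁, ∀ (γ : ℝ) (P₀ : ℕ)
    (X : Ctx N γ p0 P₀) (Y : Finset (ℕ × ℕ × Finset ℕ)),
    GSP (X.c.D.par Y) X.c.rr X.S' X.par (Soft104.w X.ψ) X.c.t.uq (2 * CT) (N.B + N.c2) N.c2 c₀
      N0 Ch p0 := by
  obtain ⟨N0, -, h0⟩ := exists_StopCls
  have hCT : (0 : ℝ) ≤ 2 * CT := by have := CT_pos; linarith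
  obtain ⟨p1, h1⟩ := exists_SC N0 (2 * CT) N.c2 c₀ hCT hc₀
  obtain ⟨p2, h2⟩ := exists_SF (2 * CT)
  obtain ⟨p3, h3⟩ := ctx_NI N (2 * CT) hc₀
  obtain ⟨p4, h4⟩ := num_Tstop
  obtain ⟨p5, h5⟩ := num_high' Ch (2 * CT) c₀
  have hB1 := N.hB
  have hC1 := N.hC1
  have hc2 := N.hc2
  refine ⟨N0, p1 + p2 + p3 + p4 + p5 + 768, fun p0 hp0 γ P₀ X Y => ?_⟩
  refine ⟨h0, h1.mono (by omega), h2.mono (by omega), hCT,
    fun p hp => h3 p0 (by omega) γ P₀ X Y p hp, fun p hp => ?_, le_refl p0,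
    fun p hp => h4 p (by omega), fun p hp => ?_, fun p hp => num_Y p (by omega), by omega⟩
  · exact le_refl (Real.log p ^ N.c2)
  · exact h5 p (by omega) (Vn p) (Hn p) (Tn p) (Vn_le p) (by unfold Hn; positivity) le_rfl le_rfl

/-- the node predicate -/
def QS (X : Ctx N γ p0 P₀) (Y : Finset (ℕ × ℕ × Finset ℕ)) (c₀ Ch : ℝ)
    (Q' : NS → IT → Prop) (u : NS) (τ : IT) : Prop :=
  SB (X.c.D.par Y) X.c.rr X.S' X.par (Soft104.w X.ψ) X.c.t.uq (2 * CT) c₀ Ch u τ ∧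
    MF X.c.t u τ ∧ u.n ≤ top X.S ∧ Q' u τ

/-- **THE STOP SYMBOL OF A CONTEXT IS ZERO** -/
theorem ctx_eSTOP (N : Skel189.Num) {c₀ : ℝ} (hc₀ : 0 < c₀) (Ch : ℝ) : ∃ p₁ : ℕ, ∀ p0 ≥ p₁,
    ∀ (γ : ℝ) (P₀ : ℕ) (X : Ctx N γ p0 P₀) (Y : Finset (ℕ × ℕ × Finset ℕ)), Mean X c₀ → WNM X →
    IHi X Y Ch →
    ∀ stp : St X.c.Lam (Lb (WL X.c.Lam) Y) → Prop, (∀ s, stp s → stpM s) →
    (∀ s, ¬ stp s → ¬ stpM s) →
    ∀ (μ : TrG X.c.Lam (Lb (WL X.c.Lam) Y) → Finset X.c.Lam → ℝ)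
      (ν : TrG X.c.Lam (Lb (WL X.c.Lam) Y) → ℝ) (B cμ : ℝ), 1 ≤ cμ → cμ ^ 2 * (Ch ^ 2 + 2) ≤ B →
    All (fun u τ => ∀ A, ∑ j ∈ A, mI ((X.c.D.par Y).toDT X.c.sp u.B u.A τ) j ≤
      cμ * μ ((X.c.D.par Y).toG u.B u.A τ) A) ⟨top X.S, 1, 1, 1⟩ X.c.t →
    All (fun u τ => 0 ≤ ν ((X.c.D.par Y).toG u.B u.A τ)) ⟨top X.S, 1, 1, 1⟩ X.c.t →
    All (fun u τ => ∀ A, AdI (X.c.D.par Y).it ((X.c.D.par Y).toG u.B u.A τ) A →
      WS stp (eSTOP stp μ ν B) (selfSt ((X.c.D.par Y).toDT X.c.sp u.B u.A τ) A) ≤ 0)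
      ⟨top X.S, 1, 1, 1⟩ X.c.t := by
  obtain ⟨a2, h2⟩ := ctx_SB N (c₀ := c₀)
  obtain ⟨N0, a1, h1⟩ := ctx_GSP N hc₀ Ch
  refine ⟨a1 + a2 + 3, fun p0 hp0 γ P₀ X Y hm hw hi stp hstp hst μ ν B cμ hc hB hμ hν => ?_⟩
  have hG := h1 p0 (by omega) γ P₀ X Y
  set Q' : NS → IT → Prop := fun u τ =>
    (∀ A, ∑ j ∈ A, mI ((X.c.D.par Y).toDT X.c.sp u.B u.A τ) j ≤
      cμ * μ ((X.c.D.par Y).toG u.B u.A τ) A) ∧ 0 ≤ ν ((X.c.D.par Y).toG u.B u.A τ) with hQ'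
  have hQ : All (QS X Y c₀ Ch Q') ⟨top X.S, 1, 1, 1⟩ X.c.t := by
    refine All.mono (fun u τ hh => ?_)
      (((h2 p0 (by omega) γ P₀ X Y Ch hm hi).and (MF_root X.tOk 1)).and
        ((All_lvl X.c.t ⟨top X.S, 1, 1, 1⟩ X.tOk le_rfl).and (hμ.and hν)))
    exact ⟨hh.1.1, hh.1.2, hh.2.1.1, hh.2.2⟩
  have hall := ((ctx_NDt X).and X.all).and
    ((All_All _ _ hQ).and (All_All _ _ X.nodes))
  refine All.mono (fun u τ hh A hA => ?_) hall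
  obtain ⟨⟨hND, hNQ, hNG⟩, hq, hno⟩ := hh
  have hF : Fit u.B u.A τ := Fit_of_All τ u (All.mono (fun _ _ hh => hh.node) hND.all)
    fun q hq => Nat.pos_of_ne_zero (hND.sq q (hND.self.sub hq)).ne_zero
  have hB' : 0 < u.B := Nat.pos_of_ne_zero hND.bk.sfB.ne_zero
  have hW : (X.c.D.par Y).Wts u.A τ := by
    intro j hj
    rw [← hND.self.pp _ hj]
    exact X.ok.wt _ (Cf.mem_S j) _
  have hs : SideI (X.c.D.par Y) X.c.sp u.B u.A τ A ((X.c.D.par Y).toDT X.c.sp u.B u.A τ) :=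
    ⟨rfl, hB', hF, hW, hA.1, u.n, hND.self.ok⟩
  refine eSTOP_final (Qp := QS X Y c₀ Ch Q') hG (X.ok.spok.spOk Y) (fun b => X.c.IL_sp b)
    (OSCtx710.ctx_spd X Y) (fun u τ h => h.1) hstp hst hs hq hA.2 hND.self.ok hNG ?_ hc hB ?_ ?_
  · intro x v v' σ σ' hi hj hl hpn hp hbig hR
    have q1 := hi.qL.self
    have q2 := hi.qR.self
    have hnn : x.n ≤ top X.S := by rw [← hi.nL]; exact q1.2.2.1
    have hxp : 0 < x.s.p := by omega
    have hthr : (1 : ℝ) / 2 ^ nS x.s.p ≤ X.c.wp.thr x.n := by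
      refine le_trans ?_ (hw.thr x.n (by omega))
      refine one_div_le_one_div_of_le (by positivity) (pow_le_pow_right₀ (by norm_num) ?_)
      unfold nn nS
      refine Nat.floor_mono ?_
      have hlog2 : 0 < Real.log 2 := Real.log_pos (by norm_num)
      refine div_le_div_of_nonneg_right ?_ hlog2.le
      have h5 := hG.Y x.s.p hp
      have hx0 : (0 : ℝ) < x.n := by exact_mod_cast (by omega : 0 < x.n)
      have hx1 : (1 : ℝ) ≤ x.n := by exact_mod_cast (by omega : 1 ≤ x.n)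
      have h6 : (x.n : ℝ) ≤ 2 * x.s.p := by exact_mod_cast hbig
      have h7 : Real.log x.n ≤ x.s.p * ((x.s.p:ℝ)^(-(1/3):ℝ)/4) := by
        rw [Real.log_le_iff_le_exp hx0]
        exact h6.trans h5
      have h8 : 0 ≤ Real.log x.n := Real.log_nonneg hx1
      linarith
    exact fsy_data X.ok Y hi.st hj.circ q1.2.1 q2.2.1 hi.nL hi.nR hnn (by omega) hR hthr
      fun q => hw.ac x.n q (by omega)
  · intro v σ A d hq hsd
    have h5 := hq.self.2.2.2.1 A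
    rw [hsd.eq, Par.toDT_g]
    exact h5
  · intro v σ A d hq hsd
    have h5 := hq.self.2.2.2.2
    rw [hsd.eq, Par.toDT_g]
    exact h5

end ctx

end Crest.Agent.R4.StopCtx693
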