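import Mathlib
import Crest.Agent.R4.OSCore709

/-!
R4 (S0004), helper709: the `[F]` pairs at a STOP (95 #15266): `1 < 2 (mm e)^10 D` is paid by HVW inside every group
(`ff_g`), the groups are summed by Rankin with room `(Π S)^τ`.
-/

set_option autoImplicit false
open Finset

namespace Crest.Agent.R4.OSCore709
open Crest.Agent.R4.HVW560 Crest.Agent.R4.HVWX793
open Crest.Agent.R4.Schur709 Crest.Agent.R4.StopHvw709 Crest.Agent.R4.StopAsm709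
open Crest.Agent.R4.ClsS (eps1)

/-- Rankin for the weights `p^(-11/12)` -/
lemma rankin_w {N : ℕ} {O : Finset ℕ} (hO : ∀ p ∈ O, 0 < p ∧ N ≤ p) (c : ℝ) (IS : Finset (Finset ℕ))
    (hIS : ∀ S ∈ IS, S ⊆ O ∧ c ≤ ∑ p ∈ S, 1/(p:ℝ)) :
    ∑ S ∈ IS, ∏ p ∈ S, ((p:ℝ)^(-(11/12):ℝ)) ≤ Real.exp (-(N*c) + 3 * ∑ p ∈ O, (p:ℝ)^(-(11/12):ℝ)) := by
  classical
  have hp0 : ∀ p ∈ O, (0:ℝ) < p := fun p hp => by exact_mod_cast (hO p hp).1
  have step : ∀ S ∈ IS, ∏ p ∈ S, ((p:ℝ)^(-(11/12):ℝ)) ≤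
      Real.exp (-(N*c)) * ∏ p ∈ S, (3 * (p:ℝ)^(-(11/12):ℝ)) := by
    intro S hS
    obtain ⟨hSO, hcS⟩ := hIS S hS
    have h1 : Real.exp (N * c) ≤ ∏ p ∈ S, (3:ℝ) := by
      calc Real.exp (N * c) ≤ Real.exp (∑ p ∈ S, (N:ℝ) * (1/(p:ℝ))) := by
            apply Real.exp_le_exp.2
            rw [← Finset.mul_sum]
            exact mul_le_mul_of_nonneg_left hcS (Nat.cast_nonneg _)
        _ = ∏ p ∈ S, Real.exp ((N:ℝ) * (1/(p:ℝ))) := Real.exp_sum _ _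
        _ ≤ ∏ p ∈ S, (3:ℝ) := by
            apply Finset.prod_le_prod (fun _ _ => (Real.exp_pos _).le)
            intro p hp
            have hpp := hp0 p (hSO hp)
            have h2 : (N:ℝ) * (1/(p:ℝ)) ≤ 1 := by
              rw [mul_one_div, div_le_one hpp]
              exact_mod_cast (hO p (hSO hp)).2
            calc Real.exp ((N:ℝ) * (1/(p:ℝ))) ≤ Real.exp 1 := Real.exp_le_exp.2 h2
              _ ≤ 3 := by have := Real.exp_one_lt_d9; linarith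
    have hn : 0 ≤ ∏ p ∈ S, ((p:ℝ)^(-(11/12):ℝ)) := Finset.prod_nonneg fun p _ => by positivity
    rw [Finset.prod_mul_distrib, ← mul_assoc]
    have h3 : 1 ≤ Real.exp (-(N*c)) * ∏ p ∈ S, (3:ℝ) := by
      rw [Real.exp_neg, ← div_eq_inv_mul, le_div_iff₀ (Real.exp_pos _), one_mul]
      exact h1
    nlinarith
  calc ∑ S ∈ IS, ∏ p ∈ S, ((p:ℝ)^(-(11/12):ℝ))
      ≤ ∑ S ∈ IS, Real.exp (-(N*c)) * ∏ p ∈ S, (3 * (p:ℝ)^(-(11/12):ℝ)) := Finset.sum_le_sum step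
    _ ≤ ∑ S ∈ O.powerset, Real.exp (-(N*c)) * ∏ p ∈ S, (3 * (p:ℝ)^(-(11/12):ℝ)) := by
        apply Finset.sum_le_sum_of_subset_of_nonneg
        · intro S hS; exact Finset.mem_powerset.2 (hIS S hS).1
        · intro S _ _
          exact mul_nonneg (Real.exp_nonneg _) (Finset.prod_nonneg fun p _ => by positivity)
    _ = Real.exp (-(N*c)) * ∏ p ∈ O, (1 + 3 * (p:ℝ)^(-(11/12):ℝ)) := by
        rw [← Finset.mul_sum, Finset.prod_one_add]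
    _ ≤ Real.exp (-(N*c)) * Real.exp (3 * ∑ p ∈ O, (p:ℝ)^(-(11/12):ℝ)) := by
        apply mul_le_mul_of_nonneg_left _ (Real.exp_nonneg _)
        rw [Finset.mul_sum, Real.exp_sum]
        apply Finset.prod_le_prod (fun p _ => by positivity)
        intro p _
        have := Real.add_one_le_exp (3 * (p:ℝ)^(-(11/12):ℝ))
        linarith
    _ = _ := by rw [← Real.exp_add]

/-- one side -/
lemma side_r {N : ℕ} {O W : Finset ℕ} {μ : ℕ → ℝ} {α β τ : ℝ} (hα : 0 < α) (hβ : 0 < β) (hab : α + β = 1)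
    (hr : τ ≤ α/12) (hO : ∀ p ∈ O, 0 < p ∧ N ≤ p) (hμ : ∀ r ∈ W, 0 ≤ μ r) (IS : Finset (Finset ℕ))
    (hIS : IS = W.image (miss O)) {c : ℝ}
    (hc : ∀ r ∈ W, c ≤ ∑ p ∈ O.filter (fun p => ¬ p ∣ r), 1/(p:ℝ)) :
    ∑ S ∈ IS, (∏ p ∈ S, (p:ℝ))^τ *
        ((∏ p ∈ S, (1/(p:ℝ)))^α * (∑ r ∈ W.filter (fun r => miss O r = S), μ r)^β)
      ≤ Real.exp (α * (-(N*c) + 3 * ∑ p ∈ O, (p:ℝ)^(-(11/12):ℝ))) * (∑ r ∈ W, μ r)^β := by
  classical
  have hISO : ∀ S ∈ IS, S ⊆ O ∧ c ≤ ∑ p ∈ S, 1/(p:ℝ) := by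
    intro S hS
    rw [hIS, Finset.mem_image] at hS
    obtain ⟨r, hr, rfl⟩ := hS
    exact ⟨miss_sub O r, hc r hr⟩
  have hpS : ∀ S ∈ IS, ∀ p ∈ S, (1:ℝ) ≤ p := fun S hS p hp => by
    exact_mod_cast (hO p ((hISO S hS).1 hp)).1
  have hA0 : ∀ S ∈ IS, (0:ℝ) ≤ ∏ p ∈ S, ((p:ℝ)^(-(11/12):ℝ)) := fun S hS =>
    Finset.prod_nonneg fun p hp => by positivity
  have hB0 : ∀ S ∈ IS, 0 ≤ ∑ r ∈ W.filter (fun r => miss O r = S), μ r := fun S _ =>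
    Finset.sum_nonneg fun r hr => hμ r (Finset.mem_filter.1 hr).1
  have step : ∀ S ∈ IS, (∏ p ∈ S, (p:ℝ))^τ *
      ((∏ p ∈ S, (1/(p:ℝ)))^α * (∑ r ∈ W.filter (fun r => miss O r = S), μ r)^β)
      ≤ (∏ p ∈ S, ((p:ℝ)^(-(11/12):ℝ)))^α *
        (∑ r ∈ W.filter (fun r => miss O r = S), μ r)^β := by
    intro S hS
    rw [← mul_assoc]
    apply mul_le_mul_of_nonneg_right _ (Real.rpow_nonneg (hB0 S hS) _)
    rw [← Real.finsetProd_rpow S _ (fun p _ => by positivity), ← Real.finsetProd_rpow S _ (fun p _ => by positivity),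
      ← Real.finsetProd_rpow S _ (fun p _ => by positivity), ← Finset.prod_mul_distrib]
    apply Finset.prod_le_prod (fun p _ => by positivity)
    intro p hp
    have hp1 := hpS S hS p hp
    have hp0 : (0:ℝ) < p := by linarith
    rw [one_div, Real.inv_rpow hp0.le, ← Real.rpow_neg hp0.le, ← Real.rpow_mul hp0.le,
      ← Real.rpow_add hp0]
    apply Real.rpow_le_rpow_of_exponent_le hp1
    linarith
  refine (Finset.sum_le_sum step).trans ?_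
  refine (holder IS hα hβ hab (fun S => ∏ p ∈ S, ((p:ℝ)^(-(11/12):ℝ)))
    (fun S => ∑ r ∈ W.filter (fun r => miss O r = S), μ r) hA0 hB0).trans ?_
  rw [Finset.sum_fiberwise_of_maps_to (fun r hr => by rw [hIS]; exact Finset.mem_image_of_mem _ hr)]
  apply mul_le_mul_of_nonneg_right _ (Real.rpow_nonneg (Finset.sum_nonneg hμ) _)
  calc (∑ S ∈ IS, ∏ p ∈ S, ((p:ℝ)^(-(11/12):ℝ)))^α
      ≤ (Real.exp (-(N*c) + 3 * ∑ p ∈ O, (p:ℝ)^(-(11/12):ℝ)))^α :=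
        Real.rpow_le_rpow (Finset.sum_nonneg hA0) (rankin_w hO c IS hISO) hα.le
    _ = _ := by rw [← Real.exp_mul, mul_comm]

/-- **sum over groups by Rankin**, with room `(Π S)^τ` per group -/
theorem group_sum_r {N : ℕ} {O O' V W : Finset ℕ} {E : Finset (ℕ × ℕ)} {μ μ' : ℕ → ℝ}
    {α β τ : ℝ} (hα : 0 < α) (hβ : 0 < β) (hab : α + β = 1) (hr : τ ≤ α/12)
    (hO : ∀ p ∈ O, 0 < p ∧ N ≤ p) (hO' : ∀ p ∈ O', 0 < p ∧ N ≤ p)
    (hE : E ⊆ V ×ˢ W) (hμ : ∀ q ∈ V, 0 ≤ μ q) (hμ' : ∀ r ∈ W, 0 ≤ μ' r)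
    {F : ℕ × ℕ → ℝ} {G : ℝ} (hG : 0 ≤ G) {c c' : ℝ}
    (hc : ∀ r ∈ W, c ≤ ∑ p ∈ O.filter (fun p => ¬ p ∣ r), 1/(p:ℝ))
    (hc' : ∀ q ∈ V, c' ≤ ∑ p ∈ O'.filter (fun p => ¬ p ∣ q), 1/(p:ℝ))
    (h : ∀ S ⊆ O, ∀ S' ⊆ O', ∑ e ∈ Eg O O' E S S', F e
      ≤ G * ((∏ p ∈ S, (p:ℝ))^τ * (∏ p ∈ S', (p:ℝ))^τ) *
        (((∏ p ∈ S, (1/(p:ℝ)))^α * (∑ r ∈ Vg O W S, μ' r)^β) *
        ((∏ p ∈ S', (1/(p:ℝ)))^α * (∑ q ∈ Vg O' V S', μ q)^β))) :
    ∑ e ∈ E, F e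
      ≤ G * Real.exp (α * ((-(N*c) + 3 * ∑ p ∈ O, (p:ℝ)^(-(11/12):ℝ)) +
          (-(N*c') + 3 * ∑ p ∈ O', (p:ℝ)^(-(11/12):ℝ)))) *
        ((∑ q ∈ V, μ q) * (∑ r ∈ W, μ' r))^β := by
  classical
  set IS : Finset (Finset ℕ) := W.image (miss O) with hIS
  set IS' : Finset (Finset ℕ) := V.image (miss O') with hIS'
  have hISO : ∀ S ∈ IS, S ⊆ O := by
    intro S hS
    rw [hIS, Finset.mem_image] at hS
    obtain ⟨r, _, rfl⟩ := hS
    exact miss_sub O r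
  have hISO' : ∀ S ∈ IS', S ⊆ O' := by
    intro S hS
    rw [hIS', Finset.mem_image] at hS
    obtain ⟨r, _, rfl⟩ := hS
    exact miss_sub O' r
  have split : ∑ e ∈ E, F e
      = ∑ x ∈ IS ×ˢ IS', ∑ e ∈ E.filter (fun e => miss O e.2 = x.1 ∧ miss O' e.1 = x.2), F e := by
    rw [← Finset.sum_fiberwise_of_maps_to (s := E) (t := IS ×ˢ IS')
      (g := fun e => (miss O e.2, miss O' e.1))]
    · apply Finset.sum_congr rfl
      intro x _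
      apply Finset.sum_congr _ (fun _ _ => rfl)
      ext e
      simp only [Finset.mem_filter, Prod.ext_iff]
    · intro e he
      have := Finset.mem_product.1 (hE he)
      exact Finset.mem_product.2 ⟨Finset.mem_image_of_mem _ this.2, Finset.mem_image_of_mem _ this.1⟩
  rw [split]
  set A : Finset ℕ → ℝ := fun S => (∏ p ∈ S, (p:ℝ))^τ * ((∏ p ∈ S, (1/(p:ℝ)))^α *
    (∑ r ∈ W.filter (fun r => miss O r = S), μ' r)^β) with hA
  set A' : Finset ℕ → ℝ := fun S => (∏ p ∈ S, (p:ℝ))^τ * ((∏ p ∈ S, (1/(p:ℝ)))^α *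
    (∑ r ∈ V.filter (fun r => miss O' r = S), μ r)^β) with hA'
  have np : ∀ S : Finset ℕ, (0:ℝ) ≤ ∏ p ∈ S, (1/(p:ℝ)) := fun S =>
    Finset.prod_nonneg fun p _ => by positivity
  have step1 : ∑ x ∈ IS ×ˢ IS', ∑ e ∈ E.filter (fun e => miss O e.2 = x.1 ∧ miss O' e.1 = x.2), F e
      ≤ G * ((∑ S ∈ IS, A S) * (∑ S ∈ IS', A' S)) := by
    calc _ ≤ ∑ x ∈ IS ×ˢ IS', G * (A x.1 * A' x.2) := by
          apply Finset.sum_le_sum
          intro x hx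
          have hx' := Finset.mem_product.1 hx
          have h2 := h _ (hISO _ hx'.1) _ (hISO' _ hx'.2)
          rw [← filter_eq_Eg] at h2
          refine h2.trans (le_of_eq ?_)
          show _ = G * (((∏ p ∈ x.1, (p:ℝ))^τ * ((∏ p ∈ x.1, (1/(p:ℝ)))^α * (∑ r ∈ Vg O W x.1, μ' r)^β)) *
            ((∏ p ∈ x.2, (p:ℝ))^τ * ((∏ p ∈ x.2, (1/(p:ℝ)))^α * (∑ q ∈ Vg O' V x.2, μ q)^β)))
          ring
      _ = _ := by
          rw [← Finset.mul_sum, Finset.sum_mul_sum, ← Finset.sum_product']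
  have nA' : ∀ S, 0 ≤ A' S := fun S => by
    rw [hA']
    exact mul_nonneg (Real.rpow_nonneg (Finset.prod_nonneg fun p _ => by positivity) _)
      (mul_nonneg (Real.rpow_nonneg (np S) _) (Real.rpow_nonneg
      (Finset.sum_nonneg fun r hr => hμ r (Finset.mem_filter.1 hr).1) _))
  have bd := side_r hα hβ hab hr hO hμ' IS hIS hc
  have bd' := side_r hα hβ hab hr hO' hμ IS' hIS' hc'
  refine step1.trans ?_
  have hM0 : 0 ≤ ∑ q ∈ V, μ q := Finset.sum_nonneg fun q hq => hμ q hq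
  have hM0' : 0 ≤ ∑ r ∈ W, μ' r := Finset.sum_nonneg fun q hq => hμ' q hq
  calc G * ((∑ S ∈ IS, A S) * (∑ S ∈ IS', A' S))
      ≤ G * ((Real.exp (α * (-(N*c) + 3 * ∑ p ∈ O, (p:ℝ)^(-(11/12):ℝ))) * (∑ r ∈ W, μ' r)^β) *
        (Real.exp (α * (-(N*c') + 3 * ∑ p ∈ O', (p:ℝ)^(-(11/12):ℝ))) * (∑ r ∈ V, μ r)^β)) := by
        apply mul_le_mul_of_nonneg_left _ hG
        exact mul_le_mul bd bd' (Finset.sum_nonneg fun S _ => nA' S)
          (mul_nonneg (Real.exp_nonneg _) (Real.rpow_nonneg hM0' _))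
    _ = _ := by
        have e3 : α * ((-(N*c) + 3 * ∑ p ∈ O, (p:ℝ)^(-(11/12):ℝ)) +
            (-(N*c') + 3 * ∑ p ∈ O', (p:ℝ)^(-(11/12):ℝ)))
            = α * (-(N*c) + 3 * ∑ p ∈ O, (p:ℝ)^(-(11/12):ℝ)) +
              α * (-(N*c') + 3 * ∑ p ∈ O', (p:ℝ)^(-(11/12):ℝ)) := by ring
        rw [Real.mul_rpow hM0 hM0', e3, Real.exp_add]
        ring

/-- **the exact-false pairs with `1 < 2 m^10 D`, `D ≤ 1`, with missed masses `c`, `c'`** -/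
theorem ff_stop {N : ℕ} {O O' V W : Finset ℕ} {E : Finset (ℕ × ℕ)}
    {R R' : ℕ → ℝ} (hO : ∀ p ∈ O, p.Prime ∧ N ≤ p) (hO' : ∀ p ∈ O', p.Prime ∧ N ≤ p)
    (hV : ∀ w ∈ V, 0 < w ∧ 0 < R w) (hW : ∀ w ∈ W, 0 < w ∧ 0 < R' w) (hE : E ⊆ V ×ˢ W) {L : ℝ}
    (hLV : ∀ w ∈ V, R w ≤ L * mu O' R w) (hLW : ∀ w ∈ W, R' w ≤ L * mu O R' w) {c c' : ℝ}
    (hc : ∀ r ∈ W, c ≤ ∑ p ∈ O.filter (fun p => ¬ p ∣ r), 1/(p:ℝ))
    (hc' : ∀ q ∈ V, c' ≤ ∑ p ∈ O'.filter (fun p => ¬ p ∣ q), 1/(p:ℝ))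
    {K : ℝ} (hK : 0 ≤ K) {F : ℕ × ℕ → ℝ} (h1 : ∀ e ∈ E, Dc O O' R R' e ≤ 1)
    (hm : ∀ e ∈ E, 1 < 2 * (mm O O' e)^10 * Dc O O' R R' e)
    (hF : ∀ e ∈ E, F e ≤ K * ((R e.1 * R' e.2) / Dc O O' R R' e)) :
    ∑ e ∈ E, F e ≤ K * L^2 * (60000 * KH 1 0 eps1) *
      Real.exp ((1/2-eps1) * ((-(N*c) + 3 * ∑ p ∈ O, (p:ℝ)^(-(11/12):ℝ)) +
          (-(N*c') + 3 * ∑ p ∈ O', (p:ℝ)^(-(11/12):ℝ)))) *
      ((∑ q ∈ V, mu O' R q) * (∑ r ∈ W, mu O R' r))^(1/2+eps1) := by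
  have he1 : eps1 = 1/1000 := rfl
  have hKH := (KH_pos 1 0 eps1).le
  have hmu : ∀ q ∈ V, 0 ≤ mu O' R q := fun q hq => mu_nonneg (hV q hq).2.le
  have hmu' : ∀ q ∈ W, 0 ≤ mu O R' q := fun q hq => mu_nonneg (hW q hq).2.le
  have hDpos : ∀ e ∈ E, 0 < Dc O O' R R' e := by
    intro e he
    have h := Finset.mem_product.1 (hE he)
    exact Dc_pos hO hO' (hV _ h.1).2 (hW _ h.2).1
  have hFmu : ∀ e ∈ E, F e ≤ K * L^2 * ((mu O' R e.1 * mu O R' e.2) / Dc O O' R R' e) := by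
    intro e he
    have h := Finset.mem_product.1 (hE he)
    have h1 := hLV _ h.1
    have h2 := hLW _ h.2
    have h3 := (hW _ h.2).2
    have h5 : 0 ≤ L * mu O' R e.1 := (hV _ h.1).2.le.trans h1
    have hRR : R e.1 * R' e.2 ≤ L^2 * (mu O' R e.1 * mu O R' e.2) := by
      calc R e.1 * R' e.2 ≤ (L * mu O' R e.1) * (L * mu O R' e.2) := mul_le_mul h1 h2 h3.le h5
        _ = _ := by ring
    calc F e ≤ K * ((R e.1 * R' e.2) / Dc O O' R R' e) := hF e he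
      _ ≤ K * ((L^2 * (mu O' R e.1 * mu O R' e.2)) / Dc O O' R R' e) :=
          mul_le_mul_of_nonneg_left (div_le_div_of_nonneg_right hRR (hDpos e he).le) hK
      _ = _ := by ring
  refine group_sum_r (τ := 22/1000) (by rw [he1]; norm_num) (by rw [he1]; norm_num) (by ring)
    (by rw [he1]; norm_num) (fun p hp => ⟨(hO p hp).1.pos, (hO p hp).2⟩)
    (fun p hp => ⟨(hO' p hp).1.pos, (hO' p hp).2⟩) hE hmu hmu' (by positivity) hc hc' ?_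
  intro S hS S' hS'
  have sE : ∀ e ∈ Eg O O' E S S', e ∈ E := fun e he => (Finset.mem_filter.1 he).1
  exact ff_g hO hO' hV hW (fun e he => hE (sE e he)) hS hS' sub_ES (by positivity)
    (fun e he => h1 e (sE e he)) (fun e he => hm e (sE e he)) (fun e he => hFmu e (sE e he))

open Classical in
/-- **STOP, final form**: as `stop_final_cls`, the `[F]` pairs with `1 < 2 (mm e)^10 D` are paid -/
theorem stop_final_ff : ∃ N0 : ℝ, 1 ≤ N0 ∧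
    ∀ (T K2 L : ℝ) (n N G : ℕ) (O O' V W : Finset ℕ) (R R' : ℕ → ℝ)
    (γ γ' : Finset ℕ → ℝ) (F : ℕ × ℕ → ℝ) (c c' : ℝ) (Q : ℕ × ℕ → Prop),
    N0 ≤ N → 400 * Real.sqrt N ≤ N * c → 0 ≤ c' → n = ⌊100 * (N * c) / Real.log 2⌋₊ → 0 < G →
    0 ≤ K2 → K2 ≤ 6 * Real.exp (N*c/20) → 0 ≤ L → L^2 ≤ Real.exp (N*c/50) → 1 ≤ T →
    T ≤ Real.exp (N*c/20) →
    (∀ p ∈ O, p.Prime ∧ N ≤ p) → (∀ p ∈ O', p.Prime ∧ N ≤ p) →
    ∑ p ∈ O, 1/(p:ℝ) ≤ 1 → ∑ p ∈ O', 1/(p:ℝ) ≤ 1 →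
    ∑ p ∈ O, (p:ℝ)^(-(11/12):ℝ) ≤ 1 → ∑ p ∈ O', (p:ℝ)^(-(11/12):ℝ) ≤ 1 →
    (∀ w ∈ V, 0 < w ∧ 0 < R w) → (∀ w ∈ W, 0 < w ∧ 0 < R' w) →
    (∀ w ∈ V, R w ≤ L * mu O' R w) → (∀ w ∈ W, R' w ≤ L * mu O R' w) →
    (∀ z : ℝ, (N:ℝ) ≤ z → ∀ w ∈ V, Crest.Agent.R4.ClsB.Tame z G (uu O' w)) →
    (∀ z : ℝ, (N:ℝ) ≤ z → ∀ w ∈ W, Crest.Agent.R4.ClsB.Tame z G (uu O w)) →
    (∀ r ∈ W, c ≤ ∑ p ∈ O.filter (fun p => ¬ p ∣ r), 1/(p:ℝ)) →
    (∀ q ∈ V, c' ≤ ∑ p ∈ O'.filter (fun p => ¬ p ∣ q), 1/(p:ℝ)) →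
    (∀ e ∈ V ×ˢ W, Dc O O' R R' e ≤ T → F e ≤ K2 * ((R e.1 * R' e.2) / Dc O O' R R' e)) →
    (∀ e ∈ V ×ˢ W, ¬ CaseA N O O' e → Dc O O' R R' e ≤ 1/2^n → 0 < F e →
      RelG O O' R R' γ γ' e) →
    (∀ e ∈ V ×ˢ W, ¬ CaseA N O O' e → Dc O O' R R' e ≤ 1/2^n → 0 < F e → FG O O' R R' γ γ' n e →
      1 < 2 * (mm O O' e)^10 * Dc O O' R R' e ∨ Q e) →
    ∑ e ∈ V ×ˢ W, F e ≤
      ∑ e ∈ (V ×ˢ W).filter (fun e => T < Dc O O' R R' e), F e +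
      2 * Real.exp (-(N*c/10)) * (Real.sqrt ((∑ q ∈ V, R q) * (∑ r ∈ W, R' r)) *
        ((1 + ∑ q ∈ V, R q) * (1 + ∑ r ∈ W, R' r))) +
      ∑ e ∈ (V ×ˢ W).filter (fun e => 0 < F e ∧ (¬ CaseA N O O' e ∧ Dc O O' R R' e ≤ 1/2^n ∧ Q e)), F e := by
  obtain ⟨N0, hN0, h0⟩ := stop_final_cls
  have hKH := (KH_pos 1 0 eps1).le
  set Y0 : ℝ := 100 + 100 * Real.log (1 + 360000 * KH 1 0 eps1) with hY0
  have hlg0 : 0 ≤ Real.log (1 + 360000 * KH 1 0 eps1) := Real.log_nonneg (by linarith)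
  refine ⟨max N0 (Y0^2), hN0.trans (le_max_left _ _), ?_⟩
  intro T K2 L n N G O O' V W R R' γ γ' F c c' Q hN hNc hc'0 hn hG hK20 hK2 hL0 hL hT1 hT hO hO' hsO hsO'
    hwO hwO' hV hW hLV hLW hVt hWt hc hc' hsmall hrel hFG
  have main := h0 T K2 L n N G O O' V W R R' γ γ' F c c' ((le_max_left _ _).trans hN) hNc hc'0 hn hG hK20 hK2
    hL0 hL hT1 hT hO hO' hsO hsO' hV hW hLV hLW hVt hWt hc hc' hsmall hrel
  have he1 : eps1 = 1/1000 := rfl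
  set P := V ×ˢ W with hP
  -- split the rest
  set Rs := P.filter (fun e => 0 < F e ∧ (¬ CaseA N O O' e ∧ Dc O O' R R' e ≤ 1/2^n ∧
        FG O O' R R' γ γ' n e)) with hRs
  set E := Rs.filter (fun e => 1 < 2 * (mm O O' e)^10 * Dc O O' R R' e) with hEd
  have hsp : ∑ e ∈ Rs, F e ≤ ∑ e ∈ E, F e +
      ∑ e ∈ P.filter (fun e => 0 < F e ∧ (¬ CaseA N O O' e ∧ Dc O O' R R' e ≤ 1/2^n ∧ Q e)), F e := by
    rw [← Finset.sum_filter_add_sum_filter_not Rs (fun e => 1 < 2 * (mm O O' e)^10 * Dc O O' R R' e) F]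
    apply add_le_add le_rfl
    apply Finset.sum_le_sum_of_subset_of_nonneg
    · intro e he
      obtain ⟨h1, h2⟩ := Finset.mem_filter.1 he
      obtain ⟨h3, h4, h5, h6, h7⟩ := Finset.mem_filter.1 h1
      refine Finset.mem_filter.2 ⟨h3, h4, h5, h6, ?_⟩
      rcases hFG e h3 h5 h6 h4 h7 with h8 | h8
      · exact absurd h8 h2
      · exact h8
    · intro e he _
      exact (Finset.mem_filter.1 he).2.1.le
  have hEP : ∀ e ∈ E, e ∈ P ∧ Dc O O' R R' e ≤ 1/2^n := fun e he =>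
    ⟨(Finset.mem_filter.1 (Finset.mem_filter.1 he).1).1, (Finset.mem_filter.1 (Finset.mem_filter.1 he).1).2.2.2.1⟩
  have h2n1 : (1:ℝ)/2^n ≤ 1 := by
    rw [div_le_one (by positivity)]
    exact one_le_pow₀ (by norm_num)
  have hff := ff_stop (N := N) hO hO' hV hW (fun e he => (hEP e he).1) hLV hLW hc hc' hK20 (F := F)
    (fun e he => (hEP e he).2.trans h2n1) (fun e he => (Finset.mem_filter.1 he).2)
    (fun e he => hsmall e (hEP e he).1 ((hEP e he).2.trans (h2n1.trans hT1)))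
  -- numbers
  set y : ℝ := N * c with hy
  have hs : Y0 ≤ Real.sqrt N := Real.le_sqrt_of_sq_le ((le_max_right _ _).trans hN)
  have hyY : Y0 ≤ y := by
    have : 0 ≤ Real.sqrt N := Real.sqrt_nonneg _
    linarith
  have hy100 : 100 ≤ y := by linarith
  have hNc' : 0 ≤ (N:ℝ) * c' := mul_nonneg (Nat.cast_nonneg _) hc'0
  set SR := ∑ q ∈ V, R q with hSR
  set SR' := ∑ r ∈ W, R' r with hSR'
  have hSR0 : 0 ≤ SR := Finset.sum_nonneg fun q hq => (hV q hq).2.le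
  have hSR0' : 0 ≤ SR' := Finset.sum_nonneg fun q hq => (hW q hq).2.le
  set Q0 : ℝ := (1 + SR) * (1 + SR') with hQ0
  have hQ1 : 1 ≤ Q0 := by rw [hQ0]; nlinarith
  have hRRQ : SR * SR' ≤ Q0 := by rw [hQ0]; nlinarith
  have hX0 : 0 ≤ SR * SR' := mul_nonneg hSR0 hSR0'
  have hmumu : (∑ q ∈ V, mu O' R q) * (∑ r ∈ W, mu O R' r) ≤ SR * SR' := by
    exact mul_le_mul (Finset.sum_le_sum fun q hq => mu_le (hV q hq).2.le)
      (Finset.sum_le_sum fun q hq => mu_le (hW q hq).2.le)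
      (Finset.sum_nonneg fun q hq => mu_nonneg (hW q hq).2.le) hSR0
  have hmu0 : 0 ≤ (∑ q ∈ V, mu O' R q) * (∑ r ∈ W, mu O R' r) :=
    mul_nonneg (Finset.sum_nonneg fun q hq => mu_nonneg (hV q hq).2.le)
      (Finset.sum_nonneg fun q hq => mu_nonneg (hW q hq).2.le)
  have hpow : ((∑ q ∈ V, mu O' R q) * (∑ r ∈ W, mu O R' r))^(1/2+eps1) ≤ Real.sqrt (SR * SR') * Q0 := by
    set z := (∑ q ∈ V, mu O' R q) * (∑ r ∈ W, mu O R' r) with hz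
    rcases hX0.eq_or_lt with h0 | h0
    · have hz0 : z = 0 := le_antisymm (by rw [h0]; exact hmumu) hmu0
      rw [hz0, Real.zero_rpow (by rw [he1]; norm_num)]
      exact mul_nonneg (Real.sqrt_nonneg _) (by linarith)
    · calc z^(1/2+eps1) ≤ (SR * SR')^(1/2+eps1) := Real.rpow_le_rpow hmu0 hmumu (by rw [he1]; norm_num)
        _ = (SR * SR')^(1/2:ℝ) * (SR * SR')^eps1 := by rw [← Real.rpow_add h0]
        _ ≤ (SR * SR')^(1/2:ℝ) * Q0 := by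
            apply mul_le_mul_of_nonneg_left _ (by positivity)
            calc (SR * SR')^eps1 ≤ Q0^eps1 := Real.rpow_le_rpow hX0 hRRQ (by rw [he1]; norm_num)
              _ ≤ Q0^(1:ℝ) := Real.rpow_le_rpow_of_exponent_le hQ1 (by rw [he1]; norm_num)
              _ = Q0 := Real.rpow_one _
        _ = _ := by rw [Real.sqrt_eq_rpow]
  have hcoef : K2 * L^2 * (60000 * KH 1 0 eps1) *
      Real.exp ((1/2-eps1) * ((-y + 3 * ∑ p ∈ O, (p:ℝ)^(-(11/12):ℝ)) +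
          (-(N*c') + 3 * ∑ p ∈ O', (p:ℝ)^(-(11/12):ℝ)))) ≤ Real.exp (-(y/10)) := by
    have e20 : Real.exp (N*c/20) = Real.exp (y/20) := rfl
    have e50 : Real.exp (N*c/50) = Real.exp (y/50) := rfl
    have hK : 360000 * KH 1 0 eps1 ≤ Real.exp (y/100) := by
      have h3 : 1 + 360000 * KH 1 0 eps1 ≤ Real.exp (y/100) := by
        rw [← Real.log_le_iff_le_exp (by linarith)]
        linarith
      linarith
    calc K2 * L^2 * (60000 * KH 1 0 eps1) *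
        Real.exp ((1/2-eps1) * ((-y + 3 * ∑ p ∈ O, (p:ℝ)^(-(11/12):ℝ)) +
          (-(N*c') + 3 * ∑ p ∈ O', (p:ℝ)^(-(11/12):ℝ))))
        ≤ (6 * Real.exp (y/20)) * Real.exp (y/50) * (60000 * KH 1 0 eps1) *
          Real.exp ((1/2-eps1) * (-y + 6)) := by
          apply mul_le_mul
          · apply mul_le_mul_of_nonneg_right _ (by positivity)
            exact mul_le_mul hK2 hL (by positivity) (by positivity)
          · apply Real.exp_le_exp.2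
            rw [he1]
            linarith
          · exact Real.exp_nonneg _
          · positivity
      _ = (360000 * KH 1 0 eps1) * Real.exp (y/20 + y/50 + (1/2-eps1) * (-y + 6)) := by
          rw [Real.exp_add, Real.exp_add]; ring
      _ ≤ Real.exp (y/100) * Real.exp (y/20 + y/50 + (1/2-eps1) * (-y + 6)) :=
          mul_le_mul_of_nonneg_right hK (Real.exp_nonneg _)
      _ = Real.exp (y/100 + (y/20 + y/50 + (1/2-eps1) * (-y + 6))) := by rw [← Real.exp_add]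
      _ ≤ Real.exp (-(y/10)) := by
          apply Real.exp_le_exp.2
          rw [he1]
          linarith
  have hff2 : ∑ e ∈ E, F e ≤ Real.exp (-(y/10)) * (Real.sqrt (SR * SR') * Q0) := by
    refine hff.trans ?_
    exact mul_le_mul hcoef hpow (Real.rpow_nonneg hmu0 _) (Real.exp_nonneg _)
  have e2 : 2 * Real.exp (-(y/10)) * (Real.sqrt (SR * SR') * Q0) =
      Real.exp (-(y/10)) * (Real.sqrt (SR * SR') * Q0) + Real.exp (-(y/10)) * (Real.sqrt (SR * SR') * Q0) := by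
    ring
  rw [e2]
  linarith

end Crest.Agent.R4.OSCore709
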