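import Mathlib
import Crest.Agent.R4.NMW927
import Crest.Agent.R4.OSWS245

/-!
R4 (S0004), helper95: **STOP at the level of a walk state** (recipe of helper709).

* `StopCls` : the statement of `stop_final_cls` for a fixed `N0`.
* `stop_itemsL`, `stop_itemsR` : item pairs of two nodes, missed one-sided mass on the right / left.
* `stop_state` : `Qs s ≤ (Ch + 1) Lh(..) + Σ_{[F]} iF` for a state with `p^(-1/3) ≤ Σ_{O ∪ O'} 1/q`.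
-/

set_option autoImplicit false
set_option linter.unusedSectionVars false
set_option linter.unusedVariables false
open Finset

namespace Crest.Agent.R4.StopW95

open Crest.Agent.R4.HVW560 Crest.Agent.R4.Schur709 Crest.Agent.R4.StopHvw709
open Crest.Agent.R4.StopAsm709 Crest.Agent.R4.AvgItem710 Crest.Agent.R4.DeepSt579
open Crest.Agent.R4.Item758 Crest.Agent.R4.NMW710

open Classical in
/-- the statement of `stop_final_cls` for a fixed constant -/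
def StopCls (N0 : ℝ) : Prop :=
    ∀ (T K2 L : ℝ) (n N G : ℕ) (O O' V W : Finset ℕ) (R R' : ℕ → ℝ)
    (γ γ' : Finset ℕ → ℝ) (F : ℕ × ℕ → ℝ) (c c' : ℝ),
    N0 ≤ N → 400 * Real.sqrt N ≤ N * c → 0 ≤ c' → n = ⌊100 * (N * c) / Real.log 2⌋₊ → 0 < G →
    0 ≤ K2 → K2 ≤ 6 * Real.exp (N*c/20) → 0 ≤ L → L^2 ≤ Real.exp (N*c/50) → 1 ≤ T →
    T ≤ Real.exp (N*c/20) →
    (∀ p ∈ O, p.Prime ∧ N ≤ p) → (∀ p ∈ O', p.Prime ∧ N ≤ p) →
    ∑ p ∈ O, 1/(p:ℝ) ≤ 1 → ∑ p ∈ O', 1/(p:ℝ) ≤ 1 →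
    (∀ w ∈ V, 0 < w ∧ 0 < R w) → (∀ w ∈ W, 0 < w ∧ 0 < R' w) →
    (∀ w ∈ V, R w ≤ L * mu O' R w) → (∀ w ∈ W, R' w ≤ L * mu O R' w) →
    (∀ z : ℝ, (N:ℝ) ≤ z → ∀ w ∈ V, Crest.Agent.R4.ClsB.Tame z G (uu O' w)) →
    (∀ z : ℝ, (N:ℝ) ≤ z → ∀ w ∈ W, Crest.Agent.R4.ClsB.Tame z G (uu O w)) →
    (∀ r ∈ W, c ≤ ∑ p ∈ O.filter (fun p => ¬ p ∣ r), 1/(p:ℝ)) →
    (∀ q ∈ V, c' ≤ ∑ p ∈ O'.filter (fun p => ¬ p ∣ q), 1/(p:ℝ)) →
    (∀ e ∈ V ×ˢ W, Dc O O' R R' e ≤ T → F e ≤ K2 * ((R e.1 * R' e.2) / Dc O O' R R' e)) →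
    (∀ e ∈ V ×ˢ W, ¬ CaseA N O O' e → Dc O O' R R' e ≤ 1/2^n → 0 < F e →
      RelG O O' R R' γ γ' e) →
    ∑ e ∈ V ×ˢ W, F e ≤
      ∑ e ∈ (V ×ˢ W).filter (fun e => T < Dc O O' R R' e), F e +
      Real.exp (-(N*c/10)) * (Real.sqrt ((∑ q ∈ V, R q) * (∑ r ∈ W, R' r)) *
        ((1 + ∑ q ∈ V, R q) * (1 + ∑ r ∈ W, R' r))) +
      ∑ e ∈ (V ×ˢ W).filter (fun e => 0 < F e ∧ (¬ CaseA N O O' e ∧ Dc O O' R R' e ≤ 1/2^n ∧
        FG O O' R R' γ γ' n e)), F e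

theorem exists_StopCls : ∃ N0 : ℝ, 1 ≤ N0 ∧ StopCls N0 := stop_final_cls

section items
variable {Λ κι : Type*}

open Classical in
/-- **STOP for item pairs**, the right items miss the mass `cc` of the one-sided primes -/
theorem stop_itemsL {N0 : ℝ}
    (hst : StopCls N0) (D : Par Λ κι) {ρ : ℕ → ℝ} {F : ℕ × ℕ → ℝ} {T L cc : ℝ}
    {n N G M b pr c M' b' pr' c' : ℕ} {V W : Finset ℕ}
    (hN : N0 ≤ N) (hNc : 400 * Real.sqrt N ≤ N * cc) (hn : n = ⌊100 * (N * cc) / Real.log 2⌋₊)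
    (hn1 : 1 ≤ n) (hG : 0 < G) (hT1 : 1 ≤ T) (hT : T ≤ Real.exp (N*cc/20)) (hL0 : 0 ≤ L)
    (hL : L^2 ≤ Real.exp (N*cc/50))
    (hρ : ∀ q, 0 < ρ q) (hb : 0 < b) (hc : 0 < c) (hb' : 0 < b') (hc' : 0 < c')
    (hM : Squarefree M) (hM' : Squarefree M')
    (hMp : ∀ l : ℕ, l.Prime → l ∣ M → N ≤ l) (hMp' : ∀ l : ℕ, l.Prime → l ∣ M' → N ≤ l)
    (hs : ∑ l ∈ M.primeFactors, 1/(l:ℝ) ≤ 1) (hs' : ∑ l ∈ M'.primeFactors, 1/(l:ℝ) ≤ 1)
    (hV : ∀ q ∈ V, 0 < q ∧ pr ∣ q) (hW : ∀ q ∈ W, 0 < q ∧ pr' ∣ q)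
    (tV : ∀ z : ℝ, (N:ℝ) ≤ z → ∀ q ∈ V, ClsB.Tame z G (q / pr / M.gcd (q / pr)))
    (tW : ∀ z : ℝ, (N:ℝ) ≤ z → ∀ q ∈ W, ClsB.Tame z G (q / pr' / M'.gcd (q / pr')))
    (lV : ∀ q ∈ V, 1 ≤ L * tq (q / pr / M.gcd (q / pr)))
    (lW : ∀ q ∈ W, 1 ≤ L * tq (q / pr' / M'.gcd (q / pr')))
    (cW : ∀ q ∈ W, cc ≤ ∑ l ∈ M'.primeFactors.filter (fun l => ¬ l ∣ q / pr'), 1/(l:ℝ))
    (hF : ∀ e ∈ V ×ˢ W, F e ≤ D.pb ρ M b pr c e.1 M' b' pr' c' e.2) :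
    ∑ e ∈ V ×ˢ W, F e ≤
      ∑ e ∈ (V ×ˢ W).filter (fun e => T < Dq ρ M b pr c M' b' pr' c' e), F e +
      Real.exp (-(N*cc/10)) * (Real.sqrt ((∑ q ∈ V, rd b c ρ q) * (∑ q ∈ W, rd b' c' ρ q)) *
        ((1 + ∑ q ∈ V, rd b c ρ q) * (1 + ∑ q ∈ W, rd b' c' ρ q))) +
      ∑ e ∈ (V ×ˢ W).filter (fun e => 0 < F e ∧ (Dq ρ M b pr c M' b' pr' c' e ≤ 1/2^n ∧
        FSI D.γ ρ n M b pr c M' b' pr' c' e)), F e := by
  classical
  have hb0 : (0:ℝ) < b := by exact_mod_cast hb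
  have hc0' : (0:ℝ) < c := by exact_mod_cast hc
  have hbb0 : (0:ℝ) < b' := by exact_mod_cast hb'
  have hcc0 : (0:ℝ) < c' := by exact_mod_cast hc'
  have hR : ∀ q, 0 < rd b c ρ q := fun q => mul_pos (div_pos hb0 hc0') (hρ q)
  have hR' : ∀ q, 0 < rd b' c' ρ q := fun q => mul_pos (div_pos hbb0 hcc0) (hρ q)
  have hMp0 : 0 < M := Nat.pos_of_ne_zero hM.ne_zero
  have hMp0' : 0 < M' := Nat.pos_of_ne_zero hM'.ne_zero
  have hVw : ∀ q ∈ V, 0 < q / pr := fun q hq =>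
    Nat.div_pos (Nat.le_of_dvd (hV q hq).1 (hV q hq).2) (Nat.pos_of_dvd_of_pos (hV q hq).2 (hV q hq).1)
  have hWw : ∀ q ∈ W, 0 < q / pr' := fun q hq =>
    Nat.div_pos (Nat.le_of_dvd (hW q hq).1 (hW q hq).2) (Nat.pos_of_dvd_of_pos (hW q hq).2 (hW q hq).1)
  have hVm : ∀ q ∈ V, pr * (q / pr) = q := fun q hq => Nat.mul_div_cancel' (hV q hq).2
  have hWm : ∀ q ∈ W, pr' * (q / pr') = q := fun q hq => Nat.mul_div_cancel' (hW q hq).2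
  set V0 := V.image (fun q => q / pr) with hV0
  set W0 := W.image (fun q => q / pr') with hW0
  set O' := M.primeFactors with hO'd
  set O := M'.primeFactors with hOd
  have hO : ∀ l ∈ O, l.Prime ∧ N ≤ l := fun l hl =>
    ⟨Nat.prime_of_mem_primeFactors hl, hMp' l (Nat.prime_of_mem_primeFactors hl)
      (Nat.dvd_of_mem_primeFactors hl)⟩
  have hO' : ∀ l ∈ O', l.Prime ∧ N ≤ l := fun l hl =>
    ⟨Nat.prime_of_mem_primeFactors hl, hMp l (Nat.prime_of_mem_primeFactors hl)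
      (Nat.dvd_of_mem_primeFactors hl)⟩
  set R : ℕ → ℝ := fun w => rd b c ρ (pr * w) with hRd
  set R' : ℕ → ℝ := fun w => rd b' c' ρ (pr' * w) with hRd'
  have hRe : ∀ q ∈ V, R (q / pr) = rd b c ρ q := fun q hq => by rw [hRd]; simp only; rw [hVm q hq]
  have hRe' : ∀ q ∈ W, R' (q / pr') = rd b' c' ρ q := fun q hq => by rw [hRd']; simp only; rw [hWm q hq]
  set F0 : ℕ × ℕ → ℝ := fun f => F (pr * f.1, pr' * f.2) with hF0
  have hF0e : ∀ e ∈ V ×ˢ W, F0 (e.1 / pr, e.2 / pr') = F e := fun e he => by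
    obtain ⟨h1, h2⟩ := Finset.mem_product.1 he
    rw [hF0]; simp only; rw [hVm _ h1, hWm _ h2]
  have hDc : ∀ e ∈ V ×ˢ W, Dc O O' R R' (e.1 / pr, e.2 / pr') = Dq ρ M b pr c M' b' pr' c' e :=
    fun e he => by
    obtain ⟨k1, k2⟩ := Finset.mem_product.1 he
    have h1 := Dc_pf hM hM' R R' (e.1 / pr, e.2 / pr') (hVw _ k1) (hWw _ k2)
    rw [hRe _ k1, hRe' _ k2] at h1
    exact h1
  have hinjV : Set.InjOn (fun q => q / pr) (V : Set ℕ) := by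
    intro e he f hf hef
    simp only at hef
    rw [← hVm _ (Finset.mem_coe.1 he), ← hVm _ (Finset.mem_coe.1 hf), hef]
  have hinjW : Set.InjOn (fun q => q / pr') (W : Set ℕ) := by
    intro e he f hf hef
    simp only at hef
    rw [← hWm _ (Finset.mem_coe.1 he), ← hWm _ (Finset.mem_coe.1 hf), hef]
  have hinj : Set.InjOn (fun e : ℕ × ℕ => (e.1 / pr, e.2 / pr')) ((V ×ˢ W : Finset (ℕ × ℕ)) : Set (ℕ × ℕ)) := by
    intro e he f hf hef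
    obtain ⟨h1, h2⟩ := Finset.mem_product.1 (Finset.mem_coe.1 he)
    obtain ⟨h3, h4⟩ := Finset.mem_product.1 (Finset.mem_coe.1 hf)
    simp only [Prod.mk.injEq] at hef
    exact Prod.ext (hinjV h1 h3 hef.1) (hinjW h2 h4 hef.2)
  have himg : V0 ×ˢ W0 = (V ×ˢ W).image (fun e : ℕ × ℕ => (e.1 / pr, e.2 / pr')) := by
    ext f
    simp only [Finset.mem_product, Finset.mem_image, hV0, hW0]
    constructor
    · rintro ⟨⟨a, ha, ha'⟩, ⟨d, hd, hd'⟩⟩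
      exact ⟨(a, d), ⟨ha, hd⟩, Prod.ext ha' hd'⟩
    · rintro ⟨e, ⟨h1, h2⟩, rfl⟩
      exact ⟨⟨_, h1, rfl⟩, ⟨_, h2, rfl⟩⟩
  have hsum : ∀ Q : ℕ × ℕ → Prop, ∀ Q0 : ℕ × ℕ → Prop,
      (∀ e ∈ V ×ˢ W, Q0 (e.1 / pr, e.2 / pr') → Q e) →
      (∀ e ∈ V ×ˢ W, Q e → Q0 (e.1 / pr, e.2 / pr')) →
      ∑ f ∈ (V0 ×ˢ W0).filter Q0, F0 f = ∑ e ∈ (V ×ˢ W).filter Q, F e := by
    intro Q Q0 h1 h2
    rw [himg, Finset.filter_image, Finset.sum_image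
      (hinj.mono (by intro x hx; exact (Finset.mem_filter.1 (Finset.mem_coe.1 hx)).1))]
    have e1 : (V ×ˢ W).filter (fun a => Q0 (a.1 / pr, a.2 / pr')) = (V ×ˢ W).filter Q := by
      ext e
      simp only [Finset.mem_filter]
      exact ⟨fun h => ⟨h.1, h1 e h.1 h.2⟩, fun h => ⟨h.1, h2 e h.1 h.2⟩⟩
    rw [e1]
    exact Finset.sum_congr rfl fun e he => hF0e e (Finset.mem_filter.1 he).1
  have hsumT : ∑ f ∈ V0 ×ˢ W0, F0 f = ∑ e ∈ V ×ˢ W, F e := by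
    have := hsum (fun _ => True) (fun _ => True) (fun _ _ _ => trivial) (fun _ _ _ => trivial)
    simpa using this
  have mem0 : ∀ f ∈ V0 ×ˢ W0, ∃ e ∈ V ×ˢ W, f = (e.1 / pr, e.2 / pr') := fun f hf => by
    rw [himg] at hf
    obtain ⟨e, he, rfl⟩ := Finset.mem_image.1 hf
    exact ⟨e, he, rfl⟩
  have muV : ∀ q ∈ V, mu O' R (q / pr) = rd b c ρ q * tq (q / pr / M.gcd (q / pr)) := fun q hq => by
    unfold mu tq
    rw [hRe q hq, uu_pf hM _ (hVw q hq)]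
  have muW : ∀ q ∈ W, mu O R' (q / pr') = rd b' c' ρ q * tq (q / pr' / M'.gcd (q / pr')) := fun q hq => by
    unfold mu tq
    rw [hRe' q hq, uu_pf hM' _ (hWw q hq)]
  set gL : Finset ℕ → ℝ := fun S => (∏ l ∈ S, l : ℕ) * ((b : ℝ) / c * D.γ) with hgL
  set gR : Finset ℕ → ℝ := fun S => (∏ l ∈ S, l : ℕ) * ((b' : ℝ) / c' * D.γ) with hgR
  have hFS : ∀ e ∈ V ×ˢ W, FG O O' R R' gL gR n (e.1 / pr, e.2 / pr') ↔
      FSI D.γ ρ n M b pr c M' b' pr' c' e := fun e he => by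
    obtain ⟨k1, k2⟩ := Finset.mem_product.1 he
    have hw1 := hVw _ k1
    have hw2 := hWw _ k2
    show FS n ((∏ l ∈ miss O' (e.1 / pr), l : ℕ) * ((b : ℝ) / c * D.γ))
        ((∏ l ∈ miss O (e.2 / pr'), l : ℕ) * ((b' : ℝ) / c' * D.γ))
        (cof (uu O' (e.1 / pr)) (uu O (e.2 / pr'))) (cof (uu O (e.2 / pr')) (uu O' (e.1 / pr)))
        (Rc O' R (e.1 / pr)) (Rc O R' (e.2 / pr')) ↔ _
    rw [miss_pf_prod hM _ hw1, miss_pf_prod hM' _ hw2, uu_pf hM _ hw1, uu_pf hM' _ hw2,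
      Rc_pf hM _ _ hw1, Rc_pf hM' _ _ hw2, hRe _ k1, hRe' _ k2]
    exact Iff.rfl
  have key := hst T (6*T) L n N G O O' V0 W0 R R' gL gR F0 cc 0 hN hNc le_rfl hn hG (by linarith)
    (by linarith) hL0 hL hT1 hT hO hO' hs' hs
    (by
      intro w hw
      obtain ⟨q, hq, rfl⟩ := Finset.mem_image.1 hw
      exact ⟨hVw q hq, by rw [hRe q hq]; exact hR q⟩)
    (by
      intro w hw
      obtain ⟨q, hq, rfl⟩ := Finset.mem_image.1 hw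
      exact ⟨hWw q hq, by rw [hRe' q hq]; exact hR' q⟩)
    (by
      intro w hw
      obtain ⟨q, hq, rfl⟩ := Finset.mem_image.1 hw
      rw [hRe q hq, muV q hq]
      have := mul_le_mul_of_nonneg_left (lV q hq) (hR q).le
      calc rd b c ρ q = rd b c ρ q * 1 := (mul_one _).symm
        _ ≤ _ := this
        _ = _ := by ring)
    (by
      intro w hw
      obtain ⟨q, hq, rfl⟩ := Finset.mem_image.1 hw
      rw [hRe' q hq, muW q hq]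
      have := mul_le_mul_of_nonneg_left (lW q hq) (hR' q).le
      calc rd b' c' ρ q = rd b' c' ρ q * 1 := (mul_one _).symm
        _ ≤ _ := this
        _ = _ := by ring)
    (by
      intro z hz w hw
      obtain ⟨q, hq, rfl⟩ := Finset.mem_image.1 hw
      rw [uu_pf hM _ (hVw q hq)]
      exact tV z hz q hq)
    (by
      intro z hz w hw
      obtain ⟨q, hq, rfl⟩ := Finset.mem_image.1 hw
      rw [uu_pf hM' _ (hWw q hq)]
      exact tW z hz q hq)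
    (by
      intro w hw
      obtain ⟨q, hq, rfl⟩ := Finset.mem_image.1 hw
      exact cW q hq)
    (fun w hw => Finset.sum_nonneg fun l hl => by positivity)
    (by
      intro f hf h1
      obtain ⟨e, he, rfl⟩ := mem0 f hf
      obtain ⟨k1, k2⟩ := Finset.mem_product.1 he
      have hd0 : 0 < Dc O O' R R' (e.1 / pr, e.2 / pr') := by
        refine Dc_pos (N := N) hO hO' ?_ (hWw _ k2)
        rw [hRe _ k1]; exact hR _
      rw [hDc e he] at h1 hd0 ⊢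
      rw [hF0e e he, hRe _ k1, hRe' _ k2]
      have h2 := hF e he
      rw [pb_rd] at h2
      have h3 := pbd_le (θ := (b : ℝ) / c * D.γ) (θ' := (b' : ℝ) / c' * D.γ) (w := e.1 / pr) (M := M)
        (w' := e.2 / pr') (M' := M') (hR e.1).le (hR' e.2).le (by linarith) h1
      have h4 : 0 ≤ rd b c ρ e.1 * rd b' c' ρ e.2 / Dq ρ M b pr c M' b' pr' c' e :=
        div_nonneg (mul_nonneg (hR _).le (hR' _).le) hd0.le
      refine h2.trans (h3.trans ?_)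
      exact mul_le_mul_of_nonneg_right (by linarith) h4)
    (by
      intro f hf _ h1 h3
      obtain ⟨e, he, rfl⟩ := mem0 f hf
      obtain ⟨k1, k2⟩ := Finset.mem_product.1 he
      rw [hDc e he] at h1
      rw [hF0e e he] at h3
      have hw1 := hVw _ k1
      have hw2 := hWw _ k2
      have hhalf : Dq ρ M b pr c M' b' pr' c' e ≤ 1/2 := by
        refine h1.trans ?_
        apply one_div_le_one_div_of_le (by norm_num)
        calc (2:ℝ) = 2^1 := (pow_one _).symm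
          _ ≤ 2^n := pow_le_pow_right₀ (by norm_num) hn1
      have hRa : Ra ((b : ℝ) / c * D.γ) (rd b c ρ e.1) (e.1 / pr) M ((b' : ℝ) / c' * D.γ)
          (rd b' c' ρ e.2) (e.2 / pr') M' := by
        by_contra hneg
        have h4 := hF e he
        rw [pb_rd] at h4
        unfold pbd at h4
        unfold Dq at hhalf
        rw [if_pos hhalf, if_neg hneg] at h4
        linarith
      have hu : 0 < e.1 / pr / M.gcd (e.1 / pr) := div_pos' hw1 hMp0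
      obtain ⟨m, m', hmm⟩ := rel_two (AvgItem710.cof_coprime hu) hRa
      refine ⟨m, m', ?_⟩
      show |(m + ((∏ l ∈ miss O' (e.1 / pr), l : ℕ) * ((b : ℝ) / c * D.γ))) *
          (cof (uu O (e.2 / pr')) (uu O' (e.1 / pr)) : ℕ) -
          (m' + ((∏ l ∈ miss O (e.2 / pr'), l : ℕ) * ((b' : ℝ) / c' * D.γ))) *
          (cof (uu O' (e.1 / pr)) (uu O (e.2 / pr')) : ℕ)| ≤ 2 * Dc O O' R R' (e.1 / pr, e.2 / pr')
      rw [hDc e he, miss_pf_prod hM _ hw1, miss_pf_prod hM' _ hw2, uu_pf hM _ hw1, uu_pf hM' _ hw2]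
      exact hmm)
  have hleft : ∑ f ∈ (V0 ×ˢ W0).filter (fun f => 0 < F0 f ∧ (Dc O O' R R' f ≤ 1/2^n ∧
      FG O O' R R' gL gR n f)), F0 f =
      ∑ e ∈ (V ×ˢ W).filter (fun e => 0 < F e ∧ (Dq ρ M b pr c M' b' pr' c' e ≤ 1/2^n ∧
        FSI D.γ ρ n M b pr c M' b' pr' c' e)), F e := by
    have hh := hsum (fun e => 0 < F e ∧ (Dq ρ M b pr c M' b' pr' c' e ≤ 1/2^n ∧
        FSI D.γ ρ n M b pr c M' b' pr' c' e))
      (fun f => 0 < F0 f ∧ (Dc O O' R R' f ≤ 1/2^n ∧ FG O O' R R' gL gR n f)) (fun e he h => by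
        obtain ⟨h0, h1, h2⟩ := h
        rw [hDc e he] at h1
        rw [hF0e e he] at h0
        rw [hFS e he] at h2
        exact ⟨h0, h1, h2⟩) (fun e he h => by
        obtain ⟨h0, h1, h2⟩ := h
        refine ⟨?_, ?_, ?_⟩
        · rw [hF0e e he]; exact h0
        · rw [hDc e he]; exact h1
        · rw [hFS e he]; exact h2)
    convert hh
  have hhigh : ∑ f ∈ (V0 ×ˢ W0).filter (fun f => T < Dc O O' R R' f), F0 f =
      ∑ e ∈ (V ×ˢ W).filter (fun e => T < Dq ρ M b pr c M' b' pr' c' e), F e := by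
    have hh := hsum (fun e => T < Dq ρ M b pr c M' b' pr' c' e) (fun f => T < Dc O O' R R' f)
      (fun e he h => by rw [hDc e he] at h; exact h) (fun e he h => by rw [hDc e he]; exact h)
    convert hh
  have hsV : ∑ w ∈ V0, R w = ∑ q ∈ V, rd b c ρ q := by
    rw [hV0, Finset.sum_image hinjV]
    exact Finset.sum_congr rfl fun q hq => hRe q hq
  have hsW : ∑ w ∈ W0, R' w = ∑ q ∈ W, rd b' c' ρ q := by
    rw [hW0, Finset.sum_image hinjW]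
    exact Finset.sum_congr rfl fun q hq => hRe' q hq
  rw [hsumT, hhigh, hsV, hsW] at key
  refine key.trans (add_le_add le_rfl ?_)
  rw [← hleft]
  refine Finset.sum_le_sum_of_subset_of_nonneg ?_ ?_
  · intro f hf
    obtain ⟨h1, h2, -, h3, h4⟩ := Finset.mem_filter.1 hf
    exact Finset.mem_filter.2 ⟨h1, h2, h3, h4⟩
  · intro f hf _
    exact (Finset.mem_filter.1 hf).2.1.le


/-! ### swapping the two sides -/

lemma Dp_swap (w w' : ℕ) (r r' : ℝ) : Dp w w' r r' = Dp w' w r' r := by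
  unfold Dp; exact max_comm _ _

lemma Da_swap (w M w' M' : ℕ) (r r' : ℝ) : Da w M w' M' r r' = Da w' M' w M r' r := by
  unfold Da; exact Dp_swap _ _ _ _

lemma Rel_swap {θ r θ' r' : ℝ} {X Y : ℕ} (h : Rel θ r θ' r' X Y) : Rel θ' r' θ r Y X := by
  obtain ⟨k, hk⟩ := h
  refine ⟨-k, ?_⟩
  have e : (((-k : ℤ) : ℝ) - (θ * Y - θ' * X)) = -((k:ℝ) - (θ' * X - θ * Y)) := by push_cast; ring
  rw [e, abs_neg, add_comm]
  exact hk

lemma Ra_swap {θ r θ' r' : ℝ} {w M w' M' : ℕ} :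
    Ra θ r w M θ' r' w' M' ↔ Ra θ' r' w' M' θ r w M := by
  unfold Ra
  exact ⟨Rel_swap, Rel_swap⟩

lemma pbd_swap (θ r : ℝ) (w M : ℕ) (θ' r' : ℝ) (w' M' : ℕ) :
    pbd θ r w M θ' r' w' M' = pbd θ' r' w' M' θ r w M := by
  have h1 := Da_swap w M w' M' r r'
  have h2 : Ra θ r w M θ' r' w' M' ↔ Ra θ' r' w' M' θ r w M := Ra_swap
  unfold pbd
  rw [h1, mul_comm r r']
  by_cases h3 : Ra θ r w M θ' r' w' M'
  · rw [if_pos h3, if_pos (h2.1 h3)]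
  · rw [if_neg h3, if_neg (fun h => h3 (h2.2 h))]

lemma Dq_swap (ρ : ℕ → ℝ) (M b pr c M' b' pr' c' : ℕ) (e : ℕ × ℕ) :
    Dq ρ M b pr c M' b' pr' c' (e.2, e.1) = Dq ρ M' b' pr' c' M b pr c e := by
  unfold Dq; exact Da_swap _ _ _ _ _ _

lemma FS_swap {n : ℕ} {θ θ' : ℝ} {x y : ℕ} {r r' : ℝ} (h : FS n θ θ' x y r r') :
    FS n θ' θ y x r' r := by
  obtain ⟨t, m, m', σ, σ', h1, h2, h3, h4, h5, h6⟩ := h
  refine ⟨t, m', m, σ', σ, h1, ?_, ?_, ?_, h5.swap, h6.symm⟩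
  · rw [max_comm]; exact h2
  · rw [max_comm]; exact h3
  · rw [max_comm, abs_sub_comm]; exact h4

lemma FSI_swap (γ : ℝ) (ρ : ℕ → ℝ) (n : ℕ) (M b pr c M' b' pr' c' : ℕ) (e : ℕ × ℕ) :
    FSI γ ρ n M b pr c M' b' pr' c' (e.2, e.1) ↔ FSI γ ρ n M' b' pr' c' M b pr c e :=
  ⟨FS_swap, FS_swap⟩

lemma sum_swap {V W : Finset ℕ} (Q Q' : ℕ × ℕ → Prop) [DecidablePred Q] [DecidablePred Q']
    (hQ : ∀ e : ℕ × ℕ, Q' e ↔ Q (e.2, e.1)) (F : ℕ × ℕ → ℝ) :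
    ∑ e ∈ (W ×ˢ V).filter Q', F (e.2, e.1) = ∑ e ∈ (V ×ˢ W).filter Q, F e := by
  refine Finset.sum_nbij' (fun e => (e.2, e.1)) (fun e => (e.2, e.1)) ?_ ?_ ?_ ?_ ?_
  · intro e he
    obtain ⟨h1, h2⟩ := Finset.mem_filter.1 he
    obtain ⟨h3, h4⟩ := Finset.mem_product.1 h1
    exact Finset.mem_filter.2 ⟨Finset.mem_product.2 ⟨h4, h3⟩, (hQ e).1 h2⟩
  · intro e he
    obtain ⟨h1, h2⟩ := Finset.mem_filter.1 he
    obtain ⟨h3, h4⟩ := Finset.mem_product.1 h1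
    exact Finset.mem_filter.2 ⟨Finset.mem_product.2 ⟨h4, h3⟩, (hQ (e.2, e.1)).2 h2⟩
  · intro e he; rfl
  · intro e he; rfl
  · intro e he; rfl

open Classical in
/-- **STOP for item pairs**, the left items miss the mass `cc` of the one-sided primes -/
theorem stop_itemsR {N0 : ℝ}
    (hst : StopCls N0) (D : Par Λ κι) {ρ : ℕ → ℝ} {F : ℕ × ℕ → ℝ} {T L cc : ℝ}
    {n N G M b pr c M' b' pr' c' : ℕ} {V W : Finset ℕ}
    (hN : N0 ≤ N) (hNc : 400 * Real.sqrt N ≤ N * cc) (hn : n = ⌊100 * (N * cc) / Real.log 2⌋₊)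
    (hn1 : 1 ≤ n) (hG : 0 < G) (hT1 : 1 ≤ T) (hT : T ≤ Real.exp (N*cc/20)) (hL0 : 0 ≤ L)
    (hL : L^2 ≤ Real.exp (N*cc/50))
    (hρ : ∀ q, 0 < ρ q) (hb : 0 < b) (hc : 0 < c) (hb' : 0 < b') (hc' : 0 < c')
    (hM : Squarefree M) (hM' : Squarefree M')
    (hMp : ∀ l : ℕ, l.Prime → l ∣ M → N ≤ l) (hMp' : ∀ l : ℕ, l.Prime → l ∣ M' → N ≤ l)
    (hs : ∑ l ∈ M.primeFactors, 1/(l:ℝ) ≤ 1) (hs' : ∑ l ∈ M'.primeFactors, 1/(l:ℝ) ≤ 1)
    (hV : ∀ q ∈ V, 0 < q ∧ pr ∣ q) (hW : ∀ q ∈ W, 0 < q ∧ pr' ∣ q)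
    (tV : ∀ z : ℝ, (N:ℝ) ≤ z → ∀ q ∈ V, ClsB.Tame z G (q / pr / M.gcd (q / pr)))
    (tW : ∀ z : ℝ, (N:ℝ) ≤ z → ∀ q ∈ W, ClsB.Tame z G (q / pr' / M'.gcd (q / pr')))
    (lV : ∀ q ∈ V, 1 ≤ L * tq (q / pr / M.gcd (q / pr)))
    (lW : ∀ q ∈ W, 1 ≤ L * tq (q / pr' / M'.gcd (q / pr')))
    (cV : ∀ q ∈ V, cc ≤ ∑ l ∈ M.primeFactors.filter (fun l => ¬ l ∣ q / pr), 1/(l:ℝ))
    (hF : ∀ e ∈ V ×ˢ W, F e ≤ D.pb ρ M b pr c e.1 M' b' pr' c' e.2) :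
    ∑ e ∈ V ×ˢ W, F e ≤
      ∑ e ∈ (V ×ˢ W).filter (fun e => T < Dq ρ M b pr c M' b' pr' c' e), F e +
      Real.exp (-(N*cc/10)) * (Real.sqrt ((∑ q ∈ V, rd b c ρ q) * (∑ q ∈ W, rd b' c' ρ q)) *
        ((1 + ∑ q ∈ V, rd b c ρ q) * (1 + ∑ q ∈ W, rd b' c' ρ q))) +
      ∑ e ∈ (V ×ˢ W).filter (fun e => 0 < F e ∧ (Dq ρ M b pr c M' b' pr' c' e ≤ 1/2^n ∧
        FSI D.γ ρ n M b pr c M' b' pr' c' e)), F e := by
  have key := stop_itemsL hst D (ρ := ρ) (F := fun e => F (e.2, e.1)) (T := T) (L := L) (cc := cc)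
    (n := n) (N := N) (G := G) (M := M') (b := b') (pr := pr') (c := c') (M' := M) (b' := b)
    (pr' := pr) (c' := c) (V := W) (W := V) hN hNc hn hn1 hG hT1 hT hL0 hL hρ hb' hc' hb hc hM' hM
    hMp' hMp hs' hs hW hV tW tV lW lV cV (by
      intro e he
      obtain ⟨h1, h2⟩ := Finset.mem_product.1 he
      have h3 := hF (e.2, e.1) (Finset.mem_product.2 ⟨h2, h1⟩)
      refine h3.trans (le_of_eq ?_)
      rw [pb_rd, pb_rd]
      exact pbd_swap _ _ _ _ _ _ _ _)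
  have e1 : ∑ e ∈ W ×ˢ V, F (e.2, e.1) = ∑ e ∈ V ×ˢ W, F e := by
    have := sum_swap (V := V) (W := W) (fun _ => True) (fun _ => True) (fun _ => Iff.rfl) F
    simpa using this
  have e2 := sum_swap (V := V) (W := W) (fun e => T < Dq ρ M b pr c M' b' pr' c' e)
    (fun e => T < Dq ρ M' b' pr' c' M b pr c e) (fun e => by rw [Dq_swap]) F
  have e3 := sum_swap (V := V) (W := W) (fun e => 0 < F e ∧ (Dq ρ M b pr c M' b' pr' c' e ≤ 1/2^n ∧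
        FSI D.γ ρ n M b pr c M' b' pr' c' e))
    (fun e => 0 < F (e.2, e.1) ∧ (Dq ρ M' b' pr' c' M b pr c e ≤ 1/2^n ∧
        FSI D.γ ρ n M' b' pr' c' M b pr c e)) (fun e => by rw [Dq_swap, FSI_swap]) F
  rw [e1, e2, e3] at key
  refine key.trans (le_of_eq ?_)
  rw [mul_comm (∑ q ∈ W, rd b' c' ρ q) (∑ q ∈ V, rd b c ρ q),
    mul_comm (1 + ∑ q ∈ W, rd b' c' ρ q) (1 + ∑ q ∈ V, rd b c ρ q)]

end items

/-! ### numbers -/

/-- numbers of a stop at the column `p` -/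
structure SC (N0 CL C2 c₀ : ℝ) (p₁ : ℕ) : Prop where
  n0 : ∀ p : ℕ, p₁ ≤ p → N0 ≤ p
  st : ∀ p : ℕ, p₁ ≤ p → 400 * Real.sqrt p ≤ p * ((p:ℝ)^(-(1/3):ℝ)/4)
  lg : ∀ p : ℕ, p₁ ≤ p → (CL * Real.log p)^2 ≤ Real.exp (p * ((p:ℝ)^(-(1/3):ℝ)/4)/50)
  cc : ∀ p : ℕ, p₁ ≤ p → (p:ℝ)^(-(1/2):ℝ) + (p:ℝ)^(-(1/3):ℝ)/4 ≤ (p:ℝ)^(-(1/3):ℝ)/2
  fin : ∀ p : ℕ, p₁ ≤ p → Real.exp (-(p * ((p:ℝ)^(-(1/3):ℝ)/4)/10)) *
    (CL * Real.log p * (1/(2*c₀)) * (1 + CL * Real.log p * (Real.log p)^C2)^2) ≤ 1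
  one : 3 ≤ p₁

lemma SC.mono {N0 CL C2 c₀ : ℝ} {p₁ p₂ : ℕ} (h : SC N0 CL C2 c₀ p₁) (h2 : p₁ ≤ p₂) :
    SC N0 CL C2 c₀ p₂ :=
  ⟨fun p hp => h.n0 p (h2.trans hp), fun p hp => h.st p (h2.trans hp), fun p hp => h.lg p (h2.trans hp),
    fun p hp => h.cc p (h2.trans hp), fun p hp => h.fin p (h2.trans hp), h.one.trans h2⟩

theorem exists_SC (N0 CL C2 c₀ : ℝ) (hCL : 0 ≤ CL) (hc₀ : 0 < c₀) : ∃ p₁ : ℕ, SC N0 CL C2 c₀ p₁ := by
  have e1 := ev_log_rpow CL 1 1 (by norm_num)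
  have e2 := ev_log_rpow (CL * (1/(2*c₀))) 1 1 (by norm_num)
  have e3 := ev_log_rpow CL (C2 + 1) 1 (by norm_num)
  have e4 := ev_log_rpow 800 1 (2/3) (by norm_num)
  have e5 := Real.tendsto_log_atTop.eventually_ge_atTop (1:ℝ)
  obtain ⟨x0, hx0⟩ := Filter.eventually_atTop.1 (e1.and (e2.and (e3.and (e4.and (e5.and
    (Filter.eventually_ge_atTop (max N0 ((1600:ℝ)^6))))))))
  have main : ∀ p : ℕ, max ⌈x0⌉₊ 3 ≤ p → N0 ≤ (p:ℝ) ∧
      400 * Real.sqrt p ≤ p * ((p:ℝ)^(-(1/3):ℝ)/4) ∧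
      (CL * Real.log p)^2 ≤ Real.exp (p * ((p:ℝ)^(-(1/3):ℝ)/4)/50) ∧
      (p:ℝ)^(-(1/2):ℝ) + (p:ℝ)^(-(1/3):ℝ)/4 ≤ (p:ℝ)^(-(1/3):ℝ)/2 ∧
      Real.exp (-(p * ((p:ℝ)^(-(1/3):ℝ)/4)/10)) *
        (CL * Real.log p * (1/(2*c₀)) * (1 + CL * Real.log p * (Real.log p)^C2)^2) ≤ 1 := by
    intro p hp
    have hpx : x0 ≤ (p:ℝ) := (Nat.le_ceil x0).trans (by exact_mod_cast (le_max_left _ _).trans hp)
    obtain ⟨g1, g2, g3, g4, g5, g6⟩ := hx0 p hpx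
    rw [Real.rpow_one, Real.rpow_one] at g1 g2
    rw [Real.rpow_one] at g3 g4
    have hpN : N0 ≤ (p:ℝ) := (le_max_left _ _).trans g6
    have hp6 : (1600:ℝ)^6 ≤ p := (le_max_right _ _).trans g6
    have hp0 : (0:ℝ) < p := lt_of_lt_of_le (by norm_num) hp6
    have hp1 : (1:ℝ) ≤ p := le_trans (by norm_num) hp6
    set x : ℝ := (p : ℝ) with hx
    have epc : x * (x^(-(1/3):ℝ)/4) = x^(2/3:ℝ)/4 := by
      have : x^(2/3:ℝ) = x * x^(-(1/3):ℝ) := by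
        rw [show (2/3:ℝ) = 1 + (-(1/3)) by norm_num, Real.rpow_add hp0, Real.rpow_one]
      rw [this]; ring
    have hsix : (1600:ℝ) ≤ x^(1/6:ℝ) := by
      have h1 := Real.rpow_le_rpow (by norm_num) hp6 (by norm_num : (0:ℝ) ≤ 1/6)
      have h2 : ((1600:ℝ)^6)^(1/6:ℝ) = 1600 := by
        rw [← Real.rpow_natCast, ← Real.rpow_mul (by norm_num)]
        norm_num
      rw [h2] at h1
      exact h1
    rw [epc]
    have h23 : 0 ≤ x^(2/3:ℝ) := by positivity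
    have hlogx : 0 < Real.log x := by linarith
    refine ⟨hpN, ?_, ?_, ?_, ?_⟩
    · have h1 : x^(2/3:ℝ) = x^(1/6:ℝ) * x^(1/2:ℝ) := by
        rw [← Real.rpow_add hp0]; norm_num
      rw [Real.sqrt_eq_rpow, h1]
      have h2 : 0 ≤ x^(1/2:ℝ) := by positivity
      nlinarith
    · have h1 : (CL * Real.log x)^2 ≤ x^2 := by
        apply pow_le_pow_left₀ (by positivity) g1
      refine h1.trans ?_
      have h2 : x^2 = Real.exp (2 * Real.log x) := by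
        rw [show (2:ℝ) * Real.log x = ((2:ℕ):ℝ) * Real.log x by norm_num, Real.exp_nat_mul,
          Real.exp_log hp0]
      rw [h2]
      apply Real.exp_le_exp.2
      linarith
    · have h1 : x^(-(1/3):ℝ) = x^(1/6:ℝ) * x^(-(1/2):ℝ) := by
        rw [← Real.rpow_add hp0]; norm_num
      rw [h1]
      have h2 : 0 ≤ x^(-(1/2):ℝ) := by positivity
      nlinarith
    · have k1 : CL * Real.log x * (Real.log x)^C2 ≤ x := by
        have : (Real.log x)^(C2+1) = (Real.log x)^C2 * Real.log x := by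
          rw [Real.rpow_add hlogx, Real.rpow_one]
        rw [this] at g3
        linarith
      have k0 : 0 ≤ CL * Real.log x * (Real.log x)^C2 := by positivity
      have k2 : CL * Real.log x * (1/(2*c₀)) ≤ x := by linarith
      have k3 : 0 ≤ CL * Real.log x * (1/(2*c₀)) := by positivity
      have k4 : (1 + CL * Real.log x * (Real.log x)^C2)^2 ≤ (1+x)^2 :=
        pow_le_pow_left₀ (by linarith) (by linarith) 2
      have k5 : CL * Real.log x * (1/(2*c₀)) * (1 + CL * Real.log x * (Real.log x)^C2)^2 ≤ x^4 := by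
        refine (mul_le_mul k2 k4 (by positivity) hp0.le).trans ?_
        have h4 : (4:ℝ) ≤ x := le_trans (by norm_num) hp6
        have : (1+x)^2 ≤ (2*x)^2 := pow_le_pow_left₀ (by linarith) (by linarith) 2
        have h5 : x * (2*x)^2 ≤ x^4 := by
          have : x * (2*x)^2 = 4 * x^3 := by ring
          rw [this]
          have : x^4 = x * x^3 := by ring
          rw [this]
          exact mul_le_mul_of_nonneg_right h4 (by positivity)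
        exact (mul_le_mul_of_nonneg_left this hp0.le).trans h5
      have k6 : x^4 = Real.exp (4 * Real.log x) := by
        rw [show (4:ℝ) * Real.log x = ((4:ℕ):ℝ) * Real.log x by norm_num, Real.exp_nat_mul,
          Real.exp_log hp0]
      calc Real.exp (-(x^(2/3:ℝ)/4/10)) *
            (CL * Real.log x * (1/(2*c₀)) * (1 + CL * Real.log x * (Real.log x)^C2)^2)
          ≤ Real.exp (-(x^(2/3:ℝ)/4/10)) * Real.exp (4 * Real.log x) := by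
            rw [← k6]; exact mul_le_mul_of_nonneg_left k5 (Real.exp_nonneg _)
        _ = Real.exp (-(x^(2/3:ℝ)/4/10) + 4 * Real.log x) := (Real.exp_add _ _).symm
        _ ≤ 1 := by
            rw [Real.exp_le_one_iff]
            linarith
  exact ⟨max ⌈x0⌉₊ 3, ⟨fun p hp => (main p hp).1, fun p hp => (main p hp).2.1,
    fun p hp => (main p hp).2.2.1, fun p hp => (main p hp).2.2.2.1, fun p hp => (main p hp).2.2.2.2,
    le_max_right _ _⟩⟩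


/-! ### a state -/

section state
open Crest.Agent.R4.Tour104 Crest.Agent.R4.Tour758 Crest.Agent.R4.Avg758 Crest.Agent.R4.Clos758
open Crest.Agent.R4.ClosL758 Crest.Agent.R4.ClosG758 Crest.Agent.R4.ClosR758
open Crest.Agent.R4.Fam464 Crest.Agent.R4.Cnt588 Crest.Agent.R4.Walk560 Crest.Agent.R4.Piece464
open Crest.Agent.R4.GInst194 Crest.Agent.R4.WalkIT579 Crest.Agent.R4.GSt927 Crest.Agent.R4.NMW927
open Crest.Agent.R4.Bld532 (NS All NodeOk Bk)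

variable {Λ κ : Type*} [Fintype Λ] [DecidableEq Λ] [Fintype κ] [DecidableEq κ]
  {D : Par Λ κ} {ρ : ℕ → ℝ} {Al : Finset ℕ}

lemma rd_one (b : ℕ) (ρ : ℕ → ℝ) (q : ℕ) : rd b 1 ρ q = b * ρ q := by
  unfold rd; simp

/-- the raw mass of a node is at most `hi` -/
lemma hi_of_nodeOk {P : Bld532.Par} {W : ℕ → ℝ} {u : NS} {τ : IT} (h : NodeOk P W u τ)
    (hl : ¬ isL τ) : u.c * Ws W τ.items ≤ P.hi (tp τ) := by
  cases τ with
  | leaf S => exact absurd trivial hl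
  | br p t₁ t₀ => exact h.2.2.2.2.2.2.2.2.1
  | add b t₁ t₀ => exact h.2.2.2.2.2.2.2.2.1
  | up b Sp t => exact h.2.2.2.2.2.2.2.1

/-- raised radii of the alive items of a node in terms of the raw mass -/
lemma rad_le_raw {W : ℕ → ℝ} {u : NS} {τ : IT} (hk : Bk τ.items u)
    (hsq : ∀ q ∈ τ.items, Squarefree q) (hW0 : ∀ q, 0 ≤ W q) (hWρ : ∀ q ∈ Al, ρ q * tq q ≤ W q)
    (A : Finset Λ) :
    ∑ q ∈ Qi D Al τ A, rd u.B 1 ρ q * tq (q / u.A) ≤ u.c * Ws W τ.items := by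
  have hA0 : 0 < u.A := Nat.pos_of_ne_zero hk.sfA.ne_zero
  have htA : (0:ℝ) < (u.A.totient : ℝ) := by exact_mod_cast Nat.totient_pos.2 hA0
  have hAR : (0:ℝ) < u.A := by exact_mod_cast hA0
  have hc0 : 0 ≤ u.c := by
    have h1 : 0 ≤ u.c * (u.A.totient : ℝ) := by rw [hk.ceq]; positivity
    by_contra hneg
    push Not at hneg
    nlinarith
  have h1 : ∀ q ∈ Qi D Al τ A, rd u.B 1 ρ q * tq (q / u.A) ≤ u.c * W q := by
    intro q hq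
    obtain ⟨hqi, hqA, -⟩ := mem_Qi.1 hq
    have hd : u.A ∣ q := hk.dvd q hqi
    have hsf := hsq q hqi
    have hq0 : 0 < q := Nat.pos_of_ne_zero hsf.ne_zero
    rw [rd_one]
    obtain ⟨w, rfl⟩ := hd
    rw [Nat.mul_div_cancel_left _ hA0]
    have hcop : Nat.Coprime u.A w := Nat.coprime_of_squarefree_mul hsf
    have hw0 : 0 < w := Nat.pos_of_mul_pos_left hq0
    have e1 : tq (u.A * w) = ((u.A.totient : ℝ) / u.A) * tq w := by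
      unfold tq
      rw [Nat.totient_mul hcop]
      push_cast
      have : (w:ℝ) ≠ 0 := by exact_mod_cast hw0.ne'
      field_simp
    have h2 := hWρ _ hqA
    rw [e1] at h2
    have h3 : (u.B : ℝ) * ρ (u.A * w) * tq w =
        u.c * (ρ (u.A * w) * (((u.A.totient : ℝ) / u.A) * tq w)) := by
      have h4 : u.c * ((u.A.totient : ℝ) / u.A) = u.B := by
        rw [← mul_div_assoc, hk.ceq]
        field_simp
      calc (u.B : ℝ) * ρ (u.A * w) * tq w = (u.c * ((u.A.totient : ℝ) / u.A)) * ρ (u.A * w) * tq w := by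
            rw [h4]
        _ = _ := by ring
    rw [h3]
    exact mul_le_mul_of_nonneg_left h2 hc0
  calc ∑ q ∈ Qi D Al τ A, rd u.B 1 ρ q * tq (q / u.A)
      ≤ ∑ q ∈ Qi D Al τ A, u.c * W q := Finset.sum_le_sum h1
    _ ≤ ∑ q ∈ τ.items, u.c * W q := Finset.sum_le_sum_of_subset_of_nonneg
        (fun q hq => (mem_Qi.1 hq).1) fun q _ _ => mul_nonneg hc0 (hW0 q)
    _ = u.c * Ws W τ.items := by rw [← Finset.mul_sum]; rfl

/-- raised radii of the alive items of a node in terms of the masses of the pieces -/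
lemma rad_le_mass {sp : ℕ → Finset Λ} {d : DT Λ κ} (hab : ∀ j, D.al j ≤ D.be j) {b pr : ℕ}
    {τ : IT} {A : Finset Λ} (h : SideI D sp b pr τ A d)
    (hsq : ∀ q ∈ τ.items, Squarefree q) {c₀ : ℝ} (hc₀ : 0 < c₀)
    (hmean : ∀ j, D.it j ∈ Al → D.it j ∈ τ.items →
      c₀ * tq (D.it j / (pr * pp τ (D.it j))) ≤
        mnw (D.it j / (pr * pp τ (D.it j))) (D.om j))
    (hfull : ∀ q ∈ Al, 2 * ρ q ≤
      ∑ j ∈ Finset.univ.filter (fun j => D.it j = q), (D.be j - D.al j))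
    (hil : IL D.it A) (hnn : ∀ j, 0 ≤ mI d j) :
    ∑ q ∈ Qi D Al τ A, rd b 1 ρ q * tq (q / pr) ≤ 1 / (2 * c₀) * ∑ j ∈ A, mI d j := by
  classical
  obtain ⟨n, hO⟩ := h.ok
  have h1 : ∀ q ∈ Qi D Al τ A, rd b 1 ρ q * tq (q / pr) ≤
      1 / (2 * c₀) * ∑ j ∈ A.filter (fun j => D.it j = q), mI d j := by
    intro q hq
    obtain ⟨h5, h3, h4⟩ := mem_Qi.1 hq
    rw [rd_one]
    refine (mass_ge hO hab h.hb h.hF h.hW h5 (hsq q h5) hc₀ (fun j hj => ?_) (hfull q h3) hil h4).trans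
      (le_of_eq ?_)
    · have := hmean j (hj ▸ h3) (hj ▸ h5)
      rw [hj] at this
      exact this
    · congr 1
      exact Finset.sum_congr rfl fun j _ => (SideI_mI h j).symm
  refine (Finset.sum_le_sum h1).trans ?_
  rw [← Finset.mul_sum]
  refine mul_le_mul_of_nonneg_left ?_ (by positivity)
  have h2 := Finset.sum_fiberwise_of_maps_to (s := A.filter fun j => D.it j ∈ Qi D Al τ A)
    (t := Qi D Al τ A) (g := D.it) (fun j hj => (Finset.mem_filter.1 hj).2) (fun j => mI d j)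
  have h3 : ∑ q ∈ Qi D Al τ A, ∑ j ∈ A.filter (fun j => D.it j = q), mI d j =
      ∑ j ∈ A.filter (fun j => D.it j ∈ Qi D Al τ A), mI d j := by
    rw [← h2]
    refine Finset.sum_congr rfl fun q hq => Finset.sum_congr ?_ fun _ _ => rfl
    ext j
    simp only [Finset.mem_filter]
    exact ⟨fun k => ⟨⟨k.1, k.2 ▸ hq⟩, k.2⟩, fun k => ⟨k.1.1, k.2⟩⟩
  rw [h3]
  exact Finset.sum_le_sum_of_subset_of_nonneg (Finset.filter_subset _ _) fun j _ _ => hnn j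

/-- a one-sided prime of an item is an `up` prime -/
def OU (U : ℕ → Finset ℕ) (O : Finset ℕ) (S : Finset ℕ) : Prop :=
  ∀ l ∈ O, ∀ q ∈ S, l ∣ q → l ∈ U q

/-- the missed mass of an alive item -/
lemma miss_mass {U : ℕ → Finset ℕ} {O S : Finset ℕ} (hU : OU U O S) {p q k : ℕ} (hk : k ∣ q)
    (hq : q ∈ S) (hO : ∀ l ∈ O, l.Prime ∧ p < l) {C : ℝ}
    (hC : (p:ℝ)^(-(1/2):ℝ) + C ≤ ∑ l ∈ O, 1/(l:ℝ))
    (hT : ∑ l ∈ (U q).filter (fun l : ℕ => (p:ℝ) < (l : ℝ)), (1 : ℝ) / l ≤ (p:ℝ) ^ (-(1 / 2 : ℝ))) :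
    C ≤ ∑ l ∈ O.filter (fun l => ¬ l ∣ k), 1/(l:ℝ) := by
  classical
  have h1 : ∑ l ∈ O, 1/(l:ℝ) = ∑ l ∈ O.filter (fun l => l ∣ k), 1/(l:ℝ) +
      ∑ l ∈ O.filter (fun l => ¬ l ∣ k), 1/(l:ℝ) := (Finset.sum_filter_add_sum_filter_not _ _ _).symm
  have h2 : ∑ l ∈ O.filter (fun l => l ∣ k), 1/(l:ℝ) ≤
      ∑ l ∈ (U q).filter (fun l : ℕ => (p:ℝ) < (l : ℝ)), (1 : ℝ) / l := by
    refine Finset.sum_le_sum_of_subset_of_nonneg ?_ fun l _ _ => by positivity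
    intro l hl
    obtain ⟨h3, h4⟩ := Finset.mem_filter.1 hl
    exact Finset.mem_filter.2 ⟨hU l h3 q hq (h4.trans hk), by exact_mod_cast (hO l h3).2⟩
  have h3 : (p:ℝ) ^ (-(1 / 2 : ℝ)) = (p:ℝ)^(-(1/2):ℝ) := rfl
  linarith

variable [WRel κ] {sp : ℕ → Finset Λ} {s : St Λ κ} {P : Bld532.Par} {W : ℕ → ℝ}
  {U : ℕ → Finset ℕ} {CL C1 C2 c₀ N0 : ℝ} {p₁ : ℕ}

/-- the final inequality of a stop -/
lemma stop_num {F0 F1 F2 X X' Φ Φ' L0 H E e₃ Ch ν ν' : ℝ} (hX0 : 0 ≤ X) (hX0' : 0 ≤ X')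
    (hΦ : 0 ≤ Φ) (hΦ' : 0 ≤ Φ') (hν : 0 ≤ ν) (hν' : 0 ≤ ν') (hCh : 0 ≤ Ch)
    (hL0 : 0 ≤ L0) (hX : X ≤ L0 * Φ) (hX' : X' ≤ L0 * Φ') (hH : X ≤ H) (hH' : X' ≤ H)
    (hE : 0 ≤ E) (hnum : E * (L0 * (1 + H)^2) ≤ 1) (he₃ : 0 ≤ e₃) (he : e₃ * L0^2 ≤ 1)
    (h0 : F0 ≤ F1 + E * (Real.sqrt (X * X') * ((1 + X) * (1 + X'))) + F2)
    (h1 : F1 ≤ Ch * (Φ * Φ') + e₃ * (X * X')) :
    F0 ≤ (Ch + 1) * Lh Φ ν Φ' ν' + F2 := by
  have a1 : e₃ * (X * X') ≤ Φ * Φ' := by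
    have h2 : X * X' ≤ (L0 * Φ) * (L0 * Φ') := mul_le_mul hX hX' hX0' (hX0.trans hX)
    calc e₃ * (X * X') ≤ e₃ * ((L0 * Φ) * (L0 * Φ')) := mul_le_mul_of_nonneg_left h2 he₃
      _ = (e₃ * L0^2) * (Φ * Φ') := by ring
      _ ≤ 1 * (Φ * Φ') := mul_le_mul_of_nonneg_right he (mul_nonneg hΦ hΦ')
      _ = _ := one_mul _
  have hH0 : 0 ≤ H := hX0.trans hH
  have a2 : Real.sqrt (X * X') ≤ L0 * ((Φ + Φ')/2) := by
    refine Real.sqrt_le_iff.2 ⟨by positivity, ?_⟩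
    have h2 : X * X' ≤ (L0 * Φ) * (L0 * Φ') := mul_le_mul hX hX' hX0' (hX0.trans hX)
    have h3 : (L0 * Φ) * (L0 * Φ') = L0^2 * (Φ * Φ') := by ring
    have h4 : Φ * Φ' ≤ ((Φ + Φ')/2)^2 := by nlinarith [sq_nonneg (Φ - Φ')]
    have h5 : L0^2 * (Φ * Φ') ≤ L0^2 * ((Φ + Φ')/2)^2 := mul_le_mul_of_nonneg_left h4 (sq_nonneg _)
    calc X * X' ≤ L0^2 * ((Φ + Φ')/2)^2 := by linarith
      _ = _ := by ring
  have a3 : (1 + X) * (1 + X') ≤ (1 + H)^2 := by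
    rw [sq]
    exact mul_le_mul (by linarith) (by linarith) (by linarith) (by linarith)
  have a4 : E * (Real.sqrt (X * X') * ((1 + X) * (1 + X'))) ≤ (Φ + Φ')/2 := by
    have h2 : Real.sqrt (X * X') * ((1 + X) * (1 + X')) ≤ (L0 * ((Φ + Φ')/2)) * (1 + H)^2 :=
      mul_le_mul a2 a3 (by positivity) (by positivity)
    calc E * (Real.sqrt (X * X') * ((1 + X) * (1 + X'))) ≤ E * ((L0 * ((Φ + Φ')/2)) * (1 + H)^2) :=
          mul_le_mul_of_nonneg_left h2 hE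
      _ = (E * (L0 * (1 + H)^2)) * ((Φ + Φ')/2) := by ring
      _ ≤ 1 * ((Φ + Φ')/2) := mul_le_mul_of_nonneg_right hnum (by positivity)
      _ = _ := one_mul _
  have a5 : (Ch + 1) * (Φ * Φ') + (Φ + Φ')/2 ≤ (Ch + 1) * Lh Φ ν Φ' ν' := by
    unfold Lh
    have h2 : 0 ≤ (Φ * ν' + ν * Φ')/2 := by positivity
    have h3 : 0 ≤ (Φ + Φ')/2 := by positivity
    nlinarith [mul_nonneg hCh h2, mul_nonneg hCh h3]
  linarith

open Classical in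
/-- **STOP at a state** -/
theorem stop_state (hst : StopCls N0) (hsc : SC N0 CL C2 c₀ p₁) {p n : ℕ} {T Ch e₃ : ℝ}
    (hni : NI D ρ Al P W U CL C1 c₀ p)
    {u u' : NS} {τ τ' : IT} (hl : ¬ isL τ) (hl' : ¬ isL τ')
    (h : StI D sp s u.B u.A τ u'.B u'.A τ')
    (hI : IS D sp P W U s u u' τ τ')
    (hL : NSd D Al CL c₀ p u τ s.A) (hR : NSd D Al CL c₀ p u' τ' s.A')
    (hCL : 0 ≤ CL) (hhi : P.hi p ≤ (Real.log p)^C2)
    (hp : p₁ ≤ p) (htp : p = tp τ)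
    (hn : n = ⌊100 * (p * ((p:ℝ)^(-(1/3):ℝ)/4)) / Real.log 2⌋₊)
    (hM : Squarefree s.M) (hM' : Squarefree s.M') {N N' : ℕ}
    (mL : MS N u.A τ.items s.M s.O') (mR : MS N' u'.A τ'.items s.M' s.O)
    (hs : ∑ l ∈ s.O, 1/(l:ℝ) ≤ 1) (hs' : ∑ l ∈ s.O', 1/(l:ℝ) ≤ 1)
    (hO : OU U s.O τ'.items) (hO' : OU U s.O' τ.items)
    (hstop : (p:ℝ)^(-(1/3):ℝ) ≤ ∑ l ∈ s.O ∪ s.O', 1/(l:ℝ))
    (hT1 : 1 ≤ T) (hT : T ≤ Real.exp (p * ((p:ℝ)^(-(1/3):ℝ)/4)/20))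
    (hCh : 0 ≤ Ch) (he₃ : 0 ≤ e₃) (he : e₃ * (CL * Real.log p * (1/(2*c₀)))^2 ≤ 1)
    (hhigh : ∑ e ∈ (Qi D Al τ s.A ×ˢ Qi D Al τ' s.A').filter (fun e =>
        T < Dq ρ s.M u.B u.A 1 s.M' u'.B u'.A 1 e),
        D.iF s.R (D.uA s.M u.B u.A τ s.A 1) (D.uA s.M' u'.B u'.A τ' s.A' 1) e ≤
      Ch * ((∑ j ∈ s.A, mI s.t j) * ∑ j ∈ s.A', mI s.t' j) +
      e₃ * ((∑ q ∈ Qi D Al τ s.A, u.B * ρ q) * ∑ q ∈ Qi D Al τ' s.A', u'.B * ρ q))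
    {ν ν' : ℝ} (hν : 0 ≤ ν) (hν' : 0 ≤ ν') :
    Qs s ≤ (Ch + 1) * Lh (∑ j ∈ s.A, mI s.t j) ν (∑ j ∈ s.A', mI s.t' j) ν' +
      ∑ e ∈ (Qi D Al τ s.A ×ˢ Qi D Al τ' s.A').filter (fun e =>
        0 < D.iF s.R (D.uA s.M u.B u.A τ s.A 1) (D.uA s.M' u'.B u'.A τ' s.A' 1) e ∧
        (Dq ρ s.M u.B u.A 1 s.M' u'.B u'.A 1 e ≤ 1/2^n ∧
          FSI D.γ ρ n s.M u.B u.A 1 s.M' u'.B u'.A 1 e)),
        D.iF s.R (D.uA s.M u.B u.A τ s.A 1) (D.uA s.M' u'.B u'.A τ' s.A' 1) e := by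
  classical
  set cc : ℝ := (p:ℝ)^(-(1/3):ℝ)/4 with hcc
  set F : ℕ × ℕ → ℝ := D.iF s.R (D.uA s.M u.B u.A τ s.A 1) (D.uA s.M' u'.B u'.A τ' s.A' 1) with hFdef
  have hF0 : ∀ e, 0 ≤ F e := fun e => D.iF_nonneg _
    (fun j y => (PB_uA h.M0 h.L.hb h.L.hF h.L.hW (one_dvd _) j).nonneg y)
    (fun j y => (PB_uA h.M0' h.R.hb h.R.hF h.R.hW (one_dvd _) j).nonneg y) e
  have mnn : ∀ (d : DT Λ κ), d.g.Ok → ∀ j, 0 ≤ mI d j := fun d hd j => by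
    unfold mI
    exact I_nonneg fun x => (hd.pb j).nonneg x
  have okL : s.t.g.Ok := by rw [h.L.eq, D.toDT_g]; exact D.toG_Ok h.L.hb h.L.hF h.L.hW
  have okR : s.t'.g.Ok := by rw [h.R.eq, D.toDT_g]; exact D.toG_Ok h.R.hb h.R.hF h.R.hW
  have nΦ : 0 ≤ ∑ j ∈ s.A, mI s.t j := Finset.sum_nonneg fun j _ => mnn _ okL j
  have nΦ' : 0 ≤ ∑ j ∈ s.A', mI s.t' j := Finset.sum_nonneg fun j _ => mnn _ okR j
  -- the energy
  have hQ : Qs s ≤ ∑ e ∈ Qi D Al τ s.A ×ˢ Qi D Al τ' s.A', F e := by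
    rw [Qs_eq h]
    exact Finset.sum_le_sum_of_subset_of_nonneg (PE_sub hni.dead h.M0 h.M0' h.L.hb h.R.hb h.L.hF
      h.R.hF h.L.hW h.R.hW (one_dvd _) (one_dvd _) _ _ _) fun e _ _ => hF0 e
  -- the pieces of the estimate
  obtain ⟨G, hG, tL, tR⟩ := hI.tame h.M0 h.M0'
  obtain ⟨H, eM, hH, dH, -, pO⟩ := mL
  obtain ⟨H', eM', hH', dH', -, pO'⟩ := mR
  have q1 := hI.qL.self
  have q2 := hI.qR.self
  have top1 := top_of_nodeOk q1.1 hl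
  have top2 := top_of_nodeOk q2.1 hl'
  have etp : tp τ = tp τ' := tp_eq q1.1 q2.1 hl hl' hI.n_eq
  rw [← htp] at top1
  rw [← etp, ← htp] at top2
  have hpp : p.Prime := top1.1
  have hp0 : 0 < p := hpp.pos
  have bkL := bk_of_nodeOk q1.1
  have bkR := bk_of_nodeOk q2.1
  have bB : 0 < u.B := h.L.hb
  have bB' : 0 < u'.B := h.R.hb
  have lev : ∀ z : ℝ, (p:ℝ) ≤ z → ∀ l : ℕ, l.Prime → z < l → u.n ≤ l := by
    intro z hz l hl hzl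
    by_contra hc
    push Not at hc
    have h3 : l ≤ p := top1.2.2 l hl hc
    have : (l:ℝ) ≤ p := by exact_mod_cast h3
    linarith
  have sqL : ∀ q ∈ τ.items, Squarefree q := fun q hq => (q1.2 q hq).1
  have sqR : ∀ q ∈ τ'.items, Squarefree q := fun q hq => (q2.2 q hq).1
  have itL : ∀ q ∈ Qi D Al τ s.A, q ∈ τ.items := fun q hq => (mem_Qi.1 hq).1
  have itR : ∀ q ∈ Qi D Al τ' s.A', q ∈ τ'.items := fun q hq => (mem_Qi.1 hq).1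
  have hOge : ∀ l ∈ s.O, l.Prime ∧ p < l := fun l hl => ⟨(pO' l hl).1, top1.2.1.trans_le
    (hI.geM' l (pO' l hl).1 ((Finset.dvd_prod_of_mem _ hl).trans (eM' ▸ Dvd.intro_left _ rfl)))⟩
  have hOge' : ∀ l ∈ s.O', l.Prime ∧ p < l := fun l hl => ⟨(pO l hl).1, top1.2.1.trans_le
    (hI.geM l (pO l hl).1 ((Finset.dvd_prod_of_mem _ hl).trans (eM ▸ Dvd.intro_left _ rfl)))⟩
  have hMp : ∀ l : ℕ, l.Prime → l ∣ ∏ l ∈ s.O', l → p ≤ l := fun l hl hd =>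
    (top1.2.1.le).trans (hI.geM l hl (hd.trans (eM ▸ Dvd.intro_left _ rfl)))
  have hMp' : ∀ l : ℕ, l.Prime → l ∣ ∏ l ∈ s.O, l → p ≤ l := fun l hl hd =>
    (top1.2.1.le).trans (hI.geM' l hl (hd.trans (eM' ▸ Dvd.intro_left _ rfl)))
  have w0L : ∀ q ∈ Qi D Al τ s.A, 0 < q / u.A := fun q hq => by
    have hq0 := (h.L.hF.item q (mem_Qi.1 hq).1)
    exact Nat.div_pos (Nat.le_of_dvd hq0.1 hq0.2.1) (Nat.pos_of_dvd_of_pos hq0.2.1 hq0.1)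
  have w0R : ∀ q ∈ Qi D Al τ' s.A', 0 < q / u'.A := fun q hq => by
    have hq0 := (h.R.hF.item q (mem_Qi.1 hq).1)
    exact Nat.div_pos (Nat.le_of_dvd hq0.1 hq0.2.1) (Nat.pos_of_dvd_of_pos hq0.2.1 hq0.1)
  have hlogp0 : 0 ≤ Real.log p := Real.log_natCast_nonneg p
  have logp : 0 ≤ CL * Real.log p := mul_nonneg hCL hlogp0
  have dvL : ∀ q ∈ Qi D Al τ s.A, 0 < q ∧ u.A * H ∣ q := fun q hq => by
    have hq0 := (h.L.hF.item q (mem_Qi.1 hq).1)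
    refine ⟨hq0.1, ?_⟩
    obtain ⟨w, hw⟩ := dH q (itL q hq)
    exact ⟨w, by rw [mul_assoc, ← hw, Nat.mul_div_cancel' hq0.2.1]⟩
  have dvR : ∀ q ∈ Qi D Al τ' s.A', 0 < q ∧ u'.A * H' ∣ q := fun q hq => by
    have hq0 := (h.R.hF.item q (mem_Qi.1 hq).1)
    refine ⟨hq0.1, ?_⟩
    obtain ⟨w, hw⟩ := dH' q (itR q hq)
    exact ⟨w, by rw [mul_assoc, ← hw, Nat.mul_div_cancel' hq0.2.1]⟩
  have quoL : ∀ q ∈ Qi D Al τ s.A, q / u.A / s.M.gcd (q / u.A) =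
      q / (u.A * H) / (∏ l ∈ s.O', l).gcd (q / (u.A * H)) := fun q hq => by
    rw [eM]; exact quo_G (dH q (itL q hq)) hH
  have quoR : ∀ q ∈ Qi D Al τ' s.A', q / u'.A / s.M'.gcd (q / u'.A) =
      q / (u'.A * H') / (∏ l ∈ s.O, l).gcd (q / (u'.A * H')) := fun q hq => by
    rw [eM']; exact quo_G (dH' q (itR q hq)) hH'
  have lgL : ∀ q ∈ Qi D Al τ s.A, 1 ≤ CL * Real.log p * tq (q / u.A) := fun q hq =>
    hL.lg q (mem_Qi.1 hq).2.1 (itL q hq)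
  have lgR : ∀ q ∈ Qi D Al τ' s.A', 1 ≤ CL * Real.log p * tq (q / u'.A) := fun q hq =>
    hR.lg q (mem_Qi.1 hq).2.1 (itR q hq)
  have hlog2 : 0 < Real.log 2 := Real.log_pos (by norm_num)
  have hst0 := hsc.st p hp
  have hpp1 : (1:ℝ) ≤ p := by exact_mod_cast hpp.one_lt.le
  have hs1 : 1 ≤ Real.sqrt p := Real.one_le_sqrt.2 hpp1
  have hn1 : 1 ≤ n := by
    rw [hn]
    apply Nat.le_floor
    rw [Nat.cast_one, le_div_iff₀ hlog2]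
    have := Real.log_two_lt_d9
    nlinarith
  have tL' : ∀ z : ℝ, (p:ℝ) ≤ z → ∀ q ∈ Qi D Al τ s.A,
      ClsB.Tame z G (q / (u.A * H) / (∏ l ∈ s.O', l).gcd (q / (u.A * H))) := by
    intro z hz q hq
    rw [← quoL q hq]
    obtain ⟨h1, h2, j, hj, rfl⟩ := mem_Qi.1 hq
    exact tL j hj (itL _ hq) z (lev z hz) (hni.U _ h2 z hz)
  have tR' : ∀ z : ℝ, (p:ℝ) ≤ z → ∀ q ∈ Qi D Al τ' s.A',
      ClsB.Tame z G (q / (u'.A * H') / (∏ l ∈ s.O, l).gcd (q / (u'.A * H'))) := by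
    intro z hz q hq
    rw [← quoR q hq]
    obtain ⟨h1, h2, j, hj, rfl⟩ := mem_Qi.1 hq
    exact tR j hj (itR _ hq) z (lev z hz) (hni.U _ h2 z hz)
  have lL' : ∀ q ∈ Qi D Al τ s.A, 1 ≤ CL * Real.log p *
      tq (q / (u.A * H) / (∏ l ∈ s.O', l).gcd (q / (u.A * H))) := by
    intro q hq
    rw [← quoL q hq]
    refine (lgL q hq).trans ?_
    exact mul_le_mul_of_nonneg_left (tq_mono (Nat.div_dvd_of_dvd (Nat.gcd_dvd_right _ _))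
      (w0L q hq)) logp
  have lR' : ∀ q ∈ Qi D Al τ' s.A', 1 ≤ CL * Real.log p *
      tq (q / (u'.A * H') / (∏ l ∈ s.O, l).gcd (q / (u'.A * H'))) := by
    intro q hq
    rw [← quoR q hq]
    refine (lgR q hq).trans ?_
    exact mul_le_mul_of_nonneg_left (tq_mono (Nat.div_dvd_of_dvd (Nat.gcd_dvd_right _ _))
      (w0R q hq)) logp
  have hFpb : ∀ e ∈ Qi D Al τ s.A ×ˢ Qi D Al τ' s.A', F e ≤
      D.pb ρ (∏ l ∈ s.O', l) u.B (u.A * H) 1 e.1 (∏ l ∈ s.O, l) u'.B (u'.A * H') 1 e.2 := by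
    intro e he
    obtain ⟨h1, h2⟩ := Finset.mem_product.1 he
    have k1 := iF_le hni.rad h.M0 h.M0' h.L.hb h.R.hb h.L.hF h.R.hF h.L.hW h.R.hW
      (one_dvd u.B) (one_dvd u'.B) s.R s.A s.A' e (mem_Qi.1 h1).1 (mem_Qi.1 h2).1
    refine k1.trans (le_of_eq ?_)
    unfold Item758.Par.pb
    rw [eM, eM']
    exact pbd_G (dH _ (itL _ h1)) hH (dH' _ (itR _ h2)) hH'
  have sqO' : Squarefree (∏ l ∈ s.O', l) := hM.squarefree_of_dvd (eM ▸ Dvd.intro_left _ rfl)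
  have sqO : Squarefree (∏ l ∈ s.O, l) := hM'.squarefree_of_dvd (eM' ▸ Dvd.intro_left _ rfl)
  have pfO' : (∏ l ∈ s.O', l).primeFactors = s.O' := Nat.primeFactors_prod fun l hl => (pO l hl).1
  have pfO : (∏ l ∈ s.O, l).primeFactors = s.O := Nat.primeFactors_prod fun l hl => (pO' l hl).1
  -- the estimate
  have main : ∑ e ∈ Qi D Al τ s.A ×ˢ Qi D Al τ' s.A', F e ≤
      ∑ e ∈ (Qi D Al τ s.A ×ˢ Qi D Al τ' s.A').filter (fun e => T < Dq ρ (∏ l ∈ s.O', l) u.B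
        (u.A * H) 1 (∏ l ∈ s.O, l) u'.B (u'.A * H') 1 e), F e +
      Real.exp (-(p*cc/10)) * (Real.sqrt ((∑ q ∈ Qi D Al τ s.A, rd u.B 1 ρ q) *
        (∑ q ∈ Qi D Al τ' s.A', rd u'.B 1 ρ q)) *
        ((1 + ∑ q ∈ Qi D Al τ s.A, rd u.B 1 ρ q) * (1 + ∑ q ∈ Qi D Al τ' s.A', rd u'.B 1 ρ q))) +
      ∑ e ∈ (Qi D Al τ s.A ×ˢ Qi D Al τ' s.A').filter (fun e => 0 < F e ∧
        (Dq ρ (∏ l ∈ s.O', l) u.B (u.A * H) 1 (∏ l ∈ s.O, l) u'.B (u'.A * H') 1 e ≤ 1/2^n ∧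
        FSI D.γ ρ n (∏ l ∈ s.O', l) u.B (u.A * H) 1 (∏ l ∈ s.O, l) u'.B (u'.A * H') 1 e)), F e := by
    have hsum : ∑ l ∈ s.O ∪ s.O', 1/(l:ℝ) ≤ ∑ l ∈ s.O, 1/(l:ℝ) + ∑ l ∈ s.O', 1/(l:ℝ) := by
      rw [← Finset.sum_union_inter]
      have : 0 ≤ ∑ l ∈ s.O ∩ s.O', 1/(l:ℝ) := Finset.sum_nonneg fun l _ => by positivity
      linarith
    have hc2 := hsc.cc p hp
    rcases le_total (∑ l ∈ s.O', 1/(l:ℝ)) (∑ l ∈ s.O, 1/(l:ℝ)) with hcase | hcase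
    · refine stop_itemsL hst D (F := F) (G := G) (N := p) (L := CL * Real.log p) (cc := cc) (T := T)
        (M := ∏ l ∈ s.O', l) (M' := ∏ l ∈ s.O, l) (pr := u.A * H) (pr' := u'.A * H') (b := u.B)
        (b' := u'.B) (c := 1) (c' := 1) (V := Qi D Al τ s.A) (W := Qi D Al τ' s.A')
        (hsc.n0 p hp) hst0 hn hn1 hG hT1 hT logp (hsc.lg p hp) hni.rad.pos bB one_pos bB' one_pos
        sqO' sqO hMp hMp' (by rw [pfO']; exact hs') (by rw [pfO]; exact hs) dvL dvR tL' tR' lL' lR'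
        ?_ hFpb
      intro q hq
      rw [pfO]
      obtain ⟨h1, h2, -⟩ := mem_Qi.1 hq
      refine miss_mass hO (p := p) (Nat.div_dvd_of_dvd (dvR q hq).2) h1 hOge ?_ (hni.U q h2 p le_rfl)
      linarith
    · refine stop_itemsR hst D (F := F) (G := G) (N := p) (L := CL * Real.log p) (cc := cc) (T := T)
        (M := ∏ l ∈ s.O', l) (M' := ∏ l ∈ s.O, l) (pr := u.A * H) (pr' := u'.A * H') (b := u.B)
        (b' := u'.B) (c := 1) (c' := 1) (V := Qi D Al τ s.A) (W := Qi D Al τ' s.A')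
        (hsc.n0 p hp) hst0 hn hn1 hG hT1 hT logp (hsc.lg p hp) hni.rad.pos bB one_pos bB' one_pos
        sqO' sqO hMp hMp' (by rw [pfO']; exact hs') (by rw [pfO]; exact hs) dvL dvR tL' tR' lL' lR'
        ?_ hFpb
      intro q hq
      rw [pfO']
      obtain ⟨h1, h2, -⟩ := mem_Qi.1 hq
      refine miss_mass hO' (p := p) (Nat.div_dvd_of_dvd (dvL q hq).2) h1 hOge' ?_ (hni.U q h2 p le_rfl)
      linarith
  -- back to the data of the state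
  have eD : ∀ e ∈ Qi D Al τ s.A ×ˢ Qi D Al τ' s.A',
      Dq ρ s.M u.B u.A 1 s.M' u'.B u'.A 1 e = Dq ρ (∏ l ∈ s.O', l) u.B (u.A * H) 1 (∏ l ∈ s.O, l)
        u'.B (u'.A * H') 1 e ∧
      (FSI D.γ ρ n s.M u.B u.A 1 s.M' u'.B u'.A 1 e ↔
        FSI D.γ ρ n (∏ l ∈ s.O', l) u.B (u.A * H) 1 (∏ l ∈ s.O, l) u'.B (u'.A * H') 1 e) := by
    intro e he
    obtain ⟨h1, h2⟩ := Finset.mem_product.1 he
    obtain ⟨d1, d2, d3⟩ := dat_G (ρ := ρ) (γ := D.γ) (n := n) (M₀ := ∏ l ∈ s.O', l)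
      (M₀' := ∏ l ∈ s.O, l) (b := u.B) (b' := u'.B) (c := 1) (c' := 1) (e := e)
      (dH _ (itL _ h1)) hH (dH' _ (itR _ h2)) hH'
    rw [eM, eM', d1, d3]
    exact ⟨rfl, Iff.rfl⟩
  have e1 : ∑ e ∈ (Qi D Al τ s.A ×ˢ Qi D Al τ' s.A').filter (fun e => T < Dq ρ (∏ l ∈ s.O', l) u.B
        (u.A * H) 1 (∏ l ∈ s.O, l) u'.B (u'.A * H') 1 e), F e =
      ∑ e ∈ (Qi D Al τ s.A ×ˢ Qi D Al τ' s.A').filter (fun e =>
        T < Dq ρ s.M u.B u.A 1 s.M' u'.B u'.A 1 e), F e := by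
    refine Finset.sum_congr (Finset.filter_congr fun e he => ?_) fun _ _ => rfl
    rw [(eD e he).1]
  have e2 : ∑ e ∈ (Qi D Al τ s.A ×ˢ Qi D Al τ' s.A').filter (fun e => 0 < F e ∧
        (Dq ρ (∏ l ∈ s.O', l) u.B (u.A * H) 1 (∏ l ∈ s.O, l) u'.B (u'.A * H') 1 e ≤ 1/2^n ∧
        FSI D.γ ρ n (∏ l ∈ s.O', l) u.B (u.A * H) 1 (∏ l ∈ s.O, l) u'.B (u'.A * H') 1 e)), F e =
      ∑ e ∈ (Qi D Al τ s.A ×ˢ Qi D Al τ' s.A').filter (fun e => 0 < F e ∧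
        (Dq ρ s.M u.B u.A 1 s.M' u'.B u'.A 1 e ≤ 1/2^n ∧
          FSI D.γ ρ n s.M u.B u.A 1 s.M' u'.B u'.A 1 e)), F e := by
    refine Finset.sum_congr (Finset.filter_congr fun e he => ?_) fun _ _ => rfl
    rw [(eD e he).1, (eD e he).2]
  rw [e1, e2] at main
  have xX : ∀ (b pr : ℕ) (S : Finset ℕ), (∀ q ∈ S, 1 ≤ CL * Real.log p * tq (q / pr)) →
      ∑ q ∈ S, rd b 1 ρ q ≤ CL * Real.log p * ∑ q ∈ S, rd b 1 ρ q * tq (q / pr) := by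
    intro b pr S hS
    rw [Finset.mul_sum]
    refine Finset.sum_le_sum fun q hq => ?_
    have h1 : 0 ≤ rd b 1 ρ q := by
      rw [rd_one]
      exact mul_nonneg (Nat.cast_nonneg _) (hni.rad.pos q).le
    calc rd b 1 ρ q = rd b 1 ρ q * 1 := (mul_one _).symm
      _ ≤ rd b 1 ρ q * (CL * Real.log p * tq (q / pr)) := mul_le_mul_of_nonneg_left (hS q hq) h1
      _ = _ := by ring
  have x0 : ∀ (b : ℕ) (S : Finset ℕ), 0 ≤ ∑ q ∈ S, rd b 1 ρ q := fun b S =>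
    Finset.sum_nonneg fun q _ => by
      rw [rd_one]
      exact mul_nonneg (Nat.cast_nonneg _) (hni.rad.pos q).le
  have mL1 := (xX u.B u.A _ lgL).trans (mul_le_mul_of_nonneg_left
    (rad_le_mass hni.ab h.L sqL hni.c0 hL.mean hni.full hL.il (mnn _ okL)) logp)
  have mR1 := (xX u'.B u'.A _ lgR).trans (mul_le_mul_of_nonneg_left
    (rad_le_mass hni.ab h.R sqR hni.c0 hR.mean hni.full hR.il (mnn _ okR)) logp)
  have hiL : u.c * Ws W τ.items ≤ (Real.log p)^C2 := by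
    refine (hi_of_nodeOk q1.1 hl).trans ?_
    rw [← htp]; exact hhi
  have hiR : u'.c * Ws W τ'.items ≤ (Real.log p)^C2 := by
    refine (hi_of_nodeOk q2.1 hl').trans ?_
    rw [← etp, ← htp]; exact hhi
  have mL2 := (xX u.B u.A _ lgL).trans (mul_le_mul_of_nonneg_left
    ((rad_le_raw (D := D) (ρ := ρ) bkL sqL hni.W0 hni.Wρ s.A).trans hiL) logp)
  have mR2 := (xX u'.B u'.A _ lgR).trans (mul_le_mul_of_nonneg_left
    ((rad_le_raw (D := D) (ρ := ρ) bkR sqR hni.W0 hni.Wρ s.A').trans hiR) logp)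
  have hfin := hsc.fin p hp
  have hrd : ∀ (b : ℕ) (S : Finset ℕ), ∑ q ∈ S, (b:ℝ) * ρ q = ∑ q ∈ S, rd b 1 ρ q := fun b S =>
    Finset.sum_congr rfl fun q _ => (rd_one b ρ q).symm
  rw [hrd, hrd] at hhigh
  refine hQ.trans ?_
  refine stop_num (L0 := CL * Real.log p * (1/(2*c₀))) (H := CL * Real.log p * (Real.log p)^C2)
    (E := Real.exp (-(p*cc/10))) (e₃ := e₃) (Ch := Ch) (x0 _ _) (x0 _ _) nΦ nΦ' hν hν' hCh
    (mul_nonneg logp (by have := hni.c0; positivity)) (mL1.trans (le_of_eq (by ring)))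
    (mR1.trans (le_of_eq (by ring))) mL2 mR2 (Real.exp_nonneg _) hfin he₃ he main hhigh

end state

end Crest.Agent.R4.StopW95
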