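import Crest.Agent.R4.GStJ927
import Crest.Agent.R4.StopW95

/-!
R4 (S0004), helper95: **one-sided primes of the items along the walk**.

* `OU2` : for one-sided columns `l` of a state, every item of the other tree divisible by `l` has `l` among its
  `up` primes; `HJO.next` : `HI`, `JS`, `OU2` (same nodes) are preserved by the steps (927's `HJ.next` with one
  more conjunct); `OU2.self`.
-/

set_option autoImplicit false
set_option linter.unusedSectionVars false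
set_option linter.unusedVariables false
set_option linter.unusedSimpArgs false

namespace Crest.Agent.R4.StopInv95

open Crest.Agent.R4.Tour104 Crest.Agent.R4.Tour758 Crest.Agent.R4.Avg758 Crest.Agent.R4.Clos758
open Crest.Agent.R4.ClosL758 Crest.Agent.R4.ClosG758 Crest.Agent.R4.ClosR758
open Crest.Agent.R4.Cnt588 Crest.Agent.R4.Walk560 Crest.Agent.R4.Item758 Crest.Agent.R4.AvgItem710
open Crest.Agent.R4.Bld532 (NS All NodeOk Bk)
open Crest.Agent.R4.Res927 Crest.Agent.R4.GInst194 Crest.Agent.R4.WalkIT579 Crest.Agent.R4.GSt927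
open Crest.Agent.R4.GStJ927 Crest.Agent.R4.StopW95
open Crest.Agent.R4

variable {Λ κ : Type*} [Fintype Λ] [DecidableEq Λ] [Fintype κ] [DecidableEq κ] [WRel κ]
  {D : Par Λ κ} {sp : ℕ → Finset Λ} {P : Bld532.Par} {W : ℕ → ℝ} {Qp : NS → IT → Prop}
  {U : ℕ → Finset ℕ}

lemma _root_.Crest.Agent.R4.StopW95.OU.mono {O S S' : Finset ℕ} (h : OU U O S) (hS : S' ⊆ S) :
    OU U O S' := fun l hl q hq hd => h l hl q (hS hq) hd

lemma _root_.Crest.Agent.R4.StopW95.OU.ins {O S : Finset ℕ} (h : OU U O S) {p : ℕ}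
    (hp : ∀ q ∈ S, p ∣ q → p ∈ U q) : OU U (insert p O) S := by
  intro l hl q hq hd
  rcases Finset.mem_insert.1 hl with rfl | hl
  · exact hp q hq hd
  · exact h l hl q hq hd

/-- one-sided primes of the items of a state are `up` primes -/
def OU2 (U : ℕ → Finset ℕ) (s : St Λ κ) (τ τ' : IT) : Prop :=
  OU U s.O τ'.items ∧ OU U s.O' τ.items

lemma OU2.self {s : St Λ κ} (h : s.O = ∅) (h' : s.O' = ∅) (τ τ' : IT) : OU2 U s τ τ' := by
  refine ⟨?_, ?_⟩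
  · rw [h]; intro l hl; simp at hl
  · rw [h']; intro l hl; simp at hl

set_option maxHeartbeats 1000000 in
/-- **`HI`, `JS`, `OU2` are preserved by the steps of the walk** -/
theorem HJO.next (hsp : D.SpOk sp) (hil : ∀ b, IL D.it (sp b)) (hspd : ∀ b, ∀ j ∈ sp b, b ∣ D.it j)
    (hQ : ∀ u τ, Qp u τ → NQ P W U u τ) {stp : St Λ κ → Prop} {dv : ℕ → Λ → Prop}
    {B₀ B₀' : ℕ} {x : XSt Λ κ} (hx : XI x.n x) {u u' : NS} {τ τ' : IT}
    (h : HI D sp Qp B₀ B₀' x u u' τ τ') (hj : JS D U x.s u u' τ τ') (ho : OU2 U x.s τ τ') :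
    ∀ e ∈ steps stp dv x, ∃ v v' σ σ', HI D sp Qp B₀ B₀' e.y v v' σ σ' ∧
      JS D U e.y.s v v' σ σ' ∧ OU2 U e.y.s σ σ' := by
  intro e he
  by_cases h1 : x.s.t.isLeaf ∨ x.s.t'.isLeaf
  · simp [steps, h1] at he
  by_cases h2 : stp x.s
  · simp [steps, h1, h2] at he
  have hl : ¬ x.s.t.isLeaf := fun h => h1 (Or.inl h)
  have hl' : ¬ x.s.t'.isLeaf := fun h => h1 (Or.inr h)
  obtain ⟨e1, e2, hpp, hpn⟩ := h.tops (fun u τ hq => (hQ u τ hq).1) hl hl'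
  have hu : x.s.p ∉ x.u := fun hm => absurd (hx.u _ hm) (not_le.2 hpn)
  have hu' : x.s.p ∉ x.u' := fun hm => absurd (hx.u' _ hm) (not_le.2 hpn)
  have n1 := hQ _ _ h.qL.self
  have n2 := hQ _ _ h.qR.self
  have hpL : x.s.p < u.n := h.nL ▸ hpn
  have hpR : x.s.p < u'.n := h.nR ▸ hpn
  obtain ⟨circ, geM, geM', sq, sq', SP, hc, gL, gR⟩ := hj
  obtain ⟨hR1, hL1⟩ := ho
  have cp : u.A * u.B * x.s.M * x.s.p = u'.A * u'.B * x.s.M' * x.s.p := by rw [circ]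
  have hge : ∀ l : ℕ, l.Prime → l ∣ x.s.M → x.s.p ≤ l := fun l hl h => hpL.le.trans (geM l hl h)
  have hge' : ∀ l : ℕ, l.Prime → l ∣ x.s.M' → x.s.p ≤ l := fun l hl h =>
    hpL.le.trans (geM' l hl h)
  have hgm := geM_mul geM hpL hpp
  have hgm' := geM_mul geM' hpL hpp
  have sqm := sq_mul sq geM hpL hpp
  have sqm' := sq_mul sq' geM' hpL hpp
  have hcd := hc.down hpL
  have hcL := hc.mulL hpL hpp
  have hcR := hc.mulR hpL hpp
  have hcI := hc.ins hpL hpp geM geM'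
  have cL : ∀ l ∈ SP, l.Prime ∧ u.n ≤ l := fun l hl => ⟨(hc l hl).1, (hc l hl).2.1⟩
  have cR : ∀ l ∈ SP, l.Prime ∧ u'.n ≤ l := fun l hl =>
    ⟨(hc l hl).1, (h.nR.trans h.nL.symm) ▸ (hc l hl).2.1⟩
  rcases hv : vw x.s.p x.s.t with ⟨w, r, t₁, t₀, v, B₁, G⟩ | ⟨r, t₁, t₀⟩ | ⟨Sp, d⟩ <;>
  rcases hv' : vw x.s.p x.s.t' with ⟨w', r', t₁', t₀', v', B', G'⟩ | ⟨r', t₁', t₀'⟩ | ⟨Sp', d'⟩ <;>
  simp only [steps, h1, h2, hv, hv', if_false, List.mem_cons, List.not_mem_nil, or_false] at he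
  · -- br, br
    obtain ⟨τ₁, τ₀, rfl, rfl, rfl, rfl, -, -⟩ := AvgItem710.toDT_br (h.L.eq.symm.trans (vw_br hv))
    obtain ⟨τ₁', τ₀', rfl, -, rfl, rfl, -, -⟩ := AvgItem710.toDT_br (h.R.eq.symm.trans (vw_br hv'))
    have d1 := NodeOk.br_dvd n1.1 h.L.hF
    have d1' := NodeOk.br_dvd n2.1 h.R.hF
    have mL1 := h.mL.pres Finset.subset_union_left hpn hpp d1
    have mL0 := h.mL.sub (Finset.subset_union_right : τ₀.items ⊆ _) hpn
    have mR1 := h.mR.pres Finset.subset_union_left hpn hpp d1'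
    have mR0 := h.mR.sub (Finset.subset_union_right : τ₀'.items ⊆ _) hpn
    have g1 := gL.present n1 cL
    have g0 := gL.missing n1
    have g1' := gR.present n2 cR
    have g0' := gR.missing n2
    rcases he with rfl | rfl | rfl | rfl
    · refine ⟨nP u x.s.p, nP u' x.s.p, τ₁, τ₁', ⟨h.L.br₁, h.R.br₁, rfl, rfl, h.qL.2.1, h.qR.2.1,
        h.bL, h.bR, h.ilL, h.ilR, mL1, mR1⟩, ⟨?_, hge, hge', sq, sq', SP, hcd, g1, g1'⟩,
        hR1.mono Finset.subset_union_left, hL1.mono Finset.subset_union_left⟩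
      change u.A * x.s.p * u.B * x.s.M = u'.A * x.s.p * u'.B * x.s.M'
      linarith [cp]
    · refine ⟨nP u x.s.p, nM u' x.s.p, τ₁, τ₀', ⟨h.L.br₁, h.R.br₀, rfl, rfl, h.qL.2.1, h.qR.2.2,
        h.bL, prod_ins h.bR hu', h.ilL, h.ilR, mL1, mR0⟩, ⟨?_, hge, hge', sq, sq', SP, hcd, g1, g0'⟩,
        hR1.mono Finset.subset_union_right, hL1.mono Finset.subset_union_left⟩
      change u.A * x.s.p * u.B * x.s.M = u'.A * (u'.B * x.s.p) * x.s.M'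
      linarith [cp]
    · refine ⟨nM u x.s.p, nP u' x.s.p, τ₀, τ₁', ⟨h.L.br₀, h.R.br₁, rfl, rfl, h.qL.2.2, h.qR.2.1,
        prod_ins h.bL hu, h.bR, h.ilL, h.ilR, mL0, mR1⟩, ⟨?_, hge, hge', sq, sq', SP, hcd, g0, g1'⟩,
        hR1.mono Finset.subset_union_left, hL1.mono Finset.subset_union_right⟩
      change u.A * (u.B * x.s.p) * x.s.M = u'.A * x.s.p * u'.B * x.s.M'
      linarith [cp]
    · refine ⟨nM u x.s.p, nM u' x.s.p, τ₀, τ₀', ⟨h.L.br₀, h.R.br₀, rfl, rfl, h.qL.2.2, h.qR.2.2,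
        prod_ins h.bL hu, prod_ins h.bR hu', h.ilL, h.ilR, mL0, mR0⟩, ⟨?_, hge, hge', sq, sq', SP,
        hcd, g0, g0'⟩,
        hR1.mono Finset.subset_union_right, hL1.mono Finset.subset_union_right⟩
      change u.A * (u.B * x.s.p) * x.s.M = u'.A * (u'.B * x.s.p) * x.s.M'
      linarith [cp]
  · -- br, add
    obtain ⟨τ₁, τ₀, rfl, rfl, rfl, rfl, -, -⟩ := AvgItem710.toDT_br (h.L.eq.symm.trans (vw_br hv))
    obtain ⟨τ₁', τ₀', rfl, -, rfl, rfl⟩ := AvgItem710.toDT_add (h.R.eq.symm.trans (vw_add hv'))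
    have d1 := NodeOk.br_dvd n1.1 h.L.hF
    have mL1 := h.mL.pres Finset.subset_union_left hpn hpp d1
    have mL0 := h.mL.sub (Finset.subset_union_right : τ₀.items ⊆ _) hpn
    have mR1 := h.mR.sep Finset.subset_union_left hpn hpp (NodeOk.add_dvd n2.1)
    have g1 := gL.present n1 cL
    have g0 := gL.missing n1
    have g1' := gR.add1M n2
    rcases he with rfl | rfl
    · refine ⟨nP u x.s.p, nS u' x.s.p, τ₁, τ₁', ⟨h.L.br₁, h.R.add₁, rfl, rfl, h.qL.2.1, h.qR.2.1,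
        h.bL, h.bR, h.ilL, h.ilR, mL1, mR1⟩, ⟨?_, hge, hgm', sq, sqm', SP, hcR, g1, g1'⟩,
        hR1.mono Finset.subset_union_left, hL1.mono Finset.subset_union_left⟩
      change u.A * x.s.p * u.B * x.s.M = u'.A * u'.B * (x.s.p * x.s.M')
      linarith [cp]
    · refine ⟨nM u x.s.p, nS u' x.s.p, τ₀, τ₁', ⟨h.L.br₀, h.R.add₁, rfl, rfl, h.qL.2.2, h.qR.2.1,
        prod_ins h.bL hu, h.bR, h.ilL, h.ilR, mL0, mR1⟩, ⟨?_, hge, hgm', sq, sqm', SP, hcR, g0, g1'⟩,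
        hR1.mono Finset.subset_union_left, hL1.mono Finset.subset_union_right⟩
      change u.A * (u.B * x.s.p) * x.s.M = u'.A * u'.B * (x.s.p * x.s.M')
      linarith [cp]
  · -- br, up
    obtain ⟨τ₁, τ₀, rfl, rfl, rfl, rfl, -, -⟩ := AvgItem710.toDT_br (h.L.eq.symm.trans (vw_br hv))
    obtain ⟨S', σ', rfl, rfl, rfl⟩ := side_up h.R hl' e2 hv'
    have d1 := NodeOk.br_dvd n1.1 h.L.hF
    have mL1 := h.mL.pres Finset.subset_union_left hpn hpp d1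
    have mL0 := h.mL.sub (Finset.subset_union_right : τ₀.items ⊆ _) hpn
    have mR1 := h.mR.up (Finset.Subset.refl _ : σ'.items ⊆ _) hpn hpp
    have g1 := gL.present n1 cL
    have g0 := gL.missing n1
    have g1' := (gR.up n2).monoM (Dvd.intro_left x.s.p rfl)
    rcases he with rfl | rfl
    · refine ⟨nP u x.s.p, nS u' x.s.p, τ₁, σ', ⟨h.L.br₁, h.R.up, rfl, rfl, h.qL.2.1, h.qR.2,
        h.bL, h.bR, h.ilL, h.ilR, mL1, mR1⟩, ⟨?_, hge, hgm', sq, sqm', SP, hcR, g1, g1'⟩,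
        hR1.ins (fun q hq hd => up_mem n2 hq hd), hL1.mono Finset.subset_union_left⟩
      change u.A * x.s.p * u.B * x.s.M = u'.A * u'.B * (x.s.p * x.s.M')
      linarith [cp]
    · refine ⟨nM u x.s.p, nS u' x.s.p, τ₀, σ', ⟨h.L.br₀, h.R.up, rfl, rfl, h.qL.2.2, h.qR.2,
        prod_ins h.bL hu, h.bR, h.ilL, h.ilR, mL0, mR1⟩, ⟨?_, hge, hgm', sq, sqm', SP, hcR, g0, g1'⟩,
        hR1.ins (fun q hq hd => up_mem n2 hq hd), hL1.mono Finset.subset_union_right⟩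
      change u.A * (u.B * x.s.p) * x.s.M = u'.A * u'.B * (x.s.p * x.s.M')
      linarith [cp]
  · -- add, br
    obtain ⟨τ₁, τ₀, rfl, -, rfl, rfl⟩ := AvgItem710.toDT_add (h.L.eq.symm.trans (vw_add hv))
    obtain ⟨τ₁', τ₀', rfl, -, rfl, rfl, -, -⟩ := AvgItem710.toDT_br (h.R.eq.symm.trans (vw_br hv'))
    have d1' := NodeOk.br_dvd n2.1 h.R.hF
    have mR1 := h.mR.pres Finset.subset_union_left hpn hpp d1'
    have mR0 := h.mR.sub (Finset.subset_union_right : τ₀'.items ⊆ _) hpn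
    have mL1 := h.mL.sep Finset.subset_union_left hpn hpp (NodeOk.add_dvd n1.1)
    have g1 := gL.add1M n1
    have g1' := gR.present n2 cR
    have g0' := gR.missing n2
    rcases he with rfl | rfl
    · refine ⟨nS u x.s.p, nP u' x.s.p, τ₁, τ₁', ⟨h.L.add₁, h.R.br₁, rfl, rfl, h.qL.2.1, h.qR.2.1,
        h.bL, h.bR, h.ilL, h.ilR, mL1, mR1⟩, ⟨?_, hgm, hge', sqm, sq', SP, hcL, g1, g1'⟩,
        hR1.mono Finset.subset_union_left, hL1.mono Finset.subset_union_left⟩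
      change u.A * u.B * (x.s.p * x.s.M) = u'.A * x.s.p * u'.B * x.s.M'
      linarith [cp]
    · refine ⟨nS u x.s.p, nM u' x.s.p, τ₁, τ₀', ⟨h.L.add₁, h.R.br₀, rfl, rfl, h.qL.2.1, h.qR.2.2,
        h.bL, prod_ins h.bR hu', h.ilL, h.ilR, mL1, mR0⟩, ⟨?_, hgm, hge', sqm, sq', SP, hcL, g1, g0'⟩,
        hR1.mono Finset.subset_union_right, hL1.mono Finset.subset_union_left⟩
      change u.A * u.B * (x.s.p * x.s.M) = u'.A * (u'.B * x.s.p) * x.s.M'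
      linarith [cp]
  · -- add, add
    obtain ⟨τ₁, τ₀, rfl, -, rfl, rfl⟩ := AvgItem710.toDT_add (h.L.eq.symm.trans (vw_add hv))
    obtain ⟨τ₁', τ₀', rfl, -, rfl, rfl⟩ := AvgItem710.toDT_add (h.R.eq.symm.trans (vw_add hv'))
    rcases he with rfl | rfl
    · exact ⟨nS u x.s.p, nS u' x.s.p, τ₁, τ₁', ⟨h.L.add₁, h.R.add₁, rfl, rfl, h.qL.2.1, h.qR.2.1,
        h.bL, h.bR, h.ilL, h.ilR, h.mL.sub Finset.subset_union_left hpn,
        h.mR.sub Finset.subset_union_left hpn⟩, ⟨circ, hge, hge', sq, sq', insert x.s.p SP,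
        hcI, gL.add1 n1, gR.add1 n2⟩,
        hR1.mono Finset.subset_union_left, hL1.mono Finset.subset_union_left⟩
    · exact ⟨nS u x.s.p, nS u' x.s.p, τ₀, τ₀', ⟨h.L.add₀, h.R.add₀, rfl, rfl, h.qL.2.2, h.qR.2.2,
        h.bL, h.bR, h.ilL, h.ilR, h.mL.sub Finset.subset_union_right hpn,
        h.mR.sub Finset.subset_union_right hpn⟩, ⟨circ, hge, hge', sq, sq', SP,
        hcd, gL.add0 n1, gR.add0 n2⟩,
        hR1.mono Finset.subset_union_right, hL1.mono Finset.subset_union_right⟩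
  · -- add, up
    obtain ⟨τ₁, τ₀, rfl, -, rfl, rfl⟩ := AvgItem710.toDT_add (h.L.eq.symm.trans (vw_add hv))
    obtain ⟨S', σ', rfl, rfl, rfl⟩ := side_up h.R hl' e2 hv'
    rcases he with rfl | rfl
    · exact ⟨nS u x.s.p, nS u' x.s.p, τ₁, σ', ⟨h.L.add₁, (h.R.spl hsp).1, rfl, rfl, h.qL.2.1,
        h.qR.2, h.bL, h.bR, h.ilL, IL_inter h.ilR (hil _), h.mL.sub Finset.subset_union_left hpn,
        h.mR.sub (Finset.Subset.refl _) hpn⟩, ⟨circ, hge, hge', sq, sq', insert x.s.p SP,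
        hcI, gL.add1 n1, gR.upI n2 (hspd x.s.p)⟩,
        hR1, hL1.mono Finset.subset_union_left⟩
    · exact ⟨nS u x.s.p, nS u' x.s.p, τ₀, σ', ⟨h.L.add₀, (h.R.spl hsp).2, rfl, rfl, h.qL.2.2,
        h.qR.2, h.bL, h.bR, h.ilL, IL_sdiff h.ilR (hil _), h.mL.sub Finset.subset_union_right hpn,
        h.mR.sub (Finset.Subset.refl _) hpn⟩, ⟨circ, hge, hge', sq, sq', SP,
        hcd, gL.add0 n1, (gR.up n2).monoA Finset.sdiff_subset⟩,
        hR1, hL1.mono Finset.subset_union_right⟩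
  · -- up, br
    obtain ⟨τ₁', τ₀', rfl, -, rfl, rfl, -, -⟩ := AvgItem710.toDT_br (h.R.eq.symm.trans (vw_br hv'))
    obtain ⟨S, σ, rfl, rfl, rfl⟩ := side_up h.L hl e1 hv
    have d1' := NodeOk.br_dvd n2.1 h.R.hF
    have mR1 := h.mR.pres Finset.subset_union_left hpn hpp d1'
    have mR0 := h.mR.sub (Finset.subset_union_right : τ₀'.items ⊆ _) hpn
    have mL1 := h.mL.up (Finset.Subset.refl _ : σ.items ⊆ _) hpn hpp
    have g1 := (gL.up n1).monoM (Dvd.intro_left x.s.p rfl)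
    have g1' := gR.present n2 cR
    have g0' := gR.missing n2
    rcases he with rfl | rfl
    · refine ⟨nS u x.s.p, nP u' x.s.p, σ, τ₁', ⟨h.L.up, h.R.br₁, rfl, rfl, h.qL.2, h.qR.2.1,
        h.bL, h.bR, h.ilL, h.ilR, mL1, mR1⟩, ⟨?_, hgm, hge', sqm, sq', SP, hcL, g1, g1'⟩,
        hR1.mono Finset.subset_union_left, hL1.ins (fun q hq hd => up_mem n1 hq hd)⟩
      change u.A * u.B * (x.s.p * x.s.M) = u'.A * x.s.p * u'.B * x.s.M'
      linarith [cp]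
    · refine ⟨nS u x.s.p, nM u' x.s.p, σ, τ₀', ⟨h.L.up, h.R.br₀, rfl, rfl, h.qL.2, h.qR.2.2,
        h.bL, prod_ins h.bR hu', h.ilL, h.ilR, mL1, mR0⟩, ⟨?_, hgm, hge', sqm, sq', SP, hcL, g1, g0'⟩,
        hR1.mono Finset.subset_union_right, hL1.ins (fun q hq hd => up_mem n1 hq hd)⟩
      change u.A * u.B * (x.s.p * x.s.M) = u'.A * (u'.B * x.s.p) * x.s.M'
      linarith [cp]
  · -- up, add
    obtain ⟨τ₁', τ₀', rfl, -, rfl, rfl⟩ := AvgItem710.toDT_add (h.R.eq.symm.trans (vw_add hv'))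
    obtain ⟨S, σ, rfl, rfl, rfl⟩ := side_up h.L hl e1 hv
    rcases he with rfl | rfl
    · exact ⟨nS u x.s.p, nS u' x.s.p, σ, τ₁', ⟨(h.L.spl hsp).1, h.R.add₁, rfl, rfl, h.qL.2,
        h.qR.2.1, h.bL, h.bR, IL_inter h.ilL (hil _), h.ilR, h.mL.sub (Finset.Subset.refl _) hpn,
        h.mR.sub Finset.subset_union_left hpn⟩, ⟨circ, hge, hge', sq, sq', insert x.s.p SP,
        hcI, gL.upI n1 (hspd x.s.p), gR.add1 n2⟩,
        hR1.mono Finset.subset_union_left, hL1⟩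
    · exact ⟨nS u x.s.p, nS u' x.s.p, σ, τ₀', ⟨(h.L.spl hsp).2, h.R.add₀, rfl, rfl, h.qL.2,
        h.qR.2.2, h.bL, h.bR, IL_sdiff h.ilL (hil _), h.ilR, h.mL.sub (Finset.Subset.refl _) hpn,
        h.mR.sub Finset.subset_union_right hpn⟩, ⟨circ, hge, hge', sq, sq', SP,
        hcd, (gL.up n1).monoA Finset.sdiff_subset, gR.add0 n2⟩,
        hR1.mono Finset.subset_union_right, hL1⟩
  · -- up, up
    obtain ⟨S, σ, rfl, rfl, rfl⟩ := side_up h.L hl e1 hv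
    obtain ⟨S', σ', rfl, rfl, rfl⟩ := side_up h.R hl' e2 hv'
    subst he
    exact ⟨nS u x.s.p, nS u' x.s.p, σ, σ', ⟨h.L.up, h.R.up, rfl, rfl, h.qL.2,
      h.qR.2, h.bL, h.bR, h.ilL, h.ilR, h.mL.sub (Finset.Subset.refl _) hpn,
      h.mR.sub (Finset.Subset.refl _) hpn⟩, ⟨circ, hge, hge', sq, sq', SP, hcd, gL.up n1, gR.up n2⟩,
        hR1, hL1⟩


open Crest.Agent.R4.NMW710 Crest.Agent.R4.OSWS245 in
open Classical in
/-- **the stop symbol of a state** is at most the sum over the `[F]` pairs with `D ≤ 2^{-n}` -/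
theorem eSTOP_le {ρ : ℕ → ℝ} {Al : Finset ℕ} {s : St Λ κ} {CL C1 C2 c₀ N0 : ℝ} {p₁ : ℕ}
    (hst : StopCls N0) (hsc : SC N0 CL C2 c₀ p₁) {n : ℕ} {T Ch e₃ : ℝ}
    (hni : NI D ρ Al P W U CL C1 c₀ s.p)
    {u u' : NS} {τ τ' : IT}
    (h : StI D sp s u.B u.A τ u'.B u'.A τ')
    (hI : IS D sp P W U s u u' τ τ')
    (hL : NSd D Al CL c₀ s.p u τ s.A) (hR : NSd D Al CL c₀ s.p u' τ' s.A')
    (hCL : 0 ≤ CL) (hhi : P.hi s.p ≤ (Real.log s.p)^C2)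
    (hp : p₁ ≤ s.p)
    (hn : n = ⌊100 * (s.p * ((s.p:ℝ)^(-(1/3):ℝ)/4)) / Real.log 2⌋₊)
    (hM : Squarefree s.M) (hM' : Squarefree s.M') {N N' : ℕ}
    (mL : MS N u.A τ.items s.M s.O') (mR : MS N' u'.A τ'.items s.M' s.O)
    (hs : ∑ l ∈ s.O, 1/(l:ℝ) ≤ 1) (hs' : ∑ l ∈ s.O', 1/(l:ℝ) ≤ 1)
    (hO : OU2 U s τ τ')
    {stp : St Λ κ → Prop} (hstp : stp s → stpM s)
    (hT1 : 1 ≤ T) (hT : T ≤ Real.exp (s.p * ((s.p:ℝ)^(-(1/3):ℝ)/4)/20))
    (hCh : 0 ≤ Ch) (he₃ : 0 ≤ e₃) (he : e₃ * (CL * Real.log s.p * (1/(2*c₀)))^2 ≤ 1)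
    (hhigh : ∑ e ∈ (Qi D Al τ s.A ×ˢ Qi D Al τ' s.A').filter (fun e =>
        T < Dq ρ s.M u.B u.A 1 s.M' u'.B u'.A 1 e),
        D.iF s.R (D.uA s.M u.B u.A τ s.A 1) (D.uA s.M' u'.B u'.A τ' s.A' 1) e ≤
      Ch * ((∑ j ∈ s.A, mI s.t j) * ∑ j ∈ s.A', mI s.t' j) +
      e₃ * ((∑ q ∈ Qi D Al τ s.A, u.B * ρ q) * ∑ q ∈ Qi D Al τ' s.A', u'.B * ρ q))
    {μ : TrG Λ κ → Finset Λ → ℝ} {ν : TrG Λ κ → ℝ} {B : ℝ} (hB : Ch + 1 ≤ B)
    (hμ : ∑ j ∈ s.A, mI s.t j ≤ μ s.t.g s.A) (hμ' : ∑ j ∈ s.A', mI s.t' j ≤ μ s.t'.g s.A')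
    (hν : 0 ≤ ν s.t.g) (hν' : 0 ≤ ν s.t'.g) :
    eSTOP stp μ ν B s ≤
      ∑ e ∈ (Qi D Al τ s.A ×ˢ Qi D Al τ' s.A').filter (fun e =>
        0 < D.iF s.R (D.uA s.M u.B u.A τ s.A 1) (D.uA s.M' u'.B u'.A τ' s.A' 1) e ∧
        (Dq ρ s.M u.B u.A 1 s.M' u'.B u'.A 1 e ≤ 1/2^n ∧
          FSI D.γ ρ n s.M u.B u.A 1 s.M' u'.B u'.A 1 e)),
        D.iF s.R (D.uA s.M u.B u.A τ s.A 1) (D.uA s.M' u'.B u'.A τ' s.A' 1) e := by
  have hsum0 : 0 ≤ ∑ e ∈ (Qi D Al τ s.A ×ˢ Qi D Al τ' s.A').filter (fun e =>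
        0 < D.iF s.R (D.uA s.M u.B u.A τ s.A 1) (D.uA s.M' u'.B u'.A τ' s.A' 1) e ∧
        (Dq ρ s.M u.B u.A 1 s.M' u'.B u'.A 1 e ≤ 1/2^n ∧
          FSI D.γ ρ n s.M u.B u.A 1 s.M' u'.B u'.A 1 e)),
        D.iF s.R (D.uA s.M u.B u.A τ s.A 1) (D.uA s.M' u'.B u'.A τ' s.A' 1) e :=
    Finset.sum_nonneg fun e he => (Finset.mem_filter.1 he).2.1.le
  unfold eSTOP
  split_ifs with h1 h2
  · exact hsum0
  swap
  · exact hsum0
  have hl : ¬ isL τ := fun h3 => h1 (Or.inl (by rw [hI.tL]; exact (toDT_leaf D sp _ _ τ).2 h3))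
  have hl' : ¬ isL τ' := fun h3 => h1 (Or.inr (by rw [hI.tR]; exact (toDT_leaf D sp _ _ τ').2 h3))
  have etp : tp τ = tp τ' := tp_eq hI.qL.self.1 hI.qR.self.1 hl hl' hI.n_eq
  have hsp' : s.p = tp τ := by
    unfold St.p
    rw [hI.tL, hI.tR, WalkIT579.toDT_top, WalkIT579.toDT_top, ← etp, max_self]
  have mnn : ∀ (d : DT Λ κ), d.g.Ok → ∀ j, 0 ≤ mI d j := fun d hd j => by
    unfold mI
    exact I_nonneg fun x => (hd.pb j).nonneg x
  have okL : s.t.g.Ok := by rw [h.L.eq, D.toDT_g]; exact D.toG_Ok h.L.hb h.L.hF h.L.hW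
  have okR : s.t'.g.Ok := by rw [h.R.eq, D.toDT_g]; exact D.toG_Ok h.R.hb h.R.hF h.R.hW
  have nΦ : 0 ≤ ∑ j ∈ s.A, mI s.t j := Finset.sum_nonneg fun j _ => mnn _ okL j
  have nΦ' : 0 ≤ ∑ j ∈ s.A', mI s.t' j := Finset.sum_nonneg fun j _ => mnn _ okR j
  have key := stop_state hst hsc hni hl hl' h hI hL hR hCL hhi hp hsp' hn hM hM' mL mR hs hs' hO.1 hO.2
    (hstp h2).2 hT1 hT hCh he₃ he hhigh hν hν'
  refine max_le hsum0 ?_
  have hmono : (Ch + 1) * Lh (∑ j ∈ s.A, mI s.t j) (ν s.t.g) (∑ j ∈ s.A', mI s.t' j) (ν s.t'.g) ≤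
      B * Lh (μ s.t.g s.A) (ν s.t.g) (μ s.t'.g s.A') (ν s.t'.g) := by
    refine mul_le_mul hB ?_ (Lh_nonneg nΦ hν nΦ' hν') (by linarith)
    unfold Lh
    have a1 := mul_le_mul hμ hμ' nΦ' (nΦ.trans hμ)
    have a2 := mul_le_mul_of_nonneg_right hμ hν'
    have a3 := mul_le_mul_of_nonneg_left hμ' hν
    linarith
  linarith

end Crest.Agent.R4.StopInv95
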