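import Crest.Agent.R4.SkelMain464

/-!
R4 (S0004), helper464: **T9' at a node of a context** (the item statement for the weights of the
context themselves, no flat family visible).

* `item_step3`, `item_step3_al` : 588's `item_step2` where the item sum of `D` is compared with the one
  of a flat family `Db` on the cut tree only.
* `CutN` : the cut trees of a node are cut trees of the root tree.
* `ctx_item3` : the majorant `IZ2` of an item of a context (non-leaf cut).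
-/

set_option autoImplicit false
set_option linter.unusedSectionVars false
set_option linter.unusedVariables false
open MeasureTheory Filter

namespace Crest.Agent.R4.Step588

open Crest.Agent.R4.Tour104 Crest.Agent.R4.Tour758 Crest.Agent.R4.Avg758 Crest.Agent.R4.Clos758
open Crest.Agent.R4.ClosL758 Crest.Agent.R4.ClosG758 Crest.Agent.R4.Lam368
open Crest.Agent.R4.Piece464 Crest.Agent.R4.Fam464 Crest.Agent.R4.Cnt588 Crest.Agent.R4.Item758
open Crest.Agent.R4.W363 Crest.Agent.R4.Data758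
open Crest.Agent.R4.Bld532 (NS All NodeOk Bk)

section
variable {Λ κ : Type*} [Fintype Λ] [DecidableEq κ] [DecidableEq Λ]
variable {Λ₀ κ₀ : Type*} [Fintype Λ₀] [DecidableEq κ₀] [DecidableEq Λ₀]

/-- **`item_step2`** for a family `D` which is compared with `Db` on the cut tree only -/
theorem item_step3 {D : Par Λ₀ κ₀} {Db : Par Λ κ} {P : WP} {stt : ℕ → ℕ → Option ℚ}
    {rtt : ℕ → ℕ → ℕ}
    {C : Finset ℕ} {dm b pr N y K V0 u NR q : ℕ} {R : ℕ → ℝ} {t : IT}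
    (hab : ∀ j, D.al j ≤ D.be j) (hW : D.Wts pr t) (hC : Cov Db R)
    (hom : ∀ j a, Db.om j a ≤ 1) (hw : Wld Db P stt rtt C) (hρ : 0 < P.ρ₀) (hb : 0 < b)
    (hF : Fit b pr t) (hWb : Db.Wts pr t) (hO : t.Ok N) (hy : y ≤ N) (hq : q ∈ t.items)
    (hcmp : ∀ x, Fq D (b * mpc y t q) (pr * ppc y t q) (subt y t q) (mpc y t q) q x ≤
      Fq Db (b * mpc y t q) (pr * ppc y t q) (subt y t q) (mpc y t q) q x)
    (hmass : I (Fq Db (b * mpc y t q) (pr * ppc y t q) (subt y t q) (mpc y t q) q) ≤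
      2 * I (Fq D (b * mpc y t q) (pr * ppc y t q) (subt y t q) (mpc y t q) q))
    (ho : WOk Db P stt C (subt y t q).items dm (mpc y t q * pml y * b))
    (hfine : ∀ j, (b : ℝ) * (Db.be j - Db.al j) * ((mpc y t q * pml y : ℕ) : ℝ) ≤ 1)
    (hcols : cols (subt y t q) ⊆ C)
    {rp : ℕ → ℕ} (hrp : ∀ p ∈ cols (subt y t q), ∀ q' ∈ (subt y t q).items,
      ∀ r ∈ (subt y t q).items, rtt p q' = rtt p r → rp q' = rp r)
    (hK : 0 < K) (hu : 0 < u) {v : ℕ → ℕ}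
    (hv : ∀ r ∈ (subt y t q).items, rp r = rp q → r / (pr * ppc y t q) = u * v r)
    (hV : ∀ r ∈ (subt y t q).items, rp r = rp q → v r ≤ V0)
    (hper : ∀ j, Db.it j ∈ (subt y t q).items → rp (Db.it j) = rp q →
      ∀ a, Db.om j (a + v (Db.it j)) = Db.om j a) {E0 : ℝ} (hE0 : 1 / 2 ≤ E0)
    (hR : ∀ r ∈ (subt y t q).items, rp r = rp q → 0 < R r ∧ (b : ℝ) * R r ≤ E0)
    (hNR : ((subt y t q).items.filter (fun r => rp r = rp q)).card ≤ NR)
    (homc : OmC Db P (subt y t q) dm (mpc y t q) b (pr * ppc y t q) (mpc y t q * pml y) R rp q) :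
    IZ2 (Fq D b pr t 1 q) (b * R q) K (v q) (q / pr) (b * Db.γ)
      (2 * I (Fq D b pr t 1 q) / prfc y t q +
          60 * E0 * NR * ((mpc y t q * pml y : ℕ) : ℝ) * (V0 : ℝ) ^ 2 * (2 ^ (dm + 2) + 1) * √K *
            (2 * (3 * (b * R q)) / (K * v q))) (2 * E0) := by
  classical
  set m := mpc y t q with hm_def
  set ϖ := ppc y t q with hϖ_def
  set t2 := subt y t q with ht2_def
  have hm : 0 < m := mpc_pos y t q hO
  have hϖ : 0 < ϖ := ppc_pos y t q hO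
  have hq2 : q ∈ t2.items := mem_subt y t hq
  have hF2 : Fit (b * m) (pr * ϖ) t2 := Fit_subt y t q hF
  have hW2 : Db.Wts (pr * ϖ) t2 := Wts_subt y t q (Fit_dj hF) hWb
  have hO2 : t2.Ok y := Ok_subt y t q hO hy
  have hb2 : 0 < b * m := Nat.mul_pos hb hm
  have hc2 : m ∣ b * m := Dvd.intro_left b rfl
  obtain ⟨hq0, hprq, -⟩ := hF2.item q hq2
  have hpr2 : 0 < pr * ϖ := Nat.pos_of_dvd_of_pos hprq hq0
  have hpr : 0 < pr := Nat.pos_of_mul_pos_right hpr2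
  have hB : 0 < m * pml y := Nat.mul_pos hm (pml_pos y)
  have hbR : (0 : ℝ) < b := by exact_mod_cast hb
  -- moduli
  have hvpos : ∀ r ∈ t2.items, rp r = rp q → 0 < v r := by
    intro r hr hrq
    obtain ⟨hr0, hprr, -⟩ := hF2.item r hr
    have h1 : 0 < r / (pr * ϖ) := Nat.div_pos (Nat.le_of_dvd hr0 hprr) hpr2
    rw [hv r hr hrq] at h1
    exact Nat.pos_of_ne_zero (by rintro h; rw [h] at h1; simp at h1)
  have hvq : 0 < v q := hvpos q hq2 rfl
  have hw0 : q / (pr * ϖ) = u * v q := hv q hq2 rfl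
  have hRq := hR q hq2 rfl
  have hbRq : 0 < (b : ℝ) * R q := mul_pos hbR hRq.1
  -- bad windows
  have hρ1 : 0 < min ((b : ℝ) * R q) (1/2) := lt_min hbRq (by norm_num)
  obtain ⟨bad, -, hcard, hgood⟩ := good_badE (B := m * pml y) (sn := b) (θ := b * Db.γ)
    (ρ := min (b * R q) (1/2)) hC hw ho hb2 hF2 hW2 rfl hB (NB_of_Ok t2 hO2 (dvd_refl _)) hfine
    hpr2 hcols hrp
    hq2 homc hρ hvq hK hE0 (hV q hq2 rfl) hρ1 (min_le_right _ _) hw0
    (fun r hr hrq => ⟨hvpos r hr hrq, hV r hr hrq, hv r hr hrq⟩)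
    (fun r hr hrq => ⟨(mul_pos hbR (hR r hr hrq).1).le, (hR r hr hrq).2⟩)
  -- majorant on the subtree
  obtain ⟨n, κ', hn1, hnR, hOk, hmaj, hI⟩ := maj2 (PB_Fq Db q hb2 hF2 hW2 hc2) hu hvq hK hbRq hw0
    (per_const hw hb2 hF2 hW2 hc2 hcols hrp hq2 hu hv hper)
    (Fq_le_arc hC hom hb2 hF2 hW2 rfl hq2) bad hgood
  have hdiv : ϖ * (q / (pr * ϖ)) = q / pr := by
    obtain ⟨k, hk⟩ := hprq
    rw [hk, Nat.mul_div_cancel_left k hpr2, mul_assoc pr ϖ k, Nat.mul_div_cancel_left _ hpr]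
  have hRH : (b : ℝ) * R q ≤ 2 * E0 * min ((b : ℝ) * R q) (1/2) := by
    rcases le_or_gt ((b : ℝ) * R q) (1/2) with h | h
    · rw [min_eq_left h]
      exact le_mul_of_one_le_left hbRq.le (by linarith)
    · rw [min_eq_right h.le]
      have := hRq.2
      linarith
  refine ⟨min ((b : ℝ) * R q) (1/2), n, wl (min ((b : ℝ) * R q) (1/2)) K,
    fun i => wl (min ((b : ℝ) * R q) (1/2)) K (i + 1), κ', hρ1, min_le_left _ _, hRH, hn1, hnR,
    ?_, ?_, ?_⟩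
  · have := hOk.push hϖ
    rwa [hdiv] at this
  · intro x
    have h1 := Fq_cut (y := y) D hb hF hW hq x
    refine h1.trans ((hcmp _).trans ((hmaj _).trans (le_of_eq ?_)))
    rw [← WF_push, hdiv]
  · have hprf0 : 0 < prfc y t q := prfc_pos y t q hO
    have e2 : I (Fq D (b * m) (pr * ϖ) t2 m q) = I (Fq D b pr t 1 q) / prfc y t q := by
      rw [eq_div_iff hprf0.ne']
      exact I_Fq_cut D hab hb hF hW hO hq
    rw [← hdiv, I_WF_push hϖ hOk.w0 hOk.vw hOk.wt]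
    refine hI.trans ?_
    have hx0 : 0 ≤ 2 * (3 * (b * R q)) / (K * v q) := by
      have := hbRq.le
      positivity
    have hcard' : (bad.card : ℝ) ≤ 60 * E0 * NR * ((m * pml y : ℕ) : ℝ) * (V0 : ℝ) ^ 2 *
        (2 ^ (dm + 2) + 1) * √K := by
      refine hcard.trans ?_
      have hNR' : ((t2.items.filter (fun r => rp r = rp q)).card : ℝ) ≤ NR := by exact_mod_cast hNR
      have h3 : (60 * E0 : ℝ) * ((t2.items.filter (fun r => rp r = rp q)).card : ℝ) ≤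
          60 * E0 * NR := mul_le_mul_of_nonneg_left hNR' (by linarith)
      have h4 : (0 : ℝ) ≤ ((m * pml y : ℕ) : ℝ) := Nat.cast_nonneg _
      have h5 := mul_le_mul_of_nonneg_right h3 h4
      have h6 := mul_le_mul_of_nonneg_right h5 (sq_nonneg (V0 : ℝ))
      have h7 := mul_le_mul_of_nonneg_right h6 (show (0 : ℝ) ≤ 2 ^ (dm + 2) + 1 by positivity)
      exact mul_le_mul_of_nonneg_right h7 (Real.sqrt_nonneg _)
    have h8 := mul_le_mul_of_nonneg_right hcard' hx0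
    have h9 : 2 * I (Fq D b pr t 1 q) / prfc y t q = 2 * (I (Fq D b pr t 1 q) / prfc y t q) := by
      ring
    rw [h9, ← e2]
    linarith

/-- **`item_step3` with hypotheses for the alive mates only** -/
theorem item_step3_al {D : Par Λ₀ κ₀} {Db : Par Λ κ} {Al : Finset ℕ}
    (hdead : ∀ j, Db.it j ∉ Al → ∀ a, Db.om j a = 0)
    {P : WP} {stt : ℕ → ℕ → Option ℚ} {rtt : ℕ → ℕ → ℕ}
    {C : Finset ℕ} {dm b pr N y K V0 u NR q : ℕ} {R : ℕ → ℝ} {t : IT}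
    (hab : ∀ j, D.al j ≤ D.be j) (hW : D.Wts pr t) (hC : Cov Db R)
    (hom : ∀ j a, Db.om j a ≤ 1) (hw : Wld Db P stt rtt C) (hρ : 0 < P.ρ₀) (hb : 0 < b)
    (hF : Fit b pr t) (hWb : Db.Wts pr t) (hO : t.Ok N) (hy : y ≤ N) (hq : q ∈ t.items)
    (hqA : q ∈ Al)
    (hcmp : ∀ x, Fq D (b * mpc y t q) (pr * ppc y t q) (subt y t q) (mpc y t q) q x ≤
      Fq Db (b * mpc y t q) (pr * ppc y t q) (subt y t q) (mpc y t q) q x)
    (hmass : I (Fq Db (b * mpc y t q) (pr * ppc y t q) (subt y t q) (mpc y t q) q) ≤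
      2 * I (Fq D (b * mpc y t q) (pr * ppc y t q) (subt y t q) (mpc y t q) q))
    (ho : WOk Db P stt C (subt y t q).items dm (mpc y t q * pml y * b))
    (hfine : ∀ j, (b : ℝ) * (Db.be j - Db.al j) * ((mpc y t q * pml y : ℕ) : ℝ) ≤ 1)
    (hcols : cols (subt y t q) ⊆ C)
    {rp : ℕ → ℕ} (hrp : ∀ p ∈ cols (subt y t q), ∀ q' ∈ (subt y t q).items,
      ∀ r ∈ (subt y t q).items, rtt p q' = rtt p r → rp q' = rp r)
    (hK : 0 < K) (hu : 0 < u) {v : ℕ → ℕ}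
    (hv : ∀ r ∈ (subt y t q).items, r ∈ Al → rp r = rp q → r / (pr * ppc y t q) = u * v r)
    (hV : ∀ r ∈ (subt y t q).items, r ∈ Al → rp r = rp q → v r ≤ V0)
    (hper : ∀ j, Db.it j ∈ (subt y t q).items → Db.it j ∈ Al → rp (Db.it j) = rp q →
      ∀ a, Db.om j (a + v (Db.it j)) = Db.om j a) {E0 : ℝ} (hE0 : 1 / 2 ≤ E0)
    (hR : ∀ r ∈ (subt y t q).items, r ∈ Al → rp r = rp q → 0 < R r ∧ (b : ℝ) * R r ≤ E0)
    (hNR : ((subt y t q).items.filter (fun r => r ∈ Al ∧ rp r = rp q)).card ≤ NR)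
    (homc : OmCA Db P (subt y t q) dm (mpc y t q) b (pr * ppc y t q) (mpc y t q * pml y) R rp q
      Al) :
    IZ2 (Fq D b pr t 1 q) (b * R q) K (v q) (q / pr) (b * Db.γ)
      (2 * I (Fq D b pr t 1 q) / prfc y t q +
          60 * E0 * NR * ((mpc y t q * pml y : ℕ) : ℝ) * (V0 : ℝ) ^ 2 * (2 ^ (dm + 2) + 1) * √K *
            (2 * (3 * (b * R q)) / (K * v q))) (2 * E0) := by
  classical
  set rp' : ℕ → ℕ := fun r => if r ∈ Al then rp r + 1 else 0 with hrp'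
  have key : ∀ r, rp' r = rp' q → r ∈ Al ∧ rp r = rp q := by
    intro r h
    simp only [hrp', if_pos hqA] at h
    by_cases hr : r ∈ Al
    · rw [if_pos hr] at h
      exact ⟨hr, Nat.add_right_cancel h⟩
    · rw [if_neg hr] at h
      omega
  have hm : 0 < mpc y t q := mpc_pos y t q hO
  have hb2 : 0 < b * mpc y t q := Nat.mul_pos hb hm
  have hF2 : Fit (b * mpc y t q) (pr * ppc y t q) (subt y t q) := Fit_subt y t q hF
  have hW2 : Db.Wts (pr * ppc y t q) (subt y t q) := Wts_subt y t q (Fit_dj hF) hWb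
  have hres := Fq_res Db hdead hb2 hF2 hW2 (mpc y t q) q
  rw [hres] at hcmp hmass
  refine item_step3 (D := D) (Db := Db.res Al) (P := P) (stt := stt) (rtt := rttA Al rtt) (C := C)
    (dm := dm)
    (N := N) (u := u) (NR := NR) (rp := rp') hab hW hC.res (fun j a => hom j.1 a)
    hw.res hρ hb hF (fun j hj => hWb j.1 hj) hO hy hq hcmp hmass ho.res (fun j => hfine j.1) hcols
    ?_ hK hu
    (fun r hr e => hv r hr (key r e).1 (key r e).2) (fun r hr e => hV r hr (key r e).1 (key r e).2)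
    (fun j hj e => hper j.1 hj j.2 (key _ e).2) hE0
    (fun r hr e => hR r hr (key r e).1 (key r e).2) ?_ ?_
  · intro p hp q' hq' r hr e
    unfold rttA at e
    simp only [hrp']
    by_cases h1 : q' ∈ Al
    · by_cases h2 : r ∈ Al
      · rw [if_pos h1, if_pos h2] at e
        rw [if_pos h1, if_pos h2, hrp p hp q' hq' r hr (Nat.add_right_cancel e)]
      · rw [if_pos h1, if_neg h2] at e
        omega
    · by_cases h2 : r ∈ Al
      · rw [if_neg h1, if_pos h2] at e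
        omega
      · rw [if_neg h1, if_neg h2]
  · refine le_trans (Finset.card_le_card fun r hr => ?_) hNR
    obtain ⟨h1, h2⟩ := Finset.mem_filter.1 hr
    exact Finset.mem_filter.2 ⟨h1, key r h2⟩
  · intro x x' hfl j k M hj hj2 ek a1 a2 z hz
    refine homc x x' (fun r hr hrA hre e he => ?_) j.1 k.1 M hj j.2 (key _ hj2).2 ek a1 a2 z hz
    refine hfl r hr ?_ e he
    simp only [hrp', if_pos hrA, if_pos hqA, hre]

end

end Crest.Agent.R4.Step588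

namespace Crest.Agent.R4.Skel189

open Crest.Agent.R4.Cnt588 Crest.Agent.R4.Max709 Crest.Agent.R4.Tour104 Crest.Agent.R4.Item758
open Crest.Agent.R4.Bld532 Crest.Agent.R4.PrunePar33 Crest.Agent.R4.PruneSep532
open Crest.Agent.R4.Data758 Crest.Agent.R4.OmData532 Crest.Agent.R4.LfDat734
open Crest.Agent.R4.W363 Crest.Agent.R4.WPex189 Crest.Agent.R4.Asm532 Crest.Agent.R4.Walk560
open Crest.Agent.R4.Soft104 Crest.Agent.R4.Frame758 Crest.Agent.R4.Piece464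
open Crest.Agent.R4.Step588 Crest.Agent.R4.Chi464
open Crest.Agent.R4.Om532 Crest.Agent.R4.OmSt532 Crest.Agent.R4.Ovl560 Crest.Agent.R4.LF363

/-- **means and tails of the weights of a context**: `c₀ = 1/2` [`NI927.Mean X (1/2)`], half of the mean
for any other classes, tails of the classes -/
theorem ctx_cond (N : Num) : ∃ p₁ : ℕ, ∀ p0 ≥ p₁, ∀ (γ : ℝ) (P₀ : ℕ), 2 ≤ P₀ →
    ∀ X : Ctx N γ p0 P₀, ∀ q ∈ X.S', ∀ z : ℝ,
      1 / 2 * (((q / pp X.c.t q).totient : ℝ) / ((q / pp X.c.t q : ℕ) : ℝ)) ≤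
        mnw (q / pp X.c.t q) (X.c.om q z) ∧
      (∀ T' : ℕ → ℕ → Finset ℚ, mnw (q / pp X.c.t q) (omT X.c.t X.S' T' X.th X.ph X.lab q) ≤
        2 * mnw (q / pp X.c.t q) (X.c.om q z)) ∧
      ∑ l ∈ (q / pp X.c.t q).primeFactors.filter (· ∈ rt X.c.t q), ((X.Tz z q l).card : ℝ) / l ≤
        1 / 2 := by
  obtain ⟨p1, h1⟩ := omT_cond4 N.B N.C1 N.c2 N.hC1 N.hc2 N.hB
  obtain ⟨p4, h4⟩ := ctx_card N
  refine ⟨p1 + p4, fun p0 hp0 γ P₀ hP X q hq z => ?_⟩
  have key := h1 p0 (by omega) X.ψ X.S X.sq P₀ hP X.sys (top X.S) X.S' X.prn.sub X.prn.pr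
    (X.Tz z) X.th X.ph X.lab
  have e : bld (Bld532.par N.B N.C1 N.c2 p0) (w X.ψ) (top X.S) 1 X.S = X.c.t := X.ht.symm
  rw [e] at key
  obtain ⟨-, -, -, k4, k5, k6⟩ := key
    (fun q _ b _ hb => by
      unfold Ctx.Tz Chi464.Tz
      rw [if_neg hb]
      exact Tc_emp X hb)
    (fun q hq b hb => h4 p0 (by omega) γ P₀ hP X z q hq b hb)
  have e2 : omT X.c.t X.S' (X.Tz z) X.th X.ph X.lab q = X.c.om q z := by
    rw [X.om_eq]; rfl
  rw [← e2]
  exact ⟨k4 q hq, k5 q hq, k6 q hq⟩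

end Crest.Agent.R4.Skel189

namespace Crest.Agent.R4.Step588

open Crest.Agent.R4.Tour104 Crest.Agent.R4.Tour758 Crest.Agent.R4.Avg758 Crest.Agent.R4.Clos758
open Crest.Agent.R4.ClosL758 Crest.Agent.R4.ClosG758 Crest.Agent.R4.Lam368
open Crest.Agent.R4.Piece464 Crest.Agent.R4.Fam464 Crest.Agent.R4.Cnt588 Crest.Agent.R4.Item758
open Crest.Agent.R4.W363 Crest.Agent.R4.Data758
open Crest.Agent.R4.Bld532 (NS All NodeOk Bk)
open Crest.Agent.R4.Chi464 Crest.Agent.R4.Om532 Crest.Agent.R4.LF363 Crest.Agent.R4.Ovl560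

/-! ### cut trees of a node -/

/-- the cut trees of the node `(u, τ)` are cut trees of `T` -/
def CutN (T : IT) (u : NS) (τ : IT) : Prop :=
  ∀ y ≤ u.n, ∀ q ∈ τ.items, subt y T q = subt y τ q ∧ ppc y T q = u.A * ppc y τ q ∧
    mpc y T q = u.B * mpc y τ q

theorem All_CutN (T : IT) : ∀ (t : IT) (u : NS), t.Ok u.n → CutN T u t → All (CutN T) u t := by
  intro t
  induction t with
  | leaf S => intro u hO h; exact h
  | br p t₁ t₀ ih₁ ih₀ =>
    intro u hO h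
    obtain ⟨hp, hpn, hd, h1, h0⟩ := hO
    refine ⟨h, ih₁ _ h1 fun y hy q hq => ?_, ih₀ _ h0 fun y hy q hq => ?_⟩
    · have hy' : ¬ p < y := not_lt.2 hy
      have hq0 : q ∉ t₀.items := Finset.disjoint_left.1 hd hq
      obtain ⟨e1, e2, e3⟩ := h y (hy.trans hpn.le) q (Finset.mem_union_left _ hq)
      rw [subt_br1 hy' hq0] at e1
      rw [ppc_br1 hy' hq0] at e2
      rw [mpc_br1 hy' hq0] at e3
      exact ⟨e1, by rw [e2]; ring, e3⟩
    · have hy' : ¬ p < y := not_lt.2 hy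
      obtain ⟨e1, e2, e3⟩ := h y (hy.trans hpn.le) q (Finset.mem_union_right _ hq)
      rw [subt_br0 hy' hq] at e1
      rw [ppc_br0 hy' hq] at e2
      rw [mpc_br0 hy' hq] at e3
      exact ⟨e1, e2, by rw [e3]; ring⟩
  | add p t₁ t₀ ih₁ ih₀ =>
    intro u hO h
    obtain ⟨hp, hpn, hd, h1, h0⟩ := hO
    refine ⟨h, ih₁ ⟨p, u.c, u.A, u.B⟩ h1 fun y hy q hq => ?_,
      ih₀ ⟨p, u.c, u.A, u.B⟩ h0 fun y hy q hq => ?_⟩
    · have hy' : ¬ p < y := not_lt.2 hy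
      have hq0 : q ∉ t₀.items := Finset.disjoint_left.1 hd hq
      obtain ⟨e1, e2, e3⟩ := h y (hy.trans hpn.le) q (Finset.mem_union_left _ hq)
      rw [subt_add1 hy' hq0] at e1
      rw [ppc_add1 hy' hq0] at e2
      rw [mpc_add1 hy' hq0] at e3
      exact ⟨e1, e2, e3⟩
    · have hy' : ¬ p < y := not_lt.2 hy
      obtain ⟨e1, e2, e3⟩ := h y (hy.trans hpn.le) q (Finset.mem_union_right _ hq)
      rw [subt_add0 hy' hq] at e1
      rw [ppc_add0 hy' hq] at e2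
      rw [mpc_add0 hy' hq] at e3
      exact ⟨e1, e2, e3⟩
  | up p Sp t ih =>
    intro u hO h
    obtain ⟨hp, hpn, -, h1⟩ := hO
    refine ⟨h, ih ⟨p, u.c, u.A, u.B⟩ h1 fun y hy q hq => ?_⟩
    have hy' : ¬ p < y := not_lt.2 hy
    obtain ⟨e1, e2, e3⟩ := h y (hy.trans hpn.le) q hq
    rw [subt_up hy'] at e1
    rw [ppc_up hy'] at e2
    rw [mpc_up hy'] at e3
    exact ⟨e1, e2, e3⟩

section ctx
open Crest.Agent.R4.Skel189
open Crest.Agent.R4.Soft104 (w)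

variable {N : Skel189.Num} {γ : ℝ} {p0 P₀ : ℕ} (X : Ctx N γ p0 P₀)

theorem ctx_CutN : All (CutN X.c.t) ⟨top X.S, 1, 1, 1⟩ X.c.t :=
  All_CutN X.c.t X.c.t _ X.tOk fun y _ q _ => ⟨rfl, (one_mul _).symm, (one_mul _).symm⟩

/-- **the flat weights of a context** at the cut level `y` -/
noncomputable abbrev flC (Y : Finset (ℕ × ℕ × Finset ℕ)) (y : ℕ) : X.c.Lam → ℤ → ℝ :=
  flX (X.c.D.par Y) X.c.rr X.S' X.Tc X.c.t PPb X.th X.ph X.lab y

variable {X}

lemma mem_it {u : NS} {τ : IT} (h : NDt X.par (w X.ψ) X.c.t u τ) {q : ℕ} (hq : q ∈ τ.items) :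
    q ∈ X.c.t.items := h.self.sub hq

lemma LWu (q : ℕ) : LW (q / pp X.c.t q).primeFactors (uw (X.th q) (X.ph q) (X.lab q)) :=
  LW_uw _ _ _ _

lemma flC_zero (Y : Finset (ℕ × ℕ × Finset ℕ)) (y : ℕ) (j : X.c.Lam) (hj : j.1.1 ∉ X.S') (a : ℤ) :
    flC X Y y j a = 0 := by
  unfold flC flX flw
  exact if_neg hj

lemma flC_le_one (Y : Finset (ℕ × ℕ × Finset ℕ)) (y : ℕ) (j : X.c.Lam) (a : ℤ) :
    flC X Y y j a ≤ 1 :=
  flw_le_one (LWu _) (fun l _ a => uw_le_one _ _ _ _ _) a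

lemma flC_Wt (Y : Finset (ℕ × ℕ × Finset ℕ)) (y : ℕ) (j : X.c.Lam) :
    Wt (j.1.1 / pp X.c.t j.1.1) (flC X Y y j) := flw_Wt_self (LWu _)

/-- the primes `≥ y` of the leaf part are retained, for the items of a non-leaf cut -/
lemma cut_ge {y q : ℕ} (hyt : y ≤ top X.S) (hl : ¬ WalkIT579.isL (subt y X.c.t q)) {r : ℕ}
    (hr : r ∈ (subt y X.c.t q).items) {l : ℕ} (hlp : l.Prime) (hyl : y ≤ l)
    (hd : l ∣ r / pp X.c.t r) : l ∈ rt X.c.t r := by
  obtain ⟨m, c', hm, h2⟩ := (ctx_NDt X).self.subt hyt q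
  have hty := tp_subt_lt y q X.c.t hl
  have hlm : m ≤ l := by
    rcases WalkIT579.prime_ge h2.self.node hl hlp (hty.le.trans hyl) with h6 | h6
    · omega
    · exact h6
  refine h2.self.ge r hr l hlp hlm (hd.trans ?_)
  have e1 := h2.self.pp r hr
  have hd' := h2.dvd r (h2.self.sub hr)
  have hr0 : 0 < r := Nat.pos_of_ne_zero (h2.sq r (h2.self.sub hr)).ne_zero
  rw [e1] at hd' ⊢
  set A := (⟨top X.S, 1, 1, 1⟩ : NS).A * ppc y X.c.t q with hA
  obtain ⟨k, hk⟩ := hd'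
  have hA0 : 0 < A := Nat.pos_of_ne_zero (by rintro h0; rw [h0] at hk; simp at hk; omega)
  have hp0 : 0 < pp (subt y X.c.t q) r :=
    Nat.pos_of_ne_zero (by rintro h0; rw [h0] at hk; simp at hk; omega)
  have e2 : r / (A * pp (subt y X.c.t q) r) = k :=
    Nat.div_eq_of_eq_mul_right (Nat.mul_pos hA0 hp0) hk
  have e3 : r / A = pp (subt y X.c.t q) r * k :=
    Nat.div_eq_of_eq_mul_right hA0 (hk.trans (mul_assoc _ _ _))
  show r / (A * pp (subt y X.c.t q) r) ∣ r / A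
  rw [e2, e3]
  exact Dvd.intro_left _ rfl

/-- **the item sums of the cut tree are at most the flat ones** (`x` on the circle of the cut) -/
theorem ctx_cmp (Y : Finset (ℕ × ℕ × Finset ℕ)) {y q : ℕ} (hyt : y ≤ top X.S)
    (hq : q ∈ X.c.t.items) (hl : ¬ WalkIT579.isL (subt y X.c.t q)) {c : ℕ}
    (hc : c ∣ mpc y X.c.t q) (x : ℝ) :
    Fq (X.c.D.par Y) (mpc y X.c.t q) (ppc y X.c.t q) (subt y X.c.t q) c q x ≤
      Fq ((X.c.D.par Y).flat (flC X Y y)) (mpc y X.c.t q) (ppc y X.c.t q) (subt y X.c.t q) c q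
        x := by
  have hN := (ctx_NDt X).self
  have hX := ctx_XD X Y
  have hW1 := Wts_subt y X.c.t q (Fit_dj X.root.fit) (X.ok.wts Y)
  have hWf : ((X.c.D.par Y).flat (flC X Y y)).Wts 1 X.c.t := by
    intro j _
    rw [one_mul]
    exact flC_Wt Y y j
  have hW2 := Wts_subt y X.c.t q (Fit_dj X.root.fit) hWf
  rw [one_mul] at hW1 hW2
  have hC : ∀ p ∈ cols (subt y X.c.t q), p ≤ top X.S := fun p hp =>
    ((cols_lt _ (Ok_subt y X.c.t q X.tOk hyt) p hp).2.le).trans hyt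
  have hw := data_Wld X.ok X.lg Y hC
  refine Fq_le_flat (PP := PPb) X.root (hX.rel (subt_items y X.c.t q) fun r hr l hlp hyl hd =>
    cut_ge hyt hl hr hlp hyl hd) hq hW1 hW2 ?_ ?_ hc x
  · intro r hr r' hr' e b hyb hb
    refine (hN.uq_iff X.tOk hyt hr hr' ?_ (hyb.trans (PPb_le b))).1 hb
    show rgh y (r / (1 * ppc y X.c.t q)) = rgh y (r' / (1 * ppc y X.c.t q))
    rw [one_mul]; exact e
  · intro p hp j k hj hk e
    have h3 := ((hw.rho p hp k j).1 e).2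
    have h4 := hN.rgh_eq X.tOk hyt hp hk hj h3
    have h5 : rgh y ((X.c.D.par Y).it k / (1 * ppc y X.c.t q)) =
      rgh y ((X.c.D.par Y).it j / (1 * ppc y X.c.t q)) := h4
    rwa [one_mul] at h5

end ctx

/-- **half of the mass**: the flat weights of an item of a non-leaf cut -/
theorem ctx_mass2 (N : Skel189.Num) : ∃ p₁ : ℕ, ∀ p0 ≥ p₁, ∀ (γ : ℝ) (P₀ : ℕ), 2 ≤ P₀ →
    ∀ (X : Skel189.Ctx N γ p0 P₀) (Y : Finset (ℕ × ℕ × Finset ℕ)) (y : ℕ), y ≤ Skel189.top X.S →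
    ∀ q ∈ X.S', ¬ WalkIT579.isL (subt y X.c.t q) →
      ∀ j : X.c.Lam, j.1.1 = q → mnw (q / pp X.c.t q) (flC X Y y j) ≤
        2 * mnw (q / pp X.c.t q) (X.c.D.om j) := by
  classical
  obtain ⟨p1, h1⟩ := Skel189.ctx_cond N
  refine ⟨p1, fun p0 hp0 γ P₀ hP X Y y hyt q hq hl j hj => ?_⟩
  subst hj
  obtain ⟨-, -, h3⟩ := h1 p0 hp0 γ P₀ hP X _ hq (X.c.bp j.1.1 j.1.2)
  have hqt : j.1.1 ∈ X.c.t.items := by rw [X.items]; exact X.prn.sub hq
  have hd := X.ok.dvd j.1.1 (Cf.mem_S j)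
  have hq0 := X.ok.pos _ (Cf.mem_S j)
  have hw : 0 < j.1.1 / pp X.c.t j.1.1 :=
    Nat.div_pos (Nat.le_of_dvd hq0 hd) (Nat.pos_of_dvd_of_pos hd hq0)
  have key := flw_mean_le (good := j.1.1 ∈ X.S') (ret := rt X.c.t j.1.1)
    (T := X.Tz (X.c.bp j.1.1 j.1.2) j.1.1)
    (u := uw (X.th j.1.1) (X.ph j.1.1) (X.lab j.1.1)) (w := j.1.1 / pp X.c.t j.1.1)
    (sel := sel X.c.t y (fun b => PPb b < y) j.1.1) hw (LWu _)
    (fun l hl _ => (mn_uw _ _ _ (Nat.prime_of_mem_primeFactors hl)).ge) ?_ (lam := 1) zero_le_one ?_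
  · rw [one_mul] at key
    have e : X.c.D.om j = omw (j.1.1 ∈ X.S') (rt X.c.t j.1.1)
        (X.Tz (X.c.bp j.1.1 j.1.2) j.1.1) (uw (X.th j.1.1) (X.ph j.1.1) (X.lab j.1.1))
        (j.1.1 / pp X.c.t j.1.1) := X.om_eq _ _
    rw [e]
    exact key
  · refine le_trans (Finset.sum_le_sum_of_subset_of_nonneg ?_ fun _ _ _ => by positivity) h3
    intro l hl'
    simp only [Finset.mem_filter] at hl' ⊢
    exact ⟨hl'.1, hl'.2.2⟩
  · refine le_of_eq (Eq.symm (Finset.prod_eq_one fun l hl' => ?_))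
    simp only [Finset.mem_filter] at hl'
    obtain ⟨g1, g2, g3⟩ := hl'
    exfalso
    refine g3 (cut_ge hyt hl (mem_subt y X.c.t hqt) (Nat.prime_of_mem_primeFactors g1) ?_
      (Nat.dvd_of_mem_primeFactors g1))
    by_contra hlt
    exact g2 (Or.inl (not_le.1 hlt))

section ctx3
open Crest.Agent.R4.Skel189
open Crest.Agent.R4.Soft104 (w)

/-- **THE MAJORANT OF AN ITEM OF A CONTEXT** (weights of the context, non-leaf cut) -/
theorem ctx_item3 (N : Skel189.Num) : ∃ p₁ : ℕ, ∀ p0 ≥ p₁, ∀ (γ : ℝ) (P₀ : ℕ), 2 ≤ P₀ →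
    ∀ (X : Ctx N γ p0 P₀) (u : NS) (τ : IT), NDt X.par (w X.ψ) X.c.t u τ → CutN X.c.t u τ →
    ∀ (Y : Finset (ℕ × ℕ × Finset ℕ)) (y dm K V0 : ℕ), y ≤ u.n → y ≤ top X.S →
    (∀ p, p < y → X.c.wp.dep p ≤ dm) → X.c.d1 * Kc X.S ≤ 1 →
    ∀ q ∈ τ.items, q ∈ X.S' → ¬ WalkIT579.isL (subt y τ q) → 0 < K →
    (∀ r ∈ (subt y τ q).items, r ∈ X.S' → mate u τ y q r →
      vN X.c.t y (fun b => PPb b < y) (u.A * ppc y τ q) r ≤ V0) →
    ∀ E0 : ℝ, 1 / 2 ≤ E0 →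
    (∀ r ∈ (subt y τ q).items, r ∈ X.S' → mate u τ y q r → (u.B : ℝ) * X.c.rr r ≤ E0) →
    IZ2 (Fq (X.c.D.par Y) u.B u.A τ 1 q) (u.B * X.c.rr q) K
      (vN X.c.t y (fun b => PPb b < y) (u.A * ppc y τ q) q) (q / u.A) (u.B * X.c.γ)
      (2 * I (Fq (X.c.D.par Y) u.B u.A τ 1 q) / prfc y τ q +
          60 * E0 * (2 ^ y : ℕ) * ((mpc y τ q * pml y : ℕ) : ℝ) * (V0 : ℝ) ^ 2 *
            (2 ^ (dm + 2) + 1) * √K *
            (2 * (3 * (u.B * X.c.rr q)) /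
              (K * vN X.c.t y (fun b => PPb b < y) (u.A * ppc y τ q) q))) (2 * E0) := by
  classical
  obtain ⟨p1, hp1⟩ := ctx_mass2 N
  refine ⟨p1, fun p0 hp0 γ P₀ hP X u τ h hcut Y y dm K V0 hy hyt hdep hd1 q hq hqS hl hK hV E0 hE0
    hR => ?_⟩
  set E : ℕ → Prop := fun b => PPb b < y with hE
  set f := flC X Y y with hf
  have hqT : q ∈ X.c.t.items := h.self.sub hq
  obtain ⟨c1, c2, c3⟩ := hcut y hy q hq
  obtain ⟨h1, h2, h3, h4⟩ := ctx_step h Y hy hyt hdep hd1 hq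
  have hab : ∀ j, (X.c.D.par Y).al j ≤ (X.c.D.par Y).be j := fun j =>
    X.ok.bpm _ (Cf.mem_S j) (Cf.r_pos j) (Nat.le_succ _)
  have hrr : ∀ r, 0 < X.c.rr r := fun r => by
    unfold Cf.rr; split_ifs with hr
    · exact hr
    · exact one_pos
  have hWb : ((X.c.D.par Y).flat f).Wts u.A τ := h.wts (D := (X.c.D.par Y).flat f) fun j _ =>
    flC_Wt Y y j
  have hW : (X.c.D.par Y).Wts u.A τ := h.wts (D := X.c.D.par Y) fun j _ =>
    X.ok.wt j.1.1 (Cf.mem_S j) _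
  have hl' : ¬ WalkIT579.isL (subt y X.c.t q) := by rw [c1]; exact hl
  have hmc : 0 < mpc y τ q := mpc_pos y τ q h.self.ok
  have hb2 : 0 < u.B * mpc y τ q := Nat.mul_pos h.B_pos hmc
  have hF2 : Fit (u.B * mpc y τ q) (u.A * ppc y τ q) (subt y τ q) := Fit_subt y τ q h.fit
  have hW2 : (X.c.D.par Y).Wts (u.A * ppc y τ q) (subt y τ q) := Wts_subt y τ q (Fit_dj h.fit) hW
  have hWb2 : ((X.c.D.par Y).flat f).Wts (u.A * ppc y τ q) (subt y τ q) :=
    Wts_subt y τ q (Fit_dj h.fit) hWb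
  have hq2 : q ∈ (subt y τ q).items := mem_subt y τ hq
  refine item_step3_al (D := X.c.D.par Y) (Db := (X.c.D.par Y).flat f) (Al := X.S')
    (fun j hj a => flC_zero Y y j hj a) (P := X.c.wp) (stt := X.c.st)
    (rtt := ret X.c.t) (C := cols (subt y τ q)) (dm := dm) (N := u.n)
    (u := uN X.c.t y E (u.A * ppc y τ q) q) (NR := 2 ^ y)
    (rp := fun r => rgh y (r / (u.A * ppc y τ q)))
    (v := vN X.c.t y E (u.A * ppc y τ q)) hab hW (ctx_Cov X Y).flat (flC_le_one Y y) h1.flat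
    X.fine.ρ0 h.B_pos
    h.fit hWb h.self.ok hy hq hqS ?_ ?_ h2.flat h3 (Finset.Subset.refl _) h4 hK uN_pos ?_
    (fun r hr hrS e => hV r hr hrS e) ?_ hE0
    (fun r hr hrS e => ⟨hrr r, hR r hr hrS e⟩) ?_ ?_
  · intro x
    have key := ctx_cmp (X := X) Y hyt hqT hl' (c := mpc y τ q) (by rw [c3]; exact Dvd.intro_left _ rfl)
      x
    rw [c1, c2, c3] at key
    exact key
  · rw [I_Fq ((X.c.D.par Y).flat f) hab (sn := u.B) hb2 hF2 hWb2 rfl hq2,
      I_Fq (X.c.D.par Y) hab (sn := u.B) hb2 hF2 hW2 rfl hq2, Finset.mul_sum]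
    refine Finset.sum_le_sum fun j hj => ?_
    have hjq : j.1.1 = q := (Finset.mem_filter.1 hj).2
    have k1 := hp1 p0 hp0 γ P₀ hP X Y y hyt q hqS hl' j hjq
    have e1 : u.A * ppc y τ q * pp (subt y τ q) q = pp X.c.t q := by
      rw [pp_cut y X.c.t q, c1, c2]
    rw [e1]
    have hB0 : (0 : ℝ) ≤ u.B := Nat.cast_nonneg _
    have hpr0 : 0 ≤ prf (subt y τ q) q := (Bld532.prf_pos _ _ (Ok_subt y τ q h.self.ok hy) q).1.le
    have hlen : 0 ≤ (X.c.D.par Y).be j - (X.c.D.par Y).al j := sub_nonneg.2 (hab j)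
    have k2 : (0 : ℝ) ≤ (u.B : ℝ) * ((X.c.D.par Y).be j - (X.c.D.par Y).al j) *
        prf (subt y τ q) q := by positivity
    have k3 := mul_le_mul_of_nonneg_left k1 k2
    refine k3.trans (le_of_eq ?_)
    show _ = 2 * ((u.B : ℝ) * ((X.c.D.par Y).be j - (X.c.D.par Y).al j) *
        prf (subt y τ q) q * mnw (q / pp X.c.t q) (X.c.D.om j))
    ring
  · intro r hr _ e
    exact h.uv X.tOk hy E hq hr e
  · intro j hj hjS e a
    have hj' : j.1.1 ∈ (subt y τ q).items := hj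
    have hjT : j.1.1 ∈ X.c.t.items := h.self.sub (subt_items y τ q hj')
    obtain ⟨m, c', -, h5⟩ := h.subt hy q
    have e1 := h5.self.pp _ hj'
    have h6 : (u.A * ppc y τ q) ∣ pp X.c.t j.1.1 := by rw [e1]; exact Dvd.intro _ rfl
    have h7 : j.1.1 / pp X.c.t j.1.1 ∣ j.1.1 / (u.A * ppc y τ q) := by
      have hd := h.dvd _ hjT
      obtain ⟨k, hk⟩ := h6
      obtain ⟨k', hk'⟩ := hd
      have hj0 : 0 < j.1.1 := X.ok.pos _ (Cf.mem_S j)
      have hpp0 : 0 < pp X.c.t j.1.1 := Nat.pos_of_dvd_of_pos (Dvd.intro k' hk'.symm) hj0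
      have hA0 : 0 < u.A * ppc y τ q :=
        Nat.pos_of_ne_zero (by rintro h0; rw [h0, zero_mul] at hk; omega)
      have g1 : j.1.1 / pp X.c.t j.1.1 = k' := Nat.div_eq_of_eq_mul_right hpp0 hk'
      have g2 : j.1.1 / (u.A * ppc y τ q) = k * k' :=
        Nat.div_eq_of_eq_mul_right hA0 (by rw [← mul_assoc, ← hk]; exact hk')
      rw [g1, g2]
      exact Dvd.intro_left _ rfl
    exact (flw_Wt_vN (y := y) (E := E) h7 (h5.div_ne hj') (LWu _)).per a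
  · refine le_trans (Finset.card_le_card fun r hr => ?_) (h.card_mates hy q
      (rgh y (q / (u.A * ppc y τ q))))
    obtain ⟨a1, a2⟩ := Finset.mem_filter.1 hr
    exact Finset.mem_filter.2 ⟨a1, a2.2⟩
  · have key := OmCA_chi X.root ((ctx_XD X Y).sm y) hqT X.c.wp dm h.B_pos hmc c3.symm
    rw [c1, c2] at key
    exact key

end ctx3

end Crest.Agent.R4.Step588
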