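import Crest.Agent.R4.Deg709

/-!
R4 (S0004), helper864: TOP-DOWN LEMMA (TD), the pointwise degree bound with crossings at active
primes.  Fix `q`; partners `r` are determined (up to `M` choices) by `y = q/gcd(q,r)`.  `Lock p A`
is any predicate of the part `A` of `y` with primes `> p`.  If a coincidence at `p` implies
`Lock p (up p y)` and a locked prime is never crossed (`p ∤ y`), then the total kernel of all
partners with FULL coincidence factors is at most `M`.
-/

set_option autoImplicit false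
open Finset

namespace Crest.Agent.R4.TD864
open Crest.Agent.R4.HVW560 Crest.Agent.R4.X734 Crest.Agent.R4.Deg709
open Crest.Agent.R4.LF9 (sp rp sp_mul_rp sp_pos rp_pos sp_dvd rp_dvd sp_prime rp_prime coprime_of_sep)
open Crest.Agent.R4.HVWX793 (tot_ratio_anti tot_ratio_eq one_sub_inv_mem)

/-! ### the upper part of a divisor -/

/-- part of `n` composed of the primes `> p` -/
noncomputable def up (p n : ℕ) : ℕ := rp (Lo (p+1)) n

lemma rp_mul (S : ℕ → Prop) {a b : ℕ} (ha : 0 < a) (hb : 0 < b) : rp S (a*b) = rp S a * rp S b := by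
  have hab := Nat.mul_pos ha hb
  have h1 : sp S (a*b) * rp S (a*b) = a * b := sp_mul_rp S hab
  rw [sp_mul S ha hb] at h1
  have h2 : sp S a * sp S b * (rp S a * rp S b) = a * b := by
    calc sp S a * sp S b * (rp S a * rp S b) = (sp S a * rp S a) * (sp S b * rp S b) := by ring
      _ = a * b := by rw [sp_mul_rp S ha, sp_mul_rp S hb]
  have h3 : 0 < sp S a * sp S b := Nat.mul_pos (sp_pos S ha) (sp_pos S hb)
  exact Nat.eq_of_mul_eq_mul_left h3 (h1.trans h2.symm)

lemma rp_eq_one (S : ℕ → Prop) {n : ℕ} (hn : 0 < n) (h : ∀ p, p.Prime → p ∣ n → S p) : rp S n = 1 := by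
  by_contra hne
  obtain ⟨p, hp, hpd⟩ := Nat.exists_prime_and_dvd hne
  exact rp_prime S hp hpd (h p hp (hpd.trans (rp_dvd S hn)))

lemma rp_eq_self (S : ℕ → Prop) {n : ℕ} (hn : 0 < n) (h : ∀ p, p.Prime → p ∣ n → ¬ S p) :
    rp S n = n := by
  have h1 : sp S n = 1 := by
    by_contra hne
    obtain ⟨p, hp, hpd⟩ := Nat.exists_prime_and_dvd hne
    exact h p hp (hpd.trans (sp_dvd S hn)) (sp_prime S hp hpd)
  have := sp_mul_rp S hn
  rwa [h1, one_mul] at this

lemma up_pow_mul {p0 j m : ℕ} (hp0 : p0.Prime) (hm : 0 < m) {p : ℕ} (hp : p0 ≤ p) :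
    up p (p0^j * m) = up p m := by
  unfold up
  rw [rp_mul _ (pow_pos hp0.pos j) hm, rp_eq_one _ (pow_pos hp0.pos j), one_mul]
  intro l hl hld
  have : l = p0 := (Nat.prime_dvd_prime_iff_eq hl hp0).1 (hl.dvd_of_dvd_pow hld)
  show l < p + 1
  omega

lemma up_self {p m : ℕ} (hm : 0 < m) (h : ∀ l, l.Prime → l ∣ m → p < l) : up p m = m :=
  rp_eq_self _ hm fun l hl hld => by
    show ¬ l < p + 1
    have := h l hl hld
    omega

/-! ### the sequential sum -/

/-- sum over the divisors of `p0^k * m` with `p0` below all primes of `m` -/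
lemma sum_divisors_pow_mul {p0 k m : ℕ} (hp0 : p0.Prime) (hm : 0 < m) (hc : ¬ p0 ∣ m) (f : ℕ → ℝ) :
    ∑ y ∈ (p0^k * m).divisors, f y = ∑ y ∈ m.divisors, ∑ j ∈ range (k+1), f (p0^j * y) := by
  rw [← Finset.sum_product']
  symm
  refine Finset.sum_bij (fun x _ => p0^x.2 * x.1) ?_ ?_ ?_ ?_
  · rintro ⟨y, j⟩ h
    rw [Finset.mem_product] at h
    have h1 := Nat.dvd_of_mem_divisors h.1
    have h2 : j ≤ k := Nat.lt_succ_iff.1 (Finset.mem_range.1 h.2)
    exact Nat.mem_divisors.2 ⟨Nat.mul_dvd_mul (pow_dvd_pow p0 h2) h1,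
      (Nat.mul_pos (pow_pos hp0.pos k) hm).ne'⟩
  · rintro ⟨y, j⟩ h ⟨y', j'⟩ h' he
    rw [Finset.mem_product] at h h'
    have hy := Nat.dvd_of_mem_divisors h.1
    have hy' := Nat.dvd_of_mem_divisors h'.1
    have hy0 : y ≠ 0 := (Nat.pos_of_dvd_of_pos hy hm).ne'
    have hy0' : y' ≠ 0 := (Nat.pos_of_dvd_of_pos hy' hm).ne'
    simp only at he
    have e1 : (p0^j * y).factorization p0 = j := by
      rw [Nat.factorization_mul (pow_pos hp0.pos j).ne' hy0, Finsupp.add_apply,
        hp0.factorization_pow, Finsupp.single_eq_same,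
        Nat.factorization_eq_zero_of_not_dvd (fun h => hc (h.trans hy)), add_zero]
    have e2 : (p0^j' * y').factorization p0 = j' := by
      rw [Nat.factorization_mul (pow_pos hp0.pos j').ne' hy0', Finsupp.add_apply,
        hp0.factorization_pow, Finsupp.single_eq_same,
        Nat.factorization_eq_zero_of_not_dvd (fun h => hc (h.trans hy')), add_zero]
    have hj : j = j' := by rw [← e1, ← e2, he]
    subst hj
    have := Nat.eq_of_mul_eq_mul_left (pow_pos hp0.pos j) he
    rw [this]
  · intro y hy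
    have hyd := Nat.dvd_of_mem_divisors hy
    have hy0 : y ≠ 0 := (Nat.pos_of_mem_divisors hy).ne'
    refine ⟨(y / p0^(y.factorization p0), y.factorization p0), ?_, ?_⟩
    · rw [Finset.mem_product]
      constructor
      · refine Nat.mem_divisors.2 ⟨?_, hm.ne'⟩
        have h1 : Nat.Coprime (y / p0^(y.factorization p0)) (p0^k) :=
          Nat.Coprime.pow_right k (Nat.coprime_ordCompl hp0 hy0).symm
        exact h1.dvd_of_dvd_mul_left ((Nat.ordCompl_dvd y p0).trans hyd)
      · rw [Finset.mem_range, Nat.lt_succ_iff]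
        have h2 : y.factorization p0 ≤ (p0^k * m).factorization p0 :=
          (Nat.factorization_le_iff_dvd hy0 (Nat.mul_pos (pow_pos hp0.pos k) hm).ne').2 hyd p0
        rwa [Nat.factorization_mul (pow_pos hp0.pos k).ne' hm.ne', Finsupp.add_apply,
          hp0.factorization_pow, Finsupp.single_eq_same,
          Nat.factorization_eq_zero_of_not_dvd hc, add_zero] at h2
    · exact Nat.ordProj_mul_ordCompl_eq_self y p0
  · intro _ _; rfl

/-- **sequential sum**: local weights which sum to one, given the upper part, give total one -/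
theorem seq_sum (w : ℕ → ℕ → ℕ → ℝ) : ∀ q : ℕ, 0 < q →
    (∀ p ∈ q.primeFactors, ∀ A, ∑ j ∈ range (q.factorization p + 1), w p A j = 1) →
    ∑ y ∈ q.divisors, ∏ p ∈ q.primeFactors, w p (up p y) (y.factorization p) = 1 := by
  intro q
  induction q using Nat.strong_induction_on with
  | _ q ih =>
    intro hq h
    rcases Nat.lt_or_ge q 2 with h2 | h2
    · have : q = 1 := by omega
      subst this
      simp
    have hp0 : q.minFac.Prime := Nat.minFac_prime (by omega)
    set p0 := q.minFac with hp0def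
    set k := q.factorization p0 with hk
    set m := q / p0^k with hmdef
    have hqm : p0^k * m = q := Nat.ordProj_mul_ordCompl_eq_self q p0
    have hm : 0 < m := Nat.ordCompl_pos p0 hq.ne'
    have hc : ¬ p0 ∣ m := Nat.not_dvd_ordCompl hp0 hq.ne'
    have hk0 : 0 < k := hp0.factorization_pos_of_dvd hq.ne' (Nat.minFac_dvd q)
    have hmq : m < q := by
      rw [← hqm]
      have : 2 ≤ p0^k := (hp0.two_le).trans (Nat.le_self_pow hk0.ne' p0)
      nlinarith
    have hcop : Nat.Coprime (p0^k) m := Nat.Coprime.pow_left k ((Nat.Prime.coprime_iff_not_dvd hp0).2 hc)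
    have hpf : q.primeFactors = insert p0 m.primeFactors := by
      rw [← hqm, Nat.Coprime.primeFactors_mul hcop, Nat.primeFactors_prime_pow hk0.ne' hp0]
      rfl
    have hp0m : p0 ∉ m.primeFactors := fun h => hc (Nat.dvd_of_mem_primeFactors h)
    have hfac : ∀ p ∈ m.primeFactors, q.factorization p = m.factorization p := by
      intro p hp
      have hne : p ≠ p0 := fun h => hp0m (h ▸ hp)
      rw [← hqm, Nat.factorization_mul (pow_pos hp0.pos k).ne' hm.ne', Finsupp.add_apply,
        hp0.factorization_pow, Finsupp.single_eq_of_ne hne, zero_add]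
    have hlt : ∀ l, l.Prime → l ∣ m → p0 < l := by
      intro l hl hld
      have h1 : p0 ≤ l := Nat.minFac_le_of_dvd hl.two_le (hld.trans (Dvd.intro_left _ hqm))
      rcases lt_or_eq_of_le h1 with h | h
      · exact h
      · exact absurd (h ▸ hld) hc
    have ihm := ih m hmq hm (fun p hp A => by
      have := h p (hpf ▸ Finset.mem_insert_of_mem hp) A
      rwa [hfac p hp] at this)
    rw [← hqm, sum_divisors_pow_mul hp0 hm hc, hqm]
    rw [← ihm]
    apply Finset.sum_congr rfl
    intro y hy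
    have hyd := Nat.dvd_of_mem_divisors hy
    have hy0 : 0 < y := Nat.pos_of_mem_divisors hy
    have hc' : ¬ p0 ∣ y := fun h => hc (h.trans hyd)
    have e0 : ∀ j, (p0^j * y).factorization p0 = j := by
      intro j
      rw [Nat.factorization_mul (pow_pos hp0.pos j).ne' hy0.ne', Finsupp.add_apply,
        hp0.factorization_pow, Finsupp.single_eq_same,
        Nat.factorization_eq_zero_of_not_dvd hc', add_zero]
    have e1 : ∀ j, ∀ p ∈ m.primeFactors, (p0^j * y).factorization p = y.factorization p := by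
      intro j p hp
      have hne : p ≠ p0 := fun h => hp0m (h ▸ hp)
      rw [Nat.factorization_mul (pow_pos hp0.pos j).ne' hy0.ne', Finsupp.add_apply,
        hp0.factorization_pow, Finsupp.single_eq_of_ne hne, zero_add]
    have e2 : ∀ j, ∏ p ∈ q.primeFactors, w p (up p (p0^j * y)) ((p0^j * y).factorization p)
        = w p0 y j * ∏ p ∈ m.primeFactors, w p (up p y) (y.factorization p) := by
      intro j
      rw [hpf, Finset.prod_insert hp0m, e0 j, up_pow_mul hp0 hy0 le_rfl,
        up_self hy0 (fun l hl hld => hlt l hl (hld.trans hyd))]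
      congr 1
      apply Finset.prod_congr rfl
      intro p hp
      have h1 : p0 ≤ p := (hlt p (Nat.prime_of_mem_primeFactors hp) (Nat.dvd_of_mem_primeFactors hp)).le
      rw [e1 j p hp, up_pow_mul hp0 hy0 h1]
    rw [Finset.sum_congr rfl (fun j _ => e2 j), ← Finset.sum_mul]
    have h5 := h p0 (hpf ▸ Finset.mem_insert_self _ _) y
    rw [h5, one_mul]

/-! ### the local weights -/

/-- local weight of the exponent `j ≤ k` at the prime `p`: locked = not crossed -/
noncomputable def lw (L : Prop) [Decidable L] (p k j : ℕ) : ℝ :=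
  if L then (if j = 0 then 1 else 0)
  else (1/(p:ℝ)^j) * (if j < k then 1 - (p:ℝ)⁻¹ else 1)

lemma lw_sum {L : Prop} [Decidable L] {p k : ℕ} (hp : p.Prime) :
    ∑ j ∈ range (k+1), lw L p k j = 1 := by
  have hp0 : (p:ℝ) ≠ 0 := by exact_mod_cast hp.ne_zero
  unfold lw
  by_cases hL : L
  · simp only [hL, if_true]
    rw [Finset.sum_range_succ']
    simp
  · simp only [hL, if_false]
    rw [Finset.sum_range_succ]
    have h1 : ∑ j ∈ range k, (1/(p:ℝ)^j) * (if j < k then 1 - (p:ℝ)⁻¹ else 1)
        = ∑ j ∈ range k, (1/(p:ℝ)^j - 1/(p:ℝ)^(j+1)) := by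
      apply Finset.sum_congr rfl
      intro j hj
      rw [if_pos (Finset.mem_range.1 hj), pow_succ]
      field_simp
    rw [h1, Finset.sum_range_sub']
    simp

lemma lw_nonneg {L : Prop} [Decidable L] {p k j : ℕ} (hp : p.Prime) : 0 ≤ lw L p k j := by
  unfold lw
  have := (one_sub_inv_mem hp).1
  split_ifs <;> positivity

/-- `y = ∏ p^{v_p y}` over the primes of a multiple -/
lemma prod_pow_factorization {q y : ℕ} (hq : 0 < q) (hy : y ∣ q) :
    ((y:ℕ):ℝ) = ∏ p ∈ q.primeFactors, (p:ℝ)^(y.factorization p) := by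
  have hy0 : y ≠ 0 := (Nat.pos_of_dvd_of_pos hy hq).ne'
  have h1 : y = ∏ p ∈ y.primeFactors, p ^ y.factorization p :=
    (Nat.prod_factorization_pow_eq_self hy0).symm
  have h2 : ∏ p ∈ q.primeFactors, p ^ y.factorization p = ∏ p ∈ y.primeFactors, p ^ y.factorization p := by
    symm
    apply Finset.prod_subset (Nat.primeFactors_mono hy hq.ne')
    intro p hp hpy
    have : y.factorization p = 0 := by
      rw [← Finsupp.notMem_support_iff, Nat.support_factorization]; exact hpy
    rw [this, pow_zero]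
  conv_lhs => rw [h1, ← h2]
  push_cast
  rfl

/-- **TD LEMMA** (general multiplicities). -/
theorem TD {q : ℕ} (hq : 0 < q) {T : Finset ℕ} {ψ K : ℕ → ℝ} {C : ℕ → Finset ℕ} {x M : ℝ}
    (Lock : ℕ → ℕ → Prop)
    (hT : ∀ r ∈ T, 0 < r) (hψ : ∀ r ∈ T, 0 ≤ ψ r) (hK0 : ∀ r ∈ T, 0 ≤ K r)
    (hK : ∀ r ∈ T, K r * DD q r x (ψ r) ≤ 1)
    (hC : ∀ r ∈ T, C r ⊆ r.primeFactors)
    (hF1 : ∀ r ∈ T, ∀ p ∈ C r, p ∣ q → Lock p (up p (cof q r)))
    (hF2 : ∀ r ∈ T, ∀ p, p.Prime → p ∣ q → Lock p (up p (cof q r)) → ¬ p ∣ cof q r)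
    (hM : ∀ d ∈ q.divisors, ((T.filter (fun r => cof q r = d)).card : ℝ) ≤ M) :
    ∑ r ∈ T, wt ψ r * (pr (C r))⁻¹ * K r ≤ M := by
  classical
  let w : ℕ → ℕ → ℕ → ℝ := fun p A j => lw (Lock p A) p (q.factorization p) j
  let W : ℕ → ℝ := fun y => ∏ p ∈ q.primeFactors, w p (up p y) (y.factorization p)
  have hW0 : ∀ y, 0 ≤ W y := fun y => Finset.prod_nonneg fun p hp =>
    lw_nonneg (Nat.prime_of_mem_primeFactors hp)
  have hsum : ∑ y ∈ q.divisors, W y = 1 :=
    seq_sum w q hq fun p hp A => lw_sum (Nat.prime_of_mem_primeFactors hp)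
  have hpr : ∀ r ∈ T, 0 < pr (C r) := fun r hr =>
    pr_pos fun p hp => Nat.prime_of_mem_primeFactors (hC r hr hp)
  -- the pointwise bound
  have key : ∀ r ∈ T, wt ψ r * (pr (C r))⁻¹ * K r ≤ W (cof q r) := by
    intro r hr
    set y := cof q r with hy
    have hyq : y ∣ q := cof_dvd q r
    have hy0 : 0 < y := cof_pos hq r
    have hy0' : (0:ℝ) < y := by exact_mod_cast hy0
    have hr0 := hT r hr
    have hy0ne : y ≠ 0 := hy0.ne'
    have hg : q / y = Nat.gcd q r := div_cof hq r
    have hg0 : 0 < Nat.gcd q r := Nat.gcd_pos_of_pos_left r hq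
    -- `G` = primes of `gcd(q,r)` outside `C r`
    set G := (Nat.gcd q r).primeFactors \ C r with hG
    have e1 : ψ r * K r ≤ 1/(y : ℝ) := by
      rw [le_div_iff₀ hy0']
      have := K_le (hK0 r hr) (hK r hr)
      linarith [this, show ψ r * K r * (y : ℝ) = K r * ((y : ℝ) * ψ r) by ring]
    have e2 : (pr (C r))⁻¹ * tr r ≤ ∏ p ∈ G, (1 - (p:ℝ)⁻¹) := by
      rw [inv_mul_le_iff₀ (hpr r hr)]
      unfold tr Deg709.pr
      rw [tot_ratio_eq hr0, ← Finset.prod_union Finset.disjoint_sdiff]
      have hsub : C r ∪ G ⊆ r.primeFactors := by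
        apply Finset.union_subset (hC r hr)
        exact Finset.sdiff_subset.trans (Nat.primeFactors_mono (Nat.gcd_dvd_right q r) hr0.ne')
      exact Finset.prod_le_prod_of_subset_of_le_one hsub
        (fun p hp => (one_sub_inv_mem (Nat.prime_of_mem_primeFactors hp)).1)
        (fun p hp _ => (one_sub_inv_mem (Nat.prime_of_mem_primeFactors hp)).2)
    have e3 : wt ψ r * (pr (C r))⁻¹ * K r = ((pr (C r))⁻¹ * tr r) * (ψ r * K r) := by
      rw [wt_eq]; ring
    have hGn : 0 ≤ ∏ p ∈ G, (1 - (p:ℝ)⁻¹) := Finset.prod_nonneg fun p hp =>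
      (one_sub_inv_mem (Nat.prime_of_mem_primeFactors (Finset.mem_sdiff.1 hp).1)).1
    have hψK : 0 ≤ ψ r * K r := mul_nonneg (hψ r hr) (hK0 r hr)
    rw [e3]
    refine (mul_le_mul e2 e1 hψK hGn).trans ?_
    -- compare with the product of local weights
    have hGsub : G ⊆ q.primeFactors :=
      Finset.sdiff_subset.trans (Nat.primeFactors_mono (Nat.gcd_dvd_left q r) hq.ne')
    have e4 : ∏ p ∈ G, (1 - (p:ℝ)⁻¹) = ∏ p ∈ q.primeFactors, (if p ∈ G then 1 - (p:ℝ)⁻¹ else 1) := by
      rw [Finset.prod_ite_mem, Finset.inter_eq_right.2 hGsub]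
    have e5 : (1/(y:ℝ)) = ∏ p ∈ q.primeFactors, (1/(p:ℝ)^(y.factorization p)) := by
      rw [prod_pow_factorization hq hyq, Finset.prod_div_distrib, Finset.prod_const_one]
    rw [e4, e5, ← Finset.prod_mul_distrib]
    apply Finset.prod_le_prod
    · intro p hp
      have hpp := Nat.prime_of_mem_primeFactors hp
      have h1 := (one_sub_inv_mem hpp).1
      split_ifs <;> positivity
    · intro p hp
      have hpp := Nat.prime_of_mem_primeFactors hp
      have hpq := Nat.dvd_of_mem_primeFactors hp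
      have h1 := one_sub_inv_mem hpp
      have hppos : (0:ℝ) < p := by exact_mod_cast hpp.pos
      show (if p ∈ G then 1 - (p:ℝ)⁻¹ else 1) * (1/(p:ℝ)^(y.factorization p)) ≤
        lw (Lock p (up p y)) p (q.factorization p) (y.factorization p)
      unfold lw
      by_cases hL : Lock p (up p y)
      · rw [if_pos hL]
        have hny : ¬ p ∣ y := hF2 r hr p hpp hpq hL
        have h0 : y.factorization p = 0 := Nat.factorization_eq_zero_of_not_dvd hny
        rw [h0, pow_zero, if_pos rfl]
        split_ifs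
        · linarith [h1.2]
        · norm_num
      · rw [if_neg hL]
        have hpC : p ∉ C r := fun h => hL (hF1 r hr p h hpq)
        by_cases hlt : y.factorization p < q.factorization p
        · rw [if_pos hlt]
          have hpG : p ∈ G := by
            rw [hG, Finset.mem_sdiff]
            refine ⟨?_, hpC⟩
            rw [Nat.mem_primeFactors]
            refine ⟨hpp, ?_, hg0.ne'⟩
            rw [← hg]
            have : 0 < (q / y).factorization p := by
              rw [Nat.factorization_div hyq, Finsupp.tsub_apply]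
              omega
            exact Nat.dvd_of_factorization_pos this.ne'
          rw [if_pos hpG, mul_comm]
        · rw [if_neg hlt, mul_one]
          have : (if p ∈ G then 1 - (p:ℝ)⁻¹ else 1) ≤ 1 := by
            split_ifs
            · exact h1.2
            · exact le_rfl
          have h6 : (0:ℝ) ≤ 1/(p:ℝ)^(y.factorization p) := by positivity
          calc (if p ∈ G then 1 - (p:ℝ)⁻¹ else 1) * (1/(p:ℝ)^(y.factorization p))
              ≤ 1 * (1/(p:ℝ)^(y.factorization p)) := mul_le_mul_of_nonneg_right this h6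
            _ = _ := one_mul _
  calc ∑ r ∈ T, wt ψ r * (pr (C r))⁻¹ * K r ≤ ∑ r ∈ T, W (cof q r) := Finset.sum_le_sum key
    _ = ∑ d ∈ q.divisors, ∑ r ∈ T.filter (fun r => cof q r = d), W (cof q r) := by
        rw [Finset.sum_fiberwise_of_maps_to]
        intro r _
        exact Nat.mem_divisors.2 ⟨cof_dvd q r, hq.ne'⟩
    _ = ∑ d ∈ q.divisors, ((T.filter (fun r => cof q r = d)).card : ℝ) * W d := by
        apply Finset.sum_congr rfl
        intro d _
        rw [Finset.sum_congr rfl (g := fun _ => W d) (fun r hr => by rw [(Finset.mem_filter.1 hr).2])]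
        rw [Finset.sum_const, nsmul_eq_mul]
    _ ≤ ∑ d ∈ q.divisors, M * W d := by
        apply Finset.sum_le_sum
        intro d hd
        exact mul_le_mul_of_nonneg_right (hM d hd) (hW0 d)
    _ = M := by rw [← Finset.mul_sum, hsum, mul_one]

end Crest.Agent.R4.TD864
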