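import Mathlib
import Crest.Agent.Lib.Mertens
import Crest.Agent.R4.X734i

/-!
R4 (S0004), helper734: Lemma AL+ and Lemma AL (helper587 #10728, helper709 #10933).
-/

set_option autoImplicit false
open Finset

namespace Crest.Agent.R4.X734
open Crest.Agent.R4.HVW560 Crest.Agent.R4.LF8
open Crest.Agent.R4.LF9 (sp rp sp_mul_rp sp_pos rp_pos sp_dvd rp_dvd sp_prime rp_prime)
open Crest.Agent.Lib.Mertens (primesIoc mem_primesIoc S mertens_two_nat)

lemma hh_le_two {B : Finset ℕ} (hB : ∀ q ∈ B, q.Prime) {e2 : ℝ} (he0 : 0 ≤ e2) (he1 : 2*e2 ≤ 1/2) {v : ℕ}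
    (hv : 0 < v) : hh B e2 v ≤ 2 := by
  classical
  set α : ℝ := 1 - 2*e2 with hα
  have hα1 : α ≤ 1 := by rw [hα]; linarith
  have hα2 : 1/2 ≤ α := by rw [hα]; linarith
  set pf := v.primeFactors with hpf
  have f1 : ∀ r ∈ pf, 0 ≤ 1 - 1/(r:ℝ) ∧ (1 - 1/(r:ℝ))^α ≤ 1 - α * (1/(r:ℝ)) ∧ 0 ≤ 1 - α * (1/(r:ℝ)) := by
    intro r hr
    have h1 : (1:ℝ) ≤ r := by exact_mod_cast (Nat.prime_of_mem_primeFactors hr).one_le
    have h2 : 1/(r:ℝ) ≤ 1 := by rw [div_le_one (by linarith)]; exact h1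
    have h3 : 0 ≤ 1/(r:ℝ) := by positivity
    have h4 := rpow_le_lin (show 0 ≤ 1 - 1/(r:ℝ) by linarith) (show 0 ≤ α by linarith) hα1
    refine ⟨by linarith, by linarith, ?_⟩
    nlinarith
  have h1 : hh B e2 v ≤ ∑ q ∈ pf, 1/(q:ℝ) * ∏ r ∈ pf.filter (fun r => r < q), (1 - α * (1/(r:ℝ))) := by
    unfold hh
    calc ∑ q ∈ B.filter (fun q => q ∣ v), 1/(q:ℝ) * rho e2 q v
        ≤ ∑ q ∈ pf, 1/(q:ℝ) * rho e2 q v := by
          apply Finset.sum_le_sum_of_subset_of_nonneg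
          · intro q hq
            rw [Finset.mem_filter] at hq
            exact Nat.mem_primeFactors.2 ⟨hB q hq.1, hq.2, hv.ne'⟩
          · intro q _ _
            exact mul_nonneg (by positivity) (rho_nonneg _ _ _)
      _ ≤ _ := by
          apply Finset.sum_le_sum
          intro q _
          apply mul_le_mul_of_nonneg_left _ (by positivity)
          unfold rho
          apply Finset.prod_le_prod
          · intro r hr
            exact Real.rpow_nonneg (f1 r (Finset.mem_filter.1 hr).1).1 _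
          · intro r hr
            exact (f1 r (Finset.mem_filter.1 hr).1).2.1
  have h2 := Finset.prod_one_sub_ordered pf (fun q : ℕ => α * (1/(q:ℝ)))
  have h3 : 0 ≤ ∏ i ∈ pf, (1 - α * (1/(i:ℝ))) := Finset.prod_nonneg fun r hr => (f1 r hr).2.2
  have h4 : α * ∑ q ∈ pf, 1/(q:ℝ) * ∏ r ∈ pf.filter (fun r => r < q), (1 - α * (1/(r:ℝ))) ≤ 1 := by
    rw [Finset.mul_sum]
    have e : ∑ q ∈ pf, α * (1/(q:ℝ) * ∏ r ∈ pf.filter (fun r => r < q), (1 - α * (1/(r:ℝ)))) =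
        ∑ i ∈ pf, α * (1/(i:ℝ)) * ∏ j ∈ pf.filter (fun r => r < i), (1 - α * (1/(j:ℝ))) := by
      apply Finset.sum_congr rfl
      intro q _; ring
    rw [e]
    linarith
  set X := ∑ q ∈ pf, 1/(q:ℝ) * ∏ r ∈ pf.filter (fun r => r < q), (1 - α * (1/(r:ℝ))) with hX
  have hX0 : 0 ≤ X := by
    apply Finset.sum_nonneg
    intro q _
    apply mul_nonneg (by positivity)
    exact Finset.prod_nonneg fun r hr => (f1 r (Finset.mem_filter.1 hr).1).2.2
  nlinarith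

/-- one block -/
theorem block_le {A CX e2 lam : ℝ} (hA : 1 ≤ A) (he2 : 64*A*e2 ≤ 1) (he20 : 0 < e2) (hCX : 1 ≤ CX)
    (hlam : 0 ≤ lam) {B : Finset ℕ} (hB : ∀ q ∈ B, Big (4*A) e2 CX q)
    (hBlam : ∀ q ∈ B, (Real.log q)^(-(1/8:ℝ)) ≤ lam) {w : ℕ} {T : Finset ℕ} {ψ : ℕ → ℝ}
    {PP : Finset (ℕ × ℕ)} (h : Blk A B w T ψ PP) :
    ∑ e ∈ PP, wt ψ e.1 * wt ψ e.2 / DD e.1 e.2 (ψ e.1) (ψ e.2) ≤
      K1 (4*A) CX * ((1+(tot T ψ)^(2*e2)) * (∑ q ∈ T, wt ψ q * hh B e2 q + tot T ψ * Sg B 0)) +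
      K2 (4*A) CX * lam * (1/(2*e2)) * (tot T ψ)^(1+2*e2) := by
  classical
  have hK0 := K0_pos (A := 4*A) hCX
  have hK1 : 0 < K1 (4*A) CX := by unfold K1; positivity
  have hK2 : 0 < K2 (4*A) CX := by unfold K2; positivity
  have he1 : 2*e2 ≤ 1 := by nlinarith
  set V := mV w T with hV
  set Ψ := mΨ w T ψ with hΨ
  have Ψ0 : ∀ u, 0 ≤ Ψ u := fun u => mΨ_nonneg h.hψ u
  have hpos : ∀ v ∈ V, 0 < v := by
    intro v hv
    obtain ⟨q, hq, rfl⟩ := Finset.mem_image.1 hv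
    exact rp_pos _ (h.hT q hq)
  have h1 := merge_le hA h
  have h2 := BE_le (A := 4*A) (e2 := e2) (by linarith) (by linarith) he20 hCX hlam hB hBlam (V.sup id)
    (n := 0) (by omega) V Ψ
    (by
      intro v hv
      refine ⟨hpos v hv, fun q _ _ => ?_⟩
      simp)
    (by
      intro v hv q _ hqd
      have h3 := Nat.le_of_dvd (hpos v hv) hqd
      have h4 : v ≤ V.sup id := Finset.le_sup (f := id) hv
      omega)
    (fun v _ => Ψ0 v)
  refine (h1.trans h2).trans ?_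
  have t1 : tot V Ψ ≤ tot T ψ := tot_merge_le h.hT h.hψ
  have t0 : 0 ≤ tot V Ψ := Finset.sum_nonneg fun v _ => wt_nonneg (Ψ0 v)
  have t00 : 0 ≤ tot T ψ := Finset.sum_nonneg fun v hv => wt_nonneg (h.hψ v hv)
  have l1 : Lin B e2 V Ψ ≤ ∑ q ∈ T, wt ψ q * hh B e2 q :=
    Lin_merge h.hT h.hψ (fun q hq => ⟨(h.hBp q hq).1, (h.hBp q hq).2.1⟩) he20.le he1
  have l0 : 0 ≤ Lin B e2 V Ψ := Finset.sum_nonneg fun v _ => mul_nonneg (wt_nonneg (Ψ0 v)) (hh_nonneg _ _ _)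
  have s0 : 0 ≤ Sg B 0 := Sg_nonneg
  unfold FF
  apply add_le_add
  · apply mul_le_mul_of_nonneg_left _ hK1.le
    apply mul_le_mul
    · have := Real.rpow_le_rpow t0 t1 (by linarith : (0:ℝ) ≤ 2*e2)
      linarith
    · exact add_le_add l1 (mul_le_mul_of_nonneg_right t1 s0)
    · exact add_nonneg l0 (mul_nonneg t0 s0)
    · positivity
  · apply mul_le_mul_of_nonneg_left _ (by positivity)
    exact Real.rpow_le_rpow t0 t1 (by linarith)

/-- the blocks `(P^{2^i}, P^{2^{i+1}}]` -/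
def BL (P i : ℕ) : Finset ℕ := primesIoc (P^(2^i)) (P^(2^(i+1)))

lemma hh_BL_sum {P : ℕ} (hP : 2 ≤ P) {e2 : ℝ} (he0 : 0 ≤ e2) (he1 : 2*e2 ≤ 1/2) {v : ℕ} (hv : 0 < v) (J : ℕ) :
    ∑ i ∈ range J, hh (BL P i) e2 v ≤ 2 := by
  classical
  have hdis : ∀ i j, i < j → Disjoint (BL P i) (BL P j) := by
    intro i j hij
    rw [Finset.disjoint_left]
    intro p hp hp'
    have h1 := (mem_primesIoc.1 hp).1.2
    have h2 := (mem_primesIoc.1 hp').1.1
    have h3 : P^(2^(i+1)) ≤ P^(2^j) := Nat.pow_le_pow_right (by omega) (Nat.pow_le_pow_right (by norm_num) hij)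
    omega
  have e : ∑ i ∈ range J, hh (BL P i) e2 v = hh ((range J).biUnion (BL P)) e2 v := by
    unfold hh
    rw [Finset.filter_biUnion, Finset.sum_biUnion]
    intro i _ j _ hij
    apply Finset.disjoint_filter_filter
    rcases lt_or_gt_of_ne hij with h | h
    · exact hdis i j h
    · exact (hdis j i h).symm
  rw [e]
  apply hh_le_two _ he0 he1 hv
  intro q hq
  obtain ⟨i, _, hi⟩ := Finset.mem_biUnion.1 hq
  exact (mem_primesIoc.1 hi).2

lemma geo_le {r K : ℝ} (h0 : 0 ≤ r) (h1 : r < 1) (hK : 1/(1-r) ≤ K) (J : ℕ) : ∑ i ∈ range J, r^i ≤ K := by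
  refine le_trans ?_ hK
  rw [geom_sum_eq (by linarith)]
  have h2 : (r^J - 1)/(r-1) = (1 - r^J)/(1-r) := by
    rw [← neg_sub 1 (r^J), ← neg_sub 1 r, neg_div_neg_eq]
  rw [h2]
  apply div_le_div_of_nonneg_right _ (by linarith)
  have : 0 ≤ r^J := by positivity
  linarith

lemma log_BL {P i q : ℕ} (hP : Real.exp 1 ≤ P) (hq : q ∈ BL P i) : (2:ℝ)^i ≤ Real.log q := by
  have hP0 : (0:ℝ) < P := lt_of_lt_of_le (Real.exp_pos 1) hP
  have h1 := (mem_primesIoc.1 hq).1.1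
  have h2 : ((P^(2^i) : ℕ) : ℝ) ≤ q := by exact_mod_cast h1.le
  push_cast at h2
  have hl1 : 1 ≤ Real.log P := by
    rw [← Real.log_exp 1]; exact Real.log_le_log (Real.exp_pos 1) hP
  calc (2:ℝ)^i = (2:ℝ)^i * 1 := by ring
    _ ≤ (2:ℝ)^i * Real.log P := mul_le_mul_of_nonneg_left hl1 (by positivity)
    _ = Real.log ((P:ℝ)^(2^i)) := by rw [Real.log_pow]; push_cast; ring
    _ ≤ Real.log q := Real.log_le_log (by positivity) h2

lemma rpow_pow_two (i : ℕ) (s : ℝ) : ((2:ℝ)^i)^s = ((2:ℝ)^s)^i := by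
  rw [← Real.rpow_natCast, ← Real.rpow_natCast, ← Real.rpow_mul (by norm_num), ← Real.rpow_mul (by norm_num), mul_comm]

lemma lam_BL {P i q : ℕ} (hP : Real.exp 1 ≤ P) (hq : q ∈ BL P i) :
    (Real.log q)^(-(1/8:ℝ)) ≤ ((2:ℝ)^(-(1/8:ℝ)))^i := by
  rw [← rpow_pow_two]
  exact Real.rpow_le_rpow_of_nonpos (by positivity) (log_BL hP hq) (by norm_num)

lemma two8 : (2:ℝ)^(-(1/8:ℝ)) ≤ 12/13 := by
  have h : ((2:ℝ)^(-(1/8:ℝ)))^8 ≤ (12/13)^8 := by
    rw [← Real.rpow_natCast, ← Real.rpow_mul (by norm_num)]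
    norm_num
  exact (pow_le_pow_iff_left₀ (by positivity) (by norm_num) (by norm_num)).1 h

lemma two2 : (2:ℝ)^(-(1/2:ℝ)) ≤ 3/4 := by
  have h : ((2:ℝ)^(-(1/2:ℝ)))^2 ≤ (3/4)^2 := by
    rw [← Real.rpow_natCast, ← Real.rpow_mul (by norm_num)]
    norm_num
  exact (pow_le_pow_iff_left₀ (by positivity) (by norm_num) (by norm_num)).1 h

lemma Sg_BL {P : ℕ} (hP : Real.exp 1 ≤ P) (i : ℕ) : Sg (BL P i) 0 ≤ 8 * ((2:ℝ)^(-(1/2:ℝ)))^i := by
  have hP0 : (0:ℝ) < P := lt_of_lt_of_le (Real.exp_pos 1) hP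
  have hP2 : 2 ≤ P := by
    have h1 : (2:ℝ) ≤ P := by linarith [Real.add_one_le_exp (1:ℝ)]
    exact_mod_cast h1
  have hl1 : 1 ≤ Real.log P := by
    rw [← Real.log_exp 1]; exact Real.log_le_log (Real.exp_pos 1) hP
  set m : ℕ := P^(2^i) with hm
  set n : ℕ := P^(2^(i+1)) with hn
  have hm2 : 2 ≤ m := by
    calc 2 ≤ P := hP2
      _ = P^1 := (pow_one P).symm
      _ ≤ P^(2^i) := Nat.pow_le_pow_right (by omega) Nat.one_le_two_pow
  have hmn : m ≤ n := Nat.pow_le_pow_right (by omega) (Nat.pow_le_pow_right (by norm_num) (by omega))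
  have hlm : Real.log m = 2^i * Real.log P := by rw [hm]; push_cast; rw [Real.log_pow]; push_cast; ring
  have hln : Real.log n = 2^(i+1) * Real.log P := by rw [hn]; push_cast; rw [Real.log_pow]; push_cast; ring
  have hM := (abs_le.1 (mertens_two_nat m n hm2 hmn)).2
  have hlm1 : 1 ≤ Real.log m := by
    rw [hlm]
    exact one_le_mul_of_one_le_of_one_le (one_le_pow₀ (by norm_num)) hl1
  have hlogs : Real.log (Real.log n) - Real.log (Real.log m) = Real.log 2 := by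
    rw [← Real.log_div (by rw [hln]; positivity) (by linarith)]
    congr 1
    rw [hln, hlm, pow_succ]
    field_simp
  have hS : S m n ≤ 8 := by
    have h7 : 7 / Real.log m ≤ 7 := div_le_self (by norm_num) hlm1
    have := Real.log_two_lt_d9
    rw [hlogs] at hM
    linarith
  have hS0 : 0 ≤ ((2:ℝ)^(-(1/2:ℝ)))^i := by positivity
  calc Sg (BL P i) 0 = ∑ q ∈ BL P i, (Real.log q)^(-(1/2:ℝ)) / q := by
        unfold Sg
        rw [Finset.filter_true_of_mem (fun _ _ => Nat.zero_le _)]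
    _ ≤ ∑ q ∈ BL P i, ((2:ℝ)^(-(1/2:ℝ)))^i * (1/(q:ℝ)) := by
        apply Finset.sum_le_sum
        intro q hq
        rw [mul_one_div]
        apply div_le_div_of_nonneg_right _ (by positivity)
        rw [← rpow_pow_two]
        exact Real.rpow_le_rpow_of_nonpos (by positivity) (log_BL hP hq) (by norm_num)
    _ = ((2:ℝ)^(-(1/2:ℝ)))^i * S m n := by rw [← Finset.mul_sum]; rfl
    _ ≤ ((2:ℝ)^(-(1/2:ℝ)))^i * 8 := mul_le_mul_of_nonneg_left hS hS0
    _ = _ := by ring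

/-- **Lemma AL+** (blocks `(P^{2^i}, P^{2^{i+1}}]`, merged small primes) -/
theorem ALplus {A e2 : ℝ} (hA : 1 ≤ A) (he20 : 0 < e2) (he2 : 64*A*e2 ≤ 1) :
    ∃ C : ℝ, 0 < C ∧ ∃ p0 : ℕ, ∀ P : ℕ, p0 ≤ P → ∀ (T : Finset ℕ) (ψ : ℕ → ℝ) (J : ℕ) (w : ℕ → ℕ)
      (PP : ℕ → Finset (ℕ × ℕ)), (∀ q ∈ T, 0 < q) → (∀ q ∈ T, 0 ≤ ψ q) →
      (∀ i ∈ range J, Blk A (BL P i) (w i) T ψ (PP i)) →
      ∑ i ∈ range J, ∑ e ∈ PP i, wt ψ e.1 * wt ψ e.2 / DD e.1 e.2 (ψ e.1) (ψ e.2) ≤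
        C * (tot T ψ + (tot T ψ)^(1+2*e2)) := by
  obtain ⟨CX, hCX, hbig⟩ := exists_big
  obtain ⟨p0, hp0⟩ := hbig (4*A) e2 (by linarith) he20 (by nlinarith)
  have hK0 := K0_pos (A := 4*A) hCX
  have hK1 : 0 < K1 (4*A) CX := by unfold K1; positivity
  have hK2 : 0 < K2 (4*A) CX := by unfold K2; positivity
  refine ⟨34 * K1 (4*A) CX + K2 (4*A) CX * 13 * (1/(2*e2)), by positivity, max p0 3, ?_⟩
  intro P hP T ψ J w PP hT hψ hblk
  have hP3 : 3 ≤ P := (le_max_right _ _).trans hP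
  have hPp0 : p0 ≤ P := (le_max_left _ _).trans hP
  have hPe : Real.exp 1 ≤ P := by
    have h1 := Real.exp_one_lt_d9
    have h2 : (3:ℝ) ≤ P := by exact_mod_cast hP3
    linarith
  have he1 : 2*e2 ≤ 1/2 := by nlinarith
  set M := tot T ψ with hM
  have hM0 : 0 ≤ M := Finset.sum_nonneg fun v hv => wt_nonneg (hψ v hv)
  have hBig : ∀ i, ∀ q ∈ BL P i, Big (4*A) e2 CX q := by
    intro i q hq
    have h1 := mem_primesIoc.1 hq
    apply hp0 q _ h1.2
    have : P ≤ P^(2^i) := by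
      calc P = P^1 := (pow_one P).symm
        _ ≤ P^(2^i) := Nat.pow_le_pow_right (by omega) Nat.one_le_two_pow
    omega
  have hb : ∀ i ∈ range J, ∑ e ∈ PP i, wt ψ e.1 * wt ψ e.2 / DD e.1 e.2 (ψ e.1) (ψ e.2) ≤
      K1 (4*A) CX * ((1+M^(2*e2)) * (∑ q ∈ T, wt ψ q * hh (BL P i) e2 q + M * Sg (BL P i) 0)) +
      K2 (4*A) CX * (((2:ℝ)^(-(1/8:ℝ)))^i) * (1/(2*e2)) * M^(1+2*e2) := by
    intro i hi
    exact block_le hA he2 he20 hCX (by positivity) (hBig i) (fun q hq => lam_BL hPe hq) (hblk i hi)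
  refine (Finset.sum_le_sum hb).trans ?_
  rw [Finset.sum_add_distrib]
  have h1 : ∑ i ∈ range J, K1 (4*A) CX * ((1+M^(2*e2)) * (∑ q ∈ T, wt ψ q * hh (BL P i) e2 q + M * Sg (BL P i) 0)) ≤
      K1 (4*A) CX * ((1+M^(2*e2)) * (2 * M + M * 32)) := by
    rw [← Finset.mul_sum, ← Finset.mul_sum, Finset.sum_add_distrib]
    apply mul_le_mul_of_nonneg_left _ hK1.le
    apply mul_le_mul_of_nonneg_left _ (by positivity)
    apply add_le_add
    · rw [Finset.sum_comm]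
      calc ∑ q ∈ T, ∑ i ∈ range J, wt ψ q * hh (BL P i) e2 q = ∑ q ∈ T, wt ψ q * ∑ i ∈ range J, hh (BL P i) e2 q := by
            apply Finset.sum_congr rfl
            intro q _
            rw [Finset.mul_sum]
        _ ≤ ∑ q ∈ T, wt ψ q * 2 := by
            apply Finset.sum_le_sum
            intro q hq
            exact mul_le_mul_of_nonneg_left (hh_BL_sum (by omega) he20.le he1 (hT q hq) J) (wt_nonneg (hψ q hq))
        _ = 2 * M := by rw [← Finset.sum_mul, hM]; unfold tot; ring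
    · rw [← Finset.mul_sum]
      apply mul_le_mul_of_nonneg_left _ hM0
      calc ∑ i ∈ range J, Sg (BL P i) 0 ≤ ∑ i ∈ range J, 8 * ((2:ℝ)^(-(1/2:ℝ)))^i :=
            Finset.sum_le_sum fun i _ => Sg_BL hPe i
        _ = 8 * ∑ i ∈ range J, ((2:ℝ)^(-(1/2:ℝ)))^i := by rw [Finset.mul_sum]
        _ ≤ 8 * 4 := by
            apply mul_le_mul_of_nonneg_left _ (by norm_num)
            have h2 := two2
            apply geo_le (by positivity) (by linarith)
            rw [div_le_iff₀ (by linarith)]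
            linarith
        _ = 32 := by norm_num
  have h2 : ∑ i ∈ range J, K2 (4*A) CX * (((2:ℝ)^(-(1/8:ℝ)))^i) * (1/(2*e2)) * M^(1+2*e2) ≤
      K2 (4*A) CX * 13 * (1/(2*e2)) * M^(1+2*e2) := by
    have e : ∑ i ∈ range J, K2 (4*A) CX * (((2:ℝ)^(-(1/8:ℝ)))^i) * (1/(2*e2)) * M^(1+2*e2) =
        (K2 (4*A) CX * (1/(2*e2)) * M^(1+2*e2)) * ∑ i ∈ range J, ((2:ℝ)^(-(1/8:ℝ)))^i := by
      rw [Finset.mul_sum]
      apply Finset.sum_congr rfl
      intro i _; ring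
    rw [e]
    have h3 := two8
    have h4 : ∑ i ∈ range J, ((2:ℝ)^(-(1/8:ℝ)))^i ≤ 13 := by
      apply geo_le (by positivity) (by linarith)
      rw [div_le_iff₀ (by linarith)]
      linarith
    calc _ ≤ (K2 (4*A) CX * (1/(2*e2)) * M^(1+2*e2)) * 13 := mul_le_mul_of_nonneg_left h4 (by positivity)
      _ = _ := by ring
  have hMM : M * M^(2*e2) = M^(1+2*e2) := by
    rw [Real.rpow_add' hM0 (by linarith), Real.rpow_one]
  have h3 : K1 (4*A) CX * ((1+M^(2*e2)) * (2 * M + M * 32)) = 34 * K1 (4*A) CX * (M + M^(1+2*e2)) := by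
    rw [← hMM]; ring
  rw [h3] at h1
  have h4 : K2 (4*A) CX * 13 * (1/(2*e2)) * M^(1+2*e2) ≤ K2 (4*A) CX * 13 * (1/(2*e2)) * (M + M^(1+2*e2)) := by
    apply mul_le_mul_of_nonneg_left _ (by positivity)
    linarith
  linarith

lemma rp_one {n : ℕ} (hn : 0 < n) : rp (Lo 1) n = n := by
  have h1 : sp (Lo 1) n = 1 := by
    by_contra hne
    obtain ⟨p, hp, hpd⟩ := Nat.exists_prime_and_dvd hne
    have := sp_prime (Lo 1) hp hpd
    unfold Lo at this
    have := hp.two_le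
    omega
  have h2 := sp_mul_rp (Lo 1) hn
  rw [h1, one_mul] at h2
  exact h2

lemma sp_one {n : ℕ} : sp (Lo 1) n = 1 := by
  by_contra hne
  obtain ⟨p, hp, hpd⟩ := Nat.exists_prime_and_dvd hne
  have := sp_prime (Lo 1) hp hpd
  unfold Lo at this
  have := hp.two_le
  omega

/-- **Lemma AL**: pairs with `D ≥ (log p_-)^{-A}`, `p_-` the smallest unshared prime -/
theorem AL {A e2 : ℝ} (hA : 1 ≤ A) (he20 : 0 < e2) (he2 : 64*A*e2 ≤ 1) :
    ∃ C : ℝ, 0 < C ∧ ∃ p0 : ℕ, ∀ (T : Finset ℕ) (ψ : ℕ → ℝ) (PP : Finset (ℕ × ℕ)),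
      (∀ q ∈ T, 0 < q) → (∀ q ∈ T, 0 ≤ ψ q) → PP ⊆ T ×ˢ T →
      (∀ e ∈ PP, ∃ p, p0 < p ∧ First p e.1 e.2 ∧ 1/(Real.log p)^A ≤ DD e.1 e.2 (ψ e.1) (ψ e.2)) →
      ∑ e ∈ PP, wt ψ e.1 * wt ψ e.2 / DD e.1 e.2 (ψ e.1) (ψ e.2) ≤
        C * (tot T ψ + (tot T ψ)^(1+2*e2)) := by
  classical
  obtain ⟨C, hC, p1, hp1⟩ := ALplus hA he20 he2
  refine ⟨C, hC, max p1 3, ?_⟩
  intro T ψ PP hT hψ hPP hF
  set P := max p1 3 with hP
  have hP3 : 3 ≤ P := le_max_right _ _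
  have hPe : Real.exp 1 ≤ P := by
    have h1 := Real.exp_one_lt_d9
    have h2 : (3:ℝ) ≤ P := by exact_mod_cast hP3
    linarith
  -- number of blocks
  set N := T.sup id with hN
  set J := N + 1 with hJ
  have hlt : ∀ q ∈ T, q < P^(2^J) := by
    intro q hq
    have h1 : q ≤ N := Finset.le_sup (f := id) hq
    have h2 : J < 2^J := Nat.lt_two_pow_self
    have h3 : 2^J < P^(2^J) := Nat.lt_pow_self (by omega)
    omega
  have hex : ∀ e ∈ PP, ∃ i ∈ range J, ∃ p ∈ BL P i, First p e.1 e.2 ∧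
      1/(Real.log p)^A ≤ DD e.1 e.2 (ψ e.1) (ψ e.2) := by
    intro e he
    obtain ⟨p, hp, hf, hd⟩ := hF e he
    have hm := Finset.mem_product.1 (hPP he)
    -- p divides one of the two
    have hple : p < P^(2^J) := by
      have : p ∣ e.1 ∨ p ∣ e.2 := by
        by_contra hcon
        push Not at hcon
        apply hf.2.1
        rw [Nat.factorization_eq_zero_of_not_dvd hcon.1, Nat.factorization_eq_zero_of_not_dvd hcon.2]
      rcases this with h | h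
      · exact lt_of_le_of_lt (Nat.le_of_dvd (hT _ hm.1) h) (hlt _ hm.1)
      · exact lt_of_le_of_lt (Nat.le_of_dvd (hT _ hm.2) h) (hlt _ hm.2)
    -- the block of p
    have hexi : ∃ i, p ≤ P^(2^i) := ⟨J, hple.le⟩
    set i0 := Nat.find hexi with hi0
    have hs : p ≤ P^(2^i0) := Nat.find_spec hexi
    have hi1 : i0 ≠ 0 := by
      intro h
      rw [h, pow_zero, pow_one] at hs
      omega
    obtain ⟨i, hi⟩ := Nat.exists_eq_succ_of_ne_zero hi1
    have hni : ¬ p ≤ P^(2^i) := Nat.find_min hexi (by omega)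
    have hiJ : i0 ≤ J := Nat.find_min' hexi hple.le
    refine ⟨i, mem_range.2 (by omega), p, ?_, hf, hd⟩
    unfold BL
    rw [mem_primesIoc]
    refine ⟨⟨by omega, ?_⟩, hf.1⟩
    rw [hi] at hs
    exact hs
  set Q : ℕ → Finset (ℕ × ℕ) := fun i => PP.filter (fun e => ∃ p ∈ BL P i, First p e.1 e.2 ∧
      1/(Real.log p)^A ≤ DD e.1 e.2 (ψ e.1) (ψ e.2)) with hQ
  have key := hp1 P (le_max_left _ _) T ψ J (fun _ => 1) Q hT hψ (by
    intro i _
    refine { hT := hT, hψ := hψ, hPP := (Finset.filter_subset _ _).trans hPP, hw1 := le_rfl, hBp := ?_,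
             first := ?_, func := ?_ }
    · intro p hp
      have h1 := mem_primesIoc.1 hp
      have h2 := log_BL hPe hp
      have h3 : (1:ℝ) ≤ 2^i := one_le_pow₀ (by norm_num)
      have h4 : 1 ≤ Real.log p := h3.trans h2
      refine ⟨h1.2, h1.2.one_le, ?_, h4⟩
      rw [Nat.cast_one]
      exact Real.one_le_rpow h4 (by linarith)
    · intro e he
      obtain ⟨hePP, p, hp, hf, hd⟩ := Finset.mem_filter.1 he
      have hm := Finset.mem_product.1 (hPP hePP)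
      have h2 := log_BL hPe hp
      have h3 : (1:ℝ) ≤ 2^i := one_le_pow₀ (by norm_num)
      have h4 : 1 ≤ Real.log p := h3.trans h2
      refine ⟨p, hp, ?_, hd, ?_, ?_⟩
      · rw [rp_one (hT _ hm.1), rp_one (hT _ hm.2)]; exact hf
      · rw [sp_one, sp_one]
        have : cof 1 1 = 1 := by decide
        rw [this, Nat.cast_one]
        exact Real.one_le_rpow h4 (by linarith)
      · rw [sp_one, sp_one]
        have : cof 1 1 = 1 := by decide
        rw [this, Nat.cast_one]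
        exact Real.one_le_rpow h4 (by linarith)
    · intro e _ e' _ _ _
      rw [sp_one, sp_one, sp_one, sp_one]
      exact ⟨rfl, rfl⟩)
  refine le_trans ?_ key
  have hnn : ∀ e ∈ PP, 0 ≤ wt ψ e.1 * wt ψ e.2 / DD e.1 e.2 (ψ e.1) (ψ e.2) := by
    intro e he
    have hm := Finset.mem_product.1 (hPP he)
    exact div_nonneg (mul_nonneg (wt_nonneg (hψ _ hm.1)) (wt_nonneg (hψ _ hm.2))) (DD_nonneg (hψ _ hm.1))
  calc ∑ e ∈ PP, wt ψ e.1 * wt ψ e.2 / DD e.1 e.2 (ψ e.1) (ψ e.2)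
      ≤ ∑ e ∈ PP, ∑ i ∈ range J, if e ∈ Q i then wt ψ e.1 * wt ψ e.2 / DD e.1 e.2 (ψ e.1) (ψ e.2) else 0 := by
        apply Finset.sum_le_sum
        intro e he
        obtain ⟨i, hi, hp⟩ := hex e he
        have hmem : e ∈ Q i := Finset.mem_filter.2 ⟨he, hp⟩
        calc wt ψ e.1 * wt ψ e.2 / DD e.1 e.2 (ψ e.1) (ψ e.2)
            = if e ∈ Q i then wt ψ e.1 * wt ψ e.2 / DD e.1 e.2 (ψ e.1) (ψ e.2) else 0 := by rw [if_pos hmem]
          _ ≤ _ := by
              apply Finset.single_le_sum (f := fun i => if e ∈ Q i then wt ψ e.1 * wt ψ e.2 / DD e.1 e.2 (ψ e.1) (ψ e.2) else 0) _ hi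
              intro j _
              split_ifs
              · exact hnn e he
              · exact le_rfl
    _ = ∑ i ∈ range J, ∑ e ∈ Q i, wt ψ e.1 * wt ψ e.2 / DD e.1 e.2 (ψ e.1) (ψ e.2) := by
        rw [Finset.sum_comm]
        apply Finset.sum_congr rfl
        intro i _
        rw [← Finset.sum_filter]
        apply Finset.sum_congr _ (fun _ _ => rfl)
        ext e
        simp only [Finset.mem_filter, hQ]
        tauto

/-- **Lemma AL**, all primes: total `≤ C (M + M²)`. -/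
theorem AL_all {A : ℝ} (hA : 1 ≤ A) : ∃ C : ℝ, 0 < C ∧ ∀ (T : Finset ℕ) (ψ : ℕ → ℝ) (PP : Finset (ℕ × ℕ)),
      (∀ q ∈ T, 0 < q) → (∀ q ∈ T, 0 ≤ ψ q) → PP ⊆ T ×ˢ T →
      (∀ e ∈ PP, ∃ p, First p e.1 e.2 ∧ 1/(Real.log p)^A ≤ DD e.1 e.2 (ψ e.1) (ψ e.2)) →
      ∑ e ∈ PP, wt ψ e.1 * wt ψ e.2 / DD e.1 e.2 (ψ e.1) (ψ e.2) ≤ C * (tot T ψ + (tot T ψ)^2) := by
  classical
  have he0 : (0:ℝ) < 1/(64*A) := by positivity
  have he1 : 64*A*(1/(64*A)) ≤ 1 := by
    have : 64*A*(1/(64*A)) = 1 := by field_simp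
    rw [this]
  obtain ⟨C, hC, p0, hp0⟩ := AL hA he0 he1
  set K : ℝ := (Real.log (p0+3))^A with hK
  have hp3 : (1:ℝ) < Real.log (p0+3) := by
    rw [← Real.log_exp 1]
    apply Real.log_lt_log (Real.exp_pos 1)
    have h1 := Real.exp_one_lt_d9
    have h2 : (0:ℝ) ≤ p0 := by positivity
    linarith
  have hK1 : 1 ≤ K := Real.one_le_rpow hp3.le (by linarith)
  refine ⟨2*C + K, by positivity, ?_⟩
  intro T ψ PP hT hψ hPP hF
  set M := tot T ψ with hM
  have hM0 : 0 ≤ M := Finset.sum_nonneg fun v hv => wt_nonneg (hψ v hv)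
  set f : ℕ × ℕ → ℝ := fun e => wt ψ e.1 * wt ψ e.2 / DD e.1 e.2 (ψ e.1) (ψ e.2) with hf
  have hMM : M^(1+2*(1/(64*A))) ≤ M + M^2 := by
    have h2 : 2*(1/(64*A)) ≤ 1 := by
      rw [mul_one_div, div_le_one (by positivity)]; linarith
    rcases le_total M 1 with h | h
    · rcases hM0.eq_or_lt with h0 | h0
      · rw [← h0, Real.zero_rpow (by positivity)]; norm_num
      · calc M^(1+2*(1/(64*A))) ≤ M^(1:ℝ) := Real.rpow_le_rpow_of_exponent_ge h0 h (by linarith)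
          _ = M := Real.rpow_one _
          _ ≤ M + M^2 := by nlinarith
    · calc M^(1+2*(1/(64*A))) ≤ M^(2:ℝ) := Real.rpow_le_rpow_of_exponent_le h (by linarith)
        _ = M^2 := Real.rpow_two _
        _ ≤ M + M^2 := by linarith
  rw [← Finset.sum_filter_add_sum_filter_not PP (fun e => ∃ p, p0 < p ∧ First p e.1 e.2 ∧
      1/(Real.log p)^A ≤ DD e.1 e.2 (ψ e.1) (ψ e.2))]
  have h1 := hp0 T ψ (PP.filter (fun e => ∃ p, p0 < p ∧ First p e.1 e.2 ∧
      1/(Real.log p)^A ≤ DD e.1 e.2 (ψ e.1) (ψ e.2))) hT hψ ((Finset.filter_subset _ _).trans hPP)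
      (fun e he => (Finset.mem_filter.1 he).2)
  have h2 : ∑ e ∈ PP.filter (fun e => ¬ ∃ p, p0 < p ∧ First p e.1 e.2 ∧
      1/(Real.log p)^A ≤ DD e.1 e.2 (ψ e.1) (ψ e.2)), f e ≤ K * M^2 := by
    calc _ ≤ ∑ e ∈ PP.filter (fun e => ¬ ∃ p, p0 < p ∧ First p e.1 e.2 ∧
        1/(Real.log p)^A ≤ DD e.1 e.2 (ψ e.1) (ψ e.2)), K * (wt ψ e.1 * wt ψ e.2) := by
          apply Finset.sum_le_sum
          intro e he
          have hh' := Finset.mem_filter.1 he
          have hm := Finset.mem_product.1 (hPP hh'.1)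
          obtain ⟨p, hpf, hpd⟩ := hF e hh'.1
          have hpp0 : p ≤ p0 := by
            by_contra hcon
            exact hh'.2 ⟨p, not_le.1 hcon, hpf, hpd⟩
          have hl0 : 0 < Real.log p := Real.log_pos (by exact_mod_cast hpf.1.one_lt)
          have hlp : Real.log p ≤ Real.log (p0+3) := by
            apply Real.log_le_log (by exact_mod_cast hpf.1.pos)
            have : (p:ℝ) ≤ p0 := by exact_mod_cast hpp0
            linarith
          have hlA : (Real.log p)^A ≤ K := Real.rpow_le_rpow hl0.le hlp (by linarith)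
          have hlA0 : 0 < (Real.log p)^A := Real.rpow_pos_of_pos hl0 _
          have hDK : 1/K ≤ DD e.1 e.2 (ψ e.1) (ψ e.2) := (one_div_le_one_div_of_le hlA0 hlA).trans hpd
          have hK0 : 0 < K := by linarith
          have hww : 0 ≤ wt ψ e.1 * wt ψ e.2 := mul_nonneg (wt_nonneg (hψ _ hm.1)) (wt_nonneg (hψ _ hm.2))
          have hD0 : 0 < 1/K := by positivity
          calc f e ≤ wt ψ e.1 * wt ψ e.2 / (1/K) := div_le_div_of_nonneg_left hww hD0 hDK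
            _ = _ := by rw [div_div_eq_mul_div, div_one, mul_comm]
      _ ≤ ∑ e ∈ T ×ˢ T, K * (wt ψ e.1 * wt ψ e.2) := by
          apply Finset.sum_le_sum_of_subset_of_nonneg ((Finset.filter_subset _ _).trans hPP)
          intro e he _
          have hm := Finset.mem_product.1 he
          exact mul_nonneg (by linarith) (mul_nonneg (wt_nonneg (hψ _ hm.1)) (wt_nonneg (hψ _ hm.2)))
      _ = K * M^2 := by
          rw [← Finset.mul_sum, Finset.sum_product, sq, hM]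
          congr 1
          unfold tot
          rw [Finset.sum_mul_sum]
  have h3 : C * (M + M^(1+2*(1/(64*A)))) ≤ C * (M + (M + M^2)) :=
    mul_le_mul_of_nonneg_left (by linarith) hC.le
  have h4 : 0 ≤ K * M := by positivity
  have h5 : 0 ≤ C * M^2 := by positivity
  calc _ ≤ C * (M + (M + M^2)) + K * M^2 := add_le_add (h1.trans h3) h2
    _ ≤ (2*C + K) * (M + M^2) := by nlinarith

end Crest.Agent.R4.X734
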