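import Crest.Agent.R4.WalkYR560
import Crest.Agent.R4.GSt927
import Crest.Agent.R4.CrossInv709

/-!
R4 (S0004), module D: item data of the cross walk `WalkYR560` and the **potential of the item pairs**.

`SY` : one side; `sy_tie`, `sy_two` : the parts of a column.  `YI` : both sides, `YI.next`.
-/

set_option autoImplicit false
set_option linter.unusedSectionVars false
set_option linter.unusedVariables false
set_option linter.unusedSimpArgs false

namespace Crest.Agent.R4.YI560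

open Crest.Agent.R4.Tour104 Crest.Agent.R4.Tour758 Crest.Agent.R4.Avg758 Crest.Agent.R4.Clos758
open Crest.Agent.R4.ClosL758 Crest.Agent.R4.ClosG758 Crest.Agent.R4.ClosR758
open Crest.Agent.R4.Cnt588 Crest.Agent.R4.Walk560 Crest.Agent.R4.Item758 Crest.Agent.R4.AvgItem710
open Crest.Agent.R4.Bld532 (NS All NodeOk Bk)
open Crest.Agent.R4.WalkIT579 Crest.Agent.R4.GSt927 Crest.Agent.R4.CrossInv709
open Crest.Agent.R4.WalkX560 Crest.Agent.R4.WalkYR560 Crest.Agent.R4.NMW710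
open Crest.Agent.R4

variable {Λ κ : Type*} [Fintype Λ] [DecidableEq Λ] [Fintype κ] [DecidableEq κ] [WRel κ]
  {D : Par Λ κ} {sp : ℕ → Finset Λ} {P : Bld532.Par} {W : ℕ → ℝ} {Qp : NS → IT → Prop}
  {Al : Finset ℕ}

/-- leaves are not split -/
def pr0 (Λ : Type*) : ℕ → Finset Λ := fun _ => ∅

/-- one side of the cross walk at the level `n` -/
structure SY (D : Par Λ κ) (sp : ℕ → Finset Λ) (Qp : NS → IT → Prop) (n : ℕ) (u : NS) (τ : IT)
    (A : Finset Λ) (t : DT Λ κ) : Prop where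
  S : SideI D sp u.B u.A τ A t
  lv : u.n = n ∨ (isL τ ∧ n ≤ u.n)
  q : All Qp u τ
  il : IL D.it A

/-- hypotheses on the node predicate and the retained populations -/
structure YH (D : Par Λ κ) (sp : ℕ → Finset Λ) (P : Bld532.Par) (W : ℕ → ℝ)
    (Qp : NS → IT → Prop) : Prop where
  nd : ∀ u τ, Qp u τ → NodeOk P W u τ
  up : ∀ u p S t, Qp u (.up p S t) → ∀ j, D.it j ∈ t.items → p ∣ D.it j → j ∈ sp p
  spok : D.SpOk sp
  il : ∀ b, IL D.it (sp b)
  dv : ∀ b, ∀ j ∈ sp b, b ∣ D.it j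

lemma SY.ge {n : ℕ} {u : NS} {τ : IT} {A : Finset Λ} {t : DT Λ κ} (h : SY D sp Qp n u τ A t) :
    n ≤ u.n := by
  rcases h.lv with h1 | h1
  · exact h1.ge
  · exact h1.2

lemma SY.copA (hh : YH D sp P W Qp) {n : ℕ} {u : NS} {τ : IT} {A : Finset Λ} {t : DT Λ κ}
    (h : SY D sp Qp n u τ A t) {p : ℕ} (hp : p.Prime) (hn : p < n) : Nat.Coprime p u.A :=
  (bk_of_nodeOk (hh.nd _ _ h.q.self)).copA hp (lt_of_lt_of_le hn h.ge)

lemma SY.dvd (hh : YH D sp P W Qp) {n : ℕ} {u : NS} {τ : IT} {A : Finset Λ} {t : DT Λ κ}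
    (h : SY D sp Qp n u τ A t) {q : ℕ} (hq : q ∈ τ.items) : u.A ∣ q :=
  (bk_of_nodeOk (hh.nd _ _ h.q.self)).dvd q hq

/-- the column of a nonleaf side is the column of the walk -/
lemma SY.tp (hh : YH D sp P W Qp) {n : ℕ} {u : NS} {τ : IT} {A : Finset Λ} {t : DT Λ κ}
    (h : SY D sp Qp n u τ A t) (hl : ¬ isL τ) (h0 : lp n ≠ 0) : WalkIT579.tp τ = lp n := by
  obtain ⟨hp, hn⟩ := lp_spec h0
  have e : u.n = n := by
    rcases h.lv with h1 | h1
    · exact h1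
    · exact absurd h1.1 hl
  obtain ⟨a1, a2, a3⟩ := top_of_nodeOk (hh.nd _ _ h.q.self) hl
  exact le_antisymm (le_lp a1 (e ▸ a2)) (a3 _ hp (e ▸ hn))

/-- an `up` side without splitting -/
lemma SY.lower {n m : ℕ} {u : NS} {τ : IT} {A : Finset Λ} {t : DT Λ κ}
    (h : SY D sp Qp n u τ A t) (hl : isL τ) (hm : m ≤ n) : SY D sp Qp m u τ A t :=
  ⟨h.S, Or.inr ⟨hl, hm.trans h.ge⟩, h.q, h.il⟩

/-- a part of a side: items, populations, divisibility -/
structure Pt (D : Par Λ κ) (sp : ℕ → Finset Λ) (Qp : NS → IT → Prop) (p : ℕ) (v : NS) (τ σ : IT)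
    (A A₁ : Finset Λ) (t₁ : DT Λ κ) : Prop where
  y : SY D sp Qp p v σ A₁ t₁
  sub : σ.items ⊆ τ.items
  subA : A₁ ⊆ A
  mt : ∀ q ∈ σ.items, (∃ j ∈ A₁, D.it j = q) → σ.mt q = (τ.mt q).erase p

lemma mt_lt {τ : IT} : ∀ {n : ℕ}, τ.Ok n → ∀ q, ∀ l ∈ τ.mt q, l < n := by
  induction τ with
  | leaf S => intro n _ q l hl; simp [IT.mt] at hl
  | br p t₁ t₀ ih₁ ih₀ =>
    intro n h q l hl
    obtain ⟨h1, h2, h3, h4, h5⟩ := h
    simp only [IT.mt] at hl
    split_ifs at hl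
    · rcases Finset.mem_insert.1 hl with rfl | hl
      · exact h2
      · exact (ih₀ h5 q l hl).trans h2
    · exact (ih₁ h4 q l hl).trans h2
  | add p t₁ t₀ ih₁ ih₀ =>
    intro n h q l hl
    obtain ⟨h1, h2, h3, h4, h5⟩ := h
    simp only [IT.mt] at hl
    split_ifs at hl
    · exact (ih₀ h5 q l hl).trans h2
    · exact (ih₁ h4 q l hl).trans h2
  | up b Sp t ih =>
    intro n h q l hl
    obtain ⟨h1, h2, h3, h4⟩ := h
    exact (ih h4 q l hl).trans h2

lemma not_dvd_of_div {p A q : ℕ} (hc : Nat.Coprime p A) (hA : A ∣ q) (h : ¬ p ∣ q / A) : ¬ p ∣ q :=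
  fun h' => h (dvd_div_of hA hc h')

/-- **tie columns** -/
theorem sy_tie (hh : YH D sp P W Qp) {n : ℕ} {u : NS} {τ : IT} {A : Finset Λ} {t : DT Λ κ}
    (h : SY D sp Qp n u τ A t) (h0 : lp n ≠ 0) {w : ℝ} {r : Λ → κ} {t₁ t₀ : DT Λ κ}
    {v : Λ → ℝ → ℝ} {B G : κ → ℝ → ℝ} (hv : sv (pr0 Λ) (lp n) t A = .tie w r t₁ t₀ v B G) :
    ∃ τ₁ τ₀, τ = .br (lp n) τ₁ τ₀ ∧ r = D.rho (lp n) ∧ w = 1 / (lp n : ℝ) ∧
      Pt D sp Qp (lp n) (nP u (lp n)) τ τ₁ A A t₁ ∧ Pt D sp Qp (lp n) (nM u (lp n)) τ τ₀ A A t₀ ∧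
      Disjoint τ₁.items τ₀.items ∧ (∀ q ∈ τ₁.items, u.A * lp n ∣ q ∧ 0 < q) ∧
      (∀ q ∈ τ₀.items, ¬ lp n ∣ q / u.A) ∧ (∀ q ∈ τ₀.items, lp n ∈ τ.mt q) ∧
      (∀ q ∈ τ₁.items, lp n ∉ τ.mt q) := by
  obtain ⟨hp, hn⟩ := lp_spec h0
  cases t with
  | leaf r' f => simp [sv] at hv
  | add q' r' a b => simp only [sv] at hv; split_ifs at hv
  | up q' S a => simp only [sv] at hv; split_ifs at hv
  | br q' w' r' d₁ d₀ v' B' G' =>
    simp only [sv] at hv
    split_ifs at hv with hq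
    subst hq
    cases hv
    have hne : ¬ isL τ := by
      intro hl
      cases τ with
      | leaf S => have := h.S.eq; simp [Par.toDT] at this
      | br _ _ _ => exact hl
      | add _ _ _ => exact hl
      | up _ _ _ => exact hl
    have e : u.n = n := by
      rcases h.lv with h1 | h1
      · exact h1
      · exact absurd h1.1 hne
    obtain ⟨τ₁, τ₀, rfl, rfl, rfl, rfl, hw, -⟩ := AvgItem710.toDT_br h.S.eq.symm
    have hN := hh.nd _ _ h.q.self
    have d1 := GSt927.NodeOk.br_dvd hN h.S.hF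
    obtain ⟨m, hm⟩ := h.S.ok
    have hdis : Disjoint τ₁.items τ₀.items := hm.2.2.1
    have hbk := bk_of_nodeOk hN
    have hms : τ₀.items = Bld532.ms (lp n) (τ₁.items ∪ τ₀.items) := hN.2.2.2.2.2.2.1
    have nd0 : ∀ q ∈ τ₀.items, ¬ lp n ∣ q / u.A := by
      intro q hq hd
      have hqi : q ∈ (IT.br (lp n) τ₁ τ₀).items := Finset.mem_union_right _ hq
      rw [hms] at hq
      exact (Bld532.mem_ms.1 hq).2 (dvd_of_div (hbk.dvd q hqi) hd)
    have hnot0 : ∀ q, lp n ∉ τ₀.mt q := fun q hq => absurd (mt_lt hm.2.2.2.2 q _ hq) (lt_irrefl _)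
    have hnot1 : ∀ q, lp n ∉ τ₁.mt q := fun q hq => absurd (mt_lt hm.2.2.2.1 q _ hq) (lt_irrefl _)
    have hmt1 : ∀ q ∈ τ₁.items, (IT.br (lp n) τ₁ τ₀).mt q = τ₁.mt q := by
      intro q hq
      simp only [IT.mt]
      rw [if_neg (Finset.disjoint_left.1 hdis hq)]
    have hmt0 : ∀ q ∈ τ₀.items, (IT.br (lp n) τ₁ τ₀).mt q = insert (lp n) (τ₀.mt q) := by
      intro q hq
      simp only [IT.mt]
      rw [if_pos hq]
    refine ⟨τ₁, τ₀, rfl, rfl, hw, ?_, ?_, hdis, d1, nd0, ?_, ?_⟩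
    · exact ⟨⟨h.S.br₁, Or.inl rfl, h.q.2.1, h.il⟩, Finset.subset_union_left, subset_rfl,
        fun q hq _ => by rw [hmt1 q hq, Finset.erase_eq_of_notMem (hnot1 q)]⟩
    · exact ⟨⟨h.S.br₀, Or.inl rfl, h.q.2.2, h.il⟩, Finset.subset_union_right, subset_rfl,
        fun q hq _ => by rw [hmt0 q hq, Finset.erase_insert (hnot0 q)]⟩
    · intro q hq
      rw [hmt0 q hq]
      exact Finset.mem_insert_self _ _
    · intro q hq
      rw [hmt1 q hq]
      exact hnot1 q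


/-- the items of a side -/
noncomputable abbrev It (D : Par Λ κ) (Al : Finset ℕ) (τ : IT) (A : Finset Λ) : Finset ℕ := Qi D Al τ A

/-- a part contains only items of the side -/
lemma Pt.it {p : ℕ} {v : NS} {τ σ : IT} {A A₁ : Finset Λ} {t₁ : DT Λ κ}
    (h : Pt D sp Qp p v τ σ A A₁ t₁) : Qi D Al σ A₁ ⊆ Qi D Al τ A := by
  intro q hq
  obtain ⟨h1, h2, j, hj, e⟩ := mem_Qi.1 hq
  exact mem_Qi.2 ⟨h.sub h1, h2, j, h.subA hj, e⟩

lemma AdS_empty' (t : TrG Λ κ) : AdS t (∅ : Finset Λ) := by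
  induction t with
  | leaf r f => exact WalkX560.Sat_empty _
  | br P w r t₁ t₀ v B G ih₁ ih₀ => exact ⟨WalkX560.Sat_empty _, ih₁, ih₀⟩
  | add r t₁ t₀ ih₁ ih₀ => exact ⟨WalkX560.Sat_empty _, ih₁, ih₀⟩

/-- **columns which are not ties** : part with the prime, part without it -/
theorem sy_two (hh : YH D sp P W Qp) {n : ℕ} {u : NS} {τ : IT} {A : Finset Λ} {t : DT Λ κ}
    (h : SY D sp Qp n u τ A t) (h0 : lp n ≠ 0) {A₁ A₀ : Finset Λ} {t₁ t₀ : DT Λ κ}
    (hv : sv (pr0 Λ) (lp n) t A = .two t₁ A₁ t₀ A₀) :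
    ∃ (τ₁ τ₀ : IT) (v : NS), v.A = u.A ∧ v.B = u.B ∧
      Pt D sp Qp (lp n) v τ τ₁ A A₁ t₁ ∧ Pt D sp Qp (lp n) v τ τ₀ A A₀ t₀ ∧
      Disjoint (Qi D Al τ₁ A₁) (Qi D Al τ₀ A₀) ∧
      (∀ q ∈ Qi D Al τ₁ A₁, lp n ∣ q / u.A) ∧
      (¬ isL τ → ∀ q ∈ Qi D Al τ₀ A₀, ¬ lp n ∣ q / u.A) ∧
      (∀ q ∈ τ.items, lp n ∉ τ.mt q) ∧
      (WalkY560.isAdd (lp n) t → τ.items = τ₁.items ∪ τ₀.items ∧ A₁ = A ∧ A₀ = A) ∧
      (¬ WalkY560.isAdd (lp n) t → τ₀.items = τ.items ∧
        Pt D sp Qp (lp n) v τ τ₀ A A t₀) := by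
  obtain ⟨hp, hn⟩ := lp_spec h0
  have hN := hh.nd _ _ h.q.self
  have hbk := bk_of_nodeOk hN
  obtain ⟨m, hm⟩ := h.S.ok
  have hcA := h.copA hh hp hn
  cases τ with
  | leaf S =>
    have et : t = D.toDT sp u.B u.A (.leaf S) := h.S.eq
    have hge := h.ge
    rw [et] at hv
    simp only [Par.toDT, sv] at hv
    injection hv with e1 e2 e3 e4
    subst e1; subst e2; subst e3; subst e4
    have eA : A ∩ pr0 Λ (lp n) = ∅ := Finset.inter_empty A
    have eA' : A \ pr0 Λ (lp n) = A := Finset.sdiff_empty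
    have y : SY D sp Qp (lp n) u (.leaf S) A (D.toDT sp u.B u.A (.leaf S)) :=
      ⟨et ▸ h.S, Or.inr ⟨trivial, hn.le.trans hge⟩, h.q, h.il⟩
    have y0 : SY D sp Qp (lp n) u (.leaf S) ∅ (D.toDT sp u.B u.A (.leaf S)) :=
      ⟨y.S.pop (AdS_empty' _), y.lv, y.q, IL_empty _⟩
    have hmt : ∀ q, (IT.leaf S).mt q = ((IT.leaf S).mt q).erase (lp n) := fun q => by simp [IT.mt]
    rw [eA, eA']
    have hna : ¬ WalkY560.isAdd (lp n) t := by rw [et]; simp [Par.toDT, WalkY560.isAdd]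
    refine ⟨.leaf S, .leaf S, u, rfl, rfl, ⟨y0, subset_rfl, Finset.empty_subset _, fun q _ _ => hmt q⟩,
      ⟨y, subset_rfl, subset_rfl, fun q _ _ => hmt q⟩, ?_, ?_, fun hl => absurd trivial hl,
      fun q _ => by simp [IT.mt], fun ha => absurd ha hna,
      fun _ => ⟨rfl, y, subset_rfl, subset_rfl, fun q _ _ => hmt q⟩⟩
    · rw [Finset.disjoint_left]
      intro q hq
      obtain ⟨-, -, j, hj, -⟩ := mem_Qi.1 hq
      simp at hj
    · intro q hq
      obtain ⟨-, -, j, hj, -⟩ := mem_Qi.1 hq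
      simp at hj
  | br p τ₁ τ₀ =>
    exfalso
    have e := h.tp hh (by simp [isL]) h0
    simp only [WalkIT579.tp] at e
    have et : t = D.toDT sp u.B u.A (.br p τ₁ τ₀) := h.S.eq
    rw [et] at hv
    simp only [Par.toDT, sv] at hv
    rw [if_pos e] at hv
    cases hv
  | add p τ₁ τ₀ =>
    have e := h.tp hh (by simp [isL]) h0
    simp only [WalkIT579.tp] at e
    subst e
    have et : t = D.toDT sp u.B u.A (.add (lp n) τ₁ τ₀) := h.S.eq
    have hisadd : WalkY560.isAdd (lp n) t := by rw [et]; simp [Par.toDT, WalkY560.isAdd]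
    rw [et] at hv
    simp only [Par.toDT, sv, if_true] at hv
    injection hv with e1 e2 e3 e4
    subst e1; subst e2; subst e3; subst e4
    have hdis : Disjoint τ₁.items τ₀.items := hm.2.2.1
    have hms : τ₀.items = Bld532.ms (lp n) (τ₁.items ∪ τ₀.items) := hN.2.2.2.2.2.2.1
    have nd0 : ∀ q ∈ τ₀.items, ¬ lp n ∣ q / u.A := by
      intro q hq hd
      have hqi : q ∈ (IT.add (lp n) τ₁ τ₀).items := Finset.mem_union_right _ hq
      rw [hms] at hq
      exact (Bld532.mem_ms.1 hq).2 (dvd_of_div (hbk.dvd q hqi) hd)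
    have hnot0 : ∀ q, lp n ∉ τ₀.mt q := fun q hq => absurd (mt_lt hm.2.2.2.2 q _ hq) (lt_irrefl _)
    have hnot1 : ∀ q, lp n ∉ τ₁.mt q := fun q hq => absurd (mt_lt hm.2.2.2.1 q _ hq) (lt_irrefl _)
    have hmt1 : ∀ q ∈ τ₁.items, (IT.add (lp n) τ₁ τ₀).mt q = τ₁.mt q := by
      intro q hq
      simp only [IT.mt]
      rw [if_neg (Finset.disjoint_left.1 hdis hq)]
    have hmt0 : ∀ q ∈ τ₀.items, (IT.add (lp n) τ₁ τ₀).mt q = τ₀.mt q := by
      intro q hq
      simp only [IT.mt]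
      rw [if_pos hq]
    have nad : ∀ q ∈ (IT.add (lp n) τ₁ τ₀).items, lp n ∉ (IT.add (lp n) τ₁ τ₀).mt q := by
      intro q hq
      rcases Finset.mem_union.1 hq with hq | hq
      · rw [hmt1 q hq]; exact hnot1 q
      · rw [hmt0 q hq]; exact hnot0 q
    refine ⟨τ₁, τ₀, nS u (lp n), rfl, rfl,
      ⟨⟨h.S.add₁, Or.inl rfl, h.q.2.1, h.il⟩, Finset.subset_union_left, subset_rfl,
        fun q hq _ => by rw [hmt1 q hq, Finset.erase_eq_of_notMem (hnot1 q)]⟩,
      ⟨⟨h.S.add₀, Or.inl rfl, h.q.2.2, h.il⟩, Finset.subset_union_right, subset_rfl,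
        fun q hq _ => by rw [hmt0 q hq, Finset.erase_eq_of_notMem (hnot0 q)]⟩, ?_, ?_, ?_, nad,
      fun _ => ⟨rfl, rfl, rfl⟩, fun hna => absurd hisadd hna⟩
    · rw [Finset.disjoint_left]
      intro q hq hq'
      exact Finset.disjoint_left.1 hdis (mem_Qi.1 hq).1 (mem_Qi.1 hq').1
    · intro q hq
      exact GSt927.NodeOk.add_dvd hN q (mem_Qi.1 hq).1
    · intro _ q hq
      exact nd0 q (mem_Qi.1 hq).1
  | up p S σ =>
    have e := h.tp hh (by simp [isL]) h0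
    simp only [WalkIT579.tp] at e
    subst e
    have et : t = D.toDT sp u.B u.A (.up (lp n) S σ) := h.S.eq
    have hna : ¬ WalkY560.isAdd (lp n) t := by rw [et]; simp [Par.toDT, WalkY560.isAdd]
    rw [et] at hv
    simp only [Par.toDT, sv, if_true] at hv
    injection hv with e1 e2 e3 e4
    subst e1; subst e2; subst e3; subst e4
    obtain ⟨s1, s0⟩ := h.S.spl hh.spok
    have hnot : ∀ q, lp n ∉ σ.mt q := fun q hq => absurd (mt_lt hm.2.2.2 q _ hq) (lt_irrefl _)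
    have hmt : ∀ q, (IT.up (lp n) S σ).mt q = σ.mt q := fun q => rfl
    have hupQ := hh.up _ _ _ _ h.q.self
    refine ⟨σ, σ, nS u (lp n), rfl, rfl,
      ⟨⟨s1, Or.inl rfl, h.q.2, IL_inter h.il (hh.il _)⟩, subset_rfl, Finset.inter_subset_left,
        fun q hq _ => by rw [hmt, Finset.erase_eq_of_notMem (hnot q)]⟩,
      ⟨⟨s0, Or.inl rfl, h.q.2, IL_sdiff h.il (hh.il _)⟩, subset_rfl, Finset.sdiff_subset,
        fun q hq _ => by rw [hmt, Finset.erase_eq_of_notMem (hnot q)]⟩, ?_, ?_, ?_,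
      fun q _ => hnot q, fun ha => absurd ha hna,
      fun _ => ⟨rfl, ⟨h.S.up, Or.inl rfl, h.q.2, h.il⟩, subset_rfl, subset_rfl,
        fun q hq _ => by rw [hmt, Finset.erase_eq_of_notMem (hnot q)]⟩⟩
    · rw [Finset.disjoint_left]
      intro q hq hq'
      obtain ⟨-, -, j, hj, ej⟩ := mem_Qi.1 hq
      obtain ⟨-, -, j', hj', ej'⟩ := mem_Qi.1 hq'
      have h1 := (Finset.mem_inter.1 hj).2
      have h2 := (Finset.mem_sdiff.1 hj').2
      exact h2 ((hh.il _ j j' (ej.trans ej'.symm)).1 h1)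
    · intro q hq
      obtain ⟨hqi, -, j, hj, ej⟩ := mem_Qi.1 hq
      have h1 := hh.dv _ j (Finset.mem_inter.1 hj).2
      rw [ej] at h1
      exact dvd_div_of (hbk.dvd q hqi) hcA h1
    · intro _ q hq hd
      obtain ⟨hqi, -, j, hj, ej⟩ := mem_Qi.1 hq
      have h1 : lp n ∣ D.it j := ej ▸ dvd_of_div (hbk.dvd q hqi) hd
      exact (Finset.mem_sdiff.1 hj).2 (hupQ j (ej ▸ hqi) h1)

/-! ### two sides -/

/-- **item data of a state of the cross walk** -/
structure YI (D : Par Λ κ) (sp : ℕ → Finset Λ) (Qp : NS → IT → Prop)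
    (RP : Finset (Λ × Λ) → Prop) (x : YR Λ κ) (u u' : NS) (τ τ' : IT) : Prop where
  L : SY D sp Qp x.n u τ x.s.A x.s.t
  R : SY D sp Qp x.n u' τ' x.s.A' x.s.t'
  aL : Avgs x.n x.s.M x.s.O'
  aR : Avgs x.n x.s.M' x.s.O
  rp : RP x.s.R

/-- the state without levels -/
lemma YI.st {RP : Finset (Λ × Λ) → Prop} {x : YR Λ κ} {u u' : NS} {τ τ' : IT}
    (h : YI D sp Qp RP x u u' τ τ') : StI D sp x.s u.B u.A τ u'.B u'.A τ' :=
  ⟨h.L.S, h.R.S, h.aL.M0, h.aR.M0⟩

/-- the scale pair of a pair of items -/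
noncomputable def yS (x : YR Λ κ) (u u' : NS) (e : ℕ × ℕ) : ℝ × ℝ :=
  sc (sd (e.1 / u.A) x.s.M (u.B : ℝ)) (sd (e.2 / u'.A) x.s.M' (u'.B : ℝ))

/-- item pairs of a state -/
noncomputable abbrev Ep' (D : Par Λ κ) (Al : Finset ℕ) (x : YR Λ κ) (τ τ' : IT) :
    Finset (ℕ × ℕ) := Qi D Al τ x.s.A ×ˢ Qi D Al τ' x.s.A'

/-- what a pair may pay in a column -/
noncomputable def cT (Vc Vx : ℕ → ℝ × ℝ → ℕ × ℕ → ℝ) (l : ℕ) (s : ℝ × ℝ) (e : ℕ × ℕ) : ℝ :=
  2 * Vc l s e + (if l ∣ e.1 ∨ l ∣ e.2 then 0 else Vx l s e)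

/-- potential of a pair -/
noncomputable def pot (Vs : ℝ × ℝ → ℕ × ℕ → ℝ) (Vc Vx : ℕ → ℝ × ℝ → ℕ × ℕ → ℝ) (x : YR Λ κ)
    (u u' : NS) (τ τ' : IT) (e : ℕ × ℕ) : ℝ :=
  ((u.B : ℝ) * u'.B) * (Vs (yS x u u' e) e +
    ∑ l ∈ τ.mt e.1 ∪ τ'.mt e.2, cT Vc Vx l (yS x u u' e) e)

open Classical in
/-- what a pair may pay at a state -/
noncomputable def lc (stp : YR Λ κ → Prop) (Vs : ℝ × ℝ → ℕ × ℕ → ℝ)
    (Vc Vx : ℕ → ℝ × ℝ → ℕ × ℕ → ℝ) (x : YR Λ κ) (u u' : NS) (τ τ' : IT) (e : ℕ × ℕ) : ℝ :=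
  ((u.B : ℝ) * u'.B) * (if stp x ∨ lp x.n = 0 then Vs (yS x u u' e) e else
    if lp x.n ∈ τ.mt e.1 ∪ τ'.mt e.2 then cT Vc Vx (lp x.n) (yS x u u' e) e else 0)

section pots
variable {Vs : ℝ × ℝ → ℕ × ℕ → ℝ} {Vc Vx : ℕ → ℝ × ℝ → ℕ × ℕ → ℝ}

lemma cT_nonneg (h1 : ∀ l s e, 0 ≤ Vc l s e) (h2 : ∀ l s e, 0 ≤ Vx l s e) (l : ℕ) (s : ℝ × ℝ)
    (e : ℕ × ℕ) : 0 ≤ cT Vc Vx l s e := by
  unfold cT
  have := h1 l s e
  have := h2 l s e
  split_ifs <;> linarith

lemma lc_le_pot (h0 : ∀ s e, 0 ≤ Vs s e) (h1 : ∀ l s e, 0 ≤ Vc l s e)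
    (h2 : ∀ l s e, 0 ≤ Vx l s e) (stp : YR Λ κ → Prop) (x : YR Λ κ) (u u' : NS) (τ τ' : IT)
    (e : ℕ × ℕ) : lc stp Vs Vc Vx x u u' τ τ' e ≤ pot Vs Vc Vx x u u' τ τ' e := by
  unfold lc pot
  apply mul_le_mul_of_nonneg_left _ (by positivity)
  have hs : 0 ≤ ∑ l ∈ τ.mt e.1 ∪ τ'.mt e.2, cT Vc Vx l (yS x u u' e) e :=
    Finset.sum_nonneg fun l _ => cT_nonneg h1 h2 _ _ _
  have hv := h0 (yS x u u' e) e
  split_ifs with ha hb
  · linarith
  · have := Finset.single_le_sum (f := fun l => cT Vc Vx l (yS x u u' e) e)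
      (fun l _ => cT_nonneg h1 h2 _ _ _) hb
    linarith
  · linarith

/-- a pair which continues -/
lemma pot_step (h0 : ∀ s e, 0 ≤ Vs s e) (h1 : ∀ l s e, 0 ≤ Vc l s e)
    (h2 : ∀ l s e, 0 ≤ Vx l s e) {stp : YR Λ κ → Prop} {x y : YR Λ κ} {u u' v v' : NS}
    {τ τ' σ σ' : IT} {e : ℕ × ℕ} {w : ℝ} (hns : ¬ (stp x ∨ lp x.n = 0)) (hw : 0 ≤ w)
    (hS : yS y v v' e = yS x u u' e) (hm : σ.mt e.1 = (τ.mt e.1).erase (lp x.n))
    (hm' : σ'.mt e.2 = (τ'.mt e.2).erase (lp x.n))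
    (hB : w * ((v.B : ℝ) * v'.B) ≤ (u.B : ℝ) * u'.B) :
    w * pot Vs Vc Vx y v v' σ σ' e + lc stp Vs Vc Vx x u u' τ τ' e ≤
      pot Vs Vc Vx x u u' τ τ' e := by
  unfold lc pot
  rw [if_neg hns, hS, hm, hm']
  set p := lp x.n with hp
  set s := yS x u u' e with hs
  have e1 : (τ.mt e.1).erase p ∪ (τ'.mt e.2).erase p = (τ.mt e.1 ∪ τ'.mt e.2).erase p := by
    ext l
    simp only [Finset.mem_union, Finset.mem_erase]
    tauto
  rw [e1]
  have hc : ∀ l, 0 ≤ cT Vc Vx l s e := fun l => cT_nonneg h1 h2 _ _ _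
  have hX : 0 ≤ Vs s e + ∑ l ∈ (τ.mt e.1 ∪ τ'.mt e.2).erase p, cT Vc Vx l s e :=
    add_nonneg (h0 _ _) (Finset.sum_nonneg fun l _ => hc l)
  have hstep : w * (((v.B : ℝ) * v'.B) * (Vs s e +
      ∑ l ∈ (τ.mt e.1 ∪ τ'.mt e.2).erase p, cT Vc Vx l s e)) ≤
      ((u.B : ℝ) * u'.B) * (Vs s e +
      ∑ l ∈ (τ.mt e.1 ∪ τ'.mt e.2).erase p, cT Vc Vx l s e) := by
    rw [← mul_assoc]
    exact mul_le_mul_of_nonneg_right hB hX
  by_cases hpm : p ∈ τ.mt e.1 ∪ τ'.mt e.2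
  · rw [if_pos hpm]
    have e2 := Finset.add_sum_erase _ (fun l => cT Vc Vx l s e) hpm
    rw [← e2]
    nlinarith [hstep]
  · rw [if_neg hpm, Finset.erase_eq_of_notMem hpm] at *
    linarith

end pots

/-- disjoint rectangles of a product -/
lemma sum_quad {ι : Type*} [DecidableEq ι] {I I₁ I₀ I' I₁' I₀' : Finset ι} (hd : Disjoint I₁ I₀)
    (hd' : Disjoint I₁' I₀') (s1 : I₁ ⊆ I) (s0 : I₀ ⊆ I) (s1' : I₁' ⊆ I') (s0' : I₀' ⊆ I')
    (f11 f10 f01 f00 g F : ι × ι → ℝ) (h11 : ∀ e ∈ I₁ ×ˢ I₁', f11 e + g e ≤ F e)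
    (h10 : ∀ e ∈ I₁ ×ˢ I₀', f10 e + g e ≤ F e) (h01 : ∀ e ∈ I₀ ×ˢ I₁', f01 e + g e ≤ F e)
    (h00 : ∀ e ∈ I₀ ×ˢ I₀', f00 e + g e ≤ F e) (hg : ∀ e ∈ I ×ˢ I', g e ≤ F e) :
    ∑ e ∈ I ×ˢ I', g e + ∑ e ∈ I₁ ×ˢ I₁', f11 e + ∑ e ∈ I₁ ×ˢ I₀', f10 e +
      ∑ e ∈ I₀ ×ˢ I₁', f01 e + ∑ e ∈ I₀ ×ˢ I₀', f00 e ≤ ∑ e ∈ I ×ˢ I', F e := by
  have key : ∀ (J J' : Finset ι) (f : ι × ι → ℝ), J ⊆ I → J' ⊆ I' →
      ∑ e ∈ J ×ˢ J', f e = ∑ e ∈ I ×ˢ I', if e ∈ J ×ˢ J' then f e else 0 := by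
    intro J J' f hJ hJ'
    rw [← Finset.sum_filter, Finset.filter_mem_eq_inter,
      Finset.inter_eq_right.2 (Finset.product_subset_product hJ hJ')]
  rw [key _ _ f11 s1 s1', key _ _ f10 s1 s0', key _ _ f01 s0 s1', key _ _ f00 s0 s0',
    ← Finset.sum_add_distrib, ← Finset.sum_add_distrib, ← Finset.sum_add_distrib,
    ← Finset.sum_add_distrib]
  refine Finset.sum_le_sum fun e he => ?_
  have a1 : e.1 ∈ I₁ → e.1 ∉ I₀ := fun h => Finset.disjoint_left.1 hd h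
  have a2 : e.2 ∈ I₁' → e.2 ∉ I₀' := fun h => Finset.disjoint_left.1 hd' h
  have k := hg e he
  have k11 := h11 e
  have k10 := h10 e
  have k01 := h01 e
  have k00 := h00 e
  simp only [Finset.mem_product] at k11 k10 k01 k00 ⊢
  by_cases b1 : e.1 ∈ I₁
  · have c1 := a1 b1
    by_cases b2 : e.2 ∈ I₁'
    · have c2 := a2 b2
      simp only [b1, b2, c1, c2, and_true, true_and, and_false, false_and, if_true, if_false] at *
      linarith [k11 trivial]
    · by_cases c2 : e.2 ∈ I₀'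
      · simp only [b1, b2, c1, c2, and_true, true_and, and_false, false_and, if_true, if_false] at *
        linarith [k10 trivial]
      · simp only [b1, b2, c1, c2, and_true, true_and, and_false, false_and, if_true, if_false] at *
        linarith
  · by_cases c1 : e.1 ∈ I₀
    · by_cases b2 : e.2 ∈ I₁'
      · have c2 := a2 b2
        simp only [b1, b2, c1, c2, and_true, true_and, and_false, false_and, if_true, if_false] at *
        linarith [k01 trivial]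
      · by_cases c2 : e.2 ∈ I₀'
        · simp only [b1, b2, c1, c2, and_true, true_and, and_false, false_and, if_true, if_false] at *
          linarith [k00 trivial]
        · simp only [b1, b2, c1, c2, and_true, true_and, and_false, false_and, if_true, if_false] at *
          linarith
    · simp only [b1, c1, false_and, if_false]
      linarith

/-! ### moves -/

lemma mv_pres {p A q M : ℕ} {β : ℝ} (hp : p.Prime) (hM : ¬ p ∣ M) (hA : A * p ∣ q) (hq : 0 < q) :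
    Mv p true (sd (q / A) M β) (sd (q / (A * p)) M β) := by
  rw [div_mul_p hA hq]
  exact mv_pull hp hM β

lemma mv_missN {p w M B : ℕ} (hw : ¬ p ∣ w) :
    Mv p false (sd w M (B : ℝ)) (sd w M ((B * p : ℕ) : ℝ)) := by
  have : ((B * p : ℕ) : ℝ) = p * (B : ℝ) := by push_cast; ring
  rw [this]
  exact mv_miss hw _

lemma mv_avg_pos {p w M : ℕ} {β : ℝ} (hp : p.Prime) (hM : ¬ p ∣ M) (hw : p ∣ w) :
    Mv p true (sd w M β) (sd w (p * M) β) := by
  obtain ⟨k, rfl⟩ := hw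
  exact mv_avg_dvd hp hM β

lemma mv_avg_any {p w M : ℕ} {β : ℝ} (hp : p.Prime) (hM : ¬ p ∣ M) :
    ∃ i, Mv p i (sd w M β) (sd w (p * M) β) := by
  by_cases hw : p ∣ w
  · exact ⟨true, mv_avg_pos hp hM hw⟩
  · exact ⟨false, mv_avg_not hp hw β⟩

lemma Qi_mem {τ : IT} {A : Finset Λ} {q : ℕ} (h : q ∈ Qi D Al τ A) : q ∈ τ.items :=
  (mem_Qi.1 h).1

lemma Qi_ex {τ : IT} {A : Finset Λ} {q : ℕ} (h : q ∈ Qi D Al τ A) : ∃ j ∈ A, D.it j = q :=
  (mem_Qi.1 h).2.2

lemma Qi_disj {τ₁ τ₀ : IT} {A : Finset Λ} (h : Disjoint τ₁.items τ₀.items) :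
    Disjoint (Qi D Al τ₁ A) (Qi D Al τ₀ A) :=
  Finset.disjoint_left.2 fun _ h1 h0 => Finset.disjoint_left.1 h (Qi_mem h1) (Qi_mem h0)

set_option maxHeartbeats 4000000 in
/-- **THE POTENTIAL OF THE ITEM PAIRS** : all costs of the cross walk at the crossing state -/
theorem pot_bound' (hh : YH D sp P W Qp) {RP : Finset (Λ × Λ) → Prop}
    (hRP : ∀ l, RP (Ro (D.rho l))) {stp : YR Λ κ → Prop} {Iv : YR Λ κ → Prop}
    (hIv : ∀ x, Iv x → ∀ q ∈ nxtYR (pr0 Λ) stp x, Iv q.2)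
    {Vs : ℝ × ℝ → ℕ × ℕ → ℝ} {Vc Vx : ℕ → ℝ × ℝ → ℕ × ℕ → ℝ}
    (h0 : ∀ s e, 0 ≤ Vs s e) (h1 : ∀ l s e, 0 ≤ Vc l s e) (h2 : ∀ l s e, 0 ≤ Vx l s e)
    {loc G : YR Λ κ → ℝ}
    (hloc : ∀ x u u' τ τ', Iv x → YI D sp Qp RP x u u' τ τ' →
      loc x ≤ G x + ∑ e ∈ Ep' D Al x τ τ', lc stp Vs Vc Vx x u u' τ τ' e) :
    ∀ (k : ℕ) (x : YR Λ κ), x.n < k → ∀ u u' τ τ', Iv x → YI D sp Qp RP x u u' τ τ' →
      WYR (pr0 Λ) stp loc x ≤ WYR (pr0 Λ) stp G x +
        ∑ e ∈ Ep' D Al x τ τ', pot Vs Vc Vx x u u' τ τ' e := by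
  intro k
  induction k with
  | zero => intro x hx; omega
  | succ k ih =>
    intro x hx u u' τ τ' hIx h
    have hl := hloc x u u' τ τ' hIx h
    have hgen := fun e => lc_le_pot h0 h1 h2 stp x u u' τ τ' e
    have hcont : ∀ q ∈ nxtYR (pr0 Λ) stp x, ∀ v v' σ σ', YI D sp Qp RP q.2 v v' σ σ' →
        WYR (pr0 Λ) stp loc q.2 ≤ WYR (pr0 Λ) stp G q.2 +
          ∑ e ∈ Ep' D Al q.2 σ σ', pot Vs Vc Vx q.2 v v' σ σ' e := fun q hq v v' σ σ' hy =>
      ih q.2 (by have := nxtYR_rank x q hq; omega) v v' σ σ' (hIv x hIx q hq) hy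
    rw [WYR_eq stp loc, WYR_eq stp G]
    by_cases hs : stp x ∨ lp x.n = 0
    · have e1 : nxtYR (pr0 Λ) stp x = [] := by simp [nxtYR, hs]
      rw [e1]
      simp only [List.map_nil, List.sum_nil, add_zero]
      exact hl.trans (add_le_add le_rfl (Finset.sum_le_sum fun e _ => hgen e))
    have hs' := hs
    rw [not_or] at hs'
    obtain ⟨hpp, hpn⟩ := lp_spec hs'.2
    have hMn : ¬ lp x.n ∣ x.s.M := (Nat.Prime.coprime_iff_not_dvd hpp).1 (h.aL.cop _ hpp hpn)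
    have hMn' : ¬ lp x.n ∣ x.s.M' := (Nat.Prime.coprime_iff_not_dvd hpp).1 (h.aR.cop _ hpp hpn)
    have dL := h.aL.down hpn
    have dR := h.aR.down hpn
    have iL := h.aL.ins hpn hpp
    have iR := h.aR.ins hpn hpp
    have mL := Avgs.insA h.aL hpn hpp x.s.t
    have mR := Avgs.insA h.aR hpn hpp x.s.t'
    have hp1 : (1 : ℝ) ≤ (lp x.n : ℝ) := by exact_mod_cast hpp.one_lt.le
    have hp0 : (lp x.n : ℝ) ≠ 0 := by positivity
    have hBn : (0 : ℝ) ≤ (u.B : ℝ) * u'.B := by positivity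
    rcases hv : sv (pr0 Λ) (lp x.n) x.s.t x.s.A with ⟨w, r, t₁, t₀, v, B₁, G₁⟩ | ⟨t₁, A₁, t₀, A₀⟩ <;>
    rcases hv' : sv (pr0 Λ) (lp x.n) x.s.t' x.s.A' with
      ⟨w', r', t₁', t₀', v', B₁', G₁'⟩ | ⟨t₁', A₁', t₀', A₀'⟩
    · -- tie, tie
      have e1 : nxtYR (pr0 Λ) stp x =
          [((1 - w) * (1 - w'),
            { x with n := lp x.n, s := { x.s with R := Ro r, t := t₁, t' := t₁' } }),
           ((1 - w) * w', { x with n := lp x.n, s := { x.s with R := Ro r, t := t₁, t' := t₀' } }),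
           (w * (1 - w'), { x with n := lp x.n, s := { x.s with R := Ro r, t := t₀, t' := t₁' } })] := by
        simp [nxtYR, hs, hv, hv']
      rw [e1] at hcont ⊢
      obtain ⟨τ₁, τ₀, hτ, hr, hw, P1, P0, hdis, hd1, hd0, -, -⟩ := sy_tie hh h.L hs'.2 hv
      obtain ⟨σ₁, σ₀, hσ, -, hw', Q1, Q0, hdis', hd1', hd0', -, -⟩ := sy_tie hh h.R hs'.2 hv'
      have rp : RP (Ro r) := hr ▸ hRP _
      have c11 := hcont _ (List.mem_cons_self) (nP u (lp x.n)) (nP u' (lp x.n)) τ₁ σ₁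
        ⟨P1.y, Q1.y, dL, dR, rp⟩
      have c10 := hcont _ (List.mem_cons_of_mem _ (List.mem_cons_self))
        (nP u (lp x.n)) (nM u' (lp x.n)) τ₁ σ₀ ⟨P1.y, Q0.y, dL, dR, rp⟩
      have c01 := hcont _ (List.mem_cons_of_mem _ (List.mem_cons_of_mem _ (List.mem_cons_self)))
        (nM u (lp x.n)) (nP u' (lp x.n)) τ₀ σ₁ ⟨P0.y, Q1.y, dL, dR, rp⟩
      have w0 : 0 ≤ w := by rw [hw]; positivity
      have w1 : 0 ≤ 1 - w := by rw [hw]; have := (div_le_one (by linarith)).2 hp1; linarith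
      have w0' : 0 ≤ w' := by rw [hw']; positivity
      have w1' : 0 ≤ 1 - w' := by rw [hw']; have := (div_le_one (by linarith)).2 hp1; linarith
      have wp : w * (lp x.n : ℝ) = 1 := by rw [hw]; field_simp
      have wp' : w' * (lp x.n : ℝ) = 1 := by rw [hw']; field_simp
      have key := sum_quad (Qi_disj (D := D) (Al := Al) (A := x.s.A) hdis)
        (Qi_disj (D := D) (Al := Al) (A := x.s.A') hdis')
        P1.it P0.it Q1.it Q0.it
        (fun e => (1 - w) * (1 - w') * pot Vs Vc Vx { x with n := lp x.n, s := { x.s with R := Ro r, t := t₁, t' := t₁' } } (nP u (lp x.n)) (nP u' (lp x.n)) τ₁ σ₁ e)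
        (fun e => (1 - w) * w' * pot Vs Vc Vx { x with n := lp x.n, s := { x.s with R := Ro r, t := t₁, t' := t₀' } } (nP u (lp x.n)) (nM u' (lp x.n)) τ₁ σ₀ e)
        (fun e => w * (1 - w') * pot Vs Vc Vx { x with n := lp x.n, s := { x.s with R := Ro r, t := t₀, t' := t₁' } } (nM u (lp x.n)) (nP u' (lp x.n)) τ₀ σ₁ e)
        (fun _ => 0)
        (lc stp Vs Vc Vx x u u' τ τ') (pot Vs Vc Vx x u u' τ τ')
        (fun e he => by
          obtain ⟨a, b⟩ := Finset.mem_product.1 he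
          refine pot_step h0 h1 h2 hs (mul_nonneg w1 w1') ?_ (P1.mt _ (Qi_mem a) (Qi_ex a))
            (Q1.mt _ (Qi_mem b) (Qi_ex b)) ?_
          · exact sc_inv hpp (mv_pres hpp hMn (hd1 _ (Qi_mem a)).1 (hd1 _ (Qi_mem a)).2)
              (mv_pres hpp hMn' (hd1' _ (Qi_mem b)).1 (hd1' _ (Qi_mem b)).2) (Or.inl rfl)
          · show (1 - w) * (1 - w') * ((u.B : ℝ) * u'.B) ≤ _
            nlinarith [mul_nonneg w0 w1', mul_nonneg hBn (add_nonneg (mul_nonneg w0 w1') w0')])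
        (fun e he => by
          obtain ⟨a, b⟩ := Finset.mem_product.1 he
          refine pot_step h0 h1 h2 hs (mul_nonneg w1 w0') ?_ (P1.mt _ (Qi_mem a) (Qi_ex a))
            (Q0.mt _ (Qi_mem b) (Qi_ex b)) ?_
          · exact sc_inv hpp (mv_pres hpp hMn (hd1 _ (Qi_mem a)).1 (hd1 _ (Qi_mem a)).2)
              (mv_missN (hd0' _ (Qi_mem b))) (Or.inl rfl)
          · show (1 - w) * w' * ((u.B : ℝ) * ((u'.B * lp x.n : ℕ) : ℝ)) ≤ _
            push_cast
            have : (1 - w) * w' * ((u.B : ℝ) * (u'.B * lp x.n)) =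
              (1 - w) * ((u.B : ℝ) * u'.B) * (w' * lp x.n) := by ring
            rw [this, wp']
            nlinarith [mul_nonneg hBn w0])
        (fun e he => by
          obtain ⟨a, b⟩ := Finset.mem_product.1 he
          refine pot_step h0 h1 h2 hs (mul_nonneg w0 w1') ?_ (P0.mt _ (Qi_mem a) (Qi_ex a))
            (Q1.mt _ (Qi_mem b) (Qi_ex b)) ?_
          · exact sc_inv hpp (mv_missN (hd0 _ (Qi_mem a)))
              (mv_pres hpp hMn' (hd1' _ (Qi_mem b)).1 (hd1' _ (Qi_mem b)).2) (Or.inr rfl)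
          · show w * (1 - w') * (((u.B * lp x.n : ℕ) : ℝ) * (u'.B : ℝ)) ≤ _
            push_cast
            have : w * (1 - w') * ((u.B : ℝ) * lp x.n * u'.B) =
              (1 - w') * ((u.B : ℝ) * u'.B) * (w * lp x.n) := by ring
            rw [this, wp]
            nlinarith [mul_nonneg hBn w0'])
        (fun e he => by simp only [zero_add]; exact hgen e)
        (fun e he => hgen e)
      simp only [← Finset.mul_sum, Finset.sum_const_zero, add_zero] at key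
      have m11 := mul_le_mul_of_nonneg_left c11 (mul_nonneg w1 w1')
      have m10 := mul_le_mul_of_nonneg_left c10 (mul_nonneg w1 w0')
      have m01 := mul_le_mul_of_nonneg_left c01 (mul_nonneg w0 w1')
      rw [mul_add] at m11 m10 m01
      simp only [List.map_cons, List.map_nil, List.sum_cons, List.sum_nil]
      linarith
    · -- tie, two
      have e1 : nxtYR (pr0 Λ) stp x =
          [(1 - w, { x with n := lp x.n, s := { x.s with M' := lp x.n * x.s.M', O := insA (lp x.n) x.s.t' x.s.O, R := Ro r, t := t₁, t' := t₁', A' := A₁' } }),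
           (w, { x with n := lp x.n, s := { x.s with M' := lp x.n * x.s.M', O := insA (lp x.n) x.s.t' x.s.O, R := Ro r, t := t₀, t' := t₁', A' := A₁' } }),
           (1 - w, { x with n := lp x.n, s := { x.s with M' := lp x.n * x.s.M', O := insert (lp x.n) x.s.O, R := Ro r, t := t₁, t' := t₀', A' := A₀' } })] := by
        simp [nxtYR, hs, hv, hv']
      rw [e1] at hcont ⊢
      obtain ⟨τ₁, τ₀, hτ, hr, hw, P1, P0, hdis, hd1, hd0, -, -⟩ := sy_tie hh h.L hs'.2 hv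
      obtain ⟨σ₁, σ₀, z', zA, zB, Q1, Q0, hdis', hp1', -, -, -, -⟩ :=
        sy_two (Al := Al) hh h.R hs'.2 hv'
      have rp : RP (Ro r) := hr ▸ hRP _
      have c11 := hcont _ (List.mem_cons_self) (nP u (lp x.n)) z' τ₁ σ₁
        ⟨P1.y, Q1.y, dL, mR, rp⟩
      have c01 := hcont _ (List.mem_cons_of_mem _ (List.mem_cons_self))
        (nM u (lp x.n)) z' τ₀ σ₁ ⟨P0.y, Q1.y, dL, mR, rp⟩
      have c10 := hcont _ (List.mem_cons_of_mem _ (List.mem_cons_of_mem _ (List.mem_cons_self)))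
        (nP u (lp x.n)) z' τ₁ σ₀ ⟨P1.y, Q0.y, dL, iR, rp⟩
      have w0 : 0 ≤ w := by rw [hw]; positivity
      have w1 : 0 ≤ 1 - w := by rw [hw]; have := (div_le_one (by linarith)).2 hp1; linarith
      have wp : w * (lp x.n : ℝ) = 1 := by rw [hw]; field_simp
      have key := sum_quad (Qi_disj (D := D) (Al := Al) (A := x.s.A) hdis) hdis'
        P1.it P0.it Q1.it Q0.it
        (fun e => (1 - w) * pot Vs Vc Vx { x with n := lp x.n, s := { x.s with M' := lp x.n * x.s.M', O := insA (lp x.n) x.s.t' x.s.O, R := Ro r, t := t₁, t' := t₁', A' := A₁' } } (nP u (lp x.n)) z' τ₁ σ₁ e)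
        (fun e => (1 - w) * pot Vs Vc Vx { x with n := lp x.n, s := { x.s with M' := lp x.n * x.s.M', O := insert (lp x.n) x.s.O, R := Ro r, t := t₁, t' := t₀', A' := A₀' } } (nP u (lp x.n)) z' τ₁ σ₀ e)
        (fun e => w * pot Vs Vc Vx { x with n := lp x.n, s := { x.s with M' := lp x.n * x.s.M', O := insA (lp x.n) x.s.t' x.s.O, R := Ro r, t := t₀, t' := t₁', A' := A₁' } } (nM u (lp x.n)) z' τ₀ σ₁ e)
        (fun _ => 0)
        (lc stp Vs Vc Vx x u u' τ τ') (pot Vs Vc Vx x u u' τ τ')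
        (fun e he => by
          obtain ⟨a, b⟩ := Finset.mem_product.1 he
          refine pot_step h0 h1 h2 hs w1 ?_ (P1.mt _ (Qi_mem a) (Qi_ex a))
            (Q1.mt _ (Qi_mem b) (Qi_ex b)) ?_
          · unfold yS
            rw [zA, zB]
            exact sc_inv hpp (mv_pres hpp hMn (hd1 _ (Qi_mem a)).1 (hd1 _ (Qi_mem a)).2)
              (mv_avg_pos hpp hMn' (hp1' _ b)) (Or.inl rfl)
          · rw [zB]
            show (1 - w) * ((u.B : ℝ) * u'.B) ≤ _
            nlinarith [mul_nonneg hBn w0])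
        (fun e he => by
          obtain ⟨a, b⟩ := Finset.mem_product.1 he
          refine pot_step h0 h1 h2 hs w1 ?_ (P1.mt _ (Qi_mem a) (Qi_ex a))
            (Q0.mt _ (Qi_mem b) (Qi_ex b)) ?_
          · unfold yS
            rw [zA, zB]
            obtain ⟨i, hi⟩ := mv_avg_any (w := e.2 / u'.A) (β := (u'.B : ℝ)) hpp hMn'
            exact sc_inv hpp (mv_pres hpp hMn (hd1 _ (Qi_mem a)).1 (hd1 _ (Qi_mem a)).2)
              hi (Or.inl rfl)
          · rw [zB]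
            show (1 - w) * ((u.B : ℝ) * u'.B) ≤ _
            nlinarith [mul_nonneg hBn w0])
        (fun e he => by
          obtain ⟨a, b⟩ := Finset.mem_product.1 he
          refine pot_step h0 h1 h2 hs w0 ?_ (P0.mt _ (Qi_mem a) (Qi_ex a))
            (Q1.mt _ (Qi_mem b) (Qi_ex b)) ?_
          · unfold yS
            rw [zA, zB]
            exact sc_inv hpp (mv_missN (hd0 _ (Qi_mem a)))
              (mv_avg_pos hpp hMn' (hp1' _ b)) (Or.inr rfl)
          · rw [zB]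
            show w * (((u.B * lp x.n : ℕ) : ℝ) * (u'.B : ℝ)) ≤ _
            push_cast
            have : w * ((u.B : ℝ) * lp x.n * u'.B) =
              ((u.B : ℝ) * u'.B) * (w * lp x.n) := by ring
            rw [this, wp, mul_one])
        (fun e he => by simp only [zero_add]; exact hgen e)
        (fun e he => hgen e)
      simp only [← Finset.mul_sum, Finset.sum_const_zero, add_zero] at key
      have m11 := mul_le_mul_of_nonneg_left c11 w1
      have m10 := mul_le_mul_of_nonneg_left c10 w1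
      have m01 := mul_le_mul_of_nonneg_left c01 w0
      rw [mul_add] at m11 m10 m01
      simp only [List.map_cons, List.map_nil, List.sum_cons, List.sum_nil]
      linarith
    · -- two, tie
      have e1 : nxtYR (pr0 Λ) stp x =
          [(1 - w', { x with n := lp x.n, s := { x.s with M := lp x.n * x.s.M, O' := insA (lp x.n) x.s.t x.s.O', R := Ro r', t := t₁, A := A₁, t' := t₁' } }),
           (w', { x with n := lp x.n, s := { x.s with M := lp x.n * x.s.M, O' := insA (lp x.n) x.s.t x.s.O', R := Ro r', t := t₁, A := A₁, t' := t₀' } }),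
           (1 - w', { x with n := lp x.n, s := { x.s with M := lp x.n * x.s.M, O' := insert (lp x.n) x.s.O', R := Ro r', t := t₀, A := A₀, t' := t₁' } })] := by
        simp [nxtYR, hs, hv, hv']
      rw [e1] at hcont ⊢
      obtain ⟨τ₁, τ₀, z, zA, zB, P1, P0, hdis, hp1q, -, -, -, -⟩ :=
        sy_two (Al := Al) hh h.L hs'.2 hv
      obtain ⟨σ₁, σ₀, hσ, hr, hw', Q1, Q0, hdis', hd1', hd0', -, -⟩ := sy_tie hh h.R hs'.2 hv'
      have rp : RP (Ro r') := hr ▸ hRP _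
      have c11 := hcont _ (List.mem_cons_self) z (nP u' (lp x.n)) τ₁ σ₁
        ⟨P1.y, Q1.y, mL, dR, rp⟩
      have c10 := hcont _ (List.mem_cons_of_mem _ (List.mem_cons_self))
        z (nM u' (lp x.n)) τ₁ σ₀ ⟨P1.y, Q0.y, mL, dR, rp⟩
      have c01 := hcont _ (List.mem_cons_of_mem _ (List.mem_cons_of_mem _ (List.mem_cons_self)))
        z (nP u' (lp x.n)) τ₀ σ₁ ⟨P0.y, Q1.y, iL, dR, rp⟩
      have w0' : 0 ≤ w' := by rw [hw']; positivity
      have w1' : 0 ≤ 1 - w' := by rw [hw']; have := (div_le_one (by linarith)).2 hp1; linarith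
      have wp' : w' * (lp x.n : ℝ) = 1 := by rw [hw']; field_simp
      have key := sum_quad hdis (Qi_disj (D := D) (Al := Al) (A := x.s.A') hdis')
        P1.it P0.it Q1.it Q0.it
        (fun e => (1 - w') * pot Vs Vc Vx { x with n := lp x.n, s := { x.s with M := lp x.n * x.s.M, O' := insA (lp x.n) x.s.t x.s.O', R := Ro r', t := t₁, A := A₁, t' := t₁' } } z (nP u' (lp x.n)) τ₁ σ₁ e)
        (fun e => w' * pot Vs Vc Vx { x with n := lp x.n, s := { x.s with M := lp x.n * x.s.M, O' := insA (lp x.n) x.s.t x.s.O', R := Ro r', t := t₁, A := A₁, t' := t₀' } } z (nM u' (lp x.n)) τ₁ σ₀ e)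
        (fun e => (1 - w') * pot Vs Vc Vx { x with n := lp x.n, s := { x.s with M := lp x.n * x.s.M, O' := insert (lp x.n) x.s.O', R := Ro r', t := t₀, A := A₀, t' := t₁' } } z (nP u' (lp x.n)) τ₀ σ₁ e)
        (fun _ => 0)
        (lc stp Vs Vc Vx x u u' τ τ') (pot Vs Vc Vx x u u' τ τ')
        (fun e he => by
          obtain ⟨a, b⟩ := Finset.mem_product.1 he
          refine pot_step h0 h1 h2 hs w1' ?_ (P1.mt _ (Qi_mem a) (Qi_ex a))
            (Q1.mt _ (Qi_mem b) (Qi_ex b)) ?_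
          · unfold yS
            rw [zA, zB]
            exact sc_inv hpp (mv_avg_pos hpp hMn (hp1q _ a))
              (mv_pres hpp hMn' (hd1' _ (Qi_mem b)).1 (hd1' _ (Qi_mem b)).2) (Or.inr rfl)
          · rw [zB]
            show (1 - w') * ((u.B : ℝ) * u'.B) ≤ _
            nlinarith [mul_nonneg hBn w0'])
        (fun e he => by
          obtain ⟨a, b⟩ := Finset.mem_product.1 he
          refine pot_step h0 h1 h2 hs w0' ?_ (P1.mt _ (Qi_mem a) (Qi_ex a))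
            (Q0.mt _ (Qi_mem b) (Qi_ex b)) ?_
          · unfold yS
            rw [zA, zB]
            exact sc_inv hpp (mv_avg_pos hpp hMn (hp1q _ a))
              (mv_missN (hd0' _ (Qi_mem b))) (Or.inl rfl)
          · rw [zB]
            show w' * ((u.B : ℝ) * ((u'.B * lp x.n : ℕ) : ℝ)) ≤ _
            push_cast
            have : w' * ((u.B : ℝ) * (u'.B * lp x.n)) =
              ((u.B : ℝ) * u'.B) * (w' * lp x.n) := by ring
            rw [this, wp', mul_one])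
        (fun e he => by
          obtain ⟨a, b⟩ := Finset.mem_product.1 he
          refine pot_step h0 h1 h2 hs w1' ?_ (P0.mt _ (Qi_mem a) (Qi_ex a))
            (Q1.mt _ (Qi_mem b) (Qi_ex b)) ?_
          · unfold yS
            rw [zA, zB]
            obtain ⟨i, hi⟩ := mv_avg_any (w := e.1 / u.A) (β := (u.B : ℝ)) hpp hMn
            exact sc_inv hpp hi
              (mv_pres hpp hMn' (hd1' _ (Qi_mem b)).1 (hd1' _ (Qi_mem b)).2) (Or.inr rfl)
          · rw [zB]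
            show (1 - w') * ((u.B : ℝ) * u'.B) ≤ _
            nlinarith [mul_nonneg hBn w0'])
        (fun e he => by simp only [zero_add]; exact hgen e)
        (fun e he => hgen e)
      simp only [← Finset.mul_sum, Finset.sum_const_zero, add_zero] at key
      have m11 := mul_le_mul_of_nonneg_left c11 w1'
      have m10 := mul_le_mul_of_nonneg_left c10 w0'
      have m01 := mul_le_mul_of_nonneg_left c01 w1'
      rw [mul_add] at m11 m10 m01
      simp only [List.map_cons, List.map_nil, List.sum_cons, List.sum_nil]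
      linarith
    · -- two, two
      obtain ⟨τ₁, τ₀, z, zA, zB, P1, P0, hdis, hp1q, -, -, -, hna⟩ :=
        sy_two (Al := Al) hh h.L hs'.2 hv
      obtain ⟨σ₁, σ₀, z', zA', zB', Q1, Q0, hdis', hp1', -, -, -, hna'⟩ :=
        sy_two (Al := Al) hh h.R hs'.2 hv'
      by_cases ha : WalkY560.isAdd (lp x.n) x.s.t ∨ WalkY560.isAdd (lp x.n) x.s.t'
      · have e1 : nxtYR (pr0 Λ) stp x =
          [(1, { x with n := lp x.n, s := { x.s with t := t₁, A := A₁, t' := t₁', A' := A₁' } }),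
           (1, { x with n := lp x.n, s := { x.s with t := t₀, A := A₀, t' := t₀', A' := A₀' } }),
           (1, { x with n := lp x.n, C := insert (lp x.n) x.C, s := { x.s with t := t₁, A := A₁, t' := t₀', A' := A₀' } }),
           (1, { x with n := lp x.n, C := insert (lp x.n) x.C, s := { x.s with t := t₀, A := A₀, t' := t₁', A' := A₁' } })] := by
          simp [nxtYR, hs, hv, hv', ha]
        rw [e1] at hcont ⊢
        have c11 := hcont _ (List.mem_cons_self) z z' τ₁ σ₁ ⟨P1.y, Q1.y, dL, dR, h.rp⟩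
        have c00 := hcont _ (List.mem_cons_of_mem _ (List.mem_cons_self)) z z' τ₀ σ₀
          ⟨P0.y, Q0.y, dL, dR, h.rp⟩
        have c10 := hcont _ (List.mem_cons_of_mem _ (List.mem_cons_of_mem _ (List.mem_cons_self)))
          z z' τ₁ σ₀ ⟨P1.y, Q0.y, dL, dR, h.rp⟩
        have c01 := hcont _ (List.mem_cons_of_mem _ (List.mem_cons_of_mem _
          (List.mem_cons_of_mem _ (List.mem_cons_self)))) z z' τ₀ σ₁ ⟨P0.y, Q1.y, dL, dR, h.rp⟩
        have key := sum_quad hdis hdis' P1.it P0.it Q1.it Q0.it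
          (fun e => 1 * pot Vs Vc Vx { x with n := lp x.n, s := { x.s with t := t₁, A := A₁, t' := t₁', A' := A₁' } } z z' τ₁ σ₁ e)
          (fun e => 1 * pot Vs Vc Vx { x with n := lp x.n, C := insert (lp x.n) x.C, s := { x.s with t := t₁, A := A₁, t' := t₀', A' := A₀' } } z z' τ₁ σ₀ e)
          (fun e => 1 * pot Vs Vc Vx { x with n := lp x.n, C := insert (lp x.n) x.C, s := { x.s with t := t₀, A := A₀, t' := t₁', A' := A₁' } } z z' τ₀ σ₁ e)
          (fun e => 1 * pot Vs Vc Vx { x with n := lp x.n, s := { x.s with t := t₀, A := A₀, t' := t₀', A' := A₀' } } z z' τ₀ σ₀ e)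
          (lc stp Vs Vc Vx x u u' τ τ') (pot Vs Vc Vx x u u' τ τ')
          (fun e he => by
            obtain ⟨a, b⟩ := Finset.mem_product.1 he
            refine pot_step h0 h1 h2 hs zero_le_one ?_ (P1.mt _ (Qi_mem a) (Qi_ex a))
              (Q1.mt _ (Qi_mem b) (Qi_ex b)) ?_
            · unfold yS; rw [zA, zB, zA', zB']
            · rw [zB, zB', one_mul])
          (fun e he => by
            obtain ⟨a, b⟩ := Finset.mem_product.1 he
            refine pot_step h0 h1 h2 hs zero_le_one ?_ (P1.mt _ (Qi_mem a) (Qi_ex a))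
              (Q0.mt _ (Qi_mem b) (Qi_ex b)) ?_
            · unfold yS; rw [zA, zB, zA', zB']
            · rw [zB, zB', one_mul])
          (fun e he => by
            obtain ⟨a, b⟩ := Finset.mem_product.1 he
            refine pot_step h0 h1 h2 hs zero_le_one ?_ (P0.mt _ (Qi_mem a) (Qi_ex a))
              (Q1.mt _ (Qi_mem b) (Qi_ex b)) ?_
            · unfold yS; rw [zA, zB, zA', zB']
            · rw [zB, zB', one_mul])
          (fun e he => by
            obtain ⟨a, b⟩ := Finset.mem_product.1 he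
            refine pot_step h0 h1 h2 hs zero_le_one ?_ (P0.mt _ (Qi_mem a) (Qi_ex a))
              (Q0.mt _ (Qi_mem b) (Qi_ex b)) ?_
            · unfold yS; rw [zA, zB, zA', zB']
            · rw [zB, zB', one_mul])
          (fun e he => hgen e)
        simp only [one_mul] at key
        simp only [List.map_cons, List.map_nil, List.sum_cons, List.sum_nil, one_mul]
        linarith
      · have e1 : nxtYR (pr0 Λ) stp x =
          [(1, { x with n := lp x.n, s := { x.s with t := t₀, t' := t₀' } })] := by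
          simp [nxtYR, hs, hv, hv', ha]
        rw [e1] at hcont ⊢
        rw [not_or] at ha
        obtain ⟨hi, P⟩ := hna ha.1
        obtain ⟨hi', Q⟩ := hna' ha.2
        have c00 := hcont _ (List.mem_cons_self) z z' τ₀ σ₀ ⟨P.y, Q.y, dL, dR, h.rp⟩
        have key := sum_quad (I₀ := ∅) (I₀' := ∅) (Finset.disjoint_empty_right _)
          (Finset.disjoint_empty_right _) (P.it (Al := Al)) (Finset.empty_subset _)
          (Q.it (Al := Al)) (Finset.empty_subset _)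
          (fun e => 1 * pot Vs Vc Vx { x with n := lp x.n, s := { x.s with t := t₀, t' := t₀' } } z z' τ₀ σ₀ e)
          (fun _ => 0) (fun _ => 0) (fun _ => 0)
          (lc stp Vs Vc Vx x u u' τ τ') (pot Vs Vc Vx x u u' τ τ')
          (fun e he => by
            obtain ⟨a, b⟩ := Finset.mem_product.1 he
            refine pot_step h0 h1 h2 hs zero_le_one ?_ (P.mt _ (Qi_mem a) (Qi_ex a))
              (Q.mt _ (Qi_mem b) (Qi_ex b)) ?_
            · unfold yS; rw [zA, zB, zA', zB']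
            · rw [zB, zB', one_mul])
          (fun e he => by simp at he)
          (fun e he => by simp at he)
          (fun e he => by simp at he)
          (fun e he => hgen e)
        simp only [one_mul, Finset.sum_const_zero, add_zero] at key
        simp only [List.map_cons, List.map_nil, List.sum_cons, List.sum_nil, one_mul, add_zero]
        linarith

/-- the bound at the crossing state -/
theorem pot_bound (hh : YH D sp P W Qp) {RP : Finset (Λ × Λ) → Prop}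
    (hRP : ∀ l, RP (Ro (D.rho l))) {stp : YR Λ κ → Prop} {Iv : YR Λ κ → Prop}
    (hIv : ∀ x, Iv x → ∀ q ∈ nxtYR (pr0 Λ) stp x, Iv q.2)
    {Vs : ℝ × ℝ → ℕ × ℕ → ℝ} {Vc Vx : ℕ → ℝ × ℝ → ℕ × ℕ → ℝ}
    (h0 : ∀ s e, 0 ≤ Vs s e) (h1 : ∀ l s e, 0 ≤ Vc l s e) (h2 : ∀ l s e, 0 ≤ Vx l s e)
    {loc G : YR Λ κ → ℝ}
    (hloc : ∀ x u u' τ τ', Iv x → YI D sp Qp RP x u u' τ τ' →
      loc x ≤ G x + ∑ e ∈ Ep' D Al x τ τ', lc stp Vs Vc Vx x u u' τ τ' e)
    {x : YR Λ κ} {u u' : NS} {τ τ' : IT} (hx : Iv x) (h : YI D sp Qp RP x u u' τ τ') :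
    WYR (pr0 Λ) stp loc x ≤ WYR (pr0 Λ) stp G x +
      ∑ e ∈ Ep' D Al x τ τ', pot Vs Vc Vx x u u' τ τ' e :=
  pot_bound' hh hRP hIv h0 h1 h2 hloc (x.n + 1) x (Nat.lt_succ_self _) u u' τ τ' hx h

end Crest.Agent.R4.YI560
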