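import Crest.Agent.R4.ZWalkY812
import Crest.Agent.R4.OSWI245

/-!
R4 (S0004), module D, helper812: inputs of (Z3) `V_leQ` for decorated item trees.

* `stpZ` : the stop rule on shapes (`stpZ (toZ s) ↔ stpM s`), `OJ` : the invariant of the one-sided
  columns, `OJ.next`, `OJ.gs_le` : `gs ≤ κ` at the non-stopped shapes.
* `h2` : `∑_{j ∈ A} m_j ∑_{p ∈ mtD j} β p`, `FQ_h2`, `FQ_m`, `h2_le`.
* `SgN` : the share of the missing items, `hsg_SgN`, `SgN_toDT`.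
* `okm` : masses on `Ok` trees, `MX_okm`; `okm_ms`.
* `V_item` : everything together.
-/

set_option autoImplicit false
set_option linter.unusedSectionVars false
set_option linter.unusedVariables false
open MeasureTheory Filter Set

namespace Crest.Agent.R4.ZNum812

open Crest.Agent.R4.Tour104 Crest.Agent.R4.Tour758 Crest.Agent.R4.Avg758 Crest.Agent.R4.Clos758
open Crest.Agent.R4.ClosL758 Crest.Agent.R4.ClosG758 Crest.Agent.R4.ClosR758
open Crest.Agent.R4.Cnt588 Crest.Agent.R4.Item758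
open Crest.Agent.R4.Walk560 Crest.Agent.R4.PXB560 Crest.Agent.R4.WalkX560 Crest.Agent.R4.WalkR560
open Crest.Agent.R4.CrossSum560 Crest.Agent.R4.WalkYR560 Crest.Agent.R4.ZWalk812
open Crest.Agent.R4.Res927 Crest.Agent.R4.OSWS245 Crest.Agent.R4.OSWI245 Crest.Agent.R4.GInst194

section stop
variable {Λ κ : Type*} [Fintype Λ] [DecidableEq Λ]

/-! ### the stop rule -/

/-- mass of the one-sided columns of a shape -/
noncomputable def mZ (z : ZS Λ κ) : ℝ := ∑ q ∈ z.O ∪ z.O', 1 / (q : ℝ)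

/-- **the stop rule on shapes** -/
def stpZ (z : ZS Λ κ) : Prop :=
  (z.O ∪ z.O').Nonempty ∧ (z.p : ℝ) ^ (-(1/3) : ℝ) ≤ mZ z

lemma mZ_nonneg (z : ZS Λ κ) : 0 ≤ mZ z := Finset.sum_nonneg fun q _ => by positivity

lemma mZ_le_of_not {z : ZS Λ κ} (h : ¬ stpZ z) : mZ z ≤ (z.p : ℝ) ^ (-(1/3) : ℝ) := by
  by_cases h1 : (z.O ∪ z.O').Nonempty
  · by_contra h2
    exact h ⟨h1, (not_le.1 h2).le⟩
  · rw [Finset.not_nonempty_iff_eq_empty] at h1
    unfold mZ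
    rw [h1, Finset.sum_empty]
    positivity

/-- the sets after a step -/
lemma zn_O {stp : ZS Λ κ → Prop} (z : ZS Λ κ) : ∀ q ∈ zn stp z,
    (q.2.O = z.O ∧ q.2.O' = z.O') ∨ (q.2.O = insert z.p z.O ∧ q.2.O' = z.O') ∨
      (q.2.O = z.O ∧ q.2.O' = insert z.p z.O') := by
  intro q hq
  by_cases h1 : z.t.isLeaf ∧ z.t'.isLeaf
  · simp [zn, h1] at hq
  by_cases h2 : stp z
  · simp [zn, h1, h2] at hq
  rcases hv : vw z.p z.t with ⟨w, r, t₁, t₀, v, B, G⟩ | ⟨r, t₁, t₀⟩ | ⟨Sp, u⟩ <;>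
  rcases hv' : vw z.p z.t' with ⟨w', r', t₁', t₀', v', B', G'⟩ | ⟨r', t₁', t₀'⟩ | ⟨Sp', u'⟩ <;>
  simp only [zn, h1, h2, hv, hv', if_false, List.mem_cons, List.not_mem_nil, or_false] at hq
  · rcases hq with rfl | rfl | rfl | rfl <;> exact Or.inl ⟨rfl, rfl⟩
  · rcases hq with rfl | rfl | rfl | rfl
    · exact Or.inl ⟨rfl, rfl⟩
    · exact Or.inl ⟨rfl, rfl⟩
    · exact Or.inr (Or.inl ⟨rfl, rfl⟩)
    · exact Or.inr (Or.inl ⟨rfl, rfl⟩)
  · rcases hq with rfl | rfl <;> exact Or.inr (Or.inl ⟨rfl, rfl⟩)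
  · rcases hq with rfl | rfl | rfl | rfl
    · exact Or.inl ⟨rfl, rfl⟩
    · exact Or.inl ⟨rfl, rfl⟩
    · exact Or.inr (Or.inr ⟨rfl, rfl⟩)
    · exact Or.inr (Or.inr ⟨rfl, rfl⟩)
  · rcases hq with rfl | rfl | rfl | rfl <;> exact Or.inl ⟨rfl, rfl⟩
  · rcases hq with rfl | rfl <;> exact Or.inl ⟨rfl, rfl⟩
  · rcases hq with rfl | rfl <;> exact Or.inr (Or.inr ⟨rfl, rfl⟩)
  · rcases hq with rfl | rfl <;> exact Or.inl ⟨rfl, rfl⟩
  · subst hq; exact Or.inl ⟨rfl, rfl⟩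

/-- the columns of a set are controlled by its mass -/
def SO (U : Finset ℕ) : Prop :=
  ∑ q ∈ U, (q : ℝ) ^ (-(11/12) : ℝ) ≤ 2 * (∑ q ∈ U, 1 / (q : ℝ)) ^ (3/4 : ℝ)

lemma SO_empty : SO ∅ := by
  unfold SO
  simp only [Finset.sum_empty]
  positivity

lemma SO_insert {U : Finset ℕ} {p : ℕ} (h : SO U) (hp : 1 ≤ p) (hn : p ∉ U)
    (hm : ∑ q ∈ U, 1 / (q : ℝ) ≤ (p : ℝ) ^ (-(1/3) : ℝ)) : SO (insert p U) := by
  unfold SO at h ⊢
  rw [Finset.sum_insert hn, Finset.sum_insert hn]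
  have h1 := num1 (x := (p : ℝ)) (u := ∑ q ∈ U, 1 / (q : ℝ)) (by exact_mod_cast hp)
    (Finset.sum_nonneg fun q _ => by positivity) hm
  have e : 1 / (p : ℝ) + ∑ q ∈ U, 1 / (q : ℝ) = ∑ q ∈ U, 1 / (q : ℝ) + 1 / (p : ℝ) := add_comm _ _
  rw [e]
  linarith

/-- invariant of the one-sided columns -/
structure OJ (p0 : ℕ) (z : ZS Λ κ) : Prop where
  ge : ∀ q ∈ z.O ∪ z.O', p0 ≤ q
  so : SO (z.O ∪ z.O')
  tL : z.t.All (TopGe p0)
  tR : z.t'.All (TopGe p0)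

lemma OJ.p_ge {p0 : ℕ} {z : ZS Λ κ} (h : OJ p0 z) (hl : ¬ (z.t.isLeaf ∧ z.t'.isLeaf)) :
    p0 ≤ z.p := by
  rcases live hl with h1 | h1
  · rw [← h1.2]; exact h.tL.self h1.1
  · rw [← h1.2]; exact h.tR.self h1.1

end stop

section main
variable {Λ κ : Type*} [Fintype Λ] [DecidableEq Λ] [DecidableEq κ] [Fintype κ] [WRel κ]
  {wr : ℕ → Λ → κ} {Ad : TrG Λ κ → Finset Λ → Prop} {μ : TrG Λ κ → Finset Λ → ℝ}
  {ν : TrG Λ κ → ℝ} {n : ℕ} {a sg : ℕ → ℝ} {stp : ZS Λ κ → Prop} {A A' : Finset Λ} {p0 : ℕ}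

lemma stpZ_toZ (s : St Λ κ) : stpZ (toZ s) ↔ stpM s := Iff.rfl

theorem OJ.next (hp0 : 1 ≤ p0) (hst : ∀ z : ZS Λ κ, ¬ stp z → ¬ stpZ z) {z : ZS Λ κ}
    (hz : ZI wr Ad μ ν A A' n z) (h : OJ p0 z) : ∀ q ∈ zn stp z, OJ p0 q.2 := by
  intro q hq
  have h1 : ¬ (z.t.isLeaf ∧ z.t'.isLeaf) := by
    intro h1; simp [zn, h1] at hq
  have h2 : ¬ stp z := by
    intro h2; simp [zn, h1, h2] at hq
  have hpg := h.p_ge h1
  obtain ⟨nm, nm'⟩ := hz.notmem h1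
  have hn : z.p ∉ z.O ∪ z.O' := by
    rw [Finset.mem_union, not_or]; exact ⟨nm, nm'⟩
  have hm := mZ_le_of_not (hst z h2)
  have hA := zn_all z h.tL h.tR q hq
  have key : OJ p0 q.2 ↔ True := by
    refine ⟨fun _ => trivial, fun _ => ?_⟩
    have hi : ∀ x ∈ insert z.p (z.O ∪ z.O'), p0 ≤ x := by
      intro x hx
      rcases Finset.mem_insert.1 hx with rfl | hx
      · exact hpg
      · exact h.ge x hx
    have hs := SO_insert h.so (hp0.trans hpg) hn hm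
    rcases zn_O z q hq with ⟨e1, e2⟩ | ⟨e1, e2⟩ | ⟨e1, e2⟩
    · exact ⟨by rw [e1, e2]; exact h.ge, by rw [e1, e2]; exact h.so, hA.1, hA.2⟩
    · have e : q.2.O ∪ q.2.O' = insert z.p (z.O ∪ z.O') := by
        rw [e1, e2, Finset.insert_union]
      exact ⟨by rw [e]; exact hi, by rw [e]; exact hs, hA.1, hA.2⟩
    · have e : q.2.O ∪ q.2.O' = insert z.p (z.O ∪ z.O') := by
        rw [e1, e2, Finset.union_insert]
      exact ⟨by rw [e]; exact hi, by rw [e]; exact hs, hA.1, hA.2⟩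
  exact key.2 trivial

/-- **the budget at a non-stopped shape** -/
theorem OJ.gs_le (hp0 : 1 ≤ p0) (hst : ∀ z : ZS Λ κ, ¬ stp z → ¬ stpZ z)
    (hβ : ∀ p : ℕ, p0 ≤ p → 0 ≤ a p * sg p ∧ a p * sg p ≤ (p : ℝ) ^ (-(11/12) : ℝ)) {c : ℝ}
    (hc : 4 * (p0 : ℝ) ^ (-(1/4) : ℝ) ≤ c) {z : ZS Λ κ}
    (hz : ZI wr Ad μ ν A A' n z) (h : OJ p0 z) (h1 : ¬ (z.t.isLeaf ∧ z.t'.isLeaf))
    (h2 : ¬ stp z) : gs a sg (insert z.p z.O) ≤ c ∧ gs a sg (insert z.p z.O') ≤ c := by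
  have hpg := h.p_ge h1
  have hp1 : (1 : ℝ) ≤ z.p := by exact_mod_cast hp0.trans hpg
  have hp00 : (0 : ℝ) < p0 := by exact_mod_cast hp0
  obtain ⟨nm, nm'⟩ := hz.notmem h1
  have hn : z.p ∉ z.O ∪ z.O' := by
    rw [Finset.mem_union, not_or]; exact ⟨nm, nm'⟩
  have hm := mZ_le_of_not (hst z h2)
  have hm0 := mZ_nonneg z
  have hge : ∀ x ∈ insert z.p (z.O ∪ z.O'), p0 ≤ x := by
    intro x hx
    rcases Finset.mem_insert.1 hx with rfl | hx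
    · exact hpg
    · exact h.ge x hx
  have hU : gs a sg (insert z.p (z.O ∪ z.O')) ≤ c := by
    have k1 : gs a sg (insert z.p (z.O ∪ z.O')) ≤
        ∑ q ∈ insert z.p (z.O ∪ z.O'), (q : ℝ) ^ (-(11/12) : ℝ) :=
      Finset.sum_le_sum fun q hq => (hβ q (hge q hq)).2
    rw [Finset.sum_insert hn] at k1
    have k2 : ∑ q ∈ z.O ∪ z.O', (q : ℝ) ^ (-(11/12) : ℝ) ≤ 2 * (mZ z) ^ (3/4 : ℝ) := h.so
    have k3 : (mZ z) ^ (3/4 : ℝ) ≤ (z.p : ℝ) ^ (-(1/4) : ℝ) := by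
      refine (Real.rpow_le_rpow hm0 hm (by norm_num)).trans (le_of_eq ?_)
      rw [← Real.rpow_mul (by linarith)]
      norm_num
    have k4 : (z.p : ℝ) ^ (-(11/12) : ℝ) ≤ (z.p : ℝ) ^ (-(1/4) : ℝ) :=
      Real.rpow_le_rpow_of_exponent_le hp1 (by norm_num)
    have k5 : (z.p : ℝ) ^ (-(1/4) : ℝ) ≤ (p0 : ℝ) ^ (-(1/4) : ℝ) :=
      Real.rpow_le_rpow_of_nonpos hp00 (by exact_mod_cast hpg) (by norm_num)
    have k6 : 0 ≤ (p0 : ℝ) ^ (-(1/4) : ℝ) := by positivity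
    linarith
  constructor
  · refine le_trans (Finset.sum_le_sum_of_subset_of_nonneg
      (Finset.insert_subset_insert _ Finset.subset_union_left) fun q hq _ => ?_) hU
    exact (hβ q (hge q hq)).1
  · refine le_trans (Finset.sum_le_sum_of_subset_of_nonneg
      (Finset.insert_subset_insert _ Finset.subset_union_right) fun q hq _ => ?_) hU
    exact (hβ q (hge q hq)).1

/-! ### the second potential -/

variable {dv : ℕ → Λ → Prop} {m : DT Λ κ → Λ → ℝ} {me : TrG Λ κ → Finset Λ → ℝ}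

/-- `∑_{j ∈ A} m_j ∑_{p ∈ mtD j} β p` -/
noncomputable def h2 (β : ℕ → ℝ) (dv : ℕ → Λ → Prop) (m : DT Λ κ → Λ → ℝ) (t : DT Λ κ)
    (A : Finset Λ) : ℝ := ∑ j ∈ A, m t j * ∑ p ∈ mtD dv j t, β p

lemma mass_step {w x₁ x₀ x F₁ F₀ F b : ℝ} (hw0 : 0 ≤ w) (hw1 : 0 ≤ 1 - w) (hx0 : 0 ≤ x₀)
    (h : (x₀ = 0 ∧ (1 - w) * x₁ ≤ x ∧ F = F₁ ∧ 0 ≤ F₁) ∨
      (x₁ = 0 ∧ w * x₀ ≤ x ∧ F = b + F₀ ∧ 0 ≤ b + F₀)) :
    (1 - w) * (x₁ * F₁) + w * (x₀ * F₀) + b * (w * x₀) ≤ x * F := by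
  rcases h with ⟨e, h1, e2, h3⟩ | ⟨e, h1, e2, h3⟩
  · rw [e, e2]
    have := mul_le_mul_of_nonneg_right h1 h3
    linarith
  · rw [e, e2]
    have := mul_le_mul_of_nonneg_right h1 h3
    linarith

theorem FQ_h2 {β : ℕ → ℝ} (hβ : ∀ p, 0 ≤ β p)
    (hme : ∀ {n : ℕ} {t : DT Λ κ} {A : Finset Λ}, Side wr Ad μ ν n t A → t.All (IM dv m) →
      me t.g A = ∑ j ∈ A, m t j) : FQ wr Ad μ ν (IM dv m) β me (h2 β dv m) where
  nn := by
    intro n t A h hq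
    exact Finset.sum_nonneg fun j _ => mul_nonneg (hq.self.nn j)
      (Finset.sum_nonneg fun p _ => hβ p)
  br := by
    intro n p w r t₁ t₀ v B G A h hq
    obtain ⟨a1, a0, hb, -, -⟩ := h.br
    rw [hme a0 hq.2.2]
    unfold h2
    rw [Finset.mul_sum, Finset.mul_sum, Finset.mul_sum, Finset.mul_sum, ← Finset.sum_add_distrib,
      ← Finset.sum_add_distrib]
    refine Finset.sum_le_sum fun j _ => ?_
    have hst := hq.1.st j
    have hnm : p ∉ mtD dv j t₀ := fun hm => absurd (mtD_lt a0.col p hm) (lt_irrefl _)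
    refine mass_step hb.w0 (by linarith [hb.w1]) (hq.2.2.self.nn j) ?_
    by_cases hd : dv p j
    · obtain ⟨e1, e2⟩ := hst.1 hd
      refine Or.inl ⟨e1, e2, ?_, Finset.sum_nonneg fun p _ => hβ p⟩
      simp only [mtD, hd, if_true]
    · obtain ⟨e1, e2⟩ := hst.2 hd
      refine Or.inr ⟨e1, e2, ?_, add_nonneg (hβ p) (Finset.sum_nonneg fun p _ => hβ p)⟩
      simp only [mtD, hd, if_false]
      rw [Finset.sum_insert hnm]
  add := by
    intro n b r t₁ t₀ A h hq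
    unfold h2
    rw [← Finset.sum_add_distrib]
    refine Finset.sum_le_sum fun j _ => ?_
    have hst := hq.1.st j
    by_cases hd : dv b j
    · obtain ⟨e1, e2⟩ := hst.1 hd
      simp only [mtD, hd, if_true]
      rw [e1]
      have := mul_le_mul_of_nonneg_right e2
        (Finset.sum_nonneg fun p (_ : p ∈ mtD dv j t₁) => hβ p)
      linarith
    · obtain ⟨e1, e2⟩ := hst.2 hd
      simp only [mtD, hd, if_false]
      rw [e1]
      have := mul_le_mul_of_nonneg_right e2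
        (Finset.sum_nonneg fun p (_ : p ∈ mtD dv j t₀) => hβ p)
      linarith
  up := by
    intro n p t Sp u A h hq hv hp hp0
    unfold h2
    refine Finset.sum_le_sum fun j _ => ?_
    have h1 := vw_up_m hv hq.self j
    have h2 : mtD dv j u = mtD dv j t := by
      rcases vw_up hv with rfl | ⟨-, rfl, -⟩ <;> rfl
    rw [h2]
    exact mul_le_mul_of_nonneg_right h1 (Finset.sum_nonneg fun p _ => hβ p)

theorem FQ_m (hme : ∀ {n : ℕ} {t : DT Λ κ} {A : Finset Λ}, Side wr Ad μ ν n t A →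
      t.All (IM dv m) → me t.g A = ∑ j ∈ A, m t j) :
    FQ wr Ad μ ν (IM dv m) (fun _ => 0) me (fun t A => me t.g A) where
  nn := by
    intro n t A h hq
    rw [hme h hq]
    exact Finset.sum_nonneg fun j _ => hq.self.nn j
  br := by
    intro n p w r t₁ t₀ v B G A h hq
    obtain ⟨a1, a0, hb, -, -⟩ := h.br
    rw [hme a0 hq.2.2, hme a1 hq.2.1, hme h hq]
    rw [Finset.mul_sum, Finset.mul_sum, zero_mul, add_zero, ← Finset.sum_add_distrib]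
    refine Finset.sum_le_sum fun j _ => ?_
    have hst := hq.1.st j
    by_cases hd : dv p j
    · obtain ⟨e1, e2⟩ := hst.1 hd
      rw [e1]; linarith
    · obtain ⟨e1, e2⟩ := hst.2 hd
      rw [e1]; linarith
  add := by
    intro n b r t₁ t₀ A h hq
    obtain ⟨a1, a0⟩ := h.add
    rw [hme a0 hq.2.2, hme a1 hq.2.1, hme h hq, ← Finset.sum_add_distrib]
    refine Finset.sum_le_sum fun j _ => ?_
    have hst := hq.1.st j
    by_cases hd : dv b j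
    · obtain ⟨e1, e2⟩ := hst.1 hd
      rw [e1]; linarith
    · obtain ⟨e1, e2⟩ := hst.2 hd
      rw [e1]; linarith
  up := by
    intro n p t Sp u A h hq hv hp hp0
    rw [vw_up_g hv]

/-- bound of the second potential -/
theorem h2_le {β : ℕ → ℝ} {κ₀ : ℝ} {t : DT Λ κ} {A : Finset Λ} (hm : ∀ j, 0 ≤ m t j)
    (hb : ∀ j ∈ A, m t j ≠ 0 → ∑ p ∈ mtD dv j t, β p ≤ κ₀) :
    h2 β dv m t A ≤ κ₀ * ∑ j ∈ A, m t j := by
  unfold h2
  rw [Finset.mul_sum]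
  refine Finset.sum_le_sum fun j hj => ?_
  by_cases h0 : m t j = 0
  · rw [h0]; simp
  · rw [mul_comm κ₀]
    exact mul_le_mul_of_nonneg_left (hb j hj h0) (hm j)

/-! ### share of the missing items -/

/-- full share of the missing items -/
def SgN (sg : ℕ → ℝ) (ν : TrG Λ κ → ℝ) : DT Λ κ → Prop
  | .br p w r t₁ t₀ v B G => w * ν t₀.g ≤ sg p * ν (DT.br p w r t₁ t₀ v B G).g
  | _ => True

/-- the share for the masses `me ≤ C μ` -/
lemma hsg_SgN {Q : DT Λ κ → Prop} {C : ℝ} (hC : 0 ≤ C) (hQ : ∀ t, Q t → SgN sg ν t)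
    (hle : ∀ {n : ℕ} {t : DT Λ κ} {A : Finset Λ}, Side wr Ad μ ν n t A → t.All Q →
      me t.g A ≤ C * μ t.g A)
    {n p : ℕ} {w : ℝ} {r : Λ → κ} {t₁ t₀ : DT Λ κ} {v : Λ → ℝ → ℝ} {B G : κ → ℝ → ℝ}
    {A : Finset Λ} (h : Side wr Ad μ ν n (.br p w r t₁ t₀ v B G) A)
    (hq : (DT.br p w r t₁ t₀ v B G).All Q) :
    w * me t₀.g A ≤ (C * sg p) * ν (DT.br p w r t₁ t₀ v B G).g := by
  obtain ⟨-, a0, hb, -, -⟩ := h.br
  have h1 := (hle a0 hq.2.2).trans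
    (mul_le_mul_of_nonneg_left (a0.wf.self.mass.base.le _ a0.ad) hC)
  have h2 := mul_le_mul_of_nonneg_left h1 hb.w0
  have h3 : w * ν t₀.g ≤ sg p * ν (DT.br p w r t₁ t₀ v B G).g := hQ _ hq.1
  have h4 := mul_le_mul_of_nonneg_left h3 hC
  linarith

/-- share condition of an item tree -/
def RwSg (D : Par Λ κ) (W : Λ → ℝ) (sg : ℕ → ℝ) : IT → Prop
  | .leaf _ => True
  | .br p t₁ t₀ => D.rw W t₀.items Finset.univ ≤ sg p * D.rw W (t₁.items ∪ t₀.items) Finset.univ ∧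
      RwSg D W sg t₁ ∧ RwSg D W sg t₀
  | .add _ t₁ t₀ => RwSg D W sg t₁ ∧ RwSg D W sg t₀
  | .up _ _ t => RwSg D W sg t

lemma RwSg_of_All {D : Par Λ κ} {W : Λ → ℝ} {P : Bld532.Par} {Wq : ℕ → ℝ} {S₀ : Finset ℕ}
    (hW : ∀ S ⊆ S₀, D.rw W S Finset.univ = Cnt588.Ws Wq S) {t : IT} :
    ∀ {s : Bld532.NS}, Bld532.All (Bld532.NodeOk P Wq) s t → t.items ⊆ S₀ →
      RwSg D W P.sg t := by
  induction t with
  | leaf S => intro s _ _; trivial
  | br p t₁ t₀ ih₁ ih₀ =>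
    intro s h hS
    have h1 : t₁.items ⊆ S₀ := Finset.subset_union_left.trans hS
    have h0 : t₀.items ⊆ S₀ := Finset.subset_union_right.trans hS
    refine ⟨?_, ih₁ h.2.1 h1, ih₀ h.2.2 h0⟩
    have hS' : t₁.items ∪ t₀.items ⊆ S₀ := hS
    rw [hW _ h0, hW _ hS']
    exact h.1.2.2.2.2.2.2.2.2.2
  | add p t₁ t₀ ih₁ ih₀ =>
    intro s h hS
    exact ⟨ih₁ h.2.1 (Finset.subset_union_left.trans hS),
      ih₀ h.2.2 (Finset.subset_union_right.trans hS)⟩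
  | up p Sp t ih => intro s h hS; exact ih h.2 hS

/-- **share condition of the decorated item tree** -/
theorem SgN_toDT {D : Par Λ κ} {sp : ℕ → Finset Λ} {W : Λ → ℝ} {dec : κ → Finset Λ → ℝ} {j₀ : Λ}
    {t : IT} : ∀ (b pr : ℕ), Fit b pr t → Cop pr t → D.DecOk W dec j₀ b pr t → RwSg D W sg t →
    (D.toDT sp b pr t).All (SgN sg fun t => muR dec j₀ t Finset.univ) := by
  induction t with
  | leaf S => intro b pr _ _ _ _; trivial
  | br p t₁ t₀ ih₁ ih₀ =>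
    intro b pr hF hC hD hR
    refine ⟨?_, ih₁ _ _ hF.2.2.2.1 hC.2.1 hD.1 hR.2.1, ih₀ _ _ hF.2.2.2.2 hC.2.2 hD.2 hR.2.2⟩
    have e0 := D.muR_toG (j₀ := j₀) Finset.univ t₀ (b * p) pr hF.2.2.2.2 hC.2.2 hD.2
    have e := D.muR_toG (j₀ := j₀) Finset.univ (.br p t₁ t₀) b pr hF hC hD
    have g0 := D.toDT_g sp t₀ (b * p) pr
    have g := D.toDT_g sp (.br p t₁ t₀) b pr
    show 1 / (p : ℝ) * muR dec j₀ (D.toDT sp (b * p) pr t₀).g Finset.univ ≤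
      sg p * muR dec j₀ (D.toDT sp b pr (.br p t₁ t₀)).g Finset.univ
    rw [g0, g, e0, e, ← mul_assoc, cf_missing hF.1]
    have := mul_le_mul_of_nonneg_left hR.1 (Item758.cf_nonneg b pr)
    calc Item758.cf b pr * D.rw W t₀.items Finset.univ
        ≤ Item758.cf b pr * (sg p * D.rw W (t₁.items ∪ t₀.items) Finset.univ) := this
      _ = sg p * (Item758.cf b pr * D.rw W (IT.br p t₁ t₀).items Finset.univ) := by
        show _ = sg p * (Item758.cf b pr * D.rw W (t₁.items ∪ t₀.items) Finset.univ)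
        ring
  | add p t₁ t₀ ih₁ ih₀ =>
    intro b pr hF hC hD hR
    exact ⟨trivial, ih₁ _ _ hF.2.1 hC.1 hD.1 hR.1, ih₀ _ _ hF.2.2 hC.2 hD.2 hR.2⟩
  | up p Sp t ih =>
    intro b pr hF hC hD hR
    exact ⟨trivial, ih _ _ hF hC hD hR⟩

/-! ### masses on `Ok` trees -/

open Classical in
/-- masses, zero on ill-formed trees -/
noncomputable def okm (μ : TrG Λ κ → Finset Λ → ℝ) (t : TrG Λ κ) (A : Finset Λ) : ℝ :=
  if t.Ok then μ t A else 0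

lemma okm_eq {μ : TrG Λ κ → Finset Λ → ℝ} {t : TrG Λ κ} (h : t.Ok) (A : Finset Λ) :
    okm μ t A = μ t A := if_pos h

lemma MX_okm {μ : TrG Λ κ → Finset Λ → ℝ} (h0 : ∀ t A, t.Ok → 0 ≤ μ t A)
    (h1 : ∀ t A A', t.Ok → Disjoint A A' → μ t A + μ t A' ≤ μ t (A ∪ A')) : MX (okm μ) := by
  refine ⟨fun t A => ?_, fun t A A' hd => ?_⟩
  · by_cases h : t.Ok
    · rw [okm_eq h]; exact h0 t A h
    · simp [okm, h]
  · by_cases h : t.Ok
    · rw [okm_eq h, okm_eq h, okm_eq h]; exact h1 t A A' h hd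
    · simp [okm, h]

/-- integral masses of the populations -/
noncomputable def meI : TrG Λ κ → Finset Λ → ℝ := okm fun t A => ms A t

lemma ms_eq (A : Finset Λ) (t : TrG Λ κ) : ms A t = ∑ j ∈ A, I (t.val j) := by
  unfold ms
  rw [← Finset.sum_subset (Finset.subset_univ A)]
  · refine Finset.sum_congr rfl fun j hj => ?_
    simp [rv, hj]
  · intro j _ hj
    simp [rv, hj, I]

lemma MX_meI : MX (meI : TrG Λ κ → Finset Λ → ℝ) :=
  MX_okm (fun t A h => ms_nonneg h A) fun t A A' h hd => (ms_union hd h).ge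

lemma meI_eq {t : DT Λ κ} (h : t.g.Ok) (A : Finset Λ) : meI t.g A = ∑ j ∈ A, mI t j := by
  unfold meI
  rw [okm_eq h, ms_eq]
  rfl

/-! ### everything together -/

/-- extra predicate of the nodes -/
def QN (sg : ℕ → ℝ) (ν : TrG Λ κ → ℝ) (dv : ℕ → Λ → Prop) (t : DT Λ κ) : Prop :=
  IM dv mI t ∧ SgN sg ν t

lemma FQ.sub {Q Q' : DT Λ κ → Prop} (h : ∀ t, Q' t → Q t) {β : ℕ → ℝ}
    {f : DT Λ κ → Finset Λ → ℝ} (hf : FQ wr Ad μ ν Q β me f) : FQ wr Ad μ ν Q' β me f :=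
  ⟨fun hs hq => hf.nn hs (hq.mono h), fun hs hq => hf.br hs (hq.mono h),
    fun hs hq => hf.add hs (hq.mono h), fun hs hq => hf.up hs (hq.mono h)⟩

/-- **(Z3) on item trees**: the unsplit walk started at `O = O' = ∅` costs at most
`κ₀ (2 ν me' + me ν')` -/
theorem V_item {c Dm E K κ₀ C : ℝ} (hN : OSN c Dm E K κ₀ p0) (hc : c ≤ 11/12) (hC : 0 ≤ C)
    (ha : ∀ p, 0 ≤ a p) (hs : ∀ p, 0 ≤ sg p)
    (hβ : ∀ p : ℕ, p0 ≤ p → a p * (C * sg p) ≤ K * Real.log p ^ E / p)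
    (hst : ∀ z : ZS Λ κ, ¬ stp z → ¬ stpZ z)
    (hle : ∀ {n : ℕ} {t : DT Λ κ} {A : Finset Λ}, Side wr Ad μ ν n t A →
      t.All (QN sg ν dv) → meI t.g A ≤ C * μ t.g A)
    {z : ZS Λ κ} (hz : ZI wr Ad μ ν A A' n z) (hj : OJ p0 z)
    (hqL : z.t.All (QN sg ν dv)) (hqR : z.t'.All (QN sg ν dv))
    (hR : ∀ j ∈ A', mI z.t' j ≠ 0 → Spr p0 Dm (mtD dv j z.t')) :
    V stp a meI z A A' ≤ κ₀ * (2 * (ν z.t.g * meI z.t'.g A') + meI z.t.g A * ν z.t'.g) := by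
  have hp8 := hN.ge
  have hp1 : 1 ≤ p0 := by omega
  have hs' : ∀ p, 0 ≤ C * sg p := fun p => mul_nonneg hC (hs p)
  have hb : ∀ p : ℕ, p0 ≤ p → 0 ≤ a p * (C * sg p) ∧
      a p * (C * sg p) ≤ (p : ℝ) ^ (-(11/12) : ℝ) := fun p hp =>
    ⟨mul_nonneg (ha p) (hs' p), (hβ p hp).trans (by have := (hN.beta p hp).2; linarith)⟩
  have hp00 : (0 : ℝ) < p0 := by exact_mod_cast (by omega : 0 < p0)
  have hsm := hN.sm
  have hpc : 0 ≤ (p0 : ℝ) ^ (-c) := by positivity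
  have hpq : 0 ≤ (p0 : ℝ) ^ (-(1/4) : ℝ) := by positivity
  have hκ : 4 * (p0 : ℝ) ^ (-(1/4) : ℝ) ≤ κ₀ := by linarith
  have hκ0 : 0 ≤ κ₀ := by linarith
  have hme : ∀ {n : ℕ} {t : DT Λ κ} {A : Finset Λ}, Side wr Ad μ ν n t A →
      t.All (IM dv mI) → meI t.g A = ∑ j ∈ A, mI t j := fun h _ => meI_eq h.ok _
  have hIM : ∀ t : DT Λ κ, QN sg ν dv t → IM dv mI t := fun t h => h.1
  have h1 := V_leQ (stp := stp) (a := a) (sg := fun p => C * sg p) (c := κ₀) (me := meI)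
    (Q := QN sg ν dv) (f := h2 (fun p => a p * (C * sg p)) dv mI) (J := OJ p0) ha hs' hκ0
    (FQ.sub hIM (FQ_m hme))
    (fun h hq => hsg_SgN (μ := μ) hC (fun t h => h.2) hle h hq)
    (FQ.sub hIM (FQ_h2 (fun p => mul_nonneg (ha p) (hs' p)) hme))
    (fun n z hz hj => hj.next hp1 hst hz)
    (fun n z hz hj h1 h2 => hj.gs_le hp1 hst hb hκ hz h1 h2) hz hj hqL hqR
  refine h1.trans ?_
  have hν : 0 ≤ ν z.t.g := hz.L.wf.self.mass.base.nu
  have hIR : z.t'.All (IM dv mI) := hqR.mono hIM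
  have h3 : h2 (fun p => a p * (C * sg p)) dv mI z.t' A' ≤ κ₀ * ∑ j ∈ A', mI z.t' j := by
    refine h2_le hIR.self.nn fun j hj h0 => ?_
    obtain ⟨k1, k2⟩ := hR j hj h0
    refine le_trans (Finset.sum_le_sum fun p hp => ?_) (hN.tail _ k1 k2)
    have hpp := k1 p hp
    have hp1' : (1 : ℝ) ≤ p := by exact_mod_cast (by omega : 1 ≤ p)
    exact ((hb p hpp.le).2).trans (Real.rpow_le_rpow_of_exponent_le hp1' (by linarith))
  rw [meI_eq hz.R.ok]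
  have h4 := mul_le_mul_of_nonneg_left h3 hν
  linarith

/-- the start of the pair walk -/
lemma OJ_start {z : ZS Λ κ} (hO : z.O = ∅) (hO' : z.O' = ∅) (hL : z.t.All (TopGe p0))
    (hR : z.t'.All (TopGe p0)) : OJ p0 z := by
  refine ⟨fun q hq => ?_, ?_, hL, hR⟩
  · rw [hO, hO'] at hq; simp at hq
  · rw [hO, hO', Finset.union_empty]; exact SO_empty

end main

/-- the product of the two numbers -/
lemma beta_num {K₁ K₂ E C : ℝ} {p : ℕ} (hp : 2 ≤ p) :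
    K₁ * Real.log p ^ 2 * (C * (K₂ * Real.log p ^ E / p)) =
      (K₁ * (C * K₂)) * Real.log p ^ (E + 2) / p := by
  have hl : 0 < Real.log (p : ℝ) := Real.log_pos (by exact_mod_cast hp)
  rw [Real.rpow_add hl, Real.rpow_two]; ring

end Crest.Agent.R4.ZNum812
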